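import Vale.Agent.Lib.P154.PChain.BK.R7_0

set_option linter.all false

namespace Vale.Agent.Lib.P154.PChain.BK.S8

open Vale.Agent.Lib.P154.Chain

noncomputable def pc0 : PT := (PT.nd (nat_lit 6606600) (PT.nd (nat_lit 6369324) (PT.nd (nat_lit 6191484) (PT.nd (nat_lit 6132048) (PT.nd (nat_lit 4708392) (PT.nd (nat_lit 4649112) PT.nil (PT.lf (nat_lit 76) (nat_lit 3) (nat_lit 1) (nat_lit 1) (nat_lit 246) (nat_lit 78) (nat_lit 246))) (PT.nd (nat_lit 78) (PT.lf (nat_lit 152) (nat_lit 6) (nat_lit 2) (nat_lit 3) (nat_lit 245) (nat_lit 79) (nat_lit 246)) (PT.lf (nat_lit 152) (nat_lit 6) (nat_lit 2) (nat_lit 1) (nat_lit 246) (nat_lit 79) (nat_lit 245)))) (PT.nd (nat_lit 59280) (PT.nd (nat_lit 78) (PT.lf (nat_lit 532) (nat_lit 6) (nat_lit 7) (nat_lit 3) (nat_lit 233) (nat_lit 103) (nat_lit 234)) (PT.lf (nat_lit 532) (nat_lit 6) (nat_lit 7) (nat_lit 1) (nat_lit 234) (nat_lit 103) (nat_lit 233))) (PT.nd (nat_lit 78)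 (PT.lf (nat_lit 608) (nat_lit 6) (nat_lit 8) (nat_lit 3) (nat_lit 232) (nat_lit 104) (nat_lit 234)) (PT.lf (nat_lit 684) (nat_lit 3) (nat_lit 9) (nat_lit 1) (nat_lit 233) (nat_lit 104) (nat_lit 233))))) (PT.nd (nat_lit 118482) (PT.nd (nat_lit 59202) (PT.lf (nat_lit 608) (nat_lit 6) (nat_lit 8) (nat_lit 1) (nat_lit 234) (nat_lit 104) (nat_lit 232)) (PT.nd (nat_lit 78) (PT.lf (nat_lit 836) (nat_lit 6) (nat_lit 11) (nat_lit 3) (nat_lit 232) (nat_lit 105) (nat_lit 233)) (PT.lf (nat_lit 836) (nat_lit 6) (nat_lit 11) (nat_lit 1) (nat_lit 233) (nat_lit 105) (nat_lit 232)))) (PT.nd (nat_lit 156) (PT.nd (nat_lit 78) (PT.lf (nat_lit 912) (nat_lit 6) (nat_lit 12) (nat_lit 3) (nat_lit 231) (nat_lit 106) (nat_lit 233)) (PT.lf (nat_lit 988) (nat_lit 3) (nat_lit 13) (nat_lit 1) (nat_lit 232) (nat_lit 106) (nat_lit 232))) (PT.nd (nat_lit 59124) (PT.lf (nat_lit 912) (nat_lit 6) (nat_lit 12) (nat_lit 1) (nat_lit 233) (nat_lit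 106) (nat_lit 231)) (PT.lf (nat_lit 1064) (nat_lit 6) (nat_lit 14) (nat_lit 3) (nat_lit 230) (nat_lit 107) (nat_lit 233)))))) (PT.nd (nat_lit 118638) (PT.nd (nat_lit 59280) (PT.nd (nat_lit 78) (PT.lf (nat_lit 1140) (nat_lit 6) (nat_lit 15) (nat_lit 3) (nat_lit 231) (nat_lit 107) (nat_lit 232)) (PT.nd (nat_lit 78) (PT.lf (nat_lit 1140) (nat_lit 6) (nat_lit 15) (nat_lit 1) (nat_lit 232) (nat_lit 107) (nat_lit 231)) (PT.lf (nat_lit 1064) (nat_lit 6) (nat_lit 14) (nat_lit 1) (nat_lit 233) (nat_lit 107) (nat_lit 230)))) (PT.nd (nat_lit 156) (PT.nd (nat_lit 78) (PT.lf (nat_lit 1216) (nat_lit 6) (nat_lit 16) (nat_lit 3) (nat_lit 230) (nat_lit 108) (nat_lit 232)) (PT.lf (nat_lit 1292) (nat_lit 3) (nat_lit 17) (nat_lit 1) (nat_lit 231) (nat_lit 108) (nat_lit 231))) (PT.nd (nat_lit 59124) (PT.lf (nat_lit 1216) (nat_lit 6) (nat_lit 16) (nat_lit 1) (nat_lit 232) (nat_lit 108) (nat_lit 230)) (PT.lf (nat_lit 1368) (nat_lit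 6) (nat_lit 18) (nat_lit 3) (nat_lit 229) (nat_lit 109) (nat_lit 232))))) (PT.nd (nat_lit 59280) (PT.nd (nat_lit 78) (PT.lf (nat_lit 1444) (nat_lit 6) (nat_lit 19) (nat_lit 3) (nat_lit 230) (nat_lit 109) (nat_lit 231)) (PT.nd (nat_lit 78) (PT.lf (nat_lit 1444) (nat_lit 6) (nat_lit 19) (nat_lit 1) (nat_lit 231) (nat_lit 109) (nat_lit 230)) (PT.lf (nat_lit 1368) (nat_lit 6) (nat_lit 18) (nat_lit 1) (nat_lit 232) (nat_lit 109) (nat_lit 229)))) (PT.nd (nat_lit 156) (PT.nd (nat_lit 78) (PT.lf (nat_lit 1596) (nat_lit 6) (nat_lit 21) (nat_lit 3) (nat_lit 229) (nat_lit 110) (nat_lit 231)) (PT.lf (nat_lit 1672) (nat_lit 3) (nat_lit 22) (nat_lit 1) (nat_lit 230) (nat_lit 110) (nat_lit 230))) (PT.nd (nat_lit 59124) (PT.lf (nat_lit 1596) (nat_lit 6) (nat_lit 21) (nat_lit 1) (nat_lit 231) (nat_lit 110) (nat_lit 229)) (PT.lf (nat_lit 1748) (nat_lit 6) (nat_lit 23) (nat_lit 3) (nat_lit 228) (nat_lit 111) (nat_lit 231)))))))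 (PT.nd (nat_lit 177996) (PT.nd (nat_lit 59514) (PT.nd (nat_lit 59202) (PT.nd (nat_lit 78) (PT.lf (nat_lit 1824) (nat_lit 6) (nat_lit 24) (nat_lit 3) (nat_lit 229) (nat_lit 111) (nat_lit 230)) (PT.nd (nat_lit 78) (PT.lf (nat_lit 1824) (nat_lit 6) (nat_lit 24) (nat_lit 1) (nat_lit 230) (nat_lit 111) (nat_lit 229)) (PT.lf (nat_lit 1748) (nat_lit 6) (nat_lit 23) (nat_lit 1) (nat_lit 231) (nat_lit 111) (nat_lit 228)))) (PT.nd (nat_lit 156) (PT.nd (nat_lit 78) (PT.lf (nat_lit 1900) (nat_lit 6) (nat_lit 25) (nat_lit 3) (nat_lit 227) (nat_lit 112) (nat_lit 231)) (PT.lf (nat_lit 1976) (nat_lit 6) (nat_lit 26) (nat_lit 3) (nat_lit 228) (nat_lit 112) (nat_lit 230))) (PT.nd (nat_lit 78) (PT.lf (nat_lit 2052) (nat_lit 3) (nat_lit 27) (nat_lit 1) (nat_lit 229) (nat_lit 112) (nat_lit 229)) (PT.lf (nat_lit 1976) (nat_lit 6) (nat_lit 26) (nat_lit 1) (nat_lit 230) (nat_lit 112) (nat_lit 228))))) (PT.nd (nat_lit 59202) (PT.nd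 (nat_lit 59046) (PT.lf (nat_lit 1900) (nat_lit 6) (nat_lit 25) (nat_lit 1) (nat_lit 231) (nat_lit 112) (nat_lit 227)) (PT.nd (nat_lit 78) (PT.lf (nat_lit 2128) (nat_lit 6) (nat_lit 28) (nat_lit 3) (nat_lit 227) (nat_lit 113) (nat_lit 230)) (PT.lf (nat_lit 2204) (nat_lit 6) (nat_lit 29) (nat_lit 3) (nat_lit 228) (nat_lit 113) (nat_lit 229)))) (PT.nd (nat_lit 59124) (PT.nd (nat_lit 78) (PT.lf (nat_lit 2204) (nat_lit 6) (nat_lit 29) (nat_lit 1) (nat_lit 229) (nat_lit 113) (nat_lit 228)) (PT.lf (nat_lit 2128) (nat_lit 6) (nat_lit 28) (nat_lit 1) (nat_lit 230) (nat_lit 113) (nat_lit 227))) (PT.nd (nat_lit 78) (PT.lf (nat_lit 2280) (nat_lit 6) (nat_lit 30) (nat_lit 3) (nat_lit 226) (nat_lit 114) (nat_lit 230)) (PT.lf (nat_lit 2356) (nat_lit 6) (nat_lit 31) (nat_lit 3) (nat_lit 227) (nat_lit 114) (nat_lit 229)))))) (PT.nd (nat_lit 118482) (PT.nd (nat_lit 59202) (PT.nd (nat_lit 78) (PT.lf (nat_lit 2432) (nat_lit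 3) (nat_lit 32) (nat_lit 1) (nat_lit 228) (nat_lit 114) (nat_lit 228)) (PT.nd (nat_lit 78) (PT.lf (nat_lit 2356) (nat_lit 6) (nat_lit 31) (nat_lit 1) (nat_lit 229) (nat_lit 114) (nat_lit 227)) (PT.lf (nat_lit 2280) (nat_lit 6) (nat_lit 30) (nat_lit 1) (nat_lit 230) (nat_lit 114) (nat_lit 226)))) (PT.nd (nat_lit 156) (PT.nd (nat_lit 78) (PT.lf (nat_lit 2584) (nat_lit 6) (nat_lit 34) (nat_lit 3) (nat_lit 226) (nat_lit 115) (nat_lit 229)) (PT.lf (nat_lit 2660) (nat_lit 6) (nat_lit 35) (nat_lit 3) (nat_lit 227) (nat_lit 115) (nat_lit 228))) (PT.nd (nat_lit 78) (PT.lf (nat_lit 2660) (nat_lit 6) (nat_lit 35) (nat_lit 1) (nat_lit 228) (nat_lit 115) (nat_lit 227)) (PT.lf (nat_lit 2584) (nat_lit 6) (nat_lit 34) (nat_lit 1) (nat_lit 229) (nat_lit 115) (nat_lit 226))))) (PT.nd (nat_lit 312) (PT.nd (nat_lit 156) (PT.nd (nat_lit 78) (PT.lf (nat_lit 2736) (nat_lit 6) (nat_lit 36) (nat_lit 3) (nat_lit 225) (nat_lit 116)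 (nat_lit 229)) (PT.lf (nat_lit 2812) (nat_lit 6) (nat_lit 37) (nat_lit 3) (nat_lit 226) (nat_lit 116) (nat_lit 228))) (PT.nd (nat_lit 78) (PT.lf (nat_lit 2888) (nat_lit 3) (nat_lit 38) (nat_lit 1) (nat_lit 227) (nat_lit 116) (nat_lit 227)) (PT.lf (nat_lit 2812) (nat_lit 6) (nat_lit 37) (nat_lit 1) (nat_lit 228) (nat_lit 116) (nat_lit 226)))) (PT.nd (nat_lit 59124) (PT.nd (nat_lit 59046) (PT.lf (nat_lit 2736) (nat_lit 6) (nat_lit 36) (nat_lit 1) (nat_lit 229) (nat_lit 116) (nat_lit 225)) (PT.lf (nat_lit 3040) (nat_lit 6) (nat_lit 40) (nat_lit 3) (nat_lit 225) (nat_lit 117) (nat_lit 228))) (PT.nd (nat_lit 78) (PT.lf (nat_lit 3116) (nat_lit 6) (nat_lit 41) (nat_lit 3) (nat_lit 226) (nat_lit 117) (nat_lit 227)) (PT.lf (nat_lit 3116) (nat_lit 6) (nat_lit 41) (nat_lit 1) (nat_lit 227) (nat_lit 117) (nat_lit 226))))))))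
noncomputable def pc1 : PT := (PT.nd (nat_lit 296712) (PT.nd (nat_lit 177840) (PT.nd (nat_lit 118404) (PT.nd (nat_lit 59202) (PT.nd (nat_lit 59046) (PT.lf (nat_lit 3040) (nat_lit 6) (nat_lit 40) (nat_lit 1) (nat_lit 228) (nat_lit 117) (nat_lit 225)) (PT.nd (nat_lit 78) (PT.lf (nat_lit 3192) (nat_lit 6) (nat_lit 42) (nat_lit 3) (nat_lit 224) (nat_lit 118) (nat_lit 228)) (PT.lf (nat_lit 3268) (nat_lit 6) (nat_lit 43) (nat_lit 3) (nat_lit 225) (nat_lit 118) (nat_lit 227)))) (PT.nd (nat_lit 156) (PT.nd (nat_lit 78) (PT.lf (nat_lit 3344) (nat_lit 3) (nat_lit 44) (nat_lit 1) (nat_lit 226) (nat_lit 118) (nat_lit 226)) (PT.lf (nat_lit 3268) (nat_lit 6) (nat_lit 43) (nat_lit 1) (nat_lit 227) (nat_lit 118) (nat_lit 225))) (PT.nd (nat_lit 58968) (PT.lf (nat_lit 3192) (nat_lit 6) (nat_lit 42) (nat_lit 1) (nat_lit 228) (nat_lit 118) (nat_lit 224)) (PT.lf (nat_lit 3420) (nat_lit 6) (nat_lit 45) (nat_lit 3) (nat_lit 223)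 (nat_lit 119) (nat_lit 228))))) (PT.nd (nat_lit 234) (PT.nd (nat_lit 78) (PT.lf (nat_lit 3496) (nat_lit 6) (nat_lit 46) (nat_lit 3) (nat_lit 224) (nat_lit 119) (nat_lit 227)) (PT.nd (nat_lit 78) (PT.lf (nat_lit 3572) (nat_lit 6) (nat_lit 47) (nat_lit 3) (nat_lit 225) (nat_lit 119) (nat_lit 226)) (PT.lf (nat_lit 3572) (nat_lit 6) (nat_lit 47) (nat_lit 1) (nat_lit 226) (nat_lit 119) (nat_lit 225)))) (PT.nd (nat_lit 59046) (PT.nd (nat_lit 78) (PT.lf (nat_lit 3496) (nat_lit 6) (nat_lit 46) (nat_lit 1) (nat_lit 227) (nat_lit 119) (nat_lit 224)) (PT.lf (nat_lit 3420) (nat_lit 6) (nat_lit 45) (nat_lit 1) (nat_lit 228) (nat_lit 119) (nat_lit 223))) (PT.nd (nat_lit 78) (PT.lf (nat_lit 3648) (nat_lit 6) (nat_lit 48) (nat_lit 3) (nat_lit 223) (nat_lit 120) (nat_lit 227)) (PT.lf (nat_lit 3724) (nat_lit 6) (nat_lit 49) (nat_lit 3) (nat_lit 224) (nat_lit 120) (nat_lit 226)))))) (PT.nd (nat_lit 59436) (PT.nd (nat_lit 59124)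 (PT.nd (nat_lit 78) (PT.lf (nat_lit 3800) (nat_lit 3) (nat_lit 50) (nat_lit 1) (nat_lit 225) (nat_lit 120) (nat_lit 225)) (PT.nd (nat_lit 78) (PT.lf (nat_lit 3724) (nat_lit 6) (nat_lit 49) (nat_lit 1) (nat_lit 226) (nat_lit 120) (nat_lit 224)) (PT.lf (nat_lit 3648) (nat_lit 6) (nat_lit 48) (nat_lit 1) (nat_lit 227) (nat_lit 120) (nat_lit 223)))) (PT.nd (nat_lit 156) (PT.nd (nat_lit 78) (PT.lf (nat_lit 3876) (nat_lit 6) (nat_lit 51) (nat_lit 3) (nat_lit 222) (nat_lit 121) (nat_lit 227)) (PT.lf (nat_lit 3952) (nat_lit 6) (nat_lit 52) (nat_lit 3) (nat_lit 223) (nat_lit 121) (nat_lit 226))) (PT.nd (nat_lit 78) (PT.lf (nat_lit 4028) (nat_lit 6) (nat_lit 53) (nat_lit 3) (nat_lit 224) (nat_lit 121) (nat_lit 225)) (PT.lf (nat_lit 4028) (nat_lit 6) (nat_lit 53) (nat_lit 1) (nat_lit 225) (nat_lit 121) (nat_lit 224))))) (PT.nd (nat_lit 59124) (PT.nd (nat_lit 58968) (PT.nd (nat_lit 78) (PT.lf (nat_lit 3952) (nat_lit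 6) (nat_lit 52) (nat_lit 1) (nat_lit 226) (nat_lit 121) (nat_lit 223)) (PT.lf (nat_lit 3876) (nat_lit 6) (nat_lit 51) (nat_lit 1) (nat_lit 227) (nat_lit 121) (nat_lit 222))) (PT.nd (nat_lit 78) (PT.lf (nat_lit 4104) (nat_lit 6) (nat_lit 54) (nat_lit 3) (nat_lit 221) (nat_lit 122) (nat_lit 227)) (PT.lf (nat_lit 4180) (nat_lit 6) (nat_lit 55) (nat_lit 3) (nat_lit 222) (nat_lit 122) (nat_lit 226)))) (PT.nd (nat_lit 156) (PT.nd (nat_lit 78) (PT.lf (nat_lit 4256) (nat_lit 6) (nat_lit 56) (nat_lit 3) (nat_lit 223) (nat_lit 122) (nat_lit 225)) (PT.lf (nat_lit 4332) (nat_lit 3) (nat_lit 57) (nat_lit 1) (nat_lit 224) (nat_lit 122) (nat_lit 224))) (PT.nd (nat_lit 78) (PT.lf (nat_lit 4256) (nat_lit 6) (nat_lit 56) (nat_lit 1) (nat_lit 225) (nat_lit 122) (nat_lit 223)) (PT.lf (nat_lit 4180) (nat_lit 6) (nat_lit 55) (nat_lit 1) (nat_lit 226) (nat_lit 122) (nat_lit 222))))))) (PT.nd (nat_lit 177528) (PT.nd (nat_lit 118170)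 (PT.nd (nat_lit 59046) (PT.nd (nat_lit 58890) (PT.lf (nat_lit 4104) (nat_lit 6) (nat_lit 54) (nat_lit 1) (nat_lit 227) (nat_lit 122) (nat_lit 221)) (PT.nd (nat_lit 78) (PT.lf (nat_lit 4408) (nat_lit 6) (nat_lit 58) (nat_lit 3) (nat_lit 221) (nat_lit 123) (nat_lit 226)) (PT.lf (nat_lit 4484) (nat_lit 6) (nat_lit 59) (nat_lit 3) (nat_lit 222) (nat_lit 123) (nat_lit 225)))) (PT.nd (nat_lit 156) (PT.nd (nat_lit 78) (PT.lf (nat_lit 4560) (nat_lit 6) (nat_lit 60) (nat_lit 3) (nat_lit 223) (nat_lit 123) (nat_lit 224)) (PT.lf (nat_lit 4560) (nat_lit 6) (nat_lit 60) (nat_lit 1) (nat_lit 224) (nat_lit 123) (nat_lit 223))) (PT.nd (nat_lit 78) (PT.lf (nat_lit 4484) (nat_lit 6) (nat_lit 59) (nat_lit 1) (nat_lit 225) (nat_lit 123) (nat_lit 222)) (PT.lf (nat_lit 4408) (nat_lit 6) (nat_lit 58) (nat_lit 1) (nat_lit 226) (nat_lit 123) (nat_lit 221))))) (PT.nd (nat_lit 234) (PT.nd (nat_lit 78) (PT.lf (nat_lit 4636) (nat_lit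 6) (nat_lit 61) (nat_lit 3) (nat_lit 220) (nat_lit 124) (nat_lit 226)) (PT.nd (nat_lit 78) (PT.lf (nat_lit 4712) (nat_lit 6) (nat_lit 62) (nat_lit 3) (nat_lit 221) (nat_lit 124) (nat_lit 225)) (PT.lf (nat_lit 4788) (nat_lit 6) (nat_lit 63) (nat_lit 3) (nat_lit 222) (nat_lit 124) (nat_lit 224)))) (PT.nd (nat_lit 156) (PT.nd (nat_lit 78) (PT.lf (nat_lit 4864) (nat_lit 3) (nat_lit 64) (nat_lit 1) (nat_lit 223) (nat_lit 124) (nat_lit 223)) (PT.lf (nat_lit 4788) (nat_lit 6) (nat_lit 63) (nat_lit 1) (nat_lit 224) (nat_lit 124) (nat_lit 222))) (PT.nd (nat_lit 78) (PT.lf (nat_lit 4712) (nat_lit 6) (nat_lit 62) (nat_lit 1) (nat_lit 225) (nat_lit 124) (nat_lit 221)) (PT.lf (nat_lit 4636) (nat_lit 6) (nat_lit 61) (nat_lit 1) (nat_lit 226) (nat_lit 124) (nat_lit 220)))))) (PT.nd (nat_lit 59358) (PT.nd (nat_lit 234) (PT.nd (nat_lit 78) (PT.lf (nat_lit 4940) (nat_lit 6) (nat_lit 65) (nat_lit 3) (nat_lit 220) (nat_lit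 125) (nat_lit 225)) (PT.nd (nat_lit 78) (PT.lf (nat_lit 5016) (nat_lit 6) (nat_lit 66) (nat_lit 3) (nat_lit 221) (nat_lit 125) (nat_lit 224)) (PT.lf (nat_lit 5092) (nat_lit 6) (nat_lit 67) (nat_lit 3) (nat_lit 222) (nat_lit 125) (nat_lit 223)))) (PT.nd (nat_lit 156) (PT.nd (nat_lit 78) (PT.lf (nat_lit 5092) (nat_lit 6) (nat_lit 67) (nat_lit 1) (nat_lit 223) (nat_lit 125) (nat_lit 222)) (PT.lf (nat_lit 5016) (nat_lit 6) (nat_lit 66) (nat_lit 1) (nat_lit 224) (nat_lit 125) (nat_lit 221))) (PT.nd (nat_lit 58890) (PT.lf (nat_lit 4940) (nat_lit 6) (nat_lit 65) (nat_lit 1) (nat_lit 225) (nat_lit 125) (nat_lit 220)) (PT.lf (nat_lit 5168) (nat_lit 6) (nat_lit 68) (nat_lit 3) (nat_lit 219) (nat_lit 126) (nat_lit 225))))) (PT.nd (nat_lit 312) (PT.nd (nat_lit 156) (PT.nd (nat_lit 78) (PT.lf (nat_lit 5244) (nat_lit 6) (nat_lit 69) (nat_lit 3) (nat_lit 220) (nat_lit 126) (nat_lit 224)) (PT.lf (nat_lit 5320) (nat_lit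 6) (nat_lit 70) (nat_lit 3) (nat_lit 221) (nat_lit 126) (nat_lit 223))) (PT.nd (nat_lit 78) (PT.lf (nat_lit 5396) (nat_lit 3) (nat_lit 71) (nat_lit 1) (nat_lit 222) (nat_lit 126) (nat_lit 222)) (PT.lf (nat_lit 5320) (nat_lit 6) (nat_lit 70) (nat_lit 1) (nat_lit 223) (nat_lit 126) (nat_lit 221)))) (PT.nd (nat_lit 58890) (PT.nd (nat_lit 78) (PT.lf (nat_lit 5244) (nat_lit 6) (nat_lit 69) (nat_lit 1) (nat_lit 224) (nat_lit 126) (nat_lit 220)) (PT.lf (nat_lit 5168) (nat_lit 6) (nat_lit 68) (nat_lit 1) (nat_lit 225) (nat_lit 126) (nat_lit 219))) (PT.nd (nat_lit 78) (PT.lf (nat_lit 5472) (nat_lit 6) (nat_lit 72) (nat_lit 3) (nat_lit 218) (nat_lit 127) (nat_lit 225)) (PT.lf (nat_lit 5548) (nat_lit 6) (nat_lit 73) (nat_lit 3) (nat_lit 219) (nat_lit 127) (nat_lit 224))))))))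
noncomputable def pc2 : PT := (PT.nd (nat_lit 237120) (PT.nd (nat_lit 118560) (PT.nd (nat_lit 59280) (PT.nd (nat_lit 234) (PT.nd (nat_lit 78) (PT.lf (nat_lit 5624) (nat_lit 6) (nat_lit 74) (nat_lit 3) (nat_lit 220) (nat_lit 127) (nat_lit 223)) (PT.nd (nat_lit 78) (PT.lf (nat_lit 5700) (nat_lit 6) (nat_lit 75) (nat_lit 3) (nat_lit 221) (nat_lit 127) (nat_lit 222)) (PT.lf (nat_lit 5700) (nat_lit 6) (nat_lit 75) (nat_lit 1) (nat_lit 222) (nat_lit 127) (nat_lit 221)))) (PT.nd (nat_lit 156) (PT.nd (nat_lit 78) (PT.lf (nat_lit 5624) (nat_lit 6) (nat_lit 74) (nat_lit 1) (nat_lit 223) (nat_lit 127) (nat_lit 220)) (PT.lf (nat_lit 5548) (nat_lit 6) (nat_lit 73) (nat_lit 1) (nat_lit 224) (nat_lit 127) (nat_lit 219))) (PT.nd (nat_lit 58812) (PT.lf (nat_lit 5472) (nat_lit 6) (nat_lit 72) (nat_lit 1) (nat_lit 225) (nat_lit 127) (nat_lit 218)) (PT.lf (nat_lit 5776) (nat_lit 6) (nat_lit 76) (nat_lit 3) (nat_lit 218) (nat_lit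 128) (nat_lit 224))))) (PT.nd (nat_lit 234) (PT.nd (nat_lit 78) (PT.lf (nat_lit 5852) (nat_lit 6) (nat_lit 77) (nat_lit 3) (nat_lit 219) (nat_lit 128) (nat_lit 223)) (PT.nd (nat_lit 78) (PT.lf (nat_lit 5928) (nat_lit 6) (nat_lit 78) (nat_lit 3) (nat_lit 220) (nat_lit 128) (nat_lit 222)) (PT.lf (nat_lit 6004) (nat_lit 3) (nat_lit 79) (nat_lit 1) (nat_lit 221) (nat_lit 128) (nat_lit 221)))) (PT.nd (nat_lit 156) (PT.nd (nat_lit 78) (PT.lf (nat_lit 5928) (nat_lit 6) (nat_lit 78) (nat_lit 1) (nat_lit 222) (nat_lit 128) (nat_lit 220)) (PT.lf (nat_lit 5852) (nat_lit 6) (nat_lit 77) (nat_lit 1) (nat_lit 223) (nat_lit 128) (nat_lit 219))) (PT.nd (nat_lit 58812) (PT.lf (nat_lit 5776) (nat_lit 6) (nat_lit 76) (nat_lit 1) (nat_lit 224) (nat_lit 128) (nat_lit 218)) (PT.lf (nat_lit 6080) (nat_lit 6) (nat_lit 80) (nat_lit 3) (nat_lit 217) (nat_lit 129) (nat_lit 224)))))) (PT.nd (nat_lit 59280) (PT.nd (nat_lit 234) (PT.nd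 (nat_lit 78) (PT.lf (nat_lit 6156) (nat_lit 6) (nat_lit 81) (nat_lit 3) (nat_lit 218) (nat_lit 129) (nat_lit 223)) (PT.nd (nat_lit 78) (PT.lf (nat_lit 6232) (nat_lit 6) (nat_lit 82) (nat_lit 3) (nat_lit 219) (nat_lit 129) (nat_lit 222)) (PT.lf (nat_lit 6308) (nat_lit 6) (nat_lit 83) (nat_lit 3) (nat_lit 220) (nat_lit 129) (nat_lit 221)))) (PT.nd (nat_lit 156) (PT.nd (nat_lit 78) (PT.lf (nat_lit 6308) (nat_lit 6) (nat_lit 83) (nat_lit 1) (nat_lit 221) (nat_lit 129) (nat_lit 220)) (PT.lf (nat_lit 6232) (nat_lit 6) (nat_lit 82) (nat_lit 1) (nat_lit 222) (nat_lit 129) (nat_lit 219))) (PT.nd (nat_lit 78) (PT.lf (nat_lit 6156) (nat_lit 6) (nat_lit 81) (nat_lit 1) (nat_lit 223) (nat_lit 129) (nat_lit 218)) (PT.lf (nat_lit 6080) (nat_lit 6) (nat_lit 80) (nat_lit 1) (nat_lit 224) (nat_lit 129) (nat_lit 217))))) (PT.nd (nat_lit 234) (PT.nd (nat_lit 78) (PT.lf (nat_lit 6384) (nat_lit 6) (nat_lit 84) (nat_lit 3) (nat_lit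 217) (nat_lit 130) (nat_lit 223)) (PT.nd (nat_lit 78) (PT.lf (nat_lit 6460) (nat_lit 6) (nat_lit 85) (nat_lit 3) (nat_lit 218) (nat_lit 130) (nat_lit 222)) (PT.lf (nat_lit 6536) (nat_lit 6) (nat_lit 86) (nat_lit 3) (nat_lit 219) (nat_lit 130) (nat_lit 221)))) (PT.nd (nat_lit 156) (PT.nd (nat_lit 78) (PT.lf (nat_lit 6612) (nat_lit 3) (nat_lit 87) (nat_lit 1) (nat_lit 220) (nat_lit 130) (nat_lit 220)) (PT.lf (nat_lit 6536) (nat_lit 6) (nat_lit 86) (nat_lit 1) (nat_lit 221) (nat_lit 130) (nat_lit 219))) (PT.nd (nat_lit 78) (PT.lf (nat_lit 6460) (nat_lit 6) (nat_lit 85) (nat_lit 1) (nat_lit 222) (nat_lit 130) (nat_lit 218)) (PT.lf (nat_lit 6384) (nat_lit 6) (nat_lit 84) (nat_lit 1) (nat_lit 223) (nat_lit 130) (nat_lit 217))))))) (PT.nd (nat_lit 59748) (PT.nd (nat_lit 546) (PT.nd (nat_lit 234) (PT.nd (nat_lit 78) (PT.lf (nat_lit 6688) (nat_lit 6) (nat_lit 88) (nat_lit 3) (nat_lit 216) (nat_lit 131) (nat_lit 223))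 (PT.nd (nat_lit 78) (PT.lf (nat_lit 6764) (nat_lit 6) (nat_lit 89) (nat_lit 3) (nat_lit 217) (nat_lit 131) (nat_lit 222)) (PT.lf (nat_lit 6840) (nat_lit 6) (nat_lit 90) (nat_lit 3) (nat_lit 218) (nat_lit 131) (nat_lit 221)))) (PT.nd (nat_lit 156) (PT.nd (nat_lit 78) (PT.lf (nat_lit 6916) (nat_lit 6) (nat_lit 91) (nat_lit 3) (nat_lit 219) (nat_lit 131) (nat_lit 220)) (PT.lf (nat_lit 6916) (nat_lit 6) (nat_lit 91) (nat_lit 1) (nat_lit 220) (nat_lit 131) (nat_lit 219))) (PT.nd (nat_lit 78) (PT.lf (nat_lit 6840) (nat_lit 6) (nat_lit 90) (nat_lit 1) (nat_lit 221) (nat_lit 131) (nat_lit 218)) (PT.lf (nat_lit 6764) (nat_lit 6) (nat_lit 89) (nat_lit 1) (nat_lit 222) (nat_lit 131) (nat_lit 217))))) (PT.nd (nat_lit 58890) (PT.nd (nat_lit 58734) (PT.lf (nat_lit 6688) (nat_lit 6) (nat_lit 88) (nat_lit 1) (nat_lit 223) (nat_lit 131) (nat_lit 216)) (PT.nd (nat_lit 78) (PT.lf (nat_lit 6992) (nat_lit 6) (nat_lit 92) (nat_lit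 3) (nat_lit 215) (nat_lit 132) (nat_lit 223)) (PT.lf (nat_lit 7068) (nat_lit 6) (nat_lit 93) (nat_lit 3) (nat_lit 216) (nat_lit 132) (nat_lit 222)))) (PT.nd (nat_lit 156) (PT.nd (nat_lit 78) (PT.lf (nat_lit 7144) (nat_lit 6) (nat_lit 94) (nat_lit 3) (nat_lit 217) (nat_lit 132) (nat_lit 221)) (PT.lf (nat_lit 7220) (nat_lit 6) (nat_lit 95) (nat_lit 3) (nat_lit 218) (nat_lit 132) (nat_lit 220))) (PT.nd (nat_lit 78) (PT.lf (nat_lit 7296) (nat_lit 3) (nat_lit 96) (nat_lit 1) (nat_lit 219) (nat_lit 132) (nat_lit 219)) (PT.lf (nat_lit 7220) (nat_lit 6) (nat_lit 95) (nat_lit 1) (nat_lit 220) (nat_lit 132) (nat_lit 218)))))) (PT.nd (nat_lit 59202) (PT.nd (nat_lit 58890) (PT.nd (nat_lit 78) (PT.lf (nat_lit 7144) (nat_lit 6) (nat_lit 94) (nat_lit 1) (nat_lit 221) (nat_lit 132) (nat_lit 217)) (PT.nd (nat_lit 78) (PT.lf (nat_lit 7068) (nat_lit 6) (nat_lit 93) (nat_lit 1) (nat_lit 222) (nat_lit 132) (nat_lit 216)) (PT.lf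 (nat_lit 6992) (nat_lit 6) (nat_lit 92) (nat_lit 1) (nat_lit 223) (nat_lit 132) (nat_lit 215)))) (PT.nd (nat_lit 156) (PT.nd (nat_lit 78) (PT.lf (nat_lit 7372) (nat_lit 6) (nat_lit 97) (nat_lit 3) (nat_lit 215) (nat_lit 133) (nat_lit 222)) (PT.lf (nat_lit 7448) (nat_lit 6) (nat_lit 98) (nat_lit 3) (nat_lit 216) (nat_lit 133) (nat_lit 221))) (PT.nd (nat_lit 78) (PT.lf (nat_lit 7524) (nat_lit 6) (nat_lit 99) (nat_lit 3) (nat_lit 217) (nat_lit 133) (nat_lit 220)) (PT.lf (nat_lit 7600) (nat_lit 6) (nat_lit 100) (nat_lit 3) (nat_lit 218) (nat_lit 133) (nat_lit 219))))) (PT.nd (nat_lit 58968) (PT.nd (nat_lit 156) (PT.nd (nat_lit 78) (PT.lf (nat_lit 7600) (nat_lit 6) (nat_lit 100) (nat_lit 1) (nat_lit 219) (nat_lit 133) (nat_lit 218)) (PT.lf (nat_lit 7524) (nat_lit 6) (nat_lit 99) (nat_lit 1) (nat_lit 220) (nat_lit 133) (nat_lit 217))) (PT.nd (nat_lit 78) (PT.lf (nat_lit 7448) (nat_lit 6) (nat_lit 98) (nat_lit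 1) (nat_lit 221) (nat_lit 133) (nat_lit 216)) (PT.lf (nat_lit 7372) (nat_lit 6) (nat_lit 97) (nat_lit 1) (nat_lit 222) (nat_lit 133) (nat_lit 215)))) (PT.nd (nat_lit 156) (PT.nd (nat_lit 78) (PT.lf (nat_lit 7676) (nat_lit 6) (nat_lit 101) (nat_lit 3) (nat_lit 214) (nat_lit 134) (nat_lit 222)) (PT.lf (nat_lit 7752) (nat_lit 6) (nat_lit 102) (nat_lit 3) (nat_lit 215) (nat_lit 134) (nat_lit 221))) (PT.nd (nat_lit 78) (PT.lf (nat_lit 7828) (nat_lit 6) (nat_lit 103) (nat_lit 3) (nat_lit 216) (nat_lit 134) (nat_lit 220)) (PT.lf (nat_lit 7904) (nat_lit 6) (nat_lit 104) (nat_lit 3) (nat_lit 217) (nat_lit 134) (nat_lit 219))))))))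
noncomputable def pc3 : PT := (PT.nd (nat_lit 177996) (PT.nd (nat_lit 59670) (PT.nd (nat_lit 59124) (PT.nd (nat_lit 234) (PT.nd (nat_lit 78) (PT.lf (nat_lit 7980) (nat_lit 3) (nat_lit 105) (nat_lit 1) (nat_lit 218) (nat_lit 134) (nat_lit 218)) (PT.nd (nat_lit 78) (PT.lf (nat_lit 7904) (nat_lit 6) (nat_lit 104) (nat_lit 1) (nat_lit 219) (nat_lit 134) (nat_lit 217)) (PT.lf (nat_lit 7828) (nat_lit 6) (nat_lit 103) (nat_lit 1) (nat_lit 220) (nat_lit 134) (nat_lit 216)))) (PT.nd (nat_lit 58734) (PT.nd (nat_lit 78) (PT.lf (nat_lit 7752) (nat_lit 6) (nat_lit 102) (nat_lit 1) (nat_lit 221) (nat_lit 134) (nat_lit 215)) (PT.lf (nat_lit 7676) (nat_lit 6) (nat_lit 101) (nat_lit 1) (nat_lit 222) (nat_lit 134) (nat_lit 214))) (PT.nd (nat_lit 78) (PT.lf (nat_lit 8056) (nat_lit 6) (nat_lit 106) (nat_lit 3) (nat_lit 213) (nat_lit 135) (nat_lit 222)) (PT.lf (nat_lit 8132) (nat_lit 6) (nat_lit 107) (nat_lit 3) (nat_lit 214)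 (nat_lit 135) (nat_lit 221))))) (PT.nd (nat_lit 234) (PT.nd (nat_lit 78) (PT.lf (nat_lit 8208) (nat_lit 6) (nat_lit 108) (nat_lit 3) (nat_lit 215) (nat_lit 135) (nat_lit 220)) (PT.nd (nat_lit 78) (PT.lf (nat_lit 8284) (nat_lit 6) (nat_lit 109) (nat_lit 3) (nat_lit 216) (nat_lit 135) (nat_lit 219)) (PT.lf (nat_lit 8360) (nat_lit 6) (nat_lit 110) (nat_lit 3) (nat_lit 217) (nat_lit 135) (nat_lit 218)))) (PT.nd (nat_lit 156) (PT.nd (nat_lit 78) (PT.lf (nat_lit 8360) (nat_lit 6) (nat_lit 110) (nat_lit 1) (nat_lit 218) (nat_lit 135) (nat_lit 217)) (PT.lf (nat_lit 8284) (nat_lit 6) (nat_lit 109) (nat_lit 1) (nat_lit 219) (nat_lit 135) (nat_lit 216))) (PT.nd (nat_lit 78) (PT.lf (nat_lit 8208) (nat_lit 6) (nat_lit 108) (nat_lit 1) (nat_lit 220) (nat_lit 135) (nat_lit 215)) (PT.lf (nat_lit 8132) (nat_lit 6) (nat_lit 107) (nat_lit 1) (nat_lit 221) (nat_lit 135) (nat_lit 214)))))) (PT.nd (nat_lit 59124) (PT.nd (nat_lit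 58812) (PT.nd (nat_lit 58656) (PT.lf (nat_lit 8056) (nat_lit 6) (nat_lit 106) (nat_lit 1) (nat_lit 222) (nat_lit 135) (nat_lit 213)) (PT.nd (nat_lit 78) (PT.lf (nat_lit 8436) (nat_lit 6) (nat_lit 111) (nat_lit 3) (nat_lit 213) (nat_lit 136) (nat_lit 221)) (PT.lf (nat_lit 8512) (nat_lit 6) (nat_lit 112) (nat_lit 3) (nat_lit 214) (nat_lit 136) (nat_lit 220)))) (PT.nd (nat_lit 156) (PT.nd (nat_lit 78) (PT.lf (nat_lit 8588) (nat_lit 6) (nat_lit 113) (nat_lit 3) (nat_lit 215) (nat_lit 136) (nat_lit 219)) (PT.lf (nat_lit 8664) (nat_lit 6) (nat_lit 114) (nat_lit 3) (nat_lit 216) (nat_lit 136) (nat_lit 218))) (PT.nd (nat_lit 78) (PT.lf (nat_lit 8740) (nat_lit 3) (nat_lit 115) (nat_lit 1) (nat_lit 217) (nat_lit 136) (nat_lit 217)) (PT.lf (nat_lit 8664) (nat_lit 6) (nat_lit 114) (nat_lit 1) (nat_lit 218) (nat_lit 136) (nat_lit 216))))) (PT.nd (nat_lit 58890) (PT.nd (nat_lit 156) (PT.nd (nat_lit 78) (PT.lf (nat_lit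 8588) (nat_lit 6) (nat_lit 113) (nat_lit 1) (nat_lit 219) (nat_lit 136) (nat_lit 215)) (PT.lf (nat_lit 8512) (nat_lit 6) (nat_lit 112) (nat_lit 1) (nat_lit 220) (nat_lit 136) (nat_lit 214))) (PT.nd (nat_lit 58656) (PT.lf (nat_lit 8436) (nat_lit 6) (nat_lit 111) (nat_lit 1) (nat_lit 221) (nat_lit 136) (nat_lit 213)) (PT.lf (nat_lit 8816) (nat_lit 6) (nat_lit 116) (nat_lit 3) (nat_lit 212) (nat_lit 137) (nat_lit 221)))) (PT.nd (nat_lit 156) (PT.nd (nat_lit 78) (PT.lf (nat_lit 8892) (nat_lit 6) (nat_lit 117) (nat_lit 3) (nat_lit 213) (nat_lit 137) (nat_lit 220)) (PT.lf (nat_lit 8968) (nat_lit 6) (nat_lit 118) (nat_lit 3) (nat_lit 214) (nat_lit 137) (nat_lit 219))) (PT.nd (nat_lit 78) (PT.lf (nat_lit 9044) (nat_lit 6) (nat_lit 119) (nat_lit 3) (nat_lit 215) (nat_lit 137) (nat_lit 218)) (PT.lf (nat_lit 9120) (nat_lit 6) (nat_lit 120) (nat_lit 3) (nat_lit 216) (nat_lit 137) (nat_lit 217))))))) (PT.nd (nat_lit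 59592) (PT.nd (nat_lit 59046) (PT.nd (nat_lit 234) (PT.nd (nat_lit 78) (PT.lf (nat_lit 9120) (nat_lit 6) (nat_lit 120) (nat_lit 1) (nat_lit 217) (nat_lit 137) (nat_lit 216)) (PT.nd (nat_lit 78) (PT.lf (nat_lit 9044) (nat_lit 6) (nat_lit 119) (nat_lit 1) (nat_lit 218) (nat_lit 137) (nat_lit 215)) (PT.lf (nat_lit 8968) (nat_lit 6) (nat_lit 118) (nat_lit 1) (nat_lit 219) (nat_lit 137) (nat_lit 214)))) (PT.nd (nat_lit 58656) (PT.nd (nat_lit 78) (PT.lf (nat_lit 8892) (nat_lit 6) (nat_lit 117) (nat_lit 1) (nat_lit 220) (nat_lit 137) (nat_lit 213)) (PT.lf (nat_lit 8816) (nat_lit 6) (nat_lit 116) (nat_lit 1) (nat_lit 221) (nat_lit 137) (nat_lit 212))) (PT.nd (nat_lit 78) (PT.lf (nat_lit 9196) (nat_lit 6) (nat_lit 121) (nat_lit 3) (nat_lit 211) (nat_lit 138) (nat_lit 221)) (PT.lf (nat_lit 9272) (nat_lit 6) (nat_lit 122) (nat_lit 3) (nat_lit 212) (nat_lit 138) (nat_lit 220))))) (PT.nd (nat_lit 234) (PT.nd (nat_lit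 78) (PT.lf (nat_lit 9348) (nat_lit 6) (nat_lit 123) (nat_lit 3) (nat_lit 213) (nat_lit 138) (nat_lit 219)) (PT.nd (nat_lit 78) (PT.lf (nat_lit 9424) (nat_lit 6) (nat_lit 124) (nat_lit 3) (nat_lit 214) (nat_lit 138) (nat_lit 218)) (PT.lf (nat_lit 9500) (nat_lit 6) (nat_lit 125) (nat_lit 3) (nat_lit 215) (nat_lit 138) (nat_lit 217)))) (PT.nd (nat_lit 156) (PT.nd (nat_lit 78) (PT.lf (nat_lit 9576) (nat_lit 3) (nat_lit 126) (nat_lit 1) (nat_lit 216) (nat_lit 138) (nat_lit 216)) (PT.lf (nat_lit 9500) (nat_lit 6) (nat_lit 125) (nat_lit 1) (nat_lit 217) (nat_lit 138) (nat_lit 215))) (PT.nd (nat_lit 78) (PT.lf (nat_lit 9424) (nat_lit 6) (nat_lit 124) (nat_lit 1) (nat_lit 218) (nat_lit 138) (nat_lit 214)) (PT.lf (nat_lit 9348) (nat_lit 6) (nat_lit 123) (nat_lit 1) (nat_lit 219) (nat_lit 138) (nat_lit 213)))))) (PT.nd (nat_lit 59046) (PT.nd (nat_lit 58734) (PT.nd (nat_lit 78) (PT.lf (nat_lit 9272) (nat_lit 6) (nat_lit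 122) (nat_lit 1) (nat_lit 220) (nat_lit 138) (nat_lit 212)) (PT.nd (nat_lit 58578) (PT.lf (nat_lit 9196) (nat_lit 6) (nat_lit 121) (nat_lit 1) (nat_lit 221) (nat_lit 138) (nat_lit 211)) (PT.lf (nat_lit 9652) (nat_lit 6) (nat_lit 127) (nat_lit 3) (nat_lit 211) (nat_lit 139) (nat_lit 220)))) (PT.nd (nat_lit 156) (PT.nd (nat_lit 78) (PT.lf (nat_lit 9728) (nat_lit 6) (nat_lit 128) (nat_lit 3) (nat_lit 212) (nat_lit 139) (nat_lit 219)) (PT.lf (nat_lit 9804) (nat_lit 6) (nat_lit 129) (nat_lit 3) (nat_lit 213) (nat_lit 139) (nat_lit 218))) (PT.nd (nat_lit 78) (PT.lf (nat_lit 9880) (nat_lit 6) (nat_lit 130) (nat_lit 3) (nat_lit 214) (nat_lit 139) (nat_lit 217)) (PT.lf (nat_lit 9956) (nat_lit 6) (nat_lit 131) (nat_lit 3) (nat_lit 215) (nat_lit 139) (nat_lit 216))))) (PT.nd (nat_lit 312) (PT.nd (nat_lit 156) (PT.nd (nat_lit 78) (PT.lf (nat_lit 9956) (nat_lit 6) (nat_lit 131) (nat_lit 1) (nat_lit 216) (nat_lit 139)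 (nat_lit 215)) (PT.lf (nat_lit 9880) (nat_lit 6) (nat_lit 130) (nat_lit 1) (nat_lit 217) (nat_lit 139) (nat_lit 214))) (PT.nd (nat_lit 78) (PT.lf (nat_lit 9804) (nat_lit 6) (nat_lit 129) (nat_lit 1) (nat_lit 218) (nat_lit 139) (nat_lit 213)) (PT.lf (nat_lit 9728) (nat_lit 6) (nat_lit 128) (nat_lit 1) (nat_lit 219) (nat_lit 139) (nat_lit 212)))) (PT.nd (nat_lit 58656) (PT.nd (nat_lit 58578) (PT.lf (nat_lit 9652) (nat_lit 6) (nat_lit 127) (nat_lit 1) (nat_lit 220) (nat_lit 139) (nat_lit 211)) (PT.lf (nat_lit 10032) (nat_lit 6) (nat_lit 132) (nat_lit 3) (nat_lit 210) (nat_lit 140) (nat_lit 220))) (PT.nd (nat_lit 78) (PT.lf (nat_lit 10108) (nat_lit 6) (nat_lit 133) (nat_lit 3) (nat_lit 211) (nat_lit 140) (nat_lit 219)) (PT.lf (nat_lit 10184) (nat_lit 6) (nat_lit 134) (nat_lit 3) (nat_lit 212) (nat_lit 140) (nat_lit 218))))))))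
noncomputable def pc4 : PT := (PT.nd (nat_lit 119028) (PT.nd (nat_lit 59514) (PT.nd (nat_lit 546) (PT.nd (nat_lit 234) (PT.nd (nat_lit 78) (PT.lf (nat_lit 10260) (nat_lit 6) (nat_lit 135) (nat_lit 3) (nat_lit 213) (nat_lit 140) (nat_lit 217)) (PT.nd (nat_lit 78) (PT.lf (nat_lit 10336) (nat_lit 6) (nat_lit 136) (nat_lit 3) (nat_lit 214) (nat_lit 140) (nat_lit 216)) (PT.lf (nat_lit 10412) (nat_lit 3) (nat_lit 137) (nat_lit 1) (nat_lit 215) (nat_lit 140) (nat_lit 215)))) (PT.nd (nat_lit 156) (PT.nd (nat_lit 78) (PT.lf (nat_lit 10336) (nat_lit 6) (nat_lit 136) (nat_lit 1) (nat_lit 216) (nat_lit 140) (nat_lit 214)) (PT.lf (nat_lit 10260) (nat_lit 6) (nat_lit 135) (nat_lit 1) (nat_lit 217) (nat_lit 140) (nat_lit 213))) (PT.nd (nat_lit 78) (PT.lf (nat_lit 10184) (nat_lit 6) (nat_lit 134) (nat_lit 1) (nat_lit 218) (nat_lit 140) (nat_lit 212)) (PT.lf (nat_lit 10108) (nat_lit 6) (nat_lit 133) (nat_lit 1) (nat_lit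 219) (nat_lit 140) (nat_lit 211))))) (PT.nd (nat_lit 58656) (PT.nd (nat_lit 58500) (PT.lf (nat_lit 10032) (nat_lit 6) (nat_lit 132) (nat_lit 1) (nat_lit 220) (nat_lit 140) (nat_lit 210)) (PT.nd (nat_lit 78) (PT.lf (nat_lit 10488) (nat_lit 6) (nat_lit 138) (nat_lit 3) (nat_lit 209) (nat_lit 141) (nat_lit 220)) (PT.lf (nat_lit 10564) (nat_lit 6) (nat_lit 139) (nat_lit 3) (nat_lit 210) (nat_lit 141) (nat_lit 219)))) (PT.nd (nat_lit 156) (PT.nd (nat_lit 78) (PT.lf (nat_lit 10640) (nat_lit 6) (nat_lit 140) (nat_lit 3) (nat_lit 211) (nat_lit 141) (nat_lit 218)) (PT.lf (nat_lit 10716) (nat_lit 6) (nat_lit 141) (nat_lit 3) (nat_lit 212) (nat_lit 141) (nat_lit 217))) (PT.nd (nat_lit 78) (PT.lf (nat_lit 10792) (nat_lit 6) (nat_lit 142) (nat_lit 3) (nat_lit 213) (nat_lit 141) (nat_lit 216)) (PT.lf (nat_lit 10868) (nat_lit 6) (nat_lit 143) (nat_lit 3) (nat_lit 214) (nat_lit 141) (nat_lit 215)))))) (PT.nd (nat_lit 58968)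 (PT.nd (nat_lit 234) (PT.nd (nat_lit 78) (PT.lf (nat_lit 10868) (nat_lit 6) (nat_lit 143) (nat_lit 1) (nat_lit 215) (nat_lit 141) (nat_lit 214)) (PT.nd (nat_lit 78) (PT.lf (nat_lit 10792) (nat_lit 6) (nat_lit 142) (nat_lit 1) (nat_lit 216) (nat_lit 141) (nat_lit 213)) (PT.lf (nat_lit 10716) (nat_lit 6) (nat_lit 141) (nat_lit 1) (nat_lit 217) (nat_lit 141) (nat_lit 212)))) (PT.nd (nat_lit 156) (PT.nd (nat_lit 78) (PT.lf (nat_lit 10640) (nat_lit 6) (nat_lit 140) (nat_lit 1) (nat_lit 218) (nat_lit 141) (nat_lit 211)) (PT.lf (nat_lit 10564) (nat_lit 6) (nat_lit 139) (nat_lit 1) (nat_lit 219) (nat_lit 141) (nat_lit 210))) (PT.nd (nat_lit 58500) (PT.lf (nat_lit 10488) (nat_lit 6) (nat_lit 138) (nat_lit 1) (nat_lit 220) (nat_lit 141) (nat_lit 209)) (PT.lf (nat_lit 10944) (nat_lit 6) (nat_lit 144) (nat_lit 3) (nat_lit 209) (nat_lit 142) (nat_lit 219))))) (PT.nd (nat_lit 234) (PT.nd (nat_lit 78) (PT.lf (nat_lit 11020)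 (nat_lit 6) (nat_lit 145) (nat_lit 3) (nat_lit 210) (nat_lit 142) (nat_lit 218)) (PT.nd (nat_lit 78) (PT.lf (nat_lit 11096) (nat_lit 6) (nat_lit 146) (nat_lit 3) (nat_lit 211) (nat_lit 142) (nat_lit 217)) (PT.lf (nat_lit 11172) (nat_lit 6) (nat_lit 147) (nat_lit 3) (nat_lit 212) (nat_lit 142) (nat_lit 216)))) (PT.nd (nat_lit 156) (PT.nd (nat_lit 78) (PT.lf (nat_lit 11248) (nat_lit 6) (nat_lit 148) (nat_lit 3) (nat_lit 213) (nat_lit 142) (nat_lit 215)) (PT.lf (nat_lit 11324) (nat_lit 3) (nat_lit 149) (nat_lit 1) (nat_lit 214) (nat_lit 142) (nat_lit 214))) (PT.nd (nat_lit 78) (PT.lf (nat_lit 11248) (nat_lit 6) (nat_lit 148) (nat_lit 1) (nat_lit 215) (nat_lit 142) (nat_lit 213)) (PT.lf (nat_lit 11172) (nat_lit 6) (nat_lit 147) (nat_lit 1) (nat_lit 216) (nat_lit 142) (nat_lit 212))))))) (PT.nd (nat_lit 59514) (PT.nd (nat_lit 58968) (PT.nd (nat_lit 58656) (PT.nd (nat_lit 78) (PT.lf (nat_lit 11096) (nat_lit 6)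 (nat_lit 146) (nat_lit 1) (nat_lit 217) (nat_lit 142) (nat_lit 211)) (PT.nd (nat_lit 78) (PT.lf (nat_lit 11020) (nat_lit 6) (nat_lit 145) (nat_lit 1) (nat_lit 218) (nat_lit 142) (nat_lit 210)) (PT.lf (nat_lit 10944) (nat_lit 6) (nat_lit 144) (nat_lit 1) (nat_lit 219) (nat_lit 142) (nat_lit 209)))) (PT.nd (nat_lit 156) (PT.nd (nat_lit 78) (PT.lf (nat_lit 11400) (nat_lit 6) (nat_lit 150) (nat_lit 3) (nat_lit 208) (nat_lit 143) (nat_lit 219)) (PT.lf (nat_lit 11476) (nat_lit 6) (nat_lit 151) (nat_lit 3) (nat_lit 209) (nat_lit 143) (nat_lit 218))) (PT.nd (nat_lit 78) (PT.lf (nat_lit 11552) (nat_lit 6) (nat_lit 152) (nat_lit 3) (nat_lit 210) (nat_lit 143) (nat_lit 217)) (PT.lf (nat_lit 11628) (nat_lit 6) (nat_lit 153) (nat_lit 3) (nat_lit 211) (nat_lit 143) (nat_lit 216))))) (PT.nd (nat_lit 234) (PT.nd (nat_lit 78) (PT.lf (nat_lit 11704) (nat_lit 6) (nat_lit 154) (nat_lit 3) (nat_lit 212) (nat_lit 143) (nat_lit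 215)) (PT.nd (nat_lit 78) (PT.lf (nat_lit 11780) (nat_lit 6) (nat_lit 155) (nat_lit 3) (nat_lit 213) (nat_lit 143) (nat_lit 214)) (PT.lf (nat_lit 11780) (nat_lit 6) (nat_lit 155) (nat_lit 1) (nat_lit 214) (nat_lit 143) (nat_lit 213)))) (PT.nd (nat_lit 156) (PT.nd (nat_lit 78) (PT.lf (nat_lit 11704) (nat_lit 6) (nat_lit 154) (nat_lit 1) (nat_lit 215) (nat_lit 143) (nat_lit 212)) (PT.lf (nat_lit 11628) (nat_lit 6) (nat_lit 153) (nat_lit 1) (nat_lit 216) (nat_lit 143) (nat_lit 211))) (PT.nd (nat_lit 78) (PT.lf (nat_lit 11552) (nat_lit 6) (nat_lit 152) (nat_lit 1) (nat_lit 217) (nat_lit 143) (nat_lit 210)) (PT.lf (nat_lit 11476) (nat_lit 6) (nat_lit 151) (nat_lit 1) (nat_lit 218) (nat_lit 143) (nat_lit 209)))))) (PT.nd (nat_lit 58890) (PT.nd (nat_lit 58578) (PT.nd (nat_lit 58422) (PT.lf (nat_lit 11400) (nat_lit 6) (nat_lit 150) (nat_lit 1) (nat_lit 219) (nat_lit 143) (nat_lit 208)) (PT.nd (nat_lit 78) (PT.lf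 (nat_lit 11856) (nat_lit 6) (nat_lit 156) (nat_lit 3) (nat_lit 207) (nat_lit 144) (nat_lit 219)) (PT.lf (nat_lit 11932) (nat_lit 6) (nat_lit 157) (nat_lit 3) (nat_lit 208) (nat_lit 144) (nat_lit 218)))) (PT.nd (nat_lit 156) (PT.nd (nat_lit 78) (PT.lf (nat_lit 12008) (nat_lit 6) (nat_lit 158) (nat_lit 3) (nat_lit 209) (nat_lit 144) (nat_lit 217)) (PT.lf (nat_lit 12084) (nat_lit 6) (nat_lit 159) (nat_lit 3) (nat_lit 210) (nat_lit 144) (nat_lit 216))) (PT.nd (nat_lit 78) (PT.lf (nat_lit 12160) (nat_lit 6) (nat_lit 160) (nat_lit 3) (nat_lit 211) (nat_lit 144) (nat_lit 215)) (PT.lf (nat_lit 12236) (nat_lit 6) (nat_lit 161) (nat_lit 3) (nat_lit 212) (nat_lit 144) (nat_lit 214))))) (PT.nd (nat_lit 312) (PT.nd (nat_lit 156) (PT.nd (nat_lit 78) (PT.lf (nat_lit 12312) (nat_lit 3) (nat_lit 162) (nat_lit 1) (nat_lit 213) (nat_lit 144) (nat_lit 213)) (PT.lf (nat_lit 12236) (nat_lit 6) (nat_lit 161) (nat_lit 1) (nat_lit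 214) (nat_lit 144) (nat_lit 212))) (PT.nd (nat_lit 78) (PT.lf (nat_lit 12160) (nat_lit 6) (nat_lit 160) (nat_lit 1) (nat_lit 215) (nat_lit 144) (nat_lit 211)) (PT.lf (nat_lit 12084) (nat_lit 6) (nat_lit 159) (nat_lit 1) (nat_lit 216) (nat_lit 144) (nat_lit 210)))) (PT.nd (nat_lit 156) (PT.nd (nat_lit 78) (PT.lf (nat_lit 12008) (nat_lit 6) (nat_lit 158) (nat_lit 1) (nat_lit 217) (nat_lit 144) (nat_lit 209)) (PT.lf (nat_lit 11932) (nat_lit 6) (nat_lit 157) (nat_lit 1) (nat_lit 218) (nat_lit 144) (nat_lit 208))) (PT.nd (nat_lit 58422) (PT.lf (nat_lit 11856) (nat_lit 6) (nat_lit 156) (nat_lit 1) (nat_lit 219) (nat_lit 144) (nat_lit 207)) (PT.lf (nat_lit 12388) (nat_lit 6) (nat_lit 163) (nat_lit 3) (nat_lit 207) (nat_lit 145) (nat_lit 218))))))))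
noncomputable def pc5 : PT := (PT.nd (nat_lit 118872) (PT.nd (nat_lit 59436) (PT.nd (nat_lit 546) (PT.nd (nat_lit 234) (PT.nd (nat_lit 78) (PT.lf (nat_lit 12464) (nat_lit 6) (nat_lit 164) (nat_lit 3) (nat_lit 208) (nat_lit 145) (nat_lit 217)) (PT.nd (nat_lit 78) (PT.lf (nat_lit 12540) (nat_lit 6) (nat_lit 165) (nat_lit 3) (nat_lit 209) (nat_lit 145) (nat_lit 216)) (PT.lf (nat_lit 12616) (nat_lit 6) (nat_lit 166) (nat_lit 3) (nat_lit 210) (nat_lit 145) (nat_lit 215)))) (PT.nd (nat_lit 156) (PT.nd (nat_lit 78) (PT.lf (nat_lit 12692) (nat_lit 6) (nat_lit 167) (nat_lit 3) (nat_lit 211) (nat_lit 145) (nat_lit 214)) (PT.lf (nat_lit 12768) (nat_lit 6) (nat_lit 168) (nat_lit 3) (nat_lit 212) (nat_lit 145) (nat_lit 213))) (PT.nd (nat_lit 78) (PT.lf (nat_lit 12768) (nat_lit 6) (nat_lit 168) (nat_lit 1) (nat_lit 213) (nat_lit 145) (nat_lit 212)) (PT.lf (nat_lit 12692) (nat_lit 6) (nat_lit 167) (nat_lit 1) (nat_lit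 214) (nat_lit 145) (nat_lit 211))))) (PT.nd (nat_lit 234) (PT.nd (nat_lit 78) (PT.lf (nat_lit 12616) (nat_lit 6) (nat_lit 166) (nat_lit 1) (nat_lit 215) (nat_lit 145) (nat_lit 210)) (PT.nd (nat_lit 78) (PT.lf (nat_lit 12540) (nat_lit 6) (nat_lit 165) (nat_lit 1) (nat_lit 216) (nat_lit 145) (nat_lit 209)) (PT.lf (nat_lit 12464) (nat_lit 6) (nat_lit 164) (nat_lit 1) (nat_lit 217) (nat_lit 145) (nat_lit 208)))) (PT.nd (nat_lit 58500) (PT.nd (nat_lit 58422) (PT.lf (nat_lit 12388) (nat_lit 6) (nat_lit 163) (nat_lit 1) (nat_lit 218) (nat_lit 145) (nat_lit 207)) (PT.lf (nat_lit 12844) (nat_lit 6) (nat_lit 169) (nat_lit 3) (nat_lit 206) (nat_lit 146) (nat_lit 218))) (PT.nd (nat_lit 78) (PT.lf (nat_lit 12920) (nat_lit 6) (nat_lit 170) (nat_lit 3) (nat_lit 207) (nat_lit 146) (nat_lit 217)) (PT.lf (nat_lit 12996) (nat_lit 6) (nat_lit 171) (nat_lit 3) (nat_lit 208) (nat_lit 146) (nat_lit 216)))))) (PT.nd (nat_lit 546)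 (PT.nd (nat_lit 234) (PT.nd (nat_lit 78) (PT.lf (nat_lit 13072) (nat_lit 6) (nat_lit 172) (nat_lit 3) (nat_lit 209) (nat_lit 146) (nat_lit 215)) (PT.nd (nat_lit 78) (PT.lf (nat_lit 13148) (nat_lit 6) (nat_lit 173) (nat_lit 3) (nat_lit 210) (nat_lit 146) (nat_lit 214)) (PT.lf (nat_lit 13224) (nat_lit 6) (nat_lit 174) (nat_lit 3) (nat_lit 211) (nat_lit 146) (nat_lit 213)))) (PT.nd (nat_lit 156) (PT.nd (nat_lit 78) (PT.lf (nat_lit 13300) (nat_lit 3) (nat_lit 175) (nat_lit 1) (nat_lit 212) (nat_lit 146) (nat_lit 212)) (PT.lf (nat_lit 13224) (nat_lit 6) (nat_lit 174) (nat_lit 1) (nat_lit 213) (nat_lit 146) (nat_lit 211))) (PT.nd (nat_lit 78) (PT.lf (nat_lit 13148) (nat_lit 6) (nat_lit 173) (nat_lit 1) (nat_lit 214) (nat_lit 146) (nat_lit 210)) (PT.lf (nat_lit 13072) (nat_lit 6) (nat_lit 172) (nat_lit 1) (nat_lit 215) (nat_lit 146) (nat_lit 209))))) (PT.nd (nat_lit 58578) (PT.nd (nat_lit 156) (PT.nd (nat_lit 78)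 (PT.lf (nat_lit 12996) (nat_lit 6) (nat_lit 171) (nat_lit 1) (nat_lit 216) (nat_lit 146) (nat_lit 208)) (PT.lf (nat_lit 12920) (nat_lit 6) (nat_lit 170) (nat_lit 1) (nat_lit 217) (nat_lit 146) (nat_lit 207))) (PT.nd (nat_lit 58344) (PT.lf (nat_lit 12844) (nat_lit 6) (nat_lit 169) (nat_lit 1) (nat_lit 218) (nat_lit 146) (nat_lit 206)) (PT.lf (nat_lit 13376) (nat_lit 6) (nat_lit 176) (nat_lit 3) (nat_lit 205) (nat_lit 147) (nat_lit 218)))) (PT.nd (nat_lit 156) (PT.nd (nat_lit 78) (PT.lf (nat_lit 13452) (nat_lit 6) (nat_lit 177) (nat_lit 3) (nat_lit 206) (nat_lit 147) (nat_lit 217)) (PT.lf (nat_lit 13528) (nat_lit 6) (nat_lit 178) (nat_lit 3) (nat_lit 207) (nat_lit 147) (nat_lit 216))) (PT.nd (nat_lit 78) (PT.lf (nat_lit 13604) (nat_lit 6) (nat_lit 179) (nat_lit 3) (nat_lit 208) (nat_lit 147) (nat_lit 215)) (PT.lf (nat_lit 13680) (nat_lit 6) (nat_lit 180) (nat_lit 3) (nat_lit 209) (nat_lit 147) (nat_lit 214)))))))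 (PT.nd (nat_lit 59358) (PT.nd (nat_lit 546) (PT.nd (nat_lit 234) (PT.nd (nat_lit 78) (PT.lf (nat_lit 13756) (nat_lit 6) (nat_lit 181) (nat_lit 3) (nat_lit 210) (nat_lit 147) (nat_lit 213)) (PT.nd (nat_lit 78) (PT.lf (nat_lit 13832) (nat_lit 6) (nat_lit 182) (nat_lit 3) (nat_lit 211) (nat_lit 147) (nat_lit 212)) (PT.lf (nat_lit 13832) (nat_lit 6) (nat_lit 182) (nat_lit 1) (nat_lit 212) (nat_lit 147) (nat_lit 211)))) (PT.nd (nat_lit 156) (PT.nd (nat_lit 78) (PT.lf (nat_lit 13756) (nat_lit 6) (nat_lit 181) (nat_lit 1) (nat_lit 213) (nat_lit 147) (nat_lit 210)) (PT.lf (nat_lit 13680) (nat_lit 6) (nat_lit 180) (nat_lit 1) (nat_lit 214) (nat_lit 147) (nat_lit 209))) (PT.nd (nat_lit 78) (PT.lf (nat_lit 13604) (nat_lit 6) (nat_lit 179) (nat_lit 1) (nat_lit 215) (nat_lit 147) (nat_lit 208)) (PT.lf (nat_lit 13528) (nat_lit 6) (nat_lit 178) (nat_lit 1) (nat_lit 216) (nat_lit 147) (nat_lit 207))))) (PT.nd (nat_lit 58500)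 (PT.nd (nat_lit 78) (PT.lf (nat_lit 13452) (nat_lit 6) (nat_lit 177) (nat_lit 1) (nat_lit 217) (nat_lit 147) (nat_lit 206)) (PT.nd (nat_lit 58344) (PT.lf (nat_lit 13376) (nat_lit 6) (nat_lit 176) (nat_lit 1) (nat_lit 218) (nat_lit 147) (nat_lit 205)) (PT.lf (nat_lit 13984) (nat_lit 6) (nat_lit 184) (nat_lit 3) (nat_lit 205) (nat_lit 148) (nat_lit 217)))) (PT.nd (nat_lit 156) (PT.nd (nat_lit 78) (PT.lf (nat_lit 14060) (nat_lit 6) (nat_lit 185) (nat_lit 3) (nat_lit 206) (nat_lit 148) (nat_lit 216)) (PT.lf (nat_lit 14136) (nat_lit 6) (nat_lit 186) (nat_lit 3) (nat_lit 207) (nat_lit 148) (nat_lit 215))) (PT.nd (nat_lit 78) (PT.lf (nat_lit 14212) (nat_lit 6) (nat_lit 187) (nat_lit 3) (nat_lit 208) (nat_lit 148) (nat_lit 214)) (PT.lf (nat_lit 14288) (nat_lit 6) (nat_lit 188) (nat_lit 3) (nat_lit 209) (nat_lit 148) (nat_lit 213)))))) (PT.nd (nat_lit 546) (PT.nd (nat_lit 234) (PT.nd (nat_lit 78) (PT.lf (nat_lit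 14364) (nat_lit 6) (nat_lit 189) (nat_lit 3) (nat_lit 210) (nat_lit 148) (nat_lit 212)) (PT.nd (nat_lit 78) (PT.lf (nat_lit 14440) (nat_lit 3) (nat_lit 190) (nat_lit 1) (nat_lit 211) (nat_lit 148) (nat_lit 211)) (PT.lf (nat_lit 14364) (nat_lit 6) (nat_lit 189) (nat_lit 1) (nat_lit 212) (nat_lit 148) (nat_lit 210)))) (PT.nd (nat_lit 156) (PT.nd (nat_lit 78) (PT.lf (nat_lit 14288) (nat_lit 6) (nat_lit 188) (nat_lit 1) (nat_lit 213) (nat_lit 148) (nat_lit 209)) (PT.lf (nat_lit 14212) (nat_lit 6) (nat_lit 187) (nat_lit 1) (nat_lit 214) (nat_lit 148) (nat_lit 208))) (PT.nd (nat_lit 78) (PT.lf (nat_lit 14136) (nat_lit 6) (nat_lit 186) (nat_lit 1) (nat_lit 215) (nat_lit 148) (nat_lit 207)) (PT.lf (nat_lit 14060) (nat_lit 6) (nat_lit 185) (nat_lit 1) (nat_lit 216) (nat_lit 148) (nat_lit 206))))) (PT.nd (nat_lit 58578) (PT.nd (nat_lit 58422) (PT.nd (nat_lit 58344) (PT.lf (nat_lit 13984) (nat_lit 6) (nat_lit 184)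 (nat_lit 1) (nat_lit 217) (nat_lit 148) (nat_lit 205)) (PT.lf (nat_lit 14516) (nat_lit 6) (nat_lit 191) (nat_lit 3) (nat_lit 204) (nat_lit 149) (nat_lit 217))) (PT.nd (nat_lit 78) (PT.lf (nat_lit 14592) (nat_lit 6) (nat_lit 192) (nat_lit 3) (nat_lit 205) (nat_lit 149) (nat_lit 216)) (PT.lf (nat_lit 14668) (nat_lit 6) (nat_lit 193) (nat_lit 3) (nat_lit 206) (nat_lit 149) (nat_lit 215)))) (PT.nd (nat_lit 156) (PT.nd (nat_lit 78) (PT.lf (nat_lit 14744) (nat_lit 6) (nat_lit 194) (nat_lit 3) (nat_lit 207) (nat_lit 149) (nat_lit 214)) (PT.lf (nat_lit 14820) (nat_lit 6) (nat_lit 195) (nat_lit 3) (nat_lit 208) (nat_lit 149) (nat_lit 213))) (PT.nd (nat_lit 78) (PT.lf (nat_lit 14896) (nat_lit 6) (nat_lit 196) (nat_lit 3) (nat_lit 209) (nat_lit 149) (nat_lit 212)) (PT.lf (nat_lit 14972) (nat_lit 6) (nat_lit 197) (nat_lit 3) (nat_lit 210) (nat_lit 149) (nat_lit 211))))))))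
noncomputable def pc6 : PT := (PT.nd (nat_lit 118560) (PT.nd (nat_lit 59280) (PT.nd (nat_lit 58734) (PT.nd (nat_lit 234) (PT.nd (nat_lit 78) (PT.lf (nat_lit 14972) (nat_lit 6) (nat_lit 197) (nat_lit 1) (nat_lit 211) (nat_lit 149) (nat_lit 210)) (PT.nd (nat_lit 78) (PT.lf (nat_lit 14896) (nat_lit 6) (nat_lit 196) (nat_lit 1) (nat_lit 212) (nat_lit 149) (nat_lit 209)) (PT.lf (nat_lit 14820) (nat_lit 6) (nat_lit 195) (nat_lit 1) (nat_lit 213) (nat_lit 149) (nat_lit 208)))) (PT.nd (nat_lit 156) (PT.nd (nat_lit 78) (PT.lf (nat_lit 14744) (nat_lit 6) (nat_lit 194) (nat_lit 1) (nat_lit 214) (nat_lit 149) (nat_lit 207)) (PT.lf (nat_lit 14668) (nat_lit 6) (nat_lit 193) (nat_lit 1) (nat_lit 215) (nat_lit 149) (nat_lit 206))) (PT.nd (nat_lit 78) (PT.lf (nat_lit 14592) (nat_lit 6) (nat_lit 192) (nat_lit 1) (nat_lit 216) (nat_lit 149) (nat_lit 205)) (PT.lf (nat_lit 14516) (nat_lit 6) (nat_lit 191) (nat_lit 1) (nat_lit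 217) (nat_lit 149) (nat_lit 204))))) (PT.nd (nat_lit 234) (PT.nd (nat_lit 78) (PT.lf (nat_lit 15048) (nat_lit 6) (nat_lit 198) (nat_lit 3) (nat_lit 203) (nat_lit 150) (nat_lit 217)) (PT.nd (nat_lit 78) (PT.lf (nat_lit 15124) (nat_lit 6) (nat_lit 199) (nat_lit 3) (nat_lit 204) (nat_lit 150) (nat_lit 216)) (PT.lf (nat_lit 15200) (nat_lit 6) (nat_lit 200) (nat_lit 3) (nat_lit 205) (nat_lit 150) (nat_lit 215)))) (PT.nd (nat_lit 156) (PT.nd (nat_lit 78) (PT.lf (nat_lit 15276) (nat_lit 6) (nat_lit 201) (nat_lit 3) (nat_lit 206) (nat_lit 150) (nat_lit 214)) (PT.lf (nat_lit 15352) (nat_lit 6) (nat_lit 202) (nat_lit 3) (nat_lit 207) (nat_lit 150) (nat_lit 213))) (PT.nd (nat_lit 78) (PT.lf (nat_lit 15428) (nat_lit 6) (nat_lit 203) (nat_lit 3) (nat_lit 208) (nat_lit 150) (nat_lit 212)) (PT.lf (nat_lit 15504) (nat_lit 6) (nat_lit 204) (nat_lit 3) (nat_lit 209) (nat_lit 150) (nat_lit 211)))))) (PT.nd (nat_lit 546) (PT.nd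 (nat_lit 234) (PT.nd (nat_lit 78) (PT.lf (nat_lit 15580) (nat_lit 3) (nat_lit 205) (nat_lit 1) (nat_lit 210) (nat_lit 150) (nat_lit 210)) (PT.nd (nat_lit 78) (PT.lf (nat_lit 15504) (nat_lit 6) (nat_lit 204) (nat_lit 1) (nat_lit 211) (nat_lit 150) (nat_lit 209)) (PT.lf (nat_lit 15428) (nat_lit 6) (nat_lit 203) (nat_lit 1) (nat_lit 212) (nat_lit 150) (nat_lit 208)))) (PT.nd (nat_lit 156) (PT.nd (nat_lit 78) (PT.lf (nat_lit 15352) (nat_lit 6) (nat_lit 202) (nat_lit 1) (nat_lit 213) (nat_lit 150) (nat_lit 207)) (PT.lf (nat_lit 15276) (nat_lit 6) (nat_lit 201) (nat_lit 1) (nat_lit 214) (nat_lit 150) (nat_lit 206))) (PT.nd (nat_lit 78) (PT.lf (nat_lit 15200) (nat_lit 6) (nat_lit 200) (nat_lit 1) (nat_lit 215) (nat_lit 150) (nat_lit 205)) (PT.lf (nat_lit 15124) (nat_lit 6) (nat_lit 199) (nat_lit 1) (nat_lit 216) (nat_lit 150) (nat_lit 204))))) (PT.nd (nat_lit 58422) (PT.nd (nat_lit 58266) (PT.nd (nat_lit 58188)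 (PT.lf (nat_lit 15048) (nat_lit 6) (nat_lit 198) (nat_lit 1) (nat_lit 217) (nat_lit 150) (nat_lit 203)) (PT.lf (nat_lit 15656) (nat_lit 6) (nat_lit 206) (nat_lit 3) (nat_lit 202) (nat_lit 151) (nat_lit 217))) (PT.nd (nat_lit 78) (PT.lf (nat_lit 15732) (nat_lit 6) (nat_lit 207) (nat_lit 3) (nat_lit 203) (nat_lit 151) (nat_lit 216)) (PT.lf (nat_lit 15808) (nat_lit 6) (nat_lit 208) (nat_lit 3) (nat_lit 204) (nat_lit 151) (nat_lit 215)))) (PT.nd (nat_lit 156) (PT.nd (nat_lit 78) (PT.lf (nat_lit 15884) (nat_lit 6) (nat_lit 209) (nat_lit 3) (nat_lit 205) (nat_lit 151) (nat_lit 214)) (PT.lf (nat_lit 15960) (nat_lit 6) (nat_lit 210) (nat_lit 3) (nat_lit 206) (nat_lit 151) (nat_lit 213))) (PT.nd (nat_lit 78) (PT.lf (nat_lit 16036) (nat_lit 6) (nat_lit 211) (nat_lit 3) (nat_lit 207) (nat_lit 151) (nat_lit 212)) (PT.lf (nat_lit 16112) (nat_lit 6) (nat_lit 212) (nat_lit 3) (nat_lit 208) (nat_lit 151) (nat_lit 211)))))))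 (PT.nd (nat_lit 59202) (PT.nd (nat_lit 546) (PT.nd (nat_lit 234) (PT.nd (nat_lit 78) (PT.lf (nat_lit 16188) (nat_lit 6) (nat_lit 213) (nat_lit 3) (nat_lit 209) (nat_lit 151) (nat_lit 210)) (PT.nd (nat_lit 78) (PT.lf (nat_lit 16188) (nat_lit 6) (nat_lit 213) (nat_lit 1) (nat_lit 210) (nat_lit 151) (nat_lit 209)) (PT.lf (nat_lit 16112) (nat_lit 6) (nat_lit 212) (nat_lit 1) (nat_lit 211) (nat_lit 151) (nat_lit 208)))) (PT.nd (nat_lit 156) (PT.nd (nat_lit 78) (PT.lf (nat_lit 16036) (nat_lit 6) (nat_lit 211) (nat_lit 1) (nat_lit 212) (nat_lit 151) (nat_lit 207)) (PT.lf (nat_lit 15960) (nat_lit 6) (nat_lit 210) (nat_lit 1) (nat_lit 213) (nat_lit 151) (nat_lit 206))) (PT.nd (nat_lit 78) (PT.lf (nat_lit 15884) (nat_lit 6) (nat_lit 209) (nat_lit 1) (nat_lit 214) (nat_lit 151) (nat_lit 205)) (PT.lf (nat_lit 15808) (nat_lit 6) (nat_lit 208) (nat_lit 1) (nat_lit 215) (nat_lit 151) (nat_lit 204))))) (PT.nd (nat_lit 58344)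 (PT.nd (nat_lit 78) (PT.lf (nat_lit 15732) (nat_lit 6) (nat_lit 207) (nat_lit 1) (nat_lit 216) (nat_lit 151) (nat_lit 203)) (PT.nd (nat_lit 58188) (PT.lf (nat_lit 15656) (nat_lit 6) (nat_lit 206) (nat_lit 1) (nat_lit 217) (nat_lit 151) (nat_lit 202)) (PT.lf (nat_lit 16264) (nat_lit 6) (nat_lit 214) (nat_lit 3) (nat_lit 202) (nat_lit 152) (nat_lit 216)))) (PT.nd (nat_lit 156) (PT.nd (nat_lit 78) (PT.lf (nat_lit 16340) (nat_lit 6) (nat_lit 215) (nat_lit 3) (nat_lit 203) (nat_lit 152) (nat_lit 215)) (PT.lf (nat_lit 16416) (nat_lit 6) (nat_lit 216) (nat_lit 3) (nat_lit 204) (nat_lit 152) (nat_lit 214))) (PT.nd (nat_lit 78) (PT.lf (nat_lit 16492) (nat_lit 6) (nat_lit 217) (nat_lit 3) (nat_lit 205) (nat_lit 152) (nat_lit 213)) (PT.lf (nat_lit 16568) (nat_lit 6) (nat_lit 218) (nat_lit 3) (nat_lit 206) (nat_lit 152) (nat_lit 212)))))) (PT.nd (nat_lit 546) (PT.nd (nat_lit 234) (PT.nd (nat_lit 78) (PT.lf (nat_lit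 16644) (nat_lit 6) (nat_lit 219) (nat_lit 3) (nat_lit 207) (nat_lit 152) (nat_lit 211)) (PT.nd (nat_lit 78) (PT.lf (nat_lit 16720) (nat_lit 6) (nat_lit 220) (nat_lit 3) (nat_lit 208) (nat_lit 152) (nat_lit 210)) (PT.lf (nat_lit 16796) (nat_lit 3) (nat_lit 221) (nat_lit 1) (nat_lit 209) (nat_lit 152) (nat_lit 209)))) (PT.nd (nat_lit 156) (PT.nd (nat_lit 78) (PT.lf (nat_lit 16720) (nat_lit 6) (nat_lit 220) (nat_lit 1) (nat_lit 210) (nat_lit 152) (nat_lit 208)) (PT.lf (nat_lit 16644) (nat_lit 6) (nat_lit 219) (nat_lit 1) (nat_lit 211) (nat_lit 152) (nat_lit 207))) (PT.nd (nat_lit 78) (PT.lf (nat_lit 16568) (nat_lit 6) (nat_lit 218) (nat_lit 1) (nat_lit 212) (nat_lit 152) (nat_lit 206)) (PT.lf (nat_lit 16492) (nat_lit 6) (nat_lit 217) (nat_lit 1) (nat_lit 213) (nat_lit 152) (nat_lit 205))))) (PT.nd (nat_lit 58422) (PT.nd (nat_lit 156) (PT.nd (nat_lit 78) (PT.lf (nat_lit 16416) (nat_lit 6) (nat_lit 216) (nat_lit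 1) (nat_lit 214) (nat_lit 152) (nat_lit 204)) (PT.lf (nat_lit 16340) (nat_lit 6) (nat_lit 215) (nat_lit 1) (nat_lit 215) (nat_lit 152) (nat_lit 203))) (PT.nd (nat_lit 58188) (PT.lf (nat_lit 16264) (nat_lit 6) (nat_lit 214) (nat_lit 1) (nat_lit 216) (nat_lit 152) (nat_lit 202)) (PT.lf (nat_lit 16872) (nat_lit 6) (nat_lit 222) (nat_lit 3) (nat_lit 201) (nat_lit 153) (nat_lit 216)))) (PT.nd (nat_lit 156) (PT.nd (nat_lit 78) (PT.lf (nat_lit 16948) (nat_lit 6) (nat_lit 223) (nat_lit 3) (nat_lit 202) (nat_lit 153) (nat_lit 215)) (PT.lf (nat_lit 17024) (nat_lit 6) (nat_lit 224) (nat_lit 3) (nat_lit 203) (nat_lit 153) (nat_lit 214))) (PT.nd (nat_lit 78) (PT.lf (nat_lit 17100) (nat_lit 6) (nat_lit 225) (nat_lit 3) (nat_lit 204) (nat_lit 153) (nat_lit 213)) (PT.lf (nat_lit 17176) (nat_lit 6) (nat_lit 226) (nat_lit 3) (nat_lit 205) (nat_lit 153) (nat_lit 212))))))))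
noncomputable def pc7 : PT := (PT.nd (nat_lit 118248) (PT.nd (nat_lit 59124) (PT.nd (nat_lit 546) (PT.nd (nat_lit 234) (PT.nd (nat_lit 78) (PT.lf (nat_lit 17252) (nat_lit 6) (nat_lit 227) (nat_lit 3) (nat_lit 206) (nat_lit 153) (nat_lit 211)) (PT.nd (nat_lit 78) (PT.lf (nat_lit 17328) (nat_lit 6) (nat_lit 228) (nat_lit 3) (nat_lit 207) (nat_lit 153) (nat_lit 210)) (PT.lf (nat_lit 17404) (nat_lit 6) (nat_lit 229) (nat_lit 3) (nat_lit 208) (nat_lit 153) (nat_lit 209)))) (PT.nd (nat_lit 156) (PT.nd (nat_lit 78) (PT.lf (nat_lit 17404) (nat_lit 6) (nat_lit 229) (nat_lit 1) (nat_lit 209) (nat_lit 153) (nat_lit 208)) (PT.lf (nat_lit 17328) (nat_lit 6) (nat_lit 228) (nat_lit 1) (nat_lit 210) (nat_lit 153) (nat_lit 207))) (PT.nd (nat_lit 78) (PT.lf (nat_lit 17252) (nat_lit 6) (nat_lit 227) (nat_lit 1) (nat_lit 211) (nat_lit 153) (nat_lit 206)) (PT.lf (nat_lit 17176) (nat_lit 6) (nat_lit 226) (nat_lit 1) (nat_lit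 212) (nat_lit 153) (nat_lit 205))))) (PT.nd (nat_lit 234) (PT.nd (nat_lit 78) (PT.lf (nat_lit 17100) (nat_lit 6) (nat_lit 225) (nat_lit 1) (nat_lit 213) (nat_lit 153) (nat_lit 204)) (PT.nd (nat_lit 78) (PT.lf (nat_lit 17024) (nat_lit 6) (nat_lit 224) (nat_lit 1) (nat_lit 214) (nat_lit 153) (nat_lit 203)) (PT.lf (nat_lit 16948) (nat_lit 6) (nat_lit 223) (nat_lit 1) (nat_lit 215) (nat_lit 153) (nat_lit 202)))) (PT.nd (nat_lit 58188) (PT.nd (nat_lit 58110) (PT.lf (nat_lit 16872) (nat_lit 6) (nat_lit 222) (nat_lit 1) (nat_lit 216) (nat_lit 153) (nat_lit 201)) (PT.lf (nat_lit 17480) (nat_lit 6) (nat_lit 230) (nat_lit 3) (nat_lit 200) (nat_lit 154) (nat_lit 216))) (PT.nd (nat_lit 78) (PT.lf (nat_lit 17556) (nat_lit 6) (nat_lit 231) (nat_lit 3) (nat_lit 201) (nat_lit 154) (nat_lit 215)) (PT.lf (nat_lit 17632) (nat_lit 6) (nat_lit 232) (nat_lit 3) (nat_lit 202) (nat_lit 154) (nat_lit 214)))))) (PT.nd (nat_lit 546)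 (PT.nd (nat_lit 234) (PT.nd (nat_lit 78) (PT.lf (nat_lit 17708) (nat_lit 6) (nat_lit 233) (nat_lit 3) (nat_lit 203) (nat_lit 154) (nat_lit 213)) (PT.nd (nat_lit 78) (PT.lf (nat_lit 17784) (nat_lit 6) (nat_lit 234) (nat_lit 3) (nat_lit 204) (nat_lit 154) (nat_lit 212)) (PT.lf (nat_lit 17860) (nat_lit 6) (nat_lit 235) (nat_lit 3) (nat_lit 205) (nat_lit 154) (nat_lit 211)))) (PT.nd (nat_lit 156) (PT.nd (nat_lit 78) (PT.lf (nat_lit 17936) (nat_lit 6) (nat_lit 236) (nat_lit 3) (nat_lit 206) (nat_lit 154) (nat_lit 210)) (PT.lf (nat_lit 18012) (nat_lit 6) (nat_lit 237) (nat_lit 3) (nat_lit 207) (nat_lit 154) (nat_lit 209))) (PT.nd (nat_lit 78) (PT.lf (nat_lit 18088) (nat_lit 3) (nat_lit 238) (nat_lit 1) (nat_lit 208) (nat_lit 154) (nat_lit 208)) (PT.lf (nat_lit 18012) (nat_lit 6) (nat_lit 237) (nat_lit 1) (nat_lit 209) (nat_lit 154) (nat_lit 207))))) (PT.nd (nat_lit 312) (PT.nd (nat_lit 156) (PT.nd (nat_lit 78)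 (PT.lf (nat_lit 17936) (nat_lit 6) (nat_lit 236) (nat_lit 1) (nat_lit 210) (nat_lit 154) (nat_lit 206)) (PT.lf (nat_lit 17860) (nat_lit 6) (nat_lit 235) (nat_lit 1) (nat_lit 211) (nat_lit 154) (nat_lit 205))) (PT.nd (nat_lit 78) (PT.lf (nat_lit 17784) (nat_lit 6) (nat_lit 234) (nat_lit 1) (nat_lit 212) (nat_lit 154) (nat_lit 204)) (PT.lf (nat_lit 17708) (nat_lit 6) (nat_lit 233) (nat_lit 1) (nat_lit 213) (nat_lit 154) (nat_lit 203)))) (PT.nd (nat_lit 156) (PT.nd (nat_lit 78) (PT.lf (nat_lit 17632) (nat_lit 6) (nat_lit 232) (nat_lit 1) (nat_lit 214) (nat_lit 154) (nat_lit 202)) (PT.lf (nat_lit 17556) (nat_lit 6) (nat_lit 231) (nat_lit 1) (nat_lit 215) (nat_lit 154) (nat_lit 201))) (PT.nd (nat_lit 58032) (PT.lf (nat_lit 17480) (nat_lit 6) (nat_lit 230) (nat_lit 1) (nat_lit 216) (nat_lit 154) (nat_lit 200)) (PT.lf (nat_lit 18164) (nat_lit 6) (nat_lit 239) (nat_lit 3) (nat_lit 199) (nat_lit 155) (nat_lit 216)))))))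 (PT.nd (nat_lit 1092) (PT.nd (nat_lit 546) (PT.nd (nat_lit 234) (PT.nd (nat_lit 78) (PT.lf (nat_lit 18240) (nat_lit 6) (nat_lit 240) (nat_lit 3) (nat_lit 200) (nat_lit 155) (nat_lit 215)) (PT.nd (nat_lit 78) (PT.lf (nat_lit 18316) (nat_lit 6) (nat_lit 241) (nat_lit 3) (nat_lit 201) (nat_lit 155) (nat_lit 214)) (PT.lf (nat_lit 18392) (nat_lit 6) (nat_lit 242) (nat_lit 3) (nat_lit 202) (nat_lit 155) (nat_lit 213)))) (PT.nd (nat_lit 156) (PT.nd (nat_lit 78) (PT.lf (nat_lit 18468) (nat_lit 6) (nat_lit 243) (nat_lit 3) (nat_lit 203) (nat_lit 155) (nat_lit 212)) (PT.lf (nat_lit 18544) (nat_lit 6) (nat_lit 244) (nat_lit 3) (nat_lit 204) (nat_lit 155) (nat_lit 211))) (PT.nd (nat_lit 78) (PT.lf (nat_lit 18620) (nat_lit 6) (nat_lit 245) (nat_lit 3) (nat_lit 205) (nat_lit 155) (nat_lit 210)) (PT.lf (nat_lit 18696) (nat_lit 6) (nat_lit 246) (nat_lit 3) (nat_lit 206) (nat_lit 155) (nat_lit 209))))) (PT.nd (nat_lit 234)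 (PT.nd (nat_lit 78) (PT.lf (nat_lit 18772) (nat_lit 6) (nat_lit 247) (nat_lit 3) (nat_lit 207) (nat_lit 155) (nat_lit 208)) (PT.nd (nat_lit 78) (PT.lf (nat_lit 18772) (nat_lit 6) (nat_lit 247) (nat_lit 1) (nat_lit 208) (nat_lit 155) (nat_lit 207)) (PT.lf (nat_lit 18696) (nat_lit 6) (nat_lit 246) (nat_lit 1) (nat_lit 209) (nat_lit 155) (nat_lit 206)))) (PT.nd (nat_lit 156) (PT.nd (nat_lit 78) (PT.lf (nat_lit 18620) (nat_lit 6) (nat_lit 245) (nat_lit 1) (nat_lit 210) (nat_lit 155) (nat_lit 205)) (PT.lf (nat_lit 18544) (nat_lit 6) (nat_lit 244) (nat_lit 1) (nat_lit 211) (nat_lit 155) (nat_lit 204))) (PT.nd (nat_lit 78) (PT.lf (nat_lit 18468) (nat_lit 6) (nat_lit 243) (nat_lit 1) (nat_lit 212) (nat_lit 155) (nat_lit 203)) (PT.lf (nat_lit 18392) (nat_lit 6) (nat_lit 242) (nat_lit 1) (nat_lit 213) (nat_lit 155) (nat_lit 202)))))) (PT.nd (nat_lit 58500) (PT.nd (nat_lit 58188) (PT.nd (nat_lit 78) (PT.lf (nat_lit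 18316) (nat_lit 6) (nat_lit 241) (nat_lit 1) (nat_lit 214) (nat_lit 155) (nat_lit 201)) (PT.nd (nat_lit 78) (PT.lf (nat_lit 18240) (nat_lit 6) (nat_lit 240) (nat_lit 1) (nat_lit 215) (nat_lit 155) (nat_lit 200)) (PT.lf (nat_lit 18164) (nat_lit 6) (nat_lit 239) (nat_lit 1) (nat_lit 216) (nat_lit 155) (nat_lit 199)))) (PT.nd (nat_lit 156) (PT.nd (nat_lit 78) (PT.lf (nat_lit 18848) (nat_lit 6) (nat_lit 248) (nat_lit 3) (nat_lit 199) (nat_lit 156) (nat_lit 215)) (PT.lf (nat_lit 18924) (nat_lit 6) (nat_lit 249) (nat_lit 3) (nat_lit 200) (nat_lit 156) (nat_lit 214))) (PT.nd (nat_lit 78) (PT.lf (nat_lit 19000) (nat_lit 6) (nat_lit 250) (nat_lit 3) (nat_lit 201) (nat_lit 156) (nat_lit 213)) (PT.lf (nat_lit 19076) (nat_lit 6) (nat_lit 251) (nat_lit 3) (nat_lit 202) (nat_lit 156) (nat_lit 212))))) (PT.nd (nat_lit 312) (PT.nd (nat_lit 156) (PT.nd (nat_lit 78) (PT.lf (nat_lit 19152) (nat_lit 6) (nat_lit 252) (nat_lit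 3) (nat_lit 203) (nat_lit 156) (nat_lit 211)) (PT.lf (nat_lit 19228) (nat_lit 6) (nat_lit 253) (nat_lit 3) (nat_lit 204) (nat_lit 156) (nat_lit 210))) (PT.nd (nat_lit 78) (PT.lf (nat_lit 19304) (nat_lit 6) (nat_lit 254) (nat_lit 3) (nat_lit 205) (nat_lit 156) (nat_lit 209)) (PT.lf (nat_lit 19380) (nat_lit 6) (nat_lit 255) (nat_lit 3) (nat_lit 206) (nat_lit 156) (nat_lit 208)))) (PT.nd (nat_lit 156) (PT.nd (nat_lit 78) (PT.lf (nat_lit 19456) (nat_lit 3) (nat_lit 256) (nat_lit 1) (nat_lit 207) (nat_lit 156) (nat_lit 207)) (PT.lf (nat_lit 19380) (nat_lit 6) (nat_lit 255) (nat_lit 1) (nat_lit 208) (nat_lit 156) (nat_lit 206))) (PT.nd (nat_lit 78) (PT.lf (nat_lit 19304) (nat_lit 6) (nat_lit 254) (nat_lit 1) (nat_lit 209) (nat_lit 156) (nat_lit 205)) (PT.lf (nat_lit 19228) (nat_lit 6) (nat_lit 253) (nat_lit 1) (nat_lit 210) (nat_lit 156) (nat_lit 204))))))))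
noncomputable def pc8 : PT := (PT.nd (nat_lit 118014) (PT.nd (nat_lit 59046) (PT.nd (nat_lit 58500) (PT.nd (nat_lit 234) (PT.nd (nat_lit 78) (PT.lf (nat_lit 19152) (nat_lit 6) (nat_lit 252) (nat_lit 1) (nat_lit 211) (nat_lit 156) (nat_lit 203)) (PT.nd (nat_lit 78) (PT.lf (nat_lit 19076) (nat_lit 6) (nat_lit 251) (nat_lit 1) (nat_lit 212) (nat_lit 156) (nat_lit 202)) (PT.lf (nat_lit 19000) (nat_lit 6) (nat_lit 250) (nat_lit 1) (nat_lit 213) (nat_lit 156) (nat_lit 201)))) (PT.nd (nat_lit 58110) (PT.nd (nat_lit 78) (PT.lf (nat_lit 18924) (nat_lit 6) (nat_lit 249) (nat_lit 1) (nat_lit 214) (nat_lit 156) (nat_lit 200)) (PT.lf (nat_lit 18848) (nat_lit 6) (nat_lit 248) (nat_lit 1) (nat_lit 215) (nat_lit 156) (nat_lit 199))) (PT.nd (nat_lit 78) (PT.lf (nat_lit 19532) (nat_lit 6) (nat_lit 257) (nat_lit 3) (nat_lit 198) (nat_lit 157) (nat_lit 215)) (PT.lf (nat_lit 19608) (nat_lit 6) (nat_lit 258) (nat_lit 3) (nat_lit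 199) (nat_lit 157) (nat_lit 214))))) (PT.nd (nat_lit 234) (PT.nd (nat_lit 78) (PT.lf (nat_lit 19684) (nat_lit 6) (nat_lit 259) (nat_lit 3) (nat_lit 200) (nat_lit 157) (nat_lit 213)) (PT.nd (nat_lit 78) (PT.lf (nat_lit 19760) (nat_lit 6) (nat_lit 260) (nat_lit 3) (nat_lit 201) (nat_lit 157) (nat_lit 212)) (PT.lf (nat_lit 19836) (nat_lit 6) (nat_lit 261) (nat_lit 3) (nat_lit 202) (nat_lit 157) (nat_lit 211)))) (PT.nd (nat_lit 156) (PT.nd (nat_lit 78) (PT.lf (nat_lit 19912) (nat_lit 6) (nat_lit 262) (nat_lit 3) (nat_lit 203) (nat_lit 157) (nat_lit 210)) (PT.lf (nat_lit 19988) (nat_lit 6) (nat_lit 263) (nat_lit 3) (nat_lit 204) (nat_lit 157) (nat_lit 209))) (PT.nd (nat_lit 78) (PT.lf (nat_lit 20064) (nat_lit 6) (nat_lit 264) (nat_lit 3) (nat_lit 205) (nat_lit 157) (nat_lit 208)) (PT.lf (nat_lit 20140) (nat_lit 6) (nat_lit 265) (nat_lit 3) (nat_lit 206) (nat_lit 157) (nat_lit 207)))))) (PT.nd (nat_lit 546) (PT.nd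 (nat_lit 234) (PT.nd (nat_lit 78) (PT.lf (nat_lit 20140) (nat_lit 6) (nat_lit 265) (nat_lit 1) (nat_lit 207) (nat_lit 157) (nat_lit 206)) (PT.nd (nat_lit 78) (PT.lf (nat_lit 20064) (nat_lit 6) (nat_lit 264) (nat_lit 1) (nat_lit 208) (nat_lit 157) (nat_lit 205)) (PT.lf (nat_lit 19988) (nat_lit 6) (nat_lit 263) (nat_lit 1) (nat_lit 209) (nat_lit 157) (nat_lit 204)))) (PT.nd (nat_lit 156) (PT.nd (nat_lit 78) (PT.lf (nat_lit 19912) (nat_lit 6) (nat_lit 262) (nat_lit 1) (nat_lit 210) (nat_lit 157) (nat_lit 203)) (PT.lf (nat_lit 19836) (nat_lit 6) (nat_lit 261) (nat_lit 1) (nat_lit 211) (nat_lit 157) (nat_lit 202))) (PT.nd (nat_lit 78) (PT.lf (nat_lit 19760) (nat_lit 6) (nat_lit 260) (nat_lit 1) (nat_lit 212) (nat_lit 157) (nat_lit 201)) (PT.lf (nat_lit 19684) (nat_lit 6) (nat_lit 259) (nat_lit 1) (nat_lit 213) (nat_lit 157) (nat_lit 200))))) (PT.nd (nat_lit 58110) (PT.nd (nat_lit 78) (PT.lf (nat_lit 19608) (nat_lit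 6) (nat_lit 258) (nat_lit 1) (nat_lit 214) (nat_lit 157) (nat_lit 199)) (PT.nd (nat_lit 57954) (PT.lf (nat_lit 19532) (nat_lit 6) (nat_lit 257) (nat_lit 1) (nat_lit 215) (nat_lit 157) (nat_lit 198)) (PT.lf (nat_lit 20216) (nat_lit 6) (nat_lit 266) (nat_lit 3) (nat_lit 197) (nat_lit 158) (nat_lit 215)))) (PT.nd (nat_lit 156) (PT.nd (nat_lit 78) (PT.lf (nat_lit 20292) (nat_lit 6) (nat_lit 267) (nat_lit 3) (nat_lit 198) (nat_lit 158) (nat_lit 214)) (PT.lf (nat_lit 20368) (nat_lit 6) (nat_lit 268) (nat_lit 3) (nat_lit 199) (nat_lit 158) (nat_lit 213))) (PT.nd (nat_lit 78) (PT.lf (nat_lit 20444) (nat_lit 6) (nat_lit 269) (nat_lit 3) (nat_lit 200) (nat_lit 158) (nat_lit 212)) (PT.lf (nat_lit 20520) (nat_lit 6) (nat_lit 270) (nat_lit 3) (nat_lit 201) (nat_lit 158) (nat_lit 211))))))) (PT.nd (nat_lit 58890) (PT.nd (nat_lit 546) (PT.nd (nat_lit 234) (PT.nd (nat_lit 78) (PT.lf (nat_lit 20596) (nat_lit 6) (nat_lit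 271) (nat_lit 3) (nat_lit 202) (nat_lit 158) (nat_lit 210)) (PT.nd (nat_lit 78) (PT.lf (nat_lit 20672) (nat_lit 6) (nat_lit 272) (nat_lit 3) (nat_lit 203) (nat_lit 158) (nat_lit 209)) (PT.lf (nat_lit 20748) (nat_lit 6) (nat_lit 273) (nat_lit 3) (nat_lit 204) (nat_lit 158) (nat_lit 208)))) (PT.nd (nat_lit 156) (PT.nd (nat_lit 78) (PT.lf (nat_lit 20824) (nat_lit 6) (nat_lit 274) (nat_lit 3) (nat_lit 205) (nat_lit 158) (nat_lit 207)) (PT.lf (nat_lit 20900) (nat_lit 3) (nat_lit 275) (nat_lit 1) (nat_lit 206) (nat_lit 158) (nat_lit 206))) (PT.nd (nat_lit 78) (PT.lf (nat_lit 20824) (nat_lit 6) (nat_lit 274) (nat_lit 1) (nat_lit 207) (nat_lit 158) (nat_lit 205)) (PT.lf (nat_lit 20748) (nat_lit 6) (nat_lit 273) (nat_lit 1) (nat_lit 208) (nat_lit 158) (nat_lit 204))))) (PT.nd (nat_lit 234) (PT.nd (nat_lit 78) (PT.lf (nat_lit 20672) (nat_lit 6) (nat_lit 272) (nat_lit 1) (nat_lit 209) (nat_lit 158) (nat_lit 203)) (PT.nd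 (nat_lit 78) (PT.lf (nat_lit 20596) (nat_lit 6) (nat_lit 271) (nat_lit 1) (nat_lit 210) (nat_lit 158) (nat_lit 202)) (PT.lf (nat_lit 20520) (nat_lit 6) (nat_lit 270) (nat_lit 1) (nat_lit 211) (nat_lit 158) (nat_lit 201)))) (PT.nd (nat_lit 156) (PT.nd (nat_lit 78) (PT.lf (nat_lit 20444) (nat_lit 6) (nat_lit 269) (nat_lit 1) (nat_lit 212) (nat_lit 158) (nat_lit 200)) (PT.lf (nat_lit 20368) (nat_lit 6) (nat_lit 268) (nat_lit 1) (nat_lit 213) (nat_lit 158) (nat_lit 199))) (PT.nd (nat_lit 78) (PT.lf (nat_lit 20292) (nat_lit 6) (nat_lit 267) (nat_lit 1) (nat_lit 214) (nat_lit 158) (nat_lit 198)) (PT.lf (nat_lit 20216) (nat_lit 6) (nat_lit 266) (nat_lit 1) (nat_lit 215) (nat_lit 158) (nat_lit 197)))))) (PT.nd (nat_lit 546) (PT.nd (nat_lit 234) (PT.nd (nat_lit 78) (PT.lf (nat_lit 20976) (nat_lit 6) (nat_lit 276) (nat_lit 3) (nat_lit 196) (nat_lit 159) (nat_lit 215)) (PT.nd (nat_lit 78) (PT.lf (nat_lit 21052) (nat_lit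 6) (nat_lit 277) (nat_lit 3) (nat_lit 197) (nat_lit 159) (nat_lit 214)) (PT.lf (nat_lit 21128) (nat_lit 6) (nat_lit 278) (nat_lit 3) (nat_lit 198) (nat_lit 159) (nat_lit 213)))) (PT.nd (nat_lit 156) (PT.nd (nat_lit 78) (PT.lf (nat_lit 21204) (nat_lit 6) (nat_lit 279) (nat_lit 3) (nat_lit 199) (nat_lit 159) (nat_lit 212)) (PT.lf (nat_lit 21280) (nat_lit 6) (nat_lit 280) (nat_lit 3) (nat_lit 200) (nat_lit 159) (nat_lit 211))) (PT.nd (nat_lit 78) (PT.lf (nat_lit 21356) (nat_lit 6) (nat_lit 281) (nat_lit 3) (nat_lit 201) (nat_lit 159) (nat_lit 210)) (PT.lf (nat_lit 21432) (nat_lit 6) (nat_lit 282) (nat_lit 3) (nat_lit 202) (nat_lit 159) (nat_lit 209))))) (PT.nd (nat_lit 312) (PT.nd (nat_lit 156) (PT.nd (nat_lit 78) (PT.lf (nat_lit 21508) (nat_lit 6) (nat_lit 283) (nat_lit 3) (nat_lit 203) (nat_lit 159) (nat_lit 208)) (PT.lf (nat_lit 21584) (nat_lit 6) (nat_lit 284) (nat_lit 3) (nat_lit 204) (nat_lit 159) (nat_lit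 207))) (PT.nd (nat_lit 78) (PT.lf (nat_lit 21660) (nat_lit 6) (nat_lit 285) (nat_lit 3) (nat_lit 205) (nat_lit 159) (nat_lit 206)) (PT.lf (nat_lit 21660) (nat_lit 6) (nat_lit 285) (nat_lit 1) (nat_lit 206) (nat_lit 159) (nat_lit 205)))) (PT.nd (nat_lit 156) (PT.nd (nat_lit 78) (PT.lf (nat_lit 21584) (nat_lit 6) (nat_lit 284) (nat_lit 1) (nat_lit 207) (nat_lit 159) (nat_lit 204)) (PT.lf (nat_lit 21508) (nat_lit 6) (nat_lit 283) (nat_lit 1) (nat_lit 208) (nat_lit 159) (nat_lit 203))) (PT.nd (nat_lit 78) (PT.lf (nat_lit 21432) (nat_lit 6) (nat_lit 282) (nat_lit 1) (nat_lit 209) (nat_lit 159) (nat_lit 202)) (PT.lf (nat_lit 21356) (nat_lit 6) (nat_lit 281) (nat_lit 1) (nat_lit 210) (nat_lit 159) (nat_lit 201))))))))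
noncomputable def pc9 : PT := (PT.nd (nat_lit 117702) (PT.nd (nat_lit 58812) (PT.nd (nat_lit 58266) (PT.nd (nat_lit 234) (PT.nd (nat_lit 78) (PT.lf (nat_lit 21280) (nat_lit 6) (nat_lit 280) (nat_lit 1) (nat_lit 211) (nat_lit 159) (nat_lit 200)) (PT.nd (nat_lit 78) (PT.lf (nat_lit 21204) (nat_lit 6) (nat_lit 279) (nat_lit 1) (nat_lit 212) (nat_lit 159) (nat_lit 199)) (PT.lf (nat_lit 21128) (nat_lit 6) (nat_lit 278) (nat_lit 1) (nat_lit 213) (nat_lit 159) (nat_lit 198)))) (PT.nd (nat_lit 57876) (PT.nd (nat_lit 78) (PT.lf (nat_lit 21052) (nat_lit 6) (nat_lit 277) (nat_lit 1) (nat_lit 214) (nat_lit 159) (nat_lit 197)) (PT.lf (nat_lit 20976) (nat_lit 6) (nat_lit 276) (nat_lit 1) (nat_lit 215) (nat_lit 159) (nat_lit 196))) (PT.nd (nat_lit 78) (PT.lf (nat_lit 21736) (nat_lit 6) (nat_lit 286) (nat_lit 3) (nat_lit 195) (nat_lit 160) (nat_lit 215)) (PT.lf (nat_lit 21812) (nat_lit 6) (nat_lit 287) (nat_lit 3) (nat_lit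 196) (nat_lit 160) (nat_lit 214))))) (PT.nd (nat_lit 234) (PT.nd (nat_lit 78) (PT.lf (nat_lit 21888) (nat_lit 6) (nat_lit 288) (nat_lit 3) (nat_lit 197) (nat_lit 160) (nat_lit 213)) (PT.nd (nat_lit 78) (PT.lf (nat_lit 21964) (nat_lit 6) (nat_lit 289) (nat_lit 3) (nat_lit 198) (nat_lit 160) (nat_lit 212)) (PT.lf (nat_lit 22040) (nat_lit 6) (nat_lit 290) (nat_lit 3) (nat_lit 199) (nat_lit 160) (nat_lit 211)))) (PT.nd (nat_lit 156) (PT.nd (nat_lit 78) (PT.lf (nat_lit 22116) (nat_lit 6) (nat_lit 291) (nat_lit 3) (nat_lit 200) (nat_lit 160) (nat_lit 210)) (PT.lf (nat_lit 22192) (nat_lit 6) (nat_lit 292) (nat_lit 3) (nat_lit 201) (nat_lit 160) (nat_lit 209))) (PT.nd (nat_lit 78) (PT.lf (nat_lit 22268) (nat_lit 6) (nat_lit 293) (nat_lit 3) (nat_lit 202) (nat_lit 160) (nat_lit 208)) (PT.lf (nat_lit 22344) (nat_lit 6) (nat_lit 294) (nat_lit 3) (nat_lit 203) (nat_lit 160) (nat_lit 207)))))) (PT.nd (nat_lit 546) (PT.nd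 (nat_lit 234) (PT.nd (nat_lit 78) (PT.lf (nat_lit 22420) (nat_lit 6) (nat_lit 295) (nat_lit 3) (nat_lit 204) (nat_lit 160) (nat_lit 206)) (PT.nd (nat_lit 78) (PT.lf (nat_lit 22496) (nat_lit 3) (nat_lit 296) (nat_lit 1) (nat_lit 205) (nat_lit 160) (nat_lit 205)) (PT.lf (nat_lit 22420) (nat_lit 6) (nat_lit 295) (nat_lit 1) (nat_lit 206) (nat_lit 160) (nat_lit 204)))) (PT.nd (nat_lit 156) (PT.nd (nat_lit 78) (PT.lf (nat_lit 22344) (nat_lit 6) (nat_lit 294) (nat_lit 1) (nat_lit 207) (nat_lit 160) (nat_lit 203)) (PT.lf (nat_lit 22268) (nat_lit 6) (nat_lit 293) (nat_lit 1) (nat_lit 208) (nat_lit 160) (nat_lit 202))) (PT.nd (nat_lit 78) (PT.lf (nat_lit 22192) (nat_lit 6) (nat_lit 292) (nat_lit 1) (nat_lit 209) (nat_lit 160) (nat_lit 201)) (PT.lf (nat_lit 22116) (nat_lit 6) (nat_lit 291) (nat_lit 1) (nat_lit 210) (nat_lit 160) (nat_lit 200))))) (PT.nd (nat_lit 312) (PT.nd (nat_lit 156) (PT.nd (nat_lit 78) (PT.lf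 (nat_lit 22040) (nat_lit 6) (nat_lit 290) (nat_lit 1) (nat_lit 211) (nat_lit 160) (nat_lit 199)) (PT.lf (nat_lit 21964) (nat_lit 6) (nat_lit 289) (nat_lit 1) (nat_lit 212) (nat_lit 160) (nat_lit 198))) (PT.nd (nat_lit 78) (PT.lf (nat_lit 21888) (nat_lit 6) (nat_lit 288) (nat_lit 1) (nat_lit 213) (nat_lit 160) (nat_lit 197)) (PT.lf (nat_lit 21812) (nat_lit 6) (nat_lit 287) (nat_lit 1) (nat_lit 214) (nat_lit 160) (nat_lit 196)))) (PT.nd (nat_lit 57876) (PT.nd (nat_lit 57798) (PT.lf (nat_lit 21736) (nat_lit 6) (nat_lit 286) (nat_lit 1) (nat_lit 215) (nat_lit 160) (nat_lit 195)) (PT.lf (nat_lit 22572) (nat_lit 6) (nat_lit 297) (nat_lit 3) (nat_lit 195) (nat_lit 161) (nat_lit 214))) (PT.nd (nat_lit 78) (PT.lf (nat_lit 22648) (nat_lit 6) (nat_lit 298) (nat_lit 3) (nat_lit 196) (nat_lit 161) (nat_lit 213)) (PT.lf (nat_lit 22724) (nat_lit 6) (nat_lit 299) (nat_lit 3) (nat_lit 197) (nat_lit 161) (nat_lit 212)))))))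 (PT.nd (nat_lit 1092) (PT.nd (nat_lit 546) (PT.nd (nat_lit 234) (PT.nd (nat_lit 78) (PT.lf (nat_lit 22800) (nat_lit 6) (nat_lit 300) (nat_lit 3) (nat_lit 198) (nat_lit 161) (nat_lit 211)) (PT.nd (nat_lit 78) (PT.lf (nat_lit 22876) (nat_lit 6) (nat_lit 301) (nat_lit 3) (nat_lit 199) (nat_lit 161) (nat_lit 210)) (PT.lf (nat_lit 22952) (nat_lit 6) (nat_lit 302) (nat_lit 3) (nat_lit 200) (nat_lit 161) (nat_lit 209)))) (PT.nd (nat_lit 156) (PT.nd (nat_lit 78) (PT.lf (nat_lit 23028) (nat_lit 6) (nat_lit 303) (nat_lit 3) (nat_lit 201) (nat_lit 161) (nat_lit 208)) (PT.lf (nat_lit 23104) (nat_lit 6) (nat_lit 304) (nat_lit 3) (nat_lit 202) (nat_lit 161) (nat_lit 207))) (PT.nd (nat_lit 78) (PT.lf (nat_lit 23180) (nat_lit 6) (nat_lit 305) (nat_lit 3) (nat_lit 203) (nat_lit 161) (nat_lit 206)) (PT.lf (nat_lit 23256) (nat_lit 6) (nat_lit 306) (nat_lit 3) (nat_lit 204) (nat_lit 161) (nat_lit 205))))) (PT.nd (nat_lit 234)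 (PT.nd (nat_lit 78) (PT.lf (nat_lit 23256) (nat_lit 6) (nat_lit 306) (nat_lit 1) (nat_lit 205) (nat_lit 161) (nat_lit 204)) (PT.nd (nat_lit 78) (PT.lf (nat_lit 23180) (nat_lit 6) (nat_lit 305) (nat_lit 1) (nat_lit 206) (nat_lit 161) (nat_lit 203)) (PT.lf (nat_lit 23104) (nat_lit 6) (nat_lit 304) (nat_lit 1) (nat_lit 207) (nat_lit 161) (nat_lit 202)))) (PT.nd (nat_lit 156) (PT.nd (nat_lit 78) (PT.lf (nat_lit 23028) (nat_lit 6) (nat_lit 303) (nat_lit 1) (nat_lit 208) (nat_lit 161) (nat_lit 201)) (PT.lf (nat_lit 22952) (nat_lit 6) (nat_lit 302) (nat_lit 1) (nat_lit 209) (nat_lit 161) (nat_lit 200))) (PT.nd (nat_lit 78) (PT.lf (nat_lit 22876) (nat_lit 6) (nat_lit 301) (nat_lit 1) (nat_lit 210) (nat_lit 161) (nat_lit 199)) (PT.lf (nat_lit 22800) (nat_lit 6) (nat_lit 300) (nat_lit 1) (nat_lit 211) (nat_lit 161) (nat_lit 198)))))) (PT.nd (nat_lit 58266) (PT.nd (nat_lit 57954) (PT.nd (nat_lit 78) (PT.lf (nat_lit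 22724) (nat_lit 6) (nat_lit 299) (nat_lit 1) (nat_lit 212) (nat_lit 161) (nat_lit 197)) (PT.nd (nat_lit 78) (PT.lf (nat_lit 22648) (nat_lit 6) (nat_lit 298) (nat_lit 1) (nat_lit 213) (nat_lit 161) (nat_lit 196)) (PT.lf (nat_lit 22572) (nat_lit 6) (nat_lit 297) (nat_lit 1) (nat_lit 214) (nat_lit 161) (nat_lit 195)))) (PT.nd (nat_lit 156) (PT.nd (nat_lit 78) (PT.lf (nat_lit 23332) (nat_lit 6) (nat_lit 307) (nat_lit 3) (nat_lit 194) (nat_lit 162) (nat_lit 214)) (PT.lf (nat_lit 23408) (nat_lit 6) (nat_lit 308) (nat_lit 3) (nat_lit 195) (nat_lit 162) (nat_lit 213))) (PT.nd (nat_lit 78) (PT.lf (nat_lit 23484) (nat_lit 6) (nat_lit 309) (nat_lit 3) (nat_lit 196) (nat_lit 162) (nat_lit 212)) (PT.lf (nat_lit 23560) (nat_lit 6) (nat_lit 310) (nat_lit 3) (nat_lit 197) (nat_lit 162) (nat_lit 211))))) (PT.nd (nat_lit 312) (PT.nd (nat_lit 156) (PT.nd (nat_lit 78) (PT.lf (nat_lit 23636) (nat_lit 6) (nat_lit 311) (nat_lit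 3) (nat_lit 198) (nat_lit 162) (nat_lit 210)) (PT.lf (nat_lit 23712) (nat_lit 6) (nat_lit 312) (nat_lit 3) (nat_lit 199) (nat_lit 162) (nat_lit 209))) (PT.nd (nat_lit 78) (PT.lf (nat_lit 23788) (nat_lit 6) (nat_lit 313) (nat_lit 3) (nat_lit 200) (nat_lit 162) (nat_lit 208)) (PT.lf (nat_lit 23864) (nat_lit 6) (nat_lit 314) (nat_lit 3) (nat_lit 201) (nat_lit 162) (nat_lit 207)))) (PT.nd (nat_lit 156) (PT.nd (nat_lit 78) (PT.lf (nat_lit 23940) (nat_lit 6) (nat_lit 315) (nat_lit 3) (nat_lit 202) (nat_lit 162) (nat_lit 206)) (PT.lf (nat_lit 24016) (nat_lit 6) (nat_lit 316) (nat_lit 3) (nat_lit 203) (nat_lit 162) (nat_lit 205))) (PT.nd (nat_lit 78) (PT.lf (nat_lit 24092) (nat_lit 3) (nat_lit 317) (nat_lit 1) (nat_lit 204) (nat_lit 162) (nat_lit 204)) (PT.lf (nat_lit 24016) (nat_lit 6) (nat_lit 316) (nat_lit 1) (nat_lit 205) (nat_lit 162) (nat_lit 203))))))))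
noncomputable def pc10 : PT := (PT.nd (nat_lit 59826) (PT.nd (nat_lit 58734) (PT.nd (nat_lit 546) (PT.nd (nat_lit 234) (PT.nd (nat_lit 78) (PT.lf (nat_lit 23940) (nat_lit 6) (nat_lit 315) (nat_lit 1) (nat_lit 206) (nat_lit 162) (nat_lit 202)) (PT.nd (nat_lit 78) (PT.lf (nat_lit 23864) (nat_lit 6) (nat_lit 314) (nat_lit 1) (nat_lit 207) (nat_lit 162) (nat_lit 201)) (PT.lf (nat_lit 23788) (nat_lit 6) (nat_lit 313) (nat_lit 1) (nat_lit 208) (nat_lit 162) (nat_lit 200)))) (PT.nd (nat_lit 156) (PT.nd (nat_lit 78) (PT.lf (nat_lit 23712) (nat_lit 6) (nat_lit 312) (nat_lit 1) (nat_lit 209) (nat_lit 162) (nat_lit 199)) (PT.lf (nat_lit 23636) (nat_lit 6) (nat_lit 311) (nat_lit 1) (nat_lit 210) (nat_lit 162) (nat_lit 198))) (PT.nd (nat_lit 78) (PT.lf (nat_lit 23560) (nat_lit 6) (nat_lit 310) (nat_lit 1) (nat_lit 211) (nat_lit 162) (nat_lit 197)) (PT.lf (nat_lit 23484) (nat_lit 6) (nat_lit 309) (nat_lit 1) (nat_lit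 212) (nat_lit 162) (nat_lit 196))))) (PT.nd (nat_lit 57876) (PT.nd (nat_lit 78) (PT.lf (nat_lit 23408) (nat_lit 6) (nat_lit 308) (nat_lit 1) (nat_lit 213) (nat_lit 162) (nat_lit 195)) (PT.nd (nat_lit 57720) (PT.lf (nat_lit 23332) (nat_lit 6) (nat_lit 307) (nat_lit 1) (nat_lit 214) (nat_lit 162) (nat_lit 194)) (PT.lf (nat_lit 24168) (nat_lit 6) (nat_lit 318) (nat_lit 3) (nat_lit 193) (nat_lit 163) (nat_lit 214)))) (PT.nd (nat_lit 156) (PT.nd (nat_lit 78) (PT.lf (nat_lit 24244) (nat_lit 6) (nat_lit 319) (nat_lit 3) (nat_lit 194) (nat_lit 163) (nat_lit 213)) (PT.lf (nat_lit 24320) (nat_lit 6) (nat_lit 320) (nat_lit 3) (nat_lit 195) (nat_lit 163) (nat_lit 212))) (PT.nd (nat_lit 78) (PT.lf (nat_lit 24396) (nat_lit 6) (nat_lit 321) (nat_lit 3) (nat_lit 196) (nat_lit 163) (nat_lit 211)) (PT.lf (nat_lit 24472) (nat_lit 6) (nat_lit 322) (nat_lit 3) (nat_lit 197) (nat_lit 163) (nat_lit 210)))))) (PT.nd (nat_lit 546)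 (PT.nd (nat_lit 234) (PT.nd (nat_lit 78) (PT.lf (nat_lit 24548) (nat_lit 6) (nat_lit 323) (nat_lit 3) (nat_lit 198) (nat_lit 163) (nat_lit 209)) (PT.nd (nat_lit 78) (PT.lf (nat_lit 24624) (nat_lit 6) (nat_lit 324) (nat_lit 3) (nat_lit 199) (nat_lit 163) (nat_lit 208)) (PT.lf (nat_lit 24700) (nat_lit 6) (nat_lit 325) (nat_lit 3) (nat_lit 200) (nat_lit 163) (nat_lit 207)))) (PT.nd (nat_lit 156) (PT.nd (nat_lit 78) (PT.lf (nat_lit 24776) (nat_lit 6) (nat_lit 326) (nat_lit 3) (nat_lit 201) (nat_lit 163) (nat_lit 206)) (PT.lf (nat_lit 24852) (nat_lit 6) (nat_lit 327) (nat_lit 3) (nat_lit 202) (nat_lit 163) (nat_lit 205))) (PT.nd (nat_lit 78) (PT.lf (nat_lit 24928) (nat_lit 6) (nat_lit 328) (nat_lit 3) (nat_lit 203) (nat_lit 163) (nat_lit 204)) (PT.lf (nat_lit 24928) (nat_lit 6) (nat_lit 328) (nat_lit 1) (nat_lit 204) (nat_lit 163) (nat_lit 203))))) (PT.nd (nat_lit 234) (PT.nd (nat_lit 78) (PT.lf (nat_lit 24852)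 (nat_lit 6) (nat_lit 327) (nat_lit 1) (nat_lit 205) (nat_lit 163) (nat_lit 202)) (PT.nd (nat_lit 78) (PT.lf (nat_lit 24776) (nat_lit 6) (nat_lit 326) (nat_lit 1) (nat_lit 206) (nat_lit 163) (nat_lit 201)) (PT.lf (nat_lit 24700) (nat_lit 6) (nat_lit 325) (nat_lit 1) (nat_lit 207) (nat_lit 163) (nat_lit 200)))) (PT.nd (nat_lit 156) (PT.nd (nat_lit 78) (PT.lf (nat_lit 24624) (nat_lit 6) (nat_lit 324) (nat_lit 1) (nat_lit 208) (nat_lit 163) (nat_lit 199)) (PT.lf (nat_lit 24548) (nat_lit 6) (nat_lit 323) (nat_lit 1) (nat_lit 209) (nat_lit 163) (nat_lit 198))) (PT.nd (nat_lit 78) (PT.lf (nat_lit 24472) (nat_lit 6) (nat_lit 322) (nat_lit 1) (nat_lit 210) (nat_lit 163) (nat_lit 197)) (PT.lf (nat_lit 24396) (nat_lit 6) (nat_lit 321) (nat_lit 1) (nat_lit 211) (nat_lit 163) (nat_lit 196))))))) (PT.nd (nat_lit 58656) (PT.nd (nat_lit 58110) (PT.nd (nat_lit 57798) (PT.nd (nat_lit 78) (PT.lf (nat_lit 24320) (nat_lit 6)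 (nat_lit 320) (nat_lit 1) (nat_lit 212) (nat_lit 163) (nat_lit 195)) (PT.nd (nat_lit 78) (PT.lf (nat_lit 24244) (nat_lit 6) (nat_lit 319) (nat_lit 1) (nat_lit 213) (nat_lit 163) (nat_lit 194)) (PT.lf (nat_lit 24168) (nat_lit 6) (nat_lit 318) (nat_lit 1) (nat_lit 214) (nat_lit 163) (nat_lit 193)))) (PT.nd (nat_lit 156) (PT.nd (nat_lit 78) (PT.lf (nat_lit 25004) (nat_lit 6) (nat_lit 329) (nat_lit 3) (nat_lit 192) (nat_lit 164) (nat_lit 214)) (PT.lf (nat_lit 25080) (nat_lit 6) (nat_lit 330) (nat_lit 3) (nat_lit 193) (nat_lit 164) (nat_lit 213))) (PT.nd (nat_lit 78) (PT.lf (nat_lit 25156) (nat_lit 6) (nat_lit 331) (nat_lit 3) (nat_lit 194) (nat_lit 164) (nat_lit 212)) (PT.lf (nat_lit 25232) (nat_lit 6) (nat_lit 332) (nat_lit 3) (nat_lit 195) (nat_lit 164) (nat_lit 211))))) (PT.nd (nat_lit 234) (PT.nd (nat_lit 78) (PT.lf (nat_lit 25308) (nat_lit 6) (nat_lit 333) (nat_lit 3) (nat_lit 196) (nat_lit 164) (nat_lit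 210)) (PT.nd (nat_lit 78) (PT.lf (nat_lit 25384) (nat_lit 6) (nat_lit 334) (nat_lit 3) (nat_lit 197) (nat_lit 164) (nat_lit 209)) (PT.lf (nat_lit 25460) (nat_lit 6) (nat_lit 335) (nat_lit 3) (nat_lit 198) (nat_lit 164) (nat_lit 208)))) (PT.nd (nat_lit 156) (PT.nd (nat_lit 78) (PT.lf (nat_lit 25536) (nat_lit 6) (nat_lit 336) (nat_lit 3) (nat_lit 199) (nat_lit 164) (nat_lit 207)) (PT.lf (nat_lit 25612) (nat_lit 6) (nat_lit 337) (nat_lit 3) (nat_lit 200) (nat_lit 164) (nat_lit 206))) (PT.nd (nat_lit 78) (PT.lf (nat_lit 25688) (nat_lit 6) (nat_lit 338) (nat_lit 3) (nat_lit 201) (nat_lit 164) (nat_lit 205)) (PT.lf (nat_lit 25764) (nat_lit 6) (nat_lit 339) (nat_lit 3) (nat_lit 202) (nat_lit 164) (nat_lit 204)))))) (PT.nd (nat_lit 546) (PT.nd (nat_lit 234) (PT.nd (nat_lit 78) (PT.lf (nat_lit 25840) (nat_lit 3) (nat_lit 340) (nat_lit 1) (nat_lit 203) (nat_lit 164) (nat_lit 203)) (PT.nd (nat_lit 78) (PT.lf (nat_lit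 25764) (nat_lit 6) (nat_lit 339) (nat_lit 1) (nat_lit 204) (nat_lit 164) (nat_lit 202)) (PT.lf (nat_lit 25688) (nat_lit 6) (nat_lit 338) (nat_lit 1) (nat_lit 205) (nat_lit 164) (nat_lit 201)))) (PT.nd (nat_lit 156) (PT.nd (nat_lit 78) (PT.lf (nat_lit 25612) (nat_lit 6) (nat_lit 337) (nat_lit 1) (nat_lit 206) (nat_lit 164) (nat_lit 200)) (PT.lf (nat_lit 25536) (nat_lit 6) (nat_lit 336) (nat_lit 1) (nat_lit 207) (nat_lit 164) (nat_lit 199))) (PT.nd (nat_lit 78) (PT.lf (nat_lit 25460) (nat_lit 6) (nat_lit 335) (nat_lit 1) (nat_lit 208) (nat_lit 164) (nat_lit 198)) (PT.lf (nat_lit 25384) (nat_lit 6) (nat_lit 334) (nat_lit 1) (nat_lit 209) (nat_lit 164) (nat_lit 197))))) (PT.nd (nat_lit 312) (PT.nd (nat_lit 156) (PT.nd (nat_lit 78) (PT.lf (nat_lit 25308) (nat_lit 6) (nat_lit 333) (nat_lit 1) (nat_lit 210) (nat_lit 164) (nat_lit 196)) (PT.lf (nat_lit 25232) (nat_lit 6) (nat_lit 332) (nat_lit 1) (nat_lit 211) (nat_lit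 164) (nat_lit 195))) (PT.nd (nat_lit 78) (PT.lf (nat_lit 25156) (nat_lit 6) (nat_lit 331) (nat_lit 1) (nat_lit 212) (nat_lit 164) (nat_lit 194)) (PT.lf (nat_lit 25080) (nat_lit 6) (nat_lit 330) (nat_lit 1) (nat_lit 213) (nat_lit 164) (nat_lit 193)))) (PT.nd (nat_lit 57642) (PT.nd (nat_lit 57564) (PT.lf (nat_lit 25004) (nat_lit 6) (nat_lit 329) (nat_lit 1) (nat_lit 214) (nat_lit 164) (nat_lit 192)) (PT.lf (nat_lit 25916) (nat_lit 6) (nat_lit 341) (nat_lit 3) (nat_lit 191) (nat_lit 165) (nat_lit 214))) (PT.nd (nat_lit 78) (PT.lf (nat_lit 25992) (nat_lit 6) (nat_lit 342) (nat_lit 3) (nat_lit 192) (nat_lit 165) (nat_lit 213)) (PT.lf (nat_lit 26068) (nat_lit 6) (nat_lit 343) (nat_lit 3) (nat_lit 193) (nat_lit 165) (nat_lit 212))))))))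
noncomputable def pc11 : PT := (PT.nd (nat_lit 59748) (PT.nd (nat_lit 1092) (PT.nd (nat_lit 546) (PT.nd (nat_lit 234) (PT.nd (nat_lit 78) (PT.lf (nat_lit 26144) (nat_lit 6) (nat_lit 344) (nat_lit 3) (nat_lit 194) (nat_lit 165) (nat_lit 211)) (PT.nd (nat_lit 78) (PT.lf (nat_lit 26220) (nat_lit 6) (nat_lit 345) (nat_lit 3) (nat_lit 195) (nat_lit 165) (nat_lit 210)) (PT.lf (nat_lit 26296) (nat_lit 6) (nat_lit 346) (nat_lit 3) (nat_lit 196) (nat_lit 165) (nat_lit 209)))) (PT.nd (nat_lit 156) (PT.nd (nat_lit 78) (PT.lf (nat_lit 26372) (nat_lit 6) (nat_lit 347) (nat_lit 3) (nat_lit 197) (nat_lit 165) (nat_lit 208)) (PT.lf (nat_lit 26448) (nat_lit 6) (nat_lit 348) (nat_lit 3) (nat_lit 198) (nat_lit 165) (nat_lit 207))) (PT.nd (nat_lit 78) (PT.lf (nat_lit 26524) (nat_lit 6) (nat_lit 349) (nat_lit 3) (nat_lit 199) (nat_lit 165) (nat_lit 206)) (PT.lf (nat_lit 26600) (nat_lit 6) (nat_lit 350) (nat_lit 3) (nat_lit 200)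 (nat_lit 165) (nat_lit 205))))) (PT.nd (nat_lit 234) (PT.nd (nat_lit 78) (PT.lf (nat_lit 26676) (nat_lit 6) (nat_lit 351) (nat_lit 3) (nat_lit 201) (nat_lit 165) (nat_lit 204)) (PT.nd (nat_lit 78) (PT.lf (nat_lit 26752) (nat_lit 6) (nat_lit 352) (nat_lit 3) (nat_lit 202) (nat_lit 165) (nat_lit 203)) (PT.lf (nat_lit 26752) (nat_lit 6) (nat_lit 352) (nat_lit 1) (nat_lit 203) (nat_lit 165) (nat_lit 202)))) (PT.nd (nat_lit 156) (PT.nd (nat_lit 78) (PT.lf (nat_lit 26676) (nat_lit 6) (nat_lit 351) (nat_lit 1) (nat_lit 204) (nat_lit 165) (nat_lit 201)) (PT.lf (nat_lit 26600) (nat_lit 6) (nat_lit 350) (nat_lit 1) (nat_lit 205) (nat_lit 165) (nat_lit 200))) (PT.nd (nat_lit 78) (PT.lf (nat_lit 26524) (nat_lit 6) (nat_lit 349) (nat_lit 1) (nat_lit 206) (nat_lit 165) (nat_lit 199)) (PT.lf (nat_lit 26448) (nat_lit 6) (nat_lit 348) (nat_lit 1) (nat_lit 207) (nat_lit 165) (nat_lit 198)))))) (PT.nd (nat_lit 58032) (PT.nd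 (nat_lit 234) (PT.nd (nat_lit 78) (PT.lf (nat_lit 26372) (nat_lit 6) (nat_lit 347) (nat_lit 1) (nat_lit 208) (nat_lit 165) (nat_lit 197)) (PT.nd (nat_lit 78) (PT.lf (nat_lit 26296) (nat_lit 6) (nat_lit 346) (nat_lit 1) (nat_lit 209) (nat_lit 165) (nat_lit 196)) (PT.lf (nat_lit 26220) (nat_lit 6) (nat_lit 345) (nat_lit 1) (nat_lit 210) (nat_lit 165) (nat_lit 195)))) (PT.nd (nat_lit 156) (PT.nd (nat_lit 78) (PT.lf (nat_lit 26144) (nat_lit 6) (nat_lit 344) (nat_lit 1) (nat_lit 211) (nat_lit 165) (nat_lit 194)) (PT.lf (nat_lit 26068) (nat_lit 6) (nat_lit 343) (nat_lit 1) (nat_lit 212) (nat_lit 165) (nat_lit 193))) (PT.nd (nat_lit 78) (PT.lf (nat_lit 25992) (nat_lit 6) (nat_lit 342) (nat_lit 1) (nat_lit 213) (nat_lit 165) (nat_lit 192)) (PT.lf (nat_lit 25916) (nat_lit 6) (nat_lit 341) (nat_lit 1) (nat_lit 214) (nat_lit 165) (nat_lit 191))))) (PT.nd (nat_lit 312) (PT.nd (nat_lit 156) (PT.nd (nat_lit 78) (PT.lf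 (nat_lit 26904) (nat_lit 6) (nat_lit 354) (nat_lit 3) (nat_lit 191) (nat_lit 166) (nat_lit 213)) (PT.lf (nat_lit 26980) (nat_lit 6) (nat_lit 355) (nat_lit 3) (nat_lit 192) (nat_lit 166) (nat_lit 212))) (PT.nd (nat_lit 78) (PT.lf (nat_lit 27056) (nat_lit 6) (nat_lit 356) (nat_lit 3) (nat_lit 193) (nat_lit 166) (nat_lit 211)) (PT.lf (nat_lit 27132) (nat_lit 6) (nat_lit 357) (nat_lit 3) (nat_lit 194) (nat_lit 166) (nat_lit 210)))) (PT.nd (nat_lit 156) (PT.nd (nat_lit 78) (PT.lf (nat_lit 27208) (nat_lit 6) (nat_lit 358) (nat_lit 3) (nat_lit 195) (nat_lit 166) (nat_lit 209)) (PT.lf (nat_lit 27284) (nat_lit 6) (nat_lit 359) (nat_lit 3) (nat_lit 196) (nat_lit 166) (nat_lit 208))) (PT.nd (nat_lit 78) (PT.lf (nat_lit 27360) (nat_lit 6) (nat_lit 360) (nat_lit 3) (nat_lit 197) (nat_lit 166) (nat_lit 207)) (PT.lf (nat_lit 27436) (nat_lit 6) (nat_lit 361) (nat_lit 3) (nat_lit 198) (nat_lit 166) (nat_lit 206))))))) (PT.nd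 (nat_lit 1092) (PT.nd (nat_lit 546) (PT.nd (nat_lit 234) (PT.nd (nat_lit 78) (PT.lf (nat_lit 27512) (nat_lit 6) (nat_lit 362) (nat_lit 3) (nat_lit 199) (nat_lit 166) (nat_lit 205)) (PT.nd (nat_lit 78) (PT.lf (nat_lit 27588) (nat_lit 6) (nat_lit 363) (nat_lit 3) (nat_lit 200) (nat_lit 166) (nat_lit 204)) (PT.lf (nat_lit 27664) (nat_lit 6) (nat_lit 364) (nat_lit 3) (nat_lit 201) (nat_lit 166) (nat_lit 203)))) (PT.nd (nat_lit 156) (PT.nd (nat_lit 78) (PT.lf (nat_lit 27740) (nat_lit 3) (nat_lit 365) (nat_lit 1) (nat_lit 202) (nat_lit 166) (nat_lit 202)) (PT.lf (nat_lit 27664) (nat_lit 6) (nat_lit 364) (nat_lit 1) (nat_lit 203) (nat_lit 166) (nat_lit 201))) (PT.nd (nat_lit 78) (PT.lf (nat_lit 27588) (nat_lit 6) (nat_lit 363) (nat_lit 1) (nat_lit 204) (nat_lit 166) (nat_lit 200)) (PT.lf (nat_lit 27512) (nat_lit 6) (nat_lit 362) (nat_lit 1) (nat_lit 205) (nat_lit 166) (nat_lit 199))))) (PT.nd (nat_lit 234) (PT.nd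 (nat_lit 78) (PT.lf (nat_lit 27436) (nat_lit 6) (nat_lit 361) (nat_lit 1) (nat_lit 206) (nat_lit 166) (nat_lit 198)) (PT.nd (nat_lit 78) (PT.lf (nat_lit 27360) (nat_lit 6) (nat_lit 360) (nat_lit 1) (nat_lit 207) (nat_lit 166) (nat_lit 197)) (PT.lf (nat_lit 27284) (nat_lit 6) (nat_lit 359) (nat_lit 1) (nat_lit 208) (nat_lit 166) (nat_lit 196)))) (PT.nd (nat_lit 156) (PT.nd (nat_lit 78) (PT.lf (nat_lit 27208) (nat_lit 6) (nat_lit 358) (nat_lit 1) (nat_lit 209) (nat_lit 166) (nat_lit 195)) (PT.lf (nat_lit 27132) (nat_lit 6) (nat_lit 357) (nat_lit 1) (nat_lit 210) (nat_lit 166) (nat_lit 194))) (PT.nd (nat_lit 78) (PT.lf (nat_lit 27056) (nat_lit 6) (nat_lit 356) (nat_lit 1) (nat_lit 211) (nat_lit 166) (nat_lit 193)) (PT.lf (nat_lit 26980) (nat_lit 6) (nat_lit 355) (nat_lit 1) (nat_lit 212) (nat_lit 166) (nat_lit 192)))))) (PT.nd (nat_lit 58032) (PT.nd (nat_lit 57720) (PT.nd (nat_lit 57564) (PT.lf (nat_lit 26904)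 (nat_lit 6) (nat_lit 354) (nat_lit 1) (nat_lit 213) (nat_lit 166) (nat_lit 191)) (PT.nd (nat_lit 78) (PT.lf (nat_lit 28652) (nat_lit 6) (nat_lit 377) (nat_lit 3) (nat_lit 190) (nat_lit 167) (nat_lit 213)) (PT.lf (nat_lit 28728) (nat_lit 6) (nat_lit 378) (nat_lit 3) (nat_lit 191) (nat_lit 167) (nat_lit 212)))) (PT.nd (nat_lit 156) (PT.nd (nat_lit 78) (PT.lf (nat_lit 28804) (nat_lit 6) (nat_lit 379) (nat_lit 3) (nat_lit 192) (nat_lit 167) (nat_lit 211)) (PT.lf (nat_lit 28880) (nat_lit 6) (nat_lit 380) (nat_lit 3) (nat_lit 193) (nat_lit 167) (nat_lit 210))) (PT.nd (nat_lit 78) (PT.lf (nat_lit 28956) (nat_lit 6) (nat_lit 381) (nat_lit 3) (nat_lit 194) (nat_lit 167) (nat_lit 209)) (PT.lf (nat_lit 29032) (nat_lit 6) (nat_lit 382) (nat_lit 3) (nat_lit 195) (nat_lit 167) (nat_lit 208))))) (PT.nd (nat_lit 312) (PT.nd (nat_lit 156) (PT.nd (nat_lit 78) (PT.lf (nat_lit 29108) (nat_lit 6) (nat_lit 383) (nat_lit 3) (nat_lit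 196) (nat_lit 167) (nat_lit 207)) (PT.lf (nat_lit 29184) (nat_lit 6) (nat_lit 384) (nat_lit 3) (nat_lit 197) (nat_lit 167) (nat_lit 206))) (PT.nd (nat_lit 78) (PT.lf (nat_lit 29260) (nat_lit 6) (nat_lit 385) (nat_lit 3) (nat_lit 198) (nat_lit 167) (nat_lit 205)) (PT.lf (nat_lit 29336) (nat_lit 6) (nat_lit 386) (nat_lit 3) (nat_lit 199) (nat_lit 167) (nat_lit 204)))) (PT.nd (nat_lit 156) (PT.nd (nat_lit 78) (PT.lf (nat_lit 29412) (nat_lit 6) (nat_lit 387) (nat_lit 3) (nat_lit 200) (nat_lit 167) (nat_lit 203)) (PT.lf (nat_lit 29488) (nat_lit 6) (nat_lit 388) (nat_lit 3) (nat_lit 201) (nat_lit 167) (nat_lit 202))) (PT.nd (nat_lit 78) (PT.lf (nat_lit 29488) (nat_lit 6) (nat_lit 388) (nat_lit 1) (nat_lit 202) (nat_lit 167) (nat_lit 201)) (PT.lf (nat_lit 29412) (nat_lit 6) (nat_lit 387) (nat_lit 1) (nat_lit 203) (nat_lit 167) (nat_lit 200))))))))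
noncomputable def pc12 : PT := (PT.nd (nat_lit 59592) (PT.nd (nat_lit 58500) (PT.nd (nat_lit 546) (PT.nd (nat_lit 234) (PT.nd (nat_lit 78) (PT.lf (nat_lit 29336) (nat_lit 6) (nat_lit 386) (nat_lit 1) (nat_lit 204) (nat_lit 167) (nat_lit 199)) (PT.nd (nat_lit 78) (PT.lf (nat_lit 29260) (nat_lit 6) (nat_lit 385) (nat_lit 1) (nat_lit 205) (nat_lit 167) (nat_lit 198)) (PT.lf (nat_lit 29184) (nat_lit 6) (nat_lit 384) (nat_lit 1) (nat_lit 206) (nat_lit 167) (nat_lit 197)))) (PT.nd (nat_lit 156) (PT.nd (nat_lit 78) (PT.lf (nat_lit 29108) (nat_lit 6) (nat_lit 383) (nat_lit 1) (nat_lit 207) (nat_lit 167) (nat_lit 196)) (PT.lf (nat_lit 29032) (nat_lit 6) (nat_lit 382) (nat_lit 1) (nat_lit 208) (nat_lit 167) (nat_lit 195))) (PT.nd (nat_lit 78) (PT.lf (nat_lit 28956) (nat_lit 6) (nat_lit 381) (nat_lit 1) (nat_lit 209) (nat_lit 167) (nat_lit 194)) (PT.lf (nat_lit 28880) (nat_lit 6) (nat_lit 380) (nat_lit 1) (nat_lit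 210) (nat_lit 167) (nat_lit 193))))) (PT.nd (nat_lit 57642) (PT.nd (nat_lit 78) (PT.lf (nat_lit 28804) (nat_lit 6) (nat_lit 379) (nat_lit 1) (nat_lit 211) (nat_lit 167) (nat_lit 192)) (PT.nd (nat_lit 78) (PT.lf (nat_lit 28728) (nat_lit 6) (nat_lit 378) (nat_lit 1) (nat_lit 212) (nat_lit 167) (nat_lit 191)) (PT.lf (nat_lit 28652) (nat_lit 6) (nat_lit 377) (nat_lit 1) (nat_lit 213) (nat_lit 167) (nat_lit 190)))) (PT.nd (nat_lit 156) (PT.nd (nat_lit 78) (PT.lf (nat_lit 28576) (nat_lit 6) (nat_lit 376) (nat_lit 3) (nat_lit 189) (nat_lit 168) (nat_lit 213)) (PT.lf (nat_lit 30400) (nat_lit 6) (nat_lit 400) (nat_lit 3) (nat_lit 190) (nat_lit 168) (nat_lit 212))) (PT.nd (nat_lit 78) (PT.lf (nat_lit 30476) (nat_lit 6) (nat_lit 401) (nat_lit 3) (nat_lit 191) (nat_lit 168) (nat_lit 211)) (PT.lf (nat_lit 30552) (nat_lit 6) (nat_lit 402) (nat_lit 3) (nat_lit 192) (nat_lit 168) (nat_lit 210)))))) (PT.nd (nat_lit 546)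 (PT.nd (nat_lit 234) (PT.nd (nat_lit 78) (PT.lf (nat_lit 30628) (nat_lit 6) (nat_lit 403) (nat_lit 3) (nat_lit 193) (nat_lit 168) (nat_lit 209)) (PT.nd (nat_lit 78) (PT.lf (nat_lit 30704) (nat_lit 6) (nat_lit 404) (nat_lit 3) (nat_lit 194) (nat_lit 168) (nat_lit 208)) (PT.lf (nat_lit 30780) (nat_lit 6) (nat_lit 405) (nat_lit 3) (nat_lit 195) (nat_lit 168) (nat_lit 207)))) (PT.nd (nat_lit 156) (PT.nd (nat_lit 78) (PT.lf (nat_lit 30856) (nat_lit 6) (nat_lit 406) (nat_lit 3) (nat_lit 196) (nat_lit 168) (nat_lit 206)) (PT.lf (nat_lit 30932) (nat_lit 6) (nat_lit 407) (nat_lit 3) (nat_lit 197) (nat_lit 168) (nat_lit 205))) (PT.nd (nat_lit 78) (PT.lf (nat_lit 31008) (nat_lit 6) (nat_lit 408) (nat_lit 3) (nat_lit 198) (nat_lit 168) (nat_lit 204)) (PT.lf (nat_lit 31084) (nat_lit 6) (nat_lit 409) (nat_lit 3) (nat_lit 199) (nat_lit 168) (nat_lit 203))))) (PT.nd (nat_lit 234) (PT.nd (nat_lit 78) (PT.lf (nat_lit 31160)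 (nat_lit 6) (nat_lit 410) (nat_lit 3) (nat_lit 200) (nat_lit 168) (nat_lit 202)) (PT.nd (nat_lit 78) (PT.lf (nat_lit 31236) (nat_lit 3) (nat_lit 411) (nat_lit 1) (nat_lit 201) (nat_lit 168) (nat_lit 201)) (PT.lf (nat_lit 31160) (nat_lit 6) (nat_lit 410) (nat_lit 1) (nat_lit 202) (nat_lit 168) (nat_lit 200)))) (PT.nd (nat_lit 156) (PT.nd (nat_lit 78) (PT.lf (nat_lit 31084) (nat_lit 6) (nat_lit 409) (nat_lit 1) (nat_lit 203) (nat_lit 168) (nat_lit 199)) (PT.lf (nat_lit 31008) (nat_lit 6) (nat_lit 408) (nat_lit 1) (nat_lit 204) (nat_lit 168) (nat_lit 198))) (PT.nd (nat_lit 78) (PT.lf (nat_lit 30932) (nat_lit 6) (nat_lit 407) (nat_lit 1) (nat_lit 205) (nat_lit 168) (nat_lit 197)) (PT.lf (nat_lit 30856) (nat_lit 6) (nat_lit 406) (nat_lit 1) (nat_lit 206) (nat_lit 168) (nat_lit 196))))))) (PT.nd (nat_lit 58422) (PT.nd (nat_lit 57876) (PT.nd (nat_lit 234) (PT.nd (nat_lit 78) (PT.lf (nat_lit 30780) (nat_lit 6) (nat_lit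 405) (nat_lit 1) (nat_lit 207) (nat_lit 168) (nat_lit 195)) (PT.nd (nat_lit 78) (PT.lf (nat_lit 30704) (nat_lit 6) (nat_lit 404) (nat_lit 1) (nat_lit 208) (nat_lit 168) (nat_lit 194)) (PT.lf (nat_lit 30628) (nat_lit 6) (nat_lit 403) (nat_lit 1) (nat_lit 209) (nat_lit 168) (nat_lit 193)))) (PT.nd (nat_lit 156) (PT.nd (nat_lit 78) (PT.lf (nat_lit 30552) (nat_lit 6) (nat_lit 402) (nat_lit 1) (nat_lit 210) (nat_lit 168) (nat_lit 192)) (PT.lf (nat_lit 30476) (nat_lit 6) (nat_lit 401) (nat_lit 1) (nat_lit 211) (nat_lit 168) (nat_lit 191))) (PT.nd (nat_lit 78) (PT.lf (nat_lit 30400) (nat_lit 6) (nat_lit 400) (nat_lit 1) (nat_lit 212) (nat_lit 168) (nat_lit 190)) (PT.lf (nat_lit 28576) (nat_lit 6) (nat_lit 376) (nat_lit 1) (nat_lit 213) (nat_lit 168) (nat_lit 189))))) (PT.nd (nat_lit 234) (PT.nd (nat_lit 78) (PT.lf (nat_lit 28500) (nat_lit 6) (nat_lit 375) (nat_lit 3) (nat_lit 188) (nat_lit 169) (nat_lit 213)) (PT.nd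 (nat_lit 78) (PT.lf (nat_lit 30324) (nat_lit 6) (nat_lit 399) (nat_lit 3) (nat_lit 189) (nat_lit 169) (nat_lit 212)) (PT.lf (nat_lit 32072) (nat_lit 6) (nat_lit 422) (nat_lit 3) (nat_lit 190) (nat_lit 169) (nat_lit 211)))) (PT.nd (nat_lit 156) (PT.nd (nat_lit 78) (PT.lf (nat_lit 32148) (nat_lit 6) (nat_lit 423) (nat_lit 3) (nat_lit 191) (nat_lit 169) (nat_lit 210)) (PT.lf (nat_lit 32224) (nat_lit 6) (nat_lit 424) (nat_lit 3) (nat_lit 192) (nat_lit 169) (nat_lit 209))) (PT.nd (nat_lit 78) (PT.lf (nat_lit 32300) (nat_lit 6) (nat_lit 425) (nat_lit 3) (nat_lit 193) (nat_lit 169) (nat_lit 208)) (PT.lf (nat_lit 32376) (nat_lit 6) (nat_lit 426) (nat_lit 3) (nat_lit 194) (nat_lit 169) (nat_lit 207)))))) (PT.nd (nat_lit 546) (PT.nd (nat_lit 234) (PT.nd (nat_lit 78) (PT.lf (nat_lit 32452) (nat_lit 6) (nat_lit 427) (nat_lit 3) (nat_lit 195) (nat_lit 169) (nat_lit 206)) (PT.nd (nat_lit 78) (PT.lf (nat_lit 32528) (nat_lit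 6) (nat_lit 428) (nat_lit 3) (nat_lit 196) (nat_lit 169) (nat_lit 205)) (PT.lf (nat_lit 32604) (nat_lit 6) (nat_lit 429) (nat_lit 3) (nat_lit 197) (nat_lit 169) (nat_lit 204)))) (PT.nd (nat_lit 156) (PT.nd (nat_lit 78) (PT.lf (nat_lit 32680) (nat_lit 6) (nat_lit 430) (nat_lit 3) (nat_lit 198) (nat_lit 169) (nat_lit 203)) (PT.lf (nat_lit 32756) (nat_lit 6) (nat_lit 431) (nat_lit 3) (nat_lit 199) (nat_lit 169) (nat_lit 202))) (PT.nd (nat_lit 78) (PT.lf (nat_lit 32832) (nat_lit 6) (nat_lit 432) (nat_lit 3) (nat_lit 200) (nat_lit 169) (nat_lit 201)) (PT.lf (nat_lit 32832) (nat_lit 6) (nat_lit 432) (nat_lit 1) (nat_lit 201) (nat_lit 169) (nat_lit 200))))) (PT.nd (nat_lit 312) (PT.nd (nat_lit 156) (PT.nd (nat_lit 78) (PT.lf (nat_lit 32756) (nat_lit 6) (nat_lit 431) (nat_lit 1) (nat_lit 202) (nat_lit 169) (nat_lit 199)) (PT.lf (nat_lit 32680) (nat_lit 6) (nat_lit 430) (nat_lit 1) (nat_lit 203) (nat_lit 169) (nat_lit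 198))) (PT.nd (nat_lit 78) (PT.lf (nat_lit 32604) (nat_lit 6) (nat_lit 429) (nat_lit 1) (nat_lit 204) (nat_lit 169) (nat_lit 197)) (PT.lf (nat_lit 32528) (nat_lit 6) (nat_lit 428) (nat_lit 1) (nat_lit 205) (nat_lit 169) (nat_lit 196)))) (PT.nd (nat_lit 156) (PT.nd (nat_lit 78) (PT.lf (nat_lit 32452) (nat_lit 6) (nat_lit 427) (nat_lit 1) (nat_lit 206) (nat_lit 169) (nat_lit 195)) (PT.lf (nat_lit 32376) (nat_lit 6) (nat_lit 426) (nat_lit 1) (nat_lit 207) (nat_lit 169) (nat_lit 194))) (PT.nd (nat_lit 78) (PT.lf (nat_lit 32300) (nat_lit 6) (nat_lit 425) (nat_lit 1) (nat_lit 208) (nat_lit 169) (nat_lit 193)) (PT.lf (nat_lit 32224) (nat_lit 6) (nat_lit 424) (nat_lit 1) (nat_lit 209) (nat_lit 169) (nat_lit 192))))))))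
noncomputable def pc13 : PT := (PT.nd (nat_lit 59514) (PT.nd (nat_lit 58344) (PT.nd (nat_lit 57798) (PT.nd (nat_lit 234) (PT.nd (nat_lit 78) (PT.lf (nat_lit 32148) (nat_lit 6) (nat_lit 423) (nat_lit 1) (nat_lit 210) (nat_lit 169) (nat_lit 191)) (PT.nd (nat_lit 78) (PT.lf (nat_lit 32072) (nat_lit 6) (nat_lit 422) (nat_lit 1) (nat_lit 211) (nat_lit 169) (nat_lit 190)) (PT.lf (nat_lit 30324) (nat_lit 6) (nat_lit 399) (nat_lit 1) (nat_lit 212) (nat_lit 169) (nat_lit 189)))) (PT.nd (nat_lit 57408) (PT.nd (nat_lit 57330) (PT.lf (nat_lit 28500) (nat_lit 6) (nat_lit 375) (nat_lit 1) (nat_lit 213) (nat_lit 169) (nat_lit 188)) (PT.lf (nat_lit 28424) (nat_lit 6) (nat_lit 374) (nat_lit 3) (nat_lit 187) (nat_lit 170) (nat_lit 213))) (PT.nd (nat_lit 78) (PT.lf (nat_lit 30248) (nat_lit 6) (nat_lit 398) (nat_lit 3) (nat_lit 188) (nat_lit 170) (nat_lit 212)) (PT.lf (nat_lit 31996) (nat_lit 6) (nat_lit 421) (nat_lit 3) (nat_lit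 189) (nat_lit 170) (nat_lit 211))))) (PT.nd (nat_lit 234) (PT.nd (nat_lit 78) (PT.lf (nat_lit 33668) (nat_lit 6) (nat_lit 443) (nat_lit 3) (nat_lit 190) (nat_lit 170) (nat_lit 210)) (PT.nd (nat_lit 78) (PT.lf (nat_lit 33744) (nat_lit 6) (nat_lit 444) (nat_lit 3) (nat_lit 191) (nat_lit 170) (nat_lit 209)) (PT.lf (nat_lit 33820) (nat_lit 6) (nat_lit 445) (nat_lit 3) (nat_lit 192) (nat_lit 170) (nat_lit 208)))) (PT.nd (nat_lit 156) (PT.nd (nat_lit 78) (PT.lf (nat_lit 33896) (nat_lit 6) (nat_lit 446) (nat_lit 3) (nat_lit 193) (nat_lit 170) (nat_lit 207)) (PT.lf (nat_lit 33972) (nat_lit 6) (nat_lit 447) (nat_lit 3) (nat_lit 194) (nat_lit 170) (nat_lit 206))) (PT.nd (nat_lit 78) (PT.lf (nat_lit 34048) (nat_lit 6) (nat_lit 448) (nat_lit 3) (nat_lit 195) (nat_lit 170) (nat_lit 205)) (PT.lf (nat_lit 34124) (nat_lit 6) (nat_lit 449) (nat_lit 3) (nat_lit 196) (nat_lit 170) (nat_lit 204)))))) (PT.nd (nat_lit 546) (PT.nd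 (nat_lit 234) (PT.nd (nat_lit 78) (PT.lf (nat_lit 34200) (nat_lit 6) (nat_lit 450) (nat_lit 3) (nat_lit 197) (nat_lit 170) (nat_lit 203)) (PT.nd (nat_lit 78) (PT.lf (nat_lit 34276) (nat_lit 6) (nat_lit 451) (nat_lit 3) (nat_lit 198) (nat_lit 170) (nat_lit 202)) (PT.lf (nat_lit 34352) (nat_lit 6) (nat_lit 452) (nat_lit 3) (nat_lit 199) (nat_lit 170) (nat_lit 201)))) (PT.nd (nat_lit 156) (PT.nd (nat_lit 78) (PT.lf (nat_lit 34428) (nat_lit 3) (nat_lit 453) (nat_lit 1) (nat_lit 200) (nat_lit 170) (nat_lit 200)) (PT.lf (nat_lit 34352) (nat_lit 6) (nat_lit 452) (nat_lit 1) (nat_lit 201) (nat_lit 170) (nat_lit 199))) (PT.nd (nat_lit 78) (PT.lf (nat_lit 34276) (nat_lit 6) (nat_lit 451) (nat_lit 1) (nat_lit 202) (nat_lit 170) (nat_lit 198)) (PT.lf (nat_lit 34200) (nat_lit 6) (nat_lit 450) (nat_lit 1) (nat_lit 203) (nat_lit 170) (nat_lit 197))))) (PT.nd (nat_lit 312) (PT.nd (nat_lit 156) (PT.nd (nat_lit 78) (PT.lf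 (nat_lit 34124) (nat_lit 6) (nat_lit 449) (nat_lit 1) (nat_lit 204) (nat_lit 170) (nat_lit 196)) (PT.lf (nat_lit 34048) (nat_lit 6) (nat_lit 448) (nat_lit 1) (nat_lit 205) (nat_lit 170) (nat_lit 195))) (PT.nd (nat_lit 78) (PT.lf (nat_lit 33972) (nat_lit 6) (nat_lit 447) (nat_lit 1) (nat_lit 206) (nat_lit 170) (nat_lit 194)) (PT.lf (nat_lit 33896) (nat_lit 6) (nat_lit 446) (nat_lit 1) (nat_lit 207) (nat_lit 170) (nat_lit 193)))) (PT.nd (nat_lit 156) (PT.nd (nat_lit 78) (PT.lf (nat_lit 33820) (nat_lit 6) (nat_lit 445) (nat_lit 1) (nat_lit 208) (nat_lit 170) (nat_lit 192)) (PT.lf (nat_lit 33744) (nat_lit 6) (nat_lit 444) (nat_lit 1) (nat_lit 209) (nat_lit 170) (nat_lit 191))) (PT.nd (nat_lit 78) (PT.lf (nat_lit 33668) (nat_lit 6) (nat_lit 443) (nat_lit 1) (nat_lit 210) (nat_lit 170) (nat_lit 190)) (PT.lf (nat_lit 31996) (nat_lit 6) (nat_lit 421) (nat_lit 1) (nat_lit 211) (nat_lit 170) (nat_lit 189))))))) (PT.nd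 (nat_lit 58266) (PT.nd (nat_lit 57720) (PT.nd (nat_lit 57408) (PT.nd (nat_lit 78) (PT.lf (nat_lit 30248) (nat_lit 6) (nat_lit 398) (nat_lit 1) (nat_lit 212) (nat_lit 170) (nat_lit 188)) (PT.nd (nat_lit 57252) (PT.lf (nat_lit 28424) (nat_lit 6) (nat_lit 374) (nat_lit 1) (nat_lit 213) (nat_lit 170) (nat_lit 187)) (PT.lf (nat_lit 28348) (nat_lit 6) (nat_lit 373) (nat_lit 3) (nat_lit 186) (nat_lit 171) (nat_lit 213)))) (PT.nd (nat_lit 156) (PT.nd (nat_lit 78) (PT.lf (nat_lit 30172) (nat_lit 6) (nat_lit 397) (nat_lit 3) (nat_lit 187) (nat_lit 171) (nat_lit 212)) (PT.lf (nat_lit 31920) (nat_lit 6) (nat_lit 420) (nat_lit 3) (nat_lit 188) (nat_lit 171) (nat_lit 211))) (PT.nd (nat_lit 78) (PT.lf (nat_lit 33592) (nat_lit 6) (nat_lit 442) (nat_lit 3) (nat_lit 189) (nat_lit 171) (nat_lit 210)) (PT.lf (nat_lit 35188) (nat_lit 6) (nat_lit 463) (nat_lit 3) (nat_lit 190) (nat_lit 171) (nat_lit 209))))) (PT.nd (nat_lit 234)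 (PT.nd (nat_lit 78) (PT.lf (nat_lit 35264) (nat_lit 6) (nat_lit 464) (nat_lit 3) (nat_lit 191) (nat_lit 171) (nat_lit 208)) (PT.nd (nat_lit 78) (PT.lf (nat_lit 35340) (nat_lit 6) (nat_lit 465) (nat_lit 3) (nat_lit 192) (nat_lit 171) (nat_lit 207)) (PT.lf (nat_lit 35416) (nat_lit 6) (nat_lit 466) (nat_lit 3) (nat_lit 193) (nat_lit 171) (nat_lit 206)))) (PT.nd (nat_lit 156) (PT.nd (nat_lit 78) (PT.lf (nat_lit 35492) (nat_lit 6) (nat_lit 467) (nat_lit 3) (nat_lit 194) (nat_lit 171) (nat_lit 205)) (PT.lf (nat_lit 35568) (nat_lit 6) (nat_lit 468) (nat_lit 3) (nat_lit 195) (nat_lit 171) (nat_lit 204))) (PT.nd (nat_lit 78) (PT.lf (nat_lit 35644) (nat_lit 6) (nat_lit 469) (nat_lit 3) (nat_lit 196) (nat_lit 171) (nat_lit 203)) (PT.lf (nat_lit 35720) (nat_lit 6) (nat_lit 470) (nat_lit 3) (nat_lit 197) (nat_lit 171) (nat_lit 202)))))) (PT.nd (nat_lit 546) (PT.nd (nat_lit 234) (PT.nd (nat_lit 78) (PT.lf (nat_lit 35796)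 (nat_lit 6) (nat_lit 471) (nat_lit 3) (nat_lit 198) (nat_lit 171) (nat_lit 201)) (PT.nd (nat_lit 78) (PT.lf (nat_lit 35872) (nat_lit 6) (nat_lit 472) (nat_lit 3) (nat_lit 199) (nat_lit 171) (nat_lit 200)) (PT.lf (nat_lit 35872) (nat_lit 6) (nat_lit 472) (nat_lit 1) (nat_lit 200) (nat_lit 171) (nat_lit 199)))) (PT.nd (nat_lit 156) (PT.nd (nat_lit 78) (PT.lf (nat_lit 35796) (nat_lit 6) (nat_lit 471) (nat_lit 1) (nat_lit 201) (nat_lit 171) (nat_lit 198)) (PT.lf (nat_lit 35720) (nat_lit 6) (nat_lit 470) (nat_lit 1) (nat_lit 202) (nat_lit 171) (nat_lit 197))) (PT.nd (nat_lit 78) (PT.lf (nat_lit 35644) (nat_lit 6) (nat_lit 469) (nat_lit 1) (nat_lit 203) (nat_lit 171) (nat_lit 196)) (PT.lf (nat_lit 35568) (nat_lit 6) (nat_lit 468) (nat_lit 1) (nat_lit 204) (nat_lit 171) (nat_lit 195))))) (PT.nd (nat_lit 312) (PT.nd (nat_lit 156) (PT.nd (nat_lit 78) (PT.lf (nat_lit 35492) (nat_lit 6) (nat_lit 467) (nat_lit 1) (nat_lit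 205) (nat_lit 171) (nat_lit 194)) (PT.lf (nat_lit 35416) (nat_lit 6) (nat_lit 466) (nat_lit 1) (nat_lit 206) (nat_lit 171) (nat_lit 193))) (PT.nd (nat_lit 78) (PT.lf (nat_lit 35340) (nat_lit 6) (nat_lit 465) (nat_lit 1) (nat_lit 207) (nat_lit 171) (nat_lit 192)) (PT.lf (nat_lit 35264) (nat_lit 6) (nat_lit 464) (nat_lit 1) (nat_lit 208) (nat_lit 171) (nat_lit 191)))) (PT.nd (nat_lit 156) (PT.nd (nat_lit 78) (PT.lf (nat_lit 35188) (nat_lit 6) (nat_lit 463) (nat_lit 1) (nat_lit 209) (nat_lit 171) (nat_lit 190)) (PT.lf (nat_lit 33592) (nat_lit 6) (nat_lit 442) (nat_lit 1) (nat_lit 210) (nat_lit 171) (nat_lit 189))) (PT.nd (nat_lit 78) (PT.lf (nat_lit 31920) (nat_lit 6) (nat_lit 420) (nat_lit 1) (nat_lit 211) (nat_lit 171) (nat_lit 188)) (PT.lf (nat_lit 30172) (nat_lit 6) (nat_lit 397) (nat_lit 1) (nat_lit 212) (nat_lit 171) (nat_lit 187))))))))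
noncomputable def pc14 : PT := (PT.nd (nat_lit 59358) (PT.nd (nat_lit 58188) (PT.nd (nat_lit 57642) (PT.nd (nat_lit 57330) (PT.nd (nat_lit 57174) (PT.lf (nat_lit 28348) (nat_lit 6) (nat_lit 373) (nat_lit 1) (nat_lit 213) (nat_lit 171) (nat_lit 186)) (PT.nd (nat_lit 78) (PT.lf (nat_lit 28272) (nat_lit 6) (nat_lit 372) (nat_lit 3) (nat_lit 185) (nat_lit 172) (nat_lit 213)) (PT.lf (nat_lit 30096) (nat_lit 6) (nat_lit 396) (nat_lit 3) (nat_lit 186) (nat_lit 172) (nat_lit 212)))) (PT.nd (nat_lit 156) (PT.nd (nat_lit 78) (PT.lf (nat_lit 31844) (nat_lit 6) (nat_lit 419) (nat_lit 3) (nat_lit 187) (nat_lit 172) (nat_lit 211)) (PT.lf (nat_lit 33516) (nat_lit 6) (nat_lit 441) (nat_lit 3) (nat_lit 188) (nat_lit 172) (nat_lit 210))) (PT.nd (nat_lit 78) (PT.lf (nat_lit 35112) (nat_lit 6) (nat_lit 462) (nat_lit 3) (nat_lit 189) (nat_lit 172) (nat_lit 209)) (PT.lf (nat_lit 36632) (nat_lit 6) (nat_lit 482) (nat_lit 3) (nat_lit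 190) (nat_lit 172) (nat_lit 208))))) (PT.nd (nat_lit 234) (PT.nd (nat_lit 78) (PT.lf (nat_lit 36708) (nat_lit 6) (nat_lit 483) (nat_lit 3) (nat_lit 191) (nat_lit 172) (nat_lit 207)) (PT.nd (nat_lit 78) (PT.lf (nat_lit 36784) (nat_lit 6) (nat_lit 484) (nat_lit 3) (nat_lit 192) (nat_lit 172) (nat_lit 206)) (PT.lf (nat_lit 36860) (nat_lit 6) (nat_lit 485) (nat_lit 3) (nat_lit 193) (nat_lit 172) (nat_lit 205)))) (PT.nd (nat_lit 156) (PT.nd (nat_lit 78) (PT.lf (nat_lit 36936) (nat_lit 6) (nat_lit 486) (nat_lit 3) (nat_lit 194) (nat_lit 172) (nat_lit 204)) (PT.lf (nat_lit 37012) (nat_lit 6) (nat_lit 487) (nat_lit 3) (nat_lit 195) (nat_lit 172) (nat_lit 203))) (PT.nd (nat_lit 78) (PT.lf (nat_lit 37088) (nat_lit 6) (nat_lit 488) (nat_lit 3) (nat_lit 196) (nat_lit 172) (nat_lit 202)) (PT.lf (nat_lit 37164) (nat_lit 6) (nat_lit 489) (nat_lit 3) (nat_lit 197) (nat_lit 172) (nat_lit 201)))))) (PT.nd (nat_lit 546) (PT.nd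 (nat_lit 234) (PT.nd (nat_lit 78) (PT.lf (nat_lit 37240) (nat_lit 6) (nat_lit 490) (nat_lit 3) (nat_lit 198) (nat_lit 172) (nat_lit 200)) (PT.nd (nat_lit 78) (PT.lf (nat_lit 37316) (nat_lit 3) (nat_lit 491) (nat_lit 1) (nat_lit 199) (nat_lit 172) (nat_lit 199)) (PT.lf (nat_lit 37240) (nat_lit 6) (nat_lit 490) (nat_lit 1) (nat_lit 200) (nat_lit 172) (nat_lit 198)))) (PT.nd (nat_lit 156) (PT.nd (nat_lit 78) (PT.lf (nat_lit 37164) (nat_lit 6) (nat_lit 489) (nat_lit 1) (nat_lit 201) (nat_lit 172) (nat_lit 197)) (PT.lf (nat_lit 37088) (nat_lit 6) (nat_lit 488) (nat_lit 1) (nat_lit 202) (nat_lit 172) (nat_lit 196))) (PT.nd (nat_lit 78) (PT.lf (nat_lit 37012) (nat_lit 6) (nat_lit 487) (nat_lit 1) (nat_lit 203) (nat_lit 172) (nat_lit 195)) (PT.lf (nat_lit 36936) (nat_lit 6) (nat_lit 486) (nat_lit 1) (nat_lit 204) (nat_lit 172) (nat_lit 194))))) (PT.nd (nat_lit 312) (PT.nd (nat_lit 156) (PT.nd (nat_lit 78) (PT.lf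 (nat_lit 36860) (nat_lit 6) (nat_lit 485) (nat_lit 1) (nat_lit 205) (nat_lit 172) (nat_lit 193)) (PT.lf (nat_lit 36784) (nat_lit 6) (nat_lit 484) (nat_lit 1) (nat_lit 206) (nat_lit 172) (nat_lit 192))) (PT.nd (nat_lit 78) (PT.lf (nat_lit 36708) (nat_lit 6) (nat_lit 483) (nat_lit 1) (nat_lit 207) (nat_lit 172) (nat_lit 191)) (PT.lf (nat_lit 36632) (nat_lit 6) (nat_lit 482) (nat_lit 1) (nat_lit 208) (nat_lit 172) (nat_lit 190)))) (PT.nd (nat_lit 156) (PT.nd (nat_lit 78) (PT.lf (nat_lit 35112) (nat_lit 6) (nat_lit 462) (nat_lit 1) (nat_lit 209) (nat_lit 172) (nat_lit 189)) (PT.lf (nat_lit 33516) (nat_lit 6) (nat_lit 441) (nat_lit 1) (nat_lit 210) (nat_lit 172) (nat_lit 188))) (PT.nd (nat_lit 78) (PT.lf (nat_lit 31844) (nat_lit 6) (nat_lit 419) (nat_lit 1) (nat_lit 211) (nat_lit 172) (nat_lit 187)) (PT.lf (nat_lit 30096) (nat_lit 6) (nat_lit 396) (nat_lit 1) (nat_lit 212) (nat_lit 172) (nat_lit 186))))))) (PT.nd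 (nat_lit 58110) (PT.nd (nat_lit 57564) (PT.nd (nat_lit 57252) (PT.nd (nat_lit 57096) (PT.lf (nat_lit 28272) (nat_lit 6) (nat_lit 372) (nat_lit 1) (nat_lit 213) (nat_lit 172) (nat_lit 185)) (PT.nd (nat_lit 78) (PT.lf (nat_lit 28196) (nat_lit 6) (nat_lit 371) (nat_lit 3) (nat_lit 184) (nat_lit 173) (nat_lit 213)) (PT.lf (nat_lit 30020) (nat_lit 6) (nat_lit 395) (nat_lit 3) (nat_lit 185) (nat_lit 173) (nat_lit 212)))) (PT.nd (nat_lit 156) (PT.nd (nat_lit 78) (PT.lf (nat_lit 31768) (nat_lit 6) (nat_lit 418) (nat_lit 3) (nat_lit 186) (nat_lit 173) (nat_lit 211)) (PT.lf (nat_lit 33440) (nat_lit 6) (nat_lit 440) (nat_lit 3) (nat_lit 187) (nat_lit 173) (nat_lit 210))) (PT.nd (nat_lit 78) (PT.lf (nat_lit 35036) (nat_lit 6) (nat_lit 461) (nat_lit 3) (nat_lit 188) (nat_lit 173) (nat_lit 209)) (PT.lf (nat_lit 36556) (nat_lit 6) (nat_lit 481) (nat_lit 3) (nat_lit 189) (nat_lit 173) (nat_lit 208))))) (PT.nd (nat_lit 234)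 (PT.nd (nat_lit 78) (PT.lf (nat_lit 38000) (nat_lit 6) (nat_lit 500) (nat_lit 3) (nat_lit 190) (nat_lit 173) (nat_lit 207)) (PT.nd (nat_lit 78) (PT.lf (nat_lit 38076) (nat_lit 6) (nat_lit 501) (nat_lit 3) (nat_lit 191) (nat_lit 173) (nat_lit 206)) (PT.lf (nat_lit 38152) (nat_lit 6) (nat_lit 502) (nat_lit 3) (nat_lit 192) (nat_lit 173) (nat_lit 205)))) (PT.nd (nat_lit 156) (PT.nd (nat_lit 78) (PT.lf (nat_lit 38228) (nat_lit 6) (nat_lit 503) (nat_lit 3) (nat_lit 193) (nat_lit 173) (nat_lit 204)) (PT.lf (nat_lit 38304) (nat_lit 6) (nat_lit 504) (nat_lit 3) (nat_lit 194) (nat_lit 173) (nat_lit 203))) (PT.nd (nat_lit 78) (PT.lf (nat_lit 38380) (nat_lit 6) (nat_lit 505) (nat_lit 3) (nat_lit 195) (nat_lit 173) (nat_lit 202)) (PT.lf (nat_lit 38456) (nat_lit 6) (nat_lit 506) (nat_lit 3) (nat_lit 196) (nat_lit 173) (nat_lit 201)))))) (PT.nd (nat_lit 546) (PT.nd (nat_lit 234) (PT.nd (nat_lit 78) (PT.lf (nat_lit 38532)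 (nat_lit 6) (nat_lit 507) (nat_lit 3) (nat_lit 197) (nat_lit 173) (nat_lit 200)) (PT.nd (nat_lit 78) (PT.lf (nat_lit 38608) (nat_lit 6) (nat_lit 508) (nat_lit 3) (nat_lit 198) (nat_lit 173) (nat_lit 199)) (PT.lf (nat_lit 38608) (nat_lit 6) (nat_lit 508) (nat_lit 1) (nat_lit 199) (nat_lit 173) (nat_lit 198)))) (PT.nd (nat_lit 156) (PT.nd (nat_lit 78) (PT.lf (nat_lit 38532) (nat_lit 6) (nat_lit 507) (nat_lit 1) (nat_lit 200) (nat_lit 173) (nat_lit 197)) (PT.lf (nat_lit 38456) (nat_lit 6) (nat_lit 506) (nat_lit 1) (nat_lit 201) (nat_lit 173) (nat_lit 196))) (PT.nd (nat_lit 78) (PT.lf (nat_lit 38380) (nat_lit 6) (nat_lit 505) (nat_lit 1) (nat_lit 202) (nat_lit 173) (nat_lit 195)) (PT.lf (nat_lit 38304) (nat_lit 6) (nat_lit 504) (nat_lit 1) (nat_lit 203) (nat_lit 173) (nat_lit 194))))) (PT.nd (nat_lit 312) (PT.nd (nat_lit 156) (PT.nd (nat_lit 78) (PT.lf (nat_lit 38228) (nat_lit 6) (nat_lit 503) (nat_lit 1) (nat_lit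 204) (nat_lit 173) (nat_lit 193)) (PT.lf (nat_lit 38152) (nat_lit 6) (nat_lit 502) (nat_lit 1) (nat_lit 205) (nat_lit 173) (nat_lit 192))) (PT.nd (nat_lit 78) (PT.lf (nat_lit 38076) (nat_lit 6) (nat_lit 501) (nat_lit 1) (nat_lit 206) (nat_lit 173) (nat_lit 191)) (PT.lf (nat_lit 38000) (nat_lit 6) (nat_lit 500) (nat_lit 1) (nat_lit 207) (nat_lit 173) (nat_lit 190)))) (PT.nd (nat_lit 156) (PT.nd (nat_lit 78) (PT.lf (nat_lit 36556) (nat_lit 6) (nat_lit 481) (nat_lit 1) (nat_lit 208) (nat_lit 173) (nat_lit 189)) (PT.lf (nat_lit 35036) (nat_lit 6) (nat_lit 461) (nat_lit 1) (nat_lit 209) (nat_lit 173) (nat_lit 188))) (PT.nd (nat_lit 78) (PT.lf (nat_lit 33440) (nat_lit 6) (nat_lit 440) (nat_lit 1) (nat_lit 210) (nat_lit 173) (nat_lit 187)) (PT.lf (nat_lit 31768) (nat_lit 6) (nat_lit 418) (nat_lit 1) (nat_lit 211) (nat_lit 173) (nat_lit 186))))))))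
noncomputable def pc15 : PT := (PT.nd (nat_lit 59202) (PT.nd (nat_lit 58032) (PT.nd (nat_lit 57486) (PT.nd (nat_lit 57174) (PT.nd (nat_lit 78) (PT.lf (nat_lit 30020) (nat_lit 6) (nat_lit 395) (nat_lit 1) (nat_lit 212) (nat_lit 173) (nat_lit 185)) (PT.nd (nat_lit 57018) (PT.lf (nat_lit 28196) (nat_lit 6) (nat_lit 371) (nat_lit 1) (nat_lit 213) (nat_lit 173) (nat_lit 184)) (PT.lf (nat_lit 28120) (nat_lit 6) (nat_lit 370) (nat_lit 3) (nat_lit 183) (nat_lit 174) (nat_lit 213)))) (PT.nd (nat_lit 156) (PT.nd (nat_lit 78) (PT.lf (nat_lit 29944) (nat_lit 6) (nat_lit 394) (nat_lit 3) (nat_lit 184) (nat_lit 174) (nat_lit 212)) (PT.lf (nat_lit 31692) (nat_lit 6) (nat_lit 417) (nat_lit 3) (nat_lit 185) (nat_lit 174) (nat_lit 211))) (PT.nd (nat_lit 78) (PT.lf (nat_lit 33364) (nat_lit 6) (nat_lit 439) (nat_lit 3) (nat_lit 186) (nat_lit 174) (nat_lit 210)) (PT.lf (nat_lit 34960) (nat_lit 6) (nat_lit 460) (nat_lit 3) (nat_lit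 187) (nat_lit 174) (nat_lit 209))))) (PT.nd (nat_lit 234) (PT.nd (nat_lit 78) (PT.lf (nat_lit 36480) (nat_lit 6) (nat_lit 480) (nat_lit 3) (nat_lit 188) (nat_lit 174) (nat_lit 208)) (PT.nd (nat_lit 78) (PT.lf (nat_lit 37924) (nat_lit 6) (nat_lit 499) (nat_lit 3) (nat_lit 189) (nat_lit 174) (nat_lit 207)) (PT.lf (nat_lit 39292) (nat_lit 6) (nat_lit 517) (nat_lit 3) (nat_lit 190) (nat_lit 174) (nat_lit 206)))) (PT.nd (nat_lit 156) (PT.nd (nat_lit 78) (PT.lf (nat_lit 39368) (nat_lit 6) (nat_lit 518) (nat_lit 3) (nat_lit 191) (nat_lit 174) (nat_lit 205)) (PT.lf (nat_lit 39444) (nat_lit 6) (nat_lit 519) (nat_lit 3) (nat_lit 192) (nat_lit 174) (nat_lit 204))) (PT.nd (nat_lit 78) (PT.lf (nat_lit 39520) (nat_lit 6) (nat_lit 520) (nat_lit 3) (nat_lit 193) (nat_lit 174) (nat_lit 203)) (PT.lf (nat_lit 39596) (nat_lit 6) (nat_lit 521) (nat_lit 3) (nat_lit 194) (nat_lit 174) (nat_lit 202)))))) (PT.nd (nat_lit 546) (PT.nd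 (nat_lit 234) (PT.nd (nat_lit 78) (PT.lf (nat_lit 39672) (nat_lit 6) (nat_lit 522) (nat_lit 3) (nat_lit 195) (nat_lit 174) (nat_lit 201)) (PT.nd (nat_lit 78) (PT.lf (nat_lit 39748) (nat_lit 6) (nat_lit 523) (nat_lit 3) (nat_lit 196) (nat_lit 174) (nat_lit 200)) (PT.lf (nat_lit 39824) (nat_lit 6) (nat_lit 524) (nat_lit 3) (nat_lit 197) (nat_lit 174) (nat_lit 199)))) (PT.nd (nat_lit 156) (PT.nd (nat_lit 78) (PT.lf (nat_lit 39900) (nat_lit 3) (nat_lit 525) (nat_lit 1) (nat_lit 198) (nat_lit 174) (nat_lit 198)) (PT.lf (nat_lit 39824) (nat_lit 6) (nat_lit 524) (nat_lit 1) (nat_lit 199) (nat_lit 174) (nat_lit 197))) (PT.nd (nat_lit 78) (PT.lf (nat_lit 39748) (nat_lit 6) (nat_lit 523) (nat_lit 1) (nat_lit 200) (nat_lit 174) (nat_lit 196)) (PT.lf (nat_lit 39672) (nat_lit 6) (nat_lit 522) (nat_lit 1) (nat_lit 201) (nat_lit 174) (nat_lit 195))))) (PT.nd (nat_lit 312) (PT.nd (nat_lit 156) (PT.nd (nat_lit 78) (PT.lf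 (nat_lit 39596) (nat_lit 6) (nat_lit 521) (nat_lit 1) (nat_lit 202) (nat_lit 174) (nat_lit 194)) (PT.lf (nat_lit 39520) (nat_lit 6) (nat_lit 520) (nat_lit 1) (nat_lit 203) (nat_lit 174) (nat_lit 193))) (PT.nd (nat_lit 78) (PT.lf (nat_lit 39444) (nat_lit 6) (nat_lit 519) (nat_lit 1) (nat_lit 204) (nat_lit 174) (nat_lit 192)) (PT.lf (nat_lit 39368) (nat_lit 6) (nat_lit 518) (nat_lit 1) (nat_lit 205) (nat_lit 174) (nat_lit 191)))) (PT.nd (nat_lit 156) (PT.nd (nat_lit 78) (PT.lf (nat_lit 39292) (nat_lit 6) (nat_lit 517) (nat_lit 1) (nat_lit 206) (nat_lit 174) (nat_lit 190)) (PT.lf (nat_lit 37924) (nat_lit 6) (nat_lit 499) (nat_lit 1) (nat_lit 207) (nat_lit 174) (nat_lit 189))) (PT.nd (nat_lit 78) (PT.lf (nat_lit 36480) (nat_lit 6) (nat_lit 480) (nat_lit 1) (nat_lit 208) (nat_lit 174) (nat_lit 188)) (PT.lf (nat_lit 34960) (nat_lit 6) (nat_lit 460) (nat_lit 1) (nat_lit 209) (nat_lit 174) (nat_lit 187))))))) (PT.nd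 (nat_lit 57954) (PT.nd (nat_lit 57408) (PT.nd (nat_lit 234) (PT.nd (nat_lit 78) (PT.lf (nat_lit 33364) (nat_lit 6) (nat_lit 439) (nat_lit 1) (nat_lit 210) (nat_lit 174) (nat_lit 186)) (PT.nd (nat_lit 78) (PT.lf (nat_lit 31692) (nat_lit 6) (nat_lit 417) (nat_lit 1) (nat_lit 211) (nat_lit 174) (nat_lit 185)) (PT.lf (nat_lit 29944) (nat_lit 6) (nat_lit 394) (nat_lit 1) (nat_lit 212) (nat_lit 174) (nat_lit 184)))) (PT.nd (nat_lit 57018) (PT.nd (nat_lit 56940) (PT.lf (nat_lit 28120) (nat_lit 6) (nat_lit 370) (nat_lit 1) (nat_lit 213) (nat_lit 174) (nat_lit 183)) (PT.lf (nat_lit 28044) (nat_lit 6) (nat_lit 369) (nat_lit 3) (nat_lit 182) (nat_lit 175) (nat_lit 213))) (PT.nd (nat_lit 78) (PT.lf (nat_lit 29868) (nat_lit 6) (nat_lit 393) (nat_lit 3) (nat_lit 183) (nat_lit 175) (nat_lit 212)) (PT.lf (nat_lit 31616) (nat_lit 6) (nat_lit 416) (nat_lit 3) (nat_lit 184) (nat_lit 175) (nat_lit 211))))) (PT.nd (nat_lit 234)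 (PT.nd (nat_lit 78) (PT.lf (nat_lit 33288) (nat_lit 6) (nat_lit 438) (nat_lit 3) (nat_lit 185) (nat_lit 175) (nat_lit 210)) (PT.nd (nat_lit 78) (PT.lf (nat_lit 34884) (nat_lit 6) (nat_lit 459) (nat_lit 3) (nat_lit 186) (nat_lit 175) (nat_lit 209)) (PT.lf (nat_lit 36404) (nat_lit 6) (nat_lit 479) (nat_lit 3) (nat_lit 187) (nat_lit 175) (nat_lit 208)))) (PT.nd (nat_lit 156) (PT.nd (nat_lit 78) (PT.lf (nat_lit 37848) (nat_lit 6) (nat_lit 498) (nat_lit 3) (nat_lit 188) (nat_lit 175) (nat_lit 207)) (PT.lf (nat_lit 39216) (nat_lit 6) (nat_lit 516) (nat_lit 3) (nat_lit 189) (nat_lit 175) (nat_lit 206))) (PT.nd (nat_lit 78) (PT.lf (nat_lit 40508) (nat_lit 6) (nat_lit 533) (nat_lit 3) (nat_lit 190) (nat_lit 175) (nat_lit 205)) (PT.lf (nat_lit 40584) (nat_lit 6) (nat_lit 534) (nat_lit 3) (nat_lit 191) (nat_lit 175) (nat_lit 204)))))) (PT.nd (nat_lit 546) (PT.nd (nat_lit 234) (PT.nd (nat_lit 78) (PT.lf (nat_lit 40660)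 (nat_lit 6) (nat_lit 535) (nat_lit 3) (nat_lit 192) (nat_lit 175) (nat_lit 203)) (PT.nd (nat_lit 78) (PT.lf (nat_lit 40736) (nat_lit 6) (nat_lit 536) (nat_lit 3) (nat_lit 193) (nat_lit 175) (nat_lit 202)) (PT.lf (nat_lit 40812) (nat_lit 6) (nat_lit 537) (nat_lit 3) (nat_lit 194) (nat_lit 175) (nat_lit 201)))) (PT.nd (nat_lit 156) (PT.nd (nat_lit 78) (PT.lf (nat_lit 40888) (nat_lit 6) (nat_lit 538) (nat_lit 3) (nat_lit 195) (nat_lit 175) (nat_lit 200)) (PT.lf (nat_lit 40964) (nat_lit 6) (nat_lit 539) (nat_lit 3) (nat_lit 196) (nat_lit 175) (nat_lit 199))) (PT.nd (nat_lit 78) (PT.lf (nat_lit 41040) (nat_lit 6) (nat_lit 540) (nat_lit 3) (nat_lit 197) (nat_lit 175) (nat_lit 198)) (PT.lf (nat_lit 41040) (nat_lit 6) (nat_lit 540) (nat_lit 1) (nat_lit 198) (nat_lit 175) (nat_lit 197))))) (PT.nd (nat_lit 312) (PT.nd (nat_lit 156) (PT.nd (nat_lit 78) (PT.lf (nat_lit 40964) (nat_lit 6) (nat_lit 539) (nat_lit 1) (nat_lit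 199) (nat_lit 175) (nat_lit 196)) (PT.lf (nat_lit 40888) (nat_lit 6) (nat_lit 538) (nat_lit 1) (nat_lit 200) (nat_lit 175) (nat_lit 195))) (PT.nd (nat_lit 78) (PT.lf (nat_lit 40812) (nat_lit 6) (nat_lit 537) (nat_lit 1) (nat_lit 201) (nat_lit 175) (nat_lit 194)) (PT.lf (nat_lit 40736) (nat_lit 6) (nat_lit 536) (nat_lit 1) (nat_lit 202) (nat_lit 175) (nat_lit 193)))) (PT.nd (nat_lit 156) (PT.nd (nat_lit 78) (PT.lf (nat_lit 40660) (nat_lit 6) (nat_lit 535) (nat_lit 1) (nat_lit 203) (nat_lit 175) (nat_lit 192)) (PT.lf (nat_lit 40584) (nat_lit 6) (nat_lit 534) (nat_lit 1) (nat_lit 204) (nat_lit 175) (nat_lit 191))) (PT.nd (nat_lit 78) (PT.lf (nat_lit 40508) (nat_lit 6) (nat_lit 533) (nat_lit 1) (nat_lit 205) (nat_lit 175) (nat_lit 190)) (PT.lf (nat_lit 39216) (nat_lit 6) (nat_lit 516) (nat_lit 1) (nat_lit 206) (nat_lit 175) (nat_lit 189))))))))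
noncomputable def pc16 : PT := (PT.nd (nat_lit 58968) (PT.nd (nat_lit 57876) (PT.nd (nat_lit 57330) (PT.nd (nat_lit 234) (PT.nd (nat_lit 78) (PT.lf (nat_lit 37848) (nat_lit 6) (nat_lit 498) (nat_lit 1) (nat_lit 207) (nat_lit 175) (nat_lit 188)) (PT.nd (nat_lit 78) (PT.lf (nat_lit 36404) (nat_lit 6) (nat_lit 479) (nat_lit 1) (nat_lit 208) (nat_lit 175) (nat_lit 187)) (PT.lf (nat_lit 34884) (nat_lit 6) (nat_lit 459) (nat_lit 1) (nat_lit 209) (nat_lit 175) (nat_lit 186)))) (PT.nd (nat_lit 156) (PT.nd (nat_lit 78) (PT.lf (nat_lit 33288) (nat_lit 6) (nat_lit 438) (nat_lit 1) (nat_lit 210) (nat_lit 175) (nat_lit 185)) (PT.lf (nat_lit 31616) (nat_lit 6) (nat_lit 416) (nat_lit 1) (nat_lit 211) (nat_lit 175) (nat_lit 184))) (PT.nd (nat_lit 78) (PT.lf (nat_lit 29868) (nat_lit 6) (nat_lit 393) (nat_lit 1) (nat_lit 212) (nat_lit 175) (nat_lit 183)) (PT.lf (nat_lit 28044) (nat_lit 6) (nat_lit 369) (nat_lit 1) (nat_lit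 213) (nat_lit 175) (nat_lit 182))))) (PT.nd (nat_lit 234) (PT.nd (nat_lit 78) (PT.lf (nat_lit 27968) (nat_lit 6) (nat_lit 368) (nat_lit 3) (nat_lit 181) (nat_lit 176) (nat_lit 213)) (PT.nd (nat_lit 78) (PT.lf (nat_lit 29792) (nat_lit 6) (nat_lit 392) (nat_lit 3) (nat_lit 182) (nat_lit 176) (nat_lit 212)) (PT.lf (nat_lit 31540) (nat_lit 6) (nat_lit 415) (nat_lit 3) (nat_lit 183) (nat_lit 176) (nat_lit 211)))) (PT.nd (nat_lit 156) (PT.nd (nat_lit 78) (PT.lf (nat_lit 33212) (nat_lit 6) (nat_lit 437) (nat_lit 3) (nat_lit 184) (nat_lit 176) (nat_lit 210)) (PT.lf (nat_lit 34808) (nat_lit 6) (nat_lit 458) (nat_lit 3) (nat_lit 185) (nat_lit 176) (nat_lit 209))) (PT.nd (nat_lit 78) (PT.lf (nat_lit 36328) (nat_lit 6) (nat_lit 478) (nat_lit 3) (nat_lit 186) (nat_lit 176) (nat_lit 208)) (PT.lf (nat_lit 37772) (nat_lit 6) (nat_lit 497) (nat_lit 3) (nat_lit 187) (nat_lit 176) (nat_lit 207)))))) (PT.nd (nat_lit 546) (PT.nd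 (nat_lit 234) (PT.nd (nat_lit 78) (PT.lf (nat_lit 39140) (nat_lit 6) (nat_lit 515) (nat_lit 3) (nat_lit 188) (nat_lit 176) (nat_lit 206)) (PT.nd (nat_lit 78) (PT.lf (nat_lit 40432) (nat_lit 6) (nat_lit 532) (nat_lit 3) (nat_lit 189) (nat_lit 176) (nat_lit 205)) (PT.lf (nat_lit 41648) (nat_lit 6) (nat_lit 548) (nat_lit 3) (nat_lit 190) (nat_lit 176) (nat_lit 204)))) (PT.nd (nat_lit 156) (PT.nd (nat_lit 78) (PT.lf (nat_lit 41724) (nat_lit 6) (nat_lit 549) (nat_lit 3) (nat_lit 191) (nat_lit 176) (nat_lit 203)) (PT.lf (nat_lit 41800) (nat_lit 6) (nat_lit 550) (nat_lit 3) (nat_lit 192) (nat_lit 176) (nat_lit 202))) (PT.nd (nat_lit 78) (PT.lf (nat_lit 41876) (nat_lit 6) (nat_lit 551) (nat_lit 3) (nat_lit 193) (nat_lit 176) (nat_lit 201)) (PT.lf (nat_lit 41952) (nat_lit 6) (nat_lit 552) (nat_lit 3) (nat_lit 194) (nat_lit 176) (nat_lit 200))))) (PT.nd (nat_lit 234) (PT.nd (nat_lit 78) (PT.lf (nat_lit 42028) (nat_lit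 6) (nat_lit 553) (nat_lit 3) (nat_lit 195) (nat_lit 176) (nat_lit 199)) (PT.nd (nat_lit 78) (PT.lf (nat_lit 42104) (nat_lit 6) (nat_lit 554) (nat_lit 3) (nat_lit 196) (nat_lit 176) (nat_lit 198)) (PT.lf (nat_lit 42180) (nat_lit 3) (nat_lit 555) (nat_lit 1) (nat_lit 197) (nat_lit 176) (nat_lit 197)))) (PT.nd (nat_lit 156) (PT.nd (nat_lit 78) (PT.lf (nat_lit 42104) (nat_lit 6) (nat_lit 554) (nat_lit 1) (nat_lit 198) (nat_lit 176) (nat_lit 196)) (PT.lf (nat_lit 42028) (nat_lit 6) (nat_lit 553) (nat_lit 1) (nat_lit 199) (nat_lit 176) (nat_lit 195))) (PT.nd (nat_lit 78) (PT.lf (nat_lit 41952) (nat_lit 6) (nat_lit 552) (nat_lit 1) (nat_lit 200) (nat_lit 176) (nat_lit 194)) (PT.lf (nat_lit 41876) (nat_lit 6) (nat_lit 551) (nat_lit 1) (nat_lit 201) (nat_lit 176) (nat_lit 193))))))) (PT.nd (nat_lit 57798) (PT.nd (nat_lit 546) (PT.nd (nat_lit 234) (PT.nd (nat_lit 78) (PT.lf (nat_lit 41800) (nat_lit 6) (nat_lit 550)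 (nat_lit 1) (nat_lit 202) (nat_lit 176) (nat_lit 192)) (PT.nd (nat_lit 78) (PT.lf (nat_lit 41724) (nat_lit 6) (nat_lit 549) (nat_lit 1) (nat_lit 203) (nat_lit 176) (nat_lit 191)) (PT.lf (nat_lit 41648) (nat_lit 6) (nat_lit 548) (nat_lit 1) (nat_lit 204) (nat_lit 176) (nat_lit 190)))) (PT.nd (nat_lit 156) (PT.nd (nat_lit 78) (PT.lf (nat_lit 40432) (nat_lit 6) (nat_lit 532) (nat_lit 1) (nat_lit 205) (nat_lit 176) (nat_lit 189)) (PT.lf (nat_lit 39140) (nat_lit 6) (nat_lit 515) (nat_lit 1) (nat_lit 206) (nat_lit 176) (nat_lit 188))) (PT.nd (nat_lit 78) (PT.lf (nat_lit 37772) (nat_lit 6) (nat_lit 497) (nat_lit 1) (nat_lit 207) (nat_lit 176) (nat_lit 187)) (PT.lf (nat_lit 36328) (nat_lit 6) (nat_lit 478) (nat_lit 1) (nat_lit 208) (nat_lit 176) (nat_lit 186))))) (PT.nd (nat_lit 234) (PT.nd (nat_lit 78) (PT.lf (nat_lit 34808) (nat_lit 6) (nat_lit 458) (nat_lit 1) (nat_lit 209) (nat_lit 176) (nat_lit 185)) (PT.nd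 (nat_lit 78) (PT.lf (nat_lit 33212) (nat_lit 6) (nat_lit 437) (nat_lit 1) (nat_lit 210) (nat_lit 176) (nat_lit 184)) (PT.lf (nat_lit 31540) (nat_lit 6) (nat_lit 415) (nat_lit 1) (nat_lit 211) (nat_lit 176) (nat_lit 183)))) (PT.nd (nat_lit 56862) (PT.nd (nat_lit 78) (PT.lf (nat_lit 29792) (nat_lit 6) (nat_lit 392) (nat_lit 1) (nat_lit 212) (nat_lit 176) (nat_lit 182)) (PT.lf (nat_lit 27968) (nat_lit 6) (nat_lit 368) (nat_lit 1) (nat_lit 213) (nat_lit 176) (nat_lit 181))) (PT.nd (nat_lit 78) (PT.lf (nat_lit 27892) (nat_lit 6) (nat_lit 367) (nat_lit 3) (nat_lit 180) (nat_lit 177) (nat_lit 213)) (PT.lf (nat_lit 29716) (nat_lit 6) (nat_lit 391) (nat_lit 3) (nat_lit 181) (nat_lit 177) (nat_lit 212)))))) (PT.nd (nat_lit 546) (PT.nd (nat_lit 234) (PT.nd (nat_lit 78) (PT.lf (nat_lit 31464) (nat_lit 6) (nat_lit 414) (nat_lit 3) (nat_lit 182) (nat_lit 177) (nat_lit 211)) (PT.nd (nat_lit 78) (PT.lf (nat_lit 33136) (nat_lit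 6) (nat_lit 436) (nat_lit 3) (nat_lit 183) (nat_lit 177) (nat_lit 210)) (PT.lf (nat_lit 34732) (nat_lit 6) (nat_lit 457) (nat_lit 3) (nat_lit 184) (nat_lit 177) (nat_lit 209)))) (PT.nd (nat_lit 156) (PT.nd (nat_lit 78) (PT.lf (nat_lit 36252) (nat_lit 6) (nat_lit 477) (nat_lit 3) (nat_lit 185) (nat_lit 177) (nat_lit 208)) (PT.lf (nat_lit 37696) (nat_lit 6) (nat_lit 496) (nat_lit 3) (nat_lit 186) (nat_lit 177) (nat_lit 207))) (PT.nd (nat_lit 78) (PT.lf (nat_lit 39064) (nat_lit 6) (nat_lit 514) (nat_lit 3) (nat_lit 187) (nat_lit 177) (nat_lit 206)) (PT.lf (nat_lit 40356) (nat_lit 6) (nat_lit 531) (nat_lit 3) (nat_lit 188) (nat_lit 177) (nat_lit 205))))) (PT.nd (nat_lit 312) (PT.nd (nat_lit 156) (PT.nd (nat_lit 78) (PT.lf (nat_lit 41572) (nat_lit 6) (nat_lit 547) (nat_lit 3) (nat_lit 189) (nat_lit 177) (nat_lit 204)) (PT.lf (nat_lit 42712) (nat_lit 6) (nat_lit 562) (nat_lit 3) (nat_lit 190) (nat_lit 177) (nat_lit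 203))) (PT.nd (nat_lit 78) (PT.lf (nat_lit 42788) (nat_lit 6) (nat_lit 563) (nat_lit 3) (nat_lit 191) (nat_lit 177) (nat_lit 202)) (PT.lf (nat_lit 42864) (nat_lit 6) (nat_lit 564) (nat_lit 3) (nat_lit 192) (nat_lit 177) (nat_lit 201)))) (PT.nd (nat_lit 156) (PT.nd (nat_lit 78) (PT.lf (nat_lit 42940) (nat_lit 6) (nat_lit 565) (nat_lit 3) (nat_lit 193) (nat_lit 177) (nat_lit 200)) (PT.lf (nat_lit 43016) (nat_lit 6) (nat_lit 566) (nat_lit 3) (nat_lit 194) (nat_lit 177) (nat_lit 199))) (PT.nd (nat_lit 78) (PT.lf (nat_lit 43092) (nat_lit 6) (nat_lit 567) (nat_lit 3) (nat_lit 195) (nat_lit 177) (nat_lit 198)) (PT.lf (nat_lit 43168) (nat_lit 6) (nat_lit 568) (nat_lit 3) (nat_lit 196) (nat_lit 177) (nat_lit 197))))))))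
noncomputable def pc17 : PT := (PT.nd (nat_lit 58890) (PT.nd (nat_lit 1092) (PT.nd (nat_lit 546) (PT.nd (nat_lit 234) (PT.nd (nat_lit 78) (PT.lf (nat_lit 43168) (nat_lit 6) (nat_lit 568) (nat_lit 1) (nat_lit 197) (nat_lit 177) (nat_lit 196)) (PT.nd (nat_lit 78) (PT.lf (nat_lit 43092) (nat_lit 6) (nat_lit 567) (nat_lit 1) (nat_lit 198) (nat_lit 177) (nat_lit 195)) (PT.lf (nat_lit 43016) (nat_lit 6) (nat_lit 566) (nat_lit 1) (nat_lit 199) (nat_lit 177) (nat_lit 194)))) (PT.nd (nat_lit 156) (PT.nd (nat_lit 78) (PT.lf (nat_lit 42940) (nat_lit 6) (nat_lit 565) (nat_lit 1) (nat_lit 200) (nat_lit 177) (nat_lit 193)) (PT.lf (nat_lit 42864) (nat_lit 6) (nat_lit 564) (nat_lit 1) (nat_lit 201) (nat_lit 177) (nat_lit 192))) (PT.nd (nat_lit 78) (PT.lf (nat_lit 42788) (nat_lit 6) (nat_lit 563) (nat_lit 1) (nat_lit 202) (nat_lit 177) (nat_lit 191)) (PT.lf (nat_lit 42712) (nat_lit 6) (nat_lit 562) (nat_lit 1) (nat_lit 203)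 (nat_lit 177) (nat_lit 190))))) (PT.nd (nat_lit 234) (PT.nd (nat_lit 78) (PT.lf (nat_lit 41572) (nat_lit 6) (nat_lit 547) (nat_lit 1) (nat_lit 204) (nat_lit 177) (nat_lit 189)) (PT.nd (nat_lit 78) (PT.lf (nat_lit 40356) (nat_lit 6) (nat_lit 531) (nat_lit 1) (nat_lit 205) (nat_lit 177) (nat_lit 188)) (PT.lf (nat_lit 39064) (nat_lit 6) (nat_lit 514) (nat_lit 1) (nat_lit 206) (nat_lit 177) (nat_lit 187)))) (PT.nd (nat_lit 156) (PT.nd (nat_lit 78) (PT.lf (nat_lit 37696) (nat_lit 6) (nat_lit 496) (nat_lit 1) (nat_lit 207) (nat_lit 177) (nat_lit 186)) (PT.lf (nat_lit 36252) (nat_lit 6) (nat_lit 477) (nat_lit 1) (nat_lit 208) (nat_lit 177) (nat_lit 185))) (PT.nd (nat_lit 78) (PT.lf (nat_lit 34732) (nat_lit 6) (nat_lit 457) (nat_lit 1) (nat_lit 209) (nat_lit 177) (nat_lit 184)) (PT.lf (nat_lit 33136) (nat_lit 6) (nat_lit 436) (nat_lit 1) (nat_lit 210) (nat_lit 177) (nat_lit 183)))))) (PT.nd (nat_lit 57174) (PT.nd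 (nat_lit 56862) (PT.nd (nat_lit 78) (PT.lf (nat_lit 31464) (nat_lit 6) (nat_lit 414) (nat_lit 1) (nat_lit 211) (nat_lit 177) (nat_lit 182)) (PT.nd (nat_lit 78) (PT.lf (nat_lit 29716) (nat_lit 6) (nat_lit 391) (nat_lit 1) (nat_lit 212) (nat_lit 177) (nat_lit 181)) (PT.lf (nat_lit 27892) (nat_lit 6) (nat_lit 367) (nat_lit 1) (nat_lit 213) (nat_lit 177) (nat_lit 180)))) (PT.nd (nat_lit 156) (PT.nd (nat_lit 78) (PT.lf (nat_lit 27816) (nat_lit 6) (nat_lit 366) (nat_lit 3) (nat_lit 179) (nat_lit 178) (nat_lit 213)) (PT.lf (nat_lit 29640) (nat_lit 6) (nat_lit 390) (nat_lit 3) (nat_lit 180) (nat_lit 178) (nat_lit 212))) (PT.nd (nat_lit 78) (PT.lf (nat_lit 31388) (nat_lit 6) (nat_lit 413) (nat_lit 3) (nat_lit 181) (nat_lit 178) (nat_lit 211)) (PT.lf (nat_lit 33060) (nat_lit 6) (nat_lit 435) (nat_lit 3) (nat_lit 182) (nat_lit 178) (nat_lit 210))))) (PT.nd (nat_lit 312) (PT.nd (nat_lit 156) (PT.nd (nat_lit 78) (PT.lf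 (nat_lit 34656) (nat_lit 6) (nat_lit 456) (nat_lit 3) (nat_lit 183) (nat_lit 178) (nat_lit 209)) (PT.lf (nat_lit 36176) (nat_lit 6) (nat_lit 476) (nat_lit 3) (nat_lit 184) (nat_lit 178) (nat_lit 208))) (PT.nd (nat_lit 78) (PT.lf (nat_lit 37620) (nat_lit 6) (nat_lit 495) (nat_lit 3) (nat_lit 185) (nat_lit 178) (nat_lit 207)) (PT.lf (nat_lit 38988) (nat_lit 6) (nat_lit 513) (nat_lit 3) (nat_lit 186) (nat_lit 178) (nat_lit 206)))) (PT.nd (nat_lit 156) (PT.nd (nat_lit 78) (PT.lf (nat_lit 40280) (nat_lit 6) (nat_lit 530) (nat_lit 3) (nat_lit 187) (nat_lit 178) (nat_lit 205)) (PT.lf (nat_lit 41496) (nat_lit 6) (nat_lit 546) (nat_lit 3) (nat_lit 188) (nat_lit 178) (nat_lit 204))) (PT.nd (nat_lit 78) (PT.lf (nat_lit 42636) (nat_lit 6) (nat_lit 561) (nat_lit 3) (nat_lit 189) (nat_lit 178) (nat_lit 203)) (PT.lf (nat_lit 43700) (nat_lit 6) (nat_lit 575) (nat_lit 3) (nat_lit 190) (nat_lit 178) (nat_lit 202))))))) (PT.nd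 (nat_lit 1092) (PT.nd (nat_lit 546) (PT.nd (nat_lit 234) (PT.nd (nat_lit 78) (PT.lf (nat_lit 43776) (nat_lit 6) (nat_lit 576) (nat_lit 3) (nat_lit 191) (nat_lit 178) (nat_lit 201)) (PT.nd (nat_lit 78) (PT.lf (nat_lit 43852) (nat_lit 6) (nat_lit 577) (nat_lit 3) (nat_lit 192) (nat_lit 178) (nat_lit 200)) (PT.lf (nat_lit 43928) (nat_lit 6) (nat_lit 578) (nat_lit 3) (nat_lit 193) (nat_lit 178) (nat_lit 199)))) (PT.nd (nat_lit 156) (PT.nd (nat_lit 78) (PT.lf (nat_lit 44004) (nat_lit 6) (nat_lit 579) (nat_lit 3) (nat_lit 194) (nat_lit 178) (nat_lit 198)) (PT.lf (nat_lit 44080) (nat_lit 6) (nat_lit 580) (nat_lit 3) (nat_lit 195) (nat_lit 178) (nat_lit 197))) (PT.nd (nat_lit 78) (PT.lf (nat_lit 44156) (nat_lit 3) (nat_lit 581) (nat_lit 1) (nat_lit 196) (nat_lit 178) (nat_lit 196)) (PT.lf (nat_lit 44080) (nat_lit 6) (nat_lit 580) (nat_lit 1) (nat_lit 197) (nat_lit 178) (nat_lit 195))))) (PT.nd (nat_lit 234) (PT.nd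 (nat_lit 78) (PT.lf (nat_lit 44004) (nat_lit 6) (nat_lit 579) (nat_lit 1) (nat_lit 198) (nat_lit 178) (nat_lit 194)) (PT.nd (nat_lit 78) (PT.lf (nat_lit 43928) (nat_lit 6) (nat_lit 578) (nat_lit 1) (nat_lit 199) (nat_lit 178) (nat_lit 193)) (PT.lf (nat_lit 43852) (nat_lit 6) (nat_lit 577) (nat_lit 1) (nat_lit 200) (nat_lit 178) (nat_lit 192)))) (PT.nd (nat_lit 156) (PT.nd (nat_lit 78) (PT.lf (nat_lit 43776) (nat_lit 6) (nat_lit 576) (nat_lit 1) (nat_lit 201) (nat_lit 178) (nat_lit 191)) (PT.lf (nat_lit 43700) (nat_lit 6) (nat_lit 575) (nat_lit 1) (nat_lit 202) (nat_lit 178) (nat_lit 190))) (PT.nd (nat_lit 78) (PT.lf (nat_lit 42636) (nat_lit 6) (nat_lit 561) (nat_lit 1) (nat_lit 203) (nat_lit 178) (nat_lit 189)) (PT.lf (nat_lit 41496) (nat_lit 6) (nat_lit 546) (nat_lit 1) (nat_lit 204) (nat_lit 178) (nat_lit 188)))))) (PT.nd (nat_lit 546) (PT.nd (nat_lit 234) (PT.nd (nat_lit 78) (PT.lf (nat_lit 40280) (nat_lit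 6) (nat_lit 530) (nat_lit 1) (nat_lit 205) (nat_lit 178) (nat_lit 187)) (PT.nd (nat_lit 78) (PT.lf (nat_lit 38988) (nat_lit 6) (nat_lit 513) (nat_lit 1) (nat_lit 206) (nat_lit 178) (nat_lit 186)) (PT.lf (nat_lit 37620) (nat_lit 6) (nat_lit 495) (nat_lit 1) (nat_lit 207) (nat_lit 178) (nat_lit 185)))) (PT.nd (nat_lit 156) (PT.nd (nat_lit 78) (PT.lf (nat_lit 36176) (nat_lit 6) (nat_lit 476) (nat_lit 1) (nat_lit 208) (nat_lit 178) (nat_lit 184)) (PT.lf (nat_lit 34656) (nat_lit 6) (nat_lit 456) (nat_lit 1) (nat_lit 209) (nat_lit 178) (nat_lit 183))) (PT.nd (nat_lit 78) (PT.lf (nat_lit 33060) (nat_lit 6) (nat_lit 435) (nat_lit 1) (nat_lit 210) (nat_lit 178) (nat_lit 182)) (PT.lf (nat_lit 31388) (nat_lit 6) (nat_lit 413) (nat_lit 1) (nat_lit 211) (nat_lit 178) (nat_lit 181))))) (PT.nd (nat_lit 56862) (PT.nd (nat_lit 56706) (PT.nd (nat_lit 78) (PT.lf (nat_lit 29640) (nat_lit 6) (nat_lit 390) (nat_lit 1) (nat_lit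 212) (nat_lit 178) (nat_lit 180)) (PT.lf (nat_lit 27816) (nat_lit 6) (nat_lit 366) (nat_lit 1) (nat_lit 213) (nat_lit 178) (nat_lit 179))) (PT.nd (nat_lit 78) (PT.lf (nat_lit 27816) (nat_lit 6) (nat_lit 366) (nat_lit 5) (nat_lit 178) (nat_lit 179) (nat_lit 213)) (PT.lf (nat_lit 29564) (nat_lit 3) (nat_lit 389) (nat_lit 3) (nat_lit 179) (nat_lit 179) (nat_lit 212)))) (PT.nd (nat_lit 156) (PT.nd (nat_lit 78) (PT.lf (nat_lit 31312) (nat_lit 6) (nat_lit 412) (nat_lit 3) (nat_lit 180) (nat_lit 179) (nat_lit 211)) (PT.lf (nat_lit 32984) (nat_lit 6) (nat_lit 434) (nat_lit 3) (nat_lit 181) (nat_lit 179) (nat_lit 210))) (PT.nd (nat_lit 78) (PT.lf (nat_lit 34580) (nat_lit 6) (nat_lit 455) (nat_lit 3) (nat_lit 182) (nat_lit 179) (nat_lit 209)) (PT.lf (nat_lit 36100) (nat_lit 6) (nat_lit 475) (nat_lit 3) (nat_lit 183) (nat_lit 179) (nat_lit 208))))))))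
noncomputable def pc18 : PT := (PT.nd (nat_lit 2184) (PT.nd (nat_lit 1092) (PT.nd (nat_lit 546) (PT.nd (nat_lit 234) (PT.nd (nat_lit 78) (PT.lf (nat_lit 37544) (nat_lit 6) (nat_lit 494) (nat_lit 3) (nat_lit 184) (nat_lit 179) (nat_lit 207)) (PT.nd (nat_lit 78) (PT.lf (nat_lit 38912) (nat_lit 6) (nat_lit 512) (nat_lit 3) (nat_lit 185) (nat_lit 179) (nat_lit 206)) (PT.lf (nat_lit 40204) (nat_lit 6) (nat_lit 529) (nat_lit 3) (nat_lit 186) (nat_lit 179) (nat_lit 205)))) (PT.nd (nat_lit 156) (PT.nd (nat_lit 78) (PT.lf (nat_lit 41420) (nat_lit 6) (nat_lit 545) (nat_lit 3) (nat_lit 187) (nat_lit 179) (nat_lit 204)) (PT.lf (nat_lit 42560) (nat_lit 6) (nat_lit 560) (nat_lit 3) (nat_lit 188) (nat_lit 179) (nat_lit 203))) (PT.nd (nat_lit 78) (PT.lf (nat_lit 43624) (nat_lit 6) (nat_lit 574) (nat_lit 3) (nat_lit 189) (nat_lit 179) (nat_lit 202)) (PT.lf (nat_lit 44612) (nat_lit 6) (nat_lit 587) (nat_lit 3) (nat_lit 190)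 (nat_lit 179) (nat_lit 201))))) (PT.nd (nat_lit 234) (PT.nd (nat_lit 78) (PT.lf (nat_lit 44688) (nat_lit 6) (nat_lit 588) (nat_lit 3) (nat_lit 191) (nat_lit 179) (nat_lit 200)) (PT.nd (nat_lit 78) (PT.lf (nat_lit 44764) (nat_lit 6) (nat_lit 589) (nat_lit 3) (nat_lit 192) (nat_lit 179) (nat_lit 199)) (PT.lf (nat_lit 44840) (nat_lit 6) (nat_lit 590) (nat_lit 3) (nat_lit 193) (nat_lit 179) (nat_lit 198)))) (PT.nd (nat_lit 156) (PT.nd (nat_lit 78) (PT.lf (nat_lit 44916) (nat_lit 6) (nat_lit 591) (nat_lit 3) (nat_lit 194) (nat_lit 179) (nat_lit 197)) (PT.lf (nat_lit 44992) (nat_lit 6) (nat_lit 592) (nat_lit 3) (nat_lit 195) (nat_lit 179) (nat_lit 196))) (PT.nd (nat_lit 78) (PT.lf (nat_lit 44992) (nat_lit 6) (nat_lit 592) (nat_lit 1) (nat_lit 196) (nat_lit 179) (nat_lit 195)) (PT.lf (nat_lit 44916) (nat_lit 6) (nat_lit 591) (nat_lit 1) (nat_lit 197) (nat_lit 179) (nat_lit 194)))))) (PT.nd (nat_lit 546) (PT.nd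 (nat_lit 234) (PT.nd (nat_lit 78) (PT.lf (nat_lit 44840) (nat_lit 6) (nat_lit 590) (nat_lit 1) (nat_lit 198) (nat_lit 179) (nat_lit 193)) (PT.nd (nat_lit 78) (PT.lf (nat_lit 44764) (nat_lit 6) (nat_lit 589) (nat_lit 1) (nat_lit 199) (nat_lit 179) (nat_lit 192)) (PT.lf (nat_lit 44688) (nat_lit 6) (nat_lit 588) (nat_lit 1) (nat_lit 200) (nat_lit 179) (nat_lit 191)))) (PT.nd (nat_lit 156) (PT.nd (nat_lit 78) (PT.lf (nat_lit 44612) (nat_lit 6) (nat_lit 587) (nat_lit 1) (nat_lit 201) (nat_lit 179) (nat_lit 190)) (PT.lf (nat_lit 43624) (nat_lit 6) (nat_lit 574) (nat_lit 1) (nat_lit 202) (nat_lit 179) (nat_lit 189))) (PT.nd (nat_lit 78) (PT.lf (nat_lit 42560) (nat_lit 6) (nat_lit 560) (nat_lit 1) (nat_lit 203) (nat_lit 179) (nat_lit 188)) (PT.lf (nat_lit 41420) (nat_lit 6) (nat_lit 545) (nat_lit 1) (nat_lit 204) (nat_lit 179) (nat_lit 187))))) (PT.nd (nat_lit 234) (PT.nd (nat_lit 78) (PT.lf (nat_lit 40204) (nat_lit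 6) (nat_lit 529) (nat_lit 1) (nat_lit 205) (nat_lit 179) (nat_lit 186)) (PT.nd (nat_lit 78) (PT.lf (nat_lit 38912) (nat_lit 6) (nat_lit 512) (nat_lit 1) (nat_lit 206) (nat_lit 179) (nat_lit 185)) (PT.lf (nat_lit 37544) (nat_lit 6) (nat_lit 494) (nat_lit 1) (nat_lit 207) (nat_lit 179) (nat_lit 184)))) (PT.nd (nat_lit 156) (PT.nd (nat_lit 78) (PT.lf (nat_lit 36100) (nat_lit 6) (nat_lit 475) (nat_lit 1) (nat_lit 208) (nat_lit 179) (nat_lit 183)) (PT.lf (nat_lit 34580) (nat_lit 6) (nat_lit 455) (nat_lit 1) (nat_lit 209) (nat_lit 179) (nat_lit 182))) (PT.nd (nat_lit 78) (PT.lf (nat_lit 32984) (nat_lit 6) (nat_lit 434) (nat_lit 1) (nat_lit 210) (nat_lit 179) (nat_lit 181)) (PT.lf (nat_lit 31312) (nat_lit 6) (nat_lit 412) (nat_lit 1) (nat_lit 211) (nat_lit 179) (nat_lit 180))))))) (PT.nd (nat_lit 57564) (PT.nd (nat_lit 57018) (PT.nd (nat_lit 56706) (PT.nd (nat_lit 78) (PT.lf (nat_lit 29564) (nat_lit 3) (nat_lit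 389) (nat_lit 0) (nat_lit 212) (nat_lit 179) (nat_lit 179)) (PT.nd (nat_lit 56550) (PT.lf (nat_lit 27816) (nat_lit 6) (nat_lit 366) (nat_lit 0) (nat_lit 213) (nat_lit 179) (nat_lit 178)) (PT.lf (nat_lit 27892) (nat_lit 6) (nat_lit 367) (nat_lit 5) (nat_lit 177) (nat_lit 180) (nat_lit 213)))) (PT.nd (nat_lit 156) (PT.nd (nat_lit 78) (PT.lf (nat_lit 29640) (nat_lit 6) (nat_lit 390) (nat_lit 5) (nat_lit 178) (nat_lit 180) (nat_lit 212)) (PT.lf (nat_lit 31312) (nat_lit 6) (nat_lit 412) (nat_lit 5) (nat_lit 179) (nat_lit 180) (nat_lit 211))) (PT.nd (nat_lit 78) (PT.lf (nat_lit 32908) (nat_lit 3) (nat_lit 433) (nat_lit 3) (nat_lit 180) (nat_lit 180) (nat_lit 210)) (PT.lf (nat_lit 34504) (nat_lit 6) (nat_lit 454) (nat_lit 3) (nat_lit 181) (nat_lit 180) (nat_lit 209))))) (PT.nd (nat_lit 234) (PT.nd (nat_lit 78) (PT.lf (nat_lit 36024) (nat_lit 6) (nat_lit 474) (nat_lit 3) (nat_lit 182) (nat_lit 180) (nat_lit 208))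 (PT.nd (nat_lit 78) (PT.lf (nat_lit 37468) (nat_lit 6) (nat_lit 493) (nat_lit 3) (nat_lit 183) (nat_lit 180) (nat_lit 207)) (PT.lf (nat_lit 38836) (nat_lit 6) (nat_lit 511) (nat_lit 3) (nat_lit 184) (nat_lit 180) (nat_lit 206)))) (PT.nd (nat_lit 156) (PT.nd (nat_lit 78) (PT.lf (nat_lit 40128) (nat_lit 6) (nat_lit 528) (nat_lit 3) (nat_lit 185) (nat_lit 180) (nat_lit 205)) (PT.lf (nat_lit 41344) (nat_lit 6) (nat_lit 544) (nat_lit 3) (nat_lit 186) (nat_lit 180) (nat_lit 204))) (PT.nd (nat_lit 78) (PT.lf (nat_lit 42484) (nat_lit 6) (nat_lit 559) (nat_lit 3) (nat_lit 187) (nat_lit 180) (nat_lit 203)) (PT.lf (nat_lit 43548) (nat_lit 6) (nat_lit 573) (nat_lit 3) (nat_lit 188) (nat_lit 180) (nat_lit 202)))))) (PT.nd (nat_lit 546) (PT.nd (nat_lit 234) (PT.nd (nat_lit 78) (PT.lf (nat_lit 44536) (nat_lit 6) (nat_lit 586) (nat_lit 3) (nat_lit 189) (nat_lit 180) (nat_lit 201)) (PT.nd (nat_lit 78) (PT.lf (nat_lit 45448)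 (nat_lit 6) (nat_lit 598) (nat_lit 3) (nat_lit 190) (nat_lit 180) (nat_lit 200)) (PT.lf (nat_lit 45524) (nat_lit 6) (nat_lit 599) (nat_lit 3) (nat_lit 191) (nat_lit 180) (nat_lit 199)))) (PT.nd (nat_lit 156) (PT.nd (nat_lit 78) (PT.lf (nat_lit 45600) (nat_lit 6) (nat_lit 600) (nat_lit 3) (nat_lit 192) (nat_lit 180) (nat_lit 198)) (PT.lf (nat_lit 45676) (nat_lit 6) (nat_lit 601) (nat_lit 3) (nat_lit 193) (nat_lit 180) (nat_lit 197))) (PT.nd (nat_lit 78) (PT.lf (nat_lit 45752) (nat_lit 6) (nat_lit 602) (nat_lit 3) (nat_lit 194) (nat_lit 180) (nat_lit 196)) (PT.lf (nat_lit 45828) (nat_lit 3) (nat_lit 603) (nat_lit 1) (nat_lit 195) (nat_lit 180) (nat_lit 195))))) (PT.nd (nat_lit 312) (PT.nd (nat_lit 156) (PT.nd (nat_lit 78) (PT.lf (nat_lit 45752) (nat_lit 6) (nat_lit 602) (nat_lit 1) (nat_lit 196) (nat_lit 180) (nat_lit 194)) (PT.lf (nat_lit 45676) (nat_lit 6) (nat_lit 601) (nat_lit 1) (nat_lit 197) (nat_lit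 180) (nat_lit 193))) (PT.nd (nat_lit 78) (PT.lf (nat_lit 45600) (nat_lit 6) (nat_lit 600) (nat_lit 1) (nat_lit 198) (nat_lit 180) (nat_lit 192)) (PT.lf (nat_lit 45524) (nat_lit 6) (nat_lit 599) (nat_lit 1) (nat_lit 199) (nat_lit 180) (nat_lit 191)))) (PT.nd (nat_lit 156) (PT.nd (nat_lit 78) (PT.lf (nat_lit 45448) (nat_lit 6) (nat_lit 598) (nat_lit 1) (nat_lit 200) (nat_lit 180) (nat_lit 190)) (PT.lf (nat_lit 44536) (nat_lit 6) (nat_lit 586) (nat_lit 1) (nat_lit 201) (nat_lit 180) (nat_lit 189))) (PT.nd (nat_lit 78) (PT.lf (nat_lit 43548) (nat_lit 6) (nat_lit 573) (nat_lit 1) (nat_lit 202) (nat_lit 180) (nat_lit 188)) (PT.lf (nat_lit 42484) (nat_lit 6) (nat_lit 559) (nat_lit 1) (nat_lit 203) (nat_lit 180) (nat_lit 187))))))))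
noncomputable def pc19 : PT := (PT.nd (nat_lit 58656) (PT.nd (nat_lit 57486) (PT.nd (nat_lit 546) (PT.nd (nat_lit 234) (PT.nd (nat_lit 78) (PT.lf (nat_lit 41344) (nat_lit 6) (nat_lit 544) (nat_lit 1) (nat_lit 204) (nat_lit 180) (nat_lit 186)) (PT.nd (nat_lit 78) (PT.lf (nat_lit 40128) (nat_lit 6) (nat_lit 528) (nat_lit 1) (nat_lit 205) (nat_lit 180) (nat_lit 185)) (PT.lf (nat_lit 38836) (nat_lit 6) (nat_lit 511) (nat_lit 1) (nat_lit 206) (nat_lit 180) (nat_lit 184)))) (PT.nd (nat_lit 156) (PT.nd (nat_lit 78) (PT.lf (nat_lit 37468) (nat_lit 6) (nat_lit 493) (nat_lit 1) (nat_lit 207) (nat_lit 180) (nat_lit 183)) (PT.lf (nat_lit 36024) (nat_lit 6) (nat_lit 474) (nat_lit 1) (nat_lit 208) (nat_lit 180) (nat_lit 182))) (PT.nd (nat_lit 78) (PT.lf (nat_lit 34504) (nat_lit 6) (nat_lit 454) (nat_lit 1) (nat_lit 209) (nat_lit 180) (nat_lit 181)) (PT.lf (nat_lit 32908) (nat_lit 3) (nat_lit 433) (nat_lit 0) (nat_lit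 210) (nat_lit 180) (nat_lit 180))))) (PT.nd (nat_lit 56628) (PT.nd (nat_lit 78) (PT.lf (nat_lit 31312) (nat_lit 6) (nat_lit 412) (nat_lit 0) (nat_lit 211) (nat_lit 180) (nat_lit 179)) (PT.nd (nat_lit 78) (PT.lf (nat_lit 29640) (nat_lit 6) (nat_lit 390) (nat_lit 0) (nat_lit 212) (nat_lit 180) (nat_lit 178)) (PT.lf (nat_lit 27892) (nat_lit 6) (nat_lit 367) (nat_lit 0) (nat_lit 213) (nat_lit 180) (nat_lit 177)))) (PT.nd (nat_lit 156) (PT.nd (nat_lit 78) (PT.lf (nat_lit 27968) (nat_lit 6) (nat_lit 368) (nat_lit 5) (nat_lit 176) (nat_lit 181) (nat_lit 213)) (PT.lf (nat_lit 29716) (nat_lit 6) (nat_lit 391) (nat_lit 5) (nat_lit 177) (nat_lit 181) (nat_lit 212))) (PT.nd (nat_lit 78) (PT.lf (nat_lit 31388) (nat_lit 6) (nat_lit 413) (nat_lit 5) (nat_lit 178) (nat_lit 181) (nat_lit 211)) (PT.lf (nat_lit 32984) (nat_lit 6) (nat_lit 434) (nat_lit 5) (nat_lit 179) (nat_lit 181) (nat_lit 210)))))) (PT.nd (nat_lit 546)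 (PT.nd (nat_lit 234) (PT.nd (nat_lit 78) (PT.lf (nat_lit 34504) (nat_lit 6) (nat_lit 454) (nat_lit 5) (nat_lit 180) (nat_lit 181) (nat_lit 209)) (PT.nd (nat_lit 78) (PT.lf (nat_lit 35948) (nat_lit 3) (nat_lit 473) (nat_lit 3) (nat_lit 181) (nat_lit 181) (nat_lit 208)) (PT.lf (nat_lit 37392) (nat_lit 6) (nat_lit 492) (nat_lit 3) (nat_lit 182) (nat_lit 181) (nat_lit 207)))) (PT.nd (nat_lit 156) (PT.nd (nat_lit 78) (PT.lf (nat_lit 38760) (nat_lit 6) (nat_lit 510) (nat_lit 3) (nat_lit 183) (nat_lit 181) (nat_lit 206)) (PT.lf (nat_lit 40052) (nat_lit 6) (nat_lit 527) (nat_lit 3) (nat_lit 184) (nat_lit 181) (nat_lit 205))) (PT.nd (nat_lit 78) (PT.lf (nat_lit 41268) (nat_lit 6) (nat_lit 543) (nat_lit 3) (nat_lit 185) (nat_lit 181) (nat_lit 204)) (PT.lf (nat_lit 42408) (nat_lit 6) (nat_lit 558) (nat_lit 3) (nat_lit 186) (nat_lit 181) (nat_lit 203))))) (PT.nd (nat_lit 312) (PT.nd (nat_lit 156) (PT.nd (nat_lit 78)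 (PT.lf (nat_lit 43472) (nat_lit 6) (nat_lit 572) (nat_lit 3) (nat_lit 187) (nat_lit 181) (nat_lit 202)) (PT.lf (nat_lit 44460) (nat_lit 6) (nat_lit 585) (nat_lit 3) (nat_lit 188) (nat_lit 181) (nat_lit 201))) (PT.nd (nat_lit 78) (PT.lf (nat_lit 45372) (nat_lit 6) (nat_lit 597) (nat_lit 3) (nat_lit 189) (nat_lit 181) (nat_lit 200)) (PT.lf (nat_lit 46208) (nat_lit 6) (nat_lit 608) (nat_lit 3) (nat_lit 190) (nat_lit 181) (nat_lit 199)))) (PT.nd (nat_lit 156) (PT.nd (nat_lit 78) (PT.lf (nat_lit 46284) (nat_lit 6) (nat_lit 609) (nat_lit 3) (nat_lit 191) (nat_lit 181) (nat_lit 198)) (PT.lf (nat_lit 46360) (nat_lit 6) (nat_lit 610) (nat_lit 3) (nat_lit 192) (nat_lit 181) (nat_lit 197))) (PT.nd (nat_lit 78) (PT.lf (nat_lit 46436) (nat_lit 6) (nat_lit 611) (nat_lit 3) (nat_lit 193) (nat_lit 181) (nat_lit 196)) (PT.lf (nat_lit 46512) (nat_lit 6) (nat_lit 612) (nat_lit 3) (nat_lit 194) (nat_lit 181) (nat_lit 195)))))))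 (PT.nd (nat_lit 1092) (PT.nd (nat_lit 546) (PT.nd (nat_lit 234) (PT.nd (nat_lit 78) (PT.lf (nat_lit 46512) (nat_lit 6) (nat_lit 612) (nat_lit 1) (nat_lit 195) (nat_lit 181) (nat_lit 194)) (PT.nd (nat_lit 78) (PT.lf (nat_lit 46436) (nat_lit 6) (nat_lit 611) (nat_lit 1) (nat_lit 196) (nat_lit 181) (nat_lit 193)) (PT.lf (nat_lit 46360) (nat_lit 6) (nat_lit 610) (nat_lit 1) (nat_lit 197) (nat_lit 181) (nat_lit 192)))) (PT.nd (nat_lit 156) (PT.nd (nat_lit 78) (PT.lf (nat_lit 46284) (nat_lit 6) (nat_lit 609) (nat_lit 1) (nat_lit 198) (nat_lit 181) (nat_lit 191)) (PT.lf (nat_lit 46208) (nat_lit 6) (nat_lit 608) (nat_lit 1) (nat_lit 199) (nat_lit 181) (nat_lit 190))) (PT.nd (nat_lit 78) (PT.lf (nat_lit 45372) (nat_lit 6) (nat_lit 597) (nat_lit 1) (nat_lit 200) (nat_lit 181) (nat_lit 189)) (PT.lf (nat_lit 44460) (nat_lit 6) (nat_lit 585) (nat_lit 1) (nat_lit 201) (nat_lit 181) (nat_lit 188))))) (PT.nd (nat_lit 234)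 (PT.nd (nat_lit 78) (PT.lf (nat_lit 43472) (nat_lit 6) (nat_lit 572) (nat_lit 1) (nat_lit 202) (nat_lit 181) (nat_lit 187)) (PT.nd (nat_lit 78) (PT.lf (nat_lit 42408) (nat_lit 6) (nat_lit 558) (nat_lit 1) (nat_lit 203) (nat_lit 181) (nat_lit 186)) (PT.lf (nat_lit 41268) (nat_lit 6) (nat_lit 543) (nat_lit 1) (nat_lit 204) (nat_lit 181) (nat_lit 185)))) (PT.nd (nat_lit 156) (PT.nd (nat_lit 78) (PT.lf (nat_lit 40052) (nat_lit 6) (nat_lit 527) (nat_lit 1) (nat_lit 205) (nat_lit 181) (nat_lit 184)) (PT.lf (nat_lit 38760) (nat_lit 6) (nat_lit 510) (nat_lit 1) (nat_lit 206) (nat_lit 181) (nat_lit 183))) (PT.nd (nat_lit 78) (PT.lf (nat_lit 37392) (nat_lit 6) (nat_lit 492) (nat_lit 1) (nat_lit 207) (nat_lit 181) (nat_lit 182)) (PT.lf (nat_lit 35948) (nat_lit 3) (nat_lit 473) (nat_lit 0) (nat_lit 208) (nat_lit 181) (nat_lit 181)))))) (PT.nd (nat_lit 56862) (PT.nd (nat_lit 234) (PT.nd (nat_lit 78) (PT.lf (nat_lit 34504)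 (nat_lit 6) (nat_lit 454) (nat_lit 0) (nat_lit 209) (nat_lit 181) (nat_lit 180)) (PT.nd (nat_lit 78) (PT.lf (nat_lit 32984) (nat_lit 6) (nat_lit 434) (nat_lit 0) (nat_lit 210) (nat_lit 181) (nat_lit 179)) (PT.lf (nat_lit 31388) (nat_lit 6) (nat_lit 413) (nat_lit 0) (nat_lit 211) (nat_lit 181) (nat_lit 178)))) (PT.nd (nat_lit 56472) (PT.nd (nat_lit 78) (PT.lf (nat_lit 29716) (nat_lit 6) (nat_lit 391) (nat_lit 0) (nat_lit 212) (nat_lit 181) (nat_lit 177)) (PT.lf (nat_lit 27968) (nat_lit 6) (nat_lit 368) (nat_lit 0) (nat_lit 213) (nat_lit 181) (nat_lit 176))) (PT.nd (nat_lit 78) (PT.lf (nat_lit 28044) (nat_lit 6) (nat_lit 369) (nat_lit 5) (nat_lit 175) (nat_lit 182) (nat_lit 213)) (PT.lf (nat_lit 29792) (nat_lit 6) (nat_lit 392) (nat_lit 5) (nat_lit 176) (nat_lit 182) (nat_lit 212))))) (PT.nd (nat_lit 312) (PT.nd (nat_lit 156) (PT.nd (nat_lit 78) (PT.lf (nat_lit 31464) (nat_lit 6) (nat_lit 414) (nat_lit 5)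 (nat_lit 177) (nat_lit 182) (nat_lit 211)) (PT.lf (nat_lit 33060) (nat_lit 6) (nat_lit 435) (nat_lit 5) (nat_lit 178) (nat_lit 182) (nat_lit 210))) (PT.nd (nat_lit 78) (PT.lf (nat_lit 34580) (nat_lit 6) (nat_lit 455) (nat_lit 5) (nat_lit 179) (nat_lit 182) (nat_lit 209)) (PT.lf (nat_lit 36024) (nat_lit 6) (nat_lit 474) (nat_lit 5) (nat_lit 180) (nat_lit 182) (nat_lit 208)))) (PT.nd (nat_lit 156) (PT.nd (nat_lit 78) (PT.lf (nat_lit 37392) (nat_lit 6) (nat_lit 492) (nat_lit 5) (nat_lit 181) (nat_lit 182) (nat_lit 207)) (PT.lf (nat_lit 38684) (nat_lit 3) (nat_lit 509) (nat_lit 3) (nat_lit 182) (nat_lit 182) (nat_lit 206))) (PT.nd (nat_lit 78) (PT.lf (nat_lit 39976) (nat_lit 6) (nat_lit 526) (nat_lit 3) (nat_lit 183) (nat_lit 182) (nat_lit 205)) (PT.lf (nat_lit 41192) (nat_lit 6) (nat_lit 542) (nat_lit 3) (nat_lit 184) (nat_lit 182) (nat_lit 204))))))))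
noncomputable def pc20 : PT := (PT.nd (nat_lit 2184) (PT.nd (nat_lit 1092) (PT.nd (nat_lit 546) (PT.nd (nat_lit 234) (PT.nd (nat_lit 78) (PT.lf (nat_lit 42332) (nat_lit 6) (nat_lit 557) (nat_lit 3) (nat_lit 185) (nat_lit 182) (nat_lit 203)) (PT.nd (nat_lit 78) (PT.lf (nat_lit 43396) (nat_lit 6) (nat_lit 571) (nat_lit 3) (nat_lit 186) (nat_lit 182) (nat_lit 202)) (PT.lf (nat_lit 44384) (nat_lit 6) (nat_lit 584) (nat_lit 3) (nat_lit 187) (nat_lit 182) (nat_lit 201)))) (PT.nd (nat_lit 156) (PT.nd (nat_lit 78) (PT.lf (nat_lit 45296) (nat_lit 6) (nat_lit 596) (nat_lit 3) (nat_lit 188) (nat_lit 182) (nat_lit 200)) (PT.lf (nat_lit 46132) (nat_lit 6) (nat_lit 607) (nat_lit 3) (nat_lit 189) (nat_lit 182) (nat_lit 199))) (PT.nd (nat_lit 78) (PT.lf (nat_lit 46892) (nat_lit 6) (nat_lit 617) (nat_lit 3) (nat_lit 190) (nat_lit 182) (nat_lit 198)) (PT.lf (nat_lit 46968) (nat_lit 6) (nat_lit 618) (nat_lit 3) (nat_lit 191)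 (nat_lit 182) (nat_lit 197))))) (PT.nd (nat_lit 234) (PT.nd (nat_lit 78) (PT.lf (nat_lit 47044) (nat_lit 6) (nat_lit 619) (nat_lit 3) (nat_lit 192) (nat_lit 182) (nat_lit 196)) (PT.nd (nat_lit 78) (PT.lf (nat_lit 47120) (nat_lit 6) (nat_lit 620) (nat_lit 3) (nat_lit 193) (nat_lit 182) (nat_lit 195)) (PT.lf (nat_lit 47196) (nat_lit 3) (nat_lit 621) (nat_lit 1) (nat_lit 194) (nat_lit 182) (nat_lit 194)))) (PT.nd (nat_lit 156) (PT.nd (nat_lit 78) (PT.lf (nat_lit 47120) (nat_lit 6) (nat_lit 620) (nat_lit 1) (nat_lit 195) (nat_lit 182) (nat_lit 193)) (PT.lf (nat_lit 47044) (nat_lit 6) (nat_lit 619) (nat_lit 1) (nat_lit 196) (nat_lit 182) (nat_lit 192))) (PT.nd (nat_lit 78) (PT.lf (nat_lit 46968) (nat_lit 6) (nat_lit 618) (nat_lit 1) (nat_lit 197) (nat_lit 182) (nat_lit 191)) (PT.lf (nat_lit 46892) (nat_lit 6) (nat_lit 617) (nat_lit 1) (nat_lit 198) (nat_lit 182) (nat_lit 190)))))) (PT.nd (nat_lit 546) (PT.nd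 (nat_lit 234) (PT.nd (nat_lit 78) (PT.lf (nat_lit 46132) (nat_lit 6) (nat_lit 607) (nat_lit 1) (nat_lit 199) (nat_lit 182) (nat_lit 189)) (PT.nd (nat_lit 78) (PT.lf (nat_lit 45296) (nat_lit 6) (nat_lit 596) (nat_lit 1) (nat_lit 200) (nat_lit 182) (nat_lit 188)) (PT.lf (nat_lit 44384) (nat_lit 6) (nat_lit 584) (nat_lit 1) (nat_lit 201) (nat_lit 182) (nat_lit 187)))) (PT.nd (nat_lit 156) (PT.nd (nat_lit 78) (PT.lf (nat_lit 43396) (nat_lit 6) (nat_lit 571) (nat_lit 1) (nat_lit 202) (nat_lit 182) (nat_lit 186)) (PT.lf (nat_lit 42332) (nat_lit 6) (nat_lit 557) (nat_lit 1) (nat_lit 203) (nat_lit 182) (nat_lit 185))) (PT.nd (nat_lit 78) (PT.lf (nat_lit 41192) (nat_lit 6) (nat_lit 542) (nat_lit 1) (nat_lit 204) (nat_lit 182) (nat_lit 184)) (PT.lf (nat_lit 39976) (nat_lit 6) (nat_lit 526) (nat_lit 1) (nat_lit 205) (nat_lit 182) (nat_lit 183))))) (PT.nd (nat_lit 234) (PT.nd (nat_lit 78) (PT.lf (nat_lit 38684) (nat_lit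 3) (nat_lit 509) (nat_lit 0) (nat_lit 206) (nat_lit 182) (nat_lit 182)) (PT.nd (nat_lit 78) (PT.lf (nat_lit 37392) (nat_lit 6) (nat_lit 492) (nat_lit 0) (nat_lit 207) (nat_lit 182) (nat_lit 181)) (PT.lf (nat_lit 36024) (nat_lit 6) (nat_lit 474) (nat_lit 0) (nat_lit 208) (nat_lit 182) (nat_lit 180)))) (PT.nd (nat_lit 156) (PT.nd (nat_lit 78) (PT.lf (nat_lit 34580) (nat_lit 6) (nat_lit 455) (nat_lit 0) (nat_lit 209) (nat_lit 182) (nat_lit 179)) (PT.lf (nat_lit 33060) (nat_lit 6) (nat_lit 435) (nat_lit 0) (nat_lit 210) (nat_lit 182) (nat_lit 178))) (PT.nd (nat_lit 78) (PT.lf (nat_lit 31464) (nat_lit 6) (nat_lit 414) (nat_lit 0) (nat_lit 211) (nat_lit 182) (nat_lit 177)) (PT.lf (nat_lit 29792) (nat_lit 6) (nat_lit 392) (nat_lit 0) (nat_lit 212) (nat_lit 182) (nat_lit 176))))))) (PT.nd (nat_lit 57330) (PT.nd (nat_lit 56784) (PT.nd (nat_lit 56472) (PT.nd (nat_lit 56316) (PT.lf (nat_lit 28044) (nat_lit 6) (nat_lit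 369) (nat_lit 0) (nat_lit 213) (nat_lit 182) (nat_lit 175)) (PT.nd (nat_lit 78) (PT.lf (nat_lit 28120) (nat_lit 6) (nat_lit 370) (nat_lit 5) (nat_lit 174) (nat_lit 183) (nat_lit 213)) (PT.lf (nat_lit 29868) (nat_lit 6) (nat_lit 393) (nat_lit 5) (nat_lit 175) (nat_lit 183) (nat_lit 212)))) (PT.nd (nat_lit 156) (PT.nd (nat_lit 78) (PT.lf (nat_lit 31540) (nat_lit 6) (nat_lit 415) (nat_lit 5) (nat_lit 176) (nat_lit 183) (nat_lit 211)) (PT.lf (nat_lit 33136) (nat_lit 6) (nat_lit 436) (nat_lit 5) (nat_lit 177) (nat_lit 183) (nat_lit 210))) (PT.nd (nat_lit 78) (PT.lf (nat_lit 34656) (nat_lit 6) (nat_lit 456) (nat_lit 5) (nat_lit 178) (nat_lit 183) (nat_lit 209)) (PT.lf (nat_lit 36100) (nat_lit 6) (nat_lit 475) (nat_lit 5) (nat_lit 179) (nat_lit 183) (nat_lit 208))))) (PT.nd (nat_lit 234) (PT.nd (nat_lit 78) (PT.lf (nat_lit 37468) (nat_lit 6) (nat_lit 493) (nat_lit 5) (nat_lit 180) (nat_lit 183) (nat_lit 207)) (PT.nd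 (nat_lit 78) (PT.lf (nat_lit 38760) (nat_lit 6) (nat_lit 510) (nat_lit 5) (nat_lit 181) (nat_lit 183) (nat_lit 206)) (PT.lf (nat_lit 39976) (nat_lit 6) (nat_lit 526) (nat_lit 5) (nat_lit 182) (nat_lit 183) (nat_lit 205)))) (PT.nd (nat_lit 156) (PT.nd (nat_lit 78) (PT.lf (nat_lit 41116) (nat_lit 3) (nat_lit 541) (nat_lit 3) (nat_lit 183) (nat_lit 183) (nat_lit 204)) (PT.lf (nat_lit 42256) (nat_lit 6) (nat_lit 556) (nat_lit 3) (nat_lit 184) (nat_lit 183) (nat_lit 203))) (PT.nd (nat_lit 78) (PT.lf (nat_lit 43320) (nat_lit 6) (nat_lit 570) (nat_lit 3) (nat_lit 185) (nat_lit 183) (nat_lit 202)) (PT.lf (nat_lit 44308) (nat_lit 6) (nat_lit 583) (nat_lit 3) (nat_lit 186) (nat_lit 183) (nat_lit 201)))))) (PT.nd (nat_lit 546) (PT.nd (nat_lit 234) (PT.nd (nat_lit 78) (PT.lf (nat_lit 45220) (nat_lit 6) (nat_lit 595) (nat_lit 3) (nat_lit 187) (nat_lit 183) (nat_lit 200)) (PT.nd (nat_lit 78) (PT.lf (nat_lit 46056) (nat_lit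 6) (nat_lit 606) (nat_lit 3) (nat_lit 188) (nat_lit 183) (nat_lit 199)) (PT.lf (nat_lit 46816) (nat_lit 6) (nat_lit 616) (nat_lit 3) (nat_lit 189) (nat_lit 183) (nat_lit 198)))) (PT.nd (nat_lit 156) (PT.nd (nat_lit 78) (PT.lf (nat_lit 47500) (nat_lit 6) (nat_lit 625) (nat_lit 3) (nat_lit 190) (nat_lit 183) (nat_lit 197)) (PT.lf (nat_lit 47576) (nat_lit 6) (nat_lit 626) (nat_lit 3) (nat_lit 191) (nat_lit 183) (nat_lit 196))) (PT.nd (nat_lit 78) (PT.lf (nat_lit 47652) (nat_lit 6) (nat_lit 627) (nat_lit 3) (nat_lit 192) (nat_lit 183) (nat_lit 195)) (PT.lf (nat_lit 47728) (nat_lit 6) (nat_lit 628) (nat_lit 3) (nat_lit 193) (nat_lit 183) (nat_lit 194))))) (PT.nd (nat_lit 312) (PT.nd (nat_lit 156) (PT.nd (nat_lit 78) (PT.lf (nat_lit 47728) (nat_lit 6) (nat_lit 628) (nat_lit 1) (nat_lit 194) (nat_lit 183) (nat_lit 193)) (PT.lf (nat_lit 47652) (nat_lit 6) (nat_lit 627) (nat_lit 1) (nat_lit 195) (nat_lit 183) (nat_lit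 192))) (PT.nd (nat_lit 78) (PT.lf (nat_lit 47576) (nat_lit 6) (nat_lit 626) (nat_lit 1) (nat_lit 196) (nat_lit 183) (nat_lit 191)) (PT.lf (nat_lit 47500) (nat_lit 6) (nat_lit 625) (nat_lit 1) (nat_lit 197) (nat_lit 183) (nat_lit 190)))) (PT.nd (nat_lit 156) (PT.nd (nat_lit 78) (PT.lf (nat_lit 46816) (nat_lit 6) (nat_lit 616) (nat_lit 1) (nat_lit 198) (nat_lit 183) (nat_lit 189)) (PT.lf (nat_lit 46056) (nat_lit 6) (nat_lit 606) (nat_lit 1) (nat_lit 199) (nat_lit 183) (nat_lit 188))) (PT.nd (nat_lit 78) (PT.lf (nat_lit 45220) (nat_lit 6) (nat_lit 595) (nat_lit 1) (nat_lit 200) (nat_lit 183) (nat_lit 187)) (PT.lf (nat_lit 44308) (nat_lit 6) (nat_lit 583) (nat_lit 1) (nat_lit 201) (nat_lit 183) (nat_lit 186))))))))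
noncomputable def pc21 : PT := (PT.nd (nat_lit 58422) (PT.nd (nat_lit 57252) (PT.nd (nat_lit 546) (PT.nd (nat_lit 234) (PT.nd (nat_lit 78) (PT.lf (nat_lit 43320) (nat_lit 6) (nat_lit 570) (nat_lit 1) (nat_lit 202) (nat_lit 183) (nat_lit 185)) (PT.nd (nat_lit 78) (PT.lf (nat_lit 42256) (nat_lit 6) (nat_lit 556) (nat_lit 1) (nat_lit 203) (nat_lit 183) (nat_lit 184)) (PT.lf (nat_lit 41116) (nat_lit 3) (nat_lit 541) (nat_lit 0) (nat_lit 204) (nat_lit 183) (nat_lit 183)))) (PT.nd (nat_lit 156) (PT.nd (nat_lit 78) (PT.lf (nat_lit 39976) (nat_lit 6) (nat_lit 526) (nat_lit 0) (nat_lit 205) (nat_lit 183) (nat_lit 182)) (PT.lf (nat_lit 38760) (nat_lit 6) (nat_lit 510) (nat_lit 0) (nat_lit 206) (nat_lit 183) (nat_lit 181))) (PT.nd (nat_lit 78) (PT.lf (nat_lit 37468) (nat_lit 6) (nat_lit 493) (nat_lit 0) (nat_lit 207) (nat_lit 183) (nat_lit 180)) (PT.lf (nat_lit 36100) (nat_lit 6) (nat_lit 475) (nat_lit 0) (nat_lit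 208) (nat_lit 183) (nat_lit 179))))) (PT.nd (nat_lit 234) (PT.nd (nat_lit 78) (PT.lf (nat_lit 34656) (nat_lit 6) (nat_lit 456) (nat_lit 0) (nat_lit 209) (nat_lit 183) (nat_lit 178)) (PT.nd (nat_lit 78) (PT.lf (nat_lit 33136) (nat_lit 6) (nat_lit 436) (nat_lit 0) (nat_lit 210) (nat_lit 183) (nat_lit 177)) (PT.lf (nat_lit 31540) (nat_lit 6) (nat_lit 415) (nat_lit 0) (nat_lit 211) (nat_lit 183) (nat_lit 176)))) (PT.nd (nat_lit 56316) (PT.nd (nat_lit 78) (PT.lf (nat_lit 29868) (nat_lit 6) (nat_lit 393) (nat_lit 0) (nat_lit 212) (nat_lit 183) (nat_lit 175)) (PT.lf (nat_lit 28120) (nat_lit 6) (nat_lit 370) (nat_lit 0) (nat_lit 213) (nat_lit 183) (nat_lit 174))) (PT.nd (nat_lit 78) (PT.lf (nat_lit 28196) (nat_lit 6) (nat_lit 371) (nat_lit 5) (nat_lit 173) (nat_lit 184) (nat_lit 213)) (PT.lf (nat_lit 29944) (nat_lit 6) (nat_lit 394) (nat_lit 5) (nat_lit 174) (nat_lit 184) (nat_lit 212)))))) (PT.nd (nat_lit 546)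 (PT.nd (nat_lit 234) (PT.nd (nat_lit 78) (PT.lf (nat_lit 31616) (nat_lit 6) (nat_lit 416) (nat_lit 5) (nat_lit 175) (nat_lit 184) (nat_lit 211)) (PT.nd (nat_lit 78) (PT.lf (nat_lit 33212) (nat_lit 6) (nat_lit 437) (nat_lit 5) (nat_lit 176) (nat_lit 184) (nat_lit 210)) (PT.lf (nat_lit 34732) (nat_lit 6) (nat_lit 457) (nat_lit 5) (nat_lit 177) (nat_lit 184) (nat_lit 209)))) (PT.nd (nat_lit 156) (PT.nd (nat_lit 78) (PT.lf (nat_lit 36176) (nat_lit 6) (nat_lit 476) (nat_lit 5) (nat_lit 178) (nat_lit 184) (nat_lit 208)) (PT.lf (nat_lit 37544) (nat_lit 6) (nat_lit 494) (nat_lit 5) (nat_lit 179) (nat_lit 184) (nat_lit 207))) (PT.nd (nat_lit 78) (PT.lf (nat_lit 38836) (nat_lit 6) (nat_lit 511) (nat_lit 5) (nat_lit 180) (nat_lit 184) (nat_lit 206)) (PT.lf (nat_lit 40052) (nat_lit 6) (nat_lit 527) (nat_lit 5) (nat_lit 181) (nat_lit 184) (nat_lit 205))))) (PT.nd (nat_lit 312) (PT.nd (nat_lit 156) (PT.nd (nat_lit 78)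 (PT.lf (nat_lit 41192) (nat_lit 6) (nat_lit 542) (nat_lit 5) (nat_lit 182) (nat_lit 184) (nat_lit 204)) (PT.lf (nat_lit 42256) (nat_lit 6) (nat_lit 556) (nat_lit 5) (nat_lit 183) (nat_lit 184) (nat_lit 203))) (PT.nd (nat_lit 78) (PT.lf (nat_lit 43244) (nat_lit 3) (nat_lit 569) (nat_lit 3) (nat_lit 184) (nat_lit 184) (nat_lit 202)) (PT.lf (nat_lit 44232) (nat_lit 6) (nat_lit 582) (nat_lit 3) (nat_lit 185) (nat_lit 184) (nat_lit 201)))) (PT.nd (nat_lit 156) (PT.nd (nat_lit 78) (PT.lf (nat_lit 45144) (nat_lit 6) (nat_lit 594) (nat_lit 3) (nat_lit 186) (nat_lit 184) (nat_lit 200)) (PT.lf (nat_lit 45980) (nat_lit 6) (nat_lit 605) (nat_lit 3) (nat_lit 187) (nat_lit 184) (nat_lit 199))) (PT.nd (nat_lit 78) (PT.lf (nat_lit 46740) (nat_lit 6) (nat_lit 615) (nat_lit 3) (nat_lit 188) (nat_lit 184) (nat_lit 198)) (PT.lf (nat_lit 47424) (nat_lit 6) (nat_lit 624) (nat_lit 3) (nat_lit 189) (nat_lit 184) (nat_lit 197)))))))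 (PT.nd (nat_lit 1092) (PT.nd (nat_lit 546) (PT.nd (nat_lit 234) (PT.nd (nat_lit 78) (PT.lf (nat_lit 48032) (nat_lit 6) (nat_lit 632) (nat_lit 3) (nat_lit 190) (nat_lit 184) (nat_lit 196)) (PT.nd (nat_lit 78) (PT.lf (nat_lit 48108) (nat_lit 6) (nat_lit 633) (nat_lit 3) (nat_lit 191) (nat_lit 184) (nat_lit 195)) (PT.lf (nat_lit 48184) (nat_lit 6) (nat_lit 634) (nat_lit 3) (nat_lit 192) (nat_lit 184) (nat_lit 194)))) (PT.nd (nat_lit 156) (PT.nd (nat_lit 78) (PT.lf (nat_lit 48260) (nat_lit 3) (nat_lit 635) (nat_lit 1) (nat_lit 193) (nat_lit 184) (nat_lit 193)) (PT.lf (nat_lit 48184) (nat_lit 6) (nat_lit 634) (nat_lit 1) (nat_lit 194) (nat_lit 184) (nat_lit 192))) (PT.nd (nat_lit 78) (PT.lf (nat_lit 48108) (nat_lit 6) (nat_lit 633) (nat_lit 1) (nat_lit 195) (nat_lit 184) (nat_lit 191)) (PT.lf (nat_lit 48032) (nat_lit 6) (nat_lit 632) (nat_lit 1) (nat_lit 196) (nat_lit 184) (nat_lit 190))))) (PT.nd (nat_lit 234)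 (PT.nd (nat_lit 78) (PT.lf (nat_lit 47424) (nat_lit 6) (nat_lit 624) (nat_lit 1) (nat_lit 197) (nat_lit 184) (nat_lit 189)) (PT.nd (nat_lit 78) (PT.lf (nat_lit 46740) (nat_lit 6) (nat_lit 615) (nat_lit 1) (nat_lit 198) (nat_lit 184) (nat_lit 188)) (PT.lf (nat_lit 45980) (nat_lit 6) (nat_lit 605) (nat_lit 1) (nat_lit 199) (nat_lit 184) (nat_lit 187)))) (PT.nd (nat_lit 156) (PT.nd (nat_lit 78) (PT.lf (nat_lit 45144) (nat_lit 6) (nat_lit 594) (nat_lit 1) (nat_lit 200) (nat_lit 184) (nat_lit 186)) (PT.lf (nat_lit 44232) (nat_lit 6) (nat_lit 582) (nat_lit 1) (nat_lit 201) (nat_lit 184) (nat_lit 185))) (PT.nd (nat_lit 78) (PT.lf (nat_lit 43244) (nat_lit 3) (nat_lit 569) (nat_lit 0) (nat_lit 202) (nat_lit 184) (nat_lit 184)) (PT.lf (nat_lit 42256) (nat_lit 6) (nat_lit 556) (nat_lit 0) (nat_lit 203) (nat_lit 184) (nat_lit 183)))))) (PT.nd (nat_lit 546) (PT.nd (nat_lit 234) (PT.nd (nat_lit 78) (PT.lf (nat_lit 41192)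 (nat_lit 6) (nat_lit 542) (nat_lit 0) (nat_lit 204) (nat_lit 184) (nat_lit 182)) (PT.nd (nat_lit 78) (PT.lf (nat_lit 40052) (nat_lit 6) (nat_lit 527) (nat_lit 0) (nat_lit 205) (nat_lit 184) (nat_lit 181)) (PT.lf (nat_lit 38836) (nat_lit 6) (nat_lit 511) (nat_lit 0) (nat_lit 206) (nat_lit 184) (nat_lit 180)))) (PT.nd (nat_lit 156) (PT.nd (nat_lit 78) (PT.lf (nat_lit 37544) (nat_lit 6) (nat_lit 494) (nat_lit 0) (nat_lit 207) (nat_lit 184) (nat_lit 179)) (PT.lf (nat_lit 36176) (nat_lit 6) (nat_lit 476) (nat_lit 0) (nat_lit 208) (nat_lit 184) (nat_lit 178))) (PT.nd (nat_lit 78) (PT.lf (nat_lit 34732) (nat_lit 6) (nat_lit 457) (nat_lit 0) (nat_lit 209) (nat_lit 184) (nat_lit 177)) (PT.lf (nat_lit 33212) (nat_lit 6) (nat_lit 437) (nat_lit 0) (nat_lit 210) (nat_lit 184) (nat_lit 176))))) (PT.nd (nat_lit 56394) (PT.nd (nat_lit 156) (PT.nd (nat_lit 78) (PT.lf (nat_lit 31616) (nat_lit 6) (nat_lit 416) (nat_lit 0)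 (nat_lit 211) (nat_lit 184) (nat_lit 175)) (PT.lf (nat_lit 29944) (nat_lit 6) (nat_lit 394) (nat_lit 0) (nat_lit 212) (nat_lit 184) (nat_lit 174))) (PT.nd (nat_lit 56160) (PT.lf (nat_lit 28196) (nat_lit 6) (nat_lit 371) (nat_lit 0) (nat_lit 213) (nat_lit 184) (nat_lit 173)) (PT.lf (nat_lit 28272) (nat_lit 6) (nat_lit 372) (nat_lit 5) (nat_lit 172) (nat_lit 185) (nat_lit 213)))) (PT.nd (nat_lit 156) (PT.nd (nat_lit 78) (PT.lf (nat_lit 30020) (nat_lit 6) (nat_lit 395) (nat_lit 5) (nat_lit 173) (nat_lit 185) (nat_lit 212)) (PT.lf (nat_lit 31692) (nat_lit 6) (nat_lit 417) (nat_lit 5) (nat_lit 174) (nat_lit 185) (nat_lit 211))) (PT.nd (nat_lit 78) (PT.lf (nat_lit 33288) (nat_lit 6) (nat_lit 438) (nat_lit 5) (nat_lit 175) (nat_lit 185) (nat_lit 210)) (PT.lf (nat_lit 34808) (nat_lit 6) (nat_lit 458) (nat_lit 5) (nat_lit 176) (nat_lit 185) (nat_lit 209))))))))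
noncomputable def pc22 : PT := (PT.nd (nat_lit 2262) (PT.nd (nat_lit 1092) (PT.nd (nat_lit 546) (PT.nd (nat_lit 234) (PT.nd (nat_lit 78) (PT.lf (nat_lit 36252) (nat_lit 6) (nat_lit 477) (nat_lit 5) (nat_lit 177) (nat_lit 185) (nat_lit 208)) (PT.nd (nat_lit 78) (PT.lf (nat_lit 37620) (nat_lit 6) (nat_lit 495) (nat_lit 5) (nat_lit 178) (nat_lit 185) (nat_lit 207)) (PT.lf (nat_lit 38912) (nat_lit 6) (nat_lit 512) (nat_lit 5) (nat_lit 179) (nat_lit 185) (nat_lit 206)))) (PT.nd (nat_lit 156) (PT.nd (nat_lit 78) (PT.lf (nat_lit 40128) (nat_lit 6) (nat_lit 528) (nat_lit 5) (nat_lit 180) (nat_lit 185) (nat_lit 205)) (PT.lf (nat_lit 41268) (nat_lit 6) (nat_lit 543) (nat_lit 5) (nat_lit 181) (nat_lit 185) (nat_lit 204))) (PT.nd (nat_lit 78) (PT.lf (nat_lit 42332) (nat_lit 6) (nat_lit 557) (nat_lit 5) (nat_lit 182) (nat_lit 185) (nat_lit 203)) (PT.lf (nat_lit 43320) (nat_lit 6) (nat_lit 570) (nat_lit 5) (nat_lit 183)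 (nat_lit 185) (nat_lit 202))))) (PT.nd (nat_lit 234) (PT.nd (nat_lit 78) (PT.lf (nat_lit 44232) (nat_lit 6) (nat_lit 582) (nat_lit 5) (nat_lit 184) (nat_lit 185) (nat_lit 201)) (PT.nd (nat_lit 78) (PT.lf (nat_lit 45068) (nat_lit 3) (nat_lit 593) (nat_lit 3) (nat_lit 185) (nat_lit 185) (nat_lit 200)) (PT.lf (nat_lit 45904) (nat_lit 6) (nat_lit 604) (nat_lit 3) (nat_lit 186) (nat_lit 185) (nat_lit 199)))) (PT.nd (nat_lit 156) (PT.nd (nat_lit 78) (PT.lf (nat_lit 46664) (nat_lit 6) (nat_lit 614) (nat_lit 3) (nat_lit 187) (nat_lit 185) (nat_lit 198)) (PT.lf (nat_lit 47348) (nat_lit 6) (nat_lit 623) (nat_lit 3) (nat_lit 188) (nat_lit 185) (nat_lit 197))) (PT.nd (nat_lit 78) (PT.lf (nat_lit 47956) (nat_lit 6) (nat_lit 631) (nat_lit 3) (nat_lit 189) (nat_lit 185) (nat_lit 196)) (PT.lf (nat_lit 48488) (nat_lit 6) (nat_lit 638) (nat_lit 3) (nat_lit 190) (nat_lit 185) (nat_lit 195)))))) (PT.nd (nat_lit 546) (PT.nd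 (nat_lit 234) (PT.nd (nat_lit 78) (PT.lf (nat_lit 48564) (nat_lit 6) (nat_lit 639) (nat_lit 3) (nat_lit 191) (nat_lit 185) (nat_lit 194)) (PT.nd (nat_lit 78) (PT.lf (nat_lit 48640) (nat_lit 6) (nat_lit 640) (nat_lit 3) (nat_lit 192) (nat_lit 185) (nat_lit 193)) (PT.lf (nat_lit 48640) (nat_lit 6) (nat_lit 640) (nat_lit 1) (nat_lit 193) (nat_lit 185) (nat_lit 192)))) (PT.nd (nat_lit 156) (PT.nd (nat_lit 78) (PT.lf (nat_lit 48564) (nat_lit 6) (nat_lit 639) (nat_lit 1) (nat_lit 194) (nat_lit 185) (nat_lit 191)) (PT.lf (nat_lit 48488) (nat_lit 6) (nat_lit 638) (nat_lit 1) (nat_lit 195) (nat_lit 185) (nat_lit 190))) (PT.nd (nat_lit 78) (PT.lf (nat_lit 47956) (nat_lit 6) (nat_lit 631) (nat_lit 1) (nat_lit 196) (nat_lit 185) (nat_lit 189)) (PT.lf (nat_lit 47348) (nat_lit 6) (nat_lit 623) (nat_lit 1) (nat_lit 197) (nat_lit 185) (nat_lit 188))))) (PT.nd (nat_lit 312) (PT.nd (nat_lit 156) (PT.nd (nat_lit 78) (PT.lf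 (nat_lit 46664) (nat_lit 6) (nat_lit 614) (nat_lit 1) (nat_lit 198) (nat_lit 185) (nat_lit 187)) (PT.lf (nat_lit 45904) (nat_lit 6) (nat_lit 604) (nat_lit 1) (nat_lit 199) (nat_lit 185) (nat_lit 186))) (PT.nd (nat_lit 78) (PT.lf (nat_lit 45068) (nat_lit 3) (nat_lit 593) (nat_lit 0) (nat_lit 200) (nat_lit 185) (nat_lit 185)) (PT.lf (nat_lit 44232) (nat_lit 6) (nat_lit 582) (nat_lit 0) (nat_lit 201) (nat_lit 185) (nat_lit 184)))) (PT.nd (nat_lit 156) (PT.nd (nat_lit 78) (PT.lf (nat_lit 43320) (nat_lit 6) (nat_lit 570) (nat_lit 0) (nat_lit 202) (nat_lit 185) (nat_lit 183)) (PT.lf (nat_lit 42332) (nat_lit 6) (nat_lit 557) (nat_lit 0) (nat_lit 203) (nat_lit 185) (nat_lit 182))) (PT.nd (nat_lit 78) (PT.lf (nat_lit 41268) (nat_lit 6) (nat_lit 543) (nat_lit 0) (nat_lit 204) (nat_lit 185) (nat_lit 181)) (PT.lf (nat_lit 40128) (nat_lit 6) (nat_lit 528) (nat_lit 0) (nat_lit 205) (nat_lit 185) (nat_lit 180))))))) (PT.nd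 (nat_lit 57096) (PT.nd (nat_lit 546) (PT.nd (nat_lit 234) (PT.nd (nat_lit 78) (PT.lf (nat_lit 38912) (nat_lit 6) (nat_lit 512) (nat_lit 0) (nat_lit 206) (nat_lit 185) (nat_lit 179)) (PT.nd (nat_lit 78) (PT.lf (nat_lit 37620) (nat_lit 6) (nat_lit 495) (nat_lit 0) (nat_lit 207) (nat_lit 185) (nat_lit 178)) (PT.lf (nat_lit 36252) (nat_lit 6) (nat_lit 477) (nat_lit 0) (nat_lit 208) (nat_lit 185) (nat_lit 177)))) (PT.nd (nat_lit 156) (PT.nd (nat_lit 78) (PT.lf (nat_lit 34808) (nat_lit 6) (nat_lit 458) (nat_lit 0) (nat_lit 209) (nat_lit 185) (nat_lit 176)) (PT.lf (nat_lit 33288) (nat_lit 6) (nat_lit 438) (nat_lit 0) (nat_lit 210) (nat_lit 185) (nat_lit 175))) (PT.nd (nat_lit 78) (PT.lf (nat_lit 31692) (nat_lit 6) (nat_lit 417) (nat_lit 0) (nat_lit 211) (nat_lit 185) (nat_lit 174)) (PT.lf (nat_lit 30020) (nat_lit 6) (nat_lit 395) (nat_lit 0) (nat_lit 212) (nat_lit 185) (nat_lit 173))))) (PT.nd (nat_lit 56238) (PT.nd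 (nat_lit 56082) (PT.lf (nat_lit 28272) (nat_lit 6) (nat_lit 372) (nat_lit 0) (nat_lit 213) (nat_lit 185) (nat_lit 172)) (PT.nd (nat_lit 78) (PT.lf (nat_lit 28348) (nat_lit 6) (nat_lit 373) (nat_lit 5) (nat_lit 171) (nat_lit 186) (nat_lit 213)) (PT.lf (nat_lit 30096) (nat_lit 6) (nat_lit 396) (nat_lit 5) (nat_lit 172) (nat_lit 186) (nat_lit 212)))) (PT.nd (nat_lit 156) (PT.nd (nat_lit 78) (PT.lf (nat_lit 31768) (nat_lit 6) (nat_lit 418) (nat_lit 5) (nat_lit 173) (nat_lit 186) (nat_lit 211)) (PT.lf (nat_lit 33364) (nat_lit 6) (nat_lit 439) (nat_lit 5) (nat_lit 174) (nat_lit 186) (nat_lit 210))) (PT.nd (nat_lit 78) (PT.lf (nat_lit 34884) (nat_lit 6) (nat_lit 459) (nat_lit 5) (nat_lit 175) (nat_lit 186) (nat_lit 209)) (PT.lf (nat_lit 36328) (nat_lit 6) (nat_lit 478) (nat_lit 5) (nat_lit 176) (nat_lit 186) (nat_lit 208)))))) (PT.nd (nat_lit 546) (PT.nd (nat_lit 234) (PT.nd (nat_lit 78) (PT.lf (nat_lit 37696)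 (nat_lit 6) (nat_lit 496) (nat_lit 5) (nat_lit 177) (nat_lit 186) (nat_lit 207)) (PT.nd (nat_lit 78) (PT.lf (nat_lit 38988) (nat_lit 6) (nat_lit 513) (nat_lit 5) (nat_lit 178) (nat_lit 186) (nat_lit 206)) (PT.lf (nat_lit 40204) (nat_lit 6) (nat_lit 529) (nat_lit 5) (nat_lit 179) (nat_lit 186) (nat_lit 205)))) (PT.nd (nat_lit 156) (PT.nd (nat_lit 78) (PT.lf (nat_lit 41344) (nat_lit 6) (nat_lit 544) (nat_lit 5) (nat_lit 180) (nat_lit 186) (nat_lit 204)) (PT.lf (nat_lit 42408) (nat_lit 6) (nat_lit 558) (nat_lit 5) (nat_lit 181) (nat_lit 186) (nat_lit 203))) (PT.nd (nat_lit 78) (PT.lf (nat_lit 43396) (nat_lit 6) (nat_lit 571) (nat_lit 5) (nat_lit 182) (nat_lit 186) (nat_lit 202)) (PT.lf (nat_lit 44308) (nat_lit 6) (nat_lit 583) (nat_lit 5) (nat_lit 183) (nat_lit 186) (nat_lit 201))))) (PT.nd (nat_lit 312) (PT.nd (nat_lit 156) (PT.nd (nat_lit 78) (PT.lf (nat_lit 45144) (nat_lit 6) (nat_lit 594) (nat_lit 5) (nat_lit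 184) (nat_lit 186) (nat_lit 200)) (PT.lf (nat_lit 45904) (nat_lit 6) (nat_lit 604) (nat_lit 5) (nat_lit 185) (nat_lit 186) (nat_lit 199))) (PT.nd (nat_lit 78) (PT.lf (nat_lit 46588) (nat_lit 3) (nat_lit 613) (nat_lit 3) (nat_lit 186) (nat_lit 186) (nat_lit 198)) (PT.lf (nat_lit 47272) (nat_lit 6) (nat_lit 622) (nat_lit 3) (nat_lit 187) (nat_lit 186) (nat_lit 197)))) (PT.nd (nat_lit 156) (PT.nd (nat_lit 78) (PT.lf (nat_lit 47880) (nat_lit 6) (nat_lit 630) (nat_lit 3) (nat_lit 188) (nat_lit 186) (nat_lit 196)) (PT.lf (nat_lit 48412) (nat_lit 6) (nat_lit 637) (nat_lit 3) (nat_lit 189) (nat_lit 186) (nat_lit 195))) (PT.nd (nat_lit 78) (PT.lf (nat_lit 48868) (nat_lit 6) (nat_lit 643) (nat_lit 3) (nat_lit 190) (nat_lit 186) (nat_lit 194)) (PT.lf (nat_lit 48944) (nat_lit 6) (nat_lit 644) (nat_lit 3) (nat_lit 191) (nat_lit 186) (nat_lit 193))))))))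
noncomputable def pc23 : PT := (PT.nd (nat_lit 58188) (PT.nd (nat_lit 1092) (PT.nd (nat_lit 546) (PT.nd (nat_lit 234) (PT.nd (nat_lit 78) (PT.lf (nat_lit 49020) (nat_lit 3) (nat_lit 645) (nat_lit 1) (nat_lit 192) (nat_lit 186) (nat_lit 192)) (PT.nd (nat_lit 78) (PT.lf (nat_lit 48944) (nat_lit 6) (nat_lit 644) (nat_lit 1) (nat_lit 193) (nat_lit 186) (nat_lit 191)) (PT.lf (nat_lit 48868) (nat_lit 6) (nat_lit 643) (nat_lit 1) (nat_lit 194) (nat_lit 186) (nat_lit 190)))) (PT.nd (nat_lit 156) (PT.nd (nat_lit 78) (PT.lf (nat_lit 48412) (nat_lit 6) (nat_lit 637) (nat_lit 1) (nat_lit 195) (nat_lit 186) (nat_lit 189)) (PT.lf (nat_lit 47880) (nat_lit 6) (nat_lit 630) (nat_lit 1) (nat_lit 196) (nat_lit 186) (nat_lit 188))) (PT.nd (nat_lit 78) (PT.lf (nat_lit 47272) (nat_lit 6) (nat_lit 622) (nat_lit 1) (nat_lit 197) (nat_lit 186) (nat_lit 187)) (PT.lf (nat_lit 46588) (nat_lit 3) (nat_lit 613) (nat_lit 0) (nat_lit 198)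 (nat_lit 186) (nat_lit 186))))) (PT.nd (nat_lit 234) (PT.nd (nat_lit 78) (PT.lf (nat_lit 45904) (nat_lit 6) (nat_lit 604) (nat_lit 0) (nat_lit 199) (nat_lit 186) (nat_lit 185)) (PT.nd (nat_lit 78) (PT.lf (nat_lit 45144) (nat_lit 6) (nat_lit 594) (nat_lit 0) (nat_lit 200) (nat_lit 186) (nat_lit 184)) (PT.lf (nat_lit 44308) (nat_lit 6) (nat_lit 583) (nat_lit 0) (nat_lit 201) (nat_lit 186) (nat_lit 183)))) (PT.nd (nat_lit 156) (PT.nd (nat_lit 78) (PT.lf (nat_lit 43396) (nat_lit 6) (nat_lit 571) (nat_lit 0) (nat_lit 202) (nat_lit 186) (nat_lit 182)) (PT.lf (nat_lit 42408) (nat_lit 6) (nat_lit 558) (nat_lit 0) (nat_lit 203) (nat_lit 186) (nat_lit 181))) (PT.nd (nat_lit 78) (PT.lf (nat_lit 41344) (nat_lit 6) (nat_lit 544) (nat_lit 0) (nat_lit 204) (nat_lit 186) (nat_lit 180)) (PT.lf (nat_lit 40204) (nat_lit 6) (nat_lit 529) (nat_lit 0) (nat_lit 205) (nat_lit 186) (nat_lit 179)))))) (PT.nd (nat_lit 546) (PT.nd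 (nat_lit 234) (PT.nd (nat_lit 78) (PT.lf (nat_lit 38988) (nat_lit 6) (nat_lit 513) (nat_lit 0) (nat_lit 206) (nat_lit 186) (nat_lit 178)) (PT.nd (nat_lit 78) (PT.lf (nat_lit 37696) (nat_lit 6) (nat_lit 496) (nat_lit 0) (nat_lit 207) (nat_lit 186) (nat_lit 177)) (PT.lf (nat_lit 36328) (nat_lit 6) (nat_lit 478) (nat_lit 0) (nat_lit 208) (nat_lit 186) (nat_lit 176)))) (PT.nd (nat_lit 156) (PT.nd (nat_lit 78) (PT.lf (nat_lit 34884) (nat_lit 6) (nat_lit 459) (nat_lit 0) (nat_lit 209) (nat_lit 186) (nat_lit 175)) (PT.lf (nat_lit 33364) (nat_lit 6) (nat_lit 439) (nat_lit 0) (nat_lit 210) (nat_lit 186) (nat_lit 174))) (PT.nd (nat_lit 78) (PT.lf (nat_lit 31768) (nat_lit 6) (nat_lit 418) (nat_lit 0) (nat_lit 211) (nat_lit 186) (nat_lit 173)) (PT.lf (nat_lit 30096) (nat_lit 6) (nat_lit 396) (nat_lit 0) (nat_lit 212) (nat_lit 186) (nat_lit 172))))) (PT.nd (nat_lit 56238) (PT.nd (nat_lit 56082) (PT.nd (nat_lit 56004)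 (PT.lf (nat_lit 28348) (nat_lit 6) (nat_lit 373) (nat_lit 0) (nat_lit 213) (nat_lit 186) (nat_lit 171)) (PT.lf (nat_lit 28424) (nat_lit 6) (nat_lit 374) (nat_lit 5) (nat_lit 170) (nat_lit 187) (nat_lit 213))) (PT.nd (nat_lit 78) (PT.lf (nat_lit 30172) (nat_lit 6) (nat_lit 397) (nat_lit 5) (nat_lit 171) (nat_lit 187) (nat_lit 212)) (PT.lf (nat_lit 31844) (nat_lit 6) (nat_lit 419) (nat_lit 5) (nat_lit 172) (nat_lit 187) (nat_lit 211)))) (PT.nd (nat_lit 156) (PT.nd (nat_lit 78) (PT.lf (nat_lit 33440) (nat_lit 6) (nat_lit 440) (nat_lit 5) (nat_lit 173) (nat_lit 187) (nat_lit 210)) (PT.lf (nat_lit 34960) (nat_lit 6) (nat_lit 460) (nat_lit 5) (nat_lit 174) (nat_lit 187) (nat_lit 209))) (PT.nd (nat_lit 78) (PT.lf (nat_lit 36404) (nat_lit 6) (nat_lit 479) (nat_lit 5) (nat_lit 175) (nat_lit 187) (nat_lit 208)) (PT.lf (nat_lit 37772) (nat_lit 6) (nat_lit 497) (nat_lit 5) (nat_lit 176) (nat_lit 187) (nat_lit 207)))))))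 (PT.nd (nat_lit 1092) (PT.nd (nat_lit 546) (PT.nd (nat_lit 234) (PT.nd (nat_lit 78) (PT.lf (nat_lit 39064) (nat_lit 6) (nat_lit 514) (nat_lit 5) (nat_lit 177) (nat_lit 187) (nat_lit 206)) (PT.nd (nat_lit 78) (PT.lf (nat_lit 40280) (nat_lit 6) (nat_lit 530) (nat_lit 5) (nat_lit 178) (nat_lit 187) (nat_lit 205)) (PT.lf (nat_lit 41420) (nat_lit 6) (nat_lit 545) (nat_lit 5) (nat_lit 179) (nat_lit 187) (nat_lit 204)))) (PT.nd (nat_lit 156) (PT.nd (nat_lit 78) (PT.lf (nat_lit 42484) (nat_lit 6) (nat_lit 559) (nat_lit 5) (nat_lit 180) (nat_lit 187) (nat_lit 203)) (PT.lf (nat_lit 43472) (nat_lit 6) (nat_lit 572) (nat_lit 5) (nat_lit 181) (nat_lit 187) (nat_lit 202))) (PT.nd (nat_lit 78) (PT.lf (nat_lit 44384) (nat_lit 6) (nat_lit 584) (nat_lit 5) (nat_lit 182) (nat_lit 187) (nat_lit 201)) (PT.lf (nat_lit 45220) (nat_lit 6) (nat_lit 595) (nat_lit 5) (nat_lit 183) (nat_lit 187) (nat_lit 200))))) (PT.nd (nat_lit 234)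 (PT.nd (nat_lit 78) (PT.lf (nat_lit 45980) (nat_lit 6) (nat_lit 605) (nat_lit 5) (nat_lit 184) (nat_lit 187) (nat_lit 199)) (PT.nd (nat_lit 78) (PT.lf (nat_lit 46664) (nat_lit 6) (nat_lit 614) (nat_lit 5) (nat_lit 185) (nat_lit 187) (nat_lit 198)) (PT.lf (nat_lit 47272) (nat_lit 6) (nat_lit 622) (nat_lit 5) (nat_lit 186) (nat_lit 187) (nat_lit 197)))) (PT.nd (nat_lit 156) (PT.nd (nat_lit 78) (PT.lf (nat_lit 47804) (nat_lit 3) (nat_lit 629) (nat_lit 3) (nat_lit 187) (nat_lit 187) (nat_lit 196)) (PT.lf (nat_lit 48336) (nat_lit 6) (nat_lit 636) (nat_lit 3) (nat_lit 188) (nat_lit 187) (nat_lit 195))) (PT.nd (nat_lit 78) (PT.lf (nat_lit 48792) (nat_lit 6) (nat_lit 642) (nat_lit 3) (nat_lit 189) (nat_lit 187) (nat_lit 194)) (PT.lf (nat_lit 49172) (nat_lit 6) (nat_lit 647) (nat_lit 3) (nat_lit 190) (nat_lit 187) (nat_lit 193)))))) (PT.nd (nat_lit 546) (PT.nd (nat_lit 234) (PT.nd (nat_lit 78) (PT.lf (nat_lit 49248)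 (nat_lit 6) (nat_lit 648) (nat_lit 3) (nat_lit 191) (nat_lit 187) (nat_lit 192)) (PT.nd (nat_lit 78) (PT.lf (nat_lit 49248) (nat_lit 6) (nat_lit 648) (nat_lit 1) (nat_lit 192) (nat_lit 187) (nat_lit 191)) (PT.lf (nat_lit 49172) (nat_lit 6) (nat_lit 647) (nat_lit 1) (nat_lit 193) (nat_lit 187) (nat_lit 190)))) (PT.nd (nat_lit 156) (PT.nd (nat_lit 78) (PT.lf (nat_lit 48792) (nat_lit 6) (nat_lit 642) (nat_lit 1) (nat_lit 194) (nat_lit 187) (nat_lit 189)) (PT.lf (nat_lit 48336) (nat_lit 6) (nat_lit 636) (nat_lit 1) (nat_lit 195) (nat_lit 187) (nat_lit 188))) (PT.nd (nat_lit 78) (PT.lf (nat_lit 47804) (nat_lit 3) (nat_lit 629) (nat_lit 0) (nat_lit 196) (nat_lit 187) (nat_lit 187)) (PT.lf (nat_lit 47272) (nat_lit 6) (nat_lit 622) (nat_lit 0) (nat_lit 197) (nat_lit 187) (nat_lit 186))))) (PT.nd (nat_lit 312) (PT.nd (nat_lit 156) (PT.nd (nat_lit 78) (PT.lf (nat_lit 46664) (nat_lit 6) (nat_lit 614) (nat_lit 0) (nat_lit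 198) (nat_lit 187) (nat_lit 185)) (PT.lf (nat_lit 45980) (nat_lit 6) (nat_lit 605) (nat_lit 0) (nat_lit 199) (nat_lit 187) (nat_lit 184))) (PT.nd (nat_lit 78) (PT.lf (nat_lit 45220) (nat_lit 6) (nat_lit 595) (nat_lit 0) (nat_lit 200) (nat_lit 187) (nat_lit 183)) (PT.lf (nat_lit 44384) (nat_lit 6) (nat_lit 584) (nat_lit 0) (nat_lit 201) (nat_lit 187) (nat_lit 182)))) (PT.nd (nat_lit 156) (PT.nd (nat_lit 78) (PT.lf (nat_lit 43472) (nat_lit 6) (nat_lit 572) (nat_lit 0) (nat_lit 202) (nat_lit 187) (nat_lit 181)) (PT.lf (nat_lit 42484) (nat_lit 6) (nat_lit 559) (nat_lit 0) (nat_lit 203) (nat_lit 187) (nat_lit 180))) (PT.nd (nat_lit 78) (PT.lf (nat_lit 41420) (nat_lit 6) (nat_lit 545) (nat_lit 0) (nat_lit 204) (nat_lit 187) (nat_lit 179)) (PT.lf (nat_lit 40280) (nat_lit 6) (nat_lit 530) (nat_lit 0) (nat_lit 205) (nat_lit 187) (nat_lit 178))))))))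
noncomputable def pc24 : PT := (PT.nd (nat_lit 58032) (PT.nd (nat_lit 56940) (PT.nd (nat_lit 546) (PT.nd (nat_lit 234) (PT.nd (nat_lit 78) (PT.lf (nat_lit 39064) (nat_lit 6) (nat_lit 514) (nat_lit 0) (nat_lit 206) (nat_lit 187) (nat_lit 177)) (PT.nd (nat_lit 78) (PT.lf (nat_lit 37772) (nat_lit 6) (nat_lit 497) (nat_lit 0) (nat_lit 207) (nat_lit 187) (nat_lit 176)) (PT.lf (nat_lit 36404) (nat_lit 6) (nat_lit 479) (nat_lit 0) (nat_lit 208) (nat_lit 187) (nat_lit 175)))) (PT.nd (nat_lit 156) (PT.nd (nat_lit 78) (PT.lf (nat_lit 34960) (nat_lit 6) (nat_lit 460) (nat_lit 0) (nat_lit 209) (nat_lit 187) (nat_lit 174)) (PT.lf (nat_lit 33440) (nat_lit 6) (nat_lit 440) (nat_lit 0) (nat_lit 210) (nat_lit 187) (nat_lit 173))) (PT.nd (nat_lit 78) (PT.lf (nat_lit 31844) (nat_lit 6) (nat_lit 419) (nat_lit 0) (nat_lit 211) (nat_lit 187) (nat_lit 172)) (PT.lf (nat_lit 30172) (nat_lit 6) (nat_lit 397) (nat_lit 0) (nat_lit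 212) (nat_lit 187) (nat_lit 171))))) (PT.nd (nat_lit 56082) (PT.nd (nat_lit 55926) (PT.lf (nat_lit 28424) (nat_lit 6) (nat_lit 374) (nat_lit 0) (nat_lit 213) (nat_lit 187) (nat_lit 170)) (PT.nd (nat_lit 78) (PT.lf (nat_lit 28500) (nat_lit 6) (nat_lit 375) (nat_lit 5) (nat_lit 169) (nat_lit 188) (nat_lit 213)) (PT.lf (nat_lit 30248) (nat_lit 6) (nat_lit 398) (nat_lit 5) (nat_lit 170) (nat_lit 188) (nat_lit 212)))) (PT.nd (nat_lit 156) (PT.nd (nat_lit 78) (PT.lf (nat_lit 31920) (nat_lit 6) (nat_lit 420) (nat_lit 5) (nat_lit 171) (nat_lit 188) (nat_lit 211)) (PT.lf (nat_lit 33516) (nat_lit 6) (nat_lit 441) (nat_lit 5) (nat_lit 172) (nat_lit 188) (nat_lit 210))) (PT.nd (nat_lit 78) (PT.lf (nat_lit 35036) (nat_lit 6) (nat_lit 461) (nat_lit 5) (nat_lit 173) (nat_lit 188) (nat_lit 209)) (PT.lf (nat_lit 36480) (nat_lit 6) (nat_lit 480) (nat_lit 5) (nat_lit 174) (nat_lit 188) (nat_lit 208)))))) (PT.nd (nat_lit 546)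 (PT.nd (nat_lit 234) (PT.nd (nat_lit 78) (PT.lf (nat_lit 37848) (nat_lit 6) (nat_lit 498) (nat_lit 5) (nat_lit 175) (nat_lit 188) (nat_lit 207)) (PT.nd (nat_lit 78) (PT.lf (nat_lit 39140) (nat_lit 6) (nat_lit 515) (nat_lit 5) (nat_lit 176) (nat_lit 188) (nat_lit 206)) (PT.lf (nat_lit 40356) (nat_lit 6) (nat_lit 531) (nat_lit 5) (nat_lit 177) (nat_lit 188) (nat_lit 205)))) (PT.nd (nat_lit 156) (PT.nd (nat_lit 78) (PT.lf (nat_lit 41496) (nat_lit 6) (nat_lit 546) (nat_lit 5) (nat_lit 178) (nat_lit 188) (nat_lit 204)) (PT.lf (nat_lit 42560) (nat_lit 6) (nat_lit 560) (nat_lit 5) (nat_lit 179) (nat_lit 188) (nat_lit 203))) (PT.nd (nat_lit 78) (PT.lf (nat_lit 43548) (nat_lit 6) (nat_lit 573) (nat_lit 5) (nat_lit 180) (nat_lit 188) (nat_lit 202)) (PT.lf (nat_lit 44460) (nat_lit 6) (nat_lit 585) (nat_lit 5) (nat_lit 181) (nat_lit 188) (nat_lit 201))))) (PT.nd (nat_lit 234) (PT.nd (nat_lit 78) (PT.lf (nat_lit 45296)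 (nat_lit 6) (nat_lit 596) (nat_lit 5) (nat_lit 182) (nat_lit 188) (nat_lit 200)) (PT.nd (nat_lit 78) (PT.lf (nat_lit 46056) (nat_lit 6) (nat_lit 606) (nat_lit 5) (nat_lit 183) (nat_lit 188) (nat_lit 199)) (PT.lf (nat_lit 46740) (nat_lit 6) (nat_lit 615) (nat_lit 5) (nat_lit 184) (nat_lit 188) (nat_lit 198)))) (PT.nd (nat_lit 156) (PT.nd (nat_lit 78) (PT.lf (nat_lit 47348) (nat_lit 6) (nat_lit 623) (nat_lit 5) (nat_lit 185) (nat_lit 188) (nat_lit 197)) (PT.lf (nat_lit 47880) (nat_lit 6) (nat_lit 630) (nat_lit 5) (nat_lit 186) (nat_lit 188) (nat_lit 196))) (PT.nd (nat_lit 78) (PT.lf (nat_lit 48336) (nat_lit 6) (nat_lit 636) (nat_lit 5) (nat_lit 187) (nat_lit 188) (nat_lit 195)) (PT.lf (nat_lit 48716) (nat_lit 3) (nat_lit 641) (nat_lit 3) (nat_lit 188) (nat_lit 188) (nat_lit 194))))))) (PT.nd (nat_lit 1092) (PT.nd (nat_lit 546) (PT.nd (nat_lit 234) (PT.nd (nat_lit 78) (PT.lf (nat_lit 49096) (nat_lit 6) (nat_lit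 646) (nat_lit 3) (nat_lit 189) (nat_lit 188) (nat_lit 193)) (PT.nd (nat_lit 78) (PT.lf (nat_lit 49400) (nat_lit 6) (nat_lit 650) (nat_lit 3) (nat_lit 190) (nat_lit 188) (nat_lit 192)) (PT.lf (nat_lit 49476) (nat_lit 3) (nat_lit 651) (nat_lit 1) (nat_lit 191) (nat_lit 188) (nat_lit 191)))) (PT.nd (nat_lit 156) (PT.nd (nat_lit 78) (PT.lf (nat_lit 49400) (nat_lit 6) (nat_lit 650) (nat_lit 1) (nat_lit 192) (nat_lit 188) (nat_lit 190)) (PT.lf (nat_lit 49096) (nat_lit 6) (nat_lit 646) (nat_lit 1) (nat_lit 193) (nat_lit 188) (nat_lit 189))) (PT.nd (nat_lit 78) (PT.lf (nat_lit 48716) (nat_lit 3) (nat_lit 641) (nat_lit 0) (nat_lit 194) (nat_lit 188) (nat_lit 188)) (PT.lf (nat_lit 48336) (nat_lit 6) (nat_lit 636) (nat_lit 0) (nat_lit 195) (nat_lit 188) (nat_lit 187))))) (PT.nd (nat_lit 234) (PT.nd (nat_lit 78) (PT.lf (nat_lit 47880) (nat_lit 6) (nat_lit 630) (nat_lit 0) (nat_lit 196) (nat_lit 188) (nat_lit 186)) (PT.nd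 (nat_lit 78) (PT.lf (nat_lit 47348) (nat_lit 6) (nat_lit 623) (nat_lit 0) (nat_lit 197) (nat_lit 188) (nat_lit 185)) (PT.lf (nat_lit 46740) (nat_lit 6) (nat_lit 615) (nat_lit 0) (nat_lit 198) (nat_lit 188) (nat_lit 184)))) (PT.nd (nat_lit 156) (PT.nd (nat_lit 78) (PT.lf (nat_lit 46056) (nat_lit 6) (nat_lit 606) (nat_lit 0) (nat_lit 199) (nat_lit 188) (nat_lit 183)) (PT.lf (nat_lit 45296) (nat_lit 6) (nat_lit 596) (nat_lit 0) (nat_lit 200) (nat_lit 188) (nat_lit 182))) (PT.nd (nat_lit 78) (PT.lf (nat_lit 44460) (nat_lit 6) (nat_lit 585) (nat_lit 0) (nat_lit 201) (nat_lit 188) (nat_lit 181)) (PT.lf (nat_lit 43548) (nat_lit 6) (nat_lit 573) (nat_lit 0) (nat_lit 202) (nat_lit 188) (nat_lit 180)))))) (PT.nd (nat_lit 546) (PT.nd (nat_lit 234) (PT.nd (nat_lit 78) (PT.lf (nat_lit 42560) (nat_lit 6) (nat_lit 560) (nat_lit 0) (nat_lit 203) (nat_lit 188) (nat_lit 179)) (PT.nd (nat_lit 78) (PT.lf (nat_lit 41496) (nat_lit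 6) (nat_lit 546) (nat_lit 0) (nat_lit 204) (nat_lit 188) (nat_lit 178)) (PT.lf (nat_lit 40356) (nat_lit 6) (nat_lit 531) (nat_lit 0) (nat_lit 205) (nat_lit 188) (nat_lit 177)))) (PT.nd (nat_lit 156) (PT.nd (nat_lit 78) (PT.lf (nat_lit 39140) (nat_lit 6) (nat_lit 515) (nat_lit 0) (nat_lit 206) (nat_lit 188) (nat_lit 176)) (PT.lf (nat_lit 37848) (nat_lit 6) (nat_lit 498) (nat_lit 0) (nat_lit 207) (nat_lit 188) (nat_lit 175))) (PT.nd (nat_lit 78) (PT.lf (nat_lit 36480) (nat_lit 6) (nat_lit 480) (nat_lit 0) (nat_lit 208) (nat_lit 188) (nat_lit 174)) (PT.lf (nat_lit 35036) (nat_lit 6) (nat_lit 461) (nat_lit 0) (nat_lit 209) (nat_lit 188) (nat_lit 173))))) (PT.nd (nat_lit 56082) (PT.nd (nat_lit 156) (PT.nd (nat_lit 78) (PT.lf (nat_lit 33516) (nat_lit 6) (nat_lit 441) (nat_lit 0) (nat_lit 210) (nat_lit 188) (nat_lit 172)) (PT.lf (nat_lit 31920) (nat_lit 6) (nat_lit 420) (nat_lit 0) (nat_lit 211) (nat_lit 188) (nat_lit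 171))) (PT.nd (nat_lit 78) (PT.lf (nat_lit 30248) (nat_lit 6) (nat_lit 398) (nat_lit 0) (nat_lit 212) (nat_lit 188) (nat_lit 170)) (PT.lf (nat_lit 28500) (nat_lit 6) (nat_lit 375) (nat_lit 0) (nat_lit 213) (nat_lit 188) (nat_lit 169)))) (PT.nd (nat_lit 156) (PT.nd (nat_lit 78) (PT.lf (nat_lit 28576) (nat_lit 6) (nat_lit 376) (nat_lit 5) (nat_lit 168) (nat_lit 189) (nat_lit 213)) (PT.lf (nat_lit 30324) (nat_lit 6) (nat_lit 399) (nat_lit 5) (nat_lit 169) (nat_lit 189) (nat_lit 212))) (PT.nd (nat_lit 78) (PT.lf (nat_lit 31996) (nat_lit 6) (nat_lit 421) (nat_lit 5) (nat_lit 170) (nat_lit 189) (nat_lit 211)) (PT.lf (nat_lit 33592) (nat_lit 6) (nat_lit 442) (nat_lit 5) (nat_lit 171) (nat_lit 189) (nat_lit 210))))))))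
noncomputable def pc25 : PT := (PT.nd (nat_lit 2262) (PT.nd (nat_lit 1092) (PT.nd (nat_lit 546) (PT.nd (nat_lit 234) (PT.nd (nat_lit 78) (PT.lf (nat_lit 35112) (nat_lit 6) (nat_lit 462) (nat_lit 5) (nat_lit 172) (nat_lit 189) (nat_lit 209)) (PT.nd (nat_lit 78) (PT.lf (nat_lit 36556) (nat_lit 6) (nat_lit 481) (nat_lit 5) (nat_lit 173) (nat_lit 189) (nat_lit 208)) (PT.lf (nat_lit 37924) (nat_lit 6) (nat_lit 499) (nat_lit 5) (nat_lit 174) (nat_lit 189) (nat_lit 207)))) (PT.nd (nat_lit 156) (PT.nd (nat_lit 78) (PT.lf (nat_lit 39216) (nat_lit 6) (nat_lit 516) (nat_lit 5) (nat_lit 175) (nat_lit 189) (nat_lit 206)) (PT.lf (nat_lit 40432) (nat_lit 6) (nat_lit 532) (nat_lit 5) (nat_lit 176) (nat_lit 189) (nat_lit 205))) (PT.nd (nat_lit 78) (PT.lf (nat_lit 41572) (nat_lit 6) (nat_lit 547) (nat_lit 5) (nat_lit 177) (nat_lit 189) (nat_lit 204)) (PT.lf (nat_lit 42636) (nat_lit 6) (nat_lit 561) (nat_lit 5) (nat_lit 178)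 (nat_lit 189) (nat_lit 203))))) (PT.nd (nat_lit 234) (PT.nd (nat_lit 78) (PT.lf (nat_lit 43624) (nat_lit 6) (nat_lit 574) (nat_lit 5) (nat_lit 179) (nat_lit 189) (nat_lit 202)) (PT.nd (nat_lit 78) (PT.lf (nat_lit 44536) (nat_lit 6) (nat_lit 586) (nat_lit 5) (nat_lit 180) (nat_lit 189) (nat_lit 201)) (PT.lf (nat_lit 45372) (nat_lit 6) (nat_lit 597) (nat_lit 5) (nat_lit 181) (nat_lit 189) (nat_lit 200)))) (PT.nd (nat_lit 156) (PT.nd (nat_lit 78) (PT.lf (nat_lit 46132) (nat_lit 6) (nat_lit 607) (nat_lit 5) (nat_lit 182) (nat_lit 189) (nat_lit 199)) (PT.lf (nat_lit 46816) (nat_lit 6) (nat_lit 616) (nat_lit 5) (nat_lit 183) (nat_lit 189) (nat_lit 198))) (PT.nd (nat_lit 78) (PT.lf (nat_lit 47424) (nat_lit 6) (nat_lit 624) (nat_lit 5) (nat_lit 184) (nat_lit 189) (nat_lit 197)) (PT.lf (nat_lit 47956) (nat_lit 6) (nat_lit 631) (nat_lit 5) (nat_lit 185) (nat_lit 189) (nat_lit 196)))))) (PT.nd (nat_lit 546) (PT.nd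 (nat_lit 234) (PT.nd (nat_lit 78) (PT.lf (nat_lit 48412) (nat_lit 6) (nat_lit 637) (nat_lit 5) (nat_lit 186) (nat_lit 189) (nat_lit 195)) (PT.nd (nat_lit 78) (PT.lf (nat_lit 48792) (nat_lit 6) (nat_lit 642) (nat_lit 5) (nat_lit 187) (nat_lit 189) (nat_lit 194)) (PT.lf (nat_lit 49096) (nat_lit 6) (nat_lit 646) (nat_lit 5) (nat_lit 188) (nat_lit 189) (nat_lit 193)))) (PT.nd (nat_lit 156) (PT.nd (nat_lit 78) (PT.lf (nat_lit 49324) (nat_lit 3) (nat_lit 649) (nat_lit 3) (nat_lit 189) (nat_lit 189) (nat_lit 192)) (PT.lf (nat_lit 49552) (nat_lit 6) (nat_lit 652) (nat_lit 3) (nat_lit 190) (nat_lit 189) (nat_lit 191))) (PT.nd (nat_lit 78) (PT.lf (nat_lit 49552) (nat_lit 6) (nat_lit 652) (nat_lit 1) (nat_lit 191) (nat_lit 189) (nat_lit 190)) (PT.lf (nat_lit 49324) (nat_lit 3) (nat_lit 649) (nat_lit 0) (nat_lit 192) (nat_lit 189) (nat_lit 189))))) (PT.nd (nat_lit 312) (PT.nd (nat_lit 156) (PT.nd (nat_lit 78) (PT.lf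 (nat_lit 49096) (nat_lit 6) (nat_lit 646) (nat_lit 0) (nat_lit 193) (nat_lit 189) (nat_lit 188)) (PT.lf (nat_lit 48792) (nat_lit 6) (nat_lit 642) (nat_lit 0) (nat_lit 194) (nat_lit 189) (nat_lit 187))) (PT.nd (nat_lit 78) (PT.lf (nat_lit 48412) (nat_lit 6) (nat_lit 637) (nat_lit 0) (nat_lit 195) (nat_lit 189) (nat_lit 186)) (PT.lf (nat_lit 47956) (nat_lit 6) (nat_lit 631) (nat_lit 0) (nat_lit 196) (nat_lit 189) (nat_lit 185)))) (PT.nd (nat_lit 156) (PT.nd (nat_lit 78) (PT.lf (nat_lit 47424) (nat_lit 6) (nat_lit 624) (nat_lit 0) (nat_lit 197) (nat_lit 189) (nat_lit 184)) (PT.lf (nat_lit 46816) (nat_lit 6) (nat_lit 616) (nat_lit 0) (nat_lit 198) (nat_lit 189) (nat_lit 183))) (PT.nd (nat_lit 78) (PT.lf (nat_lit 46132) (nat_lit 6) (nat_lit 607) (nat_lit 0) (nat_lit 199) (nat_lit 189) (nat_lit 182)) (PT.lf (nat_lit 45372) (nat_lit 6) (nat_lit 597) (nat_lit 0) (nat_lit 200) (nat_lit 189) (nat_lit 181))))))) (PT.nd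 (nat_lit 56784) (PT.nd (nat_lit 546) (PT.nd (nat_lit 234) (PT.nd (nat_lit 78) (PT.lf (nat_lit 44536) (nat_lit 6) (nat_lit 586) (nat_lit 0) (nat_lit 201) (nat_lit 189) (nat_lit 180)) (PT.nd (nat_lit 78) (PT.lf (nat_lit 43624) (nat_lit 6) (nat_lit 574) (nat_lit 0) (nat_lit 202) (nat_lit 189) (nat_lit 179)) (PT.lf (nat_lit 42636) (nat_lit 6) (nat_lit 561) (nat_lit 0) (nat_lit 203) (nat_lit 189) (nat_lit 178)))) (PT.nd (nat_lit 156) (PT.nd (nat_lit 78) (PT.lf (nat_lit 41572) (nat_lit 6) (nat_lit 547) (nat_lit 0) (nat_lit 204) (nat_lit 189) (nat_lit 177)) (PT.lf (nat_lit 40432) (nat_lit 6) (nat_lit 532) (nat_lit 0) (nat_lit 205) (nat_lit 189) (nat_lit 176))) (PT.nd (nat_lit 78) (PT.lf (nat_lit 39216) (nat_lit 6) (nat_lit 516) (nat_lit 0) (nat_lit 206) (nat_lit 189) (nat_lit 175)) (PT.lf (nat_lit 37924) (nat_lit 6) (nat_lit 499) (nat_lit 0) (nat_lit 207) (nat_lit 189) (nat_lit 174))))) (PT.nd (nat_lit 234) (PT.nd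 (nat_lit 78) (PT.lf (nat_lit 36556) (nat_lit 6) (nat_lit 481) (nat_lit 0) (nat_lit 208) (nat_lit 189) (nat_lit 173)) (PT.nd (nat_lit 78) (PT.lf (nat_lit 35112) (nat_lit 6) (nat_lit 462) (nat_lit 0) (nat_lit 209) (nat_lit 189) (nat_lit 172)) (PT.lf (nat_lit 33592) (nat_lit 6) (nat_lit 442) (nat_lit 0) (nat_lit 210) (nat_lit 189) (nat_lit 171)))) (PT.nd (nat_lit 156) (PT.nd (nat_lit 78) (PT.lf (nat_lit 31996) (nat_lit 6) (nat_lit 421) (nat_lit 0) (nat_lit 211) (nat_lit 189) (nat_lit 170)) (PT.lf (nat_lit 30324) (nat_lit 6) (nat_lit 399) (nat_lit 0) (nat_lit 212) (nat_lit 189) (nat_lit 169))) (PT.nd (nat_lit 55770) (PT.lf (nat_lit 28576) (nat_lit 6) (nat_lit 376) (nat_lit 0) (nat_lit 213) (nat_lit 189) (nat_lit 168)) (PT.lf (nat_lit 28652) (nat_lit 6) (nat_lit 377) (nat_lit 5) (nat_lit 167) (nat_lit 190) (nat_lit 213)))))) (PT.nd (nat_lit 546) (PT.nd (nat_lit 234) (PT.nd (nat_lit 78) (PT.lf (nat_lit 30400)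 (nat_lit 6) (nat_lit 400) (nat_lit 5) (nat_lit 168) (nat_lit 190) (nat_lit 212)) (PT.nd (nat_lit 78) (PT.lf (nat_lit 32072) (nat_lit 6) (nat_lit 422) (nat_lit 5) (nat_lit 169) (nat_lit 190) (nat_lit 211)) (PT.lf (nat_lit 33668) (nat_lit 6) (nat_lit 443) (nat_lit 5) (nat_lit 170) (nat_lit 190) (nat_lit 210)))) (PT.nd (nat_lit 156) (PT.nd (nat_lit 78) (PT.lf (nat_lit 35188) (nat_lit 6) (nat_lit 463) (nat_lit 5) (nat_lit 171) (nat_lit 190) (nat_lit 209)) (PT.lf (nat_lit 36632) (nat_lit 6) (nat_lit 482) (nat_lit 5) (nat_lit 172) (nat_lit 190) (nat_lit 208))) (PT.nd (nat_lit 78) (PT.lf (nat_lit 38000) (nat_lit 6) (nat_lit 500) (nat_lit 5) (nat_lit 173) (nat_lit 190) (nat_lit 207)) (PT.lf (nat_lit 39292) (nat_lit 6) (nat_lit 517) (nat_lit 5) (nat_lit 174) (nat_lit 190) (nat_lit 206))))) (PT.nd (nat_lit 312) (PT.nd (nat_lit 156) (PT.nd (nat_lit 78) (PT.lf (nat_lit 40508) (nat_lit 6) (nat_lit 533) (nat_lit 5) (nat_lit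 175) (nat_lit 190) (nat_lit 205)) (PT.lf (nat_lit 41648) (nat_lit 6) (nat_lit 548) (nat_lit 5) (nat_lit 176) (nat_lit 190) (nat_lit 204))) (PT.nd (nat_lit 78) (PT.lf (nat_lit 42712) (nat_lit 6) (nat_lit 562) (nat_lit 5) (nat_lit 177) (nat_lit 190) (nat_lit 203)) (PT.lf (nat_lit 43700) (nat_lit 6) (nat_lit 575) (nat_lit 5) (nat_lit 178) (nat_lit 190) (nat_lit 202)))) (PT.nd (nat_lit 156) (PT.nd (nat_lit 78) (PT.lf (nat_lit 44612) (nat_lit 6) (nat_lit 587) (nat_lit 5) (nat_lit 179) (nat_lit 190) (nat_lit 201)) (PT.lf (nat_lit 45448) (nat_lit 6) (nat_lit 598) (nat_lit 5) (nat_lit 180) (nat_lit 190) (nat_lit 200))) (PT.nd (nat_lit 78) (PT.lf (nat_lit 46208) (nat_lit 6) (nat_lit 608) (nat_lit 5) (nat_lit 181) (nat_lit 190) (nat_lit 199)) (PT.lf (nat_lit 46892) (nat_lit 6) (nat_lit 617) (nat_lit 5) (nat_lit 182) (nat_lit 190) (nat_lit 198))))))))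
noncomputable def pc26 : PT := (PT.nd (nat_lit 2184) (PT.nd (nat_lit 1092) (PT.nd (nat_lit 546) (PT.nd (nat_lit 234) (PT.nd (nat_lit 78) (PT.lf (nat_lit 47500) (nat_lit 6) (nat_lit 625) (nat_lit 5) (nat_lit 183) (nat_lit 190) (nat_lit 197)) (PT.nd (nat_lit 78) (PT.lf (nat_lit 48032) (nat_lit 6) (nat_lit 632) (nat_lit 5) (nat_lit 184) (nat_lit 190) (nat_lit 196)) (PT.lf (nat_lit 48488) (nat_lit 6) (nat_lit 638) (nat_lit 5) (nat_lit 185) (nat_lit 190) (nat_lit 195)))) (PT.nd (nat_lit 156) (PT.nd (nat_lit 78) (PT.lf (nat_lit 48868) (nat_lit 6) (nat_lit 643) (nat_lit 5) (nat_lit 186) (nat_lit 190) (nat_lit 194)) (PT.lf (nat_lit 49172) (nat_lit 6) (nat_lit 647) (nat_lit 5) (nat_lit 187) (nat_lit 190) (nat_lit 193))) (PT.nd (nat_lit 78) (PT.lf (nat_lit 49400) (nat_lit 6) (nat_lit 650) (nat_lit 5) (nat_lit 188) (nat_lit 190) (nat_lit 192)) (PT.lf (nat_lit 49552) (nat_lit 6) (nat_lit 652) (nat_lit 5) (nat_lit 189)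 (nat_lit 190) (nat_lit 191))))) (PT.nd (nat_lit 234) (PT.nd (nat_lit 78) (PT.lf (nat_lit 49628) (nat_lit 1) (nat_lit 653) (nat_lit 0) (nat_lit 190) (nat_lit 190) (nat_lit 190)) (PT.nd (nat_lit 78) (PT.lf (nat_lit 49552) (nat_lit 6) (nat_lit 652) (nat_lit 0) (nat_lit 191) (nat_lit 190) (nat_lit 189)) (PT.lf (nat_lit 49400) (nat_lit 6) (nat_lit 650) (nat_lit 0) (nat_lit 192) (nat_lit 190) (nat_lit 188)))) (PT.nd (nat_lit 156) (PT.nd (nat_lit 78) (PT.lf (nat_lit 49172) (nat_lit 6) (nat_lit 647) (nat_lit 0) (nat_lit 193) (nat_lit 190) (nat_lit 187)) (PT.lf (nat_lit 48868) (nat_lit 6) (nat_lit 643) (nat_lit 0) (nat_lit 194) (nat_lit 190) (nat_lit 186))) (PT.nd (nat_lit 78) (PT.lf (nat_lit 48488) (nat_lit 6) (nat_lit 638) (nat_lit 0) (nat_lit 195) (nat_lit 190) (nat_lit 185)) (PT.lf (nat_lit 48032) (nat_lit 6) (nat_lit 632) (nat_lit 0) (nat_lit 196) (nat_lit 190) (nat_lit 184)))))) (PT.nd (nat_lit 546) (PT.nd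 (nat_lit 234) (PT.nd (nat_lit 78) (PT.lf (nat_lit 47500) (nat_lit 6) (nat_lit 625) (nat_lit 0) (nat_lit 197) (nat_lit 190) (nat_lit 183)) (PT.nd (nat_lit 78) (PT.lf (nat_lit 46892) (nat_lit 6) (nat_lit 617) (nat_lit 0) (nat_lit 198) (nat_lit 190) (nat_lit 182)) (PT.lf (nat_lit 46208) (nat_lit 6) (nat_lit 608) (nat_lit 0) (nat_lit 199) (nat_lit 190) (nat_lit 181)))) (PT.nd (nat_lit 156) (PT.nd (nat_lit 78) (PT.lf (nat_lit 45448) (nat_lit 6) (nat_lit 598) (nat_lit 0) (nat_lit 200) (nat_lit 190) (nat_lit 180)) (PT.lf (nat_lit 44612) (nat_lit 6) (nat_lit 587) (nat_lit 0) (nat_lit 201) (nat_lit 190) (nat_lit 179))) (PT.nd (nat_lit 78) (PT.lf (nat_lit 43700) (nat_lit 6) (nat_lit 575) (nat_lit 0) (nat_lit 202) (nat_lit 190) (nat_lit 178)) (PT.lf (nat_lit 42712) (nat_lit 6) (nat_lit 562) (nat_lit 0) (nat_lit 203) (nat_lit 190) (nat_lit 177))))) (PT.nd (nat_lit 234) (PT.nd (nat_lit 78) (PT.lf (nat_lit 41648) (nat_lit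 6) (nat_lit 548) (nat_lit 0) (nat_lit 204) (nat_lit 190) (nat_lit 176)) (PT.nd (nat_lit 78) (PT.lf (nat_lit 40508) (nat_lit 6) (nat_lit 533) (nat_lit 0) (nat_lit 205) (nat_lit 190) (nat_lit 175)) (PT.lf (nat_lit 39292) (nat_lit 6) (nat_lit 517) (nat_lit 0) (nat_lit 206) (nat_lit 190) (nat_lit 174)))) (PT.nd (nat_lit 156) (PT.nd (nat_lit 78) (PT.lf (nat_lit 38000) (nat_lit 6) (nat_lit 500) (nat_lit 0) (nat_lit 207) (nat_lit 190) (nat_lit 173)) (PT.lf (nat_lit 36632) (nat_lit 6) (nat_lit 482) (nat_lit 0) (nat_lit 208) (nat_lit 190) (nat_lit 172))) (PT.nd (nat_lit 78) (PT.lf (nat_lit 35188) (nat_lit 6) (nat_lit 463) (nat_lit 0) (nat_lit 209) (nat_lit 190) (nat_lit 171)) (PT.lf (nat_lit 33668) (nat_lit 6) (nat_lit 443) (nat_lit 0) (nat_lit 210) (nat_lit 190) (nat_lit 170))))))) (PT.nd (nat_lit 56628) (PT.nd (nat_lit 56082) (PT.nd (nat_lit 55770) (PT.nd (nat_lit 78) (PT.lf (nat_lit 32072) (nat_lit 6) (nat_lit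 422) (nat_lit 0) (nat_lit 211) (nat_lit 190) (nat_lit 169)) (PT.nd (nat_lit 78) (PT.lf (nat_lit 30400) (nat_lit 6) (nat_lit 400) (nat_lit 0) (nat_lit 212) (nat_lit 190) (nat_lit 168)) (PT.lf (nat_lit 28652) (nat_lit 6) (nat_lit 377) (nat_lit 0) (nat_lit 213) (nat_lit 190) (nat_lit 167)))) (PT.nd (nat_lit 156) (PT.nd (nat_lit 78) (PT.lf (nat_lit 25916) (nat_lit 6) (nat_lit 341) (nat_lit 5) (nat_lit 165) (nat_lit 191) (nat_lit 214)) (PT.lf (nat_lit 26904) (nat_lit 6) (nat_lit 354) (nat_lit 5) (nat_lit 166) (nat_lit 191) (nat_lit 213))) (PT.nd (nat_lit 78) (PT.lf (nat_lit 28728) (nat_lit 6) (nat_lit 378) (nat_lit 5) (nat_lit 167) (nat_lit 191) (nat_lit 212)) (PT.lf (nat_lit 30476) (nat_lit 6) (nat_lit 401) (nat_lit 5) (nat_lit 168) (nat_lit 191) (nat_lit 211))))) (PT.nd (nat_lit 234) (PT.nd (nat_lit 78) (PT.lf (nat_lit 32148) (nat_lit 6) (nat_lit 423) (nat_lit 5) (nat_lit 169) (nat_lit 191) (nat_lit 210)) (PT.nd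 (nat_lit 78) (PT.lf (nat_lit 33744) (nat_lit 6) (nat_lit 444) (nat_lit 5) (nat_lit 170) (nat_lit 191) (nat_lit 209)) (PT.lf (nat_lit 35264) (nat_lit 6) (nat_lit 464) (nat_lit 5) (nat_lit 171) (nat_lit 191) (nat_lit 208)))) (PT.nd (nat_lit 156) (PT.nd (nat_lit 78) (PT.lf (nat_lit 36708) (nat_lit 6) (nat_lit 483) (nat_lit 5) (nat_lit 172) (nat_lit 191) (nat_lit 207)) (PT.lf (nat_lit 38076) (nat_lit 6) (nat_lit 501) (nat_lit 5) (nat_lit 173) (nat_lit 191) (nat_lit 206))) (PT.nd (nat_lit 78) (PT.lf (nat_lit 39368) (nat_lit 6) (nat_lit 518) (nat_lit 5) (nat_lit 174) (nat_lit 191) (nat_lit 205)) (PT.lf (nat_lit 40584) (nat_lit 6) (nat_lit 534) (nat_lit 5) (nat_lit 175) (nat_lit 191) (nat_lit 204)))))) (PT.nd (nat_lit 546) (PT.nd (nat_lit 234) (PT.nd (nat_lit 78) (PT.lf (nat_lit 41724) (nat_lit 6) (nat_lit 549) (nat_lit 5) (nat_lit 176) (nat_lit 191) (nat_lit 203)) (PT.nd (nat_lit 78) (PT.lf (nat_lit 42788) (nat_lit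 6) (nat_lit 563) (nat_lit 5) (nat_lit 177) (nat_lit 191) (nat_lit 202)) (PT.lf (nat_lit 43776) (nat_lit 6) (nat_lit 576) (nat_lit 5) (nat_lit 178) (nat_lit 191) (nat_lit 201)))) (PT.nd (nat_lit 156) (PT.nd (nat_lit 78) (PT.lf (nat_lit 44688) (nat_lit 6) (nat_lit 588) (nat_lit 5) (nat_lit 179) (nat_lit 191) (nat_lit 200)) (PT.lf (nat_lit 45524) (nat_lit 6) (nat_lit 599) (nat_lit 5) (nat_lit 180) (nat_lit 191) (nat_lit 199))) (PT.nd (nat_lit 78) (PT.lf (nat_lit 46284) (nat_lit 6) (nat_lit 609) (nat_lit 5) (nat_lit 181) (nat_lit 191) (nat_lit 198)) (PT.lf (nat_lit 46968) (nat_lit 6) (nat_lit 618) (nat_lit 5) (nat_lit 182) (nat_lit 191) (nat_lit 197))))) (PT.nd (nat_lit 312) (PT.nd (nat_lit 156) (PT.nd (nat_lit 78) (PT.lf (nat_lit 47576) (nat_lit 6) (nat_lit 626) (nat_lit 5) (nat_lit 183) (nat_lit 191) (nat_lit 196)) (PT.lf (nat_lit 48108) (nat_lit 6) (nat_lit 633) (nat_lit 5) (nat_lit 184) (nat_lit 191) (nat_lit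 195))) (PT.nd (nat_lit 78) (PT.lf (nat_lit 48564) (nat_lit 6) (nat_lit 639) (nat_lit 5) (nat_lit 185) (nat_lit 191) (nat_lit 194)) (PT.lf (nat_lit 48944) (nat_lit 6) (nat_lit 644) (nat_lit 5) (nat_lit 186) (nat_lit 191) (nat_lit 193)))) (PT.nd (nat_lit 156) (PT.nd (nat_lit 78) (PT.lf (nat_lit 49248) (nat_lit 6) (nat_lit 648) (nat_lit 5) (nat_lit 187) (nat_lit 191) (nat_lit 192)) (PT.lf (nat_lit 49476) (nat_lit 3) (nat_lit 651) (nat_lit 4) (nat_lit 188) (nat_lit 191) (nat_lit 191))) (PT.nd (nat_lit 78) (PT.lf (nat_lit 49552) (nat_lit 6) (nat_lit 652) (nat_lit 4) (nat_lit 189) (nat_lit 191) (nat_lit 190)) (PT.lf (nat_lit 49552) (nat_lit 6) (nat_lit 652) (nat_lit 2) (nat_lit 190) (nat_lit 191) (nat_lit 189))))))))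
noncomputable def pc27 : PT := (PT.nd (nat_lit 57642) (PT.nd (nat_lit 1092) (PT.nd (nat_lit 546) (PT.nd (nat_lit 234) (PT.nd (nat_lit 78) (PT.lf (nat_lit 49476) (nat_lit 3) (nat_lit 651) (nat_lit 0) (nat_lit 191) (nat_lit 191) (nat_lit 188)) (PT.nd (nat_lit 78) (PT.lf (nat_lit 49248) (nat_lit 6) (nat_lit 648) (nat_lit 0) (nat_lit 192) (nat_lit 191) (nat_lit 187)) (PT.lf (nat_lit 48944) (nat_lit 6) (nat_lit 644) (nat_lit 0) (nat_lit 193) (nat_lit 191) (nat_lit 186)))) (PT.nd (nat_lit 156) (PT.nd (nat_lit 78) (PT.lf (nat_lit 48564) (nat_lit 6) (nat_lit 639) (nat_lit 0) (nat_lit 194) (nat_lit 191) (nat_lit 185)) (PT.lf (nat_lit 48108) (nat_lit 6) (nat_lit 633) (nat_lit 0) (nat_lit 195) (nat_lit 191) (nat_lit 184))) (PT.nd (nat_lit 78) (PT.lf (nat_lit 47576) (nat_lit 6) (nat_lit 626) (nat_lit 0) (nat_lit 196) (nat_lit 191) (nat_lit 183)) (PT.lf (nat_lit 46968) (nat_lit 6) (nat_lit 618) (nat_lit 0) (nat_lit 197)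 (nat_lit 191) (nat_lit 182))))) (PT.nd (nat_lit 234) (PT.nd (nat_lit 78) (PT.lf (nat_lit 46284) (nat_lit 6) (nat_lit 609) (nat_lit 0) (nat_lit 198) (nat_lit 191) (nat_lit 181)) (PT.nd (nat_lit 78) (PT.lf (nat_lit 45524) (nat_lit 6) (nat_lit 599) (nat_lit 0) (nat_lit 199) (nat_lit 191) (nat_lit 180)) (PT.lf (nat_lit 44688) (nat_lit 6) (nat_lit 588) (nat_lit 0) (nat_lit 200) (nat_lit 191) (nat_lit 179)))) (PT.nd (nat_lit 156) (PT.nd (nat_lit 78) (PT.lf (nat_lit 43776) (nat_lit 6) (nat_lit 576) (nat_lit 0) (nat_lit 201) (nat_lit 191) (nat_lit 178)) (PT.lf (nat_lit 42788) (nat_lit 6) (nat_lit 563) (nat_lit 0) (nat_lit 202) (nat_lit 191) (nat_lit 177))) (PT.nd (nat_lit 78) (PT.lf (nat_lit 41724) (nat_lit 6) (nat_lit 549) (nat_lit 0) (nat_lit 203) (nat_lit 191) (nat_lit 176)) (PT.lf (nat_lit 40584) (nat_lit 6) (nat_lit 534) (nat_lit 0) (nat_lit 204) (nat_lit 191) (nat_lit 175)))))) (PT.nd (nat_lit 546) (PT.nd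 (nat_lit 234) (PT.nd (nat_lit 78) (PT.lf (nat_lit 39368) (nat_lit 6) (nat_lit 518) (nat_lit 0) (nat_lit 205) (nat_lit 191) (nat_lit 174)) (PT.nd (nat_lit 78) (PT.lf (nat_lit 38076) (nat_lit 6) (nat_lit 501) (nat_lit 0) (nat_lit 206) (nat_lit 191) (nat_lit 173)) (PT.lf (nat_lit 36708) (nat_lit 6) (nat_lit 483) (nat_lit 0) (nat_lit 207) (nat_lit 191) (nat_lit 172)))) (PT.nd (nat_lit 156) (PT.nd (nat_lit 78) (PT.lf (nat_lit 35264) (nat_lit 6) (nat_lit 464) (nat_lit 0) (nat_lit 208) (nat_lit 191) (nat_lit 171)) (PT.lf (nat_lit 33744) (nat_lit 6) (nat_lit 444) (nat_lit 0) (nat_lit 209) (nat_lit 191) (nat_lit 170))) (PT.nd (nat_lit 78) (PT.lf (nat_lit 32148) (nat_lit 6) (nat_lit 423) (nat_lit 0) (nat_lit 210) (nat_lit 191) (nat_lit 169)) (PT.lf (nat_lit 30476) (nat_lit 6) (nat_lit 401) (nat_lit 0) (nat_lit 211) (nat_lit 191) (nat_lit 168))))) (PT.nd (nat_lit 55692) (PT.nd (nat_lit 156) (PT.nd (nat_lit 78) (PT.lf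 (nat_lit 28728) (nat_lit 6) (nat_lit 378) (nat_lit 0) (nat_lit 212) (nat_lit 191) (nat_lit 167)) (PT.lf (nat_lit 26904) (nat_lit 6) (nat_lit 354) (nat_lit 0) (nat_lit 213) (nat_lit 191) (nat_lit 166))) (PT.nd (nat_lit 55458) (PT.lf (nat_lit 25916) (nat_lit 6) (nat_lit 341) (nat_lit 0) (nat_lit 214) (nat_lit 191) (nat_lit 165)) (PT.lf (nat_lit 25004) (nat_lit 6) (nat_lit 329) (nat_lit 5) (nat_lit 164) (nat_lit 192) (nat_lit 214)))) (PT.nd (nat_lit 156) (PT.nd (nat_lit 78) (PT.lf (nat_lit 25992) (nat_lit 6) (nat_lit 342) (nat_lit 5) (nat_lit 165) (nat_lit 192) (nat_lit 213)) (PT.lf (nat_lit 26980) (nat_lit 6) (nat_lit 355) (nat_lit 5) (nat_lit 166) (nat_lit 192) (nat_lit 212))) (PT.nd (nat_lit 78) (PT.lf (nat_lit 28804) (nat_lit 6) (nat_lit 379) (nat_lit 5) (nat_lit 167) (nat_lit 192) (nat_lit 211)) (PT.lf (nat_lit 30552) (nat_lit 6) (nat_lit 402) (nat_lit 5) (nat_lit 168) (nat_lit 192) (nat_lit 210)))))))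 (PT.nd (nat_lit 1092) (PT.nd (nat_lit 546) (PT.nd (nat_lit 234) (PT.nd (nat_lit 78) (PT.lf (nat_lit 32224) (nat_lit 6) (nat_lit 424) (nat_lit 5) (nat_lit 169) (nat_lit 192) (nat_lit 209)) (PT.nd (nat_lit 78) (PT.lf (nat_lit 33820) (nat_lit 6) (nat_lit 445) (nat_lit 5) (nat_lit 170) (nat_lit 192) (nat_lit 208)) (PT.lf (nat_lit 35340) (nat_lit 6) (nat_lit 465) (nat_lit 5) (nat_lit 171) (nat_lit 192) (nat_lit 207)))) (PT.nd (nat_lit 156) (PT.nd (nat_lit 78) (PT.lf (nat_lit 36784) (nat_lit 6) (nat_lit 484) (nat_lit 5) (nat_lit 172) (nat_lit 192) (nat_lit 206)) (PT.lf (nat_lit 38152) (nat_lit 6) (nat_lit 502) (nat_lit 5) (nat_lit 173) (nat_lit 192) (nat_lit 205))) (PT.nd (nat_lit 78) (PT.lf (nat_lit 39444) (nat_lit 6) (nat_lit 519) (nat_lit 5) (nat_lit 174) (nat_lit 192) (nat_lit 204)) (PT.lf (nat_lit 40660) (nat_lit 6) (nat_lit 535) (nat_lit 5) (nat_lit 175) (nat_lit 192) (nat_lit 203))))) (PT.nd (nat_lit 234)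 (PT.nd (nat_lit 78) (PT.lf (nat_lit 41800) (nat_lit 6) (nat_lit 550) (nat_lit 5) (nat_lit 176) (nat_lit 192) (nat_lit 202)) (PT.nd (nat_lit 78) (PT.lf (nat_lit 42864) (nat_lit 6) (nat_lit 564) (nat_lit 5) (nat_lit 177) (nat_lit 192) (nat_lit 201)) (PT.lf (nat_lit 43852) (nat_lit 6) (nat_lit 577) (nat_lit 5) (nat_lit 178) (nat_lit 192) (nat_lit 200)))) (PT.nd (nat_lit 156) (PT.nd (nat_lit 78) (PT.lf (nat_lit 44764) (nat_lit 6) (nat_lit 589) (nat_lit 5) (nat_lit 179) (nat_lit 192) (nat_lit 199)) (PT.lf (nat_lit 45600) (nat_lit 6) (nat_lit 600) (nat_lit 5) (nat_lit 180) (nat_lit 192) (nat_lit 198))) (PT.nd (nat_lit 78) (PT.lf (nat_lit 46360) (nat_lit 6) (nat_lit 610) (nat_lit 5) (nat_lit 181) (nat_lit 192) (nat_lit 197)) (PT.lf (nat_lit 47044) (nat_lit 6) (nat_lit 619) (nat_lit 5) (nat_lit 182) (nat_lit 192) (nat_lit 196)))))) (PT.nd (nat_lit 546) (PT.nd (nat_lit 234) (PT.nd (nat_lit 78) (PT.lf (nat_lit 47652)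 (nat_lit 6) (nat_lit 627) (nat_lit 5) (nat_lit 183) (nat_lit 192) (nat_lit 195)) (PT.nd (nat_lit 78) (PT.lf (nat_lit 48184) (nat_lit 6) (nat_lit 634) (nat_lit 5) (nat_lit 184) (nat_lit 192) (nat_lit 194)) (PT.lf (nat_lit 48640) (nat_lit 6) (nat_lit 640) (nat_lit 5) (nat_lit 185) (nat_lit 192) (nat_lit 193)))) (PT.nd (nat_lit 156) (PT.nd (nat_lit 78) (PT.lf (nat_lit 49020) (nat_lit 3) (nat_lit 645) (nat_lit 4) (nat_lit 186) (nat_lit 192) (nat_lit 192)) (PT.lf (nat_lit 49248) (nat_lit 6) (nat_lit 648) (nat_lit 4) (nat_lit 187) (nat_lit 192) (nat_lit 191))) (PT.nd (nat_lit 78) (PT.lf (nat_lit 49400) (nat_lit 6) (nat_lit 650) (nat_lit 4) (nat_lit 188) (nat_lit 192) (nat_lit 190)) (PT.lf (nat_lit 49324) (nat_lit 3) (nat_lit 649) (nat_lit 2) (nat_lit 189) (nat_lit 192) (nat_lit 189))))) (PT.nd (nat_lit 312) (PT.nd (nat_lit 156) (PT.nd (nat_lit 78) (PT.lf (nat_lit 49400) (nat_lit 6) (nat_lit 650) (nat_lit 2) (nat_lit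 190) (nat_lit 192) (nat_lit 188)) (PT.lf (nat_lit 49248) (nat_lit 6) (nat_lit 648) (nat_lit 2) (nat_lit 191) (nat_lit 192) (nat_lit 187))) (PT.nd (nat_lit 78) (PT.lf (nat_lit 49020) (nat_lit 3) (nat_lit 645) (nat_lit 0) (nat_lit 192) (nat_lit 192) (nat_lit 186)) (PT.lf (nat_lit 48640) (nat_lit 6) (nat_lit 640) (nat_lit 0) (nat_lit 193) (nat_lit 192) (nat_lit 185)))) (PT.nd (nat_lit 156) (PT.nd (nat_lit 78) (PT.lf (nat_lit 48184) (nat_lit 6) (nat_lit 634) (nat_lit 0) (nat_lit 194) (nat_lit 192) (nat_lit 184)) (PT.lf (nat_lit 47652) (nat_lit 6) (nat_lit 627) (nat_lit 0) (nat_lit 195) (nat_lit 192) (nat_lit 183))) (PT.nd (nat_lit 78) (PT.lf (nat_lit 47044) (nat_lit 6) (nat_lit 619) (nat_lit 0) (nat_lit 196) (nat_lit 192) (nat_lit 182)) (PT.lf (nat_lit 46360) (nat_lit 6) (nat_lit 610) (nat_lit 0) (nat_lit 197) (nat_lit 192) (nat_lit 181))))))))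
noncomputable def pc28 : PT := (PT.nd (nat_lit 57486) (PT.nd (nat_lit 1092) (PT.nd (nat_lit 546) (PT.nd (nat_lit 234) (PT.nd (nat_lit 78) (PT.lf (nat_lit 45600) (nat_lit 6) (nat_lit 600) (nat_lit 0) (nat_lit 198) (nat_lit 192) (nat_lit 180)) (PT.nd (nat_lit 78) (PT.lf (nat_lit 44764) (nat_lit 6) (nat_lit 589) (nat_lit 0) (nat_lit 199) (nat_lit 192) (nat_lit 179)) (PT.lf (nat_lit 43852) (nat_lit 6) (nat_lit 577) (nat_lit 0) (nat_lit 200) (nat_lit 192) (nat_lit 178)))) (PT.nd (nat_lit 156) (PT.nd (nat_lit 78) (PT.lf (nat_lit 42864) (nat_lit 6) (nat_lit 564) (nat_lit 0) (nat_lit 201) (nat_lit 192) (nat_lit 177)) (PT.lf (nat_lit 41800) (nat_lit 6) (nat_lit 550) (nat_lit 0) (nat_lit 202) (nat_lit 192) (nat_lit 176))) (PT.nd (nat_lit 78) (PT.lf (nat_lit 40660) (nat_lit 6) (nat_lit 535) (nat_lit 0) (nat_lit 203) (nat_lit 192) (nat_lit 175)) (PT.lf (nat_lit 39444) (nat_lit 6) (nat_lit 519) (nat_lit 0) (nat_lit 204)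 (nat_lit 192) (nat_lit 174))))) (PT.nd (nat_lit 234) (PT.nd (nat_lit 78) (PT.lf (nat_lit 38152) (nat_lit 6) (nat_lit 502) (nat_lit 0) (nat_lit 205) (nat_lit 192) (nat_lit 173)) (PT.nd (nat_lit 78) (PT.lf (nat_lit 36784) (nat_lit 6) (nat_lit 484) (nat_lit 0) (nat_lit 206) (nat_lit 192) (nat_lit 172)) (PT.lf (nat_lit 35340) (nat_lit 6) (nat_lit 465) (nat_lit 0) (nat_lit 207) (nat_lit 192) (nat_lit 171)))) (PT.nd (nat_lit 156) (PT.nd (nat_lit 78) (PT.lf (nat_lit 33820) (nat_lit 6) (nat_lit 445) (nat_lit 0) (nat_lit 208) (nat_lit 192) (nat_lit 170)) (PT.lf (nat_lit 32224) (nat_lit 6) (nat_lit 424) (nat_lit 0) (nat_lit 209) (nat_lit 192) (nat_lit 169))) (PT.nd (nat_lit 78) (PT.lf (nat_lit 30552) (nat_lit 6) (nat_lit 402) (nat_lit 0) (nat_lit 210) (nat_lit 192) (nat_lit 168)) (PT.lf (nat_lit 28804) (nat_lit 6) (nat_lit 379) (nat_lit 0) (nat_lit 211) (nat_lit 192) (nat_lit 167)))))) (PT.nd (nat_lit 55848) (PT.nd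 (nat_lit 55536) (PT.nd (nat_lit 78) (PT.lf (nat_lit 26980) (nat_lit 6) (nat_lit 355) (nat_lit 0) (nat_lit 212) (nat_lit 192) (nat_lit 166)) (PT.nd (nat_lit 78) (PT.lf (nat_lit 25992) (nat_lit 6) (nat_lit 342) (nat_lit 0) (nat_lit 213) (nat_lit 192) (nat_lit 165)) (PT.lf (nat_lit 25004) (nat_lit 6) (nat_lit 329) (nat_lit 0) (nat_lit 214) (nat_lit 192) (nat_lit 164)))) (PT.nd (nat_lit 156) (PT.nd (nat_lit 78) (PT.lf (nat_lit 24168) (nat_lit 6) (nat_lit 318) (nat_lit 5) (nat_lit 163) (nat_lit 193) (nat_lit 214)) (PT.lf (nat_lit 25080) (nat_lit 6) (nat_lit 330) (nat_lit 5) (nat_lit 164) (nat_lit 193) (nat_lit 213))) (PT.nd (nat_lit 78) (PT.lf (nat_lit 26068) (nat_lit 6) (nat_lit 343) (nat_lit 5) (nat_lit 165) (nat_lit 193) (nat_lit 212)) (PT.lf (nat_lit 27056) (nat_lit 6) (nat_lit 356) (nat_lit 5) (nat_lit 166) (nat_lit 193) (nat_lit 211))))) (PT.nd (nat_lit 234) (PT.nd (nat_lit 78) (PT.lf (nat_lit 28880) (nat_lit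 6) (nat_lit 380) (nat_lit 5) (nat_lit 167) (nat_lit 193) (nat_lit 210)) (PT.nd (nat_lit 78) (PT.lf (nat_lit 30628) (nat_lit 6) (nat_lit 403) (nat_lit 5) (nat_lit 168) (nat_lit 193) (nat_lit 209)) (PT.lf (nat_lit 32300) (nat_lit 6) (nat_lit 425) (nat_lit 5) (nat_lit 169) (nat_lit 193) (nat_lit 208)))) (PT.nd (nat_lit 156) (PT.nd (nat_lit 78) (PT.lf (nat_lit 33896) (nat_lit 6) (nat_lit 446) (nat_lit 5) (nat_lit 170) (nat_lit 193) (nat_lit 207)) (PT.lf (nat_lit 35416) (nat_lit 6) (nat_lit 466) (nat_lit 5) (nat_lit 171) (nat_lit 193) (nat_lit 206))) (PT.nd (nat_lit 78) (PT.lf (nat_lit 36860) (nat_lit 6) (nat_lit 485) (nat_lit 5) (nat_lit 172) (nat_lit 193) (nat_lit 205)) (PT.lf (nat_lit 38228) (nat_lit 6) (nat_lit 503) (nat_lit 5) (nat_lit 173) (nat_lit 193) (nat_lit 204))))))) (PT.nd (nat_lit 1092) (PT.nd (nat_lit 546) (PT.nd (nat_lit 234) (PT.nd (nat_lit 78) (PT.lf (nat_lit 39520) (nat_lit 6) (nat_lit 520)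 (nat_lit 5) (nat_lit 174) (nat_lit 193) (nat_lit 203)) (PT.nd (nat_lit 78) (PT.lf (nat_lit 40736) (nat_lit 6) (nat_lit 536) (nat_lit 5) (nat_lit 175) (nat_lit 193) (nat_lit 202)) (PT.lf (nat_lit 41876) (nat_lit 6) (nat_lit 551) (nat_lit 5) (nat_lit 176) (nat_lit 193) (nat_lit 201)))) (PT.nd (nat_lit 156) (PT.nd (nat_lit 78) (PT.lf (nat_lit 42940) (nat_lit 6) (nat_lit 565) (nat_lit 5) (nat_lit 177) (nat_lit 193) (nat_lit 200)) (PT.lf (nat_lit 43928) (nat_lit 6) (nat_lit 578) (nat_lit 5) (nat_lit 178) (nat_lit 193) (nat_lit 199))) (PT.nd (nat_lit 78) (PT.lf (nat_lit 44840) (nat_lit 6) (nat_lit 590) (nat_lit 5) (nat_lit 179) (nat_lit 193) (nat_lit 198)) (PT.lf (nat_lit 45676) (nat_lit 6) (nat_lit 601) (nat_lit 5) (nat_lit 180) (nat_lit 193) (nat_lit 197))))) (PT.nd (nat_lit 234) (PT.nd (nat_lit 78) (PT.lf (nat_lit 46436) (nat_lit 6) (nat_lit 611) (nat_lit 5) (nat_lit 181) (nat_lit 193) (nat_lit 196)) (PT.nd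 (nat_lit 78) (PT.lf (nat_lit 47120) (nat_lit 6) (nat_lit 620) (nat_lit 5) (nat_lit 182) (nat_lit 193) (nat_lit 195)) (PT.lf (nat_lit 47728) (nat_lit 6) (nat_lit 628) (nat_lit 5) (nat_lit 183) (nat_lit 193) (nat_lit 194)))) (PT.nd (nat_lit 156) (PT.nd (nat_lit 78) (PT.lf (nat_lit 48260) (nat_lit 3) (nat_lit 635) (nat_lit 4) (nat_lit 184) (nat_lit 193) (nat_lit 193)) (PT.lf (nat_lit 48640) (nat_lit 6) (nat_lit 640) (nat_lit 4) (nat_lit 185) (nat_lit 193) (nat_lit 192))) (PT.nd (nat_lit 78) (PT.lf (nat_lit 48944) (nat_lit 6) (nat_lit 644) (nat_lit 4) (nat_lit 186) (nat_lit 193) (nat_lit 191)) (PT.lf (nat_lit 49172) (nat_lit 6) (nat_lit 647) (nat_lit 4) (nat_lit 187) (nat_lit 193) (nat_lit 190)))))) (PT.nd (nat_lit 546) (PT.nd (nat_lit 234) (PT.nd (nat_lit 78) (PT.lf (nat_lit 49096) (nat_lit 6) (nat_lit 646) (nat_lit 4) (nat_lit 188) (nat_lit 193) (nat_lit 189)) (PT.nd (nat_lit 78) (PT.lf (nat_lit 49096) (nat_lit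 6) (nat_lit 646) (nat_lit 2) (nat_lit 189) (nat_lit 193) (nat_lit 188)) (PT.lf (nat_lit 49172) (nat_lit 6) (nat_lit 647) (nat_lit 2) (nat_lit 190) (nat_lit 193) (nat_lit 187)))) (PT.nd (nat_lit 156) (PT.nd (nat_lit 78) (PT.lf (nat_lit 48944) (nat_lit 6) (nat_lit 644) (nat_lit 2) (nat_lit 191) (nat_lit 193) (nat_lit 186)) (PT.lf (nat_lit 48640) (nat_lit 6) (nat_lit 640) (nat_lit 2) (nat_lit 192) (nat_lit 193) (nat_lit 185))) (PT.nd (nat_lit 78) (PT.lf (nat_lit 48260) (nat_lit 3) (nat_lit 635) (nat_lit 0) (nat_lit 193) (nat_lit 193) (nat_lit 184)) (PT.lf (nat_lit 47728) (nat_lit 6) (nat_lit 628) (nat_lit 0) (nat_lit 194) (nat_lit 193) (nat_lit 183))))) (PT.nd (nat_lit 312) (PT.nd (nat_lit 156) (PT.nd (nat_lit 78) (PT.lf (nat_lit 47120) (nat_lit 6) (nat_lit 620) (nat_lit 0) (nat_lit 195) (nat_lit 193) (nat_lit 182)) (PT.lf (nat_lit 46436) (nat_lit 6) (nat_lit 611) (nat_lit 0) (nat_lit 196) (nat_lit 193) (nat_lit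 181))) (PT.nd (nat_lit 78) (PT.lf (nat_lit 45676) (nat_lit 6) (nat_lit 601) (nat_lit 0) (nat_lit 197) (nat_lit 193) (nat_lit 180)) (PT.lf (nat_lit 44840) (nat_lit 6) (nat_lit 590) (nat_lit 0) (nat_lit 198) (nat_lit 193) (nat_lit 179)))) (PT.nd (nat_lit 156) (PT.nd (nat_lit 78) (PT.lf (nat_lit 43928) (nat_lit 6) (nat_lit 578) (nat_lit 0) (nat_lit 199) (nat_lit 193) (nat_lit 178)) (PT.lf (nat_lit 42940) (nat_lit 6) (nat_lit 565) (nat_lit 0) (nat_lit 200) (nat_lit 193) (nat_lit 177))) (PT.nd (nat_lit 78) (PT.lf (nat_lit 41876) (nat_lit 6) (nat_lit 551) (nat_lit 0) (nat_lit 201) (nat_lit 193) (nat_lit 176)) (PT.lf (nat_lit 40736) (nat_lit 6) (nat_lit 536) (nat_lit 0) (nat_lit 202) (nat_lit 193) (nat_lit 175))))))))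
noncomputable def pc29 : PT := (PT.nd (nat_lit 57486) (PT.nd (nat_lit 56316) (PT.nd (nat_lit 546) (PT.nd (nat_lit 234) (PT.nd (nat_lit 78) (PT.lf (nat_lit 39520) (nat_lit 6) (nat_lit 520) (nat_lit 0) (nat_lit 203) (nat_lit 193) (nat_lit 174)) (PT.nd (nat_lit 78) (PT.lf (nat_lit 38228) (nat_lit 6) (nat_lit 503) (nat_lit 0) (nat_lit 204) (nat_lit 193) (nat_lit 173)) (PT.lf (nat_lit 36860) (nat_lit 6) (nat_lit 485) (nat_lit 0) (nat_lit 205) (nat_lit 193) (nat_lit 172)))) (PT.nd (nat_lit 156) (PT.nd (nat_lit 78) (PT.lf (nat_lit 35416) (nat_lit 6) (nat_lit 466) (nat_lit 0) (nat_lit 206) (nat_lit 193) (nat_lit 171)) (PT.lf (nat_lit 33896) (nat_lit 6) (nat_lit 446) (nat_lit 0) (nat_lit 207) (nat_lit 193) (nat_lit 170))) (PT.nd (nat_lit 78) (PT.lf (nat_lit 32300) (nat_lit 6) (nat_lit 425) (nat_lit 0) (nat_lit 208) (nat_lit 193) (nat_lit 169)) (PT.lf (nat_lit 30628) (nat_lit 6) (nat_lit 403) (nat_lit 0) (nat_lit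 209) (nat_lit 193) (nat_lit 168))))) (PT.nd (nat_lit 234) (PT.nd (nat_lit 78) (PT.lf (nat_lit 28880) (nat_lit 6) (nat_lit 380) (nat_lit 0) (nat_lit 210) (nat_lit 193) (nat_lit 167)) (PT.nd (nat_lit 78) (PT.lf (nat_lit 27056) (nat_lit 6) (nat_lit 356) (nat_lit 0) (nat_lit 211) (nat_lit 193) (nat_lit 166)) (PT.lf (nat_lit 26068) (nat_lit 6) (nat_lit 343) (nat_lit 0) (nat_lit 212) (nat_lit 193) (nat_lit 165)))) (PT.nd (nat_lit 55380) (PT.nd (nat_lit 78) (PT.lf (nat_lit 25080) (nat_lit 6) (nat_lit 330) (nat_lit 0) (nat_lit 213) (nat_lit 193) (nat_lit 164)) (PT.lf (nat_lit 24168) (nat_lit 6) (nat_lit 318) (nat_lit 0) (nat_lit 214) (nat_lit 193) (nat_lit 163))) (PT.nd (nat_lit 78) (PT.lf (nat_lit 23332) (nat_lit 6) (nat_lit 307) (nat_lit 5) (nat_lit 162) (nat_lit 194) (nat_lit 214)) (PT.lf (nat_lit 24244) (nat_lit 6) (nat_lit 319) (nat_lit 5) (nat_lit 163) (nat_lit 194) (nat_lit 213)))))) (PT.nd (nat_lit 546)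 (PT.nd (nat_lit 234) (PT.nd (nat_lit 78) (PT.lf (nat_lit 25156) (nat_lit 6) (nat_lit 331) (nat_lit 5) (nat_lit 164) (nat_lit 194) (nat_lit 212)) (PT.nd (nat_lit 78) (PT.lf (nat_lit 26144) (nat_lit 6) (nat_lit 344) (nat_lit 5) (nat_lit 165) (nat_lit 194) (nat_lit 211)) (PT.lf (nat_lit 27132) (nat_lit 6) (nat_lit 357) (nat_lit 5) (nat_lit 166) (nat_lit 194) (nat_lit 210)))) (PT.nd (nat_lit 156) (PT.nd (nat_lit 78) (PT.lf (nat_lit 28956) (nat_lit 6) (nat_lit 381) (nat_lit 5) (nat_lit 167) (nat_lit 194) (nat_lit 209)) (PT.lf (nat_lit 30704) (nat_lit 6) (nat_lit 404) (nat_lit 5) (nat_lit 168) (nat_lit 194) (nat_lit 208))) (PT.nd (nat_lit 78) (PT.lf (nat_lit 32376) (nat_lit 6) (nat_lit 426) (nat_lit 5) (nat_lit 169) (nat_lit 194) (nat_lit 207)) (PT.lf (nat_lit 33972) (nat_lit 6) (nat_lit 447) (nat_lit 5) (nat_lit 170) (nat_lit 194) (nat_lit 206))))) (PT.nd (nat_lit 312) (PT.nd (nat_lit 156) (PT.nd (nat_lit 78)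 (PT.lf (nat_lit 35492) (nat_lit 6) (nat_lit 467) (nat_lit 5) (nat_lit 171) (nat_lit 194) (nat_lit 205)) (PT.lf (nat_lit 36936) (nat_lit 6) (nat_lit 486) (nat_lit 5) (nat_lit 172) (nat_lit 194) (nat_lit 204))) (PT.nd (nat_lit 78) (PT.lf (nat_lit 38304) (nat_lit 6) (nat_lit 504) (nat_lit 5) (nat_lit 173) (nat_lit 194) (nat_lit 203)) (PT.lf (nat_lit 39596) (nat_lit 6) (nat_lit 521) (nat_lit 5) (nat_lit 174) (nat_lit 194) (nat_lit 202)))) (PT.nd (nat_lit 156) (PT.nd (nat_lit 78) (PT.lf (nat_lit 40812) (nat_lit 6) (nat_lit 537) (nat_lit 5) (nat_lit 175) (nat_lit 194) (nat_lit 201)) (PT.lf (nat_lit 41952) (nat_lit 6) (nat_lit 552) (nat_lit 5) (nat_lit 176) (nat_lit 194) (nat_lit 200))) (PT.nd (nat_lit 78) (PT.lf (nat_lit 43016) (nat_lit 6) (nat_lit 566) (nat_lit 5) (nat_lit 177) (nat_lit 194) (nat_lit 199)) (PT.lf (nat_lit 44004) (nat_lit 6) (nat_lit 579) (nat_lit 5) (nat_lit 178) (nat_lit 194) (nat_lit 198)))))))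 (PT.nd (nat_lit 1092) (PT.nd (nat_lit 546) (PT.nd (nat_lit 234) (PT.nd (nat_lit 78) (PT.lf (nat_lit 44916) (nat_lit 6) (nat_lit 591) (nat_lit 5) (nat_lit 179) (nat_lit 194) (nat_lit 197)) (PT.nd (nat_lit 78) (PT.lf (nat_lit 45752) (nat_lit 6) (nat_lit 602) (nat_lit 5) (nat_lit 180) (nat_lit 194) (nat_lit 196)) (PT.lf (nat_lit 46512) (nat_lit 6) (nat_lit 612) (nat_lit 5) (nat_lit 181) (nat_lit 194) (nat_lit 195)))) (PT.nd (nat_lit 156) (PT.nd (nat_lit 78) (PT.lf (nat_lit 47196) (nat_lit 3) (nat_lit 621) (nat_lit 4) (nat_lit 182) (nat_lit 194) (nat_lit 194)) (PT.lf (nat_lit 47728) (nat_lit 6) (nat_lit 628) (nat_lit 4) (nat_lit 183) (nat_lit 194) (nat_lit 193))) (PT.nd (nat_lit 78) (PT.lf (nat_lit 48184) (nat_lit 6) (nat_lit 634) (nat_lit 4) (nat_lit 184) (nat_lit 194) (nat_lit 192)) (PT.lf (nat_lit 48564) (nat_lit 6) (nat_lit 639) (nat_lit 4) (nat_lit 185) (nat_lit 194) (nat_lit 191))))) (PT.nd (nat_lit 234)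 (PT.nd (nat_lit 78) (PT.lf (nat_lit 48868) (nat_lit 6) (nat_lit 643) (nat_lit 4) (nat_lit 186) (nat_lit 194) (nat_lit 190)) (PT.nd (nat_lit 78) (PT.lf (nat_lit 48792) (nat_lit 6) (nat_lit 642) (nat_lit 4) (nat_lit 187) (nat_lit 194) (nat_lit 189)) (PT.lf (nat_lit 48716) (nat_lit 3) (nat_lit 641) (nat_lit 2) (nat_lit 188) (nat_lit 194) (nat_lit 188)))) (PT.nd (nat_lit 156) (PT.nd (nat_lit 78) (PT.lf (nat_lit 48792) (nat_lit 6) (nat_lit 642) (nat_lit 2) (nat_lit 189) (nat_lit 194) (nat_lit 187)) (PT.lf (nat_lit 48868) (nat_lit 6) (nat_lit 643) (nat_lit 2) (nat_lit 190) (nat_lit 194) (nat_lit 186))) (PT.nd (nat_lit 78) (PT.lf (nat_lit 48564) (nat_lit 6) (nat_lit 639) (nat_lit 2) (nat_lit 191) (nat_lit 194) (nat_lit 185)) (PT.lf (nat_lit 48184) (nat_lit 6) (nat_lit 634) (nat_lit 2) (nat_lit 192) (nat_lit 194) (nat_lit 184)))))) (PT.nd (nat_lit 546) (PT.nd (nat_lit 234) (PT.nd (nat_lit 78) (PT.lf (nat_lit 47728)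 (nat_lit 6) (nat_lit 628) (nat_lit 2) (nat_lit 193) (nat_lit 194) (nat_lit 183)) (PT.nd (nat_lit 78) (PT.lf (nat_lit 47196) (nat_lit 3) (nat_lit 621) (nat_lit 0) (nat_lit 194) (nat_lit 194) (nat_lit 182)) (PT.lf (nat_lit 46512) (nat_lit 6) (nat_lit 612) (nat_lit 0) (nat_lit 195) (nat_lit 194) (nat_lit 181)))) (PT.nd (nat_lit 156) (PT.nd (nat_lit 78) (PT.lf (nat_lit 45752) (nat_lit 6) (nat_lit 602) (nat_lit 0) (nat_lit 196) (nat_lit 194) (nat_lit 180)) (PT.lf (nat_lit 44916) (nat_lit 6) (nat_lit 591) (nat_lit 0) (nat_lit 197) (nat_lit 194) (nat_lit 179))) (PT.nd (nat_lit 78) (PT.lf (nat_lit 44004) (nat_lit 6) (nat_lit 579) (nat_lit 0) (nat_lit 198) (nat_lit 194) (nat_lit 178)) (PT.lf (nat_lit 43016) (nat_lit 6) (nat_lit 566) (nat_lit 0) (nat_lit 199) (nat_lit 194) (nat_lit 177))))) (PT.nd (nat_lit 312) (PT.nd (nat_lit 156) (PT.nd (nat_lit 78) (PT.lf (nat_lit 41952) (nat_lit 6) (nat_lit 552) (nat_lit 0) (nat_lit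 200) (nat_lit 194) (nat_lit 176)) (PT.lf (nat_lit 40812) (nat_lit 6) (nat_lit 537) (nat_lit 0) (nat_lit 201) (nat_lit 194) (nat_lit 175))) (PT.nd (nat_lit 78) (PT.lf (nat_lit 39596) (nat_lit 6) (nat_lit 521) (nat_lit 0) (nat_lit 202) (nat_lit 194) (nat_lit 174)) (PT.lf (nat_lit 38304) (nat_lit 6) (nat_lit 504) (nat_lit 0) (nat_lit 203) (nat_lit 194) (nat_lit 173)))) (PT.nd (nat_lit 156) (PT.nd (nat_lit 78) (PT.lf (nat_lit 36936) (nat_lit 6) (nat_lit 486) (nat_lit 0) (nat_lit 204) (nat_lit 194) (nat_lit 172)) (PT.lf (nat_lit 35492) (nat_lit 6) (nat_lit 467) (nat_lit 0) (nat_lit 205) (nat_lit 194) (nat_lit 171))) (PT.nd (nat_lit 78) (PT.lf (nat_lit 33972) (nat_lit 6) (nat_lit 447) (nat_lit 0) (nat_lit 206) (nat_lit 194) (nat_lit 170)) (PT.lf (nat_lit 32376) (nat_lit 6) (nat_lit 426) (nat_lit 0) (nat_lit 207) (nat_lit 194) (nat_lit 169))))))))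
noncomputable def pc30 : PT := (PT.nd (nat_lit 57330) (PT.nd (nat_lit 56160) (PT.nd (nat_lit 55614) (PT.nd (nat_lit 234) (PT.nd (nat_lit 78) (PT.lf (nat_lit 30704) (nat_lit 6) (nat_lit 404) (nat_lit 0) (nat_lit 208) (nat_lit 194) (nat_lit 168)) (PT.nd (nat_lit 78) (PT.lf (nat_lit 28956) (nat_lit 6) (nat_lit 381) (nat_lit 0) (nat_lit 209) (nat_lit 194) (nat_lit 167)) (PT.lf (nat_lit 27132) (nat_lit 6) (nat_lit 357) (nat_lit 0) (nat_lit 210) (nat_lit 194) (nat_lit 166)))) (PT.nd (nat_lit 156) (PT.nd (nat_lit 78) (PT.lf (nat_lit 26144) (nat_lit 6) (nat_lit 344) (nat_lit 0) (nat_lit 211) (nat_lit 194) (nat_lit 165)) (PT.lf (nat_lit 25156) (nat_lit 6) (nat_lit 331) (nat_lit 0) (nat_lit 212) (nat_lit 194) (nat_lit 164))) (PT.nd (nat_lit 78) (PT.lf (nat_lit 24244) (nat_lit 6) (nat_lit 319) (nat_lit 0) (nat_lit 213) (nat_lit 194) (nat_lit 163)) (PT.lf (nat_lit 23332) (nat_lit 6) (nat_lit 307) (nat_lit 0) (nat_lit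 214) (nat_lit 194) (nat_lit 162))))) (PT.nd (nat_lit 234) (PT.nd (nat_lit 78) (PT.lf (nat_lit 21736) (nat_lit 6) (nat_lit 286) (nat_lit 5) (nat_lit 160) (nat_lit 195) (nat_lit 215)) (PT.nd (nat_lit 78) (PT.lf (nat_lit 22572) (nat_lit 6) (nat_lit 297) (nat_lit 5) (nat_lit 161) (nat_lit 195) (nat_lit 214)) (PT.lf (nat_lit 23408) (nat_lit 6) (nat_lit 308) (nat_lit 5) (nat_lit 162) (nat_lit 195) (nat_lit 213)))) (PT.nd (nat_lit 156) (PT.nd (nat_lit 78) (PT.lf (nat_lit 24320) (nat_lit 6) (nat_lit 320) (nat_lit 5) (nat_lit 163) (nat_lit 195) (nat_lit 212)) (PT.lf (nat_lit 25232) (nat_lit 6) (nat_lit 332) (nat_lit 5) (nat_lit 164) (nat_lit 195) (nat_lit 211))) (PT.nd (nat_lit 78) (PT.lf (nat_lit 26220) (nat_lit 6) (nat_lit 345) (nat_lit 5) (nat_lit 165) (nat_lit 195) (nat_lit 210)) (PT.lf (nat_lit 27208) (nat_lit 6) (nat_lit 358) (nat_lit 5) (nat_lit 166) (nat_lit 195) (nat_lit 209)))))) (PT.nd (nat_lit 546) (PT.nd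 (nat_lit 234) (PT.nd (nat_lit 78) (PT.lf (nat_lit 29032) (nat_lit 6) (nat_lit 382) (nat_lit 5) (nat_lit 167) (nat_lit 195) (nat_lit 208)) (PT.nd (nat_lit 78) (PT.lf (nat_lit 30780) (nat_lit 6) (nat_lit 405) (nat_lit 5) (nat_lit 168) (nat_lit 195) (nat_lit 207)) (PT.lf (nat_lit 32452) (nat_lit 6) (nat_lit 427) (nat_lit 5) (nat_lit 169) (nat_lit 195) (nat_lit 206)))) (PT.nd (nat_lit 156) (PT.nd (nat_lit 78) (PT.lf (nat_lit 34048) (nat_lit 6) (nat_lit 448) (nat_lit 5) (nat_lit 170) (nat_lit 195) (nat_lit 205)) (PT.lf (nat_lit 35568) (nat_lit 6) (nat_lit 468) (nat_lit 5) (nat_lit 171) (nat_lit 195) (nat_lit 204))) (PT.nd (nat_lit 78) (PT.lf (nat_lit 37012) (nat_lit 6) (nat_lit 487) (nat_lit 5) (nat_lit 172) (nat_lit 195) (nat_lit 203)) (PT.lf (nat_lit 38380) (nat_lit 6) (nat_lit 505) (nat_lit 5) (nat_lit 173) (nat_lit 195) (nat_lit 202))))) (PT.nd (nat_lit 312) (PT.nd (nat_lit 156) (PT.nd (nat_lit 78) (PT.lf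 (nat_lit 39672) (nat_lit 6) (nat_lit 522) (nat_lit 5) (nat_lit 174) (nat_lit 195) (nat_lit 201)) (PT.lf (nat_lit 40888) (nat_lit 6) (nat_lit 538) (nat_lit 5) (nat_lit 175) (nat_lit 195) (nat_lit 200))) (PT.nd (nat_lit 78) (PT.lf (nat_lit 42028) (nat_lit 6) (nat_lit 553) (nat_lit 5) (nat_lit 176) (nat_lit 195) (nat_lit 199)) (PT.lf (nat_lit 43092) (nat_lit 6) (nat_lit 567) (nat_lit 5) (nat_lit 177) (nat_lit 195) (nat_lit 198)))) (PT.nd (nat_lit 156) (PT.nd (nat_lit 78) (PT.lf (nat_lit 44080) (nat_lit 6) (nat_lit 580) (nat_lit 5) (nat_lit 178) (nat_lit 195) (nat_lit 197)) (PT.lf (nat_lit 44992) (nat_lit 6) (nat_lit 592) (nat_lit 5) (nat_lit 179) (nat_lit 195) (nat_lit 196))) (PT.nd (nat_lit 78) (PT.lf (nat_lit 45828) (nat_lit 3) (nat_lit 603) (nat_lit 4) (nat_lit 180) (nat_lit 195) (nat_lit 195)) (PT.lf (nat_lit 46512) (nat_lit 6) (nat_lit 612) (nat_lit 4) (nat_lit 181) (nat_lit 195) (nat_lit 194))))))) (PT.nd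 (nat_lit 1092) (PT.nd (nat_lit 546) (PT.nd (nat_lit 234) (PT.nd (nat_lit 78) (PT.lf (nat_lit 47120) (nat_lit 6) (nat_lit 620) (nat_lit 4) (nat_lit 182) (nat_lit 195) (nat_lit 193)) (PT.nd (nat_lit 78) (PT.lf (nat_lit 47652) (nat_lit 6) (nat_lit 627) (nat_lit 4) (nat_lit 183) (nat_lit 195) (nat_lit 192)) (PT.lf (nat_lit 48108) (nat_lit 6) (nat_lit 633) (nat_lit 4) (nat_lit 184) (nat_lit 195) (nat_lit 191)))) (PT.nd (nat_lit 156) (PT.nd (nat_lit 78) (PT.lf (nat_lit 48488) (nat_lit 6) (nat_lit 638) (nat_lit 4) (nat_lit 185) (nat_lit 195) (nat_lit 190)) (PT.lf (nat_lit 48412) (nat_lit 6) (nat_lit 637) (nat_lit 4) (nat_lit 186) (nat_lit 195) (nat_lit 189))) (PT.nd (nat_lit 78) (PT.lf (nat_lit 48336) (nat_lit 6) (nat_lit 636) (nat_lit 4) (nat_lit 187) (nat_lit 195) (nat_lit 188)) (PT.lf (nat_lit 48336) (nat_lit 6) (nat_lit 636) (nat_lit 2) (nat_lit 188) (nat_lit 195) (nat_lit 187))))) (PT.nd (nat_lit 234) (PT.nd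 (nat_lit 78) (PT.lf (nat_lit 48412) (nat_lit 6) (nat_lit 637) (nat_lit 2) (nat_lit 189) (nat_lit 195) (nat_lit 186)) (PT.nd (nat_lit 78) (PT.lf (nat_lit 48488) (nat_lit 6) (nat_lit 638) (nat_lit 2) (nat_lit 190) (nat_lit 195) (nat_lit 185)) (PT.lf (nat_lit 48108) (nat_lit 6) (nat_lit 633) (nat_lit 2) (nat_lit 191) (nat_lit 195) (nat_lit 184)))) (PT.nd (nat_lit 156) (PT.nd (nat_lit 78) (PT.lf (nat_lit 47652) (nat_lit 6) (nat_lit 627) (nat_lit 2) (nat_lit 192) (nat_lit 195) (nat_lit 183)) (PT.lf (nat_lit 47120) (nat_lit 6) (nat_lit 620) (nat_lit 2) (nat_lit 193) (nat_lit 195) (nat_lit 182))) (PT.nd (nat_lit 78) (PT.lf (nat_lit 46512) (nat_lit 6) (nat_lit 612) (nat_lit 2) (nat_lit 194) (nat_lit 195) (nat_lit 181)) (PT.lf (nat_lit 45828) (nat_lit 3) (nat_lit 603) (nat_lit 0) (nat_lit 195) (nat_lit 195) (nat_lit 180)))))) (PT.nd (nat_lit 546) (PT.nd (nat_lit 234) (PT.nd (nat_lit 78) (PT.lf (nat_lit 44992) (nat_lit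 6) (nat_lit 592) (nat_lit 0) (nat_lit 196) (nat_lit 195) (nat_lit 179)) (PT.nd (nat_lit 78) (PT.lf (nat_lit 44080) (nat_lit 6) (nat_lit 580) (nat_lit 0) (nat_lit 197) (nat_lit 195) (nat_lit 178)) (PT.lf (nat_lit 43092) (nat_lit 6) (nat_lit 567) (nat_lit 0) (nat_lit 198) (nat_lit 195) (nat_lit 177)))) (PT.nd (nat_lit 156) (PT.nd (nat_lit 78) (PT.lf (nat_lit 42028) (nat_lit 6) (nat_lit 553) (nat_lit 0) (nat_lit 199) (nat_lit 195) (nat_lit 176)) (PT.lf (nat_lit 40888) (nat_lit 6) (nat_lit 538) (nat_lit 0) (nat_lit 200) (nat_lit 195) (nat_lit 175))) (PT.nd (nat_lit 78) (PT.lf (nat_lit 39672) (nat_lit 6) (nat_lit 522) (nat_lit 0) (nat_lit 201) (nat_lit 195) (nat_lit 174)) (PT.lf (nat_lit 38380) (nat_lit 6) (nat_lit 505) (nat_lit 0) (nat_lit 202) (nat_lit 195) (nat_lit 173))))) (PT.nd (nat_lit 312) (PT.nd (nat_lit 156) (PT.nd (nat_lit 78) (PT.lf (nat_lit 37012) (nat_lit 6) (nat_lit 487) (nat_lit 0) (nat_lit 203)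 (nat_lit 195) (nat_lit 172)) (PT.lf (nat_lit 35568) (nat_lit 6) (nat_lit 468) (nat_lit 0) (nat_lit 204) (nat_lit 195) (nat_lit 171))) (PT.nd (nat_lit 78) (PT.lf (nat_lit 34048) (nat_lit 6) (nat_lit 448) (nat_lit 0) (nat_lit 205) (nat_lit 195) (nat_lit 170)) (PT.lf (nat_lit 32452) (nat_lit 6) (nat_lit 427) (nat_lit 0) (nat_lit 206) (nat_lit 195) (nat_lit 169)))) (PT.nd (nat_lit 156) (PT.nd (nat_lit 78) (PT.lf (nat_lit 30780) (nat_lit 6) (nat_lit 405) (nat_lit 0) (nat_lit 207) (nat_lit 195) (nat_lit 168)) (PT.lf (nat_lit 29032) (nat_lit 6) (nat_lit 382) (nat_lit 0) (nat_lit 208) (nat_lit 195) (nat_lit 167))) (PT.nd (nat_lit 78) (PT.lf (nat_lit 27208) (nat_lit 6) (nat_lit 358) (nat_lit 0) (nat_lit 209) (nat_lit 195) (nat_lit 166)) (PT.lf (nat_lit 26220) (nat_lit 6) (nat_lit 345) (nat_lit 0) (nat_lit 210) (nat_lit 195) (nat_lit 165))))))))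
noncomputable def pc31 : PT := (PT.nd (nat_lit 57174) (PT.nd (nat_lit 56004) (PT.nd (nat_lit 55458) (PT.nd (nat_lit 234) (PT.nd (nat_lit 78) (PT.lf (nat_lit 25232) (nat_lit 6) (nat_lit 332) (nat_lit 0) (nat_lit 211) (nat_lit 195) (nat_lit 164)) (PT.nd (nat_lit 78) (PT.lf (nat_lit 24320) (nat_lit 6) (nat_lit 320) (nat_lit 0) (nat_lit 212) (nat_lit 195) (nat_lit 163)) (PT.lf (nat_lit 23408) (nat_lit 6) (nat_lit 308) (nat_lit 0) (nat_lit 213) (nat_lit 195) (nat_lit 162)))) (PT.nd (nat_lit 55068) (PT.nd (nat_lit 78) (PT.lf (nat_lit 22572) (nat_lit 6) (nat_lit 297) (nat_lit 0) (nat_lit 214) (nat_lit 195) (nat_lit 161)) (PT.lf (nat_lit 21736) (nat_lit 6) (nat_lit 286) (nat_lit 0) (nat_lit 215) (nat_lit 195) (nat_lit 160))) (PT.nd (nat_lit 78) (PT.lf (nat_lit 20976) (nat_lit 6) (nat_lit 276) (nat_lit 5) (nat_lit 159) (nat_lit 196) (nat_lit 215)) (PT.lf (nat_lit 21812) (nat_lit 6) (nat_lit 287) (nat_lit 5) (nat_lit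 160) (nat_lit 196) (nat_lit 214))))) (PT.nd (nat_lit 234) (PT.nd (nat_lit 78) (PT.lf (nat_lit 22648) (nat_lit 6) (nat_lit 298) (nat_lit 5) (nat_lit 161) (nat_lit 196) (nat_lit 213)) (PT.nd (nat_lit 78) (PT.lf (nat_lit 23484) (nat_lit 6) (nat_lit 309) (nat_lit 5) (nat_lit 162) (nat_lit 196) (nat_lit 212)) (PT.lf (nat_lit 24396) (nat_lit 6) (nat_lit 321) (nat_lit 5) (nat_lit 163) (nat_lit 196) (nat_lit 211)))) (PT.nd (nat_lit 156) (PT.nd (nat_lit 78) (PT.lf (nat_lit 25308) (nat_lit 6) (nat_lit 333) (nat_lit 5) (nat_lit 164) (nat_lit 196) (nat_lit 210)) (PT.lf (nat_lit 26296) (nat_lit 6) (nat_lit 346) (nat_lit 5) (nat_lit 165) (nat_lit 196) (nat_lit 209))) (PT.nd (nat_lit 78) (PT.lf (nat_lit 27284) (nat_lit 6) (nat_lit 359) (nat_lit 5) (nat_lit 166) (nat_lit 196) (nat_lit 208)) (PT.lf (nat_lit 29108) (nat_lit 6) (nat_lit 383) (nat_lit 5) (nat_lit 167) (nat_lit 196) (nat_lit 207)))))) (PT.nd (nat_lit 546) (PT.nd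 (nat_lit 234) (PT.nd (nat_lit 78) (PT.lf (nat_lit 30856) (nat_lit 6) (nat_lit 406) (nat_lit 5) (nat_lit 168) (nat_lit 196) (nat_lit 206)) (PT.nd (nat_lit 78) (PT.lf (nat_lit 32528) (nat_lit 6) (nat_lit 428) (nat_lit 5) (nat_lit 169) (nat_lit 196) (nat_lit 205)) (PT.lf (nat_lit 34124) (nat_lit 6) (nat_lit 449) (nat_lit 5) (nat_lit 170) (nat_lit 196) (nat_lit 204)))) (PT.nd (nat_lit 156) (PT.nd (nat_lit 78) (PT.lf (nat_lit 35644) (nat_lit 6) (nat_lit 469) (nat_lit 5) (nat_lit 171) (nat_lit 196) (nat_lit 203)) (PT.lf (nat_lit 37088) (nat_lit 6) (nat_lit 488) (nat_lit 5) (nat_lit 172) (nat_lit 196) (nat_lit 202))) (PT.nd (nat_lit 78) (PT.lf (nat_lit 38456) (nat_lit 6) (nat_lit 506) (nat_lit 5) (nat_lit 173) (nat_lit 196) (nat_lit 201)) (PT.lf (nat_lit 39748) (nat_lit 6) (nat_lit 523) (nat_lit 5) (nat_lit 174) (nat_lit 196) (nat_lit 200))))) (PT.nd (nat_lit 312) (PT.nd (nat_lit 156) (PT.nd (nat_lit 78) (PT.lf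 (nat_lit 40964) (nat_lit 6) (nat_lit 539) (nat_lit 5) (nat_lit 175) (nat_lit 196) (nat_lit 199)) (PT.lf (nat_lit 42104) (nat_lit 6) (nat_lit 554) (nat_lit 5) (nat_lit 176) (nat_lit 196) (nat_lit 198))) (PT.nd (nat_lit 78) (PT.lf (nat_lit 43168) (nat_lit 6) (nat_lit 568) (nat_lit 5) (nat_lit 177) (nat_lit 196) (nat_lit 197)) (PT.lf (nat_lit 44156) (nat_lit 3) (nat_lit 581) (nat_lit 4) (nat_lit 178) (nat_lit 196) (nat_lit 196)))) (PT.nd (nat_lit 156) (PT.nd (nat_lit 78) (PT.lf (nat_lit 44992) (nat_lit 6) (nat_lit 592) (nat_lit 4) (nat_lit 179) (nat_lit 196) (nat_lit 195)) (PT.lf (nat_lit 45752) (nat_lit 6) (nat_lit 602) (nat_lit 4) (nat_lit 180) (nat_lit 196) (nat_lit 194))) (PT.nd (nat_lit 78) (PT.lf (nat_lit 46436) (nat_lit 6) (nat_lit 611) (nat_lit 4) (nat_lit 181) (nat_lit 196) (nat_lit 193)) (PT.lf (nat_lit 47044) (nat_lit 6) (nat_lit 619) (nat_lit 4) (nat_lit 182) (nat_lit 196) (nat_lit 192))))))) (PT.nd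 (nat_lit 1092) (PT.nd (nat_lit 546) (PT.nd (nat_lit 234) (PT.nd (nat_lit 78) (PT.lf (nat_lit 47576) (nat_lit 6) (nat_lit 626) (nat_lit 4) (nat_lit 183) (nat_lit 196) (nat_lit 191)) (PT.nd (nat_lit 78) (PT.lf (nat_lit 48032) (nat_lit 6) (nat_lit 632) (nat_lit 4) (nat_lit 184) (nat_lit 196) (nat_lit 190)) (PT.lf (nat_lit 47956) (nat_lit 6) (nat_lit 631) (nat_lit 4) (nat_lit 185) (nat_lit 196) (nat_lit 189)))) (PT.nd (nat_lit 156) (PT.nd (nat_lit 78) (PT.lf (nat_lit 47880) (nat_lit 6) (nat_lit 630) (nat_lit 4) (nat_lit 186) (nat_lit 196) (nat_lit 188)) (PT.lf (nat_lit 47804) (nat_lit 3) (nat_lit 629) (nat_lit 2) (nat_lit 187) (nat_lit 196) (nat_lit 187))) (PT.nd (nat_lit 78) (PT.lf (nat_lit 47880) (nat_lit 6) (nat_lit 630) (nat_lit 2) (nat_lit 188) (nat_lit 196) (nat_lit 186)) (PT.lf (nat_lit 47956) (nat_lit 6) (nat_lit 631) (nat_lit 2) (nat_lit 189) (nat_lit 196) (nat_lit 185))))) (PT.nd (nat_lit 234) (PT.nd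 (nat_lit 78) (PT.lf (nat_lit 48032) (nat_lit 6) (nat_lit 632) (nat_lit 2) (nat_lit 190) (nat_lit 196) (nat_lit 184)) (PT.nd (nat_lit 78) (PT.lf (nat_lit 47576) (nat_lit 6) (nat_lit 626) (nat_lit 2) (nat_lit 191) (nat_lit 196) (nat_lit 183)) (PT.lf (nat_lit 47044) (nat_lit 6) (nat_lit 619) (nat_lit 2) (nat_lit 192) (nat_lit 196) (nat_lit 182)))) (PT.nd (nat_lit 156) (PT.nd (nat_lit 78) (PT.lf (nat_lit 46436) (nat_lit 6) (nat_lit 611) (nat_lit 2) (nat_lit 193) (nat_lit 196) (nat_lit 181)) (PT.lf (nat_lit 45752) (nat_lit 6) (nat_lit 602) (nat_lit 2) (nat_lit 194) (nat_lit 196) (nat_lit 180))) (PT.nd (nat_lit 78) (PT.lf (nat_lit 44992) (nat_lit 6) (nat_lit 592) (nat_lit 2) (nat_lit 195) (nat_lit 196) (nat_lit 179)) (PT.lf (nat_lit 44156) (nat_lit 3) (nat_lit 581) (nat_lit 0) (nat_lit 196) (nat_lit 196) (nat_lit 178)))))) (PT.nd (nat_lit 546) (PT.nd (nat_lit 234) (PT.nd (nat_lit 78) (PT.lf (nat_lit 43168) (nat_lit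 6) (nat_lit 568) (nat_lit 0) (nat_lit 197) (nat_lit 196) (nat_lit 177)) (PT.nd (nat_lit 78) (PT.lf (nat_lit 42104) (nat_lit 6) (nat_lit 554) (nat_lit 0) (nat_lit 198) (nat_lit 196) (nat_lit 176)) (PT.lf (nat_lit 40964) (nat_lit 6) (nat_lit 539) (nat_lit 0) (nat_lit 199) (nat_lit 196) (nat_lit 175)))) (PT.nd (nat_lit 156) (PT.nd (nat_lit 78) (PT.lf (nat_lit 39748) (nat_lit 6) (nat_lit 523) (nat_lit 0) (nat_lit 200) (nat_lit 196) (nat_lit 174)) (PT.lf (nat_lit 38456) (nat_lit 6) (nat_lit 506) (nat_lit 0) (nat_lit 201) (nat_lit 196) (nat_lit 173))) (PT.nd (nat_lit 78) (PT.lf (nat_lit 37088) (nat_lit 6) (nat_lit 488) (nat_lit 0) (nat_lit 202) (nat_lit 196) (nat_lit 172)) (PT.lf (nat_lit 35644) (nat_lit 6) (nat_lit 469) (nat_lit 0) (nat_lit 203) (nat_lit 196) (nat_lit 171))))) (PT.nd (nat_lit 312) (PT.nd (nat_lit 156) (PT.nd (nat_lit 78) (PT.lf (nat_lit 34124) (nat_lit 6) (nat_lit 449) (nat_lit 0) (nat_lit 204)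 (nat_lit 196) (nat_lit 170)) (PT.lf (nat_lit 32528) (nat_lit 6) (nat_lit 428) (nat_lit 0) (nat_lit 205) (nat_lit 196) (nat_lit 169))) (PT.nd (nat_lit 78) (PT.lf (nat_lit 30856) (nat_lit 6) (nat_lit 406) (nat_lit 0) (nat_lit 206) (nat_lit 196) (nat_lit 168)) (PT.lf (nat_lit 29108) (nat_lit 6) (nat_lit 383) (nat_lit 0) (nat_lit 207) (nat_lit 196) (nat_lit 167)))) (PT.nd (nat_lit 156) (PT.nd (nat_lit 78) (PT.lf (nat_lit 27284) (nat_lit 6) (nat_lit 359) (nat_lit 0) (nat_lit 208) (nat_lit 196) (nat_lit 166)) (PT.lf (nat_lit 26296) (nat_lit 6) (nat_lit 346) (nat_lit 0) (nat_lit 209) (nat_lit 196) (nat_lit 165))) (PT.nd (nat_lit 78) (PT.lf (nat_lit 25308) (nat_lit 6) (nat_lit 333) (nat_lit 0) (nat_lit 210) (nat_lit 196) (nat_lit 164)) (PT.lf (nat_lit 24396) (nat_lit 6) (nat_lit 321) (nat_lit 0) (nat_lit 211) (nat_lit 196) (nat_lit 163))))))))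
noncomputable def pc32 : PT := (PT.nd (nat_lit 57018) (PT.nd (nat_lit 55926) (PT.nd (nat_lit 55380) (PT.nd (nat_lit 234) (PT.nd (nat_lit 78) (PT.lf (nat_lit 23484) (nat_lit 6) (nat_lit 309) (nat_lit 0) (nat_lit 212) (nat_lit 196) (nat_lit 162)) (PT.nd (nat_lit 78) (PT.lf (nat_lit 22648) (nat_lit 6) (nat_lit 298) (nat_lit 0) (nat_lit 213) (nat_lit 196) (nat_lit 161)) (PT.lf (nat_lit 21812) (nat_lit 6) (nat_lit 287) (nat_lit 0) (nat_lit 214) (nat_lit 196) (nat_lit 160)))) (PT.nd (nat_lit 54990) (PT.nd (nat_lit 54912) (PT.lf (nat_lit 20976) (nat_lit 6) (nat_lit 276) (nat_lit 0) (nat_lit 215) (nat_lit 196) (nat_lit 159)) (PT.lf (nat_lit 20216) (nat_lit 6) (nat_lit 266) (nat_lit 5) (nat_lit 158) (nat_lit 197) (nat_lit 215))) (PT.nd (nat_lit 78) (PT.lf (nat_lit 21052) (nat_lit 6) (nat_lit 277) (nat_lit 5) (nat_lit 159) (nat_lit 197) (nat_lit 214)) (PT.lf (nat_lit 21888) (nat_lit 6) (nat_lit 288) (nat_lit 5) (nat_lit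 160) (nat_lit 197) (nat_lit 213))))) (PT.nd (nat_lit 234) (PT.nd (nat_lit 78) (PT.lf (nat_lit 22724) (nat_lit 6) (nat_lit 299) (nat_lit 5) (nat_lit 161) (nat_lit 197) (nat_lit 212)) (PT.nd (nat_lit 78) (PT.lf (nat_lit 23560) (nat_lit 6) (nat_lit 310) (nat_lit 5) (nat_lit 162) (nat_lit 197) (nat_lit 211)) (PT.lf (nat_lit 24472) (nat_lit 6) (nat_lit 322) (nat_lit 5) (nat_lit 163) (nat_lit 197) (nat_lit 210)))) (PT.nd (nat_lit 156) (PT.nd (nat_lit 78) (PT.lf (nat_lit 25384) (nat_lit 6) (nat_lit 334) (nat_lit 5) (nat_lit 164) (nat_lit 197) (nat_lit 209)) (PT.lf (nat_lit 26372) (nat_lit 6) (nat_lit 347) (nat_lit 5) (nat_lit 165) (nat_lit 197) (nat_lit 208))) (PT.nd (nat_lit 78) (PT.lf (nat_lit 27360) (nat_lit 6) (nat_lit 360) (nat_lit 5) (nat_lit 166) (nat_lit 197) (nat_lit 207)) (PT.lf (nat_lit 29184) (nat_lit 6) (nat_lit 384) (nat_lit 5) (nat_lit 167) (nat_lit 197) (nat_lit 206)))))) (PT.nd (nat_lit 546) (PT.nd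 (nat_lit 234) (PT.nd (nat_lit 78) (PT.lf (nat_lit 30932) (nat_lit 6) (nat_lit 407) (nat_lit 5) (nat_lit 168) (nat_lit 197) (nat_lit 205)) (PT.nd (nat_lit 78) (PT.lf (nat_lit 32604) (nat_lit 6) (nat_lit 429) (nat_lit 5) (nat_lit 169) (nat_lit 197) (nat_lit 204)) (PT.lf (nat_lit 34200) (nat_lit 6) (nat_lit 450) (nat_lit 5) (nat_lit 170) (nat_lit 197) (nat_lit 203)))) (PT.nd (nat_lit 156) (PT.nd (nat_lit 78) (PT.lf (nat_lit 35720) (nat_lit 6) (nat_lit 470) (nat_lit 5) (nat_lit 171) (nat_lit 197) (nat_lit 202)) (PT.lf (nat_lit 37164) (nat_lit 6) (nat_lit 489) (nat_lit 5) (nat_lit 172) (nat_lit 197) (nat_lit 201))) (PT.nd (nat_lit 78) (PT.lf (nat_lit 38532) (nat_lit 6) (nat_lit 507) (nat_lit 5) (nat_lit 173) (nat_lit 197) (nat_lit 200)) (PT.lf (nat_lit 39824) (nat_lit 6) (nat_lit 524) (nat_lit 5) (nat_lit 174) (nat_lit 197) (nat_lit 199))))) (PT.nd (nat_lit 234) (PT.nd (nat_lit 78) (PT.lf (nat_lit 41040) (nat_lit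 6) (nat_lit 540) (nat_lit 5) (nat_lit 175) (nat_lit 197) (nat_lit 198)) (PT.nd (nat_lit 78) (PT.lf (nat_lit 42180) (nat_lit 3) (nat_lit 555) (nat_lit 4) (nat_lit 176) (nat_lit 197) (nat_lit 197)) (PT.lf (nat_lit 43168) (nat_lit 6) (nat_lit 568) (nat_lit 4) (nat_lit 177) (nat_lit 197) (nat_lit 196)))) (PT.nd (nat_lit 156) (PT.nd (nat_lit 78) (PT.lf (nat_lit 44080) (nat_lit 6) (nat_lit 580) (nat_lit 4) (nat_lit 178) (nat_lit 197) (nat_lit 195)) (PT.lf (nat_lit 44916) (nat_lit 6) (nat_lit 591) (nat_lit 4) (nat_lit 179) (nat_lit 197) (nat_lit 194))) (PT.nd (nat_lit 78) (PT.lf (nat_lit 45676) (nat_lit 6) (nat_lit 601) (nat_lit 4) (nat_lit 180) (nat_lit 197) (nat_lit 193)) (PT.lf (nat_lit 46360) (nat_lit 6) (nat_lit 610) (nat_lit 4) (nat_lit 181) (nat_lit 197) (nat_lit 192))))))) (PT.nd (nat_lit 1092) (PT.nd (nat_lit 546) (PT.nd (nat_lit 234) (PT.nd (nat_lit 78) (PT.lf (nat_lit 46968) (nat_lit 6) (nat_lit 618)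 (nat_lit 4) (nat_lit 182) (nat_lit 197) (nat_lit 191)) (PT.nd (nat_lit 78) (PT.lf (nat_lit 47500) (nat_lit 6) (nat_lit 625) (nat_lit 4) (nat_lit 183) (nat_lit 197) (nat_lit 190)) (PT.lf (nat_lit 47424) (nat_lit 6) (nat_lit 624) (nat_lit 4) (nat_lit 184) (nat_lit 197) (nat_lit 189)))) (PT.nd (nat_lit 156) (PT.nd (nat_lit 78) (PT.lf (nat_lit 47348) (nat_lit 6) (nat_lit 623) (nat_lit 4) (nat_lit 185) (nat_lit 197) (nat_lit 188)) (PT.lf (nat_lit 47272) (nat_lit 6) (nat_lit 622) (nat_lit 4) (nat_lit 186) (nat_lit 197) (nat_lit 187))) (PT.nd (nat_lit 78) (PT.lf (nat_lit 47272) (nat_lit 6) (nat_lit 622) (nat_lit 2) (nat_lit 187) (nat_lit 197) (nat_lit 186)) (PT.lf (nat_lit 47348) (nat_lit 6) (nat_lit 623) (nat_lit 2) (nat_lit 188) (nat_lit 197) (nat_lit 185))))) (PT.nd (nat_lit 234) (PT.nd (nat_lit 78) (PT.lf (nat_lit 47424) (nat_lit 6) (nat_lit 624) (nat_lit 2) (nat_lit 189) (nat_lit 197) (nat_lit 184)) (PT.nd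 (nat_lit 78) (PT.lf (nat_lit 47500) (nat_lit 6) (nat_lit 625) (nat_lit 2) (nat_lit 190) (nat_lit 197) (nat_lit 183)) (PT.lf (nat_lit 46968) (nat_lit 6) (nat_lit 618) (nat_lit 2) (nat_lit 191) (nat_lit 197) (nat_lit 182)))) (PT.nd (nat_lit 156) (PT.nd (nat_lit 78) (PT.lf (nat_lit 46360) (nat_lit 6) (nat_lit 610) (nat_lit 2) (nat_lit 192) (nat_lit 197) (nat_lit 181)) (PT.lf (nat_lit 45676) (nat_lit 6) (nat_lit 601) (nat_lit 2) (nat_lit 193) (nat_lit 197) (nat_lit 180))) (PT.nd (nat_lit 78) (PT.lf (nat_lit 44916) (nat_lit 6) (nat_lit 591) (nat_lit 2) (nat_lit 194) (nat_lit 197) (nat_lit 179)) (PT.lf (nat_lit 44080) (nat_lit 6) (nat_lit 580) (nat_lit 2) (nat_lit 195) (nat_lit 197) (nat_lit 178)))))) (PT.nd (nat_lit 546) (PT.nd (nat_lit 234) (PT.nd (nat_lit 78) (PT.lf (nat_lit 43168) (nat_lit 6) (nat_lit 568) (nat_lit 2) (nat_lit 196) (nat_lit 197) (nat_lit 177)) (PT.nd (nat_lit 78) (PT.lf (nat_lit 42180) (nat_lit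 3) (nat_lit 555) (nat_lit 0) (nat_lit 197) (nat_lit 197) (nat_lit 176)) (PT.lf (nat_lit 41040) (nat_lit 6) (nat_lit 540) (nat_lit 0) (nat_lit 198) (nat_lit 197) (nat_lit 175)))) (PT.nd (nat_lit 156) (PT.nd (nat_lit 78) (PT.lf (nat_lit 39824) (nat_lit 6) (nat_lit 524) (nat_lit 0) (nat_lit 199) (nat_lit 197) (nat_lit 174)) (PT.lf (nat_lit 38532) (nat_lit 6) (nat_lit 507) (nat_lit 0) (nat_lit 200) (nat_lit 197) (nat_lit 173))) (PT.nd (nat_lit 78) (PT.lf (nat_lit 37164) (nat_lit 6) (nat_lit 489) (nat_lit 0) (nat_lit 201) (nat_lit 197) (nat_lit 172)) (PT.lf (nat_lit 35720) (nat_lit 6) (nat_lit 470) (nat_lit 0) (nat_lit 202) (nat_lit 197) (nat_lit 171))))) (PT.nd (nat_lit 312) (PT.nd (nat_lit 156) (PT.nd (nat_lit 78) (PT.lf (nat_lit 34200) (nat_lit 6) (nat_lit 450) (nat_lit 0) (nat_lit 203) (nat_lit 197) (nat_lit 170)) (PT.lf (nat_lit 32604) (nat_lit 6) (nat_lit 429) (nat_lit 0) (nat_lit 204) (nat_lit 197) (nat_lit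 169))) (PT.nd (nat_lit 78) (PT.lf (nat_lit 30932) (nat_lit 6) (nat_lit 407) (nat_lit 0) (nat_lit 205) (nat_lit 197) (nat_lit 168)) (PT.lf (nat_lit 29184) (nat_lit 6) (nat_lit 384) (nat_lit 0) (nat_lit 206) (nat_lit 197) (nat_lit 167)))) (PT.nd (nat_lit 156) (PT.nd (nat_lit 78) (PT.lf (nat_lit 27360) (nat_lit 6) (nat_lit 360) (nat_lit 0) (nat_lit 207) (nat_lit 197) (nat_lit 166)) (PT.lf (nat_lit 26372) (nat_lit 6) (nat_lit 347) (nat_lit 0) (nat_lit 208) (nat_lit 197) (nat_lit 165))) (PT.nd (nat_lit 78) (PT.lf (nat_lit 25384) (nat_lit 6) (nat_lit 334) (nat_lit 0) (nat_lit 209) (nat_lit 197) (nat_lit 164)) (PT.lf (nat_lit 24472) (nat_lit 6) (nat_lit 322) (nat_lit 0) (nat_lit 210) (nat_lit 197) (nat_lit 163))))))))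
noncomputable def pc33 : PT := (PT.nd (nat_lit 57018) (PT.nd (nat_lit 55848) (PT.nd (nat_lit 55302) (PT.nd (nat_lit 234) (PT.nd (nat_lit 78) (PT.lf (nat_lit 23560) (nat_lit 6) (nat_lit 310) (nat_lit 0) (nat_lit 211) (nat_lit 197) (nat_lit 162)) (PT.nd (nat_lit 78) (PT.lf (nat_lit 22724) (nat_lit 6) (nat_lit 299) (nat_lit 0) (nat_lit 212) (nat_lit 197) (nat_lit 161)) (PT.lf (nat_lit 21888) (nat_lit 6) (nat_lit 288) (nat_lit 0) (nat_lit 213) (nat_lit 197) (nat_lit 160)))) (PT.nd (nat_lit 54912) (PT.nd (nat_lit 78) (PT.lf (nat_lit 21052) (nat_lit 6) (nat_lit 277) (nat_lit 0) (nat_lit 214) (nat_lit 197) (nat_lit 159)) (PT.lf (nat_lit 20216) (nat_lit 6) (nat_lit 266) (nat_lit 0) (nat_lit 215) (nat_lit 197) (nat_lit 158))) (PT.nd (nat_lit 78) (PT.lf (nat_lit 19532) (nat_lit 6) (nat_lit 257) (nat_lit 5) (nat_lit 157) (nat_lit 198) (nat_lit 215)) (PT.lf (nat_lit 20292) (nat_lit 6) (nat_lit 267) (nat_lit 5) (nat_lit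 158) (nat_lit 198) (nat_lit 214))))) (PT.nd (nat_lit 234) (PT.nd (nat_lit 78) (PT.lf (nat_lit 21128) (nat_lit 6) (nat_lit 278) (nat_lit 5) (nat_lit 159) (nat_lit 198) (nat_lit 213)) (PT.nd (nat_lit 78) (PT.lf (nat_lit 21964) (nat_lit 6) (nat_lit 289) (nat_lit 5) (nat_lit 160) (nat_lit 198) (nat_lit 212)) (PT.lf (nat_lit 22800) (nat_lit 6) (nat_lit 300) (nat_lit 5) (nat_lit 161) (nat_lit 198) (nat_lit 211)))) (PT.nd (nat_lit 156) (PT.nd (nat_lit 78) (PT.lf (nat_lit 23636) (nat_lit 6) (nat_lit 311) (nat_lit 5) (nat_lit 162) (nat_lit 198) (nat_lit 210)) (PT.lf (nat_lit 24548) (nat_lit 6) (nat_lit 323) (nat_lit 5) (nat_lit 163) (nat_lit 198) (nat_lit 209))) (PT.nd (nat_lit 78) (PT.lf (nat_lit 25460) (nat_lit 6) (nat_lit 335) (nat_lit 5) (nat_lit 164) (nat_lit 198) (nat_lit 208)) (PT.lf (nat_lit 26448) (nat_lit 6) (nat_lit 348) (nat_lit 5) (nat_lit 165) (nat_lit 198) (nat_lit 207)))))) (PT.nd (nat_lit 546) (PT.nd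 (nat_lit 234) (PT.nd (nat_lit 78) (PT.lf (nat_lit 27436) (nat_lit 6) (nat_lit 361) (nat_lit 5) (nat_lit 166) (nat_lit 198) (nat_lit 206)) (PT.nd (nat_lit 78) (PT.lf (nat_lit 29260) (nat_lit 6) (nat_lit 385) (nat_lit 5) (nat_lit 167) (nat_lit 198) (nat_lit 205)) (PT.lf (nat_lit 31008) (nat_lit 6) (nat_lit 408) (nat_lit 5) (nat_lit 168) (nat_lit 198) (nat_lit 204)))) (PT.nd (nat_lit 156) (PT.nd (nat_lit 78) (PT.lf (nat_lit 32680) (nat_lit 6) (nat_lit 430) (nat_lit 5) (nat_lit 169) (nat_lit 198) (nat_lit 203)) (PT.lf (nat_lit 34276) (nat_lit 6) (nat_lit 451) (nat_lit 5) (nat_lit 170) (nat_lit 198) (nat_lit 202))) (PT.nd (nat_lit 78) (PT.lf (nat_lit 35796) (nat_lit 6) (nat_lit 471) (nat_lit 5) (nat_lit 171) (nat_lit 198) (nat_lit 201)) (PT.lf (nat_lit 37240) (nat_lit 6) (nat_lit 490) (nat_lit 5) (nat_lit 172) (nat_lit 198) (nat_lit 200))))) (PT.nd (nat_lit 312) (PT.nd (nat_lit 156) (PT.nd (nat_lit 78) (PT.lf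 (nat_lit 38608) (nat_lit 6) (nat_lit 508) (nat_lit 5) (nat_lit 173) (nat_lit 198) (nat_lit 199)) (PT.lf (nat_lit 39900) (nat_lit 3) (nat_lit 525) (nat_lit 4) (nat_lit 174) (nat_lit 198) (nat_lit 198))) (PT.nd (nat_lit 78) (PT.lf (nat_lit 41040) (nat_lit 6) (nat_lit 540) (nat_lit 4) (nat_lit 175) (nat_lit 198) (nat_lit 197)) (PT.lf (nat_lit 42104) (nat_lit 6) (nat_lit 554) (nat_lit 4) (nat_lit 176) (nat_lit 198) (nat_lit 196)))) (PT.nd (nat_lit 156) (PT.nd (nat_lit 78) (PT.lf (nat_lit 43092) (nat_lit 6) (nat_lit 567) (nat_lit 4) (nat_lit 177) (nat_lit 198) (nat_lit 195)) (PT.lf (nat_lit 44004) (nat_lit 6) (nat_lit 579) (nat_lit 4) (nat_lit 178) (nat_lit 198) (nat_lit 194))) (PT.nd (nat_lit 78) (PT.lf (nat_lit 44840) (nat_lit 6) (nat_lit 590) (nat_lit 4) (nat_lit 179) (nat_lit 198) (nat_lit 193)) (PT.lf (nat_lit 45600) (nat_lit 6) (nat_lit 600) (nat_lit 4) (nat_lit 180) (nat_lit 198) (nat_lit 192))))))) (PT.nd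 (nat_lit 1092) (PT.nd (nat_lit 546) (PT.nd (nat_lit 234) (PT.nd (nat_lit 78) (PT.lf (nat_lit 46284) (nat_lit 6) (nat_lit 609) (nat_lit 4) (nat_lit 181) (nat_lit 198) (nat_lit 191)) (PT.nd (nat_lit 78) (PT.lf (nat_lit 46892) (nat_lit 6) (nat_lit 617) (nat_lit 4) (nat_lit 182) (nat_lit 198) (nat_lit 190)) (PT.lf (nat_lit 46816) (nat_lit 6) (nat_lit 616) (nat_lit 4) (nat_lit 183) (nat_lit 198) (nat_lit 189)))) (PT.nd (nat_lit 156) (PT.nd (nat_lit 78) (PT.lf (nat_lit 46740) (nat_lit 6) (nat_lit 615) (nat_lit 4) (nat_lit 184) (nat_lit 198) (nat_lit 188)) (PT.lf (nat_lit 46664) (nat_lit 6) (nat_lit 614) (nat_lit 4) (nat_lit 185) (nat_lit 198) (nat_lit 187))) (PT.nd (nat_lit 78) (PT.lf (nat_lit 46588) (nat_lit 3) (nat_lit 613) (nat_lit 2) (nat_lit 186) (nat_lit 198) (nat_lit 186)) (PT.lf (nat_lit 46664) (nat_lit 6) (nat_lit 614) (nat_lit 2) (nat_lit 187) (nat_lit 198) (nat_lit 185))))) (PT.nd (nat_lit 234) (PT.nd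 (nat_lit 78) (PT.lf (nat_lit 46740) (nat_lit 6) (nat_lit 615) (nat_lit 2) (nat_lit 188) (nat_lit 198) (nat_lit 184)) (PT.nd (nat_lit 78) (PT.lf (nat_lit 46816) (nat_lit 6) (nat_lit 616) (nat_lit 2) (nat_lit 189) (nat_lit 198) (nat_lit 183)) (PT.lf (nat_lit 46892) (nat_lit 6) (nat_lit 617) (nat_lit 2) (nat_lit 190) (nat_lit 198) (nat_lit 182)))) (PT.nd (nat_lit 156) (PT.nd (nat_lit 78) (PT.lf (nat_lit 46284) (nat_lit 6) (nat_lit 609) (nat_lit 2) (nat_lit 191) (nat_lit 198) (nat_lit 181)) (PT.lf (nat_lit 45600) (nat_lit 6) (nat_lit 600) (nat_lit 2) (nat_lit 192) (nat_lit 198) (nat_lit 180))) (PT.nd (nat_lit 78) (PT.lf (nat_lit 44840) (nat_lit 6) (nat_lit 590) (nat_lit 2) (nat_lit 193) (nat_lit 198) (nat_lit 179)) (PT.lf (nat_lit 44004) (nat_lit 6) (nat_lit 579) (nat_lit 2) (nat_lit 194) (nat_lit 198) (nat_lit 178)))))) (PT.nd (nat_lit 546) (PT.nd (nat_lit 234) (PT.nd (nat_lit 78) (PT.lf (nat_lit 43092) (nat_lit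 6) (nat_lit 567) (nat_lit 2) (nat_lit 195) (nat_lit 198) (nat_lit 177)) (PT.nd (nat_lit 78) (PT.lf (nat_lit 42104) (nat_lit 6) (nat_lit 554) (nat_lit 2) (nat_lit 196) (nat_lit 198) (nat_lit 176)) (PT.lf (nat_lit 41040) (nat_lit 6) (nat_lit 540) (nat_lit 2) (nat_lit 197) (nat_lit 198) (nat_lit 175)))) (PT.nd (nat_lit 156) (PT.nd (nat_lit 78) (PT.lf (nat_lit 39900) (nat_lit 3) (nat_lit 525) (nat_lit 0) (nat_lit 198) (nat_lit 198) (nat_lit 174)) (PT.lf (nat_lit 38608) (nat_lit 6) (nat_lit 508) (nat_lit 0) (nat_lit 199) (nat_lit 198) (nat_lit 173))) (PT.nd (nat_lit 78) (PT.lf (nat_lit 37240) (nat_lit 6) (nat_lit 490) (nat_lit 0) (nat_lit 200) (nat_lit 198) (nat_lit 172)) (PT.lf (nat_lit 35796) (nat_lit 6) (nat_lit 471) (nat_lit 0) (nat_lit 201) (nat_lit 198) (nat_lit 171))))) (PT.nd (nat_lit 312) (PT.nd (nat_lit 156) (PT.nd (nat_lit 78) (PT.lf (nat_lit 34276) (nat_lit 6) (nat_lit 451) (nat_lit 0) (nat_lit 202)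 (nat_lit 198) (nat_lit 170)) (PT.lf (nat_lit 32680) (nat_lit 6) (nat_lit 430) (nat_lit 0) (nat_lit 203) (nat_lit 198) (nat_lit 169))) (PT.nd (nat_lit 78) (PT.lf (nat_lit 31008) (nat_lit 6) (nat_lit 408) (nat_lit 0) (nat_lit 204) (nat_lit 198) (nat_lit 168)) (PT.lf (nat_lit 29260) (nat_lit 6) (nat_lit 385) (nat_lit 0) (nat_lit 205) (nat_lit 198) (nat_lit 167)))) (PT.nd (nat_lit 156) (PT.nd (nat_lit 78) (PT.lf (nat_lit 27436) (nat_lit 6) (nat_lit 361) (nat_lit 0) (nat_lit 206) (nat_lit 198) (nat_lit 166)) (PT.lf (nat_lit 26448) (nat_lit 6) (nat_lit 348) (nat_lit 0) (nat_lit 207) (nat_lit 198) (nat_lit 165))) (PT.nd (nat_lit 78) (PT.lf (nat_lit 25460) (nat_lit 6) (nat_lit 335) (nat_lit 0) (nat_lit 208) (nat_lit 198) (nat_lit 164)) (PT.lf (nat_lit 24548) (nat_lit 6) (nat_lit 323) (nat_lit 0) (nat_lit 209) (nat_lit 198) (nat_lit 163))))))))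
noncomputable def pc34 : PT := (PT.nd (nat_lit 56784) (PT.nd (nat_lit 55692) (PT.nd (nat_lit 55146) (PT.nd (nat_lit 234) (PT.nd (nat_lit 78) (PT.lf (nat_lit 23636) (nat_lit 6) (nat_lit 311) (nat_lit 0) (nat_lit 210) (nat_lit 198) (nat_lit 162)) (PT.nd (nat_lit 78) (PT.lf (nat_lit 22800) (nat_lit 6) (nat_lit 300) (nat_lit 0) (nat_lit 211) (nat_lit 198) (nat_lit 161)) (PT.lf (nat_lit 21964) (nat_lit 6) (nat_lit 289) (nat_lit 0) (nat_lit 212) (nat_lit 198) (nat_lit 160)))) (PT.nd (nat_lit 156) (PT.nd (nat_lit 78) (PT.lf (nat_lit 21128) (nat_lit 6) (nat_lit 278) (nat_lit 0) (nat_lit 213) (nat_lit 198) (nat_lit 159)) (PT.lf (nat_lit 20292) (nat_lit 6) (nat_lit 267) (nat_lit 0) (nat_lit 214) (nat_lit 198) (nat_lit 158))) (PT.nd (nat_lit 54678) (PT.lf (nat_lit 19532) (nat_lit 6) (nat_lit 257) (nat_lit 0) (nat_lit 215) (nat_lit 198) (nat_lit 157)) (PT.lf (nat_lit 18164) (nat_lit 6) (nat_lit 239) (nat_lit 5) (nat_lit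 155) (nat_lit 199) (nat_lit 216))))) (PT.nd (nat_lit 234) (PT.nd (nat_lit 78) (PT.lf (nat_lit 18848) (nat_lit 6) (nat_lit 248) (nat_lit 5) (nat_lit 156) (nat_lit 199) (nat_lit 215)) (PT.nd (nat_lit 78) (PT.lf (nat_lit 19608) (nat_lit 6) (nat_lit 258) (nat_lit 5) (nat_lit 157) (nat_lit 199) (nat_lit 214)) (PT.lf (nat_lit 20368) (nat_lit 6) (nat_lit 268) (nat_lit 5) (nat_lit 158) (nat_lit 199) (nat_lit 213)))) (PT.nd (nat_lit 156) (PT.nd (nat_lit 78) (PT.lf (nat_lit 21204) (nat_lit 6) (nat_lit 279) (nat_lit 5) (nat_lit 159) (nat_lit 199) (nat_lit 212)) (PT.lf (nat_lit 22040) (nat_lit 6) (nat_lit 290) (nat_lit 5) (nat_lit 160) (nat_lit 199) (nat_lit 211))) (PT.nd (nat_lit 78) (PT.lf (nat_lit 22876) (nat_lit 6) (nat_lit 301) (nat_lit 5) (nat_lit 161) (nat_lit 199) (nat_lit 210)) (PT.lf (nat_lit 23712) (nat_lit 6) (nat_lit 312) (nat_lit 5) (nat_lit 162) (nat_lit 199) (nat_lit 209)))))) (PT.nd (nat_lit 546) (PT.nd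 (nat_lit 234) (PT.nd (nat_lit 78) (PT.lf (nat_lit 24624) (nat_lit 6) (nat_lit 324) (nat_lit 5) (nat_lit 163) (nat_lit 199) (nat_lit 208)) (PT.nd (nat_lit 78) (PT.lf (nat_lit 25536) (nat_lit 6) (nat_lit 336) (nat_lit 5) (nat_lit 164) (nat_lit 199) (nat_lit 207)) (PT.lf (nat_lit 26524) (nat_lit 6) (nat_lit 349) (nat_lit 5) (nat_lit 165) (nat_lit 199) (nat_lit 206)))) (PT.nd (nat_lit 156) (PT.nd (nat_lit 78) (PT.lf (nat_lit 27512) (nat_lit 6) (nat_lit 362) (nat_lit 5) (nat_lit 166) (nat_lit 199) (nat_lit 205)) (PT.lf (nat_lit 29336) (nat_lit 6) (nat_lit 386) (nat_lit 5) (nat_lit 167) (nat_lit 199) (nat_lit 204))) (PT.nd (nat_lit 78) (PT.lf (nat_lit 31084) (nat_lit 6) (nat_lit 409) (nat_lit 5) (nat_lit 168) (nat_lit 199) (nat_lit 203)) (PT.lf (nat_lit 32756) (nat_lit 6) (nat_lit 431) (nat_lit 5) (nat_lit 169) (nat_lit 199) (nat_lit 202))))) (PT.nd (nat_lit 234) (PT.nd (nat_lit 78) (PT.lf (nat_lit 34352) (nat_lit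 6) (nat_lit 452) (nat_lit 5) (nat_lit 170) (nat_lit 199) (nat_lit 201)) (PT.nd (nat_lit 78) (PT.lf (nat_lit 35872) (nat_lit 6) (nat_lit 472) (nat_lit 5) (nat_lit 171) (nat_lit 199) (nat_lit 200)) (PT.lf (nat_lit 37316) (nat_lit 3) (nat_lit 491) (nat_lit 4) (nat_lit 172) (nat_lit 199) (nat_lit 199)))) (PT.nd (nat_lit 156) (PT.nd (nat_lit 78) (PT.lf (nat_lit 38608) (nat_lit 6) (nat_lit 508) (nat_lit 4) (nat_lit 173) (nat_lit 199) (nat_lit 198)) (PT.lf (nat_lit 39824) (nat_lit 6) (nat_lit 524) (nat_lit 4) (nat_lit 174) (nat_lit 199) (nat_lit 197))) (PT.nd (nat_lit 78) (PT.lf (nat_lit 40964) (nat_lit 6) (nat_lit 539) (nat_lit 4) (nat_lit 175) (nat_lit 199) (nat_lit 196)) (PT.lf (nat_lit 42028) (nat_lit 6) (nat_lit 553) (nat_lit 4) (nat_lit 176) (nat_lit 199) (nat_lit 195))))))) (PT.nd (nat_lit 1092) (PT.nd (nat_lit 546) (PT.nd (nat_lit 234) (PT.nd (nat_lit 78) (PT.lf (nat_lit 43016) (nat_lit 6) (nat_lit 566)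 (nat_lit 4) (nat_lit 177) (nat_lit 199) (nat_lit 194)) (PT.nd (nat_lit 78) (PT.lf (nat_lit 43928) (nat_lit 6) (nat_lit 578) (nat_lit 4) (nat_lit 178) (nat_lit 199) (nat_lit 193)) (PT.lf (nat_lit 44764) (nat_lit 6) (nat_lit 589) (nat_lit 4) (nat_lit 179) (nat_lit 199) (nat_lit 192)))) (PT.nd (nat_lit 156) (PT.nd (nat_lit 78) (PT.lf (nat_lit 45524) (nat_lit 6) (nat_lit 599) (nat_lit 4) (nat_lit 180) (nat_lit 199) (nat_lit 191)) (PT.lf (nat_lit 46208) (nat_lit 6) (nat_lit 608) (nat_lit 4) (nat_lit 181) (nat_lit 199) (nat_lit 190))) (PT.nd (nat_lit 78) (PT.lf (nat_lit 46132) (nat_lit 6) (nat_lit 607) (nat_lit 4) (nat_lit 182) (nat_lit 199) (nat_lit 189)) (PT.lf (nat_lit 46056) (nat_lit 6) (nat_lit 606) (nat_lit 4) (nat_lit 183) (nat_lit 199) (nat_lit 188))))) (PT.nd (nat_lit 234) (PT.nd (nat_lit 78) (PT.lf (nat_lit 45980) (nat_lit 6) (nat_lit 605) (nat_lit 4) (nat_lit 184) (nat_lit 199) (nat_lit 187)) (PT.nd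 (nat_lit 78) (PT.lf (nat_lit 45904) (nat_lit 6) (nat_lit 604) (nat_lit 4) (nat_lit 185) (nat_lit 199) (nat_lit 186)) (PT.lf (nat_lit 45904) (nat_lit 6) (nat_lit 604) (nat_lit 2) (nat_lit 186) (nat_lit 199) (nat_lit 185)))) (PT.nd (nat_lit 156) (PT.nd (nat_lit 78) (PT.lf (nat_lit 45980) (nat_lit 6) (nat_lit 605) (nat_lit 2) (nat_lit 187) (nat_lit 199) (nat_lit 184)) (PT.lf (nat_lit 46056) (nat_lit 6) (nat_lit 606) (nat_lit 2) (nat_lit 188) (nat_lit 199) (nat_lit 183))) (PT.nd (nat_lit 78) (PT.lf (nat_lit 46132) (nat_lit 6) (nat_lit 607) (nat_lit 2) (nat_lit 189) (nat_lit 199) (nat_lit 182)) (PT.lf (nat_lit 46208) (nat_lit 6) (nat_lit 608) (nat_lit 2) (nat_lit 190) (nat_lit 199) (nat_lit 181)))))) (PT.nd (nat_lit 546) (PT.nd (nat_lit 234) (PT.nd (nat_lit 78) (PT.lf (nat_lit 45524) (nat_lit 6) (nat_lit 599) (nat_lit 2) (nat_lit 191) (nat_lit 199) (nat_lit 180)) (PT.nd (nat_lit 78) (PT.lf (nat_lit 44764) (nat_lit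 6) (nat_lit 589) (nat_lit 2) (nat_lit 192) (nat_lit 199) (nat_lit 179)) (PT.lf (nat_lit 43928) (nat_lit 6) (nat_lit 578) (nat_lit 2) (nat_lit 193) (nat_lit 199) (nat_lit 178)))) (PT.nd (nat_lit 156) (PT.nd (nat_lit 78) (PT.lf (nat_lit 43016) (nat_lit 6) (nat_lit 566) (nat_lit 2) (nat_lit 194) (nat_lit 199) (nat_lit 177)) (PT.lf (nat_lit 42028) (nat_lit 6) (nat_lit 553) (nat_lit 2) (nat_lit 195) (nat_lit 199) (nat_lit 176))) (PT.nd (nat_lit 78) (PT.lf (nat_lit 40964) (nat_lit 6) (nat_lit 539) (nat_lit 2) (nat_lit 196) (nat_lit 199) (nat_lit 175)) (PT.lf (nat_lit 39824) (nat_lit 6) (nat_lit 524) (nat_lit 2) (nat_lit 197) (nat_lit 199) (nat_lit 174))))) (PT.nd (nat_lit 312) (PT.nd (nat_lit 156) (PT.nd (nat_lit 78) (PT.lf (nat_lit 38608) (nat_lit 6) (nat_lit 508) (nat_lit 2) (nat_lit 198) (nat_lit 199) (nat_lit 173)) (PT.lf (nat_lit 37316) (nat_lit 3) (nat_lit 491) (nat_lit 0) (nat_lit 199) (nat_lit 199) (nat_lit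 172))) (PT.nd (nat_lit 78) (PT.lf (nat_lit 35872) (nat_lit 6) (nat_lit 472) (nat_lit 0) (nat_lit 200) (nat_lit 199) (nat_lit 171)) (PT.lf (nat_lit 34352) (nat_lit 6) (nat_lit 452) (nat_lit 0) (nat_lit 201) (nat_lit 199) (nat_lit 170)))) (PT.nd (nat_lit 156) (PT.nd (nat_lit 78) (PT.lf (nat_lit 32756) (nat_lit 6) (nat_lit 431) (nat_lit 0) (nat_lit 202) (nat_lit 199) (nat_lit 169)) (PT.lf (nat_lit 31084) (nat_lit 6) (nat_lit 409) (nat_lit 0) (nat_lit 203) (nat_lit 199) (nat_lit 168))) (PT.nd (nat_lit 78) (PT.lf (nat_lit 29336) (nat_lit 6) (nat_lit 386) (nat_lit 0) (nat_lit 204) (nat_lit 199) (nat_lit 167)) (PT.lf (nat_lit 27512) (nat_lit 6) (nat_lit 362) (nat_lit 0) (nat_lit 205) (nat_lit 199) (nat_lit 166))))))))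
noncomputable def pc35 : PT := (PT.nd (nat_lit 56706) (PT.nd (nat_lit 55536) (PT.nd (nat_lit 546) (PT.nd (nat_lit 234) (PT.nd (nat_lit 78) (PT.lf (nat_lit 26524) (nat_lit 6) (nat_lit 349) (nat_lit 0) (nat_lit 206) (nat_lit 199) (nat_lit 165)) (PT.nd (nat_lit 78) (PT.lf (nat_lit 25536) (nat_lit 6) (nat_lit 336) (nat_lit 0) (nat_lit 207) (nat_lit 199) (nat_lit 164)) (PT.lf (nat_lit 24624) (nat_lit 6) (nat_lit 324) (nat_lit 0) (nat_lit 208) (nat_lit 199) (nat_lit 163)))) (PT.nd (nat_lit 156) (PT.nd (nat_lit 78) (PT.lf (nat_lit 23712) (nat_lit 6) (nat_lit 312) (nat_lit 0) (nat_lit 209) (nat_lit 199) (nat_lit 162)) (PT.lf (nat_lit 22876) (nat_lit 6) (nat_lit 301) (nat_lit 0) (nat_lit 210) (nat_lit 199) (nat_lit 161))) (PT.nd (nat_lit 78) (PT.lf (nat_lit 22040) (nat_lit 6) (nat_lit 290) (nat_lit 0) (nat_lit 211) (nat_lit 199) (nat_lit 160)) (PT.lf (nat_lit 21204) (nat_lit 6) (nat_lit 279) (nat_lit 0) (nat_lit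 212) (nat_lit 199) (nat_lit 159))))) (PT.nd (nat_lit 234) (PT.nd (nat_lit 78) (PT.lf (nat_lit 20368) (nat_lit 6) (nat_lit 268) (nat_lit 0) (nat_lit 213) (nat_lit 199) (nat_lit 158)) (PT.nd (nat_lit 78) (PT.lf (nat_lit 19608) (nat_lit 6) (nat_lit 258) (nat_lit 0) (nat_lit 214) (nat_lit 199) (nat_lit 157)) (PT.lf (nat_lit 18848) (nat_lit 6) (nat_lit 248) (nat_lit 0) (nat_lit 215) (nat_lit 199) (nat_lit 156)))) (PT.nd (nat_lit 54600) (PT.nd (nat_lit 54522) (PT.lf (nat_lit 18164) (nat_lit 6) (nat_lit 239) (nat_lit 0) (nat_lit 216) (nat_lit 199) (nat_lit 155)) (PT.lf (nat_lit 17480) (nat_lit 6) (nat_lit 230) (nat_lit 5) (nat_lit 154) (nat_lit 200) (nat_lit 216))) (PT.nd (nat_lit 78) (PT.lf (nat_lit 18240) (nat_lit 6) (nat_lit 240) (nat_lit 5) (nat_lit 155) (nat_lit 200) (nat_lit 215)) (PT.lf (nat_lit 18924) (nat_lit 6) (nat_lit 249) (nat_lit 5) (nat_lit 156) (nat_lit 200) (nat_lit 214)))))) (PT.nd (nat_lit 546)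 (PT.nd (nat_lit 234) (PT.nd (nat_lit 78) (PT.lf (nat_lit 19684) (nat_lit 6) (nat_lit 259) (nat_lit 5) (nat_lit 157) (nat_lit 200) (nat_lit 213)) (PT.nd (nat_lit 78) (PT.lf (nat_lit 20444) (nat_lit 6) (nat_lit 269) (nat_lit 5) (nat_lit 158) (nat_lit 200) (nat_lit 212)) (PT.lf (nat_lit 21280) (nat_lit 6) (nat_lit 280) (nat_lit 5) (nat_lit 159) (nat_lit 200) (nat_lit 211)))) (PT.nd (nat_lit 156) (PT.nd (nat_lit 78) (PT.lf (nat_lit 22116) (nat_lit 6) (nat_lit 291) (nat_lit 5) (nat_lit 160) (nat_lit 200) (nat_lit 210)) (PT.lf (nat_lit 22952) (nat_lit 6) (nat_lit 302) (nat_lit 5) (nat_lit 161) (nat_lit 200) (nat_lit 209))) (PT.nd (nat_lit 78) (PT.lf (nat_lit 23788) (nat_lit 6) (nat_lit 313) (nat_lit 5) (nat_lit 162) (nat_lit 200) (nat_lit 208)) (PT.lf (nat_lit 24700) (nat_lit 6) (nat_lit 325) (nat_lit 5) (nat_lit 163) (nat_lit 200) (nat_lit 207))))) (PT.nd (nat_lit 312) (PT.nd (nat_lit 156) (PT.nd (nat_lit 78)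 (PT.lf (nat_lit 25612) (nat_lit 6) (nat_lit 337) (nat_lit 5) (nat_lit 164) (nat_lit 200) (nat_lit 206)) (PT.lf (nat_lit 26600) (nat_lit 6) (nat_lit 350) (nat_lit 5) (nat_lit 165) (nat_lit 200) (nat_lit 205))) (PT.nd (nat_lit 78) (PT.lf (nat_lit 27588) (nat_lit 6) (nat_lit 363) (nat_lit 5) (nat_lit 166) (nat_lit 200) (nat_lit 204)) (PT.lf (nat_lit 29412) (nat_lit 6) (nat_lit 387) (nat_lit 5) (nat_lit 167) (nat_lit 200) (nat_lit 203)))) (PT.nd (nat_lit 156) (PT.nd (nat_lit 78) (PT.lf (nat_lit 31160) (nat_lit 6) (nat_lit 410) (nat_lit 5) (nat_lit 168) (nat_lit 200) (nat_lit 202)) (PT.lf (nat_lit 32832) (nat_lit 6) (nat_lit 432) (nat_lit 5) (nat_lit 169) (nat_lit 200) (nat_lit 201))) (PT.nd (nat_lit 78) (PT.lf (nat_lit 34428) (nat_lit 3) (nat_lit 453) (nat_lit 4) (nat_lit 170) (nat_lit 200) (nat_lit 200)) (PT.lf (nat_lit 35872) (nat_lit 6) (nat_lit 472) (nat_lit 4) (nat_lit 171) (nat_lit 200) (nat_lit 199)))))))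 (PT.nd (nat_lit 1092) (PT.nd (nat_lit 546) (PT.nd (nat_lit 234) (PT.nd (nat_lit 78) (PT.lf (nat_lit 37240) (nat_lit 6) (nat_lit 490) (nat_lit 4) (nat_lit 172) (nat_lit 200) (nat_lit 198)) (PT.nd (nat_lit 78) (PT.lf (nat_lit 38532) (nat_lit 6) (nat_lit 507) (nat_lit 4) (nat_lit 173) (nat_lit 200) (nat_lit 197)) (PT.lf (nat_lit 39748) (nat_lit 6) (nat_lit 523) (nat_lit 4) (nat_lit 174) (nat_lit 200) (nat_lit 196)))) (PT.nd (nat_lit 156) (PT.nd (nat_lit 78) (PT.lf (nat_lit 40888) (nat_lit 6) (nat_lit 538) (nat_lit 4) (nat_lit 175) (nat_lit 200) (nat_lit 195)) (PT.lf (nat_lit 41952) (nat_lit 6) (nat_lit 552) (nat_lit 4) (nat_lit 176) (nat_lit 200) (nat_lit 194))) (PT.nd (nat_lit 78) (PT.lf (nat_lit 42940) (nat_lit 6) (nat_lit 565) (nat_lit 4) (nat_lit 177) (nat_lit 200) (nat_lit 193)) (PT.lf (nat_lit 43852) (nat_lit 6) (nat_lit 577) (nat_lit 4) (nat_lit 178) (nat_lit 200) (nat_lit 192))))) (PT.nd (nat_lit 234)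 (PT.nd (nat_lit 78) (PT.lf (nat_lit 44688) (nat_lit 6) (nat_lit 588) (nat_lit 4) (nat_lit 179) (nat_lit 200) (nat_lit 191)) (PT.nd (nat_lit 78) (PT.lf (nat_lit 45448) (nat_lit 6) (nat_lit 598) (nat_lit 4) (nat_lit 180) (nat_lit 200) (nat_lit 190)) (PT.lf (nat_lit 45372) (nat_lit 6) (nat_lit 597) (nat_lit 4) (nat_lit 181) (nat_lit 200) (nat_lit 189)))) (PT.nd (nat_lit 156) (PT.nd (nat_lit 78) (PT.lf (nat_lit 45296) (nat_lit 6) (nat_lit 596) (nat_lit 4) (nat_lit 182) (nat_lit 200) (nat_lit 188)) (PT.lf (nat_lit 45220) (nat_lit 6) (nat_lit 595) (nat_lit 4) (nat_lit 183) (nat_lit 200) (nat_lit 187))) (PT.nd (nat_lit 78) (PT.lf (nat_lit 45144) (nat_lit 6) (nat_lit 594) (nat_lit 4) (nat_lit 184) (nat_lit 200) (nat_lit 186)) (PT.lf (nat_lit 45068) (nat_lit 3) (nat_lit 593) (nat_lit 2) (nat_lit 185) (nat_lit 200) (nat_lit 185)))))) (PT.nd (nat_lit 546) (PT.nd (nat_lit 234) (PT.nd (nat_lit 78) (PT.lf (nat_lit 45144)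 (nat_lit 6) (nat_lit 594) (nat_lit 2) (nat_lit 186) (nat_lit 200) (nat_lit 184)) (PT.nd (nat_lit 78) (PT.lf (nat_lit 45220) (nat_lit 6) (nat_lit 595) (nat_lit 2) (nat_lit 187) (nat_lit 200) (nat_lit 183)) (PT.lf (nat_lit 45296) (nat_lit 6) (nat_lit 596) (nat_lit 2) (nat_lit 188) (nat_lit 200) (nat_lit 182)))) (PT.nd (nat_lit 156) (PT.nd (nat_lit 78) (PT.lf (nat_lit 45372) (nat_lit 6) (nat_lit 597) (nat_lit 2) (nat_lit 189) (nat_lit 200) (nat_lit 181)) (PT.lf (nat_lit 45448) (nat_lit 6) (nat_lit 598) (nat_lit 2) (nat_lit 190) (nat_lit 200) (nat_lit 180))) (PT.nd (nat_lit 78) (PT.lf (nat_lit 44688) (nat_lit 6) (nat_lit 588) (nat_lit 2) (nat_lit 191) (nat_lit 200) (nat_lit 179)) (PT.lf (nat_lit 43852) (nat_lit 6) (nat_lit 577) (nat_lit 2) (nat_lit 192) (nat_lit 200) (nat_lit 178))))) (PT.nd (nat_lit 312) (PT.nd (nat_lit 156) (PT.nd (nat_lit 78) (PT.lf (nat_lit 42940) (nat_lit 6) (nat_lit 565) (nat_lit 2) (nat_lit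 193) (nat_lit 200) (nat_lit 177)) (PT.lf (nat_lit 41952) (nat_lit 6) (nat_lit 552) (nat_lit 2) (nat_lit 194) (nat_lit 200) (nat_lit 176))) (PT.nd (nat_lit 78) (PT.lf (nat_lit 40888) (nat_lit 6) (nat_lit 538) (nat_lit 2) (nat_lit 195) (nat_lit 200) (nat_lit 175)) (PT.lf (nat_lit 39748) (nat_lit 6) (nat_lit 523) (nat_lit 2) (nat_lit 196) (nat_lit 200) (nat_lit 174)))) (PT.nd (nat_lit 156) (PT.nd (nat_lit 78) (PT.lf (nat_lit 38532) (nat_lit 6) (nat_lit 507) (nat_lit 2) (nat_lit 197) (nat_lit 200) (nat_lit 173)) (PT.lf (nat_lit 37240) (nat_lit 6) (nat_lit 490) (nat_lit 2) (nat_lit 198) (nat_lit 200) (nat_lit 172))) (PT.nd (nat_lit 78) (PT.lf (nat_lit 35872) (nat_lit 6) (nat_lit 472) (nat_lit 2) (nat_lit 199) (nat_lit 200) (nat_lit 171)) (PT.lf (nat_lit 34428) (nat_lit 3) (nat_lit 453) (nat_lit 0) (nat_lit 200) (nat_lit 200) (nat_lit 170))))))))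
noncomputable def pc36 : PT := (PT.nd (nat_lit 56550) (PT.nd (nat_lit 1092) (PT.nd (nat_lit 546) (PT.nd (nat_lit 234) (PT.nd (nat_lit 78) (PT.lf (nat_lit 32832) (nat_lit 6) (nat_lit 432) (nat_lit 0) (nat_lit 201) (nat_lit 200) (nat_lit 169)) (PT.nd (nat_lit 78) (PT.lf (nat_lit 31160) (nat_lit 6) (nat_lit 410) (nat_lit 0) (nat_lit 202) (nat_lit 200) (nat_lit 168)) (PT.lf (nat_lit 29412) (nat_lit 6) (nat_lit 387) (nat_lit 0) (nat_lit 203) (nat_lit 200) (nat_lit 167)))) (PT.nd (nat_lit 156) (PT.nd (nat_lit 78) (PT.lf (nat_lit 27588) (nat_lit 6) (nat_lit 363) (nat_lit 0) (nat_lit 204) (nat_lit 200) (nat_lit 166)) (PT.lf (nat_lit 26600) (nat_lit 6) (nat_lit 350) (nat_lit 0) (nat_lit 205) (nat_lit 200) (nat_lit 165))) (PT.nd (nat_lit 78) (PT.lf (nat_lit 25612) (nat_lit 6) (nat_lit 337) (nat_lit 0) (nat_lit 206) (nat_lit 200) (nat_lit 164)) (PT.lf (nat_lit 24700) (nat_lit 6) (nat_lit 325) (nat_lit 0) (nat_lit 207)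 (nat_lit 200) (nat_lit 163))))) (PT.nd (nat_lit 234) (PT.nd (nat_lit 78) (PT.lf (nat_lit 23788) (nat_lit 6) (nat_lit 313) (nat_lit 0) (nat_lit 208) (nat_lit 200) (nat_lit 162)) (PT.nd (nat_lit 78) (PT.lf (nat_lit 22952) (nat_lit 6) (nat_lit 302) (nat_lit 0) (nat_lit 209) (nat_lit 200) (nat_lit 161)) (PT.lf (nat_lit 22116) (nat_lit 6) (nat_lit 291) (nat_lit 0) (nat_lit 210) (nat_lit 200) (nat_lit 160)))) (PT.nd (nat_lit 156) (PT.nd (nat_lit 78) (PT.lf (nat_lit 21280) (nat_lit 6) (nat_lit 280) (nat_lit 0) (nat_lit 211) (nat_lit 200) (nat_lit 159)) (PT.lf (nat_lit 20444) (nat_lit 6) (nat_lit 269) (nat_lit 0) (nat_lit 212) (nat_lit 200) (nat_lit 158))) (PT.nd (nat_lit 78) (PT.lf (nat_lit 19684) (nat_lit 6) (nat_lit 259) (nat_lit 0) (nat_lit 213) (nat_lit 200) (nat_lit 157)) (PT.lf (nat_lit 18924) (nat_lit 6) (nat_lit 249) (nat_lit 0) (nat_lit 214) (nat_lit 200) (nat_lit 156)))))) (PT.nd (nat_lit 54912) (PT.nd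 (nat_lit 54600) (PT.nd (nat_lit 78) (PT.lf (nat_lit 18240) (nat_lit 6) (nat_lit 240) (nat_lit 0) (nat_lit 215) (nat_lit 200) (nat_lit 155)) (PT.nd (nat_lit 54444) (PT.lf (nat_lit 17480) (nat_lit 6) (nat_lit 230) (nat_lit 0) (nat_lit 216) (nat_lit 200) (nat_lit 154)) (PT.lf (nat_lit 16872) (nat_lit 6) (nat_lit 222) (nat_lit 5) (nat_lit 153) (nat_lit 201) (nat_lit 216)))) (PT.nd (nat_lit 156) (PT.nd (nat_lit 78) (PT.lf (nat_lit 17556) (nat_lit 6) (nat_lit 231) (nat_lit 5) (nat_lit 154) (nat_lit 201) (nat_lit 215)) (PT.lf (nat_lit 18316) (nat_lit 6) (nat_lit 241) (nat_lit 5) (nat_lit 155) (nat_lit 201) (nat_lit 214))) (PT.nd (nat_lit 78) (PT.lf (nat_lit 19000) (nat_lit 6) (nat_lit 250) (nat_lit 5) (nat_lit 156) (nat_lit 201) (nat_lit 213)) (PT.lf (nat_lit 19760) (nat_lit 6) (nat_lit 260) (nat_lit 5) (nat_lit 157) (nat_lit 201) (nat_lit 212))))) (PT.nd (nat_lit 234) (PT.nd (nat_lit 78) (PT.lf (nat_lit 20520)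 (nat_lit 6) (nat_lit 270) (nat_lit 5) (nat_lit 158) (nat_lit 201) (nat_lit 211)) (PT.nd (nat_lit 78) (PT.lf (nat_lit 21356) (nat_lit 6) (nat_lit 281) (nat_lit 5) (nat_lit 159) (nat_lit 201) (nat_lit 210)) (PT.lf (nat_lit 22192) (nat_lit 6) (nat_lit 292) (nat_lit 5) (nat_lit 160) (nat_lit 201) (nat_lit 209)))) (PT.nd (nat_lit 156) (PT.nd (nat_lit 78) (PT.lf (nat_lit 23028) (nat_lit 6) (nat_lit 303) (nat_lit 5) (nat_lit 161) (nat_lit 201) (nat_lit 208)) (PT.lf (nat_lit 23864) (nat_lit 6) (nat_lit 314) (nat_lit 5) (nat_lit 162) (nat_lit 201) (nat_lit 207))) (PT.nd (nat_lit 78) (PT.lf (nat_lit 24776) (nat_lit 6) (nat_lit 326) (nat_lit 5) (nat_lit 163) (nat_lit 201) (nat_lit 206)) (PT.lf (nat_lit 25688) (nat_lit 6) (nat_lit 338) (nat_lit 5) (nat_lit 164) (nat_lit 201) (nat_lit 205))))))) (PT.nd (nat_lit 1092) (PT.nd (nat_lit 546) (PT.nd (nat_lit 234) (PT.nd (nat_lit 78) (PT.lf (nat_lit 26676) (nat_lit 6) (nat_lit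 351) (nat_lit 5) (nat_lit 165) (nat_lit 201) (nat_lit 204)) (PT.nd (nat_lit 78) (PT.lf (nat_lit 27664) (nat_lit 6) (nat_lit 364) (nat_lit 5) (nat_lit 166) (nat_lit 201) (nat_lit 203)) (PT.lf (nat_lit 29488) (nat_lit 6) (nat_lit 388) (nat_lit 5) (nat_lit 167) (nat_lit 201) (nat_lit 202)))) (PT.nd (nat_lit 156) (PT.nd (nat_lit 78) (PT.lf (nat_lit 31236) (nat_lit 3) (nat_lit 411) (nat_lit 4) (nat_lit 168) (nat_lit 201) (nat_lit 201)) (PT.lf (nat_lit 32832) (nat_lit 6) (nat_lit 432) (nat_lit 4) (nat_lit 169) (nat_lit 201) (nat_lit 200))) (PT.nd (nat_lit 78) (PT.lf (nat_lit 34352) (nat_lit 6) (nat_lit 452) (nat_lit 4) (nat_lit 170) (nat_lit 201) (nat_lit 199)) (PT.lf (nat_lit 35796) (nat_lit 6) (nat_lit 471) (nat_lit 4) (nat_lit 171) (nat_lit 201) (nat_lit 198))))) (PT.nd (nat_lit 234) (PT.nd (nat_lit 78) (PT.lf (nat_lit 37164) (nat_lit 6) (nat_lit 489) (nat_lit 4) (nat_lit 172) (nat_lit 201) (nat_lit 197)) (PT.nd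 (nat_lit 78) (PT.lf (nat_lit 38456) (nat_lit 6) (nat_lit 506) (nat_lit 4) (nat_lit 173) (nat_lit 201) (nat_lit 196)) (PT.lf (nat_lit 39672) (nat_lit 6) (nat_lit 522) (nat_lit 4) (nat_lit 174) (nat_lit 201) (nat_lit 195)))) (PT.nd (nat_lit 156) (PT.nd (nat_lit 78) (PT.lf (nat_lit 40812) (nat_lit 6) (nat_lit 537) (nat_lit 4) (nat_lit 175) (nat_lit 201) (nat_lit 194)) (PT.lf (nat_lit 41876) (nat_lit 6) (nat_lit 551) (nat_lit 4) (nat_lit 176) (nat_lit 201) (nat_lit 193))) (PT.nd (nat_lit 78) (PT.lf (nat_lit 42864) (nat_lit 6) (nat_lit 564) (nat_lit 4) (nat_lit 177) (nat_lit 201) (nat_lit 192)) (PT.lf (nat_lit 43776) (nat_lit 6) (nat_lit 576) (nat_lit 4) (nat_lit 178) (nat_lit 201) (nat_lit 191)))))) (PT.nd (nat_lit 546) (PT.nd (nat_lit 234) (PT.nd (nat_lit 78) (PT.lf (nat_lit 44612) (nat_lit 6) (nat_lit 587) (nat_lit 4) (nat_lit 179) (nat_lit 201) (nat_lit 190)) (PT.nd (nat_lit 78) (PT.lf (nat_lit 44536) (nat_lit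 6) (nat_lit 586) (nat_lit 4) (nat_lit 180) (nat_lit 201) (nat_lit 189)) (PT.lf (nat_lit 44460) (nat_lit 6) (nat_lit 585) (nat_lit 4) (nat_lit 181) (nat_lit 201) (nat_lit 188)))) (PT.nd (nat_lit 156) (PT.nd (nat_lit 78) (PT.lf (nat_lit 44384) (nat_lit 6) (nat_lit 584) (nat_lit 4) (nat_lit 182) (nat_lit 201) (nat_lit 187)) (PT.lf (nat_lit 44308) (nat_lit 6) (nat_lit 583) (nat_lit 4) (nat_lit 183) (nat_lit 201) (nat_lit 186))) (PT.nd (nat_lit 78) (PT.lf (nat_lit 44232) (nat_lit 6) (nat_lit 582) (nat_lit 4) (nat_lit 184) (nat_lit 201) (nat_lit 185)) (PT.lf (nat_lit 44232) (nat_lit 6) (nat_lit 582) (nat_lit 2) (nat_lit 185) (nat_lit 201) (nat_lit 184))))) (PT.nd (nat_lit 312) (PT.nd (nat_lit 156) (PT.nd (nat_lit 78) (PT.lf (nat_lit 44308) (nat_lit 6) (nat_lit 583) (nat_lit 2) (nat_lit 186) (nat_lit 201) (nat_lit 183)) (PT.lf (nat_lit 44384) (nat_lit 6) (nat_lit 584) (nat_lit 2) (nat_lit 187) (nat_lit 201) (nat_lit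 182))) (PT.nd (nat_lit 78) (PT.lf (nat_lit 44460) (nat_lit 6) (nat_lit 585) (nat_lit 2) (nat_lit 188) (nat_lit 201) (nat_lit 181)) (PT.lf (nat_lit 44536) (nat_lit 6) (nat_lit 586) (nat_lit 2) (nat_lit 189) (nat_lit 201) (nat_lit 180)))) (PT.nd (nat_lit 156) (PT.nd (nat_lit 78) (PT.lf (nat_lit 44612) (nat_lit 6) (nat_lit 587) (nat_lit 2) (nat_lit 190) (nat_lit 201) (nat_lit 179)) (PT.lf (nat_lit 43776) (nat_lit 6) (nat_lit 576) (nat_lit 2) (nat_lit 191) (nat_lit 201) (nat_lit 178))) (PT.nd (nat_lit 78) (PT.lf (nat_lit 42864) (nat_lit 6) (nat_lit 564) (nat_lit 2) (nat_lit 192) (nat_lit 201) (nat_lit 177)) (PT.lf (nat_lit 41876) (nat_lit 6) (nat_lit 551) (nat_lit 2) (nat_lit 193) (nat_lit 201) (nat_lit 176))))))))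
noncomputable def pc37 : PT := (PT.nd (nat_lit 56472) (PT.nd (nat_lit 1092) (PT.nd (nat_lit 546) (PT.nd (nat_lit 234) (PT.nd (nat_lit 78) (PT.lf (nat_lit 40812) (nat_lit 6) (nat_lit 537) (nat_lit 2) (nat_lit 194) (nat_lit 201) (nat_lit 175)) (PT.nd (nat_lit 78) (PT.lf (nat_lit 39672) (nat_lit 6) (nat_lit 522) (nat_lit 2) (nat_lit 195) (nat_lit 201) (nat_lit 174)) (PT.lf (nat_lit 38456) (nat_lit 6) (nat_lit 506) (nat_lit 2) (nat_lit 196) (nat_lit 201) (nat_lit 173)))) (PT.nd (nat_lit 156) (PT.nd (nat_lit 78) (PT.lf (nat_lit 37164) (nat_lit 6) (nat_lit 489) (nat_lit 2) (nat_lit 197) (nat_lit 201) (nat_lit 172)) (PT.lf (nat_lit 35796) (nat_lit 6) (nat_lit 471) (nat_lit 2) (nat_lit 198) (nat_lit 201) (nat_lit 171))) (PT.nd (nat_lit 78) (PT.lf (nat_lit 34352) (nat_lit 6) (nat_lit 452) (nat_lit 2) (nat_lit 199) (nat_lit 201) (nat_lit 170)) (PT.lf (nat_lit 32832) (nat_lit 6) (nat_lit 432) (nat_lit 2) (nat_lit 200)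 (nat_lit 201) (nat_lit 169))))) (PT.nd (nat_lit 234) (PT.nd (nat_lit 78) (PT.lf (nat_lit 31236) (nat_lit 3) (nat_lit 411) (nat_lit 0) (nat_lit 201) (nat_lit 201) (nat_lit 168)) (PT.nd (nat_lit 78) (PT.lf (nat_lit 29488) (nat_lit 6) (nat_lit 388) (nat_lit 0) (nat_lit 202) (nat_lit 201) (nat_lit 167)) (PT.lf (nat_lit 27664) (nat_lit 6) (nat_lit 364) (nat_lit 0) (nat_lit 203) (nat_lit 201) (nat_lit 166)))) (PT.nd (nat_lit 156) (PT.nd (nat_lit 78) (PT.lf (nat_lit 26676) (nat_lit 6) (nat_lit 351) (nat_lit 0) (nat_lit 204) (nat_lit 201) (nat_lit 165)) (PT.lf (nat_lit 25688) (nat_lit 6) (nat_lit 338) (nat_lit 0) (nat_lit 205) (nat_lit 201) (nat_lit 164))) (PT.nd (nat_lit 78) (PT.lf (nat_lit 24776) (nat_lit 6) (nat_lit 326) (nat_lit 0) (nat_lit 206) (nat_lit 201) (nat_lit 163)) (PT.lf (nat_lit 23864) (nat_lit 6) (nat_lit 314) (nat_lit 0) (nat_lit 207) (nat_lit 201) (nat_lit 162)))))) (PT.nd (nat_lit 546) (PT.nd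 (nat_lit 234) (PT.nd (nat_lit 78) (PT.lf (nat_lit 23028) (nat_lit 6) (nat_lit 303) (nat_lit 0) (nat_lit 208) (nat_lit 201) (nat_lit 161)) (PT.nd (nat_lit 78) (PT.lf (nat_lit 22192) (nat_lit 6) (nat_lit 292) (nat_lit 0) (nat_lit 209) (nat_lit 201) (nat_lit 160)) (PT.lf (nat_lit 21356) (nat_lit 6) (nat_lit 281) (nat_lit 0) (nat_lit 210) (nat_lit 201) (nat_lit 159)))) (PT.nd (nat_lit 156) (PT.nd (nat_lit 78) (PT.lf (nat_lit 20520) (nat_lit 6) (nat_lit 270) (nat_lit 0) (nat_lit 211) (nat_lit 201) (nat_lit 158)) (PT.lf (nat_lit 19760) (nat_lit 6) (nat_lit 260) (nat_lit 0) (nat_lit 212) (nat_lit 201) (nat_lit 157))) (PT.nd (nat_lit 78) (PT.lf (nat_lit 19000) (nat_lit 6) (nat_lit 250) (nat_lit 0) (nat_lit 213) (nat_lit 201) (nat_lit 156)) (PT.lf (nat_lit 18316) (nat_lit 6) (nat_lit 241) (nat_lit 0) (nat_lit 214) (nat_lit 201) (nat_lit 155))))) (PT.nd (nat_lit 54522) (PT.nd (nat_lit 54366) (PT.nd (nat_lit 78) (PT.lf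 (nat_lit 17556) (nat_lit 6) (nat_lit 231) (nat_lit 0) (nat_lit 215) (nat_lit 201) (nat_lit 154)) (PT.lf (nat_lit 16872) (nat_lit 6) (nat_lit 222) (nat_lit 0) (nat_lit 216) (nat_lit 201) (nat_lit 153))) (PT.nd (nat_lit 78) (PT.lf (nat_lit 15656) (nat_lit 6) (nat_lit 206) (nat_lit 5) (nat_lit 151) (nat_lit 202) (nat_lit 217)) (PT.lf (nat_lit 16264) (nat_lit 6) (nat_lit 214) (nat_lit 5) (nat_lit 152) (nat_lit 202) (nat_lit 216)))) (PT.nd (nat_lit 156) (PT.nd (nat_lit 78) (PT.lf (nat_lit 16948) (nat_lit 6) (nat_lit 223) (nat_lit 5) (nat_lit 153) (nat_lit 202) (nat_lit 215)) (PT.lf (nat_lit 17632) (nat_lit 6) (nat_lit 232) (nat_lit 5) (nat_lit 154) (nat_lit 202) (nat_lit 214))) (PT.nd (nat_lit 78) (PT.lf (nat_lit 18392) (nat_lit 6) (nat_lit 242) (nat_lit 5) (nat_lit 155) (nat_lit 202) (nat_lit 213)) (PT.lf (nat_lit 19076) (nat_lit 6) (nat_lit 251) (nat_lit 5) (nat_lit 156) (nat_lit 202) (nat_lit 212))))))) (PT.nd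 (nat_lit 1092) (PT.nd (nat_lit 546) (PT.nd (nat_lit 234) (PT.nd (nat_lit 78) (PT.lf (nat_lit 19836) (nat_lit 6) (nat_lit 261) (nat_lit 5) (nat_lit 157) (nat_lit 202) (nat_lit 211)) (PT.nd (nat_lit 78) (PT.lf (nat_lit 20596) (nat_lit 6) (nat_lit 271) (nat_lit 5) (nat_lit 158) (nat_lit 202) (nat_lit 210)) (PT.lf (nat_lit 21432) (nat_lit 6) (nat_lit 282) (nat_lit 5) (nat_lit 159) (nat_lit 202) (nat_lit 209)))) (PT.nd (nat_lit 156) (PT.nd (nat_lit 78) (PT.lf (nat_lit 22268) (nat_lit 6) (nat_lit 293) (nat_lit 5) (nat_lit 160) (nat_lit 202) (nat_lit 208)) (PT.lf (nat_lit 23104) (nat_lit 6) (nat_lit 304) (nat_lit 5) (nat_lit 161) (nat_lit 202) (nat_lit 207))) (PT.nd (nat_lit 78) (PT.lf (nat_lit 23940) (nat_lit 6) (nat_lit 315) (nat_lit 5) (nat_lit 162) (nat_lit 202) (nat_lit 206)) (PT.lf (nat_lit 24852) (nat_lit 6) (nat_lit 327) (nat_lit 5) (nat_lit 163) (nat_lit 202) (nat_lit 205))))) (PT.nd (nat_lit 234) (PT.nd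 (nat_lit 78) (PT.lf (nat_lit 25764) (nat_lit 6) (nat_lit 339) (nat_lit 5) (nat_lit 164) (nat_lit 202) (nat_lit 204)) (PT.nd (nat_lit 78) (PT.lf (nat_lit 26752) (nat_lit 6) (nat_lit 352) (nat_lit 5) (nat_lit 165) (nat_lit 202) (nat_lit 203)) (PT.lf (nat_lit 27740) (nat_lit 3) (nat_lit 365) (nat_lit 4) (nat_lit 166) (nat_lit 202) (nat_lit 202)))) (PT.nd (nat_lit 156) (PT.nd (nat_lit 78) (PT.lf (nat_lit 29488) (nat_lit 6) (nat_lit 388) (nat_lit 4) (nat_lit 167) (nat_lit 202) (nat_lit 201)) (PT.lf (nat_lit 31160) (nat_lit 6) (nat_lit 410) (nat_lit 4) (nat_lit 168) (nat_lit 202) (nat_lit 200))) (PT.nd (nat_lit 78) (PT.lf (nat_lit 32756) (nat_lit 6) (nat_lit 431) (nat_lit 4) (nat_lit 169) (nat_lit 202) (nat_lit 199)) (PT.lf (nat_lit 34276) (nat_lit 6) (nat_lit 451) (nat_lit 4) (nat_lit 170) (nat_lit 202) (nat_lit 198)))))) (PT.nd (nat_lit 546) (PT.nd (nat_lit 234) (PT.nd (nat_lit 78) (PT.lf (nat_lit 35720) (nat_lit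 6) (nat_lit 470) (nat_lit 4) (nat_lit 171) (nat_lit 202) (nat_lit 197)) (PT.nd (nat_lit 78) (PT.lf (nat_lit 37088) (nat_lit 6) (nat_lit 488) (nat_lit 4) (nat_lit 172) (nat_lit 202) (nat_lit 196)) (PT.lf (nat_lit 38380) (nat_lit 6) (nat_lit 505) (nat_lit 4) (nat_lit 173) (nat_lit 202) (nat_lit 195)))) (PT.nd (nat_lit 156) (PT.nd (nat_lit 78) (PT.lf (nat_lit 39596) (nat_lit 6) (nat_lit 521) (nat_lit 4) (nat_lit 174) (nat_lit 202) (nat_lit 194)) (PT.lf (nat_lit 40736) (nat_lit 6) (nat_lit 536) (nat_lit 4) (nat_lit 175) (nat_lit 202) (nat_lit 193))) (PT.nd (nat_lit 78) (PT.lf (nat_lit 41800) (nat_lit 6) (nat_lit 550) (nat_lit 4) (nat_lit 176) (nat_lit 202) (nat_lit 192)) (PT.lf (nat_lit 42788) (nat_lit 6) (nat_lit 563) (nat_lit 4) (nat_lit 177) (nat_lit 202) (nat_lit 191))))) (PT.nd (nat_lit 312) (PT.nd (nat_lit 156) (PT.nd (nat_lit 78) (PT.lf (nat_lit 43700) (nat_lit 6) (nat_lit 575) (nat_lit 4) (nat_lit 178)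 (nat_lit 202) (nat_lit 190)) (PT.lf (nat_lit 43624) (nat_lit 6) (nat_lit 574) (nat_lit 4) (nat_lit 179) (nat_lit 202) (nat_lit 189))) (PT.nd (nat_lit 78) (PT.lf (nat_lit 43548) (nat_lit 6) (nat_lit 573) (nat_lit 4) (nat_lit 180) (nat_lit 202) (nat_lit 188)) (PT.lf (nat_lit 43472) (nat_lit 6) (nat_lit 572) (nat_lit 4) (nat_lit 181) (nat_lit 202) (nat_lit 187)))) (PT.nd (nat_lit 156) (PT.nd (nat_lit 78) (PT.lf (nat_lit 43396) (nat_lit 6) (nat_lit 571) (nat_lit 4) (nat_lit 182) (nat_lit 202) (nat_lit 186)) (PT.lf (nat_lit 43320) (nat_lit 6) (nat_lit 570) (nat_lit 4) (nat_lit 183) (nat_lit 202) (nat_lit 185))) (PT.nd (nat_lit 78) (PT.lf (nat_lit 43244) (nat_lit 3) (nat_lit 569) (nat_lit 2) (nat_lit 184) (nat_lit 202) (nat_lit 184)) (PT.lf (nat_lit 43320) (nat_lit 6) (nat_lit 570) (nat_lit 2) (nat_lit 185) (nat_lit 202) (nat_lit 183))))))))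
noncomputable def pc38 : PT := (PT.nd (nat_lit 2262) (PT.nd (nat_lit 1092) (PT.nd (nat_lit 546) (PT.nd (nat_lit 234) (PT.nd (nat_lit 78) (PT.lf (nat_lit 43396) (nat_lit 6) (nat_lit 571) (nat_lit 2) (nat_lit 186) (nat_lit 202) (nat_lit 182)) (PT.nd (nat_lit 78) (PT.lf (nat_lit 43472) (nat_lit 6) (nat_lit 572) (nat_lit 2) (nat_lit 187) (nat_lit 202) (nat_lit 181)) (PT.lf (nat_lit 43548) (nat_lit 6) (nat_lit 573) (nat_lit 2) (nat_lit 188) (nat_lit 202) (nat_lit 180)))) (PT.nd (nat_lit 156) (PT.nd (nat_lit 78) (PT.lf (nat_lit 43624) (nat_lit 6) (nat_lit 574) (nat_lit 2) (nat_lit 189) (nat_lit 202) (nat_lit 179)) (PT.lf (nat_lit 43700) (nat_lit 6) (nat_lit 575) (nat_lit 2) (nat_lit 190) (nat_lit 202) (nat_lit 178))) (PT.nd (nat_lit 78) (PT.lf (nat_lit 42788) (nat_lit 6) (nat_lit 563) (nat_lit 2) (nat_lit 191) (nat_lit 202) (nat_lit 177)) (PT.lf (nat_lit 41800) (nat_lit 6) (nat_lit 550) (nat_lit 2) (nat_lit 192)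 (nat_lit 202) (nat_lit 176))))) (PT.nd (nat_lit 234) (PT.nd (nat_lit 78) (PT.lf (nat_lit 40736) (nat_lit 6) (nat_lit 536) (nat_lit 2) (nat_lit 193) (nat_lit 202) (nat_lit 175)) (PT.nd (nat_lit 78) (PT.lf (nat_lit 39596) (nat_lit 6) (nat_lit 521) (nat_lit 2) (nat_lit 194) (nat_lit 202) (nat_lit 174)) (PT.lf (nat_lit 38380) (nat_lit 6) (nat_lit 505) (nat_lit 2) (nat_lit 195) (nat_lit 202) (nat_lit 173)))) (PT.nd (nat_lit 156) (PT.nd (nat_lit 78) (PT.lf (nat_lit 37088) (nat_lit 6) (nat_lit 488) (nat_lit 2) (nat_lit 196) (nat_lit 202) (nat_lit 172)) (PT.lf (nat_lit 35720) (nat_lit 6) (nat_lit 470) (nat_lit 2) (nat_lit 197) (nat_lit 202) (nat_lit 171))) (PT.nd (nat_lit 78) (PT.lf (nat_lit 34276) (nat_lit 6) (nat_lit 451) (nat_lit 2) (nat_lit 198) (nat_lit 202) (nat_lit 170)) (PT.lf (nat_lit 32756) (nat_lit 6) (nat_lit 431) (nat_lit 2) (nat_lit 199) (nat_lit 202) (nat_lit 169)))))) (PT.nd (nat_lit 546) (PT.nd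 (nat_lit 234) (PT.nd (nat_lit 78) (PT.lf (nat_lit 31160) (nat_lit 6) (nat_lit 410) (nat_lit 2) (nat_lit 200) (nat_lit 202) (nat_lit 168)) (PT.nd (nat_lit 78) (PT.lf (nat_lit 29488) (nat_lit 6) (nat_lit 388) (nat_lit 2) (nat_lit 201) (nat_lit 202) (nat_lit 167)) (PT.lf (nat_lit 27740) (nat_lit 3) (nat_lit 365) (nat_lit 0) (nat_lit 202) (nat_lit 202) (nat_lit 166)))) (PT.nd (nat_lit 156) (PT.nd (nat_lit 78) (PT.lf (nat_lit 26752) (nat_lit 6) (nat_lit 352) (nat_lit 0) (nat_lit 203) (nat_lit 202) (nat_lit 165)) (PT.lf (nat_lit 25764) (nat_lit 6) (nat_lit 339) (nat_lit 0) (nat_lit 204) (nat_lit 202) (nat_lit 164))) (PT.nd (nat_lit 78) (PT.lf (nat_lit 24852) (nat_lit 6) (nat_lit 327) (nat_lit 0) (nat_lit 205) (nat_lit 202) (nat_lit 163)) (PT.lf (nat_lit 23940) (nat_lit 6) (nat_lit 315) (nat_lit 0) (nat_lit 206) (nat_lit 202) (nat_lit 162))))) (PT.nd (nat_lit 312) (PT.nd (nat_lit 156) (PT.nd (nat_lit 78) (PT.lf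 (nat_lit 23104) (nat_lit 6) (nat_lit 304) (nat_lit 0) (nat_lit 207) (nat_lit 202) (nat_lit 161)) (PT.lf (nat_lit 22268) (nat_lit 6) (nat_lit 293) (nat_lit 0) (nat_lit 208) (nat_lit 202) (nat_lit 160))) (PT.nd (nat_lit 78) (PT.lf (nat_lit 21432) (nat_lit 6) (nat_lit 282) (nat_lit 0) (nat_lit 209) (nat_lit 202) (nat_lit 159)) (PT.lf (nat_lit 20596) (nat_lit 6) (nat_lit 271) (nat_lit 0) (nat_lit 210) (nat_lit 202) (nat_lit 158)))) (PT.nd (nat_lit 156) (PT.nd (nat_lit 78) (PT.lf (nat_lit 19836) (nat_lit 6) (nat_lit 261) (nat_lit 0) (nat_lit 211) (nat_lit 202) (nat_lit 157)) (PT.lf (nat_lit 19076) (nat_lit 6) (nat_lit 251) (nat_lit 0) (nat_lit 212) (nat_lit 202) (nat_lit 156))) (PT.nd (nat_lit 78) (PT.lf (nat_lit 18392) (nat_lit 6) (nat_lit 242) (nat_lit 0) (nat_lit 213) (nat_lit 202) (nat_lit 155)) (PT.lf (nat_lit 17632) (nat_lit 6) (nat_lit 232) (nat_lit 0) (nat_lit 214) (nat_lit 202) (nat_lit 154))))))) (PT.nd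 (nat_lit 55146) (PT.nd (nat_lit 54600) (PT.nd (nat_lit 54288) (PT.nd (nat_lit 78) (PT.lf (nat_lit 16948) (nat_lit 6) (nat_lit 223) (nat_lit 0) (nat_lit 215) (nat_lit 202) (nat_lit 153)) (PT.nd (nat_lit 78) (PT.lf (nat_lit 16264) (nat_lit 6) (nat_lit 214) (nat_lit 0) (nat_lit 216) (nat_lit 202) (nat_lit 152)) (PT.lf (nat_lit 15656) (nat_lit 6) (nat_lit 206) (nat_lit 0) (nat_lit 217) (nat_lit 202) (nat_lit 151)))) (PT.nd (nat_lit 156) (PT.nd (nat_lit 78) (PT.lf (nat_lit 15048) (nat_lit 6) (nat_lit 198) (nat_lit 5) (nat_lit 150) (nat_lit 203) (nat_lit 217)) (PT.lf (nat_lit 15732) (nat_lit 6) (nat_lit 207) (nat_lit 5) (nat_lit 151) (nat_lit 203) (nat_lit 216))) (PT.nd (nat_lit 78) (PT.lf (nat_lit 16340) (nat_lit 6) (nat_lit 215) (nat_lit 5) (nat_lit 152) (nat_lit 203) (nat_lit 215)) (PT.lf (nat_lit 17024) (nat_lit 6) (nat_lit 224) (nat_lit 5) (nat_lit 153) (nat_lit 203) (nat_lit 214))))) (PT.nd (nat_lit 234)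 (PT.nd (nat_lit 78) (PT.lf (nat_lit 17708) (nat_lit 6) (nat_lit 233) (nat_lit 5) (nat_lit 154) (nat_lit 203) (nat_lit 213)) (PT.nd (nat_lit 78) (PT.lf (nat_lit 18468) (nat_lit 6) (nat_lit 243) (nat_lit 5) (nat_lit 155) (nat_lit 203) (nat_lit 212)) (PT.lf (nat_lit 19152) (nat_lit 6) (nat_lit 252) (nat_lit 5) (nat_lit 156) (nat_lit 203) (nat_lit 211)))) (PT.nd (nat_lit 156) (PT.nd (nat_lit 78) (PT.lf (nat_lit 19912) (nat_lit 6) (nat_lit 262) (nat_lit 5) (nat_lit 157) (nat_lit 203) (nat_lit 210)) (PT.lf (nat_lit 20672) (nat_lit 6) (nat_lit 272) (nat_lit 5) (nat_lit 158) (nat_lit 203) (nat_lit 209))) (PT.nd (nat_lit 78) (PT.lf (nat_lit 21508) (nat_lit 6) (nat_lit 283) (nat_lit 5) (nat_lit 159) (nat_lit 203) (nat_lit 208)) (PT.lf (nat_lit 22344) (nat_lit 6) (nat_lit 294) (nat_lit 5) (nat_lit 160) (nat_lit 203) (nat_lit 207)))))) (PT.nd (nat_lit 546) (PT.nd (nat_lit 234) (PT.nd (nat_lit 78) (PT.lf (nat_lit 23180)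 (nat_lit 6) (nat_lit 305) (nat_lit 5) (nat_lit 161) (nat_lit 203) (nat_lit 206)) (PT.nd (nat_lit 78) (PT.lf (nat_lit 24016) (nat_lit 6) (nat_lit 316) (nat_lit 5) (nat_lit 162) (nat_lit 203) (nat_lit 205)) (PT.lf (nat_lit 24928) (nat_lit 6) (nat_lit 328) (nat_lit 5) (nat_lit 163) (nat_lit 203) (nat_lit 204)))) (PT.nd (nat_lit 156) (PT.nd (nat_lit 78) (PT.lf (nat_lit 25840) (nat_lit 3) (nat_lit 340) (nat_lit 4) (nat_lit 164) (nat_lit 203) (nat_lit 203)) (PT.lf (nat_lit 26752) (nat_lit 6) (nat_lit 352) (nat_lit 4) (nat_lit 165) (nat_lit 203) (nat_lit 202))) (PT.nd (nat_lit 78) (PT.lf (nat_lit 27664) (nat_lit 6) (nat_lit 364) (nat_lit 4) (nat_lit 166) (nat_lit 203) (nat_lit 201)) (PT.lf (nat_lit 29412) (nat_lit 6) (nat_lit 387) (nat_lit 4) (nat_lit 167) (nat_lit 203) (nat_lit 200))))) (PT.nd (nat_lit 312) (PT.nd (nat_lit 156) (PT.nd (nat_lit 78) (PT.lf (nat_lit 31084) (nat_lit 6) (nat_lit 409) (nat_lit 4) (nat_lit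 168) (nat_lit 203) (nat_lit 199)) (PT.lf (nat_lit 32680) (nat_lit 6) (nat_lit 430) (nat_lit 4) (nat_lit 169) (nat_lit 203) (nat_lit 198))) (PT.nd (nat_lit 78) (PT.lf (nat_lit 34200) (nat_lit 6) (nat_lit 450) (nat_lit 4) (nat_lit 170) (nat_lit 203) (nat_lit 197)) (PT.lf (nat_lit 35644) (nat_lit 6) (nat_lit 469) (nat_lit 4) (nat_lit 171) (nat_lit 203) (nat_lit 196)))) (PT.nd (nat_lit 156) (PT.nd (nat_lit 78) (PT.lf (nat_lit 37012) (nat_lit 6) (nat_lit 487) (nat_lit 4) (nat_lit 172) (nat_lit 203) (nat_lit 195)) (PT.lf (nat_lit 38304) (nat_lit 6) (nat_lit 504) (nat_lit 4) (nat_lit 173) (nat_lit 203) (nat_lit 194))) (PT.nd (nat_lit 78) (PT.lf (nat_lit 39520) (nat_lit 6) (nat_lit 520) (nat_lit 4) (nat_lit 174) (nat_lit 203) (nat_lit 193)) (PT.lf (nat_lit 40660) (nat_lit 6) (nat_lit 535) (nat_lit 4) (nat_lit 175) (nat_lit 203) (nat_lit 192))))))))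
noncomputable def pc39 : PT := (PT.nd (nat_lit 2262) (PT.nd (nat_lit 1092) (PT.nd (nat_lit 546) (PT.nd (nat_lit 234) (PT.nd (nat_lit 78) (PT.lf (nat_lit 41724) (nat_lit 6) (nat_lit 549) (nat_lit 4) (nat_lit 176) (nat_lit 203) (nat_lit 191)) (PT.nd (nat_lit 78) (PT.lf (nat_lit 42712) (nat_lit 6) (nat_lit 562) (nat_lit 4) (nat_lit 177) (nat_lit 203) (nat_lit 190)) (PT.lf (nat_lit 42636) (nat_lit 6) (nat_lit 561) (nat_lit 4) (nat_lit 178) (nat_lit 203) (nat_lit 189)))) (PT.nd (nat_lit 156) (PT.nd (nat_lit 78) (PT.lf (nat_lit 42560) (nat_lit 6) (nat_lit 560) (nat_lit 4) (nat_lit 179) (nat_lit 203) (nat_lit 188)) (PT.lf (nat_lit 42484) (nat_lit 6) (nat_lit 559) (nat_lit 4) (nat_lit 180) (nat_lit 203) (nat_lit 187))) (PT.nd (nat_lit 78) (PT.lf (nat_lit 42408) (nat_lit 6) (nat_lit 558) (nat_lit 4) (nat_lit 181) (nat_lit 203) (nat_lit 186)) (PT.lf (nat_lit 42332) (nat_lit 6) (nat_lit 557) (nat_lit 4) (nat_lit 182)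 (nat_lit 203) (nat_lit 185))))) (PT.nd (nat_lit 234) (PT.nd (nat_lit 78) (PT.lf (nat_lit 42256) (nat_lit 6) (nat_lit 556) (nat_lit 4) (nat_lit 183) (nat_lit 203) (nat_lit 184)) (PT.nd (nat_lit 78) (PT.lf (nat_lit 42256) (nat_lit 6) (nat_lit 556) (nat_lit 2) (nat_lit 184) (nat_lit 203) (nat_lit 183)) (PT.lf (nat_lit 42332) (nat_lit 6) (nat_lit 557) (nat_lit 2) (nat_lit 185) (nat_lit 203) (nat_lit 182)))) (PT.nd (nat_lit 156) (PT.nd (nat_lit 78) (PT.lf (nat_lit 42408) (nat_lit 6) (nat_lit 558) (nat_lit 2) (nat_lit 186) (nat_lit 203) (nat_lit 181)) (PT.lf (nat_lit 42484) (nat_lit 6) (nat_lit 559) (nat_lit 2) (nat_lit 187) (nat_lit 203) (nat_lit 180))) (PT.nd (nat_lit 78) (PT.lf (nat_lit 42560) (nat_lit 6) (nat_lit 560) (nat_lit 2) (nat_lit 188) (nat_lit 203) (nat_lit 179)) (PT.lf (nat_lit 42636) (nat_lit 6) (nat_lit 561) (nat_lit 2) (nat_lit 189) (nat_lit 203) (nat_lit 178)))))) (PT.nd (nat_lit 546) (PT.nd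 (nat_lit 234) (PT.nd (nat_lit 78) (PT.lf (nat_lit 42712) (nat_lit 6) (nat_lit 562) (nat_lit 2) (nat_lit 190) (nat_lit 203) (nat_lit 177)) (PT.nd (nat_lit 78) (PT.lf (nat_lit 41724) (nat_lit 6) (nat_lit 549) (nat_lit 2) (nat_lit 191) (nat_lit 203) (nat_lit 176)) (PT.lf (nat_lit 40660) (nat_lit 6) (nat_lit 535) (nat_lit 2) (nat_lit 192) (nat_lit 203) (nat_lit 175)))) (PT.nd (nat_lit 156) (PT.nd (nat_lit 78) (PT.lf (nat_lit 39520) (nat_lit 6) (nat_lit 520) (nat_lit 2) (nat_lit 193) (nat_lit 203) (nat_lit 174)) (PT.lf (nat_lit 38304) (nat_lit 6) (nat_lit 504) (nat_lit 2) (nat_lit 194) (nat_lit 203) (nat_lit 173))) (PT.nd (nat_lit 78) (PT.lf (nat_lit 37012) (nat_lit 6) (nat_lit 487) (nat_lit 2) (nat_lit 195) (nat_lit 203) (nat_lit 172)) (PT.lf (nat_lit 35644) (nat_lit 6) (nat_lit 469) (nat_lit 2) (nat_lit 196) (nat_lit 203) (nat_lit 171))))) (PT.nd (nat_lit 312) (PT.nd (nat_lit 156) (PT.nd (nat_lit 78) (PT.lf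 (nat_lit 34200) (nat_lit 6) (nat_lit 450) (nat_lit 2) (nat_lit 197) (nat_lit 203) (nat_lit 170)) (PT.lf (nat_lit 32680) (nat_lit 6) (nat_lit 430) (nat_lit 2) (nat_lit 198) (nat_lit 203) (nat_lit 169))) (PT.nd (nat_lit 78) (PT.lf (nat_lit 31084) (nat_lit 6) (nat_lit 409) (nat_lit 2) (nat_lit 199) (nat_lit 203) (nat_lit 168)) (PT.lf (nat_lit 29412) (nat_lit 6) (nat_lit 387) (nat_lit 2) (nat_lit 200) (nat_lit 203) (nat_lit 167)))) (PT.nd (nat_lit 156) (PT.nd (nat_lit 78) (PT.lf (nat_lit 27664) (nat_lit 6) (nat_lit 364) (nat_lit 2) (nat_lit 201) (nat_lit 203) (nat_lit 166)) (PT.lf (nat_lit 26752) (nat_lit 6) (nat_lit 352) (nat_lit 2) (nat_lit 202) (nat_lit 203) (nat_lit 165))) (PT.nd (nat_lit 78) (PT.lf (nat_lit 25840) (nat_lit 3) (nat_lit 340) (nat_lit 0) (nat_lit 203) (nat_lit 203) (nat_lit 164)) (PT.lf (nat_lit 24928) (nat_lit 6) (nat_lit 328) (nat_lit 0) (nat_lit 204) (nat_lit 203) (nat_lit 163))))))) (PT.nd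 (nat_lit 55068) (PT.nd (nat_lit 546) (PT.nd (nat_lit 234) (PT.nd (nat_lit 78) (PT.lf (nat_lit 24016) (nat_lit 6) (nat_lit 316) (nat_lit 0) (nat_lit 205) (nat_lit 203) (nat_lit 162)) (PT.nd (nat_lit 78) (PT.lf (nat_lit 23180) (nat_lit 6) (nat_lit 305) (nat_lit 0) (nat_lit 206) (nat_lit 203) (nat_lit 161)) (PT.lf (nat_lit 22344) (nat_lit 6) (nat_lit 294) (nat_lit 0) (nat_lit 207) (nat_lit 203) (nat_lit 160)))) (PT.nd (nat_lit 156) (PT.nd (nat_lit 78) (PT.lf (nat_lit 21508) (nat_lit 6) (nat_lit 283) (nat_lit 0) (nat_lit 208) (nat_lit 203) (nat_lit 159)) (PT.lf (nat_lit 20672) (nat_lit 6) (nat_lit 272) (nat_lit 0) (nat_lit 209) (nat_lit 203) (nat_lit 158))) (PT.nd (nat_lit 78) (PT.lf (nat_lit 19912) (nat_lit 6) (nat_lit 262) (nat_lit 0) (nat_lit 210) (nat_lit 203) (nat_lit 157)) (PT.lf (nat_lit 19152) (nat_lit 6) (nat_lit 252) (nat_lit 0) (nat_lit 211) (nat_lit 203) (nat_lit 156))))) (PT.nd (nat_lit 234) (PT.nd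 (nat_lit 78) (PT.lf (nat_lit 18468) (nat_lit 6) (nat_lit 243) (nat_lit 0) (nat_lit 212) (nat_lit 203) (nat_lit 155)) (PT.nd (nat_lit 78) (PT.lf (nat_lit 17708) (nat_lit 6) (nat_lit 233) (nat_lit 0) (nat_lit 213) (nat_lit 203) (nat_lit 154)) (PT.lf (nat_lit 17024) (nat_lit 6) (nat_lit 224) (nat_lit 0) (nat_lit 214) (nat_lit 203) (nat_lit 153)))) (PT.nd (nat_lit 156) (PT.nd (nat_lit 78) (PT.lf (nat_lit 16340) (nat_lit 6) (nat_lit 215) (nat_lit 0) (nat_lit 215) (nat_lit 203) (nat_lit 152)) (PT.lf (nat_lit 15732) (nat_lit 6) (nat_lit 207) (nat_lit 0) (nat_lit 216) (nat_lit 203) (nat_lit 151))) (PT.nd (nat_lit 54054) (PT.lf (nat_lit 15048) (nat_lit 6) (nat_lit 198) (nat_lit 0) (nat_lit 217) (nat_lit 203) (nat_lit 150)) (PT.lf (nat_lit 14516) (nat_lit 6) (nat_lit 191) (nat_lit 5) (nat_lit 149) (nat_lit 204) (nat_lit 217)))))) (PT.nd (nat_lit 546) (PT.nd (nat_lit 234) (PT.nd (nat_lit 78) (PT.lf (nat_lit 15124)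 (nat_lit 6) (nat_lit 199) (nat_lit 5) (nat_lit 150) (nat_lit 204) (nat_lit 216)) (PT.nd (nat_lit 78) (PT.lf (nat_lit 15808) (nat_lit 6) (nat_lit 208) (nat_lit 5) (nat_lit 151) (nat_lit 204) (nat_lit 215)) (PT.lf (nat_lit 16416) (nat_lit 6) (nat_lit 216) (nat_lit 5) (nat_lit 152) (nat_lit 204) (nat_lit 214)))) (PT.nd (nat_lit 156) (PT.nd (nat_lit 78) (PT.lf (nat_lit 17100) (nat_lit 6) (nat_lit 225) (nat_lit 5) (nat_lit 153) (nat_lit 204) (nat_lit 213)) (PT.lf (nat_lit 17784) (nat_lit 6) (nat_lit 234) (nat_lit 5) (nat_lit 154) (nat_lit 204) (nat_lit 212))) (PT.nd (nat_lit 78) (PT.lf (nat_lit 18544) (nat_lit 6) (nat_lit 244) (nat_lit 5) (nat_lit 155) (nat_lit 204) (nat_lit 211)) (PT.lf (nat_lit 19228) (nat_lit 6) (nat_lit 253) (nat_lit 5) (nat_lit 156) (nat_lit 204) (nat_lit 210))))) (PT.nd (nat_lit 312) (PT.nd (nat_lit 156) (PT.nd (nat_lit 78) (PT.lf (nat_lit 19988) (nat_lit 6) (nat_lit 263) (nat_lit 5) (nat_lit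 157) (nat_lit 204) (nat_lit 209)) (PT.lf (nat_lit 20748) (nat_lit 6) (nat_lit 273) (nat_lit 5) (nat_lit 158) (nat_lit 204) (nat_lit 208))) (PT.nd (nat_lit 78) (PT.lf (nat_lit 21584) (nat_lit 6) (nat_lit 284) (nat_lit 5) (nat_lit 159) (nat_lit 204) (nat_lit 207)) (PT.lf (nat_lit 22420) (nat_lit 6) (nat_lit 295) (nat_lit 5) (nat_lit 160) (nat_lit 204) (nat_lit 206)))) (PT.nd (nat_lit 156) (PT.nd (nat_lit 78) (PT.lf (nat_lit 23256) (nat_lit 6) (nat_lit 306) (nat_lit 5) (nat_lit 161) (nat_lit 204) (nat_lit 205)) (PT.lf (nat_lit 24092) (nat_lit 3) (nat_lit 317) (nat_lit 4) (nat_lit 162) (nat_lit 204) (nat_lit 204))) (PT.nd (nat_lit 78) (PT.lf (nat_lit 24928) (nat_lit 6) (nat_lit 328) (nat_lit 4) (nat_lit 163) (nat_lit 204) (nat_lit 203)) (PT.lf (nat_lit 25764) (nat_lit 6) (nat_lit 339) (nat_lit 4) (nat_lit 164) (nat_lit 204) (nat_lit 202))))))))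
noncomputable def pc40 : PT := (PT.nd (nat_lit 2184) (PT.nd (nat_lit 1092) (PT.nd (nat_lit 546) (PT.nd (nat_lit 234) (PT.nd (nat_lit 78) (PT.lf (nat_lit 26676) (nat_lit 6) (nat_lit 351) (nat_lit 4) (nat_lit 165) (nat_lit 204) (nat_lit 201)) (PT.nd (nat_lit 78) (PT.lf (nat_lit 27588) (nat_lit 6) (nat_lit 363) (nat_lit 4) (nat_lit 166) (nat_lit 204) (nat_lit 200)) (PT.lf (nat_lit 29336) (nat_lit 6) (nat_lit 386) (nat_lit 4) (nat_lit 167) (nat_lit 204) (nat_lit 199)))) (PT.nd (nat_lit 156) (PT.nd (nat_lit 78) (PT.lf (nat_lit 31008) (nat_lit 6) (nat_lit 408) (nat_lit 4) (nat_lit 168) (nat_lit 204) (nat_lit 198)) (PT.lf (nat_lit 32604) (nat_lit 6) (nat_lit 429) (nat_lit 4) (nat_lit 169) (nat_lit 204) (nat_lit 197))) (PT.nd (nat_lit 78) (PT.lf (nat_lit 34124) (nat_lit 6) (nat_lit 449) (nat_lit 4) (nat_lit 170) (nat_lit 204) (nat_lit 196)) (PT.lf (nat_lit 35568) (nat_lit 6) (nat_lit 468) (nat_lit 4) (nat_lit 171)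 (nat_lit 204) (nat_lit 195))))) (PT.nd (nat_lit 234) (PT.nd (nat_lit 78) (PT.lf (nat_lit 36936) (nat_lit 6) (nat_lit 486) (nat_lit 4) (nat_lit 172) (nat_lit 204) (nat_lit 194)) (PT.nd (nat_lit 78) (PT.lf (nat_lit 38228) (nat_lit 6) (nat_lit 503) (nat_lit 4) (nat_lit 173) (nat_lit 204) (nat_lit 193)) (PT.lf (nat_lit 39444) (nat_lit 6) (nat_lit 519) (nat_lit 4) (nat_lit 174) (nat_lit 204) (nat_lit 192)))) (PT.nd (nat_lit 156) (PT.nd (nat_lit 78) (PT.lf (nat_lit 40584) (nat_lit 6) (nat_lit 534) (nat_lit 4) (nat_lit 175) (nat_lit 204) (nat_lit 191)) (PT.lf (nat_lit 41648) (nat_lit 6) (nat_lit 548) (nat_lit 4) (nat_lit 176) (nat_lit 204) (nat_lit 190))) (PT.nd (nat_lit 78) (PT.lf (nat_lit 41572) (nat_lit 6) (nat_lit 547) (nat_lit 4) (nat_lit 177) (nat_lit 204) (nat_lit 189)) (PT.lf (nat_lit 41496) (nat_lit 6) (nat_lit 546) (nat_lit 4) (nat_lit 178) (nat_lit 204) (nat_lit 188)))))) (PT.nd (nat_lit 546) (PT.nd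 (nat_lit 234) (PT.nd (nat_lit 78) (PT.lf (nat_lit 41420) (nat_lit 6) (nat_lit 545) (nat_lit 4) (nat_lit 179) (nat_lit 204) (nat_lit 187)) (PT.nd (nat_lit 78) (PT.lf (nat_lit 41344) (nat_lit 6) (nat_lit 544) (nat_lit 4) (nat_lit 180) (nat_lit 204) (nat_lit 186)) (PT.lf (nat_lit 41268) (nat_lit 6) (nat_lit 543) (nat_lit 4) (nat_lit 181) (nat_lit 204) (nat_lit 185)))) (PT.nd (nat_lit 156) (PT.nd (nat_lit 78) (PT.lf (nat_lit 41192) (nat_lit 6) (nat_lit 542) (nat_lit 4) (nat_lit 182) (nat_lit 204) (nat_lit 184)) (PT.lf (nat_lit 41116) (nat_lit 3) (nat_lit 541) (nat_lit 2) (nat_lit 183) (nat_lit 204) (nat_lit 183))) (PT.nd (nat_lit 78) (PT.lf (nat_lit 41192) (nat_lit 6) (nat_lit 542) (nat_lit 2) (nat_lit 184) (nat_lit 204) (nat_lit 182)) (PT.lf (nat_lit 41268) (nat_lit 6) (nat_lit 543) (nat_lit 2) (nat_lit 185) (nat_lit 204) (nat_lit 181))))) (PT.nd (nat_lit 234) (PT.nd (nat_lit 78) (PT.lf (nat_lit 41344) (nat_lit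 6) (nat_lit 544) (nat_lit 2) (nat_lit 186) (nat_lit 204) (nat_lit 180)) (PT.nd (nat_lit 78) (PT.lf (nat_lit 41420) (nat_lit 6) (nat_lit 545) (nat_lit 2) (nat_lit 187) (nat_lit 204) (nat_lit 179)) (PT.lf (nat_lit 41496) (nat_lit 6) (nat_lit 546) (nat_lit 2) (nat_lit 188) (nat_lit 204) (nat_lit 178)))) (PT.nd (nat_lit 156) (PT.nd (nat_lit 78) (PT.lf (nat_lit 41572) (nat_lit 6) (nat_lit 547) (nat_lit 2) (nat_lit 189) (nat_lit 204) (nat_lit 177)) (PT.lf (nat_lit 41648) (nat_lit 6) (nat_lit 548) (nat_lit 2) (nat_lit 190) (nat_lit 204) (nat_lit 176))) (PT.nd (nat_lit 78) (PT.lf (nat_lit 40584) (nat_lit 6) (nat_lit 534) (nat_lit 2) (nat_lit 191) (nat_lit 204) (nat_lit 175)) (PT.lf (nat_lit 39444) (nat_lit 6) (nat_lit 519) (nat_lit 2) (nat_lit 192) (nat_lit 204) (nat_lit 174))))))) (PT.nd (nat_lit 1092) (PT.nd (nat_lit 546) (PT.nd (nat_lit 234) (PT.nd (nat_lit 78) (PT.lf (nat_lit 38228) (nat_lit 6) (nat_lit 503)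 (nat_lit 2) (nat_lit 193) (nat_lit 204) (nat_lit 173)) (PT.nd (nat_lit 78) (PT.lf (nat_lit 36936) (nat_lit 6) (nat_lit 486) (nat_lit 2) (nat_lit 194) (nat_lit 204) (nat_lit 172)) (PT.lf (nat_lit 35568) (nat_lit 6) (nat_lit 468) (nat_lit 2) (nat_lit 195) (nat_lit 204) (nat_lit 171)))) (PT.nd (nat_lit 156) (PT.nd (nat_lit 78) (PT.lf (nat_lit 34124) (nat_lit 6) (nat_lit 449) (nat_lit 2) (nat_lit 196) (nat_lit 204) (nat_lit 170)) (PT.lf (nat_lit 32604) (nat_lit 6) (nat_lit 429) (nat_lit 2) (nat_lit 197) (nat_lit 204) (nat_lit 169))) (PT.nd (nat_lit 78) (PT.lf (nat_lit 31008) (nat_lit 6) (nat_lit 408) (nat_lit 2) (nat_lit 198) (nat_lit 204) (nat_lit 168)) (PT.lf (nat_lit 29336) (nat_lit 6) (nat_lit 386) (nat_lit 2) (nat_lit 199) (nat_lit 204) (nat_lit 167))))) (PT.nd (nat_lit 234) (PT.nd (nat_lit 78) (PT.lf (nat_lit 27588) (nat_lit 6) (nat_lit 363) (nat_lit 2) (nat_lit 200) (nat_lit 204) (nat_lit 166)) (PT.nd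 (nat_lit 78) (PT.lf (nat_lit 26676) (nat_lit 6) (nat_lit 351) (nat_lit 2) (nat_lit 201) (nat_lit 204) (nat_lit 165)) (PT.lf (nat_lit 25764) (nat_lit 6) (nat_lit 339) (nat_lit 2) (nat_lit 202) (nat_lit 204) (nat_lit 164)))) (PT.nd (nat_lit 156) (PT.nd (nat_lit 78) (PT.lf (nat_lit 24928) (nat_lit 6) (nat_lit 328) (nat_lit 2) (nat_lit 203) (nat_lit 204) (nat_lit 163)) (PT.lf (nat_lit 24092) (nat_lit 3) (nat_lit 317) (nat_lit 0) (nat_lit 204) (nat_lit 204) (nat_lit 162))) (PT.nd (nat_lit 78) (PT.lf (nat_lit 23256) (nat_lit 6) (nat_lit 306) (nat_lit 0) (nat_lit 205) (nat_lit 204) (nat_lit 161)) (PT.lf (nat_lit 22420) (nat_lit 6) (nat_lit 295) (nat_lit 0) (nat_lit 206) (nat_lit 204) (nat_lit 160)))))) (PT.nd (nat_lit 546) (PT.nd (nat_lit 234) (PT.nd (nat_lit 78) (PT.lf (nat_lit 21584) (nat_lit 6) (nat_lit 284) (nat_lit 0) (nat_lit 207) (nat_lit 204) (nat_lit 159)) (PT.nd (nat_lit 78) (PT.lf (nat_lit 20748) (nat_lit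 6) (nat_lit 273) (nat_lit 0) (nat_lit 208) (nat_lit 204) (nat_lit 158)) (PT.lf (nat_lit 19988) (nat_lit 6) (nat_lit 263) (nat_lit 0) (nat_lit 209) (nat_lit 204) (nat_lit 157)))) (PT.nd (nat_lit 156) (PT.nd (nat_lit 78) (PT.lf (nat_lit 19228) (nat_lit 6) (nat_lit 253) (nat_lit 0) (nat_lit 210) (nat_lit 204) (nat_lit 156)) (PT.lf (nat_lit 18544) (nat_lit 6) (nat_lit 244) (nat_lit 0) (nat_lit 211) (nat_lit 204) (nat_lit 155))) (PT.nd (nat_lit 78) (PT.lf (nat_lit 17784) (nat_lit 6) (nat_lit 234) (nat_lit 0) (nat_lit 212) (nat_lit 204) (nat_lit 154)) (PT.lf (nat_lit 17100) (nat_lit 6) (nat_lit 225) (nat_lit 0) (nat_lit 213) (nat_lit 204) (nat_lit 153))))) (PT.nd (nat_lit 54132) (PT.nd (nat_lit 156) (PT.nd (nat_lit 78) (PT.lf (nat_lit 16416) (nat_lit 6) (nat_lit 216) (nat_lit 0) (nat_lit 214) (nat_lit 204) (nat_lit 152)) (PT.lf (nat_lit 15808) (nat_lit 6) (nat_lit 208) (nat_lit 0) (nat_lit 215) (nat_lit 204) (nat_lit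 151))) (PT.nd (nat_lit 78) (PT.lf (nat_lit 15124) (nat_lit 6) (nat_lit 199) (nat_lit 0) (nat_lit 216) (nat_lit 204) (nat_lit 150)) (PT.lf (nat_lit 14516) (nat_lit 6) (nat_lit 191) (nat_lit 0) (nat_lit 217) (nat_lit 204) (nat_lit 149)))) (PT.nd (nat_lit 156) (PT.nd (nat_lit 78) (PT.lf (nat_lit 13376) (nat_lit 6) (nat_lit 176) (nat_lit 5) (nat_lit 147) (nat_lit 205) (nat_lit 218)) (PT.lf (nat_lit 13984) (nat_lit 6) (nat_lit 184) (nat_lit 5) (nat_lit 148) (nat_lit 205) (nat_lit 217))) (PT.nd (nat_lit 78) (PT.lf (nat_lit 14592) (nat_lit 6) (nat_lit 192) (nat_lit 5) (nat_lit 149) (nat_lit 205) (nat_lit 216)) (PT.lf (nat_lit 15200) (nat_lit 6) (nat_lit 200) (nat_lit 5) (nat_lit 150) (nat_lit 205) (nat_lit 215))))))))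
noncomputable def pc41 : PT := (PT.nd (nat_lit 2262) (PT.nd (nat_lit 1092) (PT.nd (nat_lit 546) (PT.nd (nat_lit 234) (PT.nd (nat_lit 78) (PT.lf (nat_lit 15884) (nat_lit 6) (nat_lit 209) (nat_lit 5) (nat_lit 151) (nat_lit 205) (nat_lit 214)) (PT.nd (nat_lit 78) (PT.lf (nat_lit 16492) (nat_lit 6) (nat_lit 217) (nat_lit 5) (nat_lit 152) (nat_lit 205) (nat_lit 213)) (PT.lf (nat_lit 17176) (nat_lit 6) (nat_lit 226) (nat_lit 5) (nat_lit 153) (nat_lit 205) (nat_lit 212)))) (PT.nd (nat_lit 156) (PT.nd (nat_lit 78) (PT.lf (nat_lit 17860) (nat_lit 6) (nat_lit 235) (nat_lit 5) (nat_lit 154) (nat_lit 205) (nat_lit 211)) (PT.lf (nat_lit 18620) (nat_lit 6) (nat_lit 245) (nat_lit 5) (nat_lit 155) (nat_lit 205) (nat_lit 210))) (PT.nd (nat_lit 78) (PT.lf (nat_lit 19304) (nat_lit 6) (nat_lit 254) (nat_lit 5) (nat_lit 156) (nat_lit 205) (nat_lit 209)) (PT.lf (nat_lit 20064) (nat_lit 6) (nat_lit 264) (nat_lit 5) (nat_lit 157)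 (nat_lit 205) (nat_lit 208))))) (PT.nd (nat_lit 234) (PT.nd (nat_lit 78) (PT.lf (nat_lit 20824) (nat_lit 6) (nat_lit 274) (nat_lit 5) (nat_lit 158) (nat_lit 205) (nat_lit 207)) (PT.nd (nat_lit 78) (PT.lf (nat_lit 21660) (nat_lit 6) (nat_lit 285) (nat_lit 5) (nat_lit 159) (nat_lit 205) (nat_lit 206)) (PT.lf (nat_lit 22496) (nat_lit 3) (nat_lit 296) (nat_lit 4) (nat_lit 160) (nat_lit 205) (nat_lit 205)))) (PT.nd (nat_lit 156) (PT.nd (nat_lit 78) (PT.lf (nat_lit 23256) (nat_lit 6) (nat_lit 306) (nat_lit 4) (nat_lit 161) (nat_lit 205) (nat_lit 204)) (PT.lf (nat_lit 24016) (nat_lit 6) (nat_lit 316) (nat_lit 4) (nat_lit 162) (nat_lit 205) (nat_lit 203))) (PT.nd (nat_lit 78) (PT.lf (nat_lit 24852) (nat_lit 6) (nat_lit 327) (nat_lit 4) (nat_lit 163) (nat_lit 205) (nat_lit 202)) (PT.lf (nat_lit 25688) (nat_lit 6) (nat_lit 338) (nat_lit 4) (nat_lit 164) (nat_lit 205) (nat_lit 201)))))) (PT.nd (nat_lit 546) (PT.nd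 (nat_lit 234) (PT.nd (nat_lit 78) (PT.lf (nat_lit 26600) (nat_lit 6) (nat_lit 350) (nat_lit 4) (nat_lit 165) (nat_lit 205) (nat_lit 200)) (PT.nd (nat_lit 78) (PT.lf (nat_lit 27512) (nat_lit 6) (nat_lit 362) (nat_lit 4) (nat_lit 166) (nat_lit 205) (nat_lit 199)) (PT.lf (nat_lit 29260) (nat_lit 6) (nat_lit 385) (nat_lit 4) (nat_lit 167) (nat_lit 205) (nat_lit 198)))) (PT.nd (nat_lit 156) (PT.nd (nat_lit 78) (PT.lf (nat_lit 30932) (nat_lit 6) (nat_lit 407) (nat_lit 4) (nat_lit 168) (nat_lit 205) (nat_lit 197)) (PT.lf (nat_lit 32528) (nat_lit 6) (nat_lit 428) (nat_lit 4) (nat_lit 169) (nat_lit 205) (nat_lit 196))) (PT.nd (nat_lit 78) (PT.lf (nat_lit 34048) (nat_lit 6) (nat_lit 448) (nat_lit 4) (nat_lit 170) (nat_lit 205) (nat_lit 195)) (PT.lf (nat_lit 35492) (nat_lit 6) (nat_lit 467) (nat_lit 4) (nat_lit 171) (nat_lit 205) (nat_lit 194))))) (PT.nd (nat_lit 312) (PT.nd (nat_lit 156) (PT.nd (nat_lit 78) (PT.lf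 (nat_lit 36860) (nat_lit 6) (nat_lit 485) (nat_lit 4) (nat_lit 172) (nat_lit 205) (nat_lit 193)) (PT.lf (nat_lit 38152) (nat_lit 6) (nat_lit 502) (nat_lit 4) (nat_lit 173) (nat_lit 205) (nat_lit 192))) (PT.nd (nat_lit 78) (PT.lf (nat_lit 39368) (nat_lit 6) (nat_lit 518) (nat_lit 4) (nat_lit 174) (nat_lit 205) (nat_lit 191)) (PT.lf (nat_lit 40508) (nat_lit 6) (nat_lit 533) (nat_lit 4) (nat_lit 175) (nat_lit 205) (nat_lit 190)))) (PT.nd (nat_lit 156) (PT.nd (nat_lit 78) (PT.lf (nat_lit 40432) (nat_lit 6) (nat_lit 532) (nat_lit 4) (nat_lit 176) (nat_lit 205) (nat_lit 189)) (PT.lf (nat_lit 40356) (nat_lit 6) (nat_lit 531) (nat_lit 4) (nat_lit 177) (nat_lit 205) (nat_lit 188))) (PT.nd (nat_lit 78) (PT.lf (nat_lit 40280) (nat_lit 6) (nat_lit 530) (nat_lit 4) (nat_lit 178) (nat_lit 205) (nat_lit 187)) (PT.lf (nat_lit 40204) (nat_lit 6) (nat_lit 529) (nat_lit 4) (nat_lit 179) (nat_lit 205) (nat_lit 186))))))) (PT.nd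 (nat_lit 1092) (PT.nd (nat_lit 546) (PT.nd (nat_lit 234) (PT.nd (nat_lit 78) (PT.lf (nat_lit 40128) (nat_lit 6) (nat_lit 528) (nat_lit 4) (nat_lit 180) (nat_lit 205) (nat_lit 185)) (PT.nd (nat_lit 78) (PT.lf (nat_lit 40052) (nat_lit 6) (nat_lit 527) (nat_lit 4) (nat_lit 181) (nat_lit 205) (nat_lit 184)) (PT.lf (nat_lit 39976) (nat_lit 6) (nat_lit 526) (nat_lit 4) (nat_lit 182) (nat_lit 205) (nat_lit 183)))) (PT.nd (nat_lit 156) (PT.nd (nat_lit 78) (PT.lf (nat_lit 39976) (nat_lit 6) (nat_lit 526) (nat_lit 2) (nat_lit 183) (nat_lit 205) (nat_lit 182)) (PT.lf (nat_lit 40052) (nat_lit 6) (nat_lit 527) (nat_lit 2) (nat_lit 184) (nat_lit 205) (nat_lit 181))) (PT.nd (nat_lit 78) (PT.lf (nat_lit 40128) (nat_lit 6) (nat_lit 528) (nat_lit 2) (nat_lit 185) (nat_lit 205) (nat_lit 180)) (PT.lf (nat_lit 40204) (nat_lit 6) (nat_lit 529) (nat_lit 2) (nat_lit 186) (nat_lit 205) (nat_lit 179))))) (PT.nd (nat_lit 234) (PT.nd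 (nat_lit 78) (PT.lf (nat_lit 40280) (nat_lit 6) (nat_lit 530) (nat_lit 2) (nat_lit 187) (nat_lit 205) (nat_lit 178)) (PT.nd (nat_lit 78) (PT.lf (nat_lit 40356) (nat_lit 6) (nat_lit 531) (nat_lit 2) (nat_lit 188) (nat_lit 205) (nat_lit 177)) (PT.lf (nat_lit 40432) (nat_lit 6) (nat_lit 532) (nat_lit 2) (nat_lit 189) (nat_lit 205) (nat_lit 176)))) (PT.nd (nat_lit 156) (PT.nd (nat_lit 78) (PT.lf (nat_lit 40508) (nat_lit 6) (nat_lit 533) (nat_lit 2) (nat_lit 190) (nat_lit 205) (nat_lit 175)) (PT.lf (nat_lit 39368) (nat_lit 6) (nat_lit 518) (nat_lit 2) (nat_lit 191) (nat_lit 205) (nat_lit 174))) (PT.nd (nat_lit 78) (PT.lf (nat_lit 38152) (nat_lit 6) (nat_lit 502) (nat_lit 2) (nat_lit 192) (nat_lit 205) (nat_lit 173)) (PT.lf (nat_lit 36860) (nat_lit 6) (nat_lit 485) (nat_lit 2) (nat_lit 193) (nat_lit 205) (nat_lit 172)))))) (PT.nd (nat_lit 546) (PT.nd (nat_lit 234) (PT.nd (nat_lit 78) (PT.lf (nat_lit 35492) (nat_lit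 6) (nat_lit 467) (nat_lit 2) (nat_lit 194) (nat_lit 205) (nat_lit 171)) (PT.nd (nat_lit 78) (PT.lf (nat_lit 34048) (nat_lit 6) (nat_lit 448) (nat_lit 2) (nat_lit 195) (nat_lit 205) (nat_lit 170)) (PT.lf (nat_lit 32528) (nat_lit 6) (nat_lit 428) (nat_lit 2) (nat_lit 196) (nat_lit 205) (nat_lit 169)))) (PT.nd (nat_lit 156) (PT.nd (nat_lit 78) (PT.lf (nat_lit 30932) (nat_lit 6) (nat_lit 407) (nat_lit 2) (nat_lit 197) (nat_lit 205) (nat_lit 168)) (PT.lf (nat_lit 29260) (nat_lit 6) (nat_lit 385) (nat_lit 2) (nat_lit 198) (nat_lit 205) (nat_lit 167))) (PT.nd (nat_lit 78) (PT.lf (nat_lit 27512) (nat_lit 6) (nat_lit 362) (nat_lit 2) (nat_lit 199) (nat_lit 205) (nat_lit 166)) (PT.lf (nat_lit 26600) (nat_lit 6) (nat_lit 350) (nat_lit 2) (nat_lit 200) (nat_lit 205) (nat_lit 165))))) (PT.nd (nat_lit 312) (PT.nd (nat_lit 156) (PT.nd (nat_lit 78) (PT.lf (nat_lit 25688) (nat_lit 6) (nat_lit 338) (nat_lit 2) (nat_lit 201)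 (nat_lit 205) (nat_lit 164)) (PT.lf (nat_lit 24852) (nat_lit 6) (nat_lit 327) (nat_lit 2) (nat_lit 202) (nat_lit 205) (nat_lit 163))) (PT.nd (nat_lit 78) (PT.lf (nat_lit 24016) (nat_lit 6) (nat_lit 316) (nat_lit 2) (nat_lit 203) (nat_lit 205) (nat_lit 162)) (PT.lf (nat_lit 23256) (nat_lit 6) (nat_lit 306) (nat_lit 2) (nat_lit 204) (nat_lit 205) (nat_lit 161)))) (PT.nd (nat_lit 156) (PT.nd (nat_lit 78) (PT.lf (nat_lit 22496) (nat_lit 3) (nat_lit 296) (nat_lit 0) (nat_lit 205) (nat_lit 205) (nat_lit 160)) (PT.lf (nat_lit 21660) (nat_lit 6) (nat_lit 285) (nat_lit 0) (nat_lit 206) (nat_lit 205) (nat_lit 159))) (PT.nd (nat_lit 78) (PT.lf (nat_lit 20824) (nat_lit 6) (nat_lit 274) (nat_lit 0) (nat_lit 207) (nat_lit 205) (nat_lit 158)) (PT.lf (nat_lit 20064) (nat_lit 6) (nat_lit 264) (nat_lit 0) (nat_lit 208) (nat_lit 205) (nat_lit 157))))))))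
noncomputable def pc42 : PT := (PT.nd (nat_lit 55848) (PT.nd (nat_lit 54756) (PT.nd (nat_lit 546) (PT.nd (nat_lit 234) (PT.nd (nat_lit 78) (PT.lf (nat_lit 19304) (nat_lit 6) (nat_lit 254) (nat_lit 0) (nat_lit 209) (nat_lit 205) (nat_lit 156)) (PT.nd (nat_lit 78) (PT.lf (nat_lit 18620) (nat_lit 6) (nat_lit 245) (nat_lit 0) (nat_lit 210) (nat_lit 205) (nat_lit 155)) (PT.lf (nat_lit 17860) (nat_lit 6) (nat_lit 235) (nat_lit 0) (nat_lit 211) (nat_lit 205) (nat_lit 154)))) (PT.nd (nat_lit 156) (PT.nd (nat_lit 78) (PT.lf (nat_lit 17176) (nat_lit 6) (nat_lit 226) (nat_lit 0) (nat_lit 212) (nat_lit 205) (nat_lit 153)) (PT.lf (nat_lit 16492) (nat_lit 6) (nat_lit 217) (nat_lit 0) (nat_lit 213) (nat_lit 205) (nat_lit 152))) (PT.nd (nat_lit 78) (PT.lf (nat_lit 15884) (nat_lit 6) (nat_lit 209) (nat_lit 0) (nat_lit 214) (nat_lit 205) (nat_lit 151)) (PT.lf (nat_lit 15200) (nat_lit 6) (nat_lit 200) (nat_lit 0) (nat_lit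 215) (nat_lit 205) (nat_lit 150))))) (PT.nd (nat_lit 53898) (PT.nd (nat_lit 78) (PT.lf (nat_lit 14592) (nat_lit 6) (nat_lit 192) (nat_lit 0) (nat_lit 216) (nat_lit 205) (nat_lit 149)) (PT.nd (nat_lit 78) (PT.lf (nat_lit 13984) (nat_lit 6) (nat_lit 184) (nat_lit 0) (nat_lit 217) (nat_lit 205) (nat_lit 148)) (PT.lf (nat_lit 13376) (nat_lit 6) (nat_lit 176) (nat_lit 0) (nat_lit 218) (nat_lit 205) (nat_lit 147)))) (PT.nd (nat_lit 156) (PT.nd (nat_lit 78) (PT.lf (nat_lit 12844) (nat_lit 6) (nat_lit 169) (nat_lit 5) (nat_lit 146) (nat_lit 206) (nat_lit 218)) (PT.lf (nat_lit 13452) (nat_lit 6) (nat_lit 177) (nat_lit 5) (nat_lit 147) (nat_lit 206) (nat_lit 217))) (PT.nd (nat_lit 78) (PT.lf (nat_lit 14060) (nat_lit 6) (nat_lit 185) (nat_lit 5) (nat_lit 148) (nat_lit 206) (nat_lit 216)) (PT.lf (nat_lit 14668) (nat_lit 6) (nat_lit 193) (nat_lit 5) (nat_lit 149) (nat_lit 206) (nat_lit 215)))))) (PT.nd (nat_lit 546)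 (PT.nd (nat_lit 234) (PT.nd (nat_lit 78) (PT.lf (nat_lit 15276) (nat_lit 6) (nat_lit 201) (nat_lit 5) (nat_lit 150) (nat_lit 206) (nat_lit 214)) (PT.nd (nat_lit 78) (PT.lf (nat_lit 15960) (nat_lit 6) (nat_lit 210) (nat_lit 5) (nat_lit 151) (nat_lit 206) (nat_lit 213)) (PT.lf (nat_lit 16568) (nat_lit 6) (nat_lit 218) (nat_lit 5) (nat_lit 152) (nat_lit 206) (nat_lit 212)))) (PT.nd (nat_lit 156) (PT.nd (nat_lit 78) (PT.lf (nat_lit 17252) (nat_lit 6) (nat_lit 227) (nat_lit 5) (nat_lit 153) (nat_lit 206) (nat_lit 211)) (PT.lf (nat_lit 17936) (nat_lit 6) (nat_lit 236) (nat_lit 5) (nat_lit 154) (nat_lit 206) (nat_lit 210))) (PT.nd (nat_lit 78) (PT.lf (nat_lit 18696) (nat_lit 6) (nat_lit 246) (nat_lit 5) (nat_lit 155) (nat_lit 206) (nat_lit 209)) (PT.lf (nat_lit 19380) (nat_lit 6) (nat_lit 255) (nat_lit 5) (nat_lit 156) (nat_lit 206) (nat_lit 208))))) (PT.nd (nat_lit 234) (PT.nd (nat_lit 78) (PT.lf (nat_lit 20140)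 (nat_lit 6) (nat_lit 265) (nat_lit 5) (nat_lit 157) (nat_lit 206) (nat_lit 207)) (PT.nd (nat_lit 78) (PT.lf (nat_lit 20900) (nat_lit 3) (nat_lit 275) (nat_lit 4) (nat_lit 158) (nat_lit 206) (nat_lit 206)) (PT.lf (nat_lit 21660) (nat_lit 6) (nat_lit 285) (nat_lit 4) (nat_lit 159) (nat_lit 206) (nat_lit 205)))) (PT.nd (nat_lit 156) (PT.nd (nat_lit 78) (PT.lf (nat_lit 22420) (nat_lit 6) (nat_lit 295) (nat_lit 4) (nat_lit 160) (nat_lit 206) (nat_lit 204)) (PT.lf (nat_lit 23180) (nat_lit 6) (nat_lit 305) (nat_lit 4) (nat_lit 161) (nat_lit 206) (nat_lit 203))) (PT.nd (nat_lit 78) (PT.lf (nat_lit 23940) (nat_lit 6) (nat_lit 315) (nat_lit 4) (nat_lit 162) (nat_lit 206) (nat_lit 202)) (PT.lf (nat_lit 24776) (nat_lit 6) (nat_lit 326) (nat_lit 4) (nat_lit 163) (nat_lit 206) (nat_lit 201))))))) (PT.nd (nat_lit 1092) (PT.nd (nat_lit 546) (PT.nd (nat_lit 234) (PT.nd (nat_lit 78) (PT.lf (nat_lit 25612) (nat_lit 6) (nat_lit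 337) (nat_lit 4) (nat_lit 164) (nat_lit 206) (nat_lit 200)) (PT.nd (nat_lit 78) (PT.lf (nat_lit 26524) (nat_lit 6) (nat_lit 349) (nat_lit 4) (nat_lit 165) (nat_lit 206) (nat_lit 199)) (PT.lf (nat_lit 27436) (nat_lit 6) (nat_lit 361) (nat_lit 4) (nat_lit 166) (nat_lit 206) (nat_lit 198)))) (PT.nd (nat_lit 156) (PT.nd (nat_lit 78) (PT.lf (nat_lit 29184) (nat_lit 6) (nat_lit 384) (nat_lit 4) (nat_lit 167) (nat_lit 206) (nat_lit 197)) (PT.lf (nat_lit 30856) (nat_lit 6) (nat_lit 406) (nat_lit 4) (nat_lit 168) (nat_lit 206) (nat_lit 196))) (PT.nd (nat_lit 78) (PT.lf (nat_lit 32452) (nat_lit 6) (nat_lit 427) (nat_lit 4) (nat_lit 169) (nat_lit 206) (nat_lit 195)) (PT.lf (nat_lit 33972) (nat_lit 6) (nat_lit 447) (nat_lit 4) (nat_lit 170) (nat_lit 206) (nat_lit 194))))) (PT.nd (nat_lit 234) (PT.nd (nat_lit 78) (PT.lf (nat_lit 35416) (nat_lit 6) (nat_lit 466) (nat_lit 4) (nat_lit 171) (nat_lit 206) (nat_lit 193)) (PT.nd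 (nat_lit 78) (PT.lf (nat_lit 36784) (nat_lit 6) (nat_lit 484) (nat_lit 4) (nat_lit 172) (nat_lit 206) (nat_lit 192)) (PT.lf (nat_lit 38076) (nat_lit 6) (nat_lit 501) (nat_lit 4) (nat_lit 173) (nat_lit 206) (nat_lit 191)))) (PT.nd (nat_lit 156) (PT.nd (nat_lit 78) (PT.lf (nat_lit 39292) (nat_lit 6) (nat_lit 517) (nat_lit 4) (nat_lit 174) (nat_lit 206) (nat_lit 190)) (PT.lf (nat_lit 39216) (nat_lit 6) (nat_lit 516) (nat_lit 4) (nat_lit 175) (nat_lit 206) (nat_lit 189))) (PT.nd (nat_lit 78) (PT.lf (nat_lit 39140) (nat_lit 6) (nat_lit 515) (nat_lit 4) (nat_lit 176) (nat_lit 206) (nat_lit 188)) (PT.lf (nat_lit 39064) (nat_lit 6) (nat_lit 514) (nat_lit 4) (nat_lit 177) (nat_lit 206) (nat_lit 187)))))) (PT.nd (nat_lit 546) (PT.nd (nat_lit 234) (PT.nd (nat_lit 78) (PT.lf (nat_lit 38988) (nat_lit 6) (nat_lit 513) (nat_lit 4) (nat_lit 178) (nat_lit 206) (nat_lit 186)) (PT.nd (nat_lit 78) (PT.lf (nat_lit 38912) (nat_lit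 6) (nat_lit 512) (nat_lit 4) (nat_lit 179) (nat_lit 206) (nat_lit 185)) (PT.lf (nat_lit 38836) (nat_lit 6) (nat_lit 511) (nat_lit 4) (nat_lit 180) (nat_lit 206) (nat_lit 184)))) (PT.nd (nat_lit 156) (PT.nd (nat_lit 78) (PT.lf (nat_lit 38760) (nat_lit 6) (nat_lit 510) (nat_lit 4) (nat_lit 181) (nat_lit 206) (nat_lit 183)) (PT.lf (nat_lit 38684) (nat_lit 3) (nat_lit 509) (nat_lit 2) (nat_lit 182) (nat_lit 206) (nat_lit 182))) (PT.nd (nat_lit 78) (PT.lf (nat_lit 38760) (nat_lit 6) (nat_lit 510) (nat_lit 2) (nat_lit 183) (nat_lit 206) (nat_lit 181)) (PT.lf (nat_lit 38836) (nat_lit 6) (nat_lit 511) (nat_lit 2) (nat_lit 184) (nat_lit 206) (nat_lit 180))))) (PT.nd (nat_lit 312) (PT.nd (nat_lit 156) (PT.nd (nat_lit 78) (PT.lf (nat_lit 38912) (nat_lit 6) (nat_lit 512) (nat_lit 2) (nat_lit 185) (nat_lit 206) (nat_lit 179)) (PT.lf (nat_lit 38988) (nat_lit 6) (nat_lit 513) (nat_lit 2) (nat_lit 186) (nat_lit 206) (nat_lit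 178))) (PT.nd (nat_lit 78) (PT.lf (nat_lit 39064) (nat_lit 6) (nat_lit 514) (nat_lit 2) (nat_lit 187) (nat_lit 206) (nat_lit 177)) (PT.lf (nat_lit 39140) (nat_lit 6) (nat_lit 515) (nat_lit 2) (nat_lit 188) (nat_lit 206) (nat_lit 176)))) (PT.nd (nat_lit 156) (PT.nd (nat_lit 78) (PT.lf (nat_lit 39216) (nat_lit 6) (nat_lit 516) (nat_lit 2) (nat_lit 189) (nat_lit 206) (nat_lit 175)) (PT.lf (nat_lit 39292) (nat_lit 6) (nat_lit 517) (nat_lit 2) (nat_lit 190) (nat_lit 206) (nat_lit 174))) (PT.nd (nat_lit 78) (PT.lf (nat_lit 38076) (nat_lit 6) (nat_lit 501) (nat_lit 2) (nat_lit 191) (nat_lit 206) (nat_lit 173)) (PT.lf (nat_lit 36784) (nat_lit 6) (nat_lit 484) (nat_lit 2) (nat_lit 192) (nat_lit 206) (nat_lit 172))))))))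
noncomputable def pc43 : PT := (PT.nd (nat_lit 55770) (PT.nd (nat_lit 1092) (PT.nd (nat_lit 546) (PT.nd (nat_lit 234) (PT.nd (nat_lit 78) (PT.lf (nat_lit 35416) (nat_lit 6) (nat_lit 466) (nat_lit 2) (nat_lit 193) (nat_lit 206) (nat_lit 171)) (PT.nd (nat_lit 78) (PT.lf (nat_lit 33972) (nat_lit 6) (nat_lit 447) (nat_lit 2) (nat_lit 194) (nat_lit 206) (nat_lit 170)) (PT.lf (nat_lit 32452) (nat_lit 6) (nat_lit 427) (nat_lit 2) (nat_lit 195) (nat_lit 206) (nat_lit 169)))) (PT.nd (nat_lit 156) (PT.nd (nat_lit 78) (PT.lf (nat_lit 30856) (nat_lit 6) (nat_lit 406) (nat_lit 2) (nat_lit 196) (nat_lit 206) (nat_lit 168)) (PT.lf (nat_lit 29184) (nat_lit 6) (nat_lit 384) (nat_lit 2) (nat_lit 197) (nat_lit 206) (nat_lit 167))) (PT.nd (nat_lit 78) (PT.lf (nat_lit 27436) (nat_lit 6) (nat_lit 361) (nat_lit 2) (nat_lit 198) (nat_lit 206) (nat_lit 166)) (PT.lf (nat_lit 26524) (nat_lit 6) (nat_lit 349) (nat_lit 2) (nat_lit 199)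 (nat_lit 206) (nat_lit 165))))) (PT.nd (nat_lit 234) (PT.nd (nat_lit 78) (PT.lf (nat_lit 25612) (nat_lit 6) (nat_lit 337) (nat_lit 2) (nat_lit 200) (nat_lit 206) (nat_lit 164)) (PT.nd (nat_lit 78) (PT.lf (nat_lit 24776) (nat_lit 6) (nat_lit 326) (nat_lit 2) (nat_lit 201) (nat_lit 206) (nat_lit 163)) (PT.lf (nat_lit 23940) (nat_lit 6) (nat_lit 315) (nat_lit 2) (nat_lit 202) (nat_lit 206) (nat_lit 162)))) (PT.nd (nat_lit 156) (PT.nd (nat_lit 78) (PT.lf (nat_lit 23180) (nat_lit 6) (nat_lit 305) (nat_lit 2) (nat_lit 203) (nat_lit 206) (nat_lit 161)) (PT.lf (nat_lit 22420) (nat_lit 6) (nat_lit 295) (nat_lit 2) (nat_lit 204) (nat_lit 206) (nat_lit 160))) (PT.nd (nat_lit 78) (PT.lf (nat_lit 21660) (nat_lit 6) (nat_lit 285) (nat_lit 2) (nat_lit 205) (nat_lit 206) (nat_lit 159)) (PT.lf (nat_lit 20900) (nat_lit 3) (nat_lit 275) (nat_lit 0) (nat_lit 206) (nat_lit 206) (nat_lit 158)))))) (PT.nd (nat_lit 546) (PT.nd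 (nat_lit 234) (PT.nd (nat_lit 78) (PT.lf (nat_lit 20140) (nat_lit 6) (nat_lit 265) (nat_lit 0) (nat_lit 207) (nat_lit 206) (nat_lit 157)) (PT.nd (nat_lit 78) (PT.lf (nat_lit 19380) (nat_lit 6) (nat_lit 255) (nat_lit 0) (nat_lit 208) (nat_lit 206) (nat_lit 156)) (PT.lf (nat_lit 18696) (nat_lit 6) (nat_lit 246) (nat_lit 0) (nat_lit 209) (nat_lit 206) (nat_lit 155)))) (PT.nd (nat_lit 156) (PT.nd (nat_lit 78) (PT.lf (nat_lit 17936) (nat_lit 6) (nat_lit 236) (nat_lit 0) (nat_lit 210) (nat_lit 206) (nat_lit 154)) (PT.lf (nat_lit 17252) (nat_lit 6) (nat_lit 227) (nat_lit 0) (nat_lit 211) (nat_lit 206) (nat_lit 153))) (PT.nd (nat_lit 78) (PT.lf (nat_lit 16568) (nat_lit 6) (nat_lit 218) (nat_lit 0) (nat_lit 212) (nat_lit 206) (nat_lit 152)) (PT.lf (nat_lit 15960) (nat_lit 6) (nat_lit 210) (nat_lit 0) (nat_lit 213) (nat_lit 206) (nat_lit 151))))) (PT.nd (nat_lit 312) (PT.nd (nat_lit 156) (PT.nd (nat_lit 78) (PT.lf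 (nat_lit 15276) (nat_lit 6) (nat_lit 201) (nat_lit 0) (nat_lit 214) (nat_lit 206) (nat_lit 150)) (PT.lf (nat_lit 14668) (nat_lit 6) (nat_lit 193) (nat_lit 0) (nat_lit 215) (nat_lit 206) (nat_lit 149))) (PT.nd (nat_lit 78) (PT.lf (nat_lit 14060) (nat_lit 6) (nat_lit 185) (nat_lit 0) (nat_lit 216) (nat_lit 206) (nat_lit 148)) (PT.lf (nat_lit 13452) (nat_lit 6) (nat_lit 177) (nat_lit 0) (nat_lit 217) (nat_lit 206) (nat_lit 147)))) (PT.nd (nat_lit 53664) (PT.nd (nat_lit 53586) (PT.lf (nat_lit 12844) (nat_lit 6) (nat_lit 169) (nat_lit 0) (nat_lit 218) (nat_lit 206) (nat_lit 146)) (PT.lf (nat_lit 11856) (nat_lit 6) (nat_lit 156) (nat_lit 5) (nat_lit 144) (nat_lit 207) (nat_lit 219))) (PT.nd (nat_lit 78) (PT.lf (nat_lit 12388) (nat_lit 6) (nat_lit 163) (nat_lit 5) (nat_lit 145) (nat_lit 207) (nat_lit 218)) (PT.lf (nat_lit 12920) (nat_lit 6) (nat_lit 170) (nat_lit 5) (nat_lit 146) (nat_lit 207) (nat_lit 217)))))))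 (PT.nd (nat_lit 1092) (PT.nd (nat_lit 546) (PT.nd (nat_lit 234) (PT.nd (nat_lit 78) (PT.lf (nat_lit 13528) (nat_lit 6) (nat_lit 178) (nat_lit 5) (nat_lit 147) (nat_lit 207) (nat_lit 216)) (PT.nd (nat_lit 78) (PT.lf (nat_lit 14136) (nat_lit 6) (nat_lit 186) (nat_lit 5) (nat_lit 148) (nat_lit 207) (nat_lit 215)) (PT.lf (nat_lit 14744) (nat_lit 6) (nat_lit 194) (nat_lit 5) (nat_lit 149) (nat_lit 207) (nat_lit 214)))) (PT.nd (nat_lit 156) (PT.nd (nat_lit 78) (PT.lf (nat_lit 15352) (nat_lit 6) (nat_lit 202) (nat_lit 5) (nat_lit 150) (nat_lit 207) (nat_lit 213)) (PT.lf (nat_lit 16036) (nat_lit 6) (nat_lit 211) (nat_lit 5) (nat_lit 151) (nat_lit 207) (nat_lit 212))) (PT.nd (nat_lit 78) (PT.lf (nat_lit 16644) (nat_lit 6) (nat_lit 219) (nat_lit 5) (nat_lit 152) (nat_lit 207) (nat_lit 211)) (PT.lf (nat_lit 17328) (nat_lit 6) (nat_lit 228) (nat_lit 5) (nat_lit 153) (nat_lit 207) (nat_lit 210))))) (PT.nd (nat_lit 234)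 (PT.nd (nat_lit 78) (PT.lf (nat_lit 18012) (nat_lit 6) (nat_lit 237) (nat_lit 5) (nat_lit 154) (nat_lit 207) (nat_lit 209)) (PT.nd (nat_lit 78) (PT.lf (nat_lit 18772) (nat_lit 6) (nat_lit 247) (nat_lit 5) (nat_lit 155) (nat_lit 207) (nat_lit 208)) (PT.lf (nat_lit 19456) (nat_lit 3) (nat_lit 256) (nat_lit 4) (nat_lit 156) (nat_lit 207) (nat_lit 207)))) (PT.nd (nat_lit 156) (PT.nd (nat_lit 78) (PT.lf (nat_lit 20140) (nat_lit 6) (nat_lit 265) (nat_lit 4) (nat_lit 157) (nat_lit 207) (nat_lit 206)) (PT.lf (nat_lit 20824) (nat_lit 6) (nat_lit 274) (nat_lit 4) (nat_lit 158) (nat_lit 207) (nat_lit 205))) (PT.nd (nat_lit 78) (PT.lf (nat_lit 21584) (nat_lit 6) (nat_lit 284) (nat_lit 4) (nat_lit 159) (nat_lit 207) (nat_lit 204)) (PT.lf (nat_lit 22344) (nat_lit 6) (nat_lit 294) (nat_lit 4) (nat_lit 160) (nat_lit 207) (nat_lit 203)))))) (PT.nd (nat_lit 546) (PT.nd (nat_lit 234) (PT.nd (nat_lit 78) (PT.lf (nat_lit 23104)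 (nat_lit 6) (nat_lit 304) (nat_lit 4) (nat_lit 161) (nat_lit 207) (nat_lit 202)) (PT.nd (nat_lit 78) (PT.lf (nat_lit 23864) (nat_lit 6) (nat_lit 314) (nat_lit 4) (nat_lit 162) (nat_lit 207) (nat_lit 201)) (PT.lf (nat_lit 24700) (nat_lit 6) (nat_lit 325) (nat_lit 4) (nat_lit 163) (nat_lit 207) (nat_lit 200)))) (PT.nd (nat_lit 156) (PT.nd (nat_lit 78) (PT.lf (nat_lit 25536) (nat_lit 6) (nat_lit 336) (nat_lit 4) (nat_lit 164) (nat_lit 207) (nat_lit 199)) (PT.lf (nat_lit 26448) (nat_lit 6) (nat_lit 348) (nat_lit 4) (nat_lit 165) (nat_lit 207) (nat_lit 198))) (PT.nd (nat_lit 78) (PT.lf (nat_lit 27360) (nat_lit 6) (nat_lit 360) (nat_lit 4) (nat_lit 166) (nat_lit 207) (nat_lit 197)) (PT.lf (nat_lit 29108) (nat_lit 6) (nat_lit 383) (nat_lit 4) (nat_lit 167) (nat_lit 207) (nat_lit 196))))) (PT.nd (nat_lit 312) (PT.nd (nat_lit 156) (PT.nd (nat_lit 78) (PT.lf (nat_lit 30780) (nat_lit 6) (nat_lit 405) (nat_lit 4) (nat_lit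 168) (nat_lit 207) (nat_lit 195)) (PT.lf (nat_lit 32376) (nat_lit 6) (nat_lit 426) (nat_lit 4) (nat_lit 169) (nat_lit 207) (nat_lit 194))) (PT.nd (nat_lit 78) (PT.lf (nat_lit 33896) (nat_lit 6) (nat_lit 446) (nat_lit 4) (nat_lit 170) (nat_lit 207) (nat_lit 193)) (PT.lf (nat_lit 35340) (nat_lit 6) (nat_lit 465) (nat_lit 4) (nat_lit 171) (nat_lit 207) (nat_lit 192)))) (PT.nd (nat_lit 156) (PT.nd (nat_lit 78) (PT.lf (nat_lit 36708) (nat_lit 6) (nat_lit 483) (nat_lit 4) (nat_lit 172) (nat_lit 207) (nat_lit 191)) (PT.lf (nat_lit 38000) (nat_lit 6) (nat_lit 500) (nat_lit 4) (nat_lit 173) (nat_lit 207) (nat_lit 190))) (PT.nd (nat_lit 78) (PT.lf (nat_lit 37924) (nat_lit 6) (nat_lit 499) (nat_lit 4) (nat_lit 174) (nat_lit 207) (nat_lit 189)) (PT.lf (nat_lit 37848) (nat_lit 6) (nat_lit 498) (nat_lit 4) (nat_lit 175) (nat_lit 207) (nat_lit 188))))))))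
noncomputable def pc44 : PT := (PT.nd (nat_lit 2184) (PT.nd (nat_lit 1092) (PT.nd (nat_lit 546) (PT.nd (nat_lit 234) (PT.nd (nat_lit 78) (PT.lf (nat_lit 37772) (nat_lit 6) (nat_lit 497) (nat_lit 4) (nat_lit 176) (nat_lit 207) (nat_lit 187)) (PT.nd (nat_lit 78) (PT.lf (nat_lit 37696) (nat_lit 6) (nat_lit 496) (nat_lit 4) (nat_lit 177) (nat_lit 207) (nat_lit 186)) (PT.lf (nat_lit 37620) (nat_lit 6) (nat_lit 495) (nat_lit 4) (nat_lit 178) (nat_lit 207) (nat_lit 185)))) (PT.nd (nat_lit 156) (PT.nd (nat_lit 78) (PT.lf (nat_lit 37544) (nat_lit 6) (nat_lit 494) (nat_lit 4) (nat_lit 179) (nat_lit 207) (nat_lit 184)) (PT.lf (nat_lit 37468) (nat_lit 6) (nat_lit 493) (nat_lit 4) (nat_lit 180) (nat_lit 207) (nat_lit 183))) (PT.nd (nat_lit 78) (PT.lf (nat_lit 37392) (nat_lit 6) (nat_lit 492) (nat_lit 4) (nat_lit 181) (nat_lit 207) (nat_lit 182)) (PT.lf (nat_lit 37392) (nat_lit 6) (nat_lit 492) (nat_lit 2) (nat_lit 182)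 (nat_lit 207) (nat_lit 181))))) (PT.nd (nat_lit 234) (PT.nd (nat_lit 78) (PT.lf (nat_lit 37468) (nat_lit 6) (nat_lit 493) (nat_lit 2) (nat_lit 183) (nat_lit 207) (nat_lit 180)) (PT.nd (nat_lit 78) (PT.lf (nat_lit 37544) (nat_lit 6) (nat_lit 494) (nat_lit 2) (nat_lit 184) (nat_lit 207) (nat_lit 179)) (PT.lf (nat_lit 37620) (nat_lit 6) (nat_lit 495) (nat_lit 2) (nat_lit 185) (nat_lit 207) (nat_lit 178)))) (PT.nd (nat_lit 156) (PT.nd (nat_lit 78) (PT.lf (nat_lit 37696) (nat_lit 6) (nat_lit 496) (nat_lit 2) (nat_lit 186) (nat_lit 207) (nat_lit 177)) (PT.lf (nat_lit 37772) (nat_lit 6) (nat_lit 497) (nat_lit 2) (nat_lit 187) (nat_lit 207) (nat_lit 176))) (PT.nd (nat_lit 78) (PT.lf (nat_lit 37848) (nat_lit 6) (nat_lit 498) (nat_lit 2) (nat_lit 188) (nat_lit 207) (nat_lit 175)) (PT.lf (nat_lit 37924) (nat_lit 6) (nat_lit 499) (nat_lit 2) (nat_lit 189) (nat_lit 207) (nat_lit 174)))))) (PT.nd (nat_lit 546) (PT.nd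 (nat_lit 234) (PT.nd (nat_lit 78) (PT.lf (nat_lit 38000) (nat_lit 6) (nat_lit 500) (nat_lit 2) (nat_lit 190) (nat_lit 207) (nat_lit 173)) (PT.nd (nat_lit 78) (PT.lf (nat_lit 36708) (nat_lit 6) (nat_lit 483) (nat_lit 2) (nat_lit 191) (nat_lit 207) (nat_lit 172)) (PT.lf (nat_lit 35340) (nat_lit 6) (nat_lit 465) (nat_lit 2) (nat_lit 192) (nat_lit 207) (nat_lit 171)))) (PT.nd (nat_lit 156) (PT.nd (nat_lit 78) (PT.lf (nat_lit 33896) (nat_lit 6) (nat_lit 446) (nat_lit 2) (nat_lit 193) (nat_lit 207) (nat_lit 170)) (PT.lf (nat_lit 32376) (nat_lit 6) (nat_lit 426) (nat_lit 2) (nat_lit 194) (nat_lit 207) (nat_lit 169))) (PT.nd (nat_lit 78) (PT.lf (nat_lit 30780) (nat_lit 6) (nat_lit 405) (nat_lit 2) (nat_lit 195) (nat_lit 207) (nat_lit 168)) (PT.lf (nat_lit 29108) (nat_lit 6) (nat_lit 383) (nat_lit 2) (nat_lit 196) (nat_lit 207) (nat_lit 167))))) (PT.nd (nat_lit 234) (PT.nd (nat_lit 78) (PT.lf (nat_lit 27360) (nat_lit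 6) (nat_lit 360) (nat_lit 2) (nat_lit 197) (nat_lit 207) (nat_lit 166)) (PT.nd (nat_lit 78) (PT.lf (nat_lit 26448) (nat_lit 6) (nat_lit 348) (nat_lit 2) (nat_lit 198) (nat_lit 207) (nat_lit 165)) (PT.lf (nat_lit 25536) (nat_lit 6) (nat_lit 336) (nat_lit 2) (nat_lit 199) (nat_lit 207) (nat_lit 164)))) (PT.nd (nat_lit 156) (PT.nd (nat_lit 78) (PT.lf (nat_lit 24700) (nat_lit 6) (nat_lit 325) (nat_lit 2) (nat_lit 200) (nat_lit 207) (nat_lit 163)) (PT.lf (nat_lit 23864) (nat_lit 6) (nat_lit 314) (nat_lit 2) (nat_lit 201) (nat_lit 207) (nat_lit 162))) (PT.nd (nat_lit 78) (PT.lf (nat_lit 23104) (nat_lit 6) (nat_lit 304) (nat_lit 2) (nat_lit 202) (nat_lit 207) (nat_lit 161)) (PT.lf (nat_lit 22344) (nat_lit 6) (nat_lit 294) (nat_lit 2) (nat_lit 203) (nat_lit 207) (nat_lit 160))))))) (PT.nd (nat_lit 1092) (PT.nd (nat_lit 546) (PT.nd (nat_lit 234) (PT.nd (nat_lit 78) (PT.lf (nat_lit 21584) (nat_lit 6) (nat_lit 284)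 (nat_lit 2) (nat_lit 204) (nat_lit 207) (nat_lit 159)) (PT.nd (nat_lit 78) (PT.lf (nat_lit 20824) (nat_lit 6) (nat_lit 274) (nat_lit 2) (nat_lit 205) (nat_lit 207) (nat_lit 158)) (PT.lf (nat_lit 20140) (nat_lit 6) (nat_lit 265) (nat_lit 2) (nat_lit 206) (nat_lit 207) (nat_lit 157)))) (PT.nd (nat_lit 156) (PT.nd (nat_lit 78) (PT.lf (nat_lit 19456) (nat_lit 3) (nat_lit 256) (nat_lit 0) (nat_lit 207) (nat_lit 207) (nat_lit 156)) (PT.lf (nat_lit 18772) (nat_lit 6) (nat_lit 247) (nat_lit 0) (nat_lit 208) (nat_lit 207) (nat_lit 155))) (PT.nd (nat_lit 78) (PT.lf (nat_lit 18012) (nat_lit 6) (nat_lit 237) (nat_lit 0) (nat_lit 209) (nat_lit 207) (nat_lit 154)) (PT.lf (nat_lit 17328) (nat_lit 6) (nat_lit 228) (nat_lit 0) (nat_lit 210) (nat_lit 207) (nat_lit 153))))) (PT.nd (nat_lit 234) (PT.nd (nat_lit 78) (PT.lf (nat_lit 16644) (nat_lit 6) (nat_lit 219) (nat_lit 0) (nat_lit 211) (nat_lit 207) (nat_lit 152)) (PT.nd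 (nat_lit 78) (PT.lf (nat_lit 16036) (nat_lit 6) (nat_lit 211) (nat_lit 0) (nat_lit 212) (nat_lit 207) (nat_lit 151)) (PT.lf (nat_lit 15352) (nat_lit 6) (nat_lit 202) (nat_lit 0) (nat_lit 213) (nat_lit 207) (nat_lit 150)))) (PT.nd (nat_lit 156) (PT.nd (nat_lit 78) (PT.lf (nat_lit 14744) (nat_lit 6) (nat_lit 194) (nat_lit 0) (nat_lit 214) (nat_lit 207) (nat_lit 149)) (PT.lf (nat_lit 14136) (nat_lit 6) (nat_lit 186) (nat_lit 0) (nat_lit 215) (nat_lit 207) (nat_lit 148))) (PT.nd (nat_lit 78) (PT.lf (nat_lit 13528) (nat_lit 6) (nat_lit 178) (nat_lit 0) (nat_lit 216) (nat_lit 207) (nat_lit 147)) (PT.lf (nat_lit 12920) (nat_lit 6) (nat_lit 170) (nat_lit 0) (nat_lit 217) (nat_lit 207) (nat_lit 146)))))) (PT.nd (nat_lit 53898) (PT.nd (nat_lit 53586) (PT.nd (nat_lit 78) (PT.lf (nat_lit 12388) (nat_lit 6) (nat_lit 163) (nat_lit 0) (nat_lit 218) (nat_lit 207) (nat_lit 145)) (PT.nd (nat_lit 53430) (PT.lf (nat_lit 11856)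 (nat_lit 6) (nat_lit 156) (nat_lit 0) (nat_lit 219) (nat_lit 207) (nat_lit 144)) (PT.lf (nat_lit 11400) (nat_lit 6) (nat_lit 150) (nat_lit 5) (nat_lit 143) (nat_lit 208) (nat_lit 219)))) (PT.nd (nat_lit 156) (PT.nd (nat_lit 78) (PT.lf (nat_lit 11932) (nat_lit 6) (nat_lit 157) (nat_lit 5) (nat_lit 144) (nat_lit 208) (nat_lit 218)) (PT.lf (nat_lit 12464) (nat_lit 6) (nat_lit 164) (nat_lit 5) (nat_lit 145) (nat_lit 208) (nat_lit 217))) (PT.nd (nat_lit 78) (PT.lf (nat_lit 12996) (nat_lit 6) (nat_lit 171) (nat_lit 5) (nat_lit 146) (nat_lit 208) (nat_lit 216)) (PT.lf (nat_lit 13604) (nat_lit 6) (nat_lit 179) (nat_lit 5) (nat_lit 147) (nat_lit 208) (nat_lit 215))))) (PT.nd (nat_lit 312) (PT.nd (nat_lit 156) (PT.nd (nat_lit 78) (PT.lf (nat_lit 14212) (nat_lit 6) (nat_lit 187) (nat_lit 5) (nat_lit 148) (nat_lit 208) (nat_lit 214)) (PT.lf (nat_lit 14820) (nat_lit 6) (nat_lit 195) (nat_lit 5) (nat_lit 149) (nat_lit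 208) (nat_lit 213))) (PT.nd (nat_lit 78) (PT.lf (nat_lit 15428) (nat_lit 6) (nat_lit 203) (nat_lit 5) (nat_lit 150) (nat_lit 208) (nat_lit 212)) (PT.lf (nat_lit 16112) (nat_lit 6) (nat_lit 212) (nat_lit 5) (nat_lit 151) (nat_lit 208) (nat_lit 211)))) (PT.nd (nat_lit 156) (PT.nd (nat_lit 78) (PT.lf (nat_lit 16720) (nat_lit 6) (nat_lit 220) (nat_lit 5) (nat_lit 152) (nat_lit 208) (nat_lit 210)) (PT.lf (nat_lit 17404) (nat_lit 6) (nat_lit 229) (nat_lit 5) (nat_lit 153) (nat_lit 208) (nat_lit 209))) (PT.nd (nat_lit 78) (PT.lf (nat_lit 18088) (nat_lit 3) (nat_lit 238) (nat_lit 4) (nat_lit 154) (nat_lit 208) (nat_lit 208)) (PT.lf (nat_lit 18772) (nat_lit 6) (nat_lit 247) (nat_lit 4) (nat_lit 155) (nat_lit 208) (nat_lit 207))))))))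
noncomputable def pc45 : PT := (PT.nd (nat_lit 2262) (PT.nd (nat_lit 1092) (PT.nd (nat_lit 546) (PT.nd (nat_lit 234) (PT.nd (nat_lit 78) (PT.lf (nat_lit 19380) (nat_lit 6) (nat_lit 255) (nat_lit 4) (nat_lit 156) (nat_lit 208) (nat_lit 206)) (PT.nd (nat_lit 78) (PT.lf (nat_lit 20064) (nat_lit 6) (nat_lit 264) (nat_lit 4) (nat_lit 157) (nat_lit 208) (nat_lit 205)) (PT.lf (nat_lit 20748) (nat_lit 6) (nat_lit 273) (nat_lit 4) (nat_lit 158) (nat_lit 208) (nat_lit 204)))) (PT.nd (nat_lit 156) (PT.nd (nat_lit 78) (PT.lf (nat_lit 21508) (nat_lit 6) (nat_lit 283) (nat_lit 4) (nat_lit 159) (nat_lit 208) (nat_lit 203)) (PT.lf (nat_lit 22268) (nat_lit 6) (nat_lit 293) (nat_lit 4) (nat_lit 160) (nat_lit 208) (nat_lit 202))) (PT.nd (nat_lit 78) (PT.lf (nat_lit 23028) (nat_lit 6) (nat_lit 303) (nat_lit 4) (nat_lit 161) (nat_lit 208) (nat_lit 201)) (PT.lf (nat_lit 23788) (nat_lit 6) (nat_lit 313) (nat_lit 4) (nat_lit 162)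 (nat_lit 208) (nat_lit 200))))) (PT.nd (nat_lit 234) (PT.nd (nat_lit 78) (PT.lf (nat_lit 24624) (nat_lit 6) (nat_lit 324) (nat_lit 4) (nat_lit 163) (nat_lit 208) (nat_lit 199)) (PT.nd (nat_lit 78) (PT.lf (nat_lit 25460) (nat_lit 6) (nat_lit 335) (nat_lit 4) (nat_lit 164) (nat_lit 208) (nat_lit 198)) (PT.lf (nat_lit 26372) (nat_lit 6) (nat_lit 347) (nat_lit 4) (nat_lit 165) (nat_lit 208) (nat_lit 197)))) (PT.nd (nat_lit 156) (PT.nd (nat_lit 78) (PT.lf (nat_lit 27284) (nat_lit 6) (nat_lit 359) (nat_lit 4) (nat_lit 166) (nat_lit 208) (nat_lit 196)) (PT.lf (nat_lit 29032) (nat_lit 6) (nat_lit 382) (nat_lit 4) (nat_lit 167) (nat_lit 208) (nat_lit 195))) (PT.nd (nat_lit 78) (PT.lf (nat_lit 30704) (nat_lit 6) (nat_lit 404) (nat_lit 4) (nat_lit 168) (nat_lit 208) (nat_lit 194)) (PT.lf (nat_lit 32300) (nat_lit 6) (nat_lit 425) (nat_lit 4) (nat_lit 169) (nat_lit 208) (nat_lit 193)))))) (PT.nd (nat_lit 546) (PT.nd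 (nat_lit 234) (PT.nd (nat_lit 78) (PT.lf (nat_lit 33820) (nat_lit 6) (nat_lit 445) (nat_lit 4) (nat_lit 170) (nat_lit 208) (nat_lit 192)) (PT.nd (nat_lit 78) (PT.lf (nat_lit 35264) (nat_lit 6) (nat_lit 464) (nat_lit 4) (nat_lit 171) (nat_lit 208) (nat_lit 191)) (PT.lf (nat_lit 36632) (nat_lit 6) (nat_lit 482) (nat_lit 4) (nat_lit 172) (nat_lit 208) (nat_lit 190)))) (PT.nd (nat_lit 156) (PT.nd (nat_lit 78) (PT.lf (nat_lit 36556) (nat_lit 6) (nat_lit 481) (nat_lit 4) (nat_lit 173) (nat_lit 208) (nat_lit 189)) (PT.lf (nat_lit 36480) (nat_lit 6) (nat_lit 480) (nat_lit 4) (nat_lit 174) (nat_lit 208) (nat_lit 188))) (PT.nd (nat_lit 78) (PT.lf (nat_lit 36404) (nat_lit 6) (nat_lit 479) (nat_lit 4) (nat_lit 175) (nat_lit 208) (nat_lit 187)) (PT.lf (nat_lit 36328) (nat_lit 6) (nat_lit 478) (nat_lit 4) (nat_lit 176) (nat_lit 208) (nat_lit 186))))) (PT.nd (nat_lit 312) (PT.nd (nat_lit 156) (PT.nd (nat_lit 78) (PT.lf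 (nat_lit 36252) (nat_lit 6) (nat_lit 477) (nat_lit 4) (nat_lit 177) (nat_lit 208) (nat_lit 185)) (PT.lf (nat_lit 36176) (nat_lit 6) (nat_lit 476) (nat_lit 4) (nat_lit 178) (nat_lit 208) (nat_lit 184))) (PT.nd (nat_lit 78) (PT.lf (nat_lit 36100) (nat_lit 6) (nat_lit 475) (nat_lit 4) (nat_lit 179) (nat_lit 208) (nat_lit 183)) (PT.lf (nat_lit 36024) (nat_lit 6) (nat_lit 474) (nat_lit 4) (nat_lit 180) (nat_lit 208) (nat_lit 182)))) (PT.nd (nat_lit 156) (PT.nd (nat_lit 78) (PT.lf (nat_lit 35948) (nat_lit 3) (nat_lit 473) (nat_lit 2) (nat_lit 181) (nat_lit 208) (nat_lit 181)) (PT.lf (nat_lit 36024) (nat_lit 6) (nat_lit 474) (nat_lit 2) (nat_lit 182) (nat_lit 208) (nat_lit 180))) (PT.nd (nat_lit 78) (PT.lf (nat_lit 36100) (nat_lit 6) (nat_lit 475) (nat_lit 2) (nat_lit 183) (nat_lit 208) (nat_lit 179)) (PT.lf (nat_lit 36176) (nat_lit 6) (nat_lit 476) (nat_lit 2) (nat_lit 184) (nat_lit 208) (nat_lit 178))))))) (PT.nd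 (nat_lit 1092) (PT.nd (nat_lit 546) (PT.nd (nat_lit 234) (PT.nd (nat_lit 78) (PT.lf (nat_lit 36252) (nat_lit 6) (nat_lit 477) (nat_lit 2) (nat_lit 185) (nat_lit 208) (nat_lit 177)) (PT.nd (nat_lit 78) (PT.lf (nat_lit 36328) (nat_lit 6) (nat_lit 478) (nat_lit 2) (nat_lit 186) (nat_lit 208) (nat_lit 176)) (PT.lf (nat_lit 36404) (nat_lit 6) (nat_lit 479) (nat_lit 2) (nat_lit 187) (nat_lit 208) (nat_lit 175)))) (PT.nd (nat_lit 156) (PT.nd (nat_lit 78) (PT.lf (nat_lit 36480) (nat_lit 6) (nat_lit 480) (nat_lit 2) (nat_lit 188) (nat_lit 208) (nat_lit 174)) (PT.lf (nat_lit 36556) (nat_lit 6) (nat_lit 481) (nat_lit 2) (nat_lit 189) (nat_lit 208) (nat_lit 173))) (PT.nd (nat_lit 78) (PT.lf (nat_lit 36632) (nat_lit 6) (nat_lit 482) (nat_lit 2) (nat_lit 190) (nat_lit 208) (nat_lit 172)) (PT.lf (nat_lit 35264) (nat_lit 6) (nat_lit 464) (nat_lit 2) (nat_lit 191) (nat_lit 208) (nat_lit 171))))) (PT.nd (nat_lit 234) (PT.nd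 (nat_lit 78) (PT.lf (nat_lit 33820) (nat_lit 6) (nat_lit 445) (nat_lit 2) (nat_lit 192) (nat_lit 208) (nat_lit 170)) (PT.nd (nat_lit 78) (PT.lf (nat_lit 32300) (nat_lit 6) (nat_lit 425) (nat_lit 2) (nat_lit 193) (nat_lit 208) (nat_lit 169)) (PT.lf (nat_lit 30704) (nat_lit 6) (nat_lit 404) (nat_lit 2) (nat_lit 194) (nat_lit 208) (nat_lit 168)))) (PT.nd (nat_lit 156) (PT.nd (nat_lit 78) (PT.lf (nat_lit 29032) (nat_lit 6) (nat_lit 382) (nat_lit 2) (nat_lit 195) (nat_lit 208) (nat_lit 167)) (PT.lf (nat_lit 27284) (nat_lit 6) (nat_lit 359) (nat_lit 2) (nat_lit 196) (nat_lit 208) (nat_lit 166))) (PT.nd (nat_lit 78) (PT.lf (nat_lit 26372) (nat_lit 6) (nat_lit 347) (nat_lit 2) (nat_lit 197) (nat_lit 208) (nat_lit 165)) (PT.lf (nat_lit 25460) (nat_lit 6) (nat_lit 335) (nat_lit 2) (nat_lit 198) (nat_lit 208) (nat_lit 164)))))) (PT.nd (nat_lit 546) (PT.nd (nat_lit 234) (PT.nd (nat_lit 78) (PT.lf (nat_lit 24624) (nat_lit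 6) (nat_lit 324) (nat_lit 2) (nat_lit 199) (nat_lit 208) (nat_lit 163)) (PT.nd (nat_lit 78) (PT.lf (nat_lit 23788) (nat_lit 6) (nat_lit 313) (nat_lit 2) (nat_lit 200) (nat_lit 208) (nat_lit 162)) (PT.lf (nat_lit 23028) (nat_lit 6) (nat_lit 303) (nat_lit 2) (nat_lit 201) (nat_lit 208) (nat_lit 161)))) (PT.nd (nat_lit 156) (PT.nd (nat_lit 78) (PT.lf (nat_lit 22268) (nat_lit 6) (nat_lit 293) (nat_lit 2) (nat_lit 202) (nat_lit 208) (nat_lit 160)) (PT.lf (nat_lit 21508) (nat_lit 6) (nat_lit 283) (nat_lit 2) (nat_lit 203) (nat_lit 208) (nat_lit 159))) (PT.nd (nat_lit 78) (PT.lf (nat_lit 20748) (nat_lit 6) (nat_lit 273) (nat_lit 2) (nat_lit 204) (nat_lit 208) (nat_lit 158)) (PT.lf (nat_lit 20064) (nat_lit 6) (nat_lit 264) (nat_lit 2) (nat_lit 205) (nat_lit 208) (nat_lit 157))))) (PT.nd (nat_lit 312) (PT.nd (nat_lit 156) (PT.nd (nat_lit 78) (PT.lf (nat_lit 19380) (nat_lit 6) (nat_lit 255) (nat_lit 2) (nat_lit 206)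 (nat_lit 208) (nat_lit 156)) (PT.lf (nat_lit 18772) (nat_lit 6) (nat_lit 247) (nat_lit 2) (nat_lit 207) (nat_lit 208) (nat_lit 155))) (PT.nd (nat_lit 78) (PT.lf (nat_lit 18088) (nat_lit 3) (nat_lit 238) (nat_lit 0) (nat_lit 208) (nat_lit 208) (nat_lit 154)) (PT.lf (nat_lit 17404) (nat_lit 6) (nat_lit 229) (nat_lit 0) (nat_lit 209) (nat_lit 208) (nat_lit 153)))) (PT.nd (nat_lit 156) (PT.nd (nat_lit 78) (PT.lf (nat_lit 16720) (nat_lit 6) (nat_lit 220) (nat_lit 0) (nat_lit 210) (nat_lit 208) (nat_lit 152)) (PT.lf (nat_lit 16112) (nat_lit 6) (nat_lit 212) (nat_lit 0) (nat_lit 211) (nat_lit 208) (nat_lit 151))) (PT.nd (nat_lit 78) (PT.lf (nat_lit 15428) (nat_lit 6) (nat_lit 203) (nat_lit 0) (nat_lit 212) (nat_lit 208) (nat_lit 150)) (PT.lf (nat_lit 14820) (nat_lit 6) (nat_lit 195) (nat_lit 0) (nat_lit 213) (nat_lit 208) (nat_lit 149))))))))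
noncomputable def pc46 : PT := (PT.nd (nat_lit 55458) (PT.nd (nat_lit 54288) (PT.nd (nat_lit 53742) (PT.nd (nat_lit 234) (PT.nd (nat_lit 78) (PT.lf (nat_lit 14212) (nat_lit 6) (nat_lit 187) (nat_lit 0) (nat_lit 214) (nat_lit 208) (nat_lit 148)) (PT.nd (nat_lit 78) (PT.lf (nat_lit 13604) (nat_lit 6) (nat_lit 179) (nat_lit 0) (nat_lit 215) (nat_lit 208) (nat_lit 147)) (PT.lf (nat_lit 12996) (nat_lit 6) (nat_lit 171) (nat_lit 0) (nat_lit 216) (nat_lit 208) (nat_lit 146)))) (PT.nd (nat_lit 156) (PT.nd (nat_lit 78) (PT.lf (nat_lit 12464) (nat_lit 6) (nat_lit 164) (nat_lit 0) (nat_lit 217) (nat_lit 208) (nat_lit 145)) (PT.lf (nat_lit 11932) (nat_lit 6) (nat_lit 157) (nat_lit 0) (nat_lit 218) (nat_lit 208) (nat_lit 144))) (PT.nd (nat_lit 53274) (PT.lf (nat_lit 11400) (nat_lit 6) (nat_lit 150) (nat_lit 0) (nat_lit 219) (nat_lit 208) (nat_lit 143)) (PT.lf (nat_lit 10488) (nat_lit 6) (nat_lit 138) (nat_lit 5) (nat_lit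 141) (nat_lit 209) (nat_lit 220))))) (PT.nd (nat_lit 234) (PT.nd (nat_lit 78) (PT.lf (nat_lit 10944) (nat_lit 6) (nat_lit 144) (nat_lit 5) (nat_lit 142) (nat_lit 209) (nat_lit 219)) (PT.nd (nat_lit 78) (PT.lf (nat_lit 11476) (nat_lit 6) (nat_lit 151) (nat_lit 5) (nat_lit 143) (nat_lit 209) (nat_lit 218)) (PT.lf (nat_lit 12008) (nat_lit 6) (nat_lit 158) (nat_lit 5) (nat_lit 144) (nat_lit 209) (nat_lit 217)))) (PT.nd (nat_lit 156) (PT.nd (nat_lit 78) (PT.lf (nat_lit 12540) (nat_lit 6) (nat_lit 165) (nat_lit 5) (nat_lit 145) (nat_lit 209) (nat_lit 216)) (PT.lf (nat_lit 13072) (nat_lit 6) (nat_lit 172) (nat_lit 5) (nat_lit 146) (nat_lit 209) (nat_lit 215))) (PT.nd (nat_lit 78) (PT.lf (nat_lit 13680) (nat_lit 6) (nat_lit 180) (nat_lit 5) (nat_lit 147) (nat_lit 209) (nat_lit 214)) (PT.lf (nat_lit 14288) (nat_lit 6) (nat_lit 188) (nat_lit 5) (nat_lit 148) (nat_lit 209) (nat_lit 213)))))) (PT.nd (nat_lit 546) (PT.nd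 (nat_lit 234) (PT.nd (nat_lit 78) (PT.lf (nat_lit 14896) (nat_lit 6) (nat_lit 196) (nat_lit 5) (nat_lit 149) (nat_lit 209) (nat_lit 212)) (PT.nd (nat_lit 78) (PT.lf (nat_lit 15504) (nat_lit 6) (nat_lit 204) (nat_lit 5) (nat_lit 150) (nat_lit 209) (nat_lit 211)) (PT.lf (nat_lit 16188) (nat_lit 6) (nat_lit 213) (nat_lit 5) (nat_lit 151) (nat_lit 209) (nat_lit 210)))) (PT.nd (nat_lit 156) (PT.nd (nat_lit 78) (PT.lf (nat_lit 16796) (nat_lit 3) (nat_lit 221) (nat_lit 4) (nat_lit 152) (nat_lit 209) (nat_lit 209)) (PT.lf (nat_lit 17404) (nat_lit 6) (nat_lit 229) (nat_lit 4) (nat_lit 153) (nat_lit 209) (nat_lit 208))) (PT.nd (nat_lit 78) (PT.lf (nat_lit 18012) (nat_lit 6) (nat_lit 237) (nat_lit 4) (nat_lit 154) (nat_lit 209) (nat_lit 207)) (PT.lf (nat_lit 18696) (nat_lit 6) (nat_lit 246) (nat_lit 4) (nat_lit 155) (nat_lit 209) (nat_lit 206))))) (PT.nd (nat_lit 312) (PT.nd (nat_lit 156) (PT.nd (nat_lit 78) (PT.lf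 (nat_lit 19304) (nat_lit 6) (nat_lit 254) (nat_lit 4) (nat_lit 156) (nat_lit 209) (nat_lit 205)) (PT.lf (nat_lit 19988) (nat_lit 6) (nat_lit 263) (nat_lit 4) (nat_lit 157) (nat_lit 209) (nat_lit 204))) (PT.nd (nat_lit 78) (PT.lf (nat_lit 20672) (nat_lit 6) (nat_lit 272) (nat_lit 4) (nat_lit 158) (nat_lit 209) (nat_lit 203)) (PT.lf (nat_lit 21432) (nat_lit 6) (nat_lit 282) (nat_lit 4) (nat_lit 159) (nat_lit 209) (nat_lit 202)))) (PT.nd (nat_lit 156) (PT.nd (nat_lit 78) (PT.lf (nat_lit 22192) (nat_lit 6) (nat_lit 292) (nat_lit 4) (nat_lit 160) (nat_lit 209) (nat_lit 201)) (PT.lf (nat_lit 22952) (nat_lit 6) (nat_lit 302) (nat_lit 4) (nat_lit 161) (nat_lit 209) (nat_lit 200))) (PT.nd (nat_lit 78) (PT.lf (nat_lit 23712) (nat_lit 6) (nat_lit 312) (nat_lit 4) (nat_lit 162) (nat_lit 209) (nat_lit 199)) (PT.lf (nat_lit 24548) (nat_lit 6) (nat_lit 323) (nat_lit 4) (nat_lit 163) (nat_lit 209) (nat_lit 198))))))) (PT.nd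 (nat_lit 1092) (PT.nd (nat_lit 546) (PT.nd (nat_lit 234) (PT.nd (nat_lit 78) (PT.lf (nat_lit 25384) (nat_lit 6) (nat_lit 334) (nat_lit 4) (nat_lit 164) (nat_lit 209) (nat_lit 197)) (PT.nd (nat_lit 78) (PT.lf (nat_lit 26296) (nat_lit 6) (nat_lit 346) (nat_lit 4) (nat_lit 165) (nat_lit 209) (nat_lit 196)) (PT.lf (nat_lit 27208) (nat_lit 6) (nat_lit 358) (nat_lit 4) (nat_lit 166) (nat_lit 209) (nat_lit 195)))) (PT.nd (nat_lit 156) (PT.nd (nat_lit 78) (PT.lf (nat_lit 28956) (nat_lit 6) (nat_lit 381) (nat_lit 4) (nat_lit 167) (nat_lit 209) (nat_lit 194)) (PT.lf (nat_lit 30628) (nat_lit 6) (nat_lit 403) (nat_lit 4) (nat_lit 168) (nat_lit 209) (nat_lit 193))) (PT.nd (nat_lit 78) (PT.lf (nat_lit 32224) (nat_lit 6) (nat_lit 424) (nat_lit 4) (nat_lit 169) (nat_lit 209) (nat_lit 192)) (PT.lf (nat_lit 33744) (nat_lit 6) (nat_lit 444) (nat_lit 4) (nat_lit 170) (nat_lit 209) (nat_lit 191))))) (PT.nd (nat_lit 234) (PT.nd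 (nat_lit 78) (PT.lf (nat_lit 35188) (nat_lit 6) (nat_lit 463) (nat_lit 4) (nat_lit 171) (nat_lit 209) (nat_lit 190)) (PT.nd (nat_lit 78) (PT.lf (nat_lit 35112) (nat_lit 6) (nat_lit 462) (nat_lit 4) (nat_lit 172) (nat_lit 209) (nat_lit 189)) (PT.lf (nat_lit 35036) (nat_lit 6) (nat_lit 461) (nat_lit 4) (nat_lit 173) (nat_lit 209) (nat_lit 188)))) (PT.nd (nat_lit 156) (PT.nd (nat_lit 78) (PT.lf (nat_lit 34960) (nat_lit 6) (nat_lit 460) (nat_lit 4) (nat_lit 174) (nat_lit 209) (nat_lit 187)) (PT.lf (nat_lit 34884) (nat_lit 6) (nat_lit 459) (nat_lit 4) (nat_lit 175) (nat_lit 209) (nat_lit 186))) (PT.nd (nat_lit 78) (PT.lf (nat_lit 34808) (nat_lit 6) (nat_lit 458) (nat_lit 4) (nat_lit 176) (nat_lit 209) (nat_lit 185)) (PT.lf (nat_lit 34732) (nat_lit 6) (nat_lit 457) (nat_lit 4) (nat_lit 177) (nat_lit 209) (nat_lit 184)))))) (PT.nd (nat_lit 546) (PT.nd (nat_lit 234) (PT.nd (nat_lit 78) (PT.lf (nat_lit 34656) (nat_lit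 6) (nat_lit 456) (nat_lit 4) (nat_lit 178) (nat_lit 209) (nat_lit 183)) (PT.nd (nat_lit 78) (PT.lf (nat_lit 34580) (nat_lit 6) (nat_lit 455) (nat_lit 4) (nat_lit 179) (nat_lit 209) (nat_lit 182)) (PT.lf (nat_lit 34504) (nat_lit 6) (nat_lit 454) (nat_lit 4) (nat_lit 180) (nat_lit 209) (nat_lit 181)))) (PT.nd (nat_lit 156) (PT.nd (nat_lit 78) (PT.lf (nat_lit 34504) (nat_lit 6) (nat_lit 454) (nat_lit 2) (nat_lit 181) (nat_lit 209) (nat_lit 180)) (PT.lf (nat_lit 34580) (nat_lit 6) (nat_lit 455) (nat_lit 2) (nat_lit 182) (nat_lit 209) (nat_lit 179))) (PT.nd (nat_lit 78) (PT.lf (nat_lit 34656) (nat_lit 6) (nat_lit 456) (nat_lit 2) (nat_lit 183) (nat_lit 209) (nat_lit 178)) (PT.lf (nat_lit 34732) (nat_lit 6) (nat_lit 457) (nat_lit 2) (nat_lit 184) (nat_lit 209) (nat_lit 177))))) (PT.nd (nat_lit 312) (PT.nd (nat_lit 156) (PT.nd (nat_lit 78) (PT.lf (nat_lit 34808) (nat_lit 6) (nat_lit 458) (nat_lit 2) (nat_lit 185)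 (nat_lit 209) (nat_lit 176)) (PT.lf (nat_lit 34884) (nat_lit 6) (nat_lit 459) (nat_lit 2) (nat_lit 186) (nat_lit 209) (nat_lit 175))) (PT.nd (nat_lit 78) (PT.lf (nat_lit 34960) (nat_lit 6) (nat_lit 460) (nat_lit 2) (nat_lit 187) (nat_lit 209) (nat_lit 174)) (PT.lf (nat_lit 35036) (nat_lit 6) (nat_lit 461) (nat_lit 2) (nat_lit 188) (nat_lit 209) (nat_lit 173)))) (PT.nd (nat_lit 156) (PT.nd (nat_lit 78) (PT.lf (nat_lit 35112) (nat_lit 6) (nat_lit 462) (nat_lit 2) (nat_lit 189) (nat_lit 209) (nat_lit 172)) (PT.lf (nat_lit 35188) (nat_lit 6) (nat_lit 463) (nat_lit 2) (nat_lit 190) (nat_lit 209) (nat_lit 171))) (PT.nd (nat_lit 78) (PT.lf (nat_lit 33744) (nat_lit 6) (nat_lit 444) (nat_lit 2) (nat_lit 191) (nat_lit 209) (nat_lit 170)) (PT.lf (nat_lit 32224) (nat_lit 6) (nat_lit 424) (nat_lit 2) (nat_lit 192) (nat_lit 209) (nat_lit 169))))))))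
noncomputable def pc47 : PT := (PT.nd (nat_lit 55302) (PT.nd (nat_lit 1092) (PT.nd (nat_lit 546) (PT.nd (nat_lit 234) (PT.nd (nat_lit 78) (PT.lf (nat_lit 30628) (nat_lit 6) (nat_lit 403) (nat_lit 2) (nat_lit 193) (nat_lit 209) (nat_lit 168)) (PT.nd (nat_lit 78) (PT.lf (nat_lit 28956) (nat_lit 6) (nat_lit 381) (nat_lit 2) (nat_lit 194) (nat_lit 209) (nat_lit 167)) (PT.lf (nat_lit 27208) (nat_lit 6) (nat_lit 358) (nat_lit 2) (nat_lit 195) (nat_lit 209) (nat_lit 166)))) (PT.nd (nat_lit 156) (PT.nd (nat_lit 78) (PT.lf (nat_lit 26296) (nat_lit 6) (nat_lit 346) (nat_lit 2) (nat_lit 196) (nat_lit 209) (nat_lit 165)) (PT.lf (nat_lit 25384) (nat_lit 6) (nat_lit 334) (nat_lit 2) (nat_lit 197) (nat_lit 209) (nat_lit 164))) (PT.nd (nat_lit 78) (PT.lf (nat_lit 24548) (nat_lit 6) (nat_lit 323) (nat_lit 2) (nat_lit 198) (nat_lit 209) (nat_lit 163)) (PT.lf (nat_lit 23712) (nat_lit 6) (nat_lit 312) (nat_lit 2) (nat_lit 199)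 (nat_lit 209) (nat_lit 162))))) (PT.nd (nat_lit 234) (PT.nd (nat_lit 78) (PT.lf (nat_lit 22952) (nat_lit 6) (nat_lit 302) (nat_lit 2) (nat_lit 200) (nat_lit 209) (nat_lit 161)) (PT.nd (nat_lit 78) (PT.lf (nat_lit 22192) (nat_lit 6) (nat_lit 292) (nat_lit 2) (nat_lit 201) (nat_lit 209) (nat_lit 160)) (PT.lf (nat_lit 21432) (nat_lit 6) (nat_lit 282) (nat_lit 2) (nat_lit 202) (nat_lit 209) (nat_lit 159)))) (PT.nd (nat_lit 156) (PT.nd (nat_lit 78) (PT.lf (nat_lit 20672) (nat_lit 6) (nat_lit 272) (nat_lit 2) (nat_lit 203) (nat_lit 209) (nat_lit 158)) (PT.lf (nat_lit 19988) (nat_lit 6) (nat_lit 263) (nat_lit 2) (nat_lit 204) (nat_lit 209) (nat_lit 157))) (PT.nd (nat_lit 78) (PT.lf (nat_lit 19304) (nat_lit 6) (nat_lit 254) (nat_lit 2) (nat_lit 205) (nat_lit 209) (nat_lit 156)) (PT.lf (nat_lit 18696) (nat_lit 6) (nat_lit 246) (nat_lit 2) (nat_lit 206) (nat_lit 209) (nat_lit 155)))))) (PT.nd (nat_lit 546) (PT.nd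 (nat_lit 234) (PT.nd (nat_lit 78) (PT.lf (nat_lit 18012) (nat_lit 6) (nat_lit 237) (nat_lit 2) (nat_lit 207) (nat_lit 209) (nat_lit 154)) (PT.nd (nat_lit 78) (PT.lf (nat_lit 17404) (nat_lit 6) (nat_lit 229) (nat_lit 2) (nat_lit 208) (nat_lit 209) (nat_lit 153)) (PT.lf (nat_lit 16796) (nat_lit 3) (nat_lit 221) (nat_lit 0) (nat_lit 209) (nat_lit 209) (nat_lit 152)))) (PT.nd (nat_lit 156) (PT.nd (nat_lit 78) (PT.lf (nat_lit 16188) (nat_lit 6) (nat_lit 213) (nat_lit 0) (nat_lit 210) (nat_lit 209) (nat_lit 151)) (PT.lf (nat_lit 15504) (nat_lit 6) (nat_lit 204) (nat_lit 0) (nat_lit 211) (nat_lit 209) (nat_lit 150))) (PT.nd (nat_lit 78) (PT.lf (nat_lit 14896) (nat_lit 6) (nat_lit 196) (nat_lit 0) (nat_lit 212) (nat_lit 209) (nat_lit 149)) (PT.lf (nat_lit 14288) (nat_lit 6) (nat_lit 188) (nat_lit 0) (nat_lit 213) (nat_lit 209) (nat_lit 148))))) (PT.nd (nat_lit 312) (PT.nd (nat_lit 156) (PT.nd (nat_lit 78) (PT.lf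 (nat_lit 13680) (nat_lit 6) (nat_lit 180) (nat_lit 0) (nat_lit 214) (nat_lit 209) (nat_lit 147)) (PT.lf (nat_lit 13072) (nat_lit 6) (nat_lit 172) (nat_lit 0) (nat_lit 215) (nat_lit 209) (nat_lit 146))) (PT.nd (nat_lit 78) (PT.lf (nat_lit 12540) (nat_lit 6) (nat_lit 165) (nat_lit 0) (nat_lit 216) (nat_lit 209) (nat_lit 145)) (PT.lf (nat_lit 12008) (nat_lit 6) (nat_lit 158) (nat_lit 0) (nat_lit 217) (nat_lit 209) (nat_lit 144)))) (PT.nd (nat_lit 156) (PT.nd (nat_lit 78) (PT.lf (nat_lit 11476) (nat_lit 6) (nat_lit 151) (nat_lit 0) (nat_lit 218) (nat_lit 209) (nat_lit 143)) (PT.lf (nat_lit 10944) (nat_lit 6) (nat_lit 144) (nat_lit 0) (nat_lit 219) (nat_lit 209) (nat_lit 142))) (PT.nd (nat_lit 53118) (PT.lf (nat_lit 10488) (nat_lit 6) (nat_lit 138) (nat_lit 0) (nat_lit 220) (nat_lit 209) (nat_lit 141)) (PT.lf (nat_lit 10032) (nat_lit 6) (nat_lit 132) (nat_lit 5) (nat_lit 140) (nat_lit 210) (nat_lit 220)))))))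 (PT.nd (nat_lit 1092) (PT.nd (nat_lit 546) (PT.nd (nat_lit 234) (PT.nd (nat_lit 78) (PT.lf (nat_lit 10564) (nat_lit 6) (nat_lit 139) (nat_lit 5) (nat_lit 141) (nat_lit 210) (nat_lit 219)) (PT.nd (nat_lit 78) (PT.lf (nat_lit 11020) (nat_lit 6) (nat_lit 145) (nat_lit 5) (nat_lit 142) (nat_lit 210) (nat_lit 218)) (PT.lf (nat_lit 11552) (nat_lit 6) (nat_lit 152) (nat_lit 5) (nat_lit 143) (nat_lit 210) (nat_lit 217)))) (PT.nd (nat_lit 156) (PT.nd (nat_lit 78) (PT.lf (nat_lit 12084) (nat_lit 6) (nat_lit 159) (nat_lit 5) (nat_lit 144) (nat_lit 210) (nat_lit 216)) (PT.lf (nat_lit 12616) (nat_lit 6) (nat_lit 166) (nat_lit 5) (nat_lit 145) (nat_lit 210) (nat_lit 215))) (PT.nd (nat_lit 78) (PT.lf (nat_lit 13148) (nat_lit 6) (nat_lit 173) (nat_lit 5) (nat_lit 146) (nat_lit 210) (nat_lit 214)) (PT.lf (nat_lit 13756) (nat_lit 6) (nat_lit 181) (nat_lit 5) (nat_lit 147) (nat_lit 210) (nat_lit 213))))) (PT.nd (nat_lit 234)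 (PT.nd (nat_lit 78) (PT.lf (nat_lit 14364) (nat_lit 6) (nat_lit 189) (nat_lit 5) (nat_lit 148) (nat_lit 210) (nat_lit 212)) (PT.nd (nat_lit 78) (PT.lf (nat_lit 14972) (nat_lit 6) (nat_lit 197) (nat_lit 5) (nat_lit 149) (nat_lit 210) (nat_lit 211)) (PT.lf (nat_lit 15580) (nat_lit 3) (nat_lit 205) (nat_lit 4) (nat_lit 150) (nat_lit 210) (nat_lit 210)))) (PT.nd (nat_lit 156) (PT.nd (nat_lit 78) (PT.lf (nat_lit 16188) (nat_lit 6) (nat_lit 213) (nat_lit 4) (nat_lit 151) (nat_lit 210) (nat_lit 209)) (PT.lf (nat_lit 16720) (nat_lit 6) (nat_lit 220) (nat_lit 4) (nat_lit 152) (nat_lit 210) (nat_lit 208))) (PT.nd (nat_lit 78) (PT.lf (nat_lit 17328) (nat_lit 6) (nat_lit 228) (nat_lit 4) (nat_lit 153) (nat_lit 210) (nat_lit 207)) (PT.lf (nat_lit 17936) (nat_lit 6) (nat_lit 236) (nat_lit 4) (nat_lit 154) (nat_lit 210) (nat_lit 206)))))) (PT.nd (nat_lit 546) (PT.nd (nat_lit 234) (PT.nd (nat_lit 78) (PT.lf (nat_lit 18620)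 (nat_lit 6) (nat_lit 245) (nat_lit 4) (nat_lit 155) (nat_lit 210) (nat_lit 205)) (PT.nd (nat_lit 78) (PT.lf (nat_lit 19228) (nat_lit 6) (nat_lit 253) (nat_lit 4) (nat_lit 156) (nat_lit 210) (nat_lit 204)) (PT.lf (nat_lit 19912) (nat_lit 6) (nat_lit 262) (nat_lit 4) (nat_lit 157) (nat_lit 210) (nat_lit 203)))) (PT.nd (nat_lit 156) (PT.nd (nat_lit 78) (PT.lf (nat_lit 20596) (nat_lit 6) (nat_lit 271) (nat_lit 4) (nat_lit 158) (nat_lit 210) (nat_lit 202)) (PT.lf (nat_lit 21356) (nat_lit 6) (nat_lit 281) (nat_lit 4) (nat_lit 159) (nat_lit 210) (nat_lit 201))) (PT.nd (nat_lit 78) (PT.lf (nat_lit 22116) (nat_lit 6) (nat_lit 291) (nat_lit 4) (nat_lit 160) (nat_lit 210) (nat_lit 200)) (PT.lf (nat_lit 22876) (nat_lit 6) (nat_lit 301) (nat_lit 4) (nat_lit 161) (nat_lit 210) (nat_lit 199))))) (PT.nd (nat_lit 312) (PT.nd (nat_lit 156) (PT.nd (nat_lit 78) (PT.lf (nat_lit 23636) (nat_lit 6) (nat_lit 311) (nat_lit 4) (nat_lit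 162) (nat_lit 210) (nat_lit 198)) (PT.lf (nat_lit 24472) (nat_lit 6) (nat_lit 322) (nat_lit 4) (nat_lit 163) (nat_lit 210) (nat_lit 197))) (PT.nd (nat_lit 78) (PT.lf (nat_lit 25308) (nat_lit 6) (nat_lit 333) (nat_lit 4) (nat_lit 164) (nat_lit 210) (nat_lit 196)) (PT.lf (nat_lit 26220) (nat_lit 6) (nat_lit 345) (nat_lit 4) (nat_lit 165) (nat_lit 210) (nat_lit 195)))) (PT.nd (nat_lit 156) (PT.nd (nat_lit 78) (PT.lf (nat_lit 27132) (nat_lit 6) (nat_lit 357) (nat_lit 4) (nat_lit 166) (nat_lit 210) (nat_lit 194)) (PT.lf (nat_lit 28880) (nat_lit 6) (nat_lit 380) (nat_lit 4) (nat_lit 167) (nat_lit 210) (nat_lit 193))) (PT.nd (nat_lit 78) (PT.lf (nat_lit 30552) (nat_lit 6) (nat_lit 402) (nat_lit 4) (nat_lit 168) (nat_lit 210) (nat_lit 192)) (PT.lf (nat_lit 32148) (nat_lit 6) (nat_lit 423) (nat_lit 4) (nat_lit 169) (nat_lit 210) (nat_lit 191))))))))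
noncomputable def pc48 : PT := (PT.nd (nat_lit 2184) (PT.nd (nat_lit 1092) (PT.nd (nat_lit 546) (PT.nd (nat_lit 234) (PT.nd (nat_lit 78) (PT.lf (nat_lit 33668) (nat_lit 6) (nat_lit 443) (nat_lit 4) (nat_lit 170) (nat_lit 210) (nat_lit 190)) (PT.nd (nat_lit 78) (PT.lf (nat_lit 33592) (nat_lit 6) (nat_lit 442) (nat_lit 4) (nat_lit 171) (nat_lit 210) (nat_lit 189)) (PT.lf (nat_lit 33516) (nat_lit 6) (nat_lit 441) (nat_lit 4) (nat_lit 172) (nat_lit 210) (nat_lit 188)))) (PT.nd (nat_lit 156) (PT.nd (nat_lit 78) (PT.lf (nat_lit 33440) (nat_lit 6) (nat_lit 440) (nat_lit 4) (nat_lit 173) (nat_lit 210) (nat_lit 187)) (PT.lf (nat_lit 33364) (nat_lit 6) (nat_lit 439) (nat_lit 4) (nat_lit 174) (nat_lit 210) (nat_lit 186))) (PT.nd (nat_lit 78) (PT.lf (nat_lit 33288) (nat_lit 6) (nat_lit 438) (nat_lit 4) (nat_lit 175) (nat_lit 210) (nat_lit 185)) (PT.lf (nat_lit 33212) (nat_lit 6) (nat_lit 437) (nat_lit 4) (nat_lit 176)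 (nat_lit 210) (nat_lit 184))))) (PT.nd (nat_lit 234) (PT.nd (nat_lit 78) (PT.lf (nat_lit 33136) (nat_lit 6) (nat_lit 436) (nat_lit 4) (nat_lit 177) (nat_lit 210) (nat_lit 183)) (PT.nd (nat_lit 78) (PT.lf (nat_lit 33060) (nat_lit 6) (nat_lit 435) (nat_lit 4) (nat_lit 178) (nat_lit 210) (nat_lit 182)) (PT.lf (nat_lit 32984) (nat_lit 6) (nat_lit 434) (nat_lit 4) (nat_lit 179) (nat_lit 210) (nat_lit 181)))) (PT.nd (nat_lit 156) (PT.nd (nat_lit 78) (PT.lf (nat_lit 32908) (nat_lit 3) (nat_lit 433) (nat_lit 2) (nat_lit 180) (nat_lit 210) (nat_lit 180)) (PT.lf (nat_lit 32984) (nat_lit 6) (nat_lit 434) (nat_lit 2) (nat_lit 181) (nat_lit 210) (nat_lit 179))) (PT.nd (nat_lit 78) (PT.lf (nat_lit 33060) (nat_lit 6) (nat_lit 435) (nat_lit 2) (nat_lit 182) (nat_lit 210) (nat_lit 178)) (PT.lf (nat_lit 33136) (nat_lit 6) (nat_lit 436) (nat_lit 2) (nat_lit 183) (nat_lit 210) (nat_lit 177)))))) (PT.nd (nat_lit 546) (PT.nd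 (nat_lit 234) (PT.nd (nat_lit 78) (PT.lf (nat_lit 33212) (nat_lit 6) (nat_lit 437) (nat_lit 2) (nat_lit 184) (nat_lit 210) (nat_lit 176)) (PT.nd (nat_lit 78) (PT.lf (nat_lit 33288) (nat_lit 6) (nat_lit 438) (nat_lit 2) (nat_lit 185) (nat_lit 210) (nat_lit 175)) (PT.lf (nat_lit 33364) (nat_lit 6) (nat_lit 439) (nat_lit 2) (nat_lit 186) (nat_lit 210) (nat_lit 174)))) (PT.nd (nat_lit 156) (PT.nd (nat_lit 78) (PT.lf (nat_lit 33440) (nat_lit 6) (nat_lit 440) (nat_lit 2) (nat_lit 187) (nat_lit 210) (nat_lit 173)) (PT.lf (nat_lit 33516) (nat_lit 6) (nat_lit 441) (nat_lit 2) (nat_lit 188) (nat_lit 210) (nat_lit 172))) (PT.nd (nat_lit 78) (PT.lf (nat_lit 33592) (nat_lit 6) (nat_lit 442) (nat_lit 2) (nat_lit 189) (nat_lit 210) (nat_lit 171)) (PT.lf (nat_lit 33668) (nat_lit 6) (nat_lit 443) (nat_lit 2) (nat_lit 190) (nat_lit 210) (nat_lit 170))))) (PT.nd (nat_lit 234) (PT.nd (nat_lit 78) (PT.lf (nat_lit 32148) (nat_lit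 6) (nat_lit 423) (nat_lit 2) (nat_lit 191) (nat_lit 210) (nat_lit 169)) (PT.nd (nat_lit 78) (PT.lf (nat_lit 30552) (nat_lit 6) (nat_lit 402) (nat_lit 2) (nat_lit 192) (nat_lit 210) (nat_lit 168)) (PT.lf (nat_lit 28880) (nat_lit 6) (nat_lit 380) (nat_lit 2) (nat_lit 193) (nat_lit 210) (nat_lit 167)))) (PT.nd (nat_lit 156) (PT.nd (nat_lit 78) (PT.lf (nat_lit 27132) (nat_lit 6) (nat_lit 357) (nat_lit 2) (nat_lit 194) (nat_lit 210) (nat_lit 166)) (PT.lf (nat_lit 26220) (nat_lit 6) (nat_lit 345) (nat_lit 2) (nat_lit 195) (nat_lit 210) (nat_lit 165))) (PT.nd (nat_lit 78) (PT.lf (nat_lit 25308) (nat_lit 6) (nat_lit 333) (nat_lit 2) (nat_lit 196) (nat_lit 210) (nat_lit 164)) (PT.lf (nat_lit 24472) (nat_lit 6) (nat_lit 322) (nat_lit 2) (nat_lit 197) (nat_lit 210) (nat_lit 163))))))) (PT.nd (nat_lit 1092) (PT.nd (nat_lit 546) (PT.nd (nat_lit 234) (PT.nd (nat_lit 78) (PT.lf (nat_lit 23636) (nat_lit 6) (nat_lit 311)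 (nat_lit 2) (nat_lit 198) (nat_lit 210) (nat_lit 162)) (PT.nd (nat_lit 78) (PT.lf (nat_lit 22876) (nat_lit 6) (nat_lit 301) (nat_lit 2) (nat_lit 199) (nat_lit 210) (nat_lit 161)) (PT.lf (nat_lit 22116) (nat_lit 6) (nat_lit 291) (nat_lit 2) (nat_lit 200) (nat_lit 210) (nat_lit 160)))) (PT.nd (nat_lit 156) (PT.nd (nat_lit 78) (PT.lf (nat_lit 21356) (nat_lit 6) (nat_lit 281) (nat_lit 2) (nat_lit 201) (nat_lit 210) (nat_lit 159)) (PT.lf (nat_lit 20596) (nat_lit 6) (nat_lit 271) (nat_lit 2) (nat_lit 202) (nat_lit 210) (nat_lit 158))) (PT.nd (nat_lit 78) (PT.lf (nat_lit 19912) (nat_lit 6) (nat_lit 262) (nat_lit 2) (nat_lit 203) (nat_lit 210) (nat_lit 157)) (PT.lf (nat_lit 19228) (nat_lit 6) (nat_lit 253) (nat_lit 2) (nat_lit 204) (nat_lit 210) (nat_lit 156))))) (PT.nd (nat_lit 234) (PT.nd (nat_lit 78) (PT.lf (nat_lit 18620) (nat_lit 6) (nat_lit 245) (nat_lit 2) (nat_lit 205) (nat_lit 210) (nat_lit 155)) (PT.nd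 (nat_lit 78) (PT.lf (nat_lit 17936) (nat_lit 6) (nat_lit 236) (nat_lit 2) (nat_lit 206) (nat_lit 210) (nat_lit 154)) (PT.lf (nat_lit 17328) (nat_lit 6) (nat_lit 228) (nat_lit 2) (nat_lit 207) (nat_lit 210) (nat_lit 153)))) (PT.nd (nat_lit 156) (PT.nd (nat_lit 78) (PT.lf (nat_lit 16720) (nat_lit 6) (nat_lit 220) (nat_lit 2) (nat_lit 208) (nat_lit 210) (nat_lit 152)) (PT.lf (nat_lit 16188) (nat_lit 6) (nat_lit 213) (nat_lit 2) (nat_lit 209) (nat_lit 210) (nat_lit 151))) (PT.nd (nat_lit 78) (PT.lf (nat_lit 15580) (nat_lit 3) (nat_lit 205) (nat_lit 0) (nat_lit 210) (nat_lit 210) (nat_lit 150)) (PT.lf (nat_lit 14972) (nat_lit 6) (nat_lit 197) (nat_lit 0) (nat_lit 211) (nat_lit 210) (nat_lit 149)))))) (PT.nd (nat_lit 546) (PT.nd (nat_lit 234) (PT.nd (nat_lit 78) (PT.lf (nat_lit 14364) (nat_lit 6) (nat_lit 189) (nat_lit 0) (nat_lit 212) (nat_lit 210) (nat_lit 148)) (PT.nd (nat_lit 78) (PT.lf (nat_lit 13756) (nat_lit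 6) (nat_lit 181) (nat_lit 0) (nat_lit 213) (nat_lit 210) (nat_lit 147)) (PT.lf (nat_lit 13148) (nat_lit 6) (nat_lit 173) (nat_lit 0) (nat_lit 214) (nat_lit 210) (nat_lit 146)))) (PT.nd (nat_lit 156) (PT.nd (nat_lit 78) (PT.lf (nat_lit 12616) (nat_lit 6) (nat_lit 166) (nat_lit 0) (nat_lit 215) (nat_lit 210) (nat_lit 145)) (PT.lf (nat_lit 12084) (nat_lit 6) (nat_lit 159) (nat_lit 0) (nat_lit 216) (nat_lit 210) (nat_lit 144))) (PT.nd (nat_lit 78) (PT.lf (nat_lit 11552) (nat_lit 6) (nat_lit 152) (nat_lit 0) (nat_lit 217) (nat_lit 210) (nat_lit 143)) (PT.lf (nat_lit 11020) (nat_lit 6) (nat_lit 145) (nat_lit 0) (nat_lit 218) (nat_lit 210) (nat_lit 142))))) (PT.nd (nat_lit 53196) (PT.nd (nat_lit 53040) (PT.nd (nat_lit 78) (PT.lf (nat_lit 10564) (nat_lit 6) (nat_lit 139) (nat_lit 0) (nat_lit 219) (nat_lit 210) (nat_lit 141)) (PT.lf (nat_lit 10032) (nat_lit 6) (nat_lit 132) (nat_lit 0) (nat_lit 220) (nat_lit 210)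 (nat_lit 140))) (PT.nd (nat_lit 78) (PT.lf (nat_lit 9196) (nat_lit 6) (nat_lit 121) (nat_lit 5) (nat_lit 138) (nat_lit 211) (nat_lit 221)) (PT.lf (nat_lit 9652) (nat_lit 6) (nat_lit 127) (nat_lit 5) (nat_lit 139) (nat_lit 211) (nat_lit 220)))) (PT.nd (nat_lit 156) (PT.nd (nat_lit 78) (PT.lf (nat_lit 10108) (nat_lit 6) (nat_lit 133) (nat_lit 5) (nat_lit 140) (nat_lit 211) (nat_lit 219)) (PT.lf (nat_lit 10640) (nat_lit 6) (nat_lit 140) (nat_lit 5) (nat_lit 141) (nat_lit 211) (nat_lit 218))) (PT.nd (nat_lit 78) (PT.lf (nat_lit 11096) (nat_lit 6) (nat_lit 146) (nat_lit 5) (nat_lit 142) (nat_lit 211) (nat_lit 217)) (PT.lf (nat_lit 11628) (nat_lit 6) (nat_lit 153) (nat_lit 5) (nat_lit 143) (nat_lit 211) (nat_lit 216))))))))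
noncomputable def pc49 : PT := (PT.nd (nat_lit 2262) (PT.nd (nat_lit 1092) (PT.nd (nat_lit 546) (PT.nd (nat_lit 234) (PT.nd (nat_lit 78) (PT.lf (nat_lit 12160) (nat_lit 6) (nat_lit 160) (nat_lit 5) (nat_lit 144) (nat_lit 211) (nat_lit 215)) (PT.nd (nat_lit 78) (PT.lf (nat_lit 12692) (nat_lit 6) (nat_lit 167) (nat_lit 5) (nat_lit 145) (nat_lit 211) (nat_lit 214)) (PT.lf (nat_lit 13224) (nat_lit 6) (nat_lit 174) (nat_lit 5) (nat_lit 146) (nat_lit 211) (nat_lit 213)))) (PT.nd (nat_lit 156) (PT.nd (nat_lit 78) (PT.lf (nat_lit 13832) (nat_lit 6) (nat_lit 182) (nat_lit 5) (nat_lit 147) (nat_lit 211) (nat_lit 212)) (PT.lf (nat_lit 14440) (nat_lit 3) (nat_lit 190) (nat_lit 4) (nat_lit 148) (nat_lit 211) (nat_lit 211))) (PT.nd (nat_lit 78) (PT.lf (nat_lit 14972) (nat_lit 6) (nat_lit 197) (nat_lit 4) (nat_lit 149) (nat_lit 211) (nat_lit 210)) (PT.lf (nat_lit 15504) (nat_lit 6) (nat_lit 204) (nat_lit 4) (nat_lit 150)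 (nat_lit 211) (nat_lit 209))))) (PT.nd (nat_lit 234) (PT.nd (nat_lit 78) (PT.lf (nat_lit 16112) (nat_lit 6) (nat_lit 212) (nat_lit 4) (nat_lit 151) (nat_lit 211) (nat_lit 208)) (PT.nd (nat_lit 78) (PT.lf (nat_lit 16644) (nat_lit 6) (nat_lit 219) (nat_lit 4) (nat_lit 152) (nat_lit 211) (nat_lit 207)) (PT.lf (nat_lit 17252) (nat_lit 6) (nat_lit 227) (nat_lit 4) (nat_lit 153) (nat_lit 211) (nat_lit 206)))) (PT.nd (nat_lit 156) (PT.nd (nat_lit 78) (PT.lf (nat_lit 17860) (nat_lit 6) (nat_lit 235) (nat_lit 4) (nat_lit 154) (nat_lit 211) (nat_lit 205)) (PT.lf (nat_lit 18544) (nat_lit 6) (nat_lit 244) (nat_lit 4) (nat_lit 155) (nat_lit 211) (nat_lit 204))) (PT.nd (nat_lit 78) (PT.lf (nat_lit 19152) (nat_lit 6) (nat_lit 252) (nat_lit 4) (nat_lit 156) (nat_lit 211) (nat_lit 203)) (PT.lf (nat_lit 19836) (nat_lit 6) (nat_lit 261) (nat_lit 4) (nat_lit 157) (nat_lit 211) (nat_lit 202)))))) (PT.nd (nat_lit 546) (PT.nd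 (nat_lit 234) (PT.nd (nat_lit 78) (PT.lf (nat_lit 20520) (nat_lit 6) (nat_lit 270) (nat_lit 4) (nat_lit 158) (nat_lit 211) (nat_lit 201)) (PT.nd (nat_lit 78) (PT.lf (nat_lit 21280) (nat_lit 6) (nat_lit 280) (nat_lit 4) (nat_lit 159) (nat_lit 211) (nat_lit 200)) (PT.lf (nat_lit 22040) (nat_lit 6) (nat_lit 290) (nat_lit 4) (nat_lit 160) (nat_lit 211) (nat_lit 199)))) (PT.nd (nat_lit 156) (PT.nd (nat_lit 78) (PT.lf (nat_lit 22800) (nat_lit 6) (nat_lit 300) (nat_lit 4) (nat_lit 161) (nat_lit 211) (nat_lit 198)) (PT.lf (nat_lit 23560) (nat_lit 6) (nat_lit 310) (nat_lit 4) (nat_lit 162) (nat_lit 211) (nat_lit 197))) (PT.nd (nat_lit 78) (PT.lf (nat_lit 24396) (nat_lit 6) (nat_lit 321) (nat_lit 4) (nat_lit 163) (nat_lit 211) (nat_lit 196)) (PT.lf (nat_lit 25232) (nat_lit 6) (nat_lit 332) (nat_lit 4) (nat_lit 164) (nat_lit 211) (nat_lit 195))))) (PT.nd (nat_lit 312) (PT.nd (nat_lit 156) (PT.nd (nat_lit 78) (PT.lf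 (nat_lit 26144) (nat_lit 6) (nat_lit 344) (nat_lit 4) (nat_lit 165) (nat_lit 211) (nat_lit 194)) (PT.lf (nat_lit 27056) (nat_lit 6) (nat_lit 356) (nat_lit 4) (nat_lit 166) (nat_lit 211) (nat_lit 193))) (PT.nd (nat_lit 78) (PT.lf (nat_lit 28804) (nat_lit 6) (nat_lit 379) (nat_lit 4) (nat_lit 167) (nat_lit 211) (nat_lit 192)) (PT.lf (nat_lit 30476) (nat_lit 6) (nat_lit 401) (nat_lit 4) (nat_lit 168) (nat_lit 211) (nat_lit 191)))) (PT.nd (nat_lit 156) (PT.nd (nat_lit 78) (PT.lf (nat_lit 32072) (nat_lit 6) (nat_lit 422) (nat_lit 4) (nat_lit 169) (nat_lit 211) (nat_lit 190)) (PT.lf (nat_lit 31996) (nat_lit 6) (nat_lit 421) (nat_lit 4) (nat_lit 170) (nat_lit 211) (nat_lit 189))) (PT.nd (nat_lit 78) (PT.lf (nat_lit 31920) (nat_lit 6) (nat_lit 420) (nat_lit 4) (nat_lit 171) (nat_lit 211) (nat_lit 188)) (PT.lf (nat_lit 31844) (nat_lit 6) (nat_lit 419) (nat_lit 4) (nat_lit 172) (nat_lit 211) (nat_lit 187))))))) (PT.nd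 (nat_lit 1092) (PT.nd (nat_lit 546) (PT.nd (nat_lit 234) (PT.nd (nat_lit 78) (PT.lf (nat_lit 31768) (nat_lit 6) (nat_lit 418) (nat_lit 4) (nat_lit 173) (nat_lit 211) (nat_lit 186)) (PT.nd (nat_lit 78) (PT.lf (nat_lit 31692) (nat_lit 6) (nat_lit 417) (nat_lit 4) (nat_lit 174) (nat_lit 211) (nat_lit 185)) (PT.lf (nat_lit 31616) (nat_lit 6) (nat_lit 416) (nat_lit 4) (nat_lit 175) (nat_lit 211) (nat_lit 184)))) (PT.nd (nat_lit 156) (PT.nd (nat_lit 78) (PT.lf (nat_lit 31540) (nat_lit 6) (nat_lit 415) (nat_lit 4) (nat_lit 176) (nat_lit 211) (nat_lit 183)) (PT.lf (nat_lit 31464) (nat_lit 6) (nat_lit 414) (nat_lit 4) (nat_lit 177) (nat_lit 211) (nat_lit 182))) (PT.nd (nat_lit 78) (PT.lf (nat_lit 31388) (nat_lit 6) (nat_lit 413) (nat_lit 4) (nat_lit 178) (nat_lit 211) (nat_lit 181)) (PT.lf (nat_lit 31312) (nat_lit 6) (nat_lit 412) (nat_lit 4) (nat_lit 179) (nat_lit 211) (nat_lit 180))))) (PT.nd (nat_lit 234) (PT.nd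 (nat_lit 78) (PT.lf (nat_lit 31312) (nat_lit 6) (nat_lit 412) (nat_lit 2) (nat_lit 180) (nat_lit 211) (nat_lit 179)) (PT.nd (nat_lit 78) (PT.lf (nat_lit 31388) (nat_lit 6) (nat_lit 413) (nat_lit 2) (nat_lit 181) (nat_lit 211) (nat_lit 178)) (PT.lf (nat_lit 31464) (nat_lit 6) (nat_lit 414) (nat_lit 2) (nat_lit 182) (nat_lit 211) (nat_lit 177)))) (PT.nd (nat_lit 156) (PT.nd (nat_lit 78) (PT.lf (nat_lit 31540) (nat_lit 6) (nat_lit 415) (nat_lit 2) (nat_lit 183) (nat_lit 211) (nat_lit 176)) (PT.lf (nat_lit 31616) (nat_lit 6) (nat_lit 416) (nat_lit 2) (nat_lit 184) (nat_lit 211) (nat_lit 175))) (PT.nd (nat_lit 78) (PT.lf (nat_lit 31692) (nat_lit 6) (nat_lit 417) (nat_lit 2) (nat_lit 185) (nat_lit 211) (nat_lit 174)) (PT.lf (nat_lit 31768) (nat_lit 6) (nat_lit 418) (nat_lit 2) (nat_lit 186) (nat_lit 211) (nat_lit 173)))))) (PT.nd (nat_lit 546) (PT.nd (nat_lit 234) (PT.nd (nat_lit 78) (PT.lf (nat_lit 31844) (nat_lit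 6) (nat_lit 419) (nat_lit 2) (nat_lit 187) (nat_lit 211) (nat_lit 172)) (PT.nd (nat_lit 78) (PT.lf (nat_lit 31920) (nat_lit 6) (nat_lit 420) (nat_lit 2) (nat_lit 188) (nat_lit 211) (nat_lit 171)) (PT.lf (nat_lit 31996) (nat_lit 6) (nat_lit 421) (nat_lit 2) (nat_lit 189) (nat_lit 211) (nat_lit 170)))) (PT.nd (nat_lit 156) (PT.nd (nat_lit 78) (PT.lf (nat_lit 32072) (nat_lit 6) (nat_lit 422) (nat_lit 2) (nat_lit 190) (nat_lit 211) (nat_lit 169)) (PT.lf (nat_lit 30476) (nat_lit 6) (nat_lit 401) (nat_lit 2) (nat_lit 191) (nat_lit 211) (nat_lit 168))) (PT.nd (nat_lit 78) (PT.lf (nat_lit 28804) (nat_lit 6) (nat_lit 379) (nat_lit 2) (nat_lit 192) (nat_lit 211) (nat_lit 167)) (PT.lf (nat_lit 27056) (nat_lit 6) (nat_lit 356) (nat_lit 2) (nat_lit 193) (nat_lit 211) (nat_lit 166))))) (PT.nd (nat_lit 312) (PT.nd (nat_lit 156) (PT.nd (nat_lit 78) (PT.lf (nat_lit 26144) (nat_lit 6) (nat_lit 344) (nat_lit 2) (nat_lit 194)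 (nat_lit 211) (nat_lit 165)) (PT.lf (nat_lit 25232) (nat_lit 6) (nat_lit 332) (nat_lit 2) (nat_lit 195) (nat_lit 211) (nat_lit 164))) (PT.nd (nat_lit 78) (PT.lf (nat_lit 24396) (nat_lit 6) (nat_lit 321) (nat_lit 2) (nat_lit 196) (nat_lit 211) (nat_lit 163)) (PT.lf (nat_lit 23560) (nat_lit 6) (nat_lit 310) (nat_lit 2) (nat_lit 197) (nat_lit 211) (nat_lit 162)))) (PT.nd (nat_lit 156) (PT.nd (nat_lit 78) (PT.lf (nat_lit 22800) (nat_lit 6) (nat_lit 300) (nat_lit 2) (nat_lit 198) (nat_lit 211) (nat_lit 161)) (PT.lf (nat_lit 22040) (nat_lit 6) (nat_lit 290) (nat_lit 2) (nat_lit 199) (nat_lit 211) (nat_lit 160))) (PT.nd (nat_lit 78) (PT.lf (nat_lit 21280) (nat_lit 6) (nat_lit 280) (nat_lit 2) (nat_lit 200) (nat_lit 211) (nat_lit 159)) (PT.lf (nat_lit 20520) (nat_lit 6) (nat_lit 270) (nat_lit 2) (nat_lit 201) (nat_lit 211) (nat_lit 158))))))))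
noncomputable def pc50 : PT := (PT.nd (nat_lit 54912) (PT.nd (nat_lit 1092) (PT.nd (nat_lit 546) (PT.nd (nat_lit 234) (PT.nd (nat_lit 78) (PT.lf (nat_lit 19836) (nat_lit 6) (nat_lit 261) (nat_lit 2) (nat_lit 202) (nat_lit 211) (nat_lit 157)) (PT.nd (nat_lit 78) (PT.lf (nat_lit 19152) (nat_lit 6) (nat_lit 252) (nat_lit 2) (nat_lit 203) (nat_lit 211) (nat_lit 156)) (PT.lf (nat_lit 18544) (nat_lit 6) (nat_lit 244) (nat_lit 2) (nat_lit 204) (nat_lit 211) (nat_lit 155)))) (PT.nd (nat_lit 156) (PT.nd (nat_lit 78) (PT.lf (nat_lit 17860) (nat_lit 6) (nat_lit 235) (nat_lit 2) (nat_lit 205) (nat_lit 211) (nat_lit 154)) (PT.lf (nat_lit 17252) (nat_lit 6) (nat_lit 227) (nat_lit 2) (nat_lit 206) (nat_lit 211) (nat_lit 153))) (PT.nd (nat_lit 78) (PT.lf (nat_lit 16644) (nat_lit 6) (nat_lit 219) (nat_lit 2) (nat_lit 207) (nat_lit 211) (nat_lit 152)) (PT.lf (nat_lit 16112) (nat_lit 6) (nat_lit 212) (nat_lit 2) (nat_lit 208)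 (nat_lit 211) (nat_lit 151))))) (PT.nd (nat_lit 234) (PT.nd (nat_lit 78) (PT.lf (nat_lit 15504) (nat_lit 6) (nat_lit 204) (nat_lit 2) (nat_lit 209) (nat_lit 211) (nat_lit 150)) (PT.nd (nat_lit 78) (PT.lf (nat_lit 14972) (nat_lit 6) (nat_lit 197) (nat_lit 2) (nat_lit 210) (nat_lit 211) (nat_lit 149)) (PT.lf (nat_lit 14440) (nat_lit 3) (nat_lit 190) (nat_lit 0) (nat_lit 211) (nat_lit 211) (nat_lit 148)))) (PT.nd (nat_lit 156) (PT.nd (nat_lit 78) (PT.lf (nat_lit 13832) (nat_lit 6) (nat_lit 182) (nat_lit 0) (nat_lit 212) (nat_lit 211) (nat_lit 147)) (PT.lf (nat_lit 13224) (nat_lit 6) (nat_lit 174) (nat_lit 0) (nat_lit 213) (nat_lit 211) (nat_lit 146))) (PT.nd (nat_lit 78) (PT.lf (nat_lit 12692) (nat_lit 6) (nat_lit 167) (nat_lit 0) (nat_lit 214) (nat_lit 211) (nat_lit 145)) (PT.lf (nat_lit 12160) (nat_lit 6) (nat_lit 160) (nat_lit 0) (nat_lit 215) (nat_lit 211) (nat_lit 144)))))) (PT.nd (nat_lit 53274) (PT.nd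 (nat_lit 234) (PT.nd (nat_lit 78) (PT.lf (nat_lit 11628) (nat_lit 6) (nat_lit 153) (nat_lit 0) (nat_lit 216) (nat_lit 211) (nat_lit 143)) (PT.nd (nat_lit 78) (PT.lf (nat_lit 11096) (nat_lit 6) (nat_lit 146) (nat_lit 0) (nat_lit 217) (nat_lit 211) (nat_lit 142)) (PT.lf (nat_lit 10640) (nat_lit 6) (nat_lit 140) (nat_lit 0) (nat_lit 218) (nat_lit 211) (nat_lit 141)))) (PT.nd (nat_lit 156) (PT.nd (nat_lit 78) (PT.lf (nat_lit 10108) (nat_lit 6) (nat_lit 133) (nat_lit 0) (nat_lit 219) (nat_lit 211) (nat_lit 140)) (PT.lf (nat_lit 9652) (nat_lit 6) (nat_lit 127) (nat_lit 0) (nat_lit 220) (nat_lit 211) (nat_lit 139))) (PT.nd (nat_lit 52806) (PT.lf (nat_lit 9196) (nat_lit 6) (nat_lit 121) (nat_lit 0) (nat_lit 221) (nat_lit 211) (nat_lit 138)) (PT.lf (nat_lit 8816) (nat_lit 6) (nat_lit 116) (nat_lit 5) (nat_lit 137) (nat_lit 212) (nat_lit 221))))) (PT.nd (nat_lit 234) (PT.nd (nat_lit 78) (PT.lf (nat_lit 9272) (nat_lit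 6) (nat_lit 122) (nat_lit 5) (nat_lit 138) (nat_lit 212) (nat_lit 220)) (PT.nd (nat_lit 78) (PT.lf (nat_lit 9728) (nat_lit 6) (nat_lit 128) (nat_lit 5) (nat_lit 139) (nat_lit 212) (nat_lit 219)) (PT.lf (nat_lit 10184) (nat_lit 6) (nat_lit 134) (nat_lit 5) (nat_lit 140) (nat_lit 212) (nat_lit 218)))) (PT.nd (nat_lit 156) (PT.nd (nat_lit 78) (PT.lf (nat_lit 10716) (nat_lit 6) (nat_lit 141) (nat_lit 5) (nat_lit 141) (nat_lit 212) (nat_lit 217)) (PT.lf (nat_lit 11172) (nat_lit 6) (nat_lit 147) (nat_lit 5) (nat_lit 142) (nat_lit 212) (nat_lit 216))) (PT.nd (nat_lit 78) (PT.lf (nat_lit 11704) (nat_lit 6) (nat_lit 154) (nat_lit 5) (nat_lit 143) (nat_lit 212) (nat_lit 215)) (PT.lf (nat_lit 12236) (nat_lit 6) (nat_lit 161) (nat_lit 5) (nat_lit 144) (nat_lit 212) (nat_lit 214))))))) (PT.nd (nat_lit 1092) (PT.nd (nat_lit 546) (PT.nd (nat_lit 234) (PT.nd (nat_lit 78) (PT.lf (nat_lit 12768) (nat_lit 6) (nat_lit 168)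 (nat_lit 5) (nat_lit 145) (nat_lit 212) (nat_lit 213)) (PT.nd (nat_lit 78) (PT.lf (nat_lit 13300) (nat_lit 3) (nat_lit 175) (nat_lit 4) (nat_lit 146) (nat_lit 212) (nat_lit 212)) (PT.lf (nat_lit 13832) (nat_lit 6) (nat_lit 182) (nat_lit 4) (nat_lit 147) (nat_lit 212) (nat_lit 211)))) (PT.nd (nat_lit 156) (PT.nd (nat_lit 78) (PT.lf (nat_lit 14364) (nat_lit 6) (nat_lit 189) (nat_lit 4) (nat_lit 148) (nat_lit 212) (nat_lit 210)) (PT.lf (nat_lit 14896) (nat_lit 6) (nat_lit 196) (nat_lit 4) (nat_lit 149) (nat_lit 212) (nat_lit 209))) (PT.nd (nat_lit 78) (PT.lf (nat_lit 15428) (nat_lit 6) (nat_lit 203) (nat_lit 4) (nat_lit 150) (nat_lit 212) (nat_lit 208)) (PT.lf (nat_lit 16036) (nat_lit 6) (nat_lit 211) (nat_lit 4) (nat_lit 151) (nat_lit 212) (nat_lit 207))))) (PT.nd (nat_lit 234) (PT.nd (nat_lit 78) (PT.lf (nat_lit 16568) (nat_lit 6) (nat_lit 218) (nat_lit 4) (nat_lit 152) (nat_lit 212) (nat_lit 206)) (PT.nd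 (nat_lit 78) (PT.lf (nat_lit 17176) (nat_lit 6) (nat_lit 226) (nat_lit 4) (nat_lit 153) (nat_lit 212) (nat_lit 205)) (PT.lf (nat_lit 17784) (nat_lit 6) (nat_lit 234) (nat_lit 4) (nat_lit 154) (nat_lit 212) (nat_lit 204)))) (PT.nd (nat_lit 156) (PT.nd (nat_lit 78) (PT.lf (nat_lit 18468) (nat_lit 6) (nat_lit 243) (nat_lit 4) (nat_lit 155) (nat_lit 212) (nat_lit 203)) (PT.lf (nat_lit 19076) (nat_lit 6) (nat_lit 251) (nat_lit 4) (nat_lit 156) (nat_lit 212) (nat_lit 202))) (PT.nd (nat_lit 78) (PT.lf (nat_lit 19760) (nat_lit 6) (nat_lit 260) (nat_lit 4) (nat_lit 157) (nat_lit 212) (nat_lit 201)) (PT.lf (nat_lit 20444) (nat_lit 6) (nat_lit 269) (nat_lit 4) (nat_lit 158) (nat_lit 212) (nat_lit 200)))))) (PT.nd (nat_lit 546) (PT.nd (nat_lit 234) (PT.nd (nat_lit 78) (PT.lf (nat_lit 21204) (nat_lit 6) (nat_lit 279) (nat_lit 4) (nat_lit 159) (nat_lit 212) (nat_lit 199)) (PT.nd (nat_lit 78) (PT.lf (nat_lit 21964) (nat_lit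 6) (nat_lit 289) (nat_lit 4) (nat_lit 160) (nat_lit 212) (nat_lit 198)) (PT.lf (nat_lit 22724) (nat_lit 6) (nat_lit 299) (nat_lit 4) (nat_lit 161) (nat_lit 212) (nat_lit 197)))) (PT.nd (nat_lit 156) (PT.nd (nat_lit 78) (PT.lf (nat_lit 23484) (nat_lit 6) (nat_lit 309) (nat_lit 4) (nat_lit 162) (nat_lit 212) (nat_lit 196)) (PT.lf (nat_lit 24320) (nat_lit 6) (nat_lit 320) (nat_lit 4) (nat_lit 163) (nat_lit 212) (nat_lit 195))) (PT.nd (nat_lit 78) (PT.lf (nat_lit 25156) (nat_lit 6) (nat_lit 331) (nat_lit 4) (nat_lit 164) (nat_lit 212) (nat_lit 194)) (PT.lf (nat_lit 26068) (nat_lit 6) (nat_lit 343) (nat_lit 4) (nat_lit 165) (nat_lit 212) (nat_lit 193))))) (PT.nd (nat_lit 312) (PT.nd (nat_lit 156) (PT.nd (nat_lit 78) (PT.lf (nat_lit 26980) (nat_lit 6) (nat_lit 355) (nat_lit 4) (nat_lit 166) (nat_lit 212) (nat_lit 192)) (PT.lf (nat_lit 28728) (nat_lit 6) (nat_lit 378) (nat_lit 4) (nat_lit 167) (nat_lit 212) (nat_lit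 191))) (PT.nd (nat_lit 78) (PT.lf (nat_lit 30400) (nat_lit 6) (nat_lit 400) (nat_lit 4) (nat_lit 168) (nat_lit 212) (nat_lit 190)) (PT.lf (nat_lit 30324) (nat_lit 6) (nat_lit 399) (nat_lit 4) (nat_lit 169) (nat_lit 212) (nat_lit 189)))) (PT.nd (nat_lit 156) (PT.nd (nat_lit 78) (PT.lf (nat_lit 30248) (nat_lit 6) (nat_lit 398) (nat_lit 4) (nat_lit 170) (nat_lit 212) (nat_lit 188)) (PT.lf (nat_lit 30172) (nat_lit 6) (nat_lit 397) (nat_lit 4) (nat_lit 171) (nat_lit 212) (nat_lit 187))) (PT.nd (nat_lit 78) (PT.lf (nat_lit 30096) (nat_lit 6) (nat_lit 396) (nat_lit 4) (nat_lit 172) (nat_lit 212) (nat_lit 186)) (PT.lf (nat_lit 30020) (nat_lit 6) (nat_lit 395) (nat_lit 4) (nat_lit 173) (nat_lit 212) (nat_lit 185))))))))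
noncomputable def pc51 : PT := (PT.nd (nat_lit 2262) (PT.nd (nat_lit 1092) (PT.nd (nat_lit 546) (PT.nd (nat_lit 234) (PT.nd (nat_lit 78) (PT.lf (nat_lit 29944) (nat_lit 6) (nat_lit 394) (nat_lit 4) (nat_lit 174) (nat_lit 212) (nat_lit 184)) (PT.nd (nat_lit 78) (PT.lf (nat_lit 29868) (nat_lit 6) (nat_lit 393) (nat_lit 4) (nat_lit 175) (nat_lit 212) (nat_lit 183)) (PT.lf (nat_lit 29792) (nat_lit 6) (nat_lit 392) (nat_lit 4) (nat_lit 176) (nat_lit 212) (nat_lit 182)))) (PT.nd (nat_lit 156) (PT.nd (nat_lit 78) (PT.lf (nat_lit 29716) (nat_lit 6) (nat_lit 391) (nat_lit 4) (nat_lit 177) (nat_lit 212) (nat_lit 181)) (PT.lf (nat_lit 29640) (nat_lit 6) (nat_lit 390) (nat_lit 4) (nat_lit 178) (nat_lit 212) (nat_lit 180))) (PT.nd (nat_lit 78) (PT.lf (nat_lit 29564) (nat_lit 3) (nat_lit 389) (nat_lit 2) (nat_lit 179) (nat_lit 212) (nat_lit 179)) (PT.lf (nat_lit 29640) (nat_lit 6) (nat_lit 390) (nat_lit 2) (nat_lit 180)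 (nat_lit 212) (nat_lit 178))))) (PT.nd (nat_lit 234) (PT.nd (nat_lit 78) (PT.lf (nat_lit 29716) (nat_lit 6) (nat_lit 391) (nat_lit 2) (nat_lit 181) (nat_lit 212) (nat_lit 177)) (PT.nd (nat_lit 78) (PT.lf (nat_lit 29792) (nat_lit 6) (nat_lit 392) (nat_lit 2) (nat_lit 182) (nat_lit 212) (nat_lit 176)) (PT.lf (nat_lit 29868) (nat_lit 6) (nat_lit 393) (nat_lit 2) (nat_lit 183) (nat_lit 212) (nat_lit 175)))) (PT.nd (nat_lit 156) (PT.nd (nat_lit 78) (PT.lf (nat_lit 29944) (nat_lit 6) (nat_lit 394) (nat_lit 2) (nat_lit 184) (nat_lit 212) (nat_lit 174)) (PT.lf (nat_lit 30020) (nat_lit 6) (nat_lit 395) (nat_lit 2) (nat_lit 185) (nat_lit 212) (nat_lit 173))) (PT.nd (nat_lit 78) (PT.lf (nat_lit 30096) (nat_lit 6) (nat_lit 396) (nat_lit 2) (nat_lit 186) (nat_lit 212) (nat_lit 172)) (PT.lf (nat_lit 30172) (nat_lit 6) (nat_lit 397) (nat_lit 2) (nat_lit 187) (nat_lit 212) (nat_lit 171)))))) (PT.nd (nat_lit 546) (PT.nd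 (nat_lit 234) (PT.nd (nat_lit 78) (PT.lf (nat_lit 30248) (nat_lit 6) (nat_lit 398) (nat_lit 2) (nat_lit 188) (nat_lit 212) (nat_lit 170)) (PT.nd (nat_lit 78) (PT.lf (nat_lit 30324) (nat_lit 6) (nat_lit 399) (nat_lit 2) (nat_lit 189) (nat_lit 212) (nat_lit 169)) (PT.lf (nat_lit 30400) (nat_lit 6) (nat_lit 400) (nat_lit 2) (nat_lit 190) (nat_lit 212) (nat_lit 168)))) (PT.nd (nat_lit 156) (PT.nd (nat_lit 78) (PT.lf (nat_lit 28728) (nat_lit 6) (nat_lit 378) (nat_lit 2) (nat_lit 191) (nat_lit 212) (nat_lit 167)) (PT.lf (nat_lit 26980) (nat_lit 6) (nat_lit 355) (nat_lit 2) (nat_lit 192) (nat_lit 212) (nat_lit 166))) (PT.nd (nat_lit 78) (PT.lf (nat_lit 26068) (nat_lit 6) (nat_lit 343) (nat_lit 2) (nat_lit 193) (nat_lit 212) (nat_lit 165)) (PT.lf (nat_lit 25156) (nat_lit 6) (nat_lit 331) (nat_lit 2) (nat_lit 194) (nat_lit 212) (nat_lit 164))))) (PT.nd (nat_lit 312) (PT.nd (nat_lit 156) (PT.nd (nat_lit 78) (PT.lf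 (nat_lit 24320) (nat_lit 6) (nat_lit 320) (nat_lit 2) (nat_lit 195) (nat_lit 212) (nat_lit 163)) (PT.lf (nat_lit 23484) (nat_lit 6) (nat_lit 309) (nat_lit 2) (nat_lit 196) (nat_lit 212) (nat_lit 162))) (PT.nd (nat_lit 78) (PT.lf (nat_lit 22724) (nat_lit 6) (nat_lit 299) (nat_lit 2) (nat_lit 197) (nat_lit 212) (nat_lit 161)) (PT.lf (nat_lit 21964) (nat_lit 6) (nat_lit 289) (nat_lit 2) (nat_lit 198) (nat_lit 212) (nat_lit 160)))) (PT.nd (nat_lit 156) (PT.nd (nat_lit 78) (PT.lf (nat_lit 21204) (nat_lit 6) (nat_lit 279) (nat_lit 2) (nat_lit 199) (nat_lit 212) (nat_lit 159)) (PT.lf (nat_lit 20444) (nat_lit 6) (nat_lit 269) (nat_lit 2) (nat_lit 200) (nat_lit 212) (nat_lit 158))) (PT.nd (nat_lit 78) (PT.lf (nat_lit 19760) (nat_lit 6) (nat_lit 260) (nat_lit 2) (nat_lit 201) (nat_lit 212) (nat_lit 157)) (PT.lf (nat_lit 19076) (nat_lit 6) (nat_lit 251) (nat_lit 2) (nat_lit 202) (nat_lit 212) (nat_lit 156))))))) (PT.nd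 (nat_lit 1092) (PT.nd (nat_lit 546) (PT.nd (nat_lit 234) (PT.nd (nat_lit 78) (PT.lf (nat_lit 18468) (nat_lit 6) (nat_lit 243) (nat_lit 2) (nat_lit 203) (nat_lit 212) (nat_lit 155)) (PT.nd (nat_lit 78) (PT.lf (nat_lit 17784) (nat_lit 6) (nat_lit 234) (nat_lit 2) (nat_lit 204) (nat_lit 212) (nat_lit 154)) (PT.lf (nat_lit 17176) (nat_lit 6) (nat_lit 226) (nat_lit 2) (nat_lit 205) (nat_lit 212) (nat_lit 153)))) (PT.nd (nat_lit 156) (PT.nd (nat_lit 78) (PT.lf (nat_lit 16568) (nat_lit 6) (nat_lit 218) (nat_lit 2) (nat_lit 206) (nat_lit 212) (nat_lit 152)) (PT.lf (nat_lit 16036) (nat_lit 6) (nat_lit 211) (nat_lit 2) (nat_lit 207) (nat_lit 212) (nat_lit 151))) (PT.nd (nat_lit 78) (PT.lf (nat_lit 15428) (nat_lit 6) (nat_lit 203) (nat_lit 2) (nat_lit 208) (nat_lit 212) (nat_lit 150)) (PT.lf (nat_lit 14896) (nat_lit 6) (nat_lit 196) (nat_lit 2) (nat_lit 209) (nat_lit 212) (nat_lit 149))))) (PT.nd (nat_lit 234) (PT.nd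 (nat_lit 78) (PT.lf (nat_lit 14364) (nat_lit 6) (nat_lit 189) (nat_lit 2) (nat_lit 210) (nat_lit 212) (nat_lit 148)) (PT.nd (nat_lit 78) (PT.lf (nat_lit 13832) (nat_lit 6) (nat_lit 182) (nat_lit 2) (nat_lit 211) (nat_lit 212) (nat_lit 147)) (PT.lf (nat_lit 13300) (nat_lit 3) (nat_lit 175) (nat_lit 0) (nat_lit 212) (nat_lit 212) (nat_lit 146)))) (PT.nd (nat_lit 156) (PT.nd (nat_lit 78) (PT.lf (nat_lit 12768) (nat_lit 6) (nat_lit 168) (nat_lit 0) (nat_lit 213) (nat_lit 212) (nat_lit 145)) (PT.lf (nat_lit 12236) (nat_lit 6) (nat_lit 161) (nat_lit 0) (nat_lit 214) (nat_lit 212) (nat_lit 144))) (PT.nd (nat_lit 78) (PT.lf (nat_lit 11704) (nat_lit 6) (nat_lit 154) (nat_lit 0) (nat_lit 215) (nat_lit 212) (nat_lit 143)) (PT.lf (nat_lit 11172) (nat_lit 6) (nat_lit 147) (nat_lit 0) (nat_lit 216) (nat_lit 212) (nat_lit 142)))))) (PT.nd (nat_lit 53118) (PT.nd (nat_lit 234) (PT.nd (nat_lit 78) (PT.lf (nat_lit 10716) (nat_lit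 6) (nat_lit 141) (nat_lit 0) (nat_lit 217) (nat_lit 212) (nat_lit 141)) (PT.nd (nat_lit 78) (PT.lf (nat_lit 10184) (nat_lit 6) (nat_lit 134) (nat_lit 0) (nat_lit 218) (nat_lit 212) (nat_lit 140)) (PT.lf (nat_lit 9728) (nat_lit 6) (nat_lit 128) (nat_lit 0) (nat_lit 219) (nat_lit 212) (nat_lit 139)))) (PT.nd (nat_lit 52728) (PT.nd (nat_lit 78) (PT.lf (nat_lit 9272) (nat_lit 6) (nat_lit 122) (nat_lit 0) (nat_lit 220) (nat_lit 212) (nat_lit 138)) (PT.lf (nat_lit 8816) (nat_lit 6) (nat_lit 116) (nat_lit 0) (nat_lit 221) (nat_lit 212) (nat_lit 137))) (PT.nd (nat_lit 78) (PT.lf (nat_lit 8056) (nat_lit 6) (nat_lit 106) (nat_lit 5) (nat_lit 135) (nat_lit 213) (nat_lit 222)) (PT.lf (nat_lit 8436) (nat_lit 6) (nat_lit 111) (nat_lit 5) (nat_lit 136) (nat_lit 213) (nat_lit 221))))) (PT.nd (nat_lit 312) (PT.nd (nat_lit 156) (PT.nd (nat_lit 78) (PT.lf (nat_lit 8892) (nat_lit 6) (nat_lit 117) (nat_lit 5) (nat_lit 137) (nat_lit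 213) (nat_lit 220)) (PT.lf (nat_lit 9348) (nat_lit 6) (nat_lit 123) (nat_lit 5) (nat_lit 138) (nat_lit 213) (nat_lit 219))) (PT.nd (nat_lit 78) (PT.lf (nat_lit 9804) (nat_lit 6) (nat_lit 129) (nat_lit 5) (nat_lit 139) (nat_lit 213) (nat_lit 218)) (PT.lf (nat_lit 10260) (nat_lit 6) (nat_lit 135) (nat_lit 5) (nat_lit 140) (nat_lit 213) (nat_lit 217)))) (PT.nd (nat_lit 156) (PT.nd (nat_lit 78) (PT.lf (nat_lit 10792) (nat_lit 6) (nat_lit 142) (nat_lit 5) (nat_lit 141) (nat_lit 213) (nat_lit 216)) (PT.lf (nat_lit 11248) (nat_lit 6) (nat_lit 148) (nat_lit 5) (nat_lit 142) (nat_lit 213) (nat_lit 215))) (PT.nd (nat_lit 78) (PT.lf (nat_lit 11780) (nat_lit 6) (nat_lit 155) (nat_lit 5) (nat_lit 143) (nat_lit 213) (nat_lit 214)) (PT.lf (nat_lit 12312) (nat_lit 3) (nat_lit 162) (nat_lit 4) (nat_lit 144) (nat_lit 213) (nat_lit 213))))))))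
noncomputable def pc52 : PT := (PT.nd (nat_lit 2184) (PT.nd (nat_lit 1092) (PT.nd (nat_lit 546) (PT.nd (nat_lit 234) (PT.nd (nat_lit 78) (PT.lf (nat_lit 12768) (nat_lit 6) (nat_lit 168) (nat_lit 4) (nat_lit 145) (nat_lit 213) (nat_lit 212)) (PT.nd (nat_lit 78) (PT.lf (nat_lit 13224) (nat_lit 6) (nat_lit 174) (nat_lit 4) (nat_lit 146) (nat_lit 213) (nat_lit 211)) (PT.lf (nat_lit 13756) (nat_lit 6) (nat_lit 181) (nat_lit 4) (nat_lit 147) (nat_lit 213) (nat_lit 210)))) (PT.nd (nat_lit 156) (PT.nd (nat_lit 78) (PT.lf (nat_lit 14288) (nat_lit 6) (nat_lit 188) (nat_lit 4) (nat_lit 148) (nat_lit 213) (nat_lit 209)) (PT.lf (nat_lit 14820) (nat_lit 6) (nat_lit 195) (nat_lit 4) (nat_lit 149) (nat_lit 213) (nat_lit 208))) (PT.nd (nat_lit 78) (PT.lf (nat_lit 15352) (nat_lit 6) (nat_lit 202) (nat_lit 4) (nat_lit 150) (nat_lit 213) (nat_lit 207)) (PT.lf (nat_lit 15960) (nat_lit 6) (nat_lit 210) (nat_lit 4) (nat_lit 151)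 (nat_lit 213) (nat_lit 206))))) (PT.nd (nat_lit 234) (PT.nd (nat_lit 78) (PT.lf (nat_lit 16492) (nat_lit 6) (nat_lit 217) (nat_lit 4) (nat_lit 152) (nat_lit 213) (nat_lit 205)) (PT.nd (nat_lit 78) (PT.lf (nat_lit 17100) (nat_lit 6) (nat_lit 225) (nat_lit 4) (nat_lit 153) (nat_lit 213) (nat_lit 204)) (PT.lf (nat_lit 17708) (nat_lit 6) (nat_lit 233) (nat_lit 4) (nat_lit 154) (nat_lit 213) (nat_lit 203)))) (PT.nd (nat_lit 156) (PT.nd (nat_lit 78) (PT.lf (nat_lit 18392) (nat_lit 6) (nat_lit 242) (nat_lit 4) (nat_lit 155) (nat_lit 213) (nat_lit 202)) (PT.lf (nat_lit 19000) (nat_lit 6) (nat_lit 250) (nat_lit 4) (nat_lit 156) (nat_lit 213) (nat_lit 201))) (PT.nd (nat_lit 78) (PT.lf (nat_lit 19684) (nat_lit 6) (nat_lit 259) (nat_lit 4) (nat_lit 157) (nat_lit 213) (nat_lit 200)) (PT.lf (nat_lit 20368) (nat_lit 6) (nat_lit 268) (nat_lit 4) (nat_lit 158) (nat_lit 213) (nat_lit 199)))))) (PT.nd (nat_lit 546) (PT.nd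 (nat_lit 234) (PT.nd (nat_lit 78) (PT.lf (nat_lit 21128) (nat_lit 6) (nat_lit 278) (nat_lit 4) (nat_lit 159) (nat_lit 213) (nat_lit 198)) (PT.nd (nat_lit 78) (PT.lf (nat_lit 21888) (nat_lit 6) (nat_lit 288) (nat_lit 4) (nat_lit 160) (nat_lit 213) (nat_lit 197)) (PT.lf (nat_lit 22648) (nat_lit 6) (nat_lit 298) (nat_lit 4) (nat_lit 161) (nat_lit 213) (nat_lit 196)))) (PT.nd (nat_lit 156) (PT.nd (nat_lit 78) (PT.lf (nat_lit 23408) (nat_lit 6) (nat_lit 308) (nat_lit 4) (nat_lit 162) (nat_lit 213) (nat_lit 195)) (PT.lf (nat_lit 24244) (nat_lit 6) (nat_lit 319) (nat_lit 4) (nat_lit 163) (nat_lit 213) (nat_lit 194))) (PT.nd (nat_lit 78) (PT.lf (nat_lit 25080) (nat_lit 6) (nat_lit 330) (nat_lit 4) (nat_lit 164) (nat_lit 213) (nat_lit 193)) (PT.lf (nat_lit 25992) (nat_lit 6) (nat_lit 342) (nat_lit 4) (nat_lit 165) (nat_lit 213) (nat_lit 192))))) (PT.nd (nat_lit 234) (PT.nd (nat_lit 78) (PT.lf (nat_lit 26904) (nat_lit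 6) (nat_lit 354) (nat_lit 4) (nat_lit 166) (nat_lit 213) (nat_lit 191)) (PT.nd (nat_lit 78) (PT.lf (nat_lit 28652) (nat_lit 6) (nat_lit 377) (nat_lit 4) (nat_lit 167) (nat_lit 213) (nat_lit 190)) (PT.lf (nat_lit 28576) (nat_lit 6) (nat_lit 376) (nat_lit 4) (nat_lit 168) (nat_lit 213) (nat_lit 189)))) (PT.nd (nat_lit 156) (PT.nd (nat_lit 78) (PT.lf (nat_lit 28500) (nat_lit 6) (nat_lit 375) (nat_lit 4) (nat_lit 169) (nat_lit 213) (nat_lit 188)) (PT.lf (nat_lit 28424) (nat_lit 6) (nat_lit 374) (nat_lit 4) (nat_lit 170) (nat_lit 213) (nat_lit 187))) (PT.nd (nat_lit 78) (PT.lf (nat_lit 28348) (nat_lit 6) (nat_lit 373) (nat_lit 4) (nat_lit 171) (nat_lit 213) (nat_lit 186)) (PT.lf (nat_lit 28272) (nat_lit 6) (nat_lit 372) (nat_lit 4) (nat_lit 172) (nat_lit 213) (nat_lit 185))))))) (PT.nd (nat_lit 1092) (PT.nd (nat_lit 546) (PT.nd (nat_lit 234) (PT.nd (nat_lit 78) (PT.lf (nat_lit 28196) (nat_lit 6) (nat_lit 371)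 (nat_lit 4) (nat_lit 173) (nat_lit 213) (nat_lit 184)) (PT.nd (nat_lit 78) (PT.lf (nat_lit 28120) (nat_lit 6) (nat_lit 370) (nat_lit 4) (nat_lit 174) (nat_lit 213) (nat_lit 183)) (PT.lf (nat_lit 28044) (nat_lit 6) (nat_lit 369) (nat_lit 4) (nat_lit 175) (nat_lit 213) (nat_lit 182)))) (PT.nd (nat_lit 156) (PT.nd (nat_lit 78) (PT.lf (nat_lit 27968) (nat_lit 6) (nat_lit 368) (nat_lit 4) (nat_lit 176) (nat_lit 213) (nat_lit 181)) (PT.lf (nat_lit 27892) (nat_lit 6) (nat_lit 367) (nat_lit 4) (nat_lit 177) (nat_lit 213) (nat_lit 180))) (PT.nd (nat_lit 78) (PT.lf (nat_lit 27816) (nat_lit 6) (nat_lit 366) (nat_lit 4) (nat_lit 178) (nat_lit 213) (nat_lit 179)) (PT.lf (nat_lit 27816) (nat_lit 6) (nat_lit 366) (nat_lit 2) (nat_lit 179) (nat_lit 213) (nat_lit 178))))) (PT.nd (nat_lit 234) (PT.nd (nat_lit 78) (PT.lf (nat_lit 27892) (nat_lit 6) (nat_lit 367) (nat_lit 2) (nat_lit 180) (nat_lit 213) (nat_lit 177)) (PT.nd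 (nat_lit 78) (PT.lf (nat_lit 27968) (nat_lit 6) (nat_lit 368) (nat_lit 2) (nat_lit 181) (nat_lit 213) (nat_lit 176)) (PT.lf (nat_lit 28044) (nat_lit 6) (nat_lit 369) (nat_lit 2) (nat_lit 182) (nat_lit 213) (nat_lit 175)))) (PT.nd (nat_lit 156) (PT.nd (nat_lit 78) (PT.lf (nat_lit 28120) (nat_lit 6) (nat_lit 370) (nat_lit 2) (nat_lit 183) (nat_lit 213) (nat_lit 174)) (PT.lf (nat_lit 28196) (nat_lit 6) (nat_lit 371) (nat_lit 2) (nat_lit 184) (nat_lit 213) (nat_lit 173))) (PT.nd (nat_lit 78) (PT.lf (nat_lit 28272) (nat_lit 6) (nat_lit 372) (nat_lit 2) (nat_lit 185) (nat_lit 213) (nat_lit 172)) (PT.lf (nat_lit 28348) (nat_lit 6) (nat_lit 373) (nat_lit 2) (nat_lit 186) (nat_lit 213) (nat_lit 171)))))) (PT.nd (nat_lit 546) (PT.nd (nat_lit 234) (PT.nd (nat_lit 78) (PT.lf (nat_lit 28424) (nat_lit 6) (nat_lit 374) (nat_lit 2) (nat_lit 187) (nat_lit 213) (nat_lit 170)) (PT.nd (nat_lit 78) (PT.lf (nat_lit 28500) (nat_lit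 6) (nat_lit 375) (nat_lit 2) (nat_lit 188) (nat_lit 213) (nat_lit 169)) (PT.lf (nat_lit 28576) (nat_lit 6) (nat_lit 376) (nat_lit 2) (nat_lit 189) (nat_lit 213) (nat_lit 168)))) (PT.nd (nat_lit 156) (PT.nd (nat_lit 78) (PT.lf (nat_lit 28652) (nat_lit 6) (nat_lit 377) (nat_lit 2) (nat_lit 190) (nat_lit 213) (nat_lit 167)) (PT.lf (nat_lit 26904) (nat_lit 6) (nat_lit 354) (nat_lit 2) (nat_lit 191) (nat_lit 213) (nat_lit 166))) (PT.nd (nat_lit 78) (PT.lf (nat_lit 25992) (nat_lit 6) (nat_lit 342) (nat_lit 2) (nat_lit 192) (nat_lit 213) (nat_lit 165)) (PT.lf (nat_lit 25080) (nat_lit 6) (nat_lit 330) (nat_lit 2) (nat_lit 193) (nat_lit 213) (nat_lit 164))))) (PT.nd (nat_lit 312) (PT.nd (nat_lit 156) (PT.nd (nat_lit 78) (PT.lf (nat_lit 24244) (nat_lit 6) (nat_lit 319) (nat_lit 2) (nat_lit 194) (nat_lit 213) (nat_lit 163)) (PT.lf (nat_lit 23408) (nat_lit 6) (nat_lit 308) (nat_lit 2) (nat_lit 195) (nat_lit 213) (nat_lit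 162))) (PT.nd (nat_lit 78) (PT.lf (nat_lit 22648) (nat_lit 6) (nat_lit 298) (nat_lit 2) (nat_lit 196) (nat_lit 213) (nat_lit 161)) (PT.lf (nat_lit 21888) (nat_lit 6) (nat_lit 288) (nat_lit 2) (nat_lit 197) (nat_lit 213) (nat_lit 160)))) (PT.nd (nat_lit 156) (PT.nd (nat_lit 78) (PT.lf (nat_lit 21128) (nat_lit 6) (nat_lit 278) (nat_lit 2) (nat_lit 198) (nat_lit 213) (nat_lit 159)) (PT.lf (nat_lit 20368) (nat_lit 6) (nat_lit 268) (nat_lit 2) (nat_lit 199) (nat_lit 213) (nat_lit 158))) (PT.nd (nat_lit 78) (PT.lf (nat_lit 19684) (nat_lit 6) (nat_lit 259) (nat_lit 2) (nat_lit 200) (nat_lit 213) (nat_lit 157)) (PT.lf (nat_lit 19000) (nat_lit 6) (nat_lit 250) (nat_lit 2) (nat_lit 201) (nat_lit 213) (nat_lit 156))))))))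
noncomputable def pc53 : PT := (PT.nd (nat_lit 54678) (PT.nd (nat_lit 1092) (PT.nd (nat_lit 546) (PT.nd (nat_lit 234) (PT.nd (nat_lit 78) (PT.lf (nat_lit 18392) (nat_lit 6) (nat_lit 242) (nat_lit 2) (nat_lit 202) (nat_lit 213) (nat_lit 155)) (PT.nd (nat_lit 78) (PT.lf (nat_lit 17708) (nat_lit 6) (nat_lit 233) (nat_lit 2) (nat_lit 203) (nat_lit 213) (nat_lit 154)) (PT.lf (nat_lit 17100) (nat_lit 6) (nat_lit 225) (nat_lit 2) (nat_lit 204) (nat_lit 213) (nat_lit 153)))) (PT.nd (nat_lit 156) (PT.nd (nat_lit 78) (PT.lf (nat_lit 16492) (nat_lit 6) (nat_lit 217) (nat_lit 2) (nat_lit 205) (nat_lit 213) (nat_lit 152)) (PT.lf (nat_lit 15960) (nat_lit 6) (nat_lit 210) (nat_lit 2) (nat_lit 206) (nat_lit 213) (nat_lit 151))) (PT.nd (nat_lit 78) (PT.lf (nat_lit 15352) (nat_lit 6) (nat_lit 202) (nat_lit 2) (nat_lit 207) (nat_lit 213) (nat_lit 150)) (PT.lf (nat_lit 14820) (nat_lit 6) (nat_lit 195) (nat_lit 2) (nat_lit 208)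 (nat_lit 213) (nat_lit 149))))) (PT.nd (nat_lit 234) (PT.nd (nat_lit 78) (PT.lf (nat_lit 14288) (nat_lit 6) (nat_lit 188) (nat_lit 2) (nat_lit 209) (nat_lit 213) (nat_lit 148)) (PT.nd (nat_lit 78) (PT.lf (nat_lit 13756) (nat_lit 6) (nat_lit 181) (nat_lit 2) (nat_lit 210) (nat_lit 213) (nat_lit 147)) (PT.lf (nat_lit 13224) (nat_lit 6) (nat_lit 174) (nat_lit 2) (nat_lit 211) (nat_lit 213) (nat_lit 146)))) (PT.nd (nat_lit 156) (PT.nd (nat_lit 78) (PT.lf (nat_lit 12768) (nat_lit 6) (nat_lit 168) (nat_lit 2) (nat_lit 212) (nat_lit 213) (nat_lit 145)) (PT.lf (nat_lit 12312) (nat_lit 3) (nat_lit 162) (nat_lit 0) (nat_lit 213) (nat_lit 213) (nat_lit 144))) (PT.nd (nat_lit 78) (PT.lf (nat_lit 11780) (nat_lit 6) (nat_lit 155) (nat_lit 0) (nat_lit 214) (nat_lit 213) (nat_lit 143)) (PT.lf (nat_lit 11248) (nat_lit 6) (nat_lit 148) (nat_lit 0) (nat_lit 215) (nat_lit 213) (nat_lit 142)))))) (PT.nd (nat_lit 52962) (PT.nd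 (nat_lit 234) (PT.nd (nat_lit 78) (PT.lf (nat_lit 10792) (nat_lit 6) (nat_lit 142) (nat_lit 0) (nat_lit 216) (nat_lit 213) (nat_lit 141)) (PT.nd (nat_lit 78) (PT.lf (nat_lit 10260) (nat_lit 6) (nat_lit 135) (nat_lit 0) (nat_lit 217) (nat_lit 213) (nat_lit 140)) (PT.lf (nat_lit 9804) (nat_lit 6) (nat_lit 129) (nat_lit 0) (nat_lit 218) (nat_lit 213) (nat_lit 139)))) (PT.nd (nat_lit 156) (PT.nd (nat_lit 78) (PT.lf (nat_lit 9348) (nat_lit 6) (nat_lit 123) (nat_lit 0) (nat_lit 219) (nat_lit 213) (nat_lit 138)) (PT.lf (nat_lit 8892) (nat_lit 6) (nat_lit 117) (nat_lit 0) (nat_lit 220) (nat_lit 213) (nat_lit 137))) (PT.nd (nat_lit 78) (PT.lf (nat_lit 8436) (nat_lit 6) (nat_lit 111) (nat_lit 0) (nat_lit 221) (nat_lit 213) (nat_lit 136)) (PT.lf (nat_lit 8056) (nat_lit 6) (nat_lit 106) (nat_lit 0) (nat_lit 222) (nat_lit 213) (nat_lit 135))))) (PT.nd (nat_lit 312) (PT.nd (nat_lit 156) (PT.nd (nat_lit 78) (PT.lf (nat_lit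 7676) (nat_lit 6) (nat_lit 101) (nat_lit 5) (nat_lit 134) (nat_lit 214) (nat_lit 222)) (PT.lf (nat_lit 8132) (nat_lit 6) (nat_lit 107) (nat_lit 5) (nat_lit 135) (nat_lit 214) (nat_lit 221))) (PT.nd (nat_lit 78) (PT.lf (nat_lit 8512) (nat_lit 6) (nat_lit 112) (nat_lit 5) (nat_lit 136) (nat_lit 214) (nat_lit 220)) (PT.lf (nat_lit 8968) (nat_lit 6) (nat_lit 118) (nat_lit 5) (nat_lit 137) (nat_lit 214) (nat_lit 219)))) (PT.nd (nat_lit 156) (PT.nd (nat_lit 78) (PT.lf (nat_lit 9424) (nat_lit 6) (nat_lit 124) (nat_lit 5) (nat_lit 138) (nat_lit 214) (nat_lit 218)) (PT.lf (nat_lit 9880) (nat_lit 6) (nat_lit 130) (nat_lit 5) (nat_lit 139) (nat_lit 214) (nat_lit 217))) (PT.nd (nat_lit 78) (PT.lf (nat_lit 10336) (nat_lit 6) (nat_lit 136) (nat_lit 5) (nat_lit 140) (nat_lit 214) (nat_lit 216)) (PT.lf (nat_lit 10868) (nat_lit 6) (nat_lit 143) (nat_lit 5) (nat_lit 141) (nat_lit 214) (nat_lit 215))))))) (PT.nd (nat_lit 1092)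 (PT.nd (nat_lit 546) (PT.nd (nat_lit 234) (PT.nd (nat_lit 78) (PT.lf (nat_lit 11324) (nat_lit 3) (nat_lit 149) (nat_lit 4) (nat_lit 142) (nat_lit 214) (nat_lit 214)) (PT.nd (nat_lit 78) (PT.lf (nat_lit 11780) (nat_lit 6) (nat_lit 155) (nat_lit 4) (nat_lit 143) (nat_lit 214) (nat_lit 213)) (PT.lf (nat_lit 12236) (nat_lit 6) (nat_lit 161) (nat_lit 4) (nat_lit 144) (nat_lit 214) (nat_lit 212)))) (PT.nd (nat_lit 156) (PT.nd (nat_lit 78) (PT.lf (nat_lit 12692) (nat_lit 6) (nat_lit 167) (nat_lit 4) (nat_lit 145) (nat_lit 214) (nat_lit 211)) (PT.lf (nat_lit 13148) (nat_lit 6) (nat_lit 173) (nat_lit 4) (nat_lit 146) (nat_lit 214) (nat_lit 210))) (PT.nd (nat_lit 78) (PT.lf (nat_lit 13680) (nat_lit 6) (nat_lit 180) (nat_lit 4) (nat_lit 147) (nat_lit 214) (nat_lit 209)) (PT.lf (nat_lit 14212) (nat_lit 6) (nat_lit 187) (nat_lit 4) (nat_lit 148) (nat_lit 214) (nat_lit 208))))) (PT.nd (nat_lit 234) (PT.nd (nat_lit 78)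 (PT.lf (nat_lit 14744) (nat_lit 6) (nat_lit 194) (nat_lit 4) (nat_lit 149) (nat_lit 214) (nat_lit 207)) (PT.nd (nat_lit 78) (PT.lf (nat_lit 15276) (nat_lit 6) (nat_lit 201) (nat_lit 4) (nat_lit 150) (nat_lit 214) (nat_lit 206)) (PT.lf (nat_lit 15884) (nat_lit 6) (nat_lit 209) (nat_lit 4) (nat_lit 151) (nat_lit 214) (nat_lit 205)))) (PT.nd (nat_lit 156) (PT.nd (nat_lit 78) (PT.lf (nat_lit 16416) (nat_lit 6) (nat_lit 216) (nat_lit 4) (nat_lit 152) (nat_lit 214) (nat_lit 204)) (PT.lf (nat_lit 17024) (nat_lit 6) (nat_lit 224) (nat_lit 4) (nat_lit 153) (nat_lit 214) (nat_lit 203))) (PT.nd (nat_lit 78) (PT.lf (nat_lit 17632) (nat_lit 6) (nat_lit 232) (nat_lit 4) (nat_lit 154) (nat_lit 214) (nat_lit 202)) (PT.lf (nat_lit 18316) (nat_lit 6) (nat_lit 241) (nat_lit 4) (nat_lit 155) (nat_lit 214) (nat_lit 201)))))) (PT.nd (nat_lit 546) (PT.nd (nat_lit 234) (PT.nd (nat_lit 78) (PT.lf (nat_lit 18924) (nat_lit 6) (nat_lit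 249) (nat_lit 4) (nat_lit 156) (nat_lit 214) (nat_lit 200)) (PT.nd (nat_lit 78) (PT.lf (nat_lit 19608) (nat_lit 6) (nat_lit 258) (nat_lit 4) (nat_lit 157) (nat_lit 214) (nat_lit 199)) (PT.lf (nat_lit 20292) (nat_lit 6) (nat_lit 267) (nat_lit 4) (nat_lit 158) (nat_lit 214) (nat_lit 198)))) (PT.nd (nat_lit 156) (PT.nd (nat_lit 78) (PT.lf (nat_lit 21052) (nat_lit 6) (nat_lit 277) (nat_lit 4) (nat_lit 159) (nat_lit 214) (nat_lit 197)) (PT.lf (nat_lit 21812) (nat_lit 6) (nat_lit 287) (nat_lit 4) (nat_lit 160) (nat_lit 214) (nat_lit 196))) (PT.nd (nat_lit 78) (PT.lf (nat_lit 22572) (nat_lit 6) (nat_lit 297) (nat_lit 4) (nat_lit 161) (nat_lit 214) (nat_lit 195)) (PT.lf (nat_lit 23332) (nat_lit 6) (nat_lit 307) (nat_lit 4) (nat_lit 162) (nat_lit 214) (nat_lit 194))))) (PT.nd (nat_lit 2262) (PT.nd (nat_lit 156) (PT.nd (nat_lit 78) (PT.lf (nat_lit 24168) (nat_lit 6) (nat_lit 318) (nat_lit 4) (nat_lit 163) (nat_lit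 214) (nat_lit 193)) (PT.lf (nat_lit 25004) (nat_lit 6) (nat_lit 329) (nat_lit 4) (nat_lit 164) (nat_lit 214) (nat_lit 192))) (PT.nd (nat_lit 2028) (PT.lf (nat_lit 25916) (nat_lit 6) (nat_lit 341) (nat_lit 4) (nat_lit 165) (nat_lit 214) (nat_lit 191)) (PT.lf (nat_lit 25916) (nat_lit 6) (nat_lit 341) (nat_lit 2) (nat_lit 191) (nat_lit 214) (nat_lit 165)))) (PT.nd (nat_lit 156) (PT.nd (nat_lit 78) (PT.lf (nat_lit 25004) (nat_lit 6) (nat_lit 329) (nat_lit 2) (nat_lit 192) (nat_lit 214) (nat_lit 164)) (PT.lf (nat_lit 24168) (nat_lit 6) (nat_lit 318) (nat_lit 2) (nat_lit 193) (nat_lit 214) (nat_lit 163))) (PT.nd (nat_lit 78) (PT.lf (nat_lit 23332) (nat_lit 6) (nat_lit 307) (nat_lit 2) (nat_lit 194) (nat_lit 214) (nat_lit 162)) (PT.lf (nat_lit 22572) (nat_lit 6) (nat_lit 297) (nat_lit 2) (nat_lit 195) (nat_lit 214) (nat_lit 161))))))))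
noncomputable def pc54 : PT := (PT.nd (nat_lit 54522) (PT.nd (nat_lit 1092) (PT.nd (nat_lit 546) (PT.nd (nat_lit 234) (PT.nd (nat_lit 78) (PT.lf (nat_lit 21812) (nat_lit 6) (nat_lit 287) (nat_lit 2) (nat_lit 196) (nat_lit 214) (nat_lit 160)) (PT.nd (nat_lit 78) (PT.lf (nat_lit 21052) (nat_lit 6) (nat_lit 277) (nat_lit 2) (nat_lit 197) (nat_lit 214) (nat_lit 159)) (PT.lf (nat_lit 20292) (nat_lit 6) (nat_lit 267) (nat_lit 2) (nat_lit 198) (nat_lit 214) (nat_lit 158)))) (PT.nd (nat_lit 156) (PT.nd (nat_lit 78) (PT.lf (nat_lit 19608) (nat_lit 6) (nat_lit 258) (nat_lit 2) (nat_lit 199) (nat_lit 214) (nat_lit 157)) (PT.lf (nat_lit 18924) (nat_lit 6) (nat_lit 249) (nat_lit 2) (nat_lit 200) (nat_lit 214) (nat_lit 156))) (PT.nd (nat_lit 78) (PT.lf (nat_lit 18316) (nat_lit 6) (nat_lit 241) (nat_lit 2) (nat_lit 201) (nat_lit 214) (nat_lit 155)) (PT.lf (nat_lit 17632) (nat_lit 6) (nat_lit 232) (nat_lit 2) (nat_lit 202)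 (nat_lit 214) (nat_lit 154))))) (PT.nd (nat_lit 234) (PT.nd (nat_lit 78) (PT.lf (nat_lit 17024) (nat_lit 6) (nat_lit 224) (nat_lit 2) (nat_lit 203) (nat_lit 214) (nat_lit 153)) (PT.nd (nat_lit 78) (PT.lf (nat_lit 16416) (nat_lit 6) (nat_lit 216) (nat_lit 2) (nat_lit 204) (nat_lit 214) (nat_lit 152)) (PT.lf (nat_lit 15884) (nat_lit 6) (nat_lit 209) (nat_lit 2) (nat_lit 205) (nat_lit 214) (nat_lit 151)))) (PT.nd (nat_lit 156) (PT.nd (nat_lit 78) (PT.lf (nat_lit 15276) (nat_lit 6) (nat_lit 201) (nat_lit 2) (nat_lit 206) (nat_lit 214) (nat_lit 150)) (PT.lf (nat_lit 14744) (nat_lit 6) (nat_lit 194) (nat_lit 2) (nat_lit 207) (nat_lit 214) (nat_lit 149))) (PT.nd (nat_lit 78) (PT.lf (nat_lit 14212) (nat_lit 6) (nat_lit 187) (nat_lit 2) (nat_lit 208) (nat_lit 214) (nat_lit 148)) (PT.lf (nat_lit 13680) (nat_lit 6) (nat_lit 180) (nat_lit 2) (nat_lit 209) (nat_lit 214) (nat_lit 147)))))) (PT.nd (nat_lit 546) (PT.nd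 (nat_lit 234) (PT.nd (nat_lit 78) (PT.lf (nat_lit 13148) (nat_lit 6) (nat_lit 173) (nat_lit 2) (nat_lit 210) (nat_lit 214) (nat_lit 146)) (PT.nd (nat_lit 78) (PT.lf (nat_lit 12692) (nat_lit 6) (nat_lit 167) (nat_lit 2) (nat_lit 211) (nat_lit 214) (nat_lit 145)) (PT.lf (nat_lit 12236) (nat_lit 6) (nat_lit 161) (nat_lit 2) (nat_lit 212) (nat_lit 214) (nat_lit 144)))) (PT.nd (nat_lit 156) (PT.nd (nat_lit 78) (PT.lf (nat_lit 11780) (nat_lit 6) (nat_lit 155) (nat_lit 2) (nat_lit 213) (nat_lit 214) (nat_lit 143)) (PT.lf (nat_lit 11324) (nat_lit 3) (nat_lit 149) (nat_lit 0) (nat_lit 214) (nat_lit 214) (nat_lit 142))) (PT.nd (nat_lit 78) (PT.lf (nat_lit 10868) (nat_lit 6) (nat_lit 143) (nat_lit 0) (nat_lit 215) (nat_lit 214) (nat_lit 141)) (PT.lf (nat_lit 10336) (nat_lit 6) (nat_lit 136) (nat_lit 0) (nat_lit 216) (nat_lit 214) (nat_lit 140))))) (PT.nd (nat_lit 312) (PT.nd (nat_lit 156) (PT.nd (nat_lit 78) (PT.lf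 (nat_lit 9880) (nat_lit 6) (nat_lit 130) (nat_lit 0) (nat_lit 217) (nat_lit 214) (nat_lit 139)) (PT.lf (nat_lit 9424) (nat_lit 6) (nat_lit 124) (nat_lit 0) (nat_lit 218) (nat_lit 214) (nat_lit 138))) (PT.nd (nat_lit 78) (PT.lf (nat_lit 8968) (nat_lit 6) (nat_lit 118) (nat_lit 0) (nat_lit 219) (nat_lit 214) (nat_lit 137)) (PT.lf (nat_lit 8512) (nat_lit 6) (nat_lit 112) (nat_lit 0) (nat_lit 220) (nat_lit 214) (nat_lit 136)))) (PT.nd (nat_lit 52416) (PT.nd (nat_lit 78) (PT.lf (nat_lit 8132) (nat_lit 6) (nat_lit 107) (nat_lit 0) (nat_lit 221) (nat_lit 214) (nat_lit 135)) (PT.lf (nat_lit 7676) (nat_lit 6) (nat_lit 101) (nat_lit 0) (nat_lit 222) (nat_lit 214) (nat_lit 134))) (PT.nd (nat_lit 78) (PT.lf (nat_lit 6992) (nat_lit 6) (nat_lit 92) (nat_lit 5) (nat_lit 132) (nat_lit 215) (nat_lit 223)) (PT.lf (nat_lit 7372) (nat_lit 6) (nat_lit 97) (nat_lit 5) (nat_lit 133) (nat_lit 215) (nat_lit 222))))))) (PT.nd (nat_lit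 1092) (PT.nd (nat_lit 546) (PT.nd (nat_lit 234) (PT.nd (nat_lit 78) (PT.lf (nat_lit 7752) (nat_lit 6) (nat_lit 102) (nat_lit 5) (nat_lit 134) (nat_lit 215) (nat_lit 221)) (PT.nd (nat_lit 78) (PT.lf (nat_lit 8208) (nat_lit 6) (nat_lit 108) (nat_lit 5) (nat_lit 135) (nat_lit 215) (nat_lit 220)) (PT.lf (nat_lit 8588) (nat_lit 6) (nat_lit 113) (nat_lit 5) (nat_lit 136) (nat_lit 215) (nat_lit 219)))) (PT.nd (nat_lit 156) (PT.nd (nat_lit 78) (PT.lf (nat_lit 9044) (nat_lit 6) (nat_lit 119) (nat_lit 5) (nat_lit 137) (nat_lit 215) (nat_lit 218)) (PT.lf (nat_lit 9500) (nat_lit 6) (nat_lit 125) (nat_lit 5) (nat_lit 138) (nat_lit 215) (nat_lit 217))) (PT.nd (nat_lit 78) (PT.lf (nat_lit 9956) (nat_lit 6) (nat_lit 131) (nat_lit 5) (nat_lit 139) (nat_lit 215) (nat_lit 216)) (PT.lf (nat_lit 10412) (nat_lit 3) (nat_lit 137) (nat_lit 4) (nat_lit 140) (nat_lit 215) (nat_lit 215))))) (PT.nd (nat_lit 234) (PT.nd (nat_lit 78)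 (PT.lf (nat_lit 10868) (nat_lit 6) (nat_lit 143) (nat_lit 4) (nat_lit 141) (nat_lit 215) (nat_lit 214)) (PT.nd (nat_lit 78) (PT.lf (nat_lit 11248) (nat_lit 6) (nat_lit 148) (nat_lit 4) (nat_lit 142) (nat_lit 215) (nat_lit 213)) (PT.lf (nat_lit 11704) (nat_lit 6) (nat_lit 154) (nat_lit 4) (nat_lit 143) (nat_lit 215) (nat_lit 212)))) (PT.nd (nat_lit 156) (PT.nd (nat_lit 78) (PT.lf (nat_lit 12160) (nat_lit 6) (nat_lit 160) (nat_lit 4) (nat_lit 144) (nat_lit 215) (nat_lit 211)) (PT.lf (nat_lit 12616) (nat_lit 6) (nat_lit 166) (nat_lit 4) (nat_lit 145) (nat_lit 215) (nat_lit 210))) (PT.nd (nat_lit 78) (PT.lf (nat_lit 13072) (nat_lit 6) (nat_lit 172) (nat_lit 4) (nat_lit 146) (nat_lit 215) (nat_lit 209)) (PT.lf (nat_lit 13604) (nat_lit 6) (nat_lit 179) (nat_lit 4) (nat_lit 147) (nat_lit 215) (nat_lit 208)))))) (PT.nd (nat_lit 546) (PT.nd (nat_lit 234) (PT.nd (nat_lit 78) (PT.lf (nat_lit 14136) (nat_lit 6) (nat_lit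 186) (nat_lit 4) (nat_lit 148) (nat_lit 215) (nat_lit 207)) (PT.nd (nat_lit 78) (PT.lf (nat_lit 14668) (nat_lit 6) (nat_lit 193) (nat_lit 4) (nat_lit 149) (nat_lit 215) (nat_lit 206)) (PT.lf (nat_lit 15200) (nat_lit 6) (nat_lit 200) (nat_lit 4) (nat_lit 150) (nat_lit 215) (nat_lit 205)))) (PT.nd (nat_lit 156) (PT.nd (nat_lit 78) (PT.lf (nat_lit 15808) (nat_lit 6) (nat_lit 208) (nat_lit 4) (nat_lit 151) (nat_lit 215) (nat_lit 204)) (PT.lf (nat_lit 16340) (nat_lit 6) (nat_lit 215) (nat_lit 4) (nat_lit 152) (nat_lit 215) (nat_lit 203))) (PT.nd (nat_lit 78) (PT.lf (nat_lit 16948) (nat_lit 6) (nat_lit 223) (nat_lit 4) (nat_lit 153) (nat_lit 215) (nat_lit 202)) (PT.lf (nat_lit 17556) (nat_lit 6) (nat_lit 231) (nat_lit 4) (nat_lit 154) (nat_lit 215) (nat_lit 201))))) (PT.nd (nat_lit 312) (PT.nd (nat_lit 156) (PT.nd (nat_lit 78) (PT.lf (nat_lit 18240) (nat_lit 6) (nat_lit 240) (nat_lit 4) (nat_lit 155) (nat_lit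 215) (nat_lit 200)) (PT.lf (nat_lit 18848) (nat_lit 6) (nat_lit 248) (nat_lit 4) (nat_lit 156) (nat_lit 215) (nat_lit 199))) (PT.nd (nat_lit 78) (PT.lf (nat_lit 19532) (nat_lit 6) (nat_lit 257) (nat_lit 4) (nat_lit 157) (nat_lit 215) (nat_lit 198)) (PT.lf (nat_lit 20216) (nat_lit 6) (nat_lit 266) (nat_lit 4) (nat_lit 158) (nat_lit 215) (nat_lit 197)))) (PT.nd (nat_lit 2808) (PT.nd (nat_lit 78) (PT.lf (nat_lit 20976) (nat_lit 6) (nat_lit 276) (nat_lit 4) (nat_lit 159) (nat_lit 215) (nat_lit 196)) (PT.lf (nat_lit 21736) (nat_lit 6) (nat_lit 286) (nat_lit 4) (nat_lit 160) (nat_lit 215) (nat_lit 195))) (PT.nd (nat_lit 78) (PT.lf (nat_lit 21736) (nat_lit 6) (nat_lit 286) (nat_lit 2) (nat_lit 195) (nat_lit 215) (nat_lit 160)) (PT.lf (nat_lit 20976) (nat_lit 6) (nat_lit 276) (nat_lit 2) (nat_lit 196) (nat_lit 215) (nat_lit 159))))))))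
noncomputable def pc55 : PT := (PT.nd (nat_lit 54366) (PT.nd (nat_lit 1092) (PT.nd (nat_lit 546) (PT.nd (nat_lit 234) (PT.nd (nat_lit 78) (PT.lf (nat_lit 20216) (nat_lit 6) (nat_lit 266) (nat_lit 2) (nat_lit 197) (nat_lit 215) (nat_lit 158)) (PT.nd (nat_lit 78) (PT.lf (nat_lit 19532) (nat_lit 6) (nat_lit 257) (nat_lit 2) (nat_lit 198) (nat_lit 215) (nat_lit 157)) (PT.lf (nat_lit 18848) (nat_lit 6) (nat_lit 248) (nat_lit 2) (nat_lit 199) (nat_lit 215) (nat_lit 156)))) (PT.nd (nat_lit 156) (PT.nd (nat_lit 78) (PT.lf (nat_lit 18240) (nat_lit 6) (nat_lit 240) (nat_lit 2) (nat_lit 200) (nat_lit 215) (nat_lit 155)) (PT.lf (nat_lit 17556) (nat_lit 6) (nat_lit 231) (nat_lit 2) (nat_lit 201) (nat_lit 215) (nat_lit 154))) (PT.nd (nat_lit 78) (PT.lf (nat_lit 16948) (nat_lit 6) (nat_lit 223) (nat_lit 2) (nat_lit 202) (nat_lit 215) (nat_lit 153)) (PT.lf (nat_lit 16340) (nat_lit 6) (nat_lit 215) (nat_lit 2) (nat_lit 203)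 (nat_lit 215) (nat_lit 152))))) (PT.nd (nat_lit 234) (PT.nd (nat_lit 78) (PT.lf (nat_lit 15808) (nat_lit 6) (nat_lit 208) (nat_lit 2) (nat_lit 204) (nat_lit 215) (nat_lit 151)) (PT.nd (nat_lit 78) (PT.lf (nat_lit 15200) (nat_lit 6) (nat_lit 200) (nat_lit 2) (nat_lit 205) (nat_lit 215) (nat_lit 150)) (PT.lf (nat_lit 14668) (nat_lit 6) (nat_lit 193) (nat_lit 2) (nat_lit 206) (nat_lit 215) (nat_lit 149)))) (PT.nd (nat_lit 156) (PT.nd (nat_lit 78) (PT.lf (nat_lit 14136) (nat_lit 6) (nat_lit 186) (nat_lit 2) (nat_lit 207) (nat_lit 215) (nat_lit 148)) (PT.lf (nat_lit 13604) (nat_lit 6) (nat_lit 179) (nat_lit 2) (nat_lit 208) (nat_lit 215) (nat_lit 147))) (PT.nd (nat_lit 78) (PT.lf (nat_lit 13072) (nat_lit 6) (nat_lit 172) (nat_lit 2) (nat_lit 209) (nat_lit 215) (nat_lit 146)) (PT.lf (nat_lit 12616) (nat_lit 6) (nat_lit 166) (nat_lit 2) (nat_lit 210) (nat_lit 215) (nat_lit 145)))))) (PT.nd (nat_lit 546) (PT.nd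 (nat_lit 234) (PT.nd (nat_lit 78) (PT.lf (nat_lit 12160) (nat_lit 6) (nat_lit 160) (nat_lit 2) (nat_lit 211) (nat_lit 215) (nat_lit 144)) (PT.nd (nat_lit 78) (PT.lf (nat_lit 11704) (nat_lit 6) (nat_lit 154) (nat_lit 2) (nat_lit 212) (nat_lit 215) (nat_lit 143)) (PT.lf (nat_lit 11248) (nat_lit 6) (nat_lit 148) (nat_lit 2) (nat_lit 213) (nat_lit 215) (nat_lit 142)))) (PT.nd (nat_lit 156) (PT.nd (nat_lit 78) (PT.lf (nat_lit 10868) (nat_lit 6) (nat_lit 143) (nat_lit 2) (nat_lit 214) (nat_lit 215) (nat_lit 141)) (PT.lf (nat_lit 10412) (nat_lit 3) (nat_lit 137) (nat_lit 0) (nat_lit 215) (nat_lit 215) (nat_lit 140))) (PT.nd (nat_lit 78) (PT.lf (nat_lit 9956) (nat_lit 6) (nat_lit 131) (nat_lit 0) (nat_lit 216) (nat_lit 215) (nat_lit 139)) (PT.lf (nat_lit 9500) (nat_lit 6) (nat_lit 125) (nat_lit 0) (nat_lit 217) (nat_lit 215) (nat_lit 138))))) (PT.nd (nat_lit 312) (PT.nd (nat_lit 156) (PT.nd (nat_lit 78) (PT.lf (nat_lit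 9044) (nat_lit 6) (nat_lit 119) (nat_lit 0) (nat_lit 218) (nat_lit 215) (nat_lit 137)) (PT.lf (nat_lit 8588) (nat_lit 6) (nat_lit 113) (nat_lit 0) (nat_lit 219) (nat_lit 215) (nat_lit 136))) (PT.nd (nat_lit 78) (PT.lf (nat_lit 8208) (nat_lit 6) (nat_lit 108) (nat_lit 0) (nat_lit 220) (nat_lit 215) (nat_lit 135)) (PT.lf (nat_lit 7752) (nat_lit 6) (nat_lit 102) (nat_lit 0) (nat_lit 221) (nat_lit 215) (nat_lit 134)))) (PT.nd (nat_lit 52260) (PT.nd (nat_lit 78) (PT.lf (nat_lit 7372) (nat_lit 6) (nat_lit 97) (nat_lit 0) (nat_lit 222) (nat_lit 215) (nat_lit 133)) (PT.lf (nat_lit 6992) (nat_lit 6) (nat_lit 92) (nat_lit 0) (nat_lit 223) (nat_lit 215) (nat_lit 132))) (PT.nd (nat_lit 78) (PT.lf (nat_lit 6688) (nat_lit 6) (nat_lit 88) (nat_lit 5) (nat_lit 131) (nat_lit 216) (nat_lit 223)) (PT.lf (nat_lit 7068) (nat_lit 6) (nat_lit 93) (nat_lit 5) (nat_lit 132) (nat_lit 216) (nat_lit 222))))))) (PT.nd (nat_lit 1092)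 (PT.nd (nat_lit 546) (PT.nd (nat_lit 234) (PT.nd (nat_lit 78) (PT.lf (nat_lit 7448) (nat_lit 6) (nat_lit 98) (nat_lit 5) (nat_lit 133) (nat_lit 216) (nat_lit 221)) (PT.nd (nat_lit 78) (PT.lf (nat_lit 7828) (nat_lit 6) (nat_lit 103) (nat_lit 5) (nat_lit 134) (nat_lit 216) (nat_lit 220)) (PT.lf (nat_lit 8284) (nat_lit 6) (nat_lit 109) (nat_lit 5) (nat_lit 135) (nat_lit 216) (nat_lit 219)))) (PT.nd (nat_lit 156) (PT.nd (nat_lit 78) (PT.lf (nat_lit 8664) (nat_lit 6) (nat_lit 114) (nat_lit 5) (nat_lit 136) (nat_lit 216) (nat_lit 218)) (PT.lf (nat_lit 9120) (nat_lit 6) (nat_lit 120) (nat_lit 5) (nat_lit 137) (nat_lit 216) (nat_lit 217))) (PT.nd (nat_lit 78) (PT.lf (nat_lit 9576) (nat_lit 3) (nat_lit 126) (nat_lit 4) (nat_lit 138) (nat_lit 216) (nat_lit 216)) (PT.lf (nat_lit 9956) (nat_lit 6) (nat_lit 131) (nat_lit 4) (nat_lit 139) (nat_lit 216) (nat_lit 215))))) (PT.nd (nat_lit 234) (PT.nd (nat_lit 78) (PT.lf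 (nat_lit 10336) (nat_lit 6) (nat_lit 136) (nat_lit 4) (nat_lit 140) (nat_lit 216) (nat_lit 214)) (PT.nd (nat_lit 78) (PT.lf (nat_lit 10792) (nat_lit 6) (nat_lit 142) (nat_lit 4) (nat_lit 141) (nat_lit 216) (nat_lit 213)) (PT.lf (nat_lit 11172) (nat_lit 6) (nat_lit 147) (nat_lit 4) (nat_lit 142) (nat_lit 216) (nat_lit 212)))) (PT.nd (nat_lit 156) (PT.nd (nat_lit 78) (PT.lf (nat_lit 11628) (nat_lit 6) (nat_lit 153) (nat_lit 4) (nat_lit 143) (nat_lit 216) (nat_lit 211)) (PT.lf (nat_lit 12084) (nat_lit 6) (nat_lit 159) (nat_lit 4) (nat_lit 144) (nat_lit 216) (nat_lit 210))) (PT.nd (nat_lit 78) (PT.lf (nat_lit 12540) (nat_lit 6) (nat_lit 165) (nat_lit 4) (nat_lit 145) (nat_lit 216) (nat_lit 209)) (PT.lf (nat_lit 12996) (nat_lit 6) (nat_lit 171) (nat_lit 4) (nat_lit 146) (nat_lit 216) (nat_lit 208)))))) (PT.nd (nat_lit 546) (PT.nd (nat_lit 234) (PT.nd (nat_lit 78) (PT.lf (nat_lit 13528) (nat_lit 6) (nat_lit 178)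 (nat_lit 4) (nat_lit 147) (nat_lit 216) (nat_lit 207)) (PT.nd (nat_lit 78) (PT.lf (nat_lit 14060) (nat_lit 6) (nat_lit 185) (nat_lit 4) (nat_lit 148) (nat_lit 216) (nat_lit 206)) (PT.lf (nat_lit 14592) (nat_lit 6) (nat_lit 192) (nat_lit 4) (nat_lit 149) (nat_lit 216) (nat_lit 205)))) (PT.nd (nat_lit 156) (PT.nd (nat_lit 78) (PT.lf (nat_lit 15124) (nat_lit 6) (nat_lit 199) (nat_lit 4) (nat_lit 150) (nat_lit 216) (nat_lit 204)) (PT.lf (nat_lit 15732) (nat_lit 6) (nat_lit 207) (nat_lit 4) (nat_lit 151) (nat_lit 216) (nat_lit 203))) (PT.nd (nat_lit 78) (PT.lf (nat_lit 16264) (nat_lit 6) (nat_lit 214) (nat_lit 4) (nat_lit 152) (nat_lit 216) (nat_lit 202)) (PT.lf (nat_lit 16872) (nat_lit 6) (nat_lit 222) (nat_lit 4) (nat_lit 153) (nat_lit 216) (nat_lit 201))))) (PT.nd (nat_lit 3666) (PT.nd (nat_lit 3510) (PT.nd (nat_lit 78) (PT.lf (nat_lit 17480) (nat_lit 6) (nat_lit 230) (nat_lit 4) (nat_lit 154) (nat_lit 216)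 (nat_lit 200)) (PT.lf (nat_lit 18164) (nat_lit 6) (nat_lit 239) (nat_lit 4) (nat_lit 155) (nat_lit 216) (nat_lit 199))) (PT.nd (nat_lit 78) (PT.lf (nat_lit 18164) (nat_lit 6) (nat_lit 239) (nat_lit 2) (nat_lit 199) (nat_lit 216) (nat_lit 155)) (PT.lf (nat_lit 17480) (nat_lit 6) (nat_lit 230) (nat_lit 2) (nat_lit 200) (nat_lit 216) (nat_lit 154)))) (PT.nd (nat_lit 156) (PT.nd (nat_lit 78) (PT.lf (nat_lit 16872) (nat_lit 6) (nat_lit 222) (nat_lit 2) (nat_lit 201) (nat_lit 216) (nat_lit 153)) (PT.lf (nat_lit 16264) (nat_lit 6) (nat_lit 214) (nat_lit 2) (nat_lit 202) (nat_lit 216) (nat_lit 152))) (PT.nd (nat_lit 78) (PT.lf (nat_lit 15732) (nat_lit 6) (nat_lit 207) (nat_lit 2) (nat_lit 203) (nat_lit 216) (nat_lit 151)) (PT.lf (nat_lit 15124) (nat_lit 6) (nat_lit 199) (nat_lit 2) (nat_lit 204) (nat_lit 216) (nat_lit 150))))))))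
noncomputable def pc56 : PT := (PT.nd (nat_lit 54132) (PT.nd (nat_lit 1092) (PT.nd (nat_lit 546) (PT.nd (nat_lit 234) (PT.nd (nat_lit 78) (PT.lf (nat_lit 14592) (nat_lit 6) (nat_lit 192) (nat_lit 2) (nat_lit 205) (nat_lit 216) (nat_lit 149)) (PT.nd (nat_lit 78) (PT.lf (nat_lit 14060) (nat_lit 6) (nat_lit 185) (nat_lit 2) (nat_lit 206) (nat_lit 216) (nat_lit 148)) (PT.lf (nat_lit 13528) (nat_lit 6) (nat_lit 178) (nat_lit 2) (nat_lit 207) (nat_lit 216) (nat_lit 147)))) (PT.nd (nat_lit 156) (PT.nd (nat_lit 78) (PT.lf (nat_lit 12996) (nat_lit 6) (nat_lit 171) (nat_lit 2) (nat_lit 208) (nat_lit 216) (nat_lit 146)) (PT.lf (nat_lit 12540) (nat_lit 6) (nat_lit 165) (nat_lit 2) (nat_lit 209) (nat_lit 216) (nat_lit 145))) (PT.nd (nat_lit 78) (PT.lf (nat_lit 12084) (nat_lit 6) (nat_lit 159) (nat_lit 2) (nat_lit 210) (nat_lit 216) (nat_lit 144)) (PT.lf (nat_lit 11628) (nat_lit 6) (nat_lit 153) (nat_lit 2) (nat_lit 211)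 (nat_lit 216) (nat_lit 143))))) (PT.nd (nat_lit 234) (PT.nd (nat_lit 78) (PT.lf (nat_lit 11172) (nat_lit 6) (nat_lit 147) (nat_lit 2) (nat_lit 212) (nat_lit 216) (nat_lit 142)) (PT.nd (nat_lit 78) (PT.lf (nat_lit 10792) (nat_lit 6) (nat_lit 142) (nat_lit 2) (nat_lit 213) (nat_lit 216) (nat_lit 141)) (PT.lf (nat_lit 10336) (nat_lit 6) (nat_lit 136) (nat_lit 2) (nat_lit 214) (nat_lit 216) (nat_lit 140)))) (PT.nd (nat_lit 156) (PT.nd (nat_lit 78) (PT.lf (nat_lit 9956) (nat_lit 6) (nat_lit 131) (nat_lit 2) (nat_lit 215) (nat_lit 216) (nat_lit 139)) (PT.lf (nat_lit 9576) (nat_lit 3) (nat_lit 126) (nat_lit 0) (nat_lit 216) (nat_lit 216) (nat_lit 138))) (PT.nd (nat_lit 78) (PT.lf (nat_lit 9120) (nat_lit 6) (nat_lit 120) (nat_lit 0) (nat_lit 217) (nat_lit 216) (nat_lit 137)) (PT.lf (nat_lit 8664) (nat_lit 6) (nat_lit 114) (nat_lit 0) (nat_lit 218) (nat_lit 216) (nat_lit 136)))))) (PT.nd (nat_lit 52494) (PT.nd (nat_lit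 234) (PT.nd (nat_lit 78) (PT.lf (nat_lit 8284) (nat_lit 6) (nat_lit 109) (nat_lit 0) (nat_lit 219) (nat_lit 216) (nat_lit 135)) (PT.nd (nat_lit 78) (PT.lf (nat_lit 7828) (nat_lit 6) (nat_lit 103) (nat_lit 0) (nat_lit 220) (nat_lit 216) (nat_lit 134)) (PT.lf (nat_lit 7448) (nat_lit 6) (nat_lit 98) (nat_lit 0) (nat_lit 221) (nat_lit 216) (nat_lit 133)))) (PT.nd (nat_lit 52104) (PT.nd (nat_lit 78) (PT.lf (nat_lit 7068) (nat_lit 6) (nat_lit 93) (nat_lit 0) (nat_lit 222) (nat_lit 216) (nat_lit 132)) (PT.lf (nat_lit 6688) (nat_lit 6) (nat_lit 88) (nat_lit 0) (nat_lit 223) (nat_lit 216) (nat_lit 131))) (PT.nd (nat_lit 78) (PT.lf (nat_lit 6080) (nat_lit 6) (nat_lit 80) (nat_lit 5) (nat_lit 129) (nat_lit 217) (nat_lit 224)) (PT.lf (nat_lit 6384) (nat_lit 6) (nat_lit 84) (nat_lit 5) (nat_lit 130) (nat_lit 217) (nat_lit 223))))) (PT.nd (nat_lit 234) (PT.nd (nat_lit 78) (PT.lf (nat_lit 6764) (nat_lit 6) (nat_lit 89)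 (nat_lit 5) (nat_lit 131) (nat_lit 217) (nat_lit 222)) (PT.nd (nat_lit 78) (PT.lf (nat_lit 7144) (nat_lit 6) (nat_lit 94) (nat_lit 5) (nat_lit 132) (nat_lit 217) (nat_lit 221)) (PT.lf (nat_lit 7524) (nat_lit 6) (nat_lit 99) (nat_lit 5) (nat_lit 133) (nat_lit 217) (nat_lit 220)))) (PT.nd (nat_lit 156) (PT.nd (nat_lit 78) (PT.lf (nat_lit 7904) (nat_lit 6) (nat_lit 104) (nat_lit 5) (nat_lit 134) (nat_lit 217) (nat_lit 219)) (PT.lf (nat_lit 8360) (nat_lit 6) (nat_lit 110) (nat_lit 5) (nat_lit 135) (nat_lit 217) (nat_lit 218))) (PT.nd (nat_lit 78) (PT.lf (nat_lit 8740) (nat_lit 3) (nat_lit 115) (nat_lit 4) (nat_lit 136) (nat_lit 217) (nat_lit 217)) (PT.lf (nat_lit 9120) (nat_lit 6) (nat_lit 120) (nat_lit 4) (nat_lit 137) (nat_lit 217) (nat_lit 216))))))) (PT.nd (nat_lit 4992) (PT.nd (nat_lit 546) (PT.nd (nat_lit 234) (PT.nd (nat_lit 78) (PT.lf (nat_lit 9500) (nat_lit 6) (nat_lit 125) (nat_lit 4) (nat_lit 138)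 (nat_lit 217) (nat_lit 215)) (PT.nd (nat_lit 78) (PT.lf (nat_lit 9880) (nat_lit 6) (nat_lit 130) (nat_lit 4) (nat_lit 139) (nat_lit 217) (nat_lit 214)) (PT.lf (nat_lit 10260) (nat_lit 6) (nat_lit 135) (nat_lit 4) (nat_lit 140) (nat_lit 217) (nat_lit 213)))) (PT.nd (nat_lit 156) (PT.nd (nat_lit 78) (PT.lf (nat_lit 10716) (nat_lit 6) (nat_lit 141) (nat_lit 4) (nat_lit 141) (nat_lit 217) (nat_lit 212)) (PT.lf (nat_lit 11096) (nat_lit 6) (nat_lit 146) (nat_lit 4) (nat_lit 142) (nat_lit 217) (nat_lit 211))) (PT.nd (nat_lit 78) (PT.lf (nat_lit 11552) (nat_lit 6) (nat_lit 152) (nat_lit 4) (nat_lit 143) (nat_lit 217) (nat_lit 210)) (PT.lf (nat_lit 12008) (nat_lit 6) (nat_lit 158) (nat_lit 4) (nat_lit 144) (nat_lit 217) (nat_lit 209))))) (PT.nd (nat_lit 234) (PT.nd (nat_lit 78) (PT.lf (nat_lit 12464) (nat_lit 6) (nat_lit 164) (nat_lit 4) (nat_lit 145) (nat_lit 217) (nat_lit 208)) (PT.nd (nat_lit 78) (PT.lf (nat_lit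 12920) (nat_lit 6) (nat_lit 170) (nat_lit 4) (nat_lit 146) (nat_lit 217) (nat_lit 207)) (PT.lf (nat_lit 13452) (nat_lit 6) (nat_lit 177) (nat_lit 4) (nat_lit 147) (nat_lit 217) (nat_lit 206)))) (PT.nd (nat_lit 156) (PT.nd (nat_lit 78) (PT.lf (nat_lit 13984) (nat_lit 6) (nat_lit 184) (nat_lit 4) (nat_lit 148) (nat_lit 217) (nat_lit 205)) (PT.lf (nat_lit 14516) (nat_lit 6) (nat_lit 191) (nat_lit 4) (nat_lit 149) (nat_lit 217) (nat_lit 204))) (PT.nd (nat_lit 78) (PT.lf (nat_lit 15048) (nat_lit 6) (nat_lit 198) (nat_lit 4) (nat_lit 150) (nat_lit 217) (nat_lit 203)) (PT.lf (nat_lit 15656) (nat_lit 6) (nat_lit 206) (nat_lit 4) (nat_lit 151) (nat_lit 217) (nat_lit 202)))))) (PT.nd (nat_lit 546) (PT.nd (nat_lit 234) (PT.nd (nat_lit 78) (PT.lf (nat_lit 15656) (nat_lit 6) (nat_lit 206) (nat_lit 2) (nat_lit 202) (nat_lit 217) (nat_lit 151)) (PT.nd (nat_lit 78) (PT.lf (nat_lit 15048) (nat_lit 6) (nat_lit 198) (nat_lit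 2) (nat_lit 203) (nat_lit 217) (nat_lit 150)) (PT.lf (nat_lit 14516) (nat_lit 6) (nat_lit 191) (nat_lit 2) (nat_lit 204) (nat_lit 217) (nat_lit 149)))) (PT.nd (nat_lit 156) (PT.nd (nat_lit 78) (PT.lf (nat_lit 13984) (nat_lit 6) (nat_lit 184) (nat_lit 2) (nat_lit 205) (nat_lit 217) (nat_lit 148)) (PT.lf (nat_lit 13452) (nat_lit 6) (nat_lit 177) (nat_lit 2) (nat_lit 206) (nat_lit 217) (nat_lit 147))) (PT.nd (nat_lit 78) (PT.lf (nat_lit 12920) (nat_lit 6) (nat_lit 170) (nat_lit 2) (nat_lit 207) (nat_lit 217) (nat_lit 146)) (PT.lf (nat_lit 12464) (nat_lit 6) (nat_lit 164) (nat_lit 2) (nat_lit 208) (nat_lit 217) (nat_lit 145))))) (PT.nd (nat_lit 312) (PT.nd (nat_lit 156) (PT.nd (nat_lit 78) (PT.lf (nat_lit 12008) (nat_lit 6) (nat_lit 158) (nat_lit 2) (nat_lit 209) (nat_lit 217) (nat_lit 144)) (PT.lf (nat_lit 11552) (nat_lit 6) (nat_lit 152) (nat_lit 2) (nat_lit 210) (nat_lit 217) (nat_lit 143))) (PT.nd (nat_lit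 78) (PT.lf (nat_lit 11096) (nat_lit 6) (nat_lit 146) (nat_lit 2) (nat_lit 211) (nat_lit 217) (nat_lit 142)) (PT.lf (nat_lit 10716) (nat_lit 6) (nat_lit 141) (nat_lit 2) (nat_lit 212) (nat_lit 217) (nat_lit 141)))) (PT.nd (nat_lit 156) (PT.nd (nat_lit 78) (PT.lf (nat_lit 10260) (nat_lit 6) (nat_lit 135) (nat_lit 2) (nat_lit 213) (nat_lit 217) (nat_lit 140)) (PT.lf (nat_lit 9880) (nat_lit 6) (nat_lit 130) (nat_lit 2) (nat_lit 214) (nat_lit 217) (nat_lit 139))) (PT.nd (nat_lit 78) (PT.lf (nat_lit 9500) (nat_lit 6) (nat_lit 125) (nat_lit 2) (nat_lit 215) (nat_lit 217) (nat_lit 138)) (PT.lf (nat_lit 9120) (nat_lit 6) (nat_lit 120) (nat_lit 2) (nat_lit 216) (nat_lit 217) (nat_lit 137))))))))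
noncomputable def pc57 : PT := (PT.nd (nat_lit 58422) (PT.nd (nat_lit 52806) (PT.nd (nat_lit 546) (PT.nd (nat_lit 234) (PT.nd (nat_lit 78) (PT.lf (nat_lit 8740) (nat_lit 3) (nat_lit 115) (nat_lit 0) (nat_lit 217) (nat_lit 217) (nat_lit 136)) (PT.nd (nat_lit 78) (PT.lf (nat_lit 8360) (nat_lit 6) (nat_lit 110) (nat_lit 0) (nat_lit 218) (nat_lit 217) (nat_lit 135)) (PT.lf (nat_lit 7904) (nat_lit 6) (nat_lit 104) (nat_lit 0) (nat_lit 219) (nat_lit 217) (nat_lit 134)))) (PT.nd (nat_lit 156) (PT.nd (nat_lit 78) (PT.lf (nat_lit 7524) (nat_lit 6) (nat_lit 99) (nat_lit 0) (nat_lit 220) (nat_lit 217) (nat_lit 133)) (PT.lf (nat_lit 7144) (nat_lit 6) (nat_lit 94) (nat_lit 0) (nat_lit 221) (nat_lit 217) (nat_lit 132))) (PT.nd (nat_lit 78) (PT.lf (nat_lit 6764) (nat_lit 6) (nat_lit 89) (nat_lit 0) (nat_lit 222) (nat_lit 217) (nat_lit 131)) (PT.lf (nat_lit 6384) (nat_lit 6) (nat_lit 84) (nat_lit 0) (nat_lit 223) (nat_lit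 217) (nat_lit 130))))) (PT.nd (nat_lit 51948) (PT.nd (nat_lit 51792) (PT.lf (nat_lit 6080) (nat_lit 6) (nat_lit 80) (nat_lit 0) (nat_lit 224) (nat_lit 217) (nat_lit 129)) (PT.nd (nat_lit 78) (PT.lf (nat_lit 5472) (nat_lit 6) (nat_lit 72) (nat_lit 5) (nat_lit 127) (nat_lit 218) (nat_lit 225)) (PT.lf (nat_lit 5776) (nat_lit 6) (nat_lit 76) (nat_lit 5) (nat_lit 128) (nat_lit 218) (nat_lit 224)))) (PT.nd (nat_lit 156) (PT.nd (nat_lit 78) (PT.lf (nat_lit 6156) (nat_lit 6) (nat_lit 81) (nat_lit 5) (nat_lit 129) (nat_lit 218) (nat_lit 223)) (PT.lf (nat_lit 6460) (nat_lit 6) (nat_lit 85) (nat_lit 5) (nat_lit 130) (nat_lit 218) (nat_lit 222))) (PT.nd (nat_lit 78) (PT.lf (nat_lit 6840) (nat_lit 6) (nat_lit 90) (nat_lit 5) (nat_lit 131) (nat_lit 218) (nat_lit 221)) (PT.lf (nat_lit 7220) (nat_lit 6) (nat_lit 95) (nat_lit 5) (nat_lit 132) (nat_lit 218) (nat_lit 220)))))) (PT.nd (nat_lit 546) (PT.nd (nat_lit 234) (PT.nd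 (nat_lit 78) (PT.lf (nat_lit 7600) (nat_lit 6) (nat_lit 100) (nat_lit 5) (nat_lit 133) (nat_lit 218) (nat_lit 219)) (PT.nd (nat_lit 78) (PT.lf (nat_lit 7980) (nat_lit 3) (nat_lit 105) (nat_lit 4) (nat_lit 134) (nat_lit 218) (nat_lit 218)) (PT.lf (nat_lit 8360) (nat_lit 6) (nat_lit 110) (nat_lit 4) (nat_lit 135) (nat_lit 218) (nat_lit 217)))) (PT.nd (nat_lit 156) (PT.nd (nat_lit 78) (PT.lf (nat_lit 8664) (nat_lit 6) (nat_lit 114) (nat_lit 4) (nat_lit 136) (nat_lit 218) (nat_lit 216)) (PT.lf (nat_lit 9044) (nat_lit 6) (nat_lit 119) (nat_lit 4) (nat_lit 137) (nat_lit 218) (nat_lit 215))) (PT.nd (nat_lit 78) (PT.lf (nat_lit 9424) (nat_lit 6) (nat_lit 124) (nat_lit 4) (nat_lit 138) (nat_lit 218) (nat_lit 214)) (PT.lf (nat_lit 9804) (nat_lit 6) (nat_lit 129) (nat_lit 4) (nat_lit 139) (nat_lit 218) (nat_lit 213))))) (PT.nd (nat_lit 312) (PT.nd (nat_lit 156) (PT.nd (nat_lit 78) (PT.lf (nat_lit 10184) (nat_lit 6)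 (nat_lit 134) (nat_lit 4) (nat_lit 140) (nat_lit 218) (nat_lit 212)) (PT.lf (nat_lit 10640) (nat_lit 6) (nat_lit 140) (nat_lit 4) (nat_lit 141) (nat_lit 218) (nat_lit 211))) (PT.nd (nat_lit 78) (PT.lf (nat_lit 11020) (nat_lit 6) (nat_lit 145) (nat_lit 4) (nat_lit 142) (nat_lit 218) (nat_lit 210)) (PT.lf (nat_lit 11476) (nat_lit 6) (nat_lit 151) (nat_lit 4) (nat_lit 143) (nat_lit 218) (nat_lit 209)))) (PT.nd (nat_lit 156) (PT.nd (nat_lit 78) (PT.lf (nat_lit 11932) (nat_lit 6) (nat_lit 157) (nat_lit 4) (nat_lit 144) (nat_lit 218) (nat_lit 208)) (PT.lf (nat_lit 12388) (nat_lit 6) (nat_lit 163) (nat_lit 4) (nat_lit 145) (nat_lit 218) (nat_lit 207))) (PT.nd (nat_lit 78) (PT.lf (nat_lit 12844) (nat_lit 6) (nat_lit 169) (nat_lit 4) (nat_lit 146) (nat_lit 218) (nat_lit 206)) (PT.lf (nat_lit 13376) (nat_lit 6) (nat_lit 176) (nat_lit 4) (nat_lit 147) (nat_lit 218) (nat_lit 205))))))) (PT.nd (nat_lit 1092) (PT.nd (nat_lit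 546) (PT.nd (nat_lit 234) (PT.nd (nat_lit 78) (PT.lf (nat_lit 13376) (nat_lit 6) (nat_lit 176) (nat_lit 2) (nat_lit 205) (nat_lit 218) (nat_lit 147)) (PT.nd (nat_lit 78) (PT.lf (nat_lit 12844) (nat_lit 6) (nat_lit 169) (nat_lit 2) (nat_lit 206) (nat_lit 218) (nat_lit 146)) (PT.lf (nat_lit 12388) (nat_lit 6) (nat_lit 163) (nat_lit 2) (nat_lit 207) (nat_lit 218) (nat_lit 145)))) (PT.nd (nat_lit 156) (PT.nd (nat_lit 78) (PT.lf (nat_lit 11932) (nat_lit 6) (nat_lit 157) (nat_lit 2) (nat_lit 208) (nat_lit 218) (nat_lit 144)) (PT.lf (nat_lit 11476) (nat_lit 6) (nat_lit 151) (nat_lit 2) (nat_lit 209) (nat_lit 218) (nat_lit 143))) (PT.nd (nat_lit 78) (PT.lf (nat_lit 11020) (nat_lit 6) (nat_lit 145) (nat_lit 2) (nat_lit 210) (nat_lit 218) (nat_lit 142)) (PT.lf (nat_lit 10640) (nat_lit 6) (nat_lit 140) (nat_lit 2) (nat_lit 211) (nat_lit 218) (nat_lit 141))))) (PT.nd (nat_lit 234) (PT.nd (nat_lit 78) (PT.lf (nat_lit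 10184) (nat_lit 6) (nat_lit 134) (nat_lit 2) (nat_lit 212) (nat_lit 218) (nat_lit 140)) (PT.nd (nat_lit 78) (PT.lf (nat_lit 9804) (nat_lit 6) (nat_lit 129) (nat_lit 2) (nat_lit 213) (nat_lit 218) (nat_lit 139)) (PT.lf (nat_lit 9424) (nat_lit 6) (nat_lit 124) (nat_lit 2) (nat_lit 214) (nat_lit 218) (nat_lit 138)))) (PT.nd (nat_lit 156) (PT.nd (nat_lit 78) (PT.lf (nat_lit 9044) (nat_lit 6) (nat_lit 119) (nat_lit 2) (nat_lit 215) (nat_lit 218) (nat_lit 137)) (PT.lf (nat_lit 8664) (nat_lit 6) (nat_lit 114) (nat_lit 2) (nat_lit 216) (nat_lit 218) (nat_lit 136))) (PT.nd (nat_lit 78) (PT.lf (nat_lit 8360) (nat_lit 6) (nat_lit 110) (nat_lit 2) (nat_lit 217) (nat_lit 218) (nat_lit 135)) (PT.lf (nat_lit 7980) (nat_lit 3) (nat_lit 105) (nat_lit 0) (nat_lit 218) (nat_lit 218) (nat_lit 134)))))) (PT.nd (nat_lit 52104) (PT.nd (nat_lit 234) (PT.nd (nat_lit 78) (PT.lf (nat_lit 7600) (nat_lit 6) (nat_lit 100) (nat_lit 0)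 (nat_lit 219) (nat_lit 218) (nat_lit 133)) (PT.nd (nat_lit 78) (PT.lf (nat_lit 7220) (nat_lit 6) (nat_lit 95) (nat_lit 0) (nat_lit 220) (nat_lit 218) (nat_lit 132)) (PT.lf (nat_lit 6840) (nat_lit 6) (nat_lit 90) (nat_lit 0) (nat_lit 221) (nat_lit 218) (nat_lit 131)))) (PT.nd (nat_lit 156) (PT.nd (nat_lit 78) (PT.lf (nat_lit 6460) (nat_lit 6) (nat_lit 85) (nat_lit 0) (nat_lit 222) (nat_lit 218) (nat_lit 130)) (PT.lf (nat_lit 6156) (nat_lit 6) (nat_lit 81) (nat_lit 0) (nat_lit 223) (nat_lit 218) (nat_lit 129))) (PT.nd (nat_lit 78) (PT.lf (nat_lit 5776) (nat_lit 6) (nat_lit 76) (nat_lit 0) (nat_lit 224) (nat_lit 218) (nat_lit 128)) (PT.lf (nat_lit 5472) (nat_lit 6) (nat_lit 72) (nat_lit 0) (nat_lit 225) (nat_lit 218) (nat_lit 127))))) (PT.nd (nat_lit 312) (PT.nd (nat_lit 156) (PT.nd (nat_lit 78) (PT.lf (nat_lit 5168) (nat_lit 6) (nat_lit 68) (nat_lit 5) (nat_lit 126) (nat_lit 219) (nat_lit 225)) (PT.lf (nat_lit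 5548) (nat_lit 6) (nat_lit 73) (nat_lit 5) (nat_lit 127) (nat_lit 219) (nat_lit 224))) (PT.nd (nat_lit 78) (PT.lf (nat_lit 5852) (nat_lit 6) (nat_lit 77) (nat_lit 5) (nat_lit 128) (nat_lit 219) (nat_lit 223)) (PT.lf (nat_lit 6232) (nat_lit 6) (nat_lit 82) (nat_lit 5) (nat_lit 129) (nat_lit 219) (nat_lit 222)))) (PT.nd (nat_lit 156) (PT.nd (nat_lit 78) (PT.lf (nat_lit 6536) (nat_lit 6) (nat_lit 86) (nat_lit 5) (nat_lit 130) (nat_lit 219) (nat_lit 221)) (PT.lf (nat_lit 6916) (nat_lit 6) (nat_lit 91) (nat_lit 5) (nat_lit 131) (nat_lit 219) (nat_lit 220))) (PT.nd (nat_lit 78) (PT.lf (nat_lit 7296) (nat_lit 3) (nat_lit 96) (nat_lit 4) (nat_lit 132) (nat_lit 219) (nat_lit 219)) (PT.lf (nat_lit 7600) (nat_lit 6) (nat_lit 100) (nat_lit 4) (nat_lit 133) (nat_lit 219) (nat_lit 218))))))))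
noncomputable def pc58 : PT := (PT.nd (nat_lit 7020) (PT.nd (nat_lit 5928) (PT.nd (nat_lit 546) (PT.nd (nat_lit 234) (PT.nd (nat_lit 78) (PT.lf (nat_lit 7904) (nat_lit 6) (nat_lit 104) (nat_lit 4) (nat_lit 134) (nat_lit 219) (nat_lit 217)) (PT.nd (nat_lit 78) (PT.lf (nat_lit 8284) (nat_lit 6) (nat_lit 109) (nat_lit 4) (nat_lit 135) (nat_lit 219) (nat_lit 216)) (PT.lf (nat_lit 8588) (nat_lit 6) (nat_lit 113) (nat_lit 4) (nat_lit 136) (nat_lit 219) (nat_lit 215)))) (PT.nd (nat_lit 156) (PT.nd (nat_lit 78) (PT.lf (nat_lit 8968) (nat_lit 6) (nat_lit 118) (nat_lit 4) (nat_lit 137) (nat_lit 219) (nat_lit 214)) (PT.lf (nat_lit 9348) (nat_lit 6) (nat_lit 123) (nat_lit 4) (nat_lit 138) (nat_lit 219) (nat_lit 213))) (PT.nd (nat_lit 78) (PT.lf (nat_lit 9728) (nat_lit 6) (nat_lit 128) (nat_lit 4) (nat_lit 139) (nat_lit 219) (nat_lit 212)) (PT.lf (nat_lit 10108) (nat_lit 6) (nat_lit 133) (nat_lit 4) (nat_lit 140) (nat_lit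 219) (nat_lit 211))))) (PT.nd (nat_lit 234) (PT.nd (nat_lit 78) (PT.lf (nat_lit 10564) (nat_lit 6) (nat_lit 139) (nat_lit 4) (nat_lit 141) (nat_lit 219) (nat_lit 210)) (PT.nd (nat_lit 78) (PT.lf (nat_lit 10944) (nat_lit 6) (nat_lit 144) (nat_lit 4) (nat_lit 142) (nat_lit 219) (nat_lit 209)) (PT.lf (nat_lit 11400) (nat_lit 6) (nat_lit 150) (nat_lit 4) (nat_lit 143) (nat_lit 219) (nat_lit 208)))) (PT.nd (nat_lit 4992) (PT.nd (nat_lit 4914) (PT.lf (nat_lit 11856) (nat_lit 6) (nat_lit 156) (nat_lit 4) (nat_lit 144) (nat_lit 219) (nat_lit 207)) (PT.lf (nat_lit 11856) (nat_lit 6) (nat_lit 156) (nat_lit 2) (nat_lit 207) (nat_lit 219) (nat_lit 144))) (PT.nd (nat_lit 78) (PT.lf (nat_lit 11400) (nat_lit 6) (nat_lit 150) (nat_lit 2) (nat_lit 208) (nat_lit 219) (nat_lit 143)) (PT.lf (nat_lit 10944) (nat_lit 6) (nat_lit 144) (nat_lit 2) (nat_lit 209) (nat_lit 219) (nat_lit 142)))))) (PT.nd (nat_lit 546) (PT.nd (nat_lit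 234) (PT.nd (nat_lit 78) (PT.lf (nat_lit 10564) (nat_lit 6) (nat_lit 139) (nat_lit 2) (nat_lit 210) (nat_lit 219) (nat_lit 141)) (PT.nd (nat_lit 78) (PT.lf (nat_lit 10108) (nat_lit 6) (nat_lit 133) (nat_lit 2) (nat_lit 211) (nat_lit 219) (nat_lit 140)) (PT.lf (nat_lit 9728) (nat_lit 6) (nat_lit 128) (nat_lit 2) (nat_lit 212) (nat_lit 219) (nat_lit 139)))) (PT.nd (nat_lit 156) (PT.nd (nat_lit 78) (PT.lf (nat_lit 9348) (nat_lit 6) (nat_lit 123) (nat_lit 2) (nat_lit 213) (nat_lit 219) (nat_lit 138)) (PT.lf (nat_lit 8968) (nat_lit 6) (nat_lit 118) (nat_lit 2) (nat_lit 214) (nat_lit 219) (nat_lit 137))) (PT.nd (nat_lit 78) (PT.lf (nat_lit 8588) (nat_lit 6) (nat_lit 113) (nat_lit 2) (nat_lit 215) (nat_lit 219) (nat_lit 136)) (PT.lf (nat_lit 8284) (nat_lit 6) (nat_lit 109) (nat_lit 2) (nat_lit 216) (nat_lit 219) (nat_lit 135))))) (PT.nd (nat_lit 234) (PT.nd (nat_lit 78) (PT.lf (nat_lit 7904) (nat_lit 6) (nat_lit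 104) (nat_lit 2) (nat_lit 217) (nat_lit 219) (nat_lit 134)) (PT.nd (nat_lit 78) (PT.lf (nat_lit 7600) (nat_lit 6) (nat_lit 100) (nat_lit 2) (nat_lit 218) (nat_lit 219) (nat_lit 133)) (PT.lf (nat_lit 7296) (nat_lit 3) (nat_lit 96) (nat_lit 0) (nat_lit 219) (nat_lit 219) (nat_lit 132)))) (PT.nd (nat_lit 156) (PT.nd (nat_lit 78) (PT.lf (nat_lit 6916) (nat_lit 6) (nat_lit 91) (nat_lit 0) (nat_lit 220) (nat_lit 219) (nat_lit 131)) (PT.lf (nat_lit 6536) (nat_lit 6) (nat_lit 86) (nat_lit 0) (nat_lit 221) (nat_lit 219) (nat_lit 130))) (PT.nd (nat_lit 78) (PT.lf (nat_lit 6232) (nat_lit 6) (nat_lit 82) (nat_lit 0) (nat_lit 222) (nat_lit 219) (nat_lit 129)) (PT.lf (nat_lit 5852) (nat_lit 6) (nat_lit 77) (nat_lit 0) (nat_lit 223) (nat_lit 219) (nat_lit 128))))))) (PT.nd (nat_lit 52494) (PT.nd (nat_lit 51948) (PT.nd (nat_lit 51636) (PT.nd (nat_lit 78) (PT.lf (nat_lit 5548) (nat_lit 6) (nat_lit 73) (nat_lit 0) (nat_lit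 224) (nat_lit 219) (nat_lit 127)) (PT.nd (nat_lit 51480) (PT.lf (nat_lit 5168) (nat_lit 6) (nat_lit 68) (nat_lit 0) (nat_lit 225) (nat_lit 219) (nat_lit 126)) (PT.lf (nat_lit 4636) (nat_lit 6) (nat_lit 61) (nat_lit 5) (nat_lit 124) (nat_lit 220) (nat_lit 226)))) (PT.nd (nat_lit 156) (PT.nd (nat_lit 78) (PT.lf (nat_lit 4940) (nat_lit 6) (nat_lit 65) (nat_lit 5) (nat_lit 125) (nat_lit 220) (nat_lit 225)) (PT.lf (nat_lit 5244) (nat_lit 6) (nat_lit 69) (nat_lit 5) (nat_lit 126) (nat_lit 220) (nat_lit 224))) (PT.nd (nat_lit 78) (PT.lf (nat_lit 5624) (nat_lit 6) (nat_lit 74) (nat_lit 5) (nat_lit 127) (nat_lit 220) (nat_lit 223)) (PT.lf (nat_lit 5928) (nat_lit 6) (nat_lit 78) (nat_lit 5) (nat_lit 128) (nat_lit 220) (nat_lit 222))))) (PT.nd (nat_lit 234) (PT.nd (nat_lit 78) (PT.lf (nat_lit 6308) (nat_lit 6) (nat_lit 83) (nat_lit 5) (nat_lit 129) (nat_lit 220) (nat_lit 221)) (PT.nd (nat_lit 78) (PT.lf (nat_lit 6612)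 (nat_lit 3) (nat_lit 87) (nat_lit 4) (nat_lit 130) (nat_lit 220) (nat_lit 220)) (PT.lf (nat_lit 6916) (nat_lit 6) (nat_lit 91) (nat_lit 4) (nat_lit 131) (nat_lit 220) (nat_lit 219)))) (PT.nd (nat_lit 156) (PT.nd (nat_lit 78) (PT.lf (nat_lit 7220) (nat_lit 6) (nat_lit 95) (nat_lit 4) (nat_lit 132) (nat_lit 220) (nat_lit 218)) (PT.lf (nat_lit 7524) (nat_lit 6) (nat_lit 99) (nat_lit 4) (nat_lit 133) (nat_lit 220) (nat_lit 217))) (PT.nd (nat_lit 78) (PT.lf (nat_lit 7828) (nat_lit 6) (nat_lit 103) (nat_lit 4) (nat_lit 134) (nat_lit 220) (nat_lit 216)) (PT.lf (nat_lit 8208) (nat_lit 6) (nat_lit 108) (nat_lit 4) (nat_lit 135) (nat_lit 220) (nat_lit 215)))))) (PT.nd (nat_lit 5772) (PT.nd (nat_lit 234) (PT.nd (nat_lit 78) (PT.lf (nat_lit 8512) (nat_lit 6) (nat_lit 112) (nat_lit 4) (nat_lit 136) (nat_lit 220) (nat_lit 214)) (PT.nd (nat_lit 78) (PT.lf (nat_lit 8892) (nat_lit 6) (nat_lit 117) (nat_lit 4) (nat_lit 137)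 (nat_lit 220) (nat_lit 213)) (PT.lf (nat_lit 9272) (nat_lit 6) (nat_lit 122) (nat_lit 4) (nat_lit 138) (nat_lit 220) (nat_lit 212)))) (PT.nd (nat_lit 156) (PT.nd (nat_lit 78) (PT.lf (nat_lit 9652) (nat_lit 6) (nat_lit 127) (nat_lit 4) (nat_lit 139) (nat_lit 220) (nat_lit 211)) (PT.lf (nat_lit 10032) (nat_lit 6) (nat_lit 132) (nat_lit 4) (nat_lit 140) (nat_lit 220) (nat_lit 210))) (PT.nd (nat_lit 5304) (PT.lf (nat_lit 10488) (nat_lit 6) (nat_lit 138) (nat_lit 4) (nat_lit 141) (nat_lit 220) (nat_lit 209)) (PT.lf (nat_lit 10488) (nat_lit 6) (nat_lit 138) (nat_lit 2) (nat_lit 209) (nat_lit 220) (nat_lit 141))))) (PT.nd (nat_lit 312) (PT.nd (nat_lit 156) (PT.nd (nat_lit 78) (PT.lf (nat_lit 10032) (nat_lit 6) (nat_lit 132) (nat_lit 2) (nat_lit 210) (nat_lit 220) (nat_lit 140)) (PT.lf (nat_lit 9652) (nat_lit 6) (nat_lit 127) (nat_lit 2) (nat_lit 211) (nat_lit 220) (nat_lit 139))) (PT.nd (nat_lit 78) (PT.lf (nat_lit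 9272) (nat_lit 6) (nat_lit 122) (nat_lit 2) (nat_lit 212) (nat_lit 220) (nat_lit 138)) (PT.lf (nat_lit 8892) (nat_lit 6) (nat_lit 117) (nat_lit 2) (nat_lit 213) (nat_lit 220) (nat_lit 137)))) (PT.nd (nat_lit 156) (PT.nd (nat_lit 78) (PT.lf (nat_lit 8512) (nat_lit 6) (nat_lit 112) (nat_lit 2) (nat_lit 214) (nat_lit 220) (nat_lit 136)) (PT.lf (nat_lit 8208) (nat_lit 6) (nat_lit 108) (nat_lit 2) (nat_lit 215) (nat_lit 220) (nat_lit 135))) (PT.nd (nat_lit 78) (PT.lf (nat_lit 7828) (nat_lit 6) (nat_lit 103) (nat_lit 2) (nat_lit 216) (nat_lit 220) (nat_lit 134)) (PT.lf (nat_lit 7524) (nat_lit 6) (nat_lit 99) (nat_lit 2) (nat_lit 217) (nat_lit 220) (nat_lit 133))))))))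
noncomputable def pc59 : PT := (PT.nd (nat_lit 59046) (PT.nd (nat_lit 52260) (PT.nd (nat_lit 546) (PT.nd (nat_lit 234) (PT.nd (nat_lit 78) (PT.lf (nat_lit 7220) (nat_lit 6) (nat_lit 95) (nat_lit 2) (nat_lit 218) (nat_lit 220) (nat_lit 132)) (PT.nd (nat_lit 78) (PT.lf (nat_lit 6916) (nat_lit 6) (nat_lit 91) (nat_lit 2) (nat_lit 219) (nat_lit 220) (nat_lit 131)) (PT.lf (nat_lit 6612) (nat_lit 3) (nat_lit 87) (nat_lit 0) (nat_lit 220) (nat_lit 220) (nat_lit 130)))) (PT.nd (nat_lit 156) (PT.nd (nat_lit 78) (PT.lf (nat_lit 6308) (nat_lit 6) (nat_lit 83) (nat_lit 0) (nat_lit 221) (nat_lit 220) (nat_lit 129)) (PT.lf (nat_lit 5928) (nat_lit 6) (nat_lit 78) (nat_lit 0) (nat_lit 222) (nat_lit 220) (nat_lit 128))) (PT.nd (nat_lit 78) (PT.lf (nat_lit 5624) (nat_lit 6) (nat_lit 74) (nat_lit 0) (nat_lit 223) (nat_lit 220) (nat_lit 127)) (PT.lf (nat_lit 5244) (nat_lit 6) (nat_lit 69) (nat_lit 0) (nat_lit 224) (nat_lit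 220) (nat_lit 126))))) (PT.nd (nat_lit 51402) (PT.nd (nat_lit 78) (PT.lf (nat_lit 4940) (nat_lit 6) (nat_lit 65) (nat_lit 0) (nat_lit 225) (nat_lit 220) (nat_lit 125)) (PT.nd (nat_lit 51246) (PT.lf (nat_lit 4636) (nat_lit 6) (nat_lit 61) (nat_lit 0) (nat_lit 226) (nat_lit 220) (nat_lit 124)) (PT.lf (nat_lit 4104) (nat_lit 6) (nat_lit 54) (nat_lit 5) (nat_lit 122) (nat_lit 221) (nat_lit 227)))) (PT.nd (nat_lit 156) (PT.nd (nat_lit 78) (PT.lf (nat_lit 4408) (nat_lit 6) (nat_lit 58) (nat_lit 5) (nat_lit 123) (nat_lit 221) (nat_lit 226)) (PT.lf (nat_lit 4712) (nat_lit 6) (nat_lit 62) (nat_lit 5) (nat_lit 124) (nat_lit 221) (nat_lit 225))) (PT.nd (nat_lit 78) (PT.lf (nat_lit 5016) (nat_lit 6) (nat_lit 66) (nat_lit 5) (nat_lit 125) (nat_lit 221) (nat_lit 224)) (PT.lf (nat_lit 5320) (nat_lit 6) (nat_lit 70) (nat_lit 5) (nat_lit 126) (nat_lit 221) (nat_lit 223)))))) (PT.nd (nat_lit 546) (PT.nd (nat_lit 234) (PT.nd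 (nat_lit 78) (PT.lf (nat_lit 5700) (nat_lit 6) (nat_lit 75) (nat_lit 5) (nat_lit 127) (nat_lit 221) (nat_lit 222)) (PT.nd (nat_lit 78) (PT.lf (nat_lit 6004) (nat_lit 3) (nat_lit 79) (nat_lit 4) (nat_lit 128) (nat_lit 221) (nat_lit 221)) (PT.lf (nat_lit 6308) (nat_lit 6) (nat_lit 83) (nat_lit 4) (nat_lit 129) (nat_lit 221) (nat_lit 220)))) (PT.nd (nat_lit 156) (PT.nd (nat_lit 78) (PT.lf (nat_lit 6536) (nat_lit 6) (nat_lit 86) (nat_lit 4) (nat_lit 130) (nat_lit 221) (nat_lit 219)) (PT.lf (nat_lit 6840) (nat_lit 6) (nat_lit 90) (nat_lit 4) (nat_lit 131) (nat_lit 221) (nat_lit 218))) (PT.nd (nat_lit 78) (PT.lf (nat_lit 7144) (nat_lit 6) (nat_lit 94) (nat_lit 4) (nat_lit 132) (nat_lit 221) (nat_lit 217)) (PT.lf (nat_lit 7448) (nat_lit 6) (nat_lit 98) (nat_lit 4) (nat_lit 133) (nat_lit 221) (nat_lit 216))))) (PT.nd (nat_lit 312) (PT.nd (nat_lit 156) (PT.nd (nat_lit 78) (PT.lf (nat_lit 7752) (nat_lit 6) (nat_lit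 102) (nat_lit 4) (nat_lit 134) (nat_lit 221) (nat_lit 215)) (PT.lf (nat_lit 8132) (nat_lit 6) (nat_lit 107) (nat_lit 4) (nat_lit 135) (nat_lit 221) (nat_lit 214))) (PT.nd (nat_lit 78) (PT.lf (nat_lit 8436) (nat_lit 6) (nat_lit 111) (nat_lit 4) (nat_lit 136) (nat_lit 221) (nat_lit 213)) (PT.lf (nat_lit 8816) (nat_lit 6) (nat_lit 116) (nat_lit 4) (nat_lit 137) (nat_lit 221) (nat_lit 212)))) (PT.nd (nat_lit 5772) (PT.nd (nat_lit 5694) (PT.lf (nat_lit 9196) (nat_lit 6) (nat_lit 121) (nat_lit 4) (nat_lit 138) (nat_lit 221) (nat_lit 211)) (PT.lf (nat_lit 9196) (nat_lit 6) (nat_lit 121) (nat_lit 2) (nat_lit 211) (nat_lit 221) (nat_lit 138))) (PT.nd (nat_lit 78) (PT.lf (nat_lit 8816) (nat_lit 6) (nat_lit 116) (nat_lit 2) (nat_lit 212) (nat_lit 221) (nat_lit 137)) (PT.lf (nat_lit 8436) (nat_lit 6) (nat_lit 111) (nat_lit 2) (nat_lit 213) (nat_lit 221) (nat_lit 136))))))) (PT.nd (nat_lit 52104) (PT.nd (nat_lit 546)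 (PT.nd (nat_lit 234) (PT.nd (nat_lit 78) (PT.lf (nat_lit 8132) (nat_lit 6) (nat_lit 107) (nat_lit 2) (nat_lit 214) (nat_lit 221) (nat_lit 135)) (PT.nd (nat_lit 78) (PT.lf (nat_lit 7752) (nat_lit 6) (nat_lit 102) (nat_lit 2) (nat_lit 215) (nat_lit 221) (nat_lit 134)) (PT.lf (nat_lit 7448) (nat_lit 6) (nat_lit 98) (nat_lit 2) (nat_lit 216) (nat_lit 221) (nat_lit 133)))) (PT.nd (nat_lit 156) (PT.nd (nat_lit 78) (PT.lf (nat_lit 7144) (nat_lit 6) (nat_lit 94) (nat_lit 2) (nat_lit 217) (nat_lit 221) (nat_lit 132)) (PT.lf (nat_lit 6840) (nat_lit 6) (nat_lit 90) (nat_lit 2) (nat_lit 218) (nat_lit 221) (nat_lit 131))) (PT.nd (nat_lit 78) (PT.lf (nat_lit 6536) (nat_lit 6) (nat_lit 86) (nat_lit 2) (nat_lit 219) (nat_lit 221) (nat_lit 130)) (PT.lf (nat_lit 6308) (nat_lit 6) (nat_lit 83) (nat_lit 2) (nat_lit 220) (nat_lit 221) (nat_lit 129))))) (PT.nd (nat_lit 234) (PT.nd (nat_lit 78) (PT.lf (nat_lit 6004) (nat_lit 3)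 (nat_lit 79) (nat_lit 0) (nat_lit 221) (nat_lit 221) (nat_lit 128)) (PT.nd (nat_lit 78) (PT.lf (nat_lit 5700) (nat_lit 6) (nat_lit 75) (nat_lit 0) (nat_lit 222) (nat_lit 221) (nat_lit 127)) (PT.lf (nat_lit 5320) (nat_lit 6) (nat_lit 70) (nat_lit 0) (nat_lit 223) (nat_lit 221) (nat_lit 126)))) (PT.nd (nat_lit 156) (PT.nd (nat_lit 78) (PT.lf (nat_lit 5016) (nat_lit 6) (nat_lit 66) (nat_lit 0) (nat_lit 224) (nat_lit 221) (nat_lit 125)) (PT.lf (nat_lit 4712) (nat_lit 6) (nat_lit 62) (nat_lit 0) (nat_lit 225) (nat_lit 221) (nat_lit 124))) (PT.nd (nat_lit 78) (PT.lf (nat_lit 4408) (nat_lit 6) (nat_lit 58) (nat_lit 0) (nat_lit 226) (nat_lit 221) (nat_lit 123)) (PT.lf (nat_lit 4104) (nat_lit 6) (nat_lit 54) (nat_lit 0) (nat_lit 227) (nat_lit 221) (nat_lit 122)))))) (PT.nd (nat_lit 546) (PT.nd (nat_lit 234) (PT.nd (nat_lit 78) (PT.lf (nat_lit 3876) (nat_lit 6) (nat_lit 51) (nat_lit 5) (nat_lit 121) (nat_lit 222)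 (nat_lit 227)) (PT.nd (nat_lit 78) (PT.lf (nat_lit 4180) (nat_lit 6) (nat_lit 55) (nat_lit 5) (nat_lit 122) (nat_lit 222) (nat_lit 226)) (PT.lf (nat_lit 4484) (nat_lit 6) (nat_lit 59) (nat_lit 5) (nat_lit 123) (nat_lit 222) (nat_lit 225)))) (PT.nd (nat_lit 156) (PT.nd (nat_lit 78) (PT.lf (nat_lit 4788) (nat_lit 6) (nat_lit 63) (nat_lit 5) (nat_lit 124) (nat_lit 222) (nat_lit 224)) (PT.lf (nat_lit 5092) (nat_lit 6) (nat_lit 67) (nat_lit 5) (nat_lit 125) (nat_lit 222) (nat_lit 223))) (PT.nd (nat_lit 78) (PT.lf (nat_lit 5396) (nat_lit 3) (nat_lit 71) (nat_lit 4) (nat_lit 126) (nat_lit 222) (nat_lit 222)) (PT.lf (nat_lit 5700) (nat_lit 6) (nat_lit 75) (nat_lit 4) (nat_lit 127) (nat_lit 222) (nat_lit 221))))) (PT.nd (nat_lit 312) (PT.nd (nat_lit 156) (PT.nd (nat_lit 78) (PT.lf (nat_lit 5928) (nat_lit 6) (nat_lit 78) (nat_lit 4) (nat_lit 128) (nat_lit 222) (nat_lit 220)) (PT.lf (nat_lit 6232) (nat_lit 6) (nat_lit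 82) (nat_lit 4) (nat_lit 129) (nat_lit 222) (nat_lit 219))) (PT.nd (nat_lit 78) (PT.lf (nat_lit 6460) (nat_lit 6) (nat_lit 85) (nat_lit 4) (nat_lit 130) (nat_lit 222) (nat_lit 218)) (PT.lf (nat_lit 6764) (nat_lit 6) (nat_lit 89) (nat_lit 4) (nat_lit 131) (nat_lit 222) (nat_lit 217)))) (PT.nd (nat_lit 156) (PT.nd (nat_lit 78) (PT.lf (nat_lit 7068) (nat_lit 6) (nat_lit 93) (nat_lit 4) (nat_lit 132) (nat_lit 222) (nat_lit 216)) (PT.lf (nat_lit 7372) (nat_lit 6) (nat_lit 97) (nat_lit 4) (nat_lit 133) (nat_lit 222) (nat_lit 215))) (PT.nd (nat_lit 78) (PT.lf (nat_lit 7676) (nat_lit 6) (nat_lit 101) (nat_lit 4) (nat_lit 134) (nat_lit 222) (nat_lit 214)) (PT.lf (nat_lit 8056) (nat_lit 6) (nat_lit 106) (nat_lit 4) (nat_lit 135) (nat_lit 222) (nat_lit 213))))))))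
noncomputable def pc60 : PT := (PT.nd (nat_lit 53040) (PT.nd (nat_lit 1092) (PT.nd (nat_lit 546) (PT.nd (nat_lit 234) (PT.nd (nat_lit 78) (PT.lf (nat_lit 8056) (nat_lit 6) (nat_lit 106) (nat_lit 2) (nat_lit 213) (nat_lit 222) (nat_lit 135)) (PT.nd (nat_lit 78) (PT.lf (nat_lit 7676) (nat_lit 6) (nat_lit 101) (nat_lit 2) (nat_lit 214) (nat_lit 222) (nat_lit 134)) (PT.lf (nat_lit 7372) (nat_lit 6) (nat_lit 97) (nat_lit 2) (nat_lit 215) (nat_lit 222) (nat_lit 133)))) (PT.nd (nat_lit 156) (PT.nd (nat_lit 78) (PT.lf (nat_lit 7068) (nat_lit 6) (nat_lit 93) (nat_lit 2) (nat_lit 216) (nat_lit 222) (nat_lit 132)) (PT.lf (nat_lit 6764) (nat_lit 6) (nat_lit 89) (nat_lit 2) (nat_lit 217) (nat_lit 222) (nat_lit 131))) (PT.nd (nat_lit 78) (PT.lf (nat_lit 6460) (nat_lit 6) (nat_lit 85) (nat_lit 2) (nat_lit 218) (nat_lit 222) (nat_lit 130)) (PT.lf (nat_lit 6232) (nat_lit 6) (nat_lit 82) (nat_lit 2) (nat_lit 219) (nat_lit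 222) (nat_lit 129))))) (PT.nd (nat_lit 234) (PT.nd (nat_lit 78) (PT.lf (nat_lit 5928) (nat_lit 6) (nat_lit 78) (nat_lit 2) (nat_lit 220) (nat_lit 222) (nat_lit 128)) (PT.nd (nat_lit 78) (PT.lf (nat_lit 5700) (nat_lit 6) (nat_lit 75) (nat_lit 2) (nat_lit 221) (nat_lit 222) (nat_lit 127)) (PT.lf (nat_lit 5396) (nat_lit 3) (nat_lit 71) (nat_lit 0) (nat_lit 222) (nat_lit 222) (nat_lit 126)))) (PT.nd (nat_lit 156) (PT.nd (nat_lit 78) (PT.lf (nat_lit 5092) (nat_lit 6) (nat_lit 67) (nat_lit 0) (nat_lit 223) (nat_lit 222) (nat_lit 125)) (PT.lf (nat_lit 4788) (nat_lit 6) (nat_lit 63) (nat_lit 0) (nat_lit 224) (nat_lit 222) (nat_lit 124))) (PT.nd (nat_lit 78) (PT.lf (nat_lit 4484) (nat_lit 6) (nat_lit 59) (nat_lit 0) (nat_lit 225) (nat_lit 222) (nat_lit 123)) (PT.lf (nat_lit 4180) (nat_lit 6) (nat_lit 55) (nat_lit 0) (nat_lit 226) (nat_lit 222) (nat_lit 122)))))) (PT.nd (nat_lit 51402) (PT.nd (nat_lit 51090) (PT.nd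 (nat_lit 50934) (PT.lf (nat_lit 3876) (nat_lit 6) (nat_lit 51) (nat_lit 0) (nat_lit 227) (nat_lit 222) (nat_lit 121)) (PT.nd (nat_lit 78) (PT.lf (nat_lit 3420) (nat_lit 6) (nat_lit 45) (nat_lit 5) (nat_lit 119) (nat_lit 223) (nat_lit 228)) (PT.lf (nat_lit 3648) (nat_lit 6) (nat_lit 48) (nat_lit 5) (nat_lit 120) (nat_lit 223) (nat_lit 227)))) (PT.nd (nat_lit 156) (PT.nd (nat_lit 78) (PT.lf (nat_lit 3952) (nat_lit 6) (nat_lit 52) (nat_lit 5) (nat_lit 121) (nat_lit 223) (nat_lit 226)) (PT.lf (nat_lit 4256) (nat_lit 6) (nat_lit 56) (nat_lit 5) (nat_lit 122) (nat_lit 223) (nat_lit 225))) (PT.nd (nat_lit 78) (PT.lf (nat_lit 4560) (nat_lit 6) (nat_lit 60) (nat_lit 5) (nat_lit 123) (nat_lit 223) (nat_lit 224)) (PT.lf (nat_lit 4864) (nat_lit 3) (nat_lit 64) (nat_lit 4) (nat_lit 124) (nat_lit 223) (nat_lit 223))))) (PT.nd (nat_lit 234) (PT.nd (nat_lit 78) (PT.lf (nat_lit 5092) (nat_lit 6) (nat_lit 67) (nat_lit 4)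 (nat_lit 125) (nat_lit 223) (nat_lit 222)) (PT.nd (nat_lit 78) (PT.lf (nat_lit 5320) (nat_lit 6) (nat_lit 70) (nat_lit 4) (nat_lit 126) (nat_lit 223) (nat_lit 221)) (PT.lf (nat_lit 5624) (nat_lit 6) (nat_lit 74) (nat_lit 4) (nat_lit 127) (nat_lit 223) (nat_lit 220)))) (PT.nd (nat_lit 156) (PT.nd (nat_lit 78) (PT.lf (nat_lit 5852) (nat_lit 6) (nat_lit 77) (nat_lit 4) (nat_lit 128) (nat_lit 223) (nat_lit 219)) (PT.lf (nat_lit 6156) (nat_lit 6) (nat_lit 81) (nat_lit 4) (nat_lit 129) (nat_lit 223) (nat_lit 218))) (PT.nd (nat_lit 78) (PT.lf (nat_lit 6384) (nat_lit 6) (nat_lit 84) (nat_lit 4) (nat_lit 130) (nat_lit 223) (nat_lit 217)) (PT.lf (nat_lit 6688) (nat_lit 6) (nat_lit 88) (nat_lit 4) (nat_lit 131) (nat_lit 223) (nat_lit 216))))))) (PT.nd (nat_lit 7488) (PT.nd (nat_lit 6942) (PT.nd (nat_lit 6630) (PT.nd (nat_lit 6474) (PT.lf (nat_lit 6992) (nat_lit 6) (nat_lit 92) (nat_lit 4) (nat_lit 132) (nat_lit 223)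 (nat_lit 215)) (PT.nd (nat_lit 78) (PT.lf (nat_lit 6992) (nat_lit 6) (nat_lit 92) (nat_lit 2) (nat_lit 215) (nat_lit 223) (nat_lit 132)) (PT.lf (nat_lit 6688) (nat_lit 6) (nat_lit 88) (nat_lit 2) (nat_lit 216) (nat_lit 223) (nat_lit 131)))) (PT.nd (nat_lit 156) (PT.nd (nat_lit 78) (PT.lf (nat_lit 6384) (nat_lit 6) (nat_lit 84) (nat_lit 2) (nat_lit 217) (nat_lit 223) (nat_lit 130)) (PT.lf (nat_lit 6156) (nat_lit 6) (nat_lit 81) (nat_lit 2) (nat_lit 218) (nat_lit 223) (nat_lit 129))) (PT.nd (nat_lit 78) (PT.lf (nat_lit 5852) (nat_lit 6) (nat_lit 77) (nat_lit 2) (nat_lit 219) (nat_lit 223) (nat_lit 128)) (PT.lf (nat_lit 5624) (nat_lit 6) (nat_lit 74) (nat_lit 2) (nat_lit 220) (nat_lit 223) (nat_lit 127))))) (PT.nd (nat_lit 234) (PT.nd (nat_lit 78) (PT.lf (nat_lit 5320) (nat_lit 6) (nat_lit 70) (nat_lit 2) (nat_lit 221) (nat_lit 223) (nat_lit 126)) (PT.nd (nat_lit 78) (PT.lf (nat_lit 5092) (nat_lit 6) (nat_lit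 67) (nat_lit 2) (nat_lit 222) (nat_lit 223) (nat_lit 125)) (PT.lf (nat_lit 4864) (nat_lit 3) (nat_lit 64) (nat_lit 0) (nat_lit 223) (nat_lit 223) (nat_lit 124)))) (PT.nd (nat_lit 156) (PT.nd (nat_lit 78) (PT.lf (nat_lit 4560) (nat_lit 6) (nat_lit 60) (nat_lit 0) (nat_lit 224) (nat_lit 223) (nat_lit 123)) (PT.lf (nat_lit 4256) (nat_lit 6) (nat_lit 56) (nat_lit 0) (nat_lit 225) (nat_lit 223) (nat_lit 122))) (PT.nd (nat_lit 78) (PT.lf (nat_lit 3952) (nat_lit 6) (nat_lit 52) (nat_lit 0) (nat_lit 226) (nat_lit 223) (nat_lit 121)) (PT.lf (nat_lit 3648) (nat_lit 6) (nat_lit 48) (nat_lit 0) (nat_lit 227) (nat_lit 223) (nat_lit 120)))))) (PT.nd (nat_lit 51246) (PT.nd (nat_lit 50934) (PT.nd (nat_lit 50778) (PT.lf (nat_lit 3420) (nat_lit 6) (nat_lit 45) (nat_lit 0) (nat_lit 228) (nat_lit 223) (nat_lit 119)) (PT.nd (nat_lit 78) (PT.lf (nat_lit 3192) (nat_lit 6) (nat_lit 42) (nat_lit 5) (nat_lit 118) (nat_lit 224) (nat_lit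 228)) (PT.lf (nat_lit 3496) (nat_lit 6) (nat_lit 46) (nat_lit 5) (nat_lit 119) (nat_lit 224) (nat_lit 227)))) (PT.nd (nat_lit 156) (PT.nd (nat_lit 78) (PT.lf (nat_lit 3724) (nat_lit 6) (nat_lit 49) (nat_lit 5) (nat_lit 120) (nat_lit 224) (nat_lit 226)) (PT.lf (nat_lit 4028) (nat_lit 6) (nat_lit 53) (nat_lit 5) (nat_lit 121) (nat_lit 224) (nat_lit 225))) (PT.nd (nat_lit 78) (PT.lf (nat_lit 4332) (nat_lit 3) (nat_lit 57) (nat_lit 4) (nat_lit 122) (nat_lit 224) (nat_lit 224)) (PT.lf (nat_lit 4560) (nat_lit 6) (nat_lit 60) (nat_lit 4) (nat_lit 123) (nat_lit 224) (nat_lit 223))))) (PT.nd (nat_lit 312) (PT.nd (nat_lit 156) (PT.nd (nat_lit 78) (PT.lf (nat_lit 4788) (nat_lit 6) (nat_lit 63) (nat_lit 4) (nat_lit 124) (nat_lit 224) (nat_lit 222)) (PT.lf (nat_lit 5016) (nat_lit 6) (nat_lit 66) (nat_lit 4) (nat_lit 125) (nat_lit 224) (nat_lit 221))) (PT.nd (nat_lit 78) (PT.lf (nat_lit 5244) (nat_lit 6) (nat_lit 69)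 (nat_lit 4) (nat_lit 126) (nat_lit 224) (nat_lit 220)) (PT.lf (nat_lit 5548) (nat_lit 6) (nat_lit 73) (nat_lit 4) (nat_lit 127) (nat_lit 224) (nat_lit 219)))) (PT.nd (nat_lit 6942) (PT.nd (nat_lit 78) (PT.lf (nat_lit 5776) (nat_lit 6) (nat_lit 76) (nat_lit 4) (nat_lit 128) (nat_lit 224) (nat_lit 218)) (PT.lf (nat_lit 6080) (nat_lit 6) (nat_lit 80) (nat_lit 4) (nat_lit 129) (nat_lit 224) (nat_lit 217))) (PT.nd (nat_lit 78) (PT.lf (nat_lit 6080) (nat_lit 6) (nat_lit 80) (nat_lit 2) (nat_lit 217) (nat_lit 224) (nat_lit 129)) (PT.lf (nat_lit 5776) (nat_lit 6) (nat_lit 76) (nat_lit 2) (nat_lit 218) (nat_lit 224) (nat_lit 128))))))))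
noncomputable def pc61 : PT := (PT.nd (nat_lit 59826) (PT.nd (nat_lit 51636) (PT.nd (nat_lit 546) (PT.nd (nat_lit 234) (PT.nd (nat_lit 78) (PT.lf (nat_lit 5548) (nat_lit 6) (nat_lit 73) (nat_lit 2) (nat_lit 219) (nat_lit 224) (nat_lit 127)) (PT.nd (nat_lit 78) (PT.lf (nat_lit 5244) (nat_lit 6) (nat_lit 69) (nat_lit 2) (nat_lit 220) (nat_lit 224) (nat_lit 126)) (PT.lf (nat_lit 5016) (nat_lit 6) (nat_lit 66) (nat_lit 2) (nat_lit 221) (nat_lit 224) (nat_lit 125)))) (PT.nd (nat_lit 156) (PT.nd (nat_lit 78) (PT.lf (nat_lit 4788) (nat_lit 6) (nat_lit 63) (nat_lit 2) (nat_lit 222) (nat_lit 224) (nat_lit 124)) (PT.lf (nat_lit 4560) (nat_lit 6) (nat_lit 60) (nat_lit 2) (nat_lit 223) (nat_lit 224) (nat_lit 123))) (PT.nd (nat_lit 78) (PT.lf (nat_lit 4332) (nat_lit 3) (nat_lit 57) (nat_lit 0) (nat_lit 224) (nat_lit 224) (nat_lit 122)) (PT.lf (nat_lit 4028) (nat_lit 6) (nat_lit 53) (nat_lit 0) (nat_lit 225) (nat_lit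 224) (nat_lit 121))))) (PT.nd (nat_lit 50778) (PT.nd (nat_lit 78) (PT.lf (nat_lit 3724) (nat_lit 6) (nat_lit 49) (nat_lit 0) (nat_lit 226) (nat_lit 224) (nat_lit 120)) (PT.nd (nat_lit 78) (PT.lf (nat_lit 3496) (nat_lit 6) (nat_lit 46) (nat_lit 0) (nat_lit 227) (nat_lit 224) (nat_lit 119)) (PT.lf (nat_lit 3192) (nat_lit 6) (nat_lit 42) (nat_lit 0) (nat_lit 228) (nat_lit 224) (nat_lit 118)))) (PT.nd (nat_lit 156) (PT.nd (nat_lit 78) (PT.lf (nat_lit 2736) (nat_lit 6) (nat_lit 36) (nat_lit 5) (nat_lit 116) (nat_lit 225) (nat_lit 229)) (PT.lf (nat_lit 3040) (nat_lit 6) (nat_lit 40) (nat_lit 5) (nat_lit 117) (nat_lit 225) (nat_lit 228))) (PT.nd (nat_lit 78) (PT.lf (nat_lit 3268) (nat_lit 6) (nat_lit 43) (nat_lit 5) (nat_lit 118) (nat_lit 225) (nat_lit 227)) (PT.lf (nat_lit 3572) (nat_lit 6) (nat_lit 47) (nat_lit 5) (nat_lit 119) (nat_lit 225) (nat_lit 226)))))) (PT.nd (nat_lit 546) (PT.nd (nat_lit 234) (PT.nd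 (nat_lit 78) (PT.lf (nat_lit 3800) (nat_lit 3) (nat_lit 50) (nat_lit 4) (nat_lit 120) (nat_lit 225) (nat_lit 225)) (PT.nd (nat_lit 78) (PT.lf (nat_lit 4028) (nat_lit 6) (nat_lit 53) (nat_lit 4) (nat_lit 121) (nat_lit 225) (nat_lit 224)) (PT.lf (nat_lit 4256) (nat_lit 6) (nat_lit 56) (nat_lit 4) (nat_lit 122) (nat_lit 225) (nat_lit 223)))) (PT.nd (nat_lit 156) (PT.nd (nat_lit 78) (PT.lf (nat_lit 4484) (nat_lit 6) (nat_lit 59) (nat_lit 4) (nat_lit 123) (nat_lit 225) (nat_lit 222)) (PT.lf (nat_lit 4712) (nat_lit 6) (nat_lit 62) (nat_lit 4) (nat_lit 124) (nat_lit 225) (nat_lit 221))) (PT.nd (nat_lit 78) (PT.lf (nat_lit 4940) (nat_lit 6) (nat_lit 65) (nat_lit 4) (nat_lit 125) (nat_lit 225) (nat_lit 220)) (PT.lf (nat_lit 5168) (nat_lit 6) (nat_lit 68) (nat_lit 4) (nat_lit 126) (nat_lit 225) (nat_lit 219))))) (PT.nd (nat_lit 7332) (PT.nd (nat_lit 7176) (PT.nd (nat_lit 7098) (PT.lf (nat_lit 5472) (nat_lit 6) (nat_lit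 72) (nat_lit 4) (nat_lit 127) (nat_lit 225) (nat_lit 218)) (PT.lf (nat_lit 5472) (nat_lit 6) (nat_lit 72) (nat_lit 2) (nat_lit 218) (nat_lit 225) (nat_lit 127))) (PT.nd (nat_lit 78) (PT.lf (nat_lit 5168) (nat_lit 6) (nat_lit 68) (nat_lit 2) (nat_lit 219) (nat_lit 225) (nat_lit 126)) (PT.lf (nat_lit 4940) (nat_lit 6) (nat_lit 65) (nat_lit 2) (nat_lit 220) (nat_lit 225) (nat_lit 125)))) (PT.nd (nat_lit 156) (PT.nd (nat_lit 78) (PT.lf (nat_lit 4712) (nat_lit 6) (nat_lit 62) (nat_lit 2) (nat_lit 221) (nat_lit 225) (nat_lit 124)) (PT.lf (nat_lit 4484) (nat_lit 6) (nat_lit 59) (nat_lit 2) (nat_lit 222) (nat_lit 225) (nat_lit 123))) (PT.nd (nat_lit 78) (PT.lf (nat_lit 4256) (nat_lit 6) (nat_lit 56) (nat_lit 2) (nat_lit 223) (nat_lit 225) (nat_lit 122)) (PT.lf (nat_lit 4028) (nat_lit 6) (nat_lit 53) (nat_lit 2) (nat_lit 224) (nat_lit 225) (nat_lit 121))))))) (PT.nd (nat_lit 51402) (PT.nd (nat_lit 50856) (PT.nd (nat_lit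 234) (PT.nd (nat_lit 78) (PT.lf (nat_lit 3800) (nat_lit 3) (nat_lit 50) (nat_lit 0) (nat_lit 225) (nat_lit 225) (nat_lit 120)) (PT.nd (nat_lit 78) (PT.lf (nat_lit 3572) (nat_lit 6) (nat_lit 47) (nat_lit 0) (nat_lit 226) (nat_lit 225) (nat_lit 119)) (PT.lf (nat_lit 3268) (nat_lit 6) (nat_lit 43) (nat_lit 0) (nat_lit 227) (nat_lit 225) (nat_lit 118)))) (PT.nd (nat_lit 50466) (PT.nd (nat_lit 78) (PT.lf (nat_lit 3040) (nat_lit 6) (nat_lit 40) (nat_lit 0) (nat_lit 228) (nat_lit 225) (nat_lit 117)) (PT.lf (nat_lit 2736) (nat_lit 6) (nat_lit 36) (nat_lit 0) (nat_lit 229) (nat_lit 225) (nat_lit 116))) (PT.nd (nat_lit 78) (PT.lf (nat_lit 2280) (nat_lit 6) (nat_lit 30) (nat_lit 5) (nat_lit 114) (nat_lit 226) (nat_lit 230)) (PT.lf (nat_lit 2584) (nat_lit 6) (nat_lit 34) (nat_lit 5) (nat_lit 115) (nat_lit 226) (nat_lit 229))))) (PT.nd (nat_lit 234) (PT.nd (nat_lit 78) (PT.lf (nat_lit 2812) (nat_lit 6) (nat_lit 37) (nat_lit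 5) (nat_lit 116) (nat_lit 226) (nat_lit 228)) (PT.nd (nat_lit 78) (PT.lf (nat_lit 3116) (nat_lit 6) (nat_lit 41) (nat_lit 5) (nat_lit 117) (nat_lit 226) (nat_lit 227)) (PT.lf (nat_lit 3344) (nat_lit 3) (nat_lit 44) (nat_lit 4) (nat_lit 118) (nat_lit 226) (nat_lit 226)))) (PT.nd (nat_lit 156) (PT.nd (nat_lit 78) (PT.lf (nat_lit 3572) (nat_lit 6) (nat_lit 47) (nat_lit 4) (nat_lit 119) (nat_lit 226) (nat_lit 225)) (PT.lf (nat_lit 3724) (nat_lit 6) (nat_lit 49) (nat_lit 4) (nat_lit 120) (nat_lit 226) (nat_lit 224))) (PT.nd (nat_lit 78) (PT.lf (nat_lit 3952) (nat_lit 6) (nat_lit 52) (nat_lit 4) (nat_lit 121) (nat_lit 226) (nat_lit 223)) (PT.lf (nat_lit 4180) (nat_lit 6) (nat_lit 55) (nat_lit 4) (nat_lit 122) (nat_lit 226) (nat_lit 222)))))) (PT.nd (nat_lit 7956) (PT.nd (nat_lit 7644) (PT.nd (nat_lit 78) (PT.lf (nat_lit 4408) (nat_lit 6) (nat_lit 58) (nat_lit 4) (nat_lit 123) (nat_lit 226) (nat_lit 221)) (PT.nd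 (nat_lit 7488) (PT.lf (nat_lit 4636) (nat_lit 6) (nat_lit 61) (nat_lit 4) (nat_lit 124) (nat_lit 226) (nat_lit 220)) (PT.lf (nat_lit 4636) (nat_lit 6) (nat_lit 61) (nat_lit 2) (nat_lit 220) (nat_lit 226) (nat_lit 124)))) (PT.nd (nat_lit 156) (PT.nd (nat_lit 78) (PT.lf (nat_lit 4408) (nat_lit 6) (nat_lit 58) (nat_lit 2) (nat_lit 221) (nat_lit 226) (nat_lit 123)) (PT.lf (nat_lit 4180) (nat_lit 6) (nat_lit 55) (nat_lit 2) (nat_lit 222) (nat_lit 226) (nat_lit 122))) (PT.nd (nat_lit 78) (PT.lf (nat_lit 3952) (nat_lit 6) (nat_lit 52) (nat_lit 2) (nat_lit 223) (nat_lit 226) (nat_lit 121)) (PT.lf (nat_lit 3724) (nat_lit 6) (nat_lit 49) (nat_lit 2) (nat_lit 224) (nat_lit 226) (nat_lit 120))))) (PT.nd (nat_lit 312) (PT.nd (nat_lit 156) (PT.nd (nat_lit 78) (PT.lf (nat_lit 3572) (nat_lit 6) (nat_lit 47) (nat_lit 2) (nat_lit 225) (nat_lit 226) (nat_lit 119)) (PT.lf (nat_lit 3344) (nat_lit 3) (nat_lit 44) (nat_lit 0)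 (nat_lit 226) (nat_lit 226) (nat_lit 118))) (PT.nd (nat_lit 78) (PT.lf (nat_lit 3116) (nat_lit 6) (nat_lit 41) (nat_lit 0) (nat_lit 227) (nat_lit 226) (nat_lit 117)) (PT.lf (nat_lit 2812) (nat_lit 6) (nat_lit 37) (nat_lit 0) (nat_lit 228) (nat_lit 226) (nat_lit 116)))) (PT.nd (nat_lit 50232) (PT.nd (nat_lit 78) (PT.lf (nat_lit 2584) (nat_lit 6) (nat_lit 34) (nat_lit 0) (nat_lit 229) (nat_lit 226) (nat_lit 115)) (PT.lf (nat_lit 2280) (nat_lit 6) (nat_lit 30) (nat_lit 0) (nat_lit 230) (nat_lit 226) (nat_lit 114))) (PT.nd (nat_lit 78) (PT.lf (nat_lit 1900) (nat_lit 6) (nat_lit 25) (nat_lit 5) (nat_lit 112) (nat_lit 227) (nat_lit 231)) (PT.lf (nat_lit 2128) (nat_lit 6) (nat_lit 28) (nat_lit 5) (nat_lit 113) (nat_lit 227) (nat_lit 230))))))))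
noncomputable def pc62 : PT := (PT.nd (nat_lit 67860) (PT.nd (nat_lit 8736) (PT.nd (nat_lit 546) (PT.nd (nat_lit 234) (PT.nd (nat_lit 78) (PT.lf (nat_lit 2356) (nat_lit 6) (nat_lit 31) (nat_lit 5) (nat_lit 114) (nat_lit 227) (nat_lit 229)) (PT.nd (nat_lit 78) (PT.lf (nat_lit 2660) (nat_lit 6) (nat_lit 35) (nat_lit 5) (nat_lit 115) (nat_lit 227) (nat_lit 228)) (PT.lf (nat_lit 2888) (nat_lit 3) (nat_lit 38) (nat_lit 4) (nat_lit 116) (nat_lit 227) (nat_lit 227)))) (PT.nd (nat_lit 156) (PT.nd (nat_lit 78) (PT.lf (nat_lit 3116) (nat_lit 6) (nat_lit 41) (nat_lit 4) (nat_lit 117) (nat_lit 227) (nat_lit 226)) (PT.lf (nat_lit 3268) (nat_lit 6) (nat_lit 43) (nat_lit 4) (nat_lit 118) (nat_lit 227) (nat_lit 225))) (PT.nd (nat_lit 78) (PT.lf (nat_lit 3496) (nat_lit 6) (nat_lit 46) (nat_lit 4) (nat_lit 119) (nat_lit 227) (nat_lit 224)) (PT.lf (nat_lit 3648) (nat_lit 6) (nat_lit 48) (nat_lit 4) (nat_lit 120) (nat_lit 227)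 (nat_lit 223))))) (PT.nd (nat_lit 7878) (PT.nd (nat_lit 78) (PT.lf (nat_lit 3876) (nat_lit 6) (nat_lit 51) (nat_lit 4) (nat_lit 121) (nat_lit 227) (nat_lit 222)) (PT.nd (nat_lit 7722) (PT.lf (nat_lit 4104) (nat_lit 6) (nat_lit 54) (nat_lit 4) (nat_lit 122) (nat_lit 227) (nat_lit 221)) (PT.lf (nat_lit 4104) (nat_lit 6) (nat_lit 54) (nat_lit 2) (nat_lit 221) (nat_lit 227) (nat_lit 122)))) (PT.nd (nat_lit 156) (PT.nd (nat_lit 78) (PT.lf (nat_lit 3876) (nat_lit 6) (nat_lit 51) (nat_lit 2) (nat_lit 222) (nat_lit 227) (nat_lit 121)) (PT.lf (nat_lit 3648) (nat_lit 6) (nat_lit 48) (nat_lit 2) (nat_lit 223) (nat_lit 227) (nat_lit 120))) (PT.nd (nat_lit 78) (PT.lf (nat_lit 3496) (nat_lit 6) (nat_lit 46) (nat_lit 2) (nat_lit 224) (nat_lit 227) (nat_lit 119)) (PT.lf (nat_lit 3268) (nat_lit 6) (nat_lit 43) (nat_lit 2) (nat_lit 225) (nat_lit 227) (nat_lit 118)))))) (PT.nd (nat_lit 50466) (PT.nd (nat_lit 234) (PT.nd (nat_lit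 78) (PT.lf (nat_lit 3116) (nat_lit 6) (nat_lit 41) (nat_lit 2) (nat_lit 226) (nat_lit 227) (nat_lit 117)) (PT.nd (nat_lit 78) (PT.lf (nat_lit 2888) (nat_lit 3) (nat_lit 38) (nat_lit 0) (nat_lit 227) (nat_lit 227) (nat_lit 116)) (PT.lf (nat_lit 2660) (nat_lit 6) (nat_lit 35) (nat_lit 0) (nat_lit 228) (nat_lit 227) (nat_lit 115)))) (PT.nd (nat_lit 156) (PT.nd (nat_lit 78) (PT.lf (nat_lit 2356) (nat_lit 6) (nat_lit 31) (nat_lit 0) (nat_lit 229) (nat_lit 227) (nat_lit 114)) (PT.lf (nat_lit 2128) (nat_lit 6) (nat_lit 28) (nat_lit 0) (nat_lit 230) (nat_lit 227) (nat_lit 113))) (PT.nd (nat_lit 49998) (PT.lf (nat_lit 1900) (nat_lit 6) (nat_lit 25) (nat_lit 0) (nat_lit 231) (nat_lit 227) (nat_lit 112)) (PT.lf (nat_lit 1748) (nat_lit 6) (nat_lit 23) (nat_lit 5) (nat_lit 111) (nat_lit 228) (nat_lit 231))))) (PT.nd (nat_lit 312) (PT.nd (nat_lit 156) (PT.nd (nat_lit 78) (PT.lf (nat_lit 1976) (nat_lit 6) (nat_lit 26)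 (nat_lit 5) (nat_lit 112) (nat_lit 228) (nat_lit 230)) (PT.lf (nat_lit 2204) (nat_lit 6) (nat_lit 29) (nat_lit 5) (nat_lit 113) (nat_lit 228) (nat_lit 229))) (PT.nd (nat_lit 78) (PT.lf (nat_lit 2432) (nat_lit 3) (nat_lit 32) (nat_lit 4) (nat_lit 114) (nat_lit 228) (nat_lit 228)) (PT.lf (nat_lit 2660) (nat_lit 6) (nat_lit 35) (nat_lit 4) (nat_lit 115) (nat_lit 228) (nat_lit 227)))) (PT.nd (nat_lit 156) (PT.nd (nat_lit 78) (PT.lf (nat_lit 2812) (nat_lit 6) (nat_lit 37) (nat_lit 4) (nat_lit 116) (nat_lit 228) (nat_lit 226)) (PT.lf (nat_lit 3040) (nat_lit 6) (nat_lit 40) (nat_lit 4) (nat_lit 117) (nat_lit 228) (nat_lit 225))) (PT.nd (nat_lit 78) (PT.lf (nat_lit 3192) (nat_lit 6) (nat_lit 42) (nat_lit 4) (nat_lit 118) (nat_lit 228) (nat_lit 224)) (PT.lf (nat_lit 3420) (nat_lit 6) (nat_lit 45) (nat_lit 4) (nat_lit 119) (nat_lit 228) (nat_lit 223))))))) (PT.nd (nat_lit 50856) (PT.nd (nat_lit 546) (PT.nd (nat_lit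 234) (PT.nd (nat_lit 78) (PT.lf (nat_lit 3420) (nat_lit 6) (nat_lit 45) (nat_lit 2) (nat_lit 223) (nat_lit 228) (nat_lit 119)) (PT.nd (nat_lit 78) (PT.lf (nat_lit 3192) (nat_lit 6) (nat_lit 42) (nat_lit 2) (nat_lit 224) (nat_lit 228) (nat_lit 118)) (PT.lf (nat_lit 3040) (nat_lit 6) (nat_lit 40) (nat_lit 2) (nat_lit 225) (nat_lit 228) (nat_lit 117)))) (PT.nd (nat_lit 156) (PT.nd (nat_lit 78) (PT.lf (nat_lit 2812) (nat_lit 6) (nat_lit 37) (nat_lit 2) (nat_lit 226) (nat_lit 228) (nat_lit 116)) (PT.lf (nat_lit 2660) (nat_lit 6) (nat_lit 35) (nat_lit 2) (nat_lit 227) (nat_lit 228) (nat_lit 115))) (PT.nd (nat_lit 78) (PT.lf (nat_lit 2432) (nat_lit 3) (nat_lit 32) (nat_lit 0) (nat_lit 228) (nat_lit 228) (nat_lit 114)) (PT.lf (nat_lit 2204) (nat_lit 6) (nat_lit 29) (nat_lit 0) (nat_lit 229) (nat_lit 228) (nat_lit 113))))) (PT.nd (nat_lit 49998) (PT.nd (nat_lit 78) (PT.lf (nat_lit 1976) (nat_lit 6) (nat_lit 26) (nat_lit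 0) (nat_lit 230) (nat_lit 228) (nat_lit 112)) (PT.nd (nat_lit 49842) (PT.lf (nat_lit 1748) (nat_lit 6) (nat_lit 23) (nat_lit 0) (nat_lit 231) (nat_lit 228) (nat_lit 111)) (PT.lf (nat_lit 1368) (nat_lit 6) (nat_lit 18) (nat_lit 5) (nat_lit 109) (nat_lit 229) (nat_lit 232)))) (PT.nd (nat_lit 156) (PT.nd (nat_lit 78) (PT.lf (nat_lit 1596) (nat_lit 6) (nat_lit 21) (nat_lit 5) (nat_lit 110) (nat_lit 229) (nat_lit 231)) (PT.lf (nat_lit 1824) (nat_lit 6) (nat_lit 24) (nat_lit 5) (nat_lit 111) (nat_lit 229) (nat_lit 230))) (PT.nd (nat_lit 78) (PT.lf (nat_lit 2052) (nat_lit 3) (nat_lit 27) (nat_lit 4) (nat_lit 112) (nat_lit 229) (nat_lit 229)) (PT.lf (nat_lit 2204) (nat_lit 6) (nat_lit 29) (nat_lit 4) (nat_lit 113) (nat_lit 229) (nat_lit 228)))))) (PT.nd (nat_lit 8970) (PT.nd (nat_lit 8658) (PT.nd (nat_lit 78) (PT.lf (nat_lit 2356) (nat_lit 6) (nat_lit 31) (nat_lit 4) (nat_lit 114) (nat_lit 229) (nat_lit 227)) (PT.nd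 (nat_lit 78) (PT.lf (nat_lit 2584) (nat_lit 6) (nat_lit 34) (nat_lit 4) (nat_lit 115) (nat_lit 229) (nat_lit 226)) (PT.lf (nat_lit 2736) (nat_lit 6) (nat_lit 36) (nat_lit 4) (nat_lit 116) (nat_lit 229) (nat_lit 225)))) (PT.nd (nat_lit 156) (PT.nd (nat_lit 78) (PT.lf (nat_lit 2736) (nat_lit 6) (nat_lit 36) (nat_lit 2) (nat_lit 225) (nat_lit 229) (nat_lit 116)) (PT.lf (nat_lit 2584) (nat_lit 6) (nat_lit 34) (nat_lit 2) (nat_lit 226) (nat_lit 229) (nat_lit 115))) (PT.nd (nat_lit 78) (PT.lf (nat_lit 2356) (nat_lit 6) (nat_lit 31) (nat_lit 2) (nat_lit 227) (nat_lit 229) (nat_lit 114)) (PT.lf (nat_lit 2204) (nat_lit 6) (nat_lit 29) (nat_lit 2) (nat_lit 228) (nat_lit 229) (nat_lit 113))))) (PT.nd (nat_lit 49842) (PT.nd (nat_lit 156) (PT.nd (nat_lit 78) (PT.lf (nat_lit 2052) (nat_lit 3) (nat_lit 27) (nat_lit 0) (nat_lit 229) (nat_lit 229) (nat_lit 112)) (PT.lf (nat_lit 1824) (nat_lit 6) (nat_lit 24) (nat_lit 0)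 (nat_lit 230) (nat_lit 229) (nat_lit 111))) (PT.nd (nat_lit 78) (PT.lf (nat_lit 1596) (nat_lit 6) (nat_lit 21) (nat_lit 0) (nat_lit 231) (nat_lit 229) (nat_lit 110)) (PT.lf (nat_lit 1368) (nat_lit 6) (nat_lit 18) (nat_lit 0) (nat_lit 232) (nat_lit 229) (nat_lit 109)))) (PT.nd (nat_lit 156) (PT.nd (nat_lit 78) (PT.lf (nat_lit 1064) (nat_lit 6) (nat_lit 14) (nat_lit 5) (nat_lit 107) (nat_lit 230) (nat_lit 233)) (PT.lf (nat_lit 1216) (nat_lit 6) (nat_lit 16) (nat_lit 5) (nat_lit 108) (nat_lit 230) (nat_lit 232))) (PT.nd (nat_lit 78) (PT.lf (nat_lit 1444) (nat_lit 6) (nat_lit 19) (nat_lit 5) (nat_lit 109) (nat_lit 230) (nat_lit 231)) (PT.lf (nat_lit 1672) (nat_lit 3) (nat_lit 22) (nat_lit 4) (nat_lit 110) (nat_lit 230) (nat_lit 230))))))))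
noncomputable def pc63 : PT := (PT.nd (nat_lit 118404) (PT.nd (nat_lit 59124) (PT.nd (nat_lit 9204) (PT.nd (nat_lit 234) (PT.nd (nat_lit 78) (PT.lf (nat_lit 1824) (nat_lit 6) (nat_lit 24) (nat_lit 4) (nat_lit 111) (nat_lit 230) (nat_lit 229)) (PT.nd (nat_lit 78) (PT.lf (nat_lit 1976) (nat_lit 6) (nat_lit 26) (nat_lit 4) (nat_lit 112) (nat_lit 230) (nat_lit 228)) (PT.lf (nat_lit 2128) (nat_lit 6) (nat_lit 28) (nat_lit 4) (nat_lit 113) (nat_lit 230) (nat_lit 227)))) (PT.nd (nat_lit 8814) (PT.nd (nat_lit 8736) (PT.lf (nat_lit 2280) (nat_lit 6) (nat_lit 30) (nat_lit 4) (nat_lit 114) (nat_lit 230) (nat_lit 226)) (PT.lf (nat_lit 2280) (nat_lit 6) (nat_lit 30) (nat_lit 2) (nat_lit 226) (nat_lit 230) (nat_lit 114))) (PT.nd (nat_lit 78) (PT.lf (nat_lit 2128) (nat_lit 6) (nat_lit 28) (nat_lit 2) (nat_lit 227) (nat_lit 230) (nat_lit 113)) (PT.lf (nat_lit 1976) (nat_lit 6) (nat_lit 26) (nat_lit 2) (nat_lit 228) (nat_lit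 230) (nat_lit 112))))) (PT.nd (nat_lit 234) (PT.nd (nat_lit 78) (PT.lf (nat_lit 1824) (nat_lit 6) (nat_lit 24) (nat_lit 2) (nat_lit 229) (nat_lit 230) (nat_lit 111)) (PT.nd (nat_lit 78) (PT.lf (nat_lit 1672) (nat_lit 3) (nat_lit 22) (nat_lit 0) (nat_lit 230) (nat_lit 230) (nat_lit 110)) (PT.lf (nat_lit 1444) (nat_lit 6) (nat_lit 19) (nat_lit 0) (nat_lit 231) (nat_lit 230) (nat_lit 109)))) (PT.nd (nat_lit 49530) (PT.nd (nat_lit 78) (PT.lf (nat_lit 1216) (nat_lit 6) (nat_lit 16) (nat_lit 0) (nat_lit 232) (nat_lit 230) (nat_lit 108)) (PT.lf (nat_lit 1064) (nat_lit 6) (nat_lit 14) (nat_lit 0) (nat_lit 233) (nat_lit 230) (nat_lit 107))) (PT.nd (nat_lit 78) (PT.lf (nat_lit 912) (nat_lit 6) (nat_lit 12) (nat_lit 5) (nat_lit 106) (nat_lit 231) (nat_lit 233)) (PT.lf (nat_lit 1140) (nat_lit 6) (nat_lit 15) (nat_lit 5) (nat_lit 107) (nat_lit 231) (nat_lit 232)))))) (PT.nd (nat_lit 9438) (PT.nd (nat_lit 234) (PT.nd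 (nat_lit 78) (PT.lf (nat_lit 1292) (nat_lit 3) (nat_lit 17) (nat_lit 4) (nat_lit 108) (nat_lit 231) (nat_lit 231)) (PT.nd (nat_lit 78) (PT.lf (nat_lit 1444) (nat_lit 6) (nat_lit 19) (nat_lit 4) (nat_lit 109) (nat_lit 231) (nat_lit 230)) (PT.lf (nat_lit 1596) (nat_lit 6) (nat_lit 21) (nat_lit 4) (nat_lit 110) (nat_lit 231) (nat_lit 229)))) (PT.nd (nat_lit 9048) (PT.nd (nat_lit 78) (PT.lf (nat_lit 1748) (nat_lit 6) (nat_lit 23) (nat_lit 4) (nat_lit 111) (nat_lit 231) (nat_lit 228)) (PT.lf (nat_lit 1900) (nat_lit 6) (nat_lit 25) (nat_lit 4) (nat_lit 112) (nat_lit 231) (nat_lit 227))) (PT.nd (nat_lit 78) (PT.lf (nat_lit 1900) (nat_lit 6) (nat_lit 25) (nat_lit 2) (nat_lit 227) (nat_lit 231) (nat_lit 112)) (PT.lf (nat_lit 1748) (nat_lit 6) (nat_lit 23) (nat_lit 2) (nat_lit 228) (nat_lit 231) (nat_lit 111))))) (PT.nd (nat_lit 312) (PT.nd (nat_lit 156) (PT.nd (nat_lit 78) (PT.lf (nat_lit 1596) (nat_lit 6) (nat_lit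 21) (nat_lit 2) (nat_lit 229) (nat_lit 231) (nat_lit 110)) (PT.lf (nat_lit 1444) (nat_lit 6) (nat_lit 19) (nat_lit 2) (nat_lit 230) (nat_lit 231) (nat_lit 109))) (PT.nd (nat_lit 78) (PT.lf (nat_lit 1292) (nat_lit 3) (nat_lit 17) (nat_lit 0) (nat_lit 231) (nat_lit 231) (nat_lit 108)) (PT.lf (nat_lit 1140) (nat_lit 6) (nat_lit 15) (nat_lit 0) (nat_lit 232) (nat_lit 231) (nat_lit 107)))) (PT.nd (nat_lit 49374) (PT.nd (nat_lit 49296) (PT.lf (nat_lit 912) (nat_lit 6) (nat_lit 12) (nat_lit 0) (nat_lit 233) (nat_lit 231) (nat_lit 106)) (PT.lf (nat_lit 608) (nat_lit 6) (nat_lit 8) (nat_lit 5) (nat_lit 104) (nat_lit 232) (nat_lit 234))) (PT.nd (nat_lit 78) (PT.lf (nat_lit 836) (nat_lit 6) (nat_lit 11) (nat_lit 5) (nat_lit 105) (nat_lit 232) (nat_lit 233)) (PT.lf (nat_lit 988) (nat_lit 3) (nat_lit 13) (nat_lit 4) (nat_lit 106) (nat_lit 232) (nat_lit 232))))))) (PT.nd (nat_lit 68952) (PT.nd (nat_lit 9828) (PT.nd (nat_lit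 9516) (PT.nd (nat_lit 78) (PT.lf (nat_lit 1140) (nat_lit 6) (nat_lit 15) (nat_lit 4) (nat_lit 107) (nat_lit 232) (nat_lit 231)) (PT.nd (nat_lit 78) (PT.lf (nat_lit 1216) (nat_lit 6) (nat_lit 16) (nat_lit 4) (nat_lit 108) (nat_lit 232) (nat_lit 230)) (PT.lf (nat_lit 1368) (nat_lit 6) (nat_lit 18) (nat_lit 4) (nat_lit 109) (nat_lit 232) (nat_lit 229)))) (PT.nd (nat_lit 156) (PT.nd (nat_lit 78) (PT.lf (nat_lit 1368) (nat_lit 6) (nat_lit 18) (nat_lit 2) (nat_lit 229) (nat_lit 232) (nat_lit 109)) (PT.lf (nat_lit 1216) (nat_lit 6) (nat_lit 16) (nat_lit 2) (nat_lit 230) (nat_lit 232) (nat_lit 108))) (PT.nd (nat_lit 78) (PT.lf (nat_lit 1140) (nat_lit 6) (nat_lit 15) (nat_lit 2) (nat_lit 231) (nat_lit 232) (nat_lit 107)) (PT.lf (nat_lit 988) (nat_lit 3) (nat_lit 13) (nat_lit 0) (nat_lit 232) (nat_lit 232) (nat_lit 106))))) (PT.nd (nat_lit 49296) (PT.nd (nat_lit 78) (PT.lf (nat_lit 836) (nat_lit 6) (nat_lit 11) (nat_lit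 0) (nat_lit 233) (nat_lit 232) (nat_lit 105)) (PT.nd (nat_lit 49140) (PT.lf (nat_lit 608) (nat_lit 6) (nat_lit 8) (nat_lit 0) (nat_lit 234) (nat_lit 232) (nat_lit 104)) (PT.lf (nat_lit 532) (nat_lit 6) (nat_lit 7) (nat_lit 5) (nat_lit 103) (nat_lit 233) (nat_lit 234)))) (PT.nd (nat_lit 156) (PT.nd (nat_lit 78) (PT.lf (nat_lit 684) (nat_lit 3) (nat_lit 9) (nat_lit 4) (nat_lit 104) (nat_lit 233) (nat_lit 233)) (PT.lf (nat_lit 836) (nat_lit 6) (nat_lit 11) (nat_lit 4) (nat_lit 105) (nat_lit 233) (nat_lit 232))) (PT.nd (nat_lit 78) (PT.lf (nat_lit 912) (nat_lit 6) (nat_lit 12) (nat_lit 4) (nat_lit 106) (nat_lit 233) (nat_lit 231)) (PT.lf (nat_lit 1064) (nat_lit 6) (nat_lit 14) (nat_lit 4) (nat_lit 107) (nat_lit 233) (nat_lit 230)))))) (PT.nd (nat_lit 59514) (PT.nd (nat_lit 234) (PT.nd (nat_lit 78) (PT.lf (nat_lit 1064) (nat_lit 6) (nat_lit 14) (nat_lit 2) (nat_lit 230) (nat_lit 233) (nat_lit 107)) (PT.nd (nat_lit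 78) (PT.lf (nat_lit 912) (nat_lit 6) (nat_lit 12) (nat_lit 2) (nat_lit 231) (nat_lit 233) (nat_lit 106)) (PT.lf (nat_lit 836) (nat_lit 6) (nat_lit 11) (nat_lit 2) (nat_lit 232) (nat_lit 233) (nat_lit 105)))) (PT.nd (nat_lit 49218) (PT.nd (nat_lit 78) (PT.lf (nat_lit 684) (nat_lit 3) (nat_lit 9) (nat_lit 0) (nat_lit 233) (nat_lit 233) (nat_lit 104)) (PT.lf (nat_lit 532) (nat_lit 6) (nat_lit 7) (nat_lit 0) (nat_lit 234) (nat_lit 233) (nat_lit 103))) (PT.nd (nat_lit 78) (PT.lf (nat_lit 532) (nat_lit 6) (nat_lit 7) (nat_lit 4) (nat_lit 103) (nat_lit 234) (nat_lit 233)) (PT.lf (nat_lit 608) (nat_lit 6) (nat_lit 8) (nat_lit 4) (nat_lit 104) (nat_lit 234) (nat_lit 232))))) (PT.nd (nat_lit 700284) (PT.nd (nat_lit 641004) (PT.nd (nat_lit 78) (PT.lf (nat_lit 608) (nat_lit 6) (nat_lit 8) (nat_lit 2) (nat_lit 232) (nat_lit 234) (nat_lit 104)) (PT.lf (nat_lit 532) (nat_lit 6) (nat_lit 7) (nat_lit 2) (nat_lit 233) (nat_lit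 234) (nat_lit 103))) (PT.nd (nat_lit 13026) (PT.lf (nat_lit 152) (nat_lit 6) (nat_lit 2) (nat_lit 5) (nat_lit 79) (nat_lit 245) (nat_lit 246)) (PT.lf (nat_lit 152) (nat_lit 6) (nat_lit 2) (nat_lit 0) (nat_lit 246) (nat_lit 245) (nat_lit 79)))) (PT.nd (nat_lit 13026) (PT.nd (nat_lit 78) (PT.lf (nat_lit 76) (nat_lit 3) (nat_lit 1) (nat_lit 4) (nat_lit 78) (nat_lit 246) (nat_lit 246)) (PT.lf (nat_lit 152) (nat_lit 6) (nat_lit 2) (nat_lit 4) (nat_lit 79) (nat_lit 246) (nat_lit 245))) (PT.nd (nat_lit 78) (PT.lf (nat_lit 152) (nat_lit 6) (nat_lit 2) (nat_lit 2) (nat_lit 245) (nat_lit 246) (nat_lit 79)) (PT.lf (nat_lit 76) (nat_lit 3) (nat_lit 1) (nat_lit 0) (nat_lit 246) (nat_lit 246) (nat_lit 78))))))))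
noncomputable def xc0 : XT := (XT.nd (nat_lit 177996) (nat_lit 0) (nat_lit 0) (XT.nd (nat_lit 118560) (nat_lit 0) (nat_lit 0) (XT.nd (nat_lit 59358) (nat_lit 0) (nat_lit 0) (XT.nd (nat_lit 59124) (nat_lit 0) (nat_lit 152) (XT.nd (nat_lit 78) (nat_lit 152) (nat_lit 0) (XT.lf (nat_lit 0) (nat_lit 6449296621) (nat_lit 152) (nat_lit 4782964218) (nat_lit 0) (nat_lit 6075793656) (nat_lit 11) (nat_lit 5) (nat_lit 13) (nat_lit 4) (nat_lit 11) (nat_lit 4) (nat_lit 507) (nat_lit 317) (nat_lit 316)) (XT.lf (nat_lit 0) (nat_lit 4401635978) (nat_lit 152) (nat_lit 6944219055) (nat_lit 152) (nat_lit 6204536712) (nat_lit 9) (nat_lit 4) (nat_lit 11) (nat_lit 5) (nat_lit 11) (nat_lit 4) (nat_lit 508) (nat_lit 317) (nat_lit 315))) (XT.nd (nat_lit 78) (nat_lit 152) (nat_lit 0) (XT.lf (nat_lit 0) (nat_lit 783951921) (nat_lit 152) (nat_lit 3760750629) (nat_lit 152) (nat_lit 3760750629) (nat_lit 13) (nat_lit 4) (nat_lit 15) (nat_lit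 5) (nat_lit 15) (nat_lit 4) (nat_lit 504) (nat_lit 318) (nat_lit 318)) (XT.nd (nat_lit 78) (nat_lit 152) (nat_lit 0) (XT.lf (nat_lit 0) (nat_lit 10857461911) (nat_lit 152) (nat_lit 3185001633) (nat_lit 152) (nat_lit 2796409148) (nat_lit 13) (nat_lit 4) (nat_lit 15) (nat_lit 5) (nat_lit 15) (nat_lit 4) (nat_lit 505) (nat_lit 318) (nat_lit 317)) (XT.lf (nat_lit 0) (nat_lit 1957348650) (nat_lit 152) (nat_lit 13911711841) (nat_lit 0) (nat_lit 1202872660) (nat_lit 11) (nat_lit 5) (nat_lit 13) (nat_lit 4) (nat_lit 11) (nat_lit 4) (nat_lit 506) (nat_lit 318) (nat_lit 316))))) (XT.nd (nat_lit 58968) (nat_lit 0) (nat_lit 304) (XT.nd (nat_lit 78) (nat_lit 152) (nat_lit 0) (XT.lf (nat_lit 0) (nat_lit 6762681529) (nat_lit 152) (nat_lit 4904709827) (nat_lit 0) (nat_lit 5642026161) (nat_lit 11) (nat_lit 5) (nat_lit 13) (nat_lit 4) (nat_lit 11) (nat_lit 4) (nat_lit 507) (nat_lit 318) (nat_lit 315)) (XT.lf (nat_lit 0) (nat_lit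 4218398844) (nat_lit 152) (nat_lit 7406848004) (nat_lit 152) (nat_lit 5927193245) (nat_lit 9) (nat_lit 4) (nat_lit 11) (nat_lit 5) (nat_lit 11) (nat_lit 4) (nat_lit 508) (nat_lit 318) (nat_lit 314))) (XT.nd (nat_lit 78) (nat_lit 304) (nat_lit 0) (XT.lf (nat_lit 0) (nat_lit 7896583469) (nat_lit 152) (nat_lit 94057155) (nat_lit 152) (nat_lit 94057155) (nat_lit 17) (nat_lit 4) (nat_lit 19) (nat_lit 5) (nat_lit 19) (nat_lit 4) (nat_lit 502) (nat_lit 319) (nat_lit 319)) (XT.nd (nat_lit 78) (nat_lit 152) (nat_lit 0) (XT.lf (nat_lit 0) (nat_lit 4612235861) (nat_lit 152) (nat_lit 7559666164) (nat_lit 0) (nat_lit 4215871526) (nat_lit 15) (nat_lit 5) (nat_lit 17) (nat_lit 4) (nat_lit 15) (nat_lit 4) (nat_lit 503) (nat_lit 319) (nat_lit 318)) (XT.lf (nat_lit 0) (nat_lit 1506994633) (nat_lit 152) (nat_lit 7944777208) (nat_lit 152) (nat_lit 7159820387) (nat_lit 13) (nat_lit 4) (nat_lit 15) (nat_lit 5) (nat_lit 15) (nat_lit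 4) (nat_lit 504) (nat_lit 319) (nat_lit 317)))))) (XT.nd (nat_lit 59046) (nat_lit 0) (nat_lit 304) (XT.nd (nat_lit 156) (nat_lit 152) (nat_lit 0) (XT.nd (nat_lit 78) (nat_lit 152) (nat_lit 0) (XT.lf (nat_lit 0) (nat_lit 10736837788) (nat_lit 152) (nat_lit 3634661517) (nat_lit 152) (nat_lit 2468731672) (nat_lit 13) (nat_lit 4) (nat_lit 15) (nat_lit 5) (nat_lit 15) (nat_lit 4) (nat_lit 505) (nat_lit 319) (nat_lit 316)) (XT.lf (nat_lit 0) (nat_lit 2243541792) (nat_lit 152) (nat_lit 14096162465) (nat_lit 0) (nat_lit 734293939) (nat_lit 11) (nat_lit 5) (nat_lit 13) (nat_lit 4) (nat_lit 11) (nat_lit 4) (nat_lit 506) (nat_lit 319) (nat_lit 315))) (XT.nd (nat_lit 78) (nat_lit 152) (nat_lit 0) (XT.lf (nat_lit 0) (nat_lit 7016071275) (nat_lit 152) (nat_lit 5148248789) (nat_lit 0) (nat_lit 5147824031) (nat_lit 11) (nat_lit 5) (nat_lit 13) (nat_lit 4) (nat_lit 11) (nat_lit 4) (nat_lit 507) (nat_lit 319) (nat_lit 314))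 (XT.nd (nat_lit 58734) (nat_lit 0) (nat_lit 760) (XT.lf (nat_lit 0) (nat_lit 3912923781) (nat_lit 152) (nat_lit 7931569274) (nat_lit 152) (nat_lit 5711361845) (nat_lit 9) (nat_lit 4) (nat_lit 11) (nat_lit 5) (nat_lit 11) (nat_lit 4) (nat_lit 508) (nat_lit 319) (nat_lit 313)) (XT.lf (nat_lit 0) (nat_lit 3273187917) (nat_lit 228) (nat_lit 1325580177) (nat_lit 0) (nat_lit 3273187917) (nat_lit 19) (nat_lit 5) (nat_lit 22) (nat_lit 4) (nat_lit 19) (nat_lit 4) (nat_lit 500) (nat_lit 320) (nat_lit 320))))) (XT.nd (nat_lit 156) (nat_lit 228) (nat_lit 0) (XT.nd (nat_lit 78) (nat_lit 76) (nat_lit 0) (XT.lf (nat_lit 0) (nat_lit 6491972105) (nat_lit 152) (nat_lit 4937393864) (nat_lit 152) (nat_lit 4525016410) (nat_lit 17) (nat_lit 4) (nat_lit 19) (nat_lit 5) (nat_lit 19) (nat_lit 4) (nat_lit 501) (nat_lit 320) (nat_lit 319)) (XT.lf (nat_lit 0) (nat_lit 187615790) (nat_lit 228) (nat_lit 437685178) (nat_lit 76) (nat_lit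 15544745626) (nat_lit 16) (nat_lit 5) (nat_lit 19) (nat_lit 5) (nat_lit 17) (nat_lit 4) (nat_lit 502) (nat_lit 320) (nat_lit 318))) (XT.nd (nat_lit 78) (nat_lit 152) (nat_lit 0) (XT.lf (nat_lit 0) (nat_lit 4948651172) (nat_lit 152) (nat_lit 7681089122) (nat_lit 0) (nat_lit 3759402731) (nat_lit 15) (nat_lit 5) (nat_lit 17) (nat_lit 4) (nat_lit 15) (nat_lit 4) (nat_lit 503) (nat_lit 320) (nat_lit 317)) (XT.nd (nat_lit 78) (nat_lit 0) (nat_lit 0) (XT.lf (nat_lit 0) (nat_lit 1324243115) (nat_lit 152) (nat_lit 8429814225) (nat_lit 152) (nat_lit 6859592758) (nat_lit 13) (nat_lit 4) (nat_lit 15) (nat_lit 5) (nat_lit 15) (nat_lit 4) (nat_lit 504) (nat_lit 320) (nat_lit 316)) (XT.lf (nat_lit 0) (nat_lit 10495542239) (nat_lit 152) (nat_lit 4145565137) (nat_lit 152) (nat_lit 2201840705) (nat_lit 13) (nat_lit 4) (nat_lit 15) (nat_lit 5) (nat_lit 15) (nat_lit 4) (nat_lit 505) (nat_lit 320) (nat_lit 315))))))) (XT.nd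 (nat_lit 59280) (nat_lit 0) (nat_lit 0) (XT.nd (nat_lit 58890) (nat_lit 0) (nat_lit 304) (XT.nd (nat_lit 156) (nat_lit 152) (nat_lit 0) (XT.nd (nat_lit 78) (nat_lit 0) (nat_lit 0) (XT.lf (nat_lit 0) (nat_lit 2469195937) (nat_lit 152) (nat_lit 14403660543) (nat_lit 0) (nat_lit 204584359) (nat_lit 11) (nat_lit 5) (nat_lit 13) (nat_lit 4) (nat_lit 11) (nat_lit 4) (nat_lit 506) (nat_lit 320) (nat_lit 314)) (XT.lf (nat_lit 0) (nat_lit 7209565228) (nat_lit 152) (nat_lit 5513676608) (nat_lit 0) (nat_lit 4592993463) (nat_lit 11) (nat_lit 5) (nat_lit 13) (nat_lit 4) (nat_lit 11) (nat_lit 4) (nat_lit 507) (nat_lit 320) (nat_lit 313))) (XT.nd (nat_lit 58578) (nat_lit 0) (nat_lit 760) (XT.lf (nat_lit 0) (nat_lit 3485090993) (nat_lit 152) (nat_lit 8518588641) (nat_lit 152) (nat_lit 5556957870) (nat_lit 9) (nat_lit 4) (nat_lit 11) (nat_lit 5) (nat_lit 11) (nat_lit 4) (nat_lit 508) (nat_lit 320) (nat_lit 312)) (XT.nd (nat_lit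 78) (nat_lit 228) (nat_lit 0) (XT.lf (nat_lit 0) (nat_lit 5086990296) (nat_lit 152) (nat_lit 1290413329) (nat_lit 152) (nat_lit 1290413329) (nat_lit 22) (nat_lit 4) (nat_lit 24) (nat_lit 5) (nat_lit 24) (nat_lit 4) (nat_lit 498) (nat_lit 321) (nat_lit 321)) (XT.lf (nat_lit 0) (nat_lit 2154234086) (nat_lit 228) (nat_lit 11650248235) (nat_lit 0) (nat_lit 1733609083) (nat_lit 19) (nat_lit 5) (nat_lit 22) (nat_lit 4) (nat_lit 19) (nat_lit 4) (nat_lit 499) (nat_lit 321) (nat_lit 320))))) (XT.nd (nat_lit 156) (nat_lit 304) (nat_lit 0) (XT.nd (nat_lit 78) (nat_lit 152) (nat_lit 0) (XT.lf (nat_lit 0) (nat_lit 6933247303) (nat_lit 228) (nat_lit 2711101225) (nat_lit 0) (nat_lit 6100244845) (nat_lit 19) (nat_lit 5) (nat_lit 22) (nat_lit 4) (nat_lit 19) (nat_lit 4) (nat_lit 500) (nat_lit 321) (nat_lit 319)) (XT.lf (nat_lit 0) (nat_lit 6371688130) (nat_lit 152) (nat_lit 5410676641) (nat_lit 152) (nat_lit 4173382563)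 (nat_lit 17) (nat_lit 4) (nat_lit 19) (nat_lit 5) (nat_lit 19) (nat_lit 4) (nat_lit 501) (nat_lit 321) (nat_lit 318))) (XT.nd (nat_lit 78) (nat_lit 228) (nat_lit 0) (XT.lf (nat_lit 0) (nat_lit 501592699) (nat_lit 228) (nat_lit 620441161) (nat_lit 76) (nat_lit 15049998848) (nat_lit 16) (nat_lit 5) (nat_lit 19) (nat_lit 5) (nat_lit 17) (nat_lit 4) (nat_lit 502) (nat_lit 321) (nat_lit 317)) (XT.nd (nat_lit 78) (nat_lit 152) (nat_lit 0) (XT.lf (nat_lit 0) (nat_lit 5225249389) (nat_lit 152) (nat_lit 7923982655) (nat_lit 0) (nat_lit 3242650468) (nat_lit 15) (nat_lit 5) (nat_lit 17) (nat_lit 4) (nat_lit 15) (nat_lit 4) (nat_lit 503) (nat_lit 321) (nat_lit 316)) (XT.lf (nat_lit 0) (nat_lit 1019577624) (nat_lit 152) (nat_lit 8976802520) (nat_lit 152) (nat_lit 6620700634) (nat_lit 13) (nat_lit 4) (nat_lit 15) (nat_lit 5) (nat_lit 15) (nat_lit 4) (nat_lit 504) (nat_lit 321) (nat_lit 315)))))) (XT.nd (nat_lit 58734)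 (nat_lit 0) (nat_lit 532) (XT.nd (nat_lit 156) (nat_lit 152) (nat_lit 0) (XT.nd (nat_lit 78) (nat_lit 152) (nat_lit 0) (XT.lf (nat_lit 0) (nat_lit 10133480638) (nat_lit 152) (nat_lit 4717912848) (nat_lit 152) (nat_lit 1995631584) (nat_lit 13) (nat_lit 4) (nat_lit 15) (nat_lit 5) (nat_lit 15) (nat_lit 4) (nat_lit 505) (nat_lit 321) (nat_lit 314)) (XT.lf (nat_lit 0) (nat_lit 2245342392) (nat_lit 76) (nat_lit 391599709) (nat_lit 152) (nat_lit 14445269476) (nat_lit 11) (nat_lit 5) (nat_lit 12) (nat_lit 5) (nat_lit 13) (nat_lit 4) (nat_lit 506) (nat_lit 321) (nat_lit 313))) (XT.nd (nat_lit 78) (nat_lit 152) (nat_lit 0) (XT.lf (nat_lit 0) (nat_lit 7343239267) (nat_lit 152) (nat_lit 6001136590) (nat_lit 0) (nat_lit 3977316875) (nat_lit 11) (nat_lit 5) (nat_lit 13) (nat_lit 4) (nat_lit 11) (nat_lit 4) (nat_lit 507) (nat_lit 321) (nat_lit 312)) (XT.nd (nat_lit 58422) (nat_lit 0) (nat_lit 1140) (XT.lf (nat_lit 0)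 (nat_lit 2934732703) (nat_lit 152) (nat_lit 9168136306) (nat_lit 152) (nat_lit 5463920770) (nat_lit 9) (nat_lit 4) (nat_lit 11) (nat_lit 5) (nat_lit 11) (nat_lit 4) (nat_lit 508) (nat_lit 321) (nat_lit 311)) (XT.lf (nat_lit 0) (nat_lit 1753621031) (nat_lit 228) (nat_lit 3964199575) (nat_lit 0) (nat_lit 1753621031) (nat_lit 24) (nat_lit 5) (nat_lit 27) (nat_lit 4) (nat_lit 24) (nat_lit 4) (nat_lit 496) (nat_lit 322) (nat_lit 322))))) (XT.nd (nat_lit 234) (nat_lit 228) (nat_lit 0) (XT.nd (nat_lit 78) (nat_lit 228) (nat_lit 0) (XT.lf (nat_lit 0) (nat_lit 1009949061) (nat_lit 152) (nat_lit 7282583635) (nat_lit 152) (nat_lit 6844965381) (nat_lit 22) (nat_lit 4) (nat_lit 24) (nat_lit 5) (nat_lit 24) (nat_lit 4) (nat_lit 497) (nat_lit 322) (nat_lit 321)) (XT.nd (nat_lit 78) (nat_lit 228) (nat_lit 0) (XT.lf (nat_lit 0) (nat_lit 10114612766) (nat_lit 152) (nat_lit 3044178062) (nat_lit 152) (nat_lit 2177522305) (nat_lit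 22) (nat_lit 4) (nat_lit 24) (nat_lit 5) (nat_lit 24) (nat_lit 4) (nat_lit 498) (nat_lit 322) (nat_lit 320)) (XT.lf (nat_lit 0) (nat_lit 2515089447) (nat_lit 228) (nat_lit 11771328793) (nat_lit 0) (nat_lit 1253049487) (nat_lit 19) (nat_lit 5) (nat_lit 22) (nat_lit 4) (nat_lit 19) (nat_lit 4) (nat_lit 499) (nat_lit 322) (nat_lit 319)))) (XT.nd (nat_lit 78) (nat_lit 228) (nat_lit 0) (XT.lf (nat_lit 0) (nat_lit 7261010962) (nat_lit 228) (nat_lit 2890947342) (nat_lit 0) (nat_lit 5594679380) (nat_lit 19) (nat_lit 5) (nat_lit 22) (nat_lit 4) (nat_lit 19) (nat_lit 4) (nat_lit 500) (nat_lit 322) (nat_lit 318)) (XT.nd (nat_lit 78) (nat_lit 76) (nat_lit 0) (XT.lf (nat_lit 0) (nat_lit 6131073009) (nat_lit 152) (nat_lit 5945050344) (nat_lit 152) (nat_lit 3882354427) (nat_lit 17) (nat_lit 4) (nat_lit 19) (nat_lit 5) (nat_lit 19) (nat_lit 4) (nat_lit 501) (nat_lit 322) (nat_lit 317)) (XT.lf (nat_lit 0) (nat_lit 756406695)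 (nat_lit 228) (nat_lit 923346876) (nat_lit 76) (nat_lit 14495625536) (nat_lit 16) (nat_lit 5) (nat_lit 19) (nat_lit 5) (nat_lit 17) (nat_lit 4) (nat_lit 502) (nat_lit 322) (nat_lit 316))))))))
noncomputable def xc1 : XT := (XT.nd (nat_lit 59826) (nat_lit 0) (nat_lit 0) (XT.nd (nat_lit 58968) (nat_lit 0) (nat_lit 152) (XT.nd (nat_lit 468) (nat_lit 152) (nat_lit 0) (XT.nd (nat_lit 156) (nat_lit 152) (nat_lit 0) (XT.nd (nat_lit 78) (nat_lit 152) (nat_lit 0) (XT.lf (nat_lit 0) (nat_lit 5442138980) (nat_lit 152) (nat_lit 8288442015) (nat_lit 0) (nat_lit 2665412090) (nat_lit 15) (nat_lit 5) (nat_lit 17) (nat_lit 4) (nat_lit 15) (nat_lit 4) (nat_lit 503) (nat_lit 322) (nat_lit 315)) (XT.lf (nat_lit 0) (nat_lit 592878682) (nat_lit 152) (nat_lit 9585956600) (nat_lit 152) (nat_lit 6443050333) (nat_lit 13) (nat_lit 4) (nat_lit 15) (nat_lit 5) (nat_lit 15) (nat_lit 4) (nat_lit 504) (nat_lit 322) (nat_lit 314))) (XT.nd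 (nat_lit 78) (nat_lit 152) (nat_lit 0) (XT.lf (nat_lit 0) (nat_lit 9650511001) (nat_lit 152) (nat_lit 5351929099) (nat_lit 152) (nat_lit 1850023441) (nat_lit 13) (nat_lit 4) (nat_lit 15) (nat_lit 5) (nat_lit 15) (nat_lit 4) (nat_lit 505) (nat_lit 322) (nat_lit 313)) (XT.nd (nat_lit 78) (nat_lit 0) (nat_lit 0) (XT.lf (nat_lit 0) (nat_lit 1693162359) (nat_lit 76) (nat_lit 1052891206) (nat_lit 152) (nat_lit 14342274568) (nat_lit 11) (nat_lit 5) (nat_lit 12) (nat_lit 5) (nat_lit 13) (nat_lit 4) (nat_lit 506) (nat_lit 322) (nat_lit 312)) (XT.lf (nat_lit 0) (nat_lit 7417145815) (nat_lit 152) (nat_lit 6610819896) (nat_lit 0) (nat_lit 3300552825) (nat_lit 11) (nat_lit 5) (nat_lit 13) (nat_lit 4) (nat_lit 11) (nat_lit 4) (nat_lit 507) (nat_lit 322) (nat_lit 311))))) (XT.nd (nat_lit 58266) (nat_lit 0) (nat_lit 988) (XT.nd (nat_lit 58188) (nat_lit 0) (nat_lit 1368) (XT.lf (nat_lit 0) (nat_lit 11291603234) (nat_lit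 152) (nat_lit 5653584738) (nat_lit 152) (nat_lit 880174995) (nat_lit 9) (nat_lit 4) (nat_lit 11) (nat_lit 5) (nat_lit 11) (nat_lit 4) (nat_lit 509) (nat_lit 322) (nat_lit 309)) (XT.lf (nat_lit 0) (nat_lit 1827255624) (nat_lit 152) (nat_lit 2727692560) (nat_lit 152) (nat_lit 2727692560) (nat_lit 27) (nat_lit 4) (nat_lit 29) (nat_lit 5) (nat_lit 29) (nat_lit 4) (nat_lit 494) (nat_lit 323) (nat_lit 323))) (XT.nd (nat_lit 78) (nat_lit 380) (nat_lit 0) (XT.lf (nat_lit 0) (nat_lit 12722686616) (nat_lit 152) (nat_lit 1242695626) (nat_lit 152) (nat_lit 787397595) (nat_lit 27) (nat_lit 4) (nat_lit 29) (nat_lit 5) (nat_lit 29) (nat_lit 4) (nat_lit 495) (nat_lit 323) (nat_lit 322)) (XT.nd (nat_lit 78) (nat_lit 152) (nat_lit 0) (XT.lf (nat_lit 0) (nat_lit 3919698476) (nat_lit 228) (nat_lit 7988160141) (nat_lit 0) (nat_lit 3035709604) (nat_lit 24) (nat_lit 5) (nat_lit 27) (nat_lit 4) (nat_lit 24) (nat_lit 4) (nat_lit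 496) (nat_lit 323) (nat_lit 321)) (XT.lf (nat_lit 0) (nat_lit 890026052) (nat_lit 152) (nat_lit 7780935216) (nat_lit 152) (nat_lit 6467908841) (nat_lit 22) (nat_lit 4) (nat_lit 24) (nat_lit 5) (nat_lit 24) (nat_lit 4) (nat_lit 497) (nat_lit 323) (nat_lit 320)))))) (XT.nd (nat_lit 390) (nat_lit 380) (nat_lit 0) (XT.nd (nat_lit 156) (nat_lit 228) (nat_lit 0) (XT.nd (nat_lit 78) (nat_lit 228) (nat_lit 0) (XT.lf (nat_lit 0) (nat_lit 9936486007) (nat_lit 152) (nat_lit 3567758222) (nat_lit 152) (nat_lit 1834106844) (nat_lit 22) (nat_lit 4) (nat_lit 24) (nat_lit 5) (nat_lit 24) (nat_lit 4) (nat_lit 498) (nat_lit 323) (nat_lit 319)) (XT.lf (nat_lit 0) (nat_lit 2816316678) (nat_lit 228) (nat_lit 12013537392) (nat_lit 0) (nat_lit 712366842) (nat_lit 19) (nat_lit 5) (nat_lit 22) (nat_lit 4) (nat_lit 19) (nat_lit 4) (nat_lit 499) (nat_lit 323) (nat_lit 318))) (XT.nd (nat_lit 78) (nat_lit 228) (nat_lit 0) (XT.lf (nat_lit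 0) (nat_lit 7529795348) (nat_lit 228) (nat_lit 3190769234) (nat_lit 0) (nat_lit 5029481178) (nat_lit 19) (nat_lit 5) (nat_lit 22) (nat_lit 4) (nat_lit 19) (nat_lit 4) (nat_lit 500) (nat_lit 323) (nat_lit 317)) (XT.nd (nat_lit 78) (nat_lit 76) (nat_lit 0) (XT.lf (nat_lit 0) (nat_lit 5770032384) (nat_lit 152) (nat_lit 6540724530) (nat_lit 152) (nat_lit 3651817874) (nat_lit 17) (nat_lit 4) (nat_lit 19) (nat_lit 5) (nat_lit 19) (nat_lit 4) (nat_lit 501) (nat_lit 323) (nat_lit 316)) (XT.lf (nat_lit 0) (nat_lit 952157708) (nat_lit 228) (nat_lit 1346521109) (nat_lit 76) (nat_lit 13881408287) (nat_lit 16) (nat_lit 5) (nat_lit 19) (nat_lit 5) (nat_lit 17) (nat_lit 4) (nat_lit 502) (nat_lit 323) (nat_lit 315))))) (XT.nd (nat_lit 156) (nat_lit 152) (nat_lit 0) (XT.nd (nat_lit 78) (nat_lit 152) (nat_lit 0) (XT.lf (nat_lit 0) (nat_lit 5599405000) (nat_lit 152) (nat_lit 8774610127) (nat_lit 0) (nat_lit 2027461229) (nat_lit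 15) (nat_lit 5) (nat_lit 17) (nat_lit 4) (nat_lit 15) (nat_lit 4) (nat_lit 503) (nat_lit 323) (nat_lit 314)) (XT.lf (nat_lit 0) (nat_lit 43978955) (nat_lit 152) (nat_lit 10257515347) (nat_lit 152) (nat_lit 6326572187) (nat_lit 13) (nat_lit 4) (nat_lit 15) (nat_lit 5) (nat_lit 15) (nat_lit 4) (nat_lit 504) (nat_lit 323) (nat_lit 313))) (XT.nd (nat_lit 78) (nat_lit 152) (nat_lit 0) (XT.lf (nat_lit 0) (nat_lit 9046443926) (nat_lit 152) (nat_lit 6047862524) (nat_lit 152) (nat_lit 1764959177) (nat_lit 13) (nat_lit 4) (nat_lit 15) (nat_lit 5) (nat_lit 15) (nat_lit 4) (nat_lit 505) (nat_lit 323) (nat_lit 312)) (XT.nd (nat_lit 78) (nat_lit 0) (nat_lit 0) (XT.lf (nat_lit 0) (nat_lit 1018396523) (nat_lit 76) (nat_lit 1776830643) (nat_lit 152) (nat_lit 14300592658) (nat_lit 11) (nat_lit 5) (nat_lit 12) (nat_lit 5) (nat_lit 13) (nat_lit 4) (nat_lit 506) (nat_lit 323) (nat_lit 311)) (XT.lf (nat_lit 0) (nat_lit 7431313853)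 (nat_lit 152) (nat_lit 7342965617) (nat_lit 0) (nat_lit 2562435916) (nat_lit 11) (nat_lit 5) (nat_lit 13) (nat_lit 4) (nat_lit 11) (nat_lit 4) (nat_lit 507) (nat_lit 323) (nat_lit 310))))))) (XT.nd (nat_lit 58734) (nat_lit 0) (nat_lit 0) (XT.nd (nat_lit 58344) (nat_lit 0) (nat_lit 760) (XT.nd (nat_lit 58110) (nat_lit 0) (nat_lit 1368) (XT.nd (nat_lit 58032) (nat_lit 0) (nat_lit 1520) (XT.lf (nat_lit 0) (nat_lit 10442332292) (nat_lit 152) (nat_lit 6452670164) (nat_lit 152) (nat_lit 939854233) (nat_lit 9) (nat_lit 4) (nat_lit 11) (nat_lit 5) (nat_lit 11) (nat_lit 4) (nat_lit 509) (nat_lit 323) (nat_lit 308)) (XT.lf (nat_lit 0) (nat_lit 36594903) (nat_lit 228) (nat_lit 7028187146) (nat_lit 0) (nat_lit 36594903) (nat_lit 29) (nat_lit 5) (nat_lit 32) (nat_lit 4) (nat_lit 29) (nat_lit 4) (nat_lit 492) (nat_lit 324) (nat_lit 324))) (XT.nd (nat_lit 78) (nat_lit 152) (nat_lit 0) (XT.lf (nat_lit 0) (nat_lit 4781837208)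 (nat_lit 228) (nat_lit 5282846535) (nat_lit 0) (nat_lit 4317433217) (nat_lit 29) (nat_lit 5) (nat_lit 32) (nat_lit 4) (nat_lit 29) (nat_lit 4) (nat_lit 493) (nat_lit 324) (nat_lit 323)) (XT.nd (nat_lit 78) (nat_lit 0) (nat_lit 0) (XT.lf (nat_lit 0) (nat_lit 3595333056) (nat_lit 152) (nat_lit 5945166698) (nat_lit 152) (nat_lit 5025464676) (nat_lit 27) (nat_lit 4) (nat_lit 29) (nat_lit 5) (nat_lit 29) (nat_lit 4) (nat_lit 494) (nat_lit 324) (nat_lit 322)) (XT.lf (nat_lit 0) (nat_lit 12605490589) (nat_lit 152) (nat_lit 1757357191) (nat_lit 152) (nat_lit 391284551) (nat_lit 27) (nat_lit 4) (nat_lit 29) (nat_lit 5) (nat_lit 29) (nat_lit 4) (nat_lit 495) (nat_lit 324) (nat_lit 321))))) (XT.nd (nat_lit 156) (nat_lit 228) (nat_lit 0) (XT.nd (nat_lit 78) (nat_lit 152) (nat_lit 0) (XT.lf (nat_lit 0) (nat_lit 4273240592) (nat_lit 228) (nat_lit 8167466548) (nat_lit 0) (nat_lit 2504916186) (nat_lit 24) (nat_lit 5) (nat_lit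 27) (nat_lit 4) (nat_lit 24) (nat_lit 4) (nat_lit 496) (nat_lit 324) (nat_lit 320)) (XT.lf (nat_lit 0) (nat_lit 650133007) (nat_lit 152) (nat_lit 8340215558) (nat_lit 152) (nat_lit 6151266149) (nat_lit 22) (nat_lit 4) (nat_lit 24) (nat_lit 5) (nat_lit 24) (nat_lit 4) (nat_lit 497) (nat_lit 324) (nat_lit 319))) (XT.nd (nat_lit 78) (nat_lit 228) (nat_lit 0) (XT.lf (nat_lit 0) (nat_lit 9639530460) (nat_lit 152) (nat_lit 4151772464) (nat_lit 152) (nat_lit 1550445601) (nat_lit 22) (nat_lit 4) (nat_lit 24) (nat_lit 5) (nat_lit 24) (nat_lit 4) (nat_lit 498) (nat_lit 324) (nat_lit 318)) (XT.nd (nat_lit 78) (nat_lit 0) (nat_lit 0) (XT.lf (nat_lit 0) (nat_lit 3058033907) (nat_lit 228) (nat_lit 12376969015) (nat_lit 0) (nat_lit 111349118) (nat_lit 19) (nat_lit 5) (nat_lit 22) (nat_lit 4) (nat_lit 19) (nat_lit 4) (nat_lit 499) (nat_lit 324) (nat_lit 317)) (XT.lf (nat_lit 0) (nat_lit 7739705866) (nat_lit 228) (nat_lit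 3610684478) (nat_lit 0) (nat_lit 4404428592) (nat_lit 19) (nat_lit 5) (nat_lit 22) (nat_lit 4) (nat_lit 19) (nat_lit 4) (nat_lit 500) (nat_lit 324) (nat_lit 316)))))) (XT.nd (nat_lit 390) (nat_lit 304) (nat_lit 0) (XT.nd (nat_lit 156) (nat_lit 228) (nat_lit 0) (XT.nd (nat_lit 78) (nat_lit 76) (nat_lit 0) (XT.lf (nat_lit 0) (nat_lit 5288424669) (nat_lit 152) (nat_lit 7197932796) (nat_lit 152) (nat_lit 3481682497) (nat_lit 17) (nat_lit 4) (nat_lit 19) (nat_lit 5) (nat_lit 19) (nat_lit 4) (nat_lit 501) (nat_lit 324) (nat_lit 315)) (XT.lf (nat_lit 0) (nat_lit 1088922501) (nat_lit 228) (nat_lit 1890129811) (nat_lit 76) (nat_lit 13207106234) (nat_lit 16) (nat_lit 5) (nat_lit 19) (nat_lit 5) (nat_lit 17) (nat_lit 4) (nat_lit 502) (nat_lit 324) (nat_lit 314))) (XT.nd (nat_lit 78) (nat_lit 152) (nat_lit 0) (XT.lf (nat_lit 0) (nat_lit 5697109122) (nat_lit 152) (nat_lit 9382677646) (nat_lit 0) (nat_lit 1328547708)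 (nat_lit 15) (nat_lit 5) (nat_lit 17) (nat_lit 4) (nat_lit 15) (nat_lit 4) (nat_lit 503) (nat_lit 324) (nat_lit 313)) (XT.nd (nat_lit 78) (nat_lit 152) (nat_lit 0) (XT.lf (nat_lit 0) (nat_lit 10368478397) (nat_lit 152) (nat_lit 619109173) (nat_lit 0) (nat_lit 5647956797) (nat_lit 15) (nat_lit 5) (nat_lit 17) (nat_lit 4) (nat_lit 15) (nat_lit 4) (nat_lit 504) (nat_lit 324) (nat_lit 312)) (XT.lf (nat_lit 0) (nat_lit 8321042526) (nat_lit 152) (nat_lit 6805986039) (nat_lit 152) (nat_lit 1740405432) (nat_lit 13) (nat_lit 4) (nat_lit 15) (nat_lit 5) (nat_lit 15) (nat_lit 4) (nat_lit 505) (nat_lit 324) (nat_lit 311))))) (XT.nd (nat_lit 58110) (nat_lit 0) (nat_lit 1520) (XT.nd (nat_lit 78) (nat_lit 152) (nat_lit 0) (XT.lf (nat_lit 0) (nat_lit 220780271) (nat_lit 76) (nat_lit 2563701917) (nat_lit 152) (nat_lit 14320207400) (nat_lit 11) (nat_lit 5) (nat_lit 12) (nat_lit 5) (nat_lit 13) (nat_lit 4) (nat_lit 506) (nat_lit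 324) (nat_lit 310)) (XT.nd (nat_lit 156) (nat_lit 152) (nat_lit 0) (XT.lf (nat_lit 0) (nat_lit 7385748939) (nat_lit 152) (nat_lit 8197860870) (nat_lit 0) (nat_lit 1762676690) (nat_lit 11) (nat_lit 5) (nat_lit 13) (nat_lit 4) (nat_lit 11) (nat_lit 4) (nat_lit 507) (nat_lit 324) (nat_lit 309)) (XT.lf (nat_lit 0) (nat_lit 9470786335) (nat_lit 152) (nat_lit 7314657479) (nat_lit 152) (nat_lit 1060273472) (nat_lit 9) (nat_lit 4) (nat_lit 11) (nat_lit 5) (nat_lit 11) (nat_lit 4) (nat_lit 509) (nat_lit 324) (nat_lit 307)))) (XT.nd (nat_lit 78) (nat_lit 456) (nat_lit 0) (XT.lf (nat_lit 0) (nat_lit 2585536841) (nat_lit 228) (nat_lit 1755361736) (nat_lit 0) (nat_lit 2585536841) (nat_lit 35) (nat_lit 5) (nat_lit 38) (nat_lit 4) (nat_lit 35) (nat_lit 4) (nat_lit 490) (nat_lit 325) (nat_lit 325)) (XT.nd (nat_lit 78) (nat_lit 228) (nat_lit 0) (XT.lf (nat_lit 0) (nat_lit 5335969737) (nat_lit 228) (nat_lit 4586594274) (nat_lit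 228) (nat_lit 4103428361) (nat_lit 32) (nat_lit 4) (nat_lit 35) (nat_lit 5) (nat_lit 35) (nat_lit 4) (nat_lit 491) (nat_lit 325) (nat_lit 324)) (XT.lf (nat_lit 0) (nat_lit 84644298) (nat_lit 152) (nat_lit 430950890) (nat_lit 228) (nat_lit 13687791521) (nat_lit 29) (nat_lit 5) (nat_lit 31) (nat_lit 5) (nat_lit 32) (nat_lit 4) (nat_lit 492) (nat_lit 325) (nat_lit 323))))))))
noncomputable def xc2 : XT := (XT.nd (nat_lit 59280) (nat_lit 0) (nat_lit 0) (XT.nd (nat_lit 780) (nat_lit 532) (nat_lit 0) (XT.nd (nat_lit 390) (nat_lit 456) (nat_lit 0) (XT.nd (nat_lit 156) (nat_lit 380) (nat_lit 0) (XT.nd (nat_lit 78) (nat_lit 152) (nat_lit 0) (XT.lf (nat_lit 0) (nat_lit 5188028190) (nat_lit 228) (nat_lit 5400818695) (nat_lit 0) (nat_lit 3794634097) (nat_lit 29) (nat_lit 5) (nat_lit 32) (nat_lit 4) (nat_lit 29) (nat_lit 4) (nat_lit 493) (nat_lit 325) (nat_lit 322)) (XT.lf (nat_lit 0) (nat_lit 3417775274) (nat_lit 152)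 (nat_lit 6495001482) (nat_lit 152) (nat_lit 4655236770) (nat_lit 27) (nat_lit 4) (nat_lit 29) (nat_lit 5) (nat_lit 29) (nat_lit 4) (nat_lit 494) (nat_lit 325) (nat_lit 321))) (XT.nd (nat_lit 78) (nat_lit 380) (nat_lit 0) (XT.lf (nat_lit 0) (nat_lit 12371052576) (nat_lit 152) (nat_lit 2331584119) (nat_lit 152) (nat_lit 54201154) (nat_lit 27) (nat_lit 4) (nat_lit 29) (nat_lit 5) (nat_lit 29) (nat_lit 4) (nat_lit 495) (nat_lit 325) (nat_lit 320)) (XT.nd (nat_lit 78) (nat_lit 152) (nat_lit 0) (XT.lf (nat_lit 0) (nat_lit 4568007055) (nat_lit 228) (nat_lit 8466388687) (nat_lit 0) (nat_lit 1914653655) (nat_lit 24) (nat_lit 5) (nat_lit 27) (nat_lit 4) (nat_lit 24) (nat_lit 4) (nat_lit 496) (nat_lit 325) (nat_lit 319)) (XT.lf (nat_lit 0) (nat_lit 290175849) (nat_lit 152) (nat_lit 8960643986) (nat_lit 152) (nat_lit 5894913132) (nat_lit 22) (nat_lit 4) (nat_lit 24) (nat_lit 5) (nat_lit 24) (nat_lit 4) (nat_lit 497)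 (nat_lit 325) (nat_lit 318))))) (XT.nd (nat_lit 156) (nat_lit 228) (nat_lit 0) (XT.nd (nat_lit 78) (nat_lit 228) (nat_lit 0) (XT.lf (nat_lit 0) (nat_lit 9223629674) (nat_lit 152) (nat_lit 4796449814) (nat_lit 152) (nat_lit 1326427338) (nat_lit 22) (nat_lit 4) (nat_lit 24) (nat_lit 5) (nat_lit 24) (nat_lit 4) (nat_lit 498) (nat_lit 325) (nat_lit 317)) (XT.lf (nat_lit 0) (nat_lit 2686404150) (nat_lit 152) (nat_lit 557551771) (nat_lit 228) (nat_lit 12307834409) (nat_lit 19) (nat_lit 5) (nat_lit 21) (nat_lit 5) (nat_lit 22) (nat_lit 4) (nat_lit 499) (nat_lit 325) (nat_lit 316))) (XT.nd (nat_lit 78) (nat_lit 228) (nat_lit 0) (XT.lf (nat_lit 0) (nat_lit 7890824835) (nat_lit 228) (nat_lit 4150857747) (nat_lit 0) (nat_lit 3719276505) (nat_lit 19) (nat_lit 5) (nat_lit 22) (nat_lit 4) (nat_lit 19) (nat_lit 4) (nat_lit 500) (nat_lit 325) (nat_lit 315)) (XT.nd (nat_lit 78) (nat_lit 76) (nat_lit 0) (XT.lf (nat_lit 0)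 (nat_lit 4686061000) (nat_lit 152) (nat_lit 7916932872) (nat_lit 152) (nat_lit 3371881577) (nat_lit 17) (nat_lit 4) (nat_lit 19) (nat_lit 5) (nat_lit 19) (nat_lit 4) (nat_lit 501) (nat_lit 325) (nat_lit 314)) (XT.lf (nat_lit 0) (nat_lit 1166754708) (nat_lit 228) (nat_lit 2554386162) (nat_lit 76) (nat_lit 12472454942) (nat_lit 16) (nat_lit 5) (nat_lit 19) (nat_lit 5) (nat_lit 17) (nat_lit 4) (nat_lit 502) (nat_lit 325) (nat_lit 313)))))) (XT.nd (nat_lit 468) (nat_lit 152) (nat_lit 0) (XT.nd (nat_lit 156) (nat_lit 304) (nat_lit 0) (XT.nd (nat_lit 78) (nat_lit 0) (nat_lit 0) (XT.lf (nat_lit 0) (nat_lit 5735289661) (nat_lit 152) (nat_lit 10112883029) (nat_lit 0) (nat_lit 568397442) (nat_lit 15) (nat_lit 5) (nat_lit 17) (nat_lit 4) (nat_lit 15) (nat_lit 4) (nat_lit 503) (nat_lit 325) (nat_lit 312)) (XT.lf (nat_lit 0) (nat_lit 10376821204) (nat_lit 152) (nat_lit 1402690849) (nat_lit 0) (nat_lit 4864869979) (nat_lit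 15) (nat_lit 5) (nat_lit 17) (nat_lit 4) (nat_lit 15) (nat_lit 4) (nat_lit 504) (nat_lit 325) (nat_lit 311))) (XT.nd (nat_lit 78) (nat_lit 152) (nat_lit 0) (XT.lf (nat_lit 0) (nat_lit 7474022328) (nat_lit 152) (nat_lit 7626596946) (nat_lit 152) (nat_lit 1776352578) (nat_lit 13) (nat_lit 4) (nat_lit 15) (nat_lit 5) (nat_lit 15) (nat_lit 4) (nat_lit 505) (nat_lit 325) (nat_lit 310)) (XT.nd (nat_lit 78) (nat_lit 76) (nat_lit 0) (XT.lf (nat_lit 0) (nat_lit 2718359277) (nat_lit 228) (nat_lit 690818571) (nat_lit 76) (nat_lit 13705672157) (nat_lit 12) (nat_lit 5) (nat_lit 15) (nat_lit 5) (nat_lit 13) (nat_lit 4) (nat_lit 506) (nat_lit 325) (nat_lit 309)) (XT.lf (nat_lit 0) (nat_lit 7280433203) (nat_lit 152) (nat_lit 9175840906) (nat_lit 0) (nat_lit 900961516) (nat_lit 11) (nat_lit 5) (nat_lit 13) (nat_lit 4) (nat_lit 11) (nat_lit 4) (nat_lit 507) (nat_lit 325) (nat_lit 308))))) (XT.nd (nat_lit 57798) (nat_lit 0)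 (nat_lit 1748) (XT.nd (nat_lit 57720) (nat_lit 0) (nat_lit 2204) (XT.lf (nat_lit 0) (nat_lit 8376584364) (nat_lit 152) (nat_lit 8239884717) (nat_lit 152) (nat_lit 1241479934) (nat_lit 9) (nat_lit 4) (nat_lit 11) (nat_lit 5) (nat_lit 11) (nat_lit 4) (nat_lit 509) (nat_lit 325) (nat_lit 306)) (XT.lf (nat_lit 0) (nat_lit 3123005963) (nat_lit 228) (nat_lit 1817705896) (nat_lit 228) (nat_lit 1817705896) (nat_lit 38) (nat_lit 4) (nat_lit 41) (nat_lit 5) (nat_lit 41) (nat_lit 4) (nat_lit 488) (nat_lit 326) (nat_lit 326))) (XT.nd (nat_lit 78) (nat_lit 228) (nat_lit 0) (XT.lf (nat_lit 0) (nat_lit 973015567) (nat_lit 228) (nat_lit 12230607777) (nat_lit 0) (nat_lit 480186336) (nat_lit 35) (nat_lit 5) (nat_lit 38) (nat_lit 4) (nat_lit 35) (nat_lit 4) (nat_lit 489) (nat_lit 326) (nat_lit 325)) (XT.nd (nat_lit 78) (nat_lit 228) (nat_lit 0) (XT.lf (nat_lit 0) (nat_lit 5630309142) (nat_lit 228) (nat_lit 3568926929) (nat_lit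 0) (nat_lit 4654313998) (nat_lit 35) (nat_lit 5) (nat_lit 38) (nat_lit 4) (nat_lit 35) (nat_lit 4) (nat_lit 490) (nat_lit 326) (nat_lit 324)) (XT.lf (nat_lit 0) (nat_lit 5219172247) (nat_lit 228) (nat_lit 5128933824) (nat_lit 228) (nat_lit 3679246610) (nat_lit 32) (nat_lit 4) (nat_lit 35) (nat_lit 5) (nat_lit 35) (nat_lit 4) (nat_lit 491) (nat_lit 326) (nat_lit 323))))))) (XT.nd (nat_lit 780) (nat_lit 608) (nat_lit 0) (XT.nd (nat_lit 390) (nat_lit 532) (nat_lit 0) (XT.nd (nat_lit 156) (nat_lit 380) (nat_lit 0) (XT.nd (nat_lit 78) (nat_lit 152) (nat_lit 0) (XT.lf (nat_lit 0) (nat_lit 900783570) (nat_lit 304) (nat_lit 94508394) (nat_lit 76) (nat_lit 13210075507) (nat_lit 31) (nat_lit 5) (nat_lit 35) (nat_lit 5) (nat_lit 32) (nat_lit 4) (nat_lit 492) (nat_lit 326) (nat_lit 322)) (XT.lf (nat_lit 0) (nat_lit 5536165453) (nat_lit 228) (nat_lit 5636809277) (nat_lit 0) (nat_lit 3213234829) (nat_lit 29) (nat_lit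 5) (nat_lit 32) (nat_lit 4) (nat_lit 29) (nat_lit 4) (nat_lit 493) (nat_lit 326) (nat_lit 321))) (XT.nd (nat_lit 78) (nat_lit 228) (nat_lit 0) (XT.lf (nat_lit 0) (nat_lit 3121768271) (nat_lit 152) (nat_lit 7105105093) (nat_lit 152) (nat_lit 4344556215) (nat_lit 27) (nat_lit 4) (nat_lit 29) (nat_lit 5) (nat_lit 29) (nat_lit 4) (nat_lit 494) (nat_lit 326) (nat_lit 320)) (XT.nd (nat_lit 78) (nat_lit 152) (nat_lit 0) (XT.lf (nat_lit 0) (nat_lit 221047182) (nat_lit 228) (nat_lit 2743071071) (nat_lit 76) (nat_lit 11796750115) (nat_lit 26) (nat_lit 5) (nat_lit 29) (nat_lit 5) (nat_lit 27) (nat_lit 4) (nat_lit 495) (nat_lit 326) (nat_lit 319)) (XT.lf (nat_lit 0) (nat_lit 4804113459) (nat_lit 228) (nat_lit 8885043784) (nat_lit 0) (nat_lit 1264690534) (nat_lit 24) (nat_lit 5) (nat_lit 27) (nat_lit 4) (nat_lit 24) (nat_lit 4) (nat_lit 496) (nat_lit 326) (nat_lit 318))))) (XT.nd (nat_lit 156) (nat_lit 380) (nat_lit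 0) (XT.nd (nat_lit 78) (nat_lit 152) (nat_lit 0) (XT.lf (nat_lit 0) (nat_lit 9453710742) (nat_lit 228) (nat_lit 187494873) (nat_lit 0) (nat_lit 5509996195) (nat_lit 24) (nat_lit 5) (nat_lit 27) (nat_lit 4) (nat_lit 24) (nat_lit 4) (nat_lit 497) (nat_lit 326) (nat_lit 317)) (XT.lf (nat_lit 0) (nat_lit 8688620549) (nat_lit 152) (nat_lit 5502043086) (nat_lit 152) (nat_lit 1161964204) (nat_lit 22) (nat_lit 4) (nat_lit 24) (nat_lit 5) (nat_lit 24) (nat_lit 4) (nat_lit 498) (nat_lit 326) (nat_lit 316))) (XT.nd (nat_lit 78) (nat_lit 152) (nat_lit 0) (XT.lf (nat_lit 0) (nat_lit 2082095921) (nat_lit 152) (nat_lit 1289571053) (nat_lit 228) (nat_lit 12186920714) (nat_lit 19) (nat_lit 5) (nat_lit 21) (nat_lit 5) (nat_lit 22) (nat_lit 4) (nat_lit 499) (nat_lit 326) (nat_lit 315)) (XT.nd (nat_lit 78) (nat_lit 152) (nat_lit 0) (XT.lf (nat_lit 0) (nat_lit 7983211516) (nat_lit 228) (nat_lit 4811500872) (nat_lit 0) (nat_lit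 2973756230) (nat_lit 19) (nat_lit 5) (nat_lit 22) (nat_lit 4) (nat_lit 19) (nat_lit 4) (nat_lit 500) (nat_lit 326) (nat_lit 314)) (XT.lf (nat_lit 0) (nat_lit 3962705155) (nat_lit 152) (nat_lit 8698006719) (nat_lit 152) (nat_lit 3322372054) (nat_lit 17) (nat_lit 4) (nat_lit 19) (nat_lit 5) (nat_lit 19) (nat_lit 4) (nat_lit 501) (nat_lit 326) (nat_lit 313)))))) (XT.nd (nat_lit 390) (nat_lit 228) (nat_lit 0) (XT.nd (nat_lit 156) (nat_lit 228) (nat_lit 0) (XT.nd (nat_lit 78) (nat_lit 76) (nat_lit 0) (XT.lf (nat_lit 0) (nat_lit 1185684851) (nat_lit 228) (nat_lit 3339550654) (nat_lit 76) (nat_lit 11677166315) (nat_lit 16) (nat_lit 5) (nat_lit 19) (nat_lit 5) (nat_lit 17) (nat_lit 4) (nat_lit 502) (nat_lit 326) (nat_lit 312)) (XT.lf (nat_lit 0) (nat_lit 5458974232) (nat_lit 76) (nat_lit 256653724) (nat_lit 152) (nat_lit 10710525274) (nat_lit 15) (nat_lit 5) (nat_lit 16) (nat_lit 5) (nat_lit 17) (nat_lit 4) (nat_lit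 503) (nat_lit 326) (nat_lit 311))) (XT.nd (nat_lit 78) (nat_lit 228) (nat_lit 0) (XT.lf (nat_lit 0) (nat_lit 10326240454) (nat_lit 152) (nat_lit 2307650151) (nat_lit 0) (nat_lit 4020698055) (nat_lit 15) (nat_lit 5) (nat_lit 17) (nat_lit 4) (nat_lit 15) (nat_lit 4) (nat_lit 504) (nat_lit 326) (nat_lit 310)) (XT.nd (nat_lit 78) (nat_lit 76) (nat_lit 0) (XT.lf (nat_lit 0) (nat_lit 6505051169) (nat_lit 152) (nat_lit 8510017055) (nat_lit 152) (nat_lit 1872814711) (nat_lit 13) (nat_lit 4) (nat_lit 15) (nat_lit 5) (nat_lit 15) (nat_lit 4) (nat_lit 505) (nat_lit 326) (nat_lit 309)) (XT.lf (nat_lit 0) (nat_lit 2594521315) (nat_lit 228) (nat_lit 1721426095) (nat_lit 76) (nat_lit 12810403876) (nat_lit 12) (nat_lit 5) (nat_lit 15) (nat_lit 5) (nat_lit 13) (nat_lit 4) (nat_lit 506) (nat_lit 326) (nat_lit 308))))) (XT.nd (nat_lit 57798) (nat_lit 0) (nat_lit 1976) (XT.nd (nat_lit 156) (nat_lit 152) (nat_lit 0) (XT.lf (nat_lit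 0) (nat_lit 7092123151) (nat_lit 76) (nat_lit 23353822) (nat_lit 152) (nat_lit 10254087054) (nat_lit 11) (nat_lit 5) (nat_lit 12) (nat_lit 5) (nat_lit 13) (nat_lit 4) (nat_lit 507) (nat_lit 326) (nat_lit 307)) (XT.nd (nat_lit 57564) (nat_lit 0) (nat_lit 2432) (XT.lf (nat_lit 0) (nat_lit 7159297279) (nat_lit 152) (nat_lit 9228714711) (nat_lit 152) (nat_lit 1483544680) (nat_lit 9) (nat_lit 4) (nat_lit 11) (nat_lit 5) (nat_lit 11) (nat_lit 4) (nat_lit 509) (nat_lit 326) (nat_lit 305)) (XT.lf (nat_lit 0) (nat_lit 514902186) (nat_lit 228) (nat_lit 5567085378) (nat_lit 0) (nat_lit 514902186) (nat_lit 41) (nat_lit 5) (nat_lit 44) (nat_lit 4) (nat_lit 41) (nat_lit 4) (nat_lit 486) (nat_lit 327) (nat_lit 327)))) (XT.nd (nat_lit 78) (nat_lit 456) (nat_lit 0) (XT.lf (nat_lit 0) (nat_lit 5662273506) (nat_lit 228) (nat_lit 2541963918) (nat_lit 0) (nat_lit 5149533974) (nat_lit 41) (nat_lit 5) (nat_lit 44) (nat_lit 4)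 (nat_lit 41) (nat_lit 4) (nat_lit 487) (nat_lit 327) (nat_lit 326)) (XT.nd (nat_lit 78) (nat_lit 228) (nat_lit 0) (XT.lf (nat_lit 0) (nat_lit 6188400758) (nat_lit 228) (nat_lit 4172268814) (nat_lit 228) (nat_lit 3156843467) (nat_lit 38) (nat_lit 4) (nat_lit 41) (nat_lit 5) (nat_lit 41) (nat_lit 4) (nat_lit 488) (nat_lit 327) (nat_lit 325)) (XT.lf (nat_lit 0) (nat_lit 1336527599) (nat_lit 152) (nat_lit 71780409) (nat_lit 228) (nat_lit 12276864397) (nat_lit 35) (nat_lit 5) (nat_lit 37) (nat_lit 5) (nat_lit 38) (nat_lit 4) (nat_lit 489) (nat_lit 327) (nat_lit 324))))))))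
noncomputable def xc3 : XT := (XT.nd (nat_lit 58968) (nat_lit 0) (nat_lit 304) (XT.nd (nat_lit 780) (nat_lit 760) (nat_lit 0) (XT.nd (nat_lit 390) (nat_lit 608) (nat_lit 0) (XT.nd (nat_lit 156) (nat_lit 380) (nat_lit 0) (XT.nd (nat_lit 78) (nat_lit 228) (nat_lit 0) (XT.lf (nat_lit 0) (nat_lit 6032200465) (nat_lit 228) (nat_lit 3743560125) (nat_lit 0) (nat_lit 4079827435) (nat_lit 35) (nat_lit 5) (nat_lit 38) (nat_lit 4) (nat_lit 35) (nat_lit 4) (nat_lit 490) (nat_lit 327) (nat_lit 323)) (XT.lf (nat_lit 0) (nat_lit 4985531464) (nat_lit 228) (nat_lit 5730659695) (nat_lit 228) (nat_lit 3313882673) (nat_lit 32) (nat_lit 4) (nat_lit 35) (nat_lit 5) (nat_lit 35) (nat_lit 4) (nat_lit 491) (nat_lit 327) (nat_lit 322))) (XT.nd (nat_lit 78) (nat_lit 304) (nat_lit 0) (XT.lf (nat_lit 0) (nat_lit 1229119826) (nat_lit 304) (nat_lit 389253003) (nat_lit 76) (nat_lit 12590319861) (nat_lit 31) (nat_lit 5) (nat_lit 35) (nat_lit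 5) (nat_lit 32) (nat_lit 4) (nat_lit 492) (nat_lit 327) (nat_lit 321)) (XT.nd (nat_lit 78) (nat_lit 152) (nat_lit 0) (XT.lf (nat_lit 0) (nat_lit 5826385522) (nat_lit 228) (nat_lit 5990910828) (nat_lit 0) (nat_lit 2573007414) (nat_lit 29) (nat_lit 5) (nat_lit 32) (nat_lit 4) (nat_lit 29) (nat_lit 4) (nat_lit 493) (nat_lit 327) (nat_lit 320)) (XT.lf (nat_lit 0) (nat_lit 2707195965) (nat_lit 152) (nat_lit 7775716787) (nat_lit 152) (nat_lit 4093301175) (nat_lit 27) (nat_lit 4) (nat_lit 29) (nat_lit 5) (nat_lit 29) (nat_lit 4) (nat_lit 494) (nat_lit 327) (nat_lit 319))))) (XT.nd (nat_lit 156) (nat_lit 380) (nat_lit 0) (XT.nd (nat_lit 78) (nat_lit 152) (nat_lit 0) (XT.lf (nat_lit 0) (nat_lit 437567316) (nat_lit 228) (nat_lit 3219154635) (nat_lit 76) (nat_lit 11109533210) (nat_lit 26) (nat_lit 5) (nat_lit 29) (nat_lit 5) (nat_lit 27) (nat_lit 4) (nat_lit 495) (nat_lit 327) (nat_lit 318)) (XT.lf (nat_lit 0) (nat_lit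 4981652396) (nat_lit 228) (nat_lit 9423596015) (nat_lit 0) (nat_lit 554771936) (nat_lit 24) (nat_lit 5) (nat_lit 27) (nat_lit 4) (nat_lit 24) (nat_lit 4) (nat_lit 496) (nat_lit 327) (nat_lit 317))) (XT.nd (nat_lit 78) (nat_lit 380) (nat_lit 0) (XT.lf (nat_lit 0) (nat_lit 9600532538) (nat_lit 228) (nat_lit 780174475) (nat_lit 0) (nat_lit 4777287744) (nat_lit 24) (nat_lit 5) (nat_lit 27) (nat_lit 4) (nat_lit 24) (nat_lit 4) (nat_lit 497) (nat_lit 327) (nat_lit 316)) (XT.nd (nat_lit 78) (nat_lit 228) (nat_lit 0) (XT.lf (nat_lit 0) (nat_lit 8034293278) (nat_lit 152) (nat_lit 6268828983) (nat_lit 152) (nat_lit 1056991703) (nat_lit 22) (nat_lit 4) (nat_lit 24) (nat_lit 5) (nat_lit 24) (nat_lit 4) (nat_lit 498) (nat_lit 327) (nat_lit 315)) (XT.lf (nat_lit 0) (nat_lit 1356968565) (nat_lit 152) (nat_lit 2083516023) (nat_lit 228) (nat_lit 12126276842) (nat_lit 19) (nat_lit 5) (nat_lit 21) (nat_lit 5) (nat_lit 22)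 (nat_lit 4) (nat_lit 499) (nat_lit 327) (nat_lit 314)))))) (XT.nd (nat_lit 390) (nat_lit 456) (nat_lit 0) (XT.nd (nat_lit 156) (nat_lit 152) (nat_lit 0) (XT.nd (nat_lit 78) (nat_lit 152) (nat_lit 0) (XT.lf (nat_lit 0) (nat_lit 8016902140) (nat_lit 228) (nat_lit 5592872931) (nat_lit 0) (nat_lit 2167575404) (nat_lit 19) (nat_lit 5) (nat_lit 22) (nat_lit 4) (nat_lit 19) (nat_lit 4) (nat_lit 500) (nat_lit 327) (nat_lit 313)) (XT.lf (nat_lit 0) (nat_lit 3118073465) (nat_lit 152) (nat_lit 9541460639) (nat_lit 152) (nat_lit 3333134513) (nat_lit 17) (nat_lit 4) (nat_lit 19) (nat_lit 5) (nat_lit 19) (nat_lit 4) (nat_lit 501) (nat_lit 327) (nat_lit 312))) (XT.nd (nat_lit 78) (nat_lit 76) (nat_lit 0) (XT.lf (nat_lit 0) (nat_lit 1145720354) (nat_lit 228) (nat_lit 4245931196) (nat_lit 76) (nat_lit 10820928474) (nat_lit 16) (nat_lit 5) (nat_lit 19) (nat_lit 5) (nat_lit 17) (nat_lit 4) (nat_lit 502) (nat_lit 327) (nat_lit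 311)) (XT.nd (nat_lit 78) (nat_lit 0) (nat_lit 0) (XT.lf (nat_lit 0) (nat_lit 4488657976) (nat_lit 76) (nat_lit 1151937713) (nat_lit 152) (nat_lit 10796442248) (nat_lit 15) (nat_lit 5) (nat_lit 16) (nat_lit 5) (nat_lit 17) (nat_lit 4) (nat_lit 503) (nat_lit 327) (nat_lit 310)) (XT.lf (nat_lit 0) (nat_lit 10216716312) (nat_lit 152) (nat_lit 3334341964) (nat_lit 0) (nat_lit 3115109977) (nat_lit 15) (nat_lit 5) (nat_lit 17) (nat_lit 4) (nat_lit 15) (nat_lit 4) (nat_lit 504) (nat_lit 327) (nat_lit 309))))) (XT.nd (nat_lit 156) (nat_lit 228) (nat_lit 0) (XT.nd (nat_lit 78) (nat_lit 76) (nat_lit 0) (XT.lf (nat_lit 0) (nat_lit 5413749060) (nat_lit 152) (nat_lit 9456592803) (nat_lit 152) (nat_lit 2029829660) (nat_lit 13) (nat_lit 4) (nat_lit 15) (nat_lit 5) (nat_lit 15) (nat_lit 4) (nat_lit 505) (nat_lit 327) (nat_lit 308)) (XT.lf (nat_lit 0) (nat_lit 2411486284) (nat_lit 228) (nat_lit 2874342032) (nat_lit 76) (nat_lit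 11853398290) (nat_lit 12) (nat_lit 5) (nat_lit 15) (nat_lit 5) (nat_lit 13) (nat_lit 4) (nat_lit 506) (nat_lit 327) (nat_lit 307))) (XT.nd (nat_lit 156) (nat_lit 152) (nat_lit 0) (XT.lf (nat_lit 0) (nat_lit 5873872099) (nat_lit 76) (nat_lit 1023131366) (nat_lit 152) (nat_lit 10486149318) (nat_lit 11) (nat_lit 5) (nat_lit 12) (nat_lit 5) (nat_lit 13) (nat_lit 4) (nat_lit 507) (nat_lit 327) (nat_lit 306)) (XT.nd (nat_lit 57408) (nat_lit 0) (nat_lit 2888) (XT.lf (nat_lit 0) (nat_lit 5818447714) (nat_lit 152) (nat_lit 10281535240) (nat_lit 152) (nat_lit 1786562638) (nat_lit 9) (nat_lit 4) (nat_lit 11) (nat_lit 5) (nat_lit 11) (nat_lit 4) (nat_lit 509) (nat_lit 327) (nat_lit 304)) (XT.lf (nat_lit 0) (nat_lit 2669697866) (nat_lit 228) (nat_lit 1101731592) (nat_lit 0) (nat_lit 2669697866) (nat_lit 47) (nat_lit 5) (nat_lit 50) (nat_lit 4) (nat_lit 47) (nat_lit 4) (nat_lit 484) (nat_lit 328) (nat_lit 328))))))) (XT.nd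 (nat_lit 780) (nat_lit 1064) (nat_lit 0) (XT.nd (nat_lit 390) (nat_lit 608) (nat_lit 0) (XT.nd (nat_lit 156) (nat_lit 456) (nat_lit 0) (XT.nd (nat_lit 78) (nat_lit 228) (nat_lit 0) (XT.lf (nat_lit 0) (nat_lit 6445724204) (nat_lit 228) (nat_lit 3562139701) (nat_lit 228) (nat_lit 3028685492) (nat_lit 44) (nat_lit 4) (nat_lit 47) (nat_lit 5) (nat_lit 47) (nat_lit 4) (nat_lit 485) (nat_lit 328) (nat_lit 327)) (XT.lf (nat_lit 0) (nat_lit 1519016674) (nat_lit 228) (nat_lit 11192163456) (nat_lit 0) (nat_lit 483282819) (nat_lit 41) (nat_lit 5) (nat_lit 44) (nat_lit 4) (nat_lit 41) (nat_lit 4) (nat_lit 486) (nat_lit 328) (nat_lit 326))) (XT.nd (nat_lit 78) (nat_lit 456) (nat_lit 0) (XT.lf (nat_lit 0) (nat_lit 6118366177) (nat_lit 228) (nat_lit 2656812205) (nat_lit 0) (nat_lit 4579946507) (nat_lit 41) (nat_lit 5) (nat_lit 44) (nat_lit 4) (nat_lit 41) (nat_lit 4) (nat_lit 487) (nat_lit 328) (nat_lit 325)) (XT.nd (nat_lit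 78) (nat_lit 228) (nat_lit 0) (XT.lf (nat_lit 0) (nat_lit 6015544661) (nat_lit 228) (nat_lit 4767625060) (nat_lit 228) (nat_lit 2736376159) (nat_lit 38) (nat_lit 4) (nat_lit 41) (nat_lit 5) (nat_lit 41) (nat_lit 4) (nat_lit 488) (nat_lit 328) (nat_lit 324)) (XT.lf (nat_lit 0) (nat_lit 1099994507) (nat_lit 152) (nat_lit 689317037) (nat_lit 228) (nat_lit 11898525299) (nat_lit 35) (nat_lit 5) (nat_lit 37) (nat_lit 5) (nat_lit 38) (nat_lit 4) (nat_lit 489) (nat_lit 328) (nat_lit 323))))) (XT.nd (nat_lit 156) (nat_lit 380) (nat_lit 0) (XT.nd (nat_lit 78) (nat_lit 228) (nat_lit 0) (XT.lf (nat_lit 0) (nat_lit 6376905259) (nat_lit 228) (nat_lit 4034691544) (nat_lit 0) (nat_lit 3447388706) (nat_lit 35) (nat_lit 5) (nat_lit 38) (nat_lit 4) (nat_lit 35) (nat_lit 4) (nat_lit 490) (nat_lit 328) (nat_lit 322)) (XT.lf (nat_lit 0) (nat_lit 4634955764) (nat_lit 228) (nat_lit 6392007856) (nat_lit 228) (nat_lit 3007193272)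 (nat_lit 32) (nat_lit 4) (nat_lit 35) (nat_lit 5) (nat_lit 35) (nat_lit 4) (nat_lit 491) (nat_lit 328) (nat_lit 321))) (XT.nd (nat_lit 78) (nat_lit 304) (nat_lit 0) (XT.lf (nat_lit 0) (nat_lit 1500183150) (nat_lit 304) (nat_lit 800815239) (nat_lit 76) (nat_lit 11912376274) (nat_lit 31) (nat_lit 5) (nat_lit 35) (nat_lit 5) (nat_lit 32) (nat_lit 4) (nat_lit 492) (nat_lit 328) (nat_lit 320)) (XT.nd (nat_lit 78) (nat_lit 152) (nat_lit 0) (XT.lf (nat_lit 0) (nat_lit 6058802208) (nat_lit 228) (nat_lit 6463262210) (nat_lit 0) (nat_lit 1873700781) (nat_lit 29) (nat_lit 5) (nat_lit 32) (nat_lit 4) (nat_lit 29) (nat_lit 4) (nat_lit 493) (nat_lit 328) (nat_lit 319)) (XT.lf (nat_lit 0) (nat_lit 2173895780) (nat_lit 152) (nat_lit 8507099549) (nat_lit 152) (nat_lit 3901373119) (nat_lit 27) (nat_lit 4) (nat_lit 29) (nat_lit 5) (nat_lit 29) (nat_lit 4) (nat_lit 494) (nat_lit 328) (nat_lit 318)))))) (XT.nd (nat_lit 390)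 (nat_lit 456) (nat_lit 0) (XT.nd (nat_lit 156) (nat_lit 380) (nat_lit 0) (XT.nd (nat_lit 78) (nat_lit 152) (nat_lit 0) (XT.lf (nat_lit 0) (nat_lit 596155013) (nat_lit 228) (nat_lit 3813870756) (nat_lit 76) (nat_lit 10362981609) (nat_lit 26) (nat_lit 5) (nat_lit 29) (nat_lit 5) (nat_lit 27) (nat_lit 4) (nat_lit 495) (nat_lit 328) (nat_lit 317)) (XT.lf (nat_lit 0) (nat_lit 4883867634) (nat_lit 152) (nat_lit 218242831) (nat_lit 228) (nat_lit 9865430725) (nat_lit 24) (nat_lit 5) (nat_lit 26) (nat_lit 5) (nat_lit 27) (nat_lit 4) (nat_lit 496) (nat_lit 328) (nat_lit 316))) (XT.nd (nat_lit 78) (nat_lit 380) (nat_lit 0) (XT.lf (nat_lit 0) (nat_lit 9689458787) (nat_lit 228) (nat_lit 1491901088) (nat_lit 0) (nat_lit 3984792276) (nat_lit 24) (nat_lit 5) (nat_lit 27) (nat_lit 4) (nat_lit 24) (nat_lit 4) (nat_lit 497) (nat_lit 328) (nat_lit 315)) (XT.nd (nat_lit 78) (nat_lit 228) (nat_lit 0) (XT.lf (nat_lit 0) (nat_lit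 7260391262) (nat_lit 152) (nat_lit 7097108206) (nat_lit 152) (nat_lit 1011468670) (nat_lit 22) (nat_lit 4) (nat_lit 24) (nat_lit 5) (nat_lit 24) (nat_lit 4) (nat_lit 498) (nat_lit 328) (nat_lit 314)) (XT.lf (nat_lit 0) (nat_lit 510737720) (nat_lit 152) (nat_lit 2939698032) (nat_lit 228) (nat_lit 12125879012) (nat_lit 19) (nat_lit 5) (nat_lit 21) (nat_lit 5) (nat_lit 22) (nat_lit 4) (nat_lit 499) (nat_lit 328) (nat_lit 313))))) (XT.nd (nat_lit 234) (nat_lit 228) (nat_lit 0) (XT.nd (nat_lit 78) (nat_lit 228) (nat_lit 0) (XT.lf (nat_lit 0) (nat_lit 7991909918) (nat_lit 228) (nat_lit 6495280343) (nat_lit 0) (nat_lit 1300417880) (nat_lit 19) (nat_lit 5) (nat_lit 22) (nat_lit 4) (nat_lit 19) (nat_lit 4) (nat_lit 500) (nat_lit 328) (nat_lit 312)) (XT.nd (nat_lit 78) (nat_lit 76) (nat_lit 0) (XT.lf (nat_lit 0) (nat_lit 2151834702) (nat_lit 152) (nat_lit 10447625399) (nat_lit 152) (nat_lit 3404173175) (nat_lit 17)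 (nat_lit 4) (nat_lit 19) (nat_lit 5) (nat_lit 19) (nat_lit 4) (nat_lit 501) (nat_lit 328) (nat_lit 311)) (XT.lf (nat_lit 0) (nat_lit 1046845544) (nat_lit 228) (nat_lit 5273883230) (nat_lit 76) (nat_lit 9903405639) (nat_lit 16) (nat_lit 5) (nat_lit 19) (nat_lit 5) (nat_lit 17) (nat_lit 4) (nat_lit 502) (nat_lit 328) (nat_lit 310)))) (XT.nd (nat_lit 78) (nat_lit 152) (nat_lit 0) (XT.lf (nat_lit 0) (nat_lit 3396172065) (nat_lit 76) (nat_lit 2110251914) (nat_lit 152) (nat_lit 10942879335) (nat_lit 15) (nat_lit 5) (nat_lit 16) (nat_lit 5) (nat_lit 17) (nat_lit 4) (nat_lit 503) (nat_lit 328) (nat_lit 309)) (XT.nd (nat_lit 78) (nat_lit 152) (nat_lit 0) (XT.lf (nat_lit 0) (nat_lit 10048205828) (nat_lit 152) (nat_lit 4483168913) (nat_lit 0) (nat_lit 2147750614) (nat_lit 15) (nat_lit 5) (nat_lit 17) (nat_lit 4) (nat_lit 15) (nat_lit 4) (nat_lit 504) (nat_lit 328) (nat_lit 308)) (XT.lf (nat_lit 0) (nat_lit 4199688038)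 (nat_lit 152) (nat_lit 10466695398) (nat_lit 152) (nat_lit 2247458999) (nat_lit 13) (nat_lit 4) (nat_lit 15) (nat_lit 5) (nat_lit 15) (nat_lit 4) (nat_lit 505) (nat_lit 328) (nat_lit 307))))))))
noncomputable def xc4 : XT := (XT.nd (nat_lit 58812) (nat_lit 0) (nat_lit 0) (XT.nd (nat_lit 58032) (nat_lit 0) (nat_lit 988) (XT.nd (nat_lit 57642) (nat_lit 0) (nat_lit 2204) (XT.nd (nat_lit 234) (nat_lit 152) (nat_lit 0) (XT.nd (nat_lit 78) (nat_lit 76) (nat_lit 0) (XT.lf (nat_lit 0) (nat_lit 2169182408) (nat_lit 228) (nat_lit 4150018506) (nat_lit 76) (nat_lit 10834280105) (nat_lit 12) (nat_lit 5) (nat_lit 15) (nat_lit 5) (nat_lit 13) (nat_lit 4) (nat_lit 506) (nat_lit 328) (nat_lit 306)) (XT.lf (nat_lit 0) (nat_lit 4532209743) (nat_lit 76) (nat_lit 2086789879) (nat_lit 152) (nat_lit 10779126145) (nat_lit 11) (nat_lit 5) (nat_lit 12) (nat_lit 5) (nat_lit 13) (nat_lit 4) (nat_lit 507) (nat_lit 328) (nat_lit 305)))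 (XT.nd (nat_lit 57252) (nat_lit 0) (nat_lit 2888) (XT.lf (nat_lit 0) (nat_lit 4353509845) (nat_lit 152) (nat_lit 11398759172) (nat_lit 152) (nat_lit 2150652639) (nat_lit 9) (nat_lit 4) (nat_lit 11) (nat_lit 5) (nat_lit 11) (nat_lit 4) (nat_lit 509) (nat_lit 328) (nat_lit 303)) (XT.nd (nat_lit 78) (nat_lit 228) (nat_lit 0) (XT.lf (nat_lit 0) (nat_lit 3049487565) (nat_lit 228) (nat_lit 1620925149) (nat_lit 228) (nat_lit 1620925149) (nat_lit 50) (nat_lit 4) (nat_lit 53) (nat_lit 5) (nat_lit 53) (nat_lit 4) (nat_lit 482) (nat_lit 329) (nat_lit 329)) (XT.lf (nat_lit 0) (nat_lit 1281641051) (nat_lit 228) (nat_lit 10712341531) (nat_lit 0) (nat_lit 737517758) (nat_lit 47) (nat_lit 5) (nat_lit 50) (nat_lit 4) (nat_lit 47) (nat_lit 4) (nat_lit 483) (nat_lit 329) (nat_lit 328))))) (XT.nd (nat_lit 156) (nat_lit 456) (nat_lit 0) (XT.nd (nat_lit 78) (nat_lit 228) (nat_lit 0) (XT.lf (nat_lit 0) (nat_lit 5850203541) (nat_lit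 228) (nat_lit 2260099500) (nat_lit 0) (nat_lit 4772626039) (nat_lit 47) (nat_lit 5) (nat_lit 50) (nat_lit 4) (nat_lit 47) (nat_lit 4) (nat_lit 484) (nat_lit 329) (nat_lit 327)) (XT.lf (nat_lit 0) (nat_lit 6332071515) (nat_lit 228) (nat_lit 4153200050) (nat_lit 228) (nat_lit 2552628225) (nat_lit 44) (nat_lit 4) (nat_lit 47) (nat_lit 5) (nat_lit 47) (nat_lit 4) (nat_lit 485) (nat_lit 329) (nat_lit 326))) (XT.nd (nat_lit 78) (nat_lit 228) (nat_lit 0) (XT.lf (nat_lit 0) (nat_lit 1829538880) (nat_lit 152) (nat_lit 122367177) (nat_lit 228) (nat_lit 11244591606) (nat_lit 41) (nat_lit 5) (nat_lit 43) (nat_lit 5) (nat_lit 44) (nat_lit 4) (nat_lit 486) (nat_lit 329) (nat_lit 325)) (XT.nd (nat_lit 78) (nat_lit 228) (nat_lit 0) (XT.lf (nat_lit 0) (nat_lit 6517990846) (nat_lit 228) (nat_lit 2886553816) (nat_lit 0) (nat_lit 3953287737) (nat_lit 41) (nat_lit 5) (nat_lit 44) (nat_lit 4) (nat_lit 41) (nat_lit 4) (nat_lit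 487) (nat_lit 329) (nat_lit 324)) (XT.lf (nat_lit 0) (nat_lit 5727375849) (nat_lit 228) (nat_lit 5421714005) (nat_lit 228) (nat_lit 2373844983) (nat_lit 38) (nat_lit 4) (nat_lit 41) (nat_lit 5) (nat_lit 41) (nat_lit 4) (nat_lit 488) (nat_lit 329) (nat_lit 323)))))) (XT.nd (nat_lit 390) (nat_lit 532) (nat_lit 0) (XT.nd (nat_lit 156) (nat_lit 456) (nat_lit 0) (XT.nd (nat_lit 78) (nat_lit 0) (nat_lit 0) (XT.lf (nat_lit 0) (nat_lit 746732175) (nat_lit 152) (nat_lit 1366284294) (nat_lit 228) (nat_lit 11578850756) (nat_lit 35) (nat_lit 5) (nat_lit 37) (nat_lit 5) (nat_lit 38) (nat_lit 4) (nat_lit 489) (nat_lit 329) (nat_lit 322)) (XT.lf (nat_lit 0) (nat_lit 6664558701) (nat_lit 228) (nat_lit 4442435355) (nat_lit 0) (nat_lit 2756749794) (nat_lit 35) (nat_lit 5) (nat_lit 38) (nat_lit 4) (nat_lit 35) (nat_lit 4) (nat_lit 490) (nat_lit 329) (nat_lit 321))) (XT.nd (nat_lit 78) (nat_lit 228) (nat_lit 0) (XT.lf (nat_lit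 0) (nat_lit 4167307667) (nat_lit 228) (nat_lit 7113237660) (nat_lit 228) (nat_lit 2759058135) (nat_lit 32) (nat_lit 4) (nat_lit 35) (nat_lit 5) (nat_lit 35) (nat_lit 4) (nat_lit 491) (nat_lit 329) (nat_lit 320)) (XT.nd (nat_lit 78) (nat_lit 152) (nat_lit 0) (XT.lf (nat_lit 0) (nat_lit 1714079841) (nat_lit 304) (nat_lit 1329356499) (nat_lit 76) (nat_lit 11175978885) (nat_lit 31) (nat_lit 5) (nat_lit 35) (nat_lit 5) (nat_lit 32) (nat_lit 4) (nat_lit 492) (nat_lit 329) (nat_lit 319)) (XT.lf (nat_lit 0) (nat_lit 6233506656) (nat_lit 228) (nat_lit 7054048660) (nat_lit 0) (nat_lit 1115040694) (nat_lit 29) (nat_lit 5) (nat_lit 32) (nat_lit 4) (nat_lit 29) (nat_lit 4) (nat_lit 493) (nat_lit 329) (nat_lit 318))))) (XT.nd (nat_lit 156) (nat_lit 304) (nat_lit 0) (XT.nd (nat_lit 78) (nat_lit 76) (nat_lit 0) (XT.lf (nat_lit 0) (nat_lit 1521658577) (nat_lit 152) (nat_lit 9299540197) (nat_lit 152) (nat_lit 3768696781)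 (nat_lit 27) (nat_lit 4) (nat_lit 29) (nat_lit 5) (nat_lit 29) (nat_lit 4) (nat_lit 494) (nat_lit 329) (nat_lit 317)) (XT.lf (nat_lit 0) (nat_lit 696872466) (nat_lit 228) (nat_lit 4527452654) (nat_lit 76) (nat_lit 9556802546) (nat_lit 26) (nat_lit 5) (nat_lit 29) (nat_lit 5) (nat_lit 27) (nat_lit 4) (nat_lit 495) (nat_lit 329) (nat_lit 316))) (XT.nd (nat_lit 78) (nat_lit 152) (nat_lit 0) (XT.lf (nat_lit 0) (nat_lit 4108194837) (nat_lit 152) (nat_lit 1059970613) (nat_lit 228) (nat_lit 9808195193) (nat_lit 24) (nat_lit 5) (nat_lit 26) (nat_lit 5) (nat_lit 27) (nat_lit 4) (nat_lit 496) (nat_lit 329) (nat_lit 315)) (XT.nd (nat_lit 78) (nat_lit 152) (nat_lit 0) (XT.lf (nat_lit 0) (nat_lit 9720524361) (nat_lit 228) (nat_lit 2322953821) (nat_lit 0) (nat_lit 3132199010) (nat_lit 24) (nat_lit 5) (nat_lit 27) (nat_lit 4) (nat_lit 24) (nat_lit 4) (nat_lit 497) (nat_lit 329) (nat_lit 314)) (XT.lf (nat_lit 0) (nat_lit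 6366611010) (nat_lit 152) (nat_lit 7987205570) (nat_lit 152) (nat_lit 1025377253) (nat_lit 22) (nat_lit 4) (nat_lit 24) (nat_lit 5) (nat_lit 24) (nat_lit 4) (nat_lit 498) (nat_lit 329) (nat_lit 313))))))) (XT.nd (nat_lit 57876) (nat_lit 0) (nat_lit 1976) (XT.nd (nat_lit 390) (nat_lit 456) (nat_lit 0) (XT.nd (nat_lit 156) (nat_lit 304) (nat_lit 0) (XT.nd (nat_lit 78) (nat_lit 152) (nat_lit 0) (XT.lf (nat_lit 0) (nat_lit 3404491050) (nat_lit 228) (nat_lit 450935771) (nat_lit 76) (nat_lit 11731765279) (nat_lit 21) (nat_lit 5) (nat_lit 24) (nat_lit 5) (nat_lit 22) (nat_lit 4) (nat_lit 499) (nat_lit 329) (nat_lit 312)) (XT.lf (nat_lit 0) (nat_lit 7908225050) (nat_lit 228) (nat_lit 7519076993) (nat_lit 0) (nat_lit 371943594) (nat_lit 19) (nat_lit 5) (nat_lit 22) (nat_lit 4) (nat_lit 19) (nat_lit 4) (nat_lit 500) (nat_lit 329) (nat_lit 311))) (XT.nd (nat_lit 78) (nat_lit 152) (nat_lit 0) (XT.lf (nat_lit 0) (nat_lit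 1063609949) (nat_lit 152) (nat_lit 11416856358) (nat_lit 152) (nat_lit 3535515897) (nat_lit 17) (nat_lit 4) (nat_lit 19) (nat_lit 5) (nat_lit 19) (nat_lit 4) (nat_lit 501) (nat_lit 329) (nat_lit 310)) (XT.nd (nat_lit 78) (nat_lit 76) (nat_lit 0) (XT.lf (nat_lit 0) (nat_lit 889021648) (nat_lit 228) (nat_lit 6423809875) (nat_lit 76) (nat_lit 8924237998) (nat_lit 16) (nat_lit 5) (nat_lit 19) (nat_lit 5) (nat_lit 17) (nat_lit 4) (nat_lit 502) (nat_lit 329) (nat_lit 309)) (XT.lf (nat_lit 0) (nat_lit 2181088073) (nat_lit 76) (nat_lit 3131972135) (nat_lit 152) (nat_lit 11149893960) (nat_lit 15) (nat_lit 5) (nat_lit 16) (nat_lit 5) (nat_lit 17) (nat_lit 4) (nat_lit 503) (nat_lit 329) (nat_lit 308))))) (XT.nd (nat_lit 156) (nat_lit 304) (nat_lit 0) (XT.nd (nat_lit 78) (nat_lit 152) (nat_lit 0) (XT.lf (nat_lit 0) (nat_lit 9820642919) (nat_lit 152) (nat_lit 5754581518) (nat_lit 0) (nat_lit 1118240607) (nat_lit 15)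 (nat_lit 5) (nat_lit 17) (nat_lit 4) (nat_lit 15) (nat_lit 4) (nat_lit 504) (nat_lit 329) (nat_lit 307)) (XT.lf (nat_lit 0) (nat_lit 2862392002) (nat_lit 152) (nat_lit 11540720958) (nat_lit 152) (nat_lit 2525788074) (nat_lit 13) (nat_lit 4) (nat_lit 15) (nat_lit 5) (nat_lit 15) (nat_lit 4) (nat_lit 505) (nat_lit 329) (nat_lit 306))) (XT.nd (nat_lit 78) (nat_lit 228) (nat_lit 0) (XT.lf (nat_lit 0) (nat_lit 1867514665) (nat_lit 228) (nat_lit 5548955782) (nat_lit 76) (nat_lit 9752649664) (nat_lit 12) (nat_lit 5) (nat_lit 15) (nat_lit 5) (nat_lit 13) (nat_lit 4) (nat_lit 506) (nat_lit 329) (nat_lit 305)) (XT.nd (nat_lit 156) (nat_lit 152) (nat_lit 0) (XT.lf (nat_lit 0) (nat_lit 3066609941) (nat_lit 76) (nat_lit 3214746483) (nat_lit 152) (nat_lit 11133132427) (nat_lit 11) (nat_lit 5) (nat_lit 12) (nat_lit 5) (nat_lit 13) (nat_lit 4) (nat_lit 507) (nat_lit 329) (nat_lit 304)) (XT.lf (nat_lit 0) (nat_lit 2763909186)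 (nat_lit 152) (nat_lit 12580824636) (nat_lit 152) (nat_lit 2575957462) (nat_lit 9) (nat_lit 4) (nat_lit 11) (nat_lit 5) (nat_lit 11) (nat_lit 4) (nat_lit 509) (nat_lit 329) (nat_lit 302)))))) (XT.nd (nat_lit 390) (nat_lit 912) (nat_lit 0) (XT.nd (nat_lit 156) (nat_lit 456) (nat_lit 0) (XT.nd (nat_lit 78) (nat_lit 0) (nat_lit 0) (XT.lf (nat_lit 0) (nat_lit 372096406) (nat_lit 304) (nat_lit 5403103663) (nat_lit 0) (nat_lit 372096406) (nat_lit 53) (nat_lit 5) (nat_lit 57) (nat_lit 4) (nat_lit 53) (nat_lit 4) (nat_lit 480) (nat_lit 330) (nat_lit 330)) (XT.lf (nat_lit 0) (nat_lit 5277194410) (nat_lit 304) (nat_lit 2448981127) (nat_lit 0) (nat_lit 4711088535) (nat_lit 53) (nat_lit 5) (nat_lit 57) (nat_lit 4) (nat_lit 53) (nat_lit 4) (nat_lit 481) (nat_lit 330) (nat_lit 329))) (XT.nd (nat_lit 78) (nat_lit 228) (nat_lit 0) (XT.lf (nat_lit 0) (nat_lit 6042942586) (nat_lit 228) (nat_lit 3830758910) (nat_lit 228) (nat_lit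 2709647277) (nat_lit 50) (nat_lit 4) (nat_lit 53) (nat_lit 5) (nat_lit 53) (nat_lit 4) (nat_lit 482) (nat_lit 330) (nat_lit 328)) (XT.nd (nat_lit 78) (nat_lit 0) (nat_lit 0) (XT.lf (nat_lit 0) (nat_lit 1769349531) (nat_lit 228) (nat_lit 10826746887) (nat_lit 0) (nat_lit 136766270) (nat_lit 47) (nat_lit 5) (nat_lit 50) (nat_lit 4) (nat_lit 47) (nat_lit 4) (nat_lit 483) (nat_lit 330) (nat_lit 327)) (XT.lf (nat_lit 0) (nat_lit 6305249782) (nat_lit 228) (nat_lit 2430030654) (nat_lit 0) (nat_lit 4149672198) (nat_lit 47) (nat_lit 5) (nat_lit 50) (nat_lit 4) (nat_lit 47) (nat_lit 4) (nat_lit 484) (nat_lit 330) (nat_lit 326))))) (XT.nd (nat_lit 234) (nat_lit 456) (nat_lit 0) (XT.nd (nat_lit 78) (nat_lit 228) (nat_lit 0) (XT.lf (nat_lit 0) (nat_lit 6104721568) (nat_lit 228) (nat_lit 4802098327) (nat_lit 228) (nat_lit 2133781212) (nat_lit 44) (nat_lit 4) (nat_lit 47) (nat_lit 5) (nat_lit 47) (nat_lit 4) (nat_lit 485)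 (nat_lit 330) (nat_lit 325)) (XT.nd (nat_lit 78) (nat_lit 0) (nat_lit 0) (XT.lf (nat_lit 0) (nat_lit 1538439168) (nat_lit 152) (nat_lit 792967811) (nat_lit 228) (nat_lit 10868422172) (nat_lit 41) (nat_lit 5) (nat_lit 43) (nat_lit 5) (nat_lit 44) (nat_lit 4) (nat_lit 486) (nat_lit 330) (nat_lit 324)) (XT.lf (nat_lit 0) (nat_lit 6861304230) (nat_lit 228) (nat_lit 3231278847) (nat_lit 0) (nat_lit 3269311915) (nat_lit 41) (nat_lit 5) (nat_lit 44) (nat_lit 4) (nat_lit 41) (nat_lit 4) (nat_lit 487) (nat_lit 330) (nat_lit 323)))) (XT.nd (nat_lit 78) (nat_lit 228) (nat_lit 0) (XT.lf (nat_lit 0) (nat_lit 5323781313) (nat_lit 228) (nat_lit 6134792154) (nat_lit 228) (nat_lit 2069107768) (nat_lit 38) (nat_lit 4) (nat_lit 41) (nat_lit 5) (nat_lit 41) (nat_lit 4) (nat_lit 488) (nat_lit 330) (nat_lit 322)) (XT.nd (nat_lit 78) (nat_lit 0) (nat_lit 0) (XT.lf (nat_lit 0) (nat_lit 276602067) (nat_lit 152) (nat_lit 2102947657)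 (nat_lit 228) (nat_lit 11317715404) (nat_lit 35) (nat_lit 5) (nat_lit 37) (nat_lit 5) (nat_lit 38) (nat_lit 4) (nat_lit 489) (nat_lit 330) (nat_lit 321)) (XT.lf (nat_lit 0) (nat_lit 6895273596) (nat_lit 228) (nat_lit 4966951457) (nat_lit 0) (nat_lit 2007639863) (nat_lit 35) (nat_lit 5) (nat_lit 38) (nat_lit 4) (nat_lit 35) (nat_lit 4) (nat_lit 490) (nat_lit 330) (nat_lit 320))))))))
noncomputable def xc5 : XT := (XT.nd (nat_lit 58500) (nat_lit 0) (nat_lit 760) (XT.nd (nat_lit 780) (nat_lit 760) (nat_lit 0) (XT.nd (nat_lit 390) (nat_lit 532) (nat_lit 0) (XT.nd (nat_lit 156) (nat_lit 380) (nat_lit 0) (XT.nd (nat_lit 78) (nat_lit 76) (nat_lit 0) (XT.lf (nat_lit 0) (nat_lit 3582403781) (nat_lit 228) (nat_lit 7894631943) (nat_lit 228) (nat_lit 2569379956) (nat_lit 32) (nat_lit 4) (nat_lit 35) (nat_lit 5) (nat_lit 35) (nat_lit 4) (nat_lit 491) (nat_lit 330) (nat_lit 319)) (XT.lf (nat_lit 0) (nat_lit 1870893780)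 (nat_lit 304) (nat_lit 1975084054) (nat_lit 76) (nat_lit 10380838912) (nat_lit 31) (nat_lit 5) (nat_lit 35) (nat_lit 5) (nat_lit 32) (nat_lit 4) (nat_lit 492) (nat_lit 330) (nat_lit 318))) (XT.nd (nat_lit 78) (nat_lit 228) (nat_lit 0) (XT.lf (nat_lit 0) (nat_lit 6350567376) (nat_lit 228) (nat_lit 7763501858) (nat_lit 0) (nat_lit 296729638) (nat_lit 29) (nat_lit 5) (nat_lit 32) (nat_lit 4) (nat_lit 29) (nat_lit 4) (nat_lit 493) (nat_lit 330) (nat_lit 317)) (XT.nd (nat_lit 78) (nat_lit 76) (nat_lit 0) (XT.lf (nat_lit 0) (nat_lit 750228579) (nat_lit 152) (nat_lit 10153349491) (nat_lit 152) (nat_lit 3695220131) (nat_lit 27) (nat_lit 4) (nat_lit 29) (nat_lit 5) (nat_lit 29) (nat_lit 4) (nat_lit 494) (nat_lit 330) (nat_lit 316)) (XT.lf (nat_lit 0) (nat_lit 739759172) (nat_lit 228) (nat_lit 5360180167) (nat_lit 76) (nat_lit 8690679873) (nat_lit 26) (nat_lit 5) (nat_lit 29) (nat_lit 5) (nat_lit 27) (nat_lit 4) (nat_lit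 495) (nat_lit 330) (nat_lit 315))))) (XT.nd (nat_lit 156) (nat_lit 380) (nat_lit 0) (XT.nd (nat_lit 78) (nat_lit 0) (nat_lit 0) (XT.lf (nat_lit 0) (nat_lit 3212824568) (nat_lit 152) (nat_lit 1963368871) (nat_lit 228) (nat_lit 9810361722) (nat_lit 24) (nat_lit 5) (nat_lit 26) (nat_lit 5) (nat_lit 27) (nat_lit 4) (nat_lit 496) (nat_lit 330) (nat_lit 314)) (XT.lf (nat_lit 0) (nat_lit 9693741442) (nat_lit 228) (nat_lit 3273658577) (nat_lit 0) (nat_lit 2219173594) (nat_lit 24) (nat_lit 5) (nat_lit 27) (nat_lit 4) (nat_lit 24) (nat_lit 4) (nat_lit 497) (nat_lit 330) (nat_lit 313))) (XT.nd (nat_lit 78) (nat_lit 228) (nat_lit 0) (XT.lf (nat_lit 0) (nat_lit 5352602021) (nat_lit 152) (nat_lit 8939470132) (nat_lit 152) (nat_lit 1098722906) (nat_lit 22) (nat_lit 4) (nat_lit 24) (nat_lit 5) (nat_lit 24) (nat_lit 4) (nat_lit 498) (nat_lit 330) (nat_lit 312)) (XT.nd (nat_lit 78) (nat_lit 152) (nat_lit 0) (XT.lf (nat_lit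 0) (nat_lit 3303771570) (nat_lit 228) (nat_lit 1526128044) (nat_lit 76) (nat_lit 10769475310) (nat_lit 21) (nat_lit 5) (nat_lit 24) (nat_lit 5) (nat_lit 22) (nat_lit 4) (nat_lit 499) (nat_lit 330) (nat_lit 311)) (XT.lf (nat_lit 0) (nat_lit 7143454634) (nat_lit 152) (nat_lit 626427264) (nat_lit 228) (nat_lit 8042304288) (nat_lit 19) (nat_lit 5) (nat_lit 21) (nat_lit 5) (nat_lit 22) (nat_lit 4) (nat_lit 500) (nat_lit 330) (nat_lit 310)))))) (XT.nd (nat_lit 390) (nat_lit 304) (nat_lit 0) (XT.nd (nat_lit 156) (nat_lit 228) (nat_lit 0) (XT.nd (nat_lit 78) (nat_lit 228) (nat_lit 0) (XT.lf (nat_lit 0) (nat_lit 12303460659) (nat_lit 228) (nat_lit 145099255) (nat_lit 0) (nat_lit 3581141239) (nat_lit 19) (nat_lit 5) (nat_lit 22) (nat_lit 4) (nat_lit 19) (nat_lit 4) (nat_lit 501) (nat_lit 330) (nat_lit 309)) (XT.lf (nat_lit 0) (nat_lit 672186773) (nat_lit 228) (nat_lit 7696162082) (nat_lit 76) (nat_lit 7883041563)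 (nat_lit 16) (nat_lit 5) (nat_lit 19) (nat_lit 5) (nat_lit 17) (nat_lit 4) (nat_lit 502) (nat_lit 330) (nat_lit 308))) (XT.nd (nat_lit 78) (nat_lit 152) (nat_lit 0) (XT.lf (nat_lit 0) (nat_lit 842929497) (nat_lit 76) (nat_lit 4217499052) (nat_lit 152) (nat_lit 11417567305) (nat_lit 15) (nat_lit 5) (nat_lit 16) (nat_lit 5) (nat_lit 17) (nat_lit 4) (nat_lit 503) (nat_lit 330) (nat_lit 307)) (XT.nd (nat_lit 78) (nat_lit 152) (nat_lit 0) (XT.lf (nat_lit 0) (nat_lit 9533938345) (nat_lit 152) (nat_lit 7149078372) (nat_lit 0) (nat_lit 26176229) (nat_lit 15) (nat_lit 5) (nat_lit 17) (nat_lit 4) (nat_lit 15) (nat_lit 4) (nat_lit 504) (nat_lit 330) (nat_lit 306)) (XT.lf (nat_lit 0) (nat_lit 1401336522) (nat_lit 152) (nat_lit 12679090670) (nat_lit 152) (nat_lit 2864926032) (nat_lit 13) (nat_lit 4) (nat_lit 15) (nat_lit 5) (nat_lit 15) (nat_lit 4) (nat_lit 505) (nat_lit 330) (nat_lit 305))))) (XT.nd (nat_lit 234) (nat_lit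 152) (nat_lit 0) (XT.nd (nat_lit 78) (nat_lit 76) (nat_lit 0) (XT.lf (nat_lit 0) (nat_lit 1506364754) (nat_lit 228) (nat_lit 7071702463) (nat_lit 76) (nat_lit 8608082800) (nat_lit 12) (nat_lit 5) (nat_lit 15) (nat_lit 5) (nat_lit 13) (nat_lit 4) (nat_lit 506) (nat_lit 330) (nat_lit 304)) (XT.lf (nat_lit 0) (nat_lit 1476497948) (nat_lit 76) (nat_lit 4407443514) (nat_lit 152) (nat_lit 11548306992) (nat_lit 11) (nat_lit 5) (nat_lit 12) (nat_lit 5) (nat_lit 13) (nat_lit 4) (nat_lit 507) (nat_lit 330) (nat_lit 303))) (XT.nd (nat_lit 56940) (nat_lit 0) (nat_lit 3648) (XT.lf (nat_lit 0) (nat_lit 1049022365) (nat_lit 152) (nat_lit 13828195186) (nat_lit 152) (nat_lit 3062643895) (nat_lit 9) (nat_lit 4) (nat_lit 11) (nat_lit 5) (nat_lit 11) (nat_lit 4) (nat_lit 509) (nat_lit 330) (nat_lit 301)) (XT.nd (nat_lit 78) (nat_lit 228) (nat_lit 0) (XT.lf (nat_lit 0) (nat_lit 2221676034) (nat_lit 304) (nat_lit 1564915386)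 (nat_lit 0) (nat_lit 2221676034) (nat_lit 60) (nat_lit 5) (nat_lit 64) (nat_lit 4) (nat_lit 60) (nat_lit 4) (nat_lit 478) (nat_lit 331) (nat_lit 331)) (XT.lf (nat_lit 0) (nat_lit 5244806222) (nat_lit 228) (nat_lit 3749211056) (nat_lit 228) (nat_lit 3160234504) (nat_lit 57) (nat_lit 4) (nat_lit 60) (nat_lit 5) (nat_lit 60) (nat_lit 4) (nat_lit 479) (nat_lit 331) (nat_lit 330))))))) (XT.nd (nat_lit 780) (nat_lit 1368) (nat_lit 0) (XT.nd (nat_lit 390) (nat_lit 760) (nat_lit 0) (XT.nd (nat_lit 156) (nat_lit 456) (nat_lit 0) (XT.nd (nat_lit 78) (nat_lit 0) (nat_lit 0) (XT.lf (nat_lit 0) (nat_lit 1288097476) (nat_lit 304) (nat_lit 10862610948) (nat_lit 0) (nat_lit 144563611) (nat_lit 53) (nat_lit 5) (nat_lit 57) (nat_lit 4) (nat_lit 53) (nat_lit 4) (nat_lit 480) (nat_lit 331) (nat_lit 329)) (XT.lf (nat_lit 0) (nat_lit 5788233067) (nat_lit 304) (nat_lit 2560682415) (nat_lit 0) (nat_lit 4089693442) (nat_lit 53)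 (nat_lit 5) (nat_lit 57) (nat_lit 4) (nat_lit 53) (nat_lit 4) (nat_lit 481) (nat_lit 331) (nat_lit 328))) (XT.nd (nat_lit 78) (nat_lit 228) (nat_lit 0) (XT.lf (nat_lit 0) (nat_lit 5874822980) (nat_lit 228) (nat_lit 4476604054) (nat_lit 228) (nat_lit 2233941136) (nat_lit 50) (nat_lit 4) (nat_lit 53) (nat_lit 5) (nat_lit 53) (nat_lit 4) (nat_lit 482) (nat_lit 331) (nat_lit 327)) (XT.nd (nat_lit 78) (nat_lit 0) (nat_lit 0) (XT.lf (nat_lit 0) (nat_lit 1676490286) (nat_lit 152) (nat_lit 527770809) (nat_lit 228) (nat_lit 10531258292) (nat_lit 47) (nat_lit 5) (nat_lit 49) (nat_lit 5) (nat_lit 50) (nat_lit 4) (nat_lit 483) (nat_lit 331) (nat_lit 326)) (XT.lf (nat_lit 0) (nat_lit 6704712904) (nat_lit 228) (nat_lit 2713323287) (nat_lit 0) (nat_lit 3470289915) (nat_lit 47) (nat_lit 5) (nat_lit 50) (nat_lit 4) (nat_lit 47) (nat_lit 4) (nat_lit 484) (nat_lit 331) (nat_lit 325))))) (XT.nd (nat_lit 156) (nat_lit 304) (nat_lit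 0) (XT.nd (nat_lit 78) (nat_lit 228) (nat_lit 0) (XT.lf (nat_lit 0) (nat_lit 5763585206) (nat_lit 228) (nat_lit 5509089003) (nat_lit 228) (nat_lit 1771980199) (nat_lit 44) (nat_lit 4) (nat_lit 47) (nat_lit 5) (nat_lit 47) (nat_lit 4) (nat_lit 485) (nat_lit 331) (nat_lit 324)) (XT.lf (nat_lit 0) (nat_lit 1132129283) (nat_lit 152) (nat_lit 1522359488) (nat_lit 228) (nat_lit 10550033536) (nat_lit 41) (nat_lit 5) (nat_lit 43) (nat_lit 5) (nat_lit 44) (nat_lit 4) (nat_lit 486) (nat_lit 331) (nat_lit 323))) (XT.nd (nat_lit 78) (nat_lit 304) (nat_lit 0) (XT.lf (nat_lit 0) (nat_lit 7148440961) (nat_lit 228) (nat_lit 3691122483) (nat_lit 0) (nat_lit 2527750816) (nat_lit 41) (nat_lit 5) (nat_lit 44) (nat_lit 4) (nat_lit 41) (nat_lit 4) (nat_lit 487) (nat_lit 331) (nat_lit 322)) (XT.nd (nat_lit 78) (nat_lit 76) (nat_lit 0) (XT.lf (nat_lit 0) (nat_lit 4804602782) (nat_lit 228) (nat_lit 6907139146) (nat_lit 228) (nat_lit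 1822045010) (nat_lit 38) (nat_lit 4) (nat_lit 41) (nat_lit 5) (nat_lit 41) (nat_lit 4) (nat_lit 488) (nat_lit 331) (nat_lit 321)) (XT.lf (nat_lit 0) (nat_lit 2591032327) (nat_lit 304) (nat_lit 306506865) (nat_lit 76) (nat_lit 10806453149) (nat_lit 37) (nat_lit 5) (nat_lit 41) (nat_lit 5) (nat_lit 38) (nat_lit 4) (nat_lit 489) (nat_lit 331) (nat_lit 320)))))) (XT.nd (nat_lit 390) (nat_lit 760) (nat_lit 0) (XT.nd (nat_lit 156) (nat_lit 228) (nat_lit 0) (XT.nd (nat_lit 78) (nat_lit 228) (nat_lit 0) (XT.lf (nat_lit 0) (nat_lit 7069140422) (nat_lit 228) (nat_lit 5608445543) (nat_lit 0) (nat_lit 1199765142) (nat_lit 35) (nat_lit 5) (nat_lit 38) (nat_lit 4) (nat_lit 35) (nat_lit 4) (nat_lit 490) (nat_lit 331) (nat_lit 319)) (XT.lf (nat_lit 0) (nat_lit 2880014732) (nat_lit 228) (nat_lit 8736497133) (nat_lit 228) (nat_lit 2438084349) (nat_lit 32) (nat_lit 4) (nat_lit 35) (nat_lit 5) (nat_lit 35) (nat_lit 4) (nat_lit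 491) (nat_lit 331) (nat_lit 318))) (XT.nd (nat_lit 78) (nat_lit 152) (nat_lit 0) (XT.lf (nat_lit 0) (nat_lit 1970686463) (nat_lit 304) (nat_lit 2738251130) (nat_lit 76) (nat_lit 9526644534) (nat_lit 31) (nat_lit 5) (nat_lit 35) (nat_lit 5) (nat_lit 32) (nat_lit 4) (nat_lit 492) (nat_lit 331) (nat_lit 317)) (XT.nd (nat_lit 78) (nat_lit 0) (nat_lit 0) (XT.lf (nat_lit 0) (nat_lit 5824574454) (nat_lit 152) (nat_lit 589281830) (nat_lit 228) (nat_lit 8006444200) (nat_lit 29) (nat_lit 5) (nat_lit 31) (nat_lit 5) (nat_lit 32) (nat_lit 4) (nat_lit 493) (nat_lit 331) (nat_lit 316)) (XT.lf (nat_lit 0) (nat_lit 10929079018) (nat_lit 228) (nat_lit 138851474) (nat_lit 0) (nat_lit 3541131114) (nat_lit 29) (nat_lit 5) (nat_lit 32) (nat_lit 4) (nat_lit 29) (nat_lit 4) (nat_lit 494) (nat_lit 331) (nat_lit 315))))) (XT.nd (nat_lit 234) (nat_lit 380) (nat_lit 0) (XT.nd (nat_lit 78) (nat_lit 152) (nat_lit 0) (XT.lf (nat_lit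 0) (nat_lit 724831947) (nat_lit 228) (nat_lit 6312379854) (nat_lit 76) (nat_lit 7764273933) (nat_lit 26) (nat_lit 5) (nat_lit 29) (nat_lit 5) (nat_lit 27) (nat_lit 4) (nat_lit 495) (nat_lit 331) (nat_lit 314)) (XT.nd (nat_lit 78) (nat_lit 0) (nat_lit 0) (XT.lf (nat_lit 0) (nat_lit 2197405702) (nat_lit 152) (nat_lit 2928791880) (nat_lit 228) (nat_lit 9871931161) (nat_lit 24) (nat_lit 5) (nat_lit 26) (nat_lit 5) (nat_lit 27) (nat_lit 4) (nat_lit 496) (nat_lit 331) (nat_lit 313)) (XT.lf (nat_lit 0) (nat_lit 9609099528) (nat_lit 228) (nat_lit 4344388182) (nat_lit 0) (nat_lit 1245357980) (nat_lit 24) (nat_lit 5) (nat_lit 27) (nat_lit 4) (nat_lit 24) (nat_lit 4) (nat_lit 497) (nat_lit 331) (nat_lit 312)))) (XT.nd (nat_lit 78) (nat_lit 228) (nat_lit 0) (XT.lf (nat_lit 0) (nat_lit 4217966642) (nat_lit 152) (nat_lit 9954275331) (nat_lit 152) (nat_lit 1231534392) (nat_lit 22) (nat_lit 4) (nat_lit 24) (nat_lit 5) (nat_lit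 24) (nat_lit 4) (nat_lit 498) (nat_lit 331) (nat_lit 311)) (XT.nd (nat_lit 78) (nat_lit 152) (nat_lit 0) (XT.lf (nat_lit 0) (nat_lit 3144921764) (nat_lit 228) (nat_lit 2721959160) (nat_lit 76) (nat_lit 9746053408) (nat_lit 21) (nat_lit 5) (nat_lit 24) (nat_lit 5) (nat_lit 22) (nat_lit 4) (nat_lit 499) (nat_lit 331) (nat_lit 310)) (XT.lf (nat_lit 0) (nat_lit 5882977694) (nat_lit 152) (nat_lit 1692635090) (nat_lit 228) (nat_lit 8250846347) (nat_lit 19) (nat_lit 5) (nat_lit 21) (nat_lit 5) (nat_lit 22) (nat_lit 4) (nat_lit 500) (nat_lit 331) (nat_lit 309))))))))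
noncomputable def xc6 : XT := (XT.nd (nat_lit 58344) (nat_lit 0) (nat_lit 0) (XT.nd (nat_lit 57564) (nat_lit 0) (nat_lit 2280) (XT.nd (nat_lit 390) (nat_lit 304) (nat_lit 0) (XT.nd (nat_lit 156) (nat_lit 76) (nat_lit 0) (XT.nd (nat_lit 78) (nat_lit 228) (nat_lit 0) (XT.lf (nat_lit 0) (nat_lit 12075122295) (nat_lit 228) (nat_lit 1461134837) (nat_lit 0) (nat_lit 2508403398) (nat_lit 19) (nat_lit 5) (nat_lit 22) (nat_lit 4) (nat_lit 19) (nat_lit 4) (nat_lit 501) (nat_lit 331) (nat_lit 308)) (XT.lf (nat_lit 0) (nat_lit 396255886) (nat_lit 228) (nat_lit 9091438814) (nat_lit 76) (nat_lit 6779408021) (nat_lit 16) (nat_lit 5) (nat_lit 19) (nat_lit 5) (nat_lit 17) (nat_lit 4) (nat_lit 502) (nat_lit 331) (nat_lit 307))) (XT.nd (nat_lit 78) (nat_lit 76) (nat_lit 0) (XT.lf (nat_lit 0) (nat_lit 4752447774) (nat_lit 228) (nat_lit 610712384) (nat_lit 76) (nat_lit 11131193755) (nat_lit 16) (nat_lit 5) (nat_lit 19) (nat_lit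 5) (nat_lit 17) (nat_lit 4) (nat_lit 503) (nat_lit 331) (nat_lit 306)) (XT.nd (nat_lit 78) (nat_lit 0) (nat_lit 0) (XT.lf (nat_lit 0) (nat_lit 8051533573) (nat_lit 76) (nat_lit 1143872880) (nat_lit 152) (nat_lit 7530760238) (nat_lit 15) (nat_lit 5) (nat_lit 16) (nat_lit 5) (nat_lit 17) (nat_lit 4) (nat_lit 504) (nat_lit 331) (nat_lit 305)) (XT.lf (nat_lit 0) (nat_lit 13699394571) (nat_lit 152) (nat_lit 181637498) (nat_lit 0) (nat_lit 3082149487) (nat_lit 15) (nat_lit 5) (nat_lit 17) (nat_lit 4) (nat_lit 15) (nat_lit 4) (nat_lit 505) (nat_lit 331) (nat_lit 304))))) (XT.nd (nat_lit 234) (nat_lit 76) (nat_lit 0) (XT.nd (nat_lit 78) (nat_lit 0) (nat_lit 0) (XT.lf (nat_lit 0) (nat_lit 1085591047) (nat_lit 228) (nat_lit 8718855706) (nat_lit 76) (nat_lit 7400130663) (nat_lit 12) (nat_lit 5) (nat_lit 15) (nat_lit 5) (nat_lit 13) (nat_lit 4) (nat_lit 506) (nat_lit 331) (nat_lit 303)) (XT.lf (nat_lit 0) (nat_lit 5428149010)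 (nat_lit 228) (nat_lit 235618561) (nat_lit 76) (nat_lit 11787612965) (nat_lit 12) (nat_lit 5) (nat_lit 15) (nat_lit 5) (nat_lit 13) (nat_lit 4) (nat_lit 507) (nat_lit 331) (nat_lit 302))) (XT.nd (nat_lit 56784) (nat_lit 0) (nat_lit 3724) (XT.lf (nat_lit 0) (nat_lit 14354677907) (nat_lit 152) (nat_lit 781438218) (nat_lit 0) (nat_lit 2824220713) (nat_lit 11) (nat_lit 5) (nat_lit 13) (nat_lit 4) (nat_lit 11) (nat_lit 4) (nat_lit 509) (nat_lit 331) (nat_lit 300)) (XT.nd (nat_lit 78) (nat_lit 304) (nat_lit 0) (XT.lf (nat_lit 0) (nat_lit 2012130201) (nat_lit 228) (nat_lit 1931210238) (nat_lit 228) (nat_lit 1931210238) (nat_lit 64) (nat_lit 4) (nat_lit 67) (nat_lit 5) (nat_lit 67) (nat_lit 4) (nat_lit 476) (nat_lit 332) (nat_lit 332)) (XT.lf (nat_lit 0) (nat_lit 499988762) (nat_lit 228) (nat_lit 50882508) (nat_lit 304) (nat_lit 11331300860) (nat_lit 60) (nat_lit 5) (nat_lit 63) (nat_lit 5) (nat_lit 64) (nat_lit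 4) (nat_lit 477) (nat_lit 332) (nat_lit 331)))))) (XT.nd (nat_lit 390) (nat_lit 684) (nat_lit 0) (XT.nd (nat_lit 156) (nat_lit 532) (nat_lit 0) (XT.nd (nat_lit 78) (nat_lit 228) (nat_lit 0) (XT.lf (nat_lit 0) (nat_lit 5011025904) (nat_lit 304) (nat_lit 3184886346) (nat_lit 0) (nat_lit 3821293270) (nat_lit 60) (nat_lit 5) (nat_lit 64) (nat_lit 4) (nat_lit 60) (nat_lit 4) (nat_lit 478) (nat_lit 332) (nat_lit 330)) (XT.lf (nat_lit 0) (nat_lit 5134325625) (nat_lit 228) (nat_lit 4394214600) (nat_lit 228) (nat_lit 2627053975) (nat_lit 57) (nat_lit 4) (nat_lit 60) (nat_lit 5) (nat_lit 60) (nat_lit 4) (nat_lit 479) (nat_lit 332) (nat_lit 329))) (XT.nd (nat_lit 78) (nat_lit 228) (nat_lit 0) (XT.lf (nat_lit 0) (nat_lit 1262036376) (nat_lit 228) (nat_lit 517816532) (nat_lit 304) (nat_lit 10517389405) (nat_lit 53) (nat_lit 5) (nat_lit 56) (nat_lit 5) (nat_lit 57) (nat_lit 4) (nat_lit 480) (nat_lit 332) (nat_lit 328))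 (XT.nd (nat_lit 78) (nat_lit 228) (nat_lit 0) (XT.lf (nat_lit 0) (nat_lit 6244404915) (nat_lit 304) (nat_lit 2784128796) (nat_lit 0) (nat_lit 3412765446) (nat_lit 53) (nat_lit 5) (nat_lit 57) (nat_lit 4) (nat_lit 53) (nat_lit 4) (nat_lit 481) (nat_lit 332) (nat_lit 327)) (XT.lf (nat_lit 0) (nat_lit 5594550382) (nat_lit 228) (nat_lit 5179639004) (nat_lit 228) (nat_lit 1814545326) (nat_lit 50) (nat_lit 4) (nat_lit 53) (nat_lit 5) (nat_lit 53) (nat_lit 4) (nat_lit 482) (nat_lit 332) (nat_lit 326))))) (XT.nd (nat_lit 156) (nat_lit 456) (nat_lit 0) (XT.nd (nat_lit 78) (nat_lit 0) (nat_lit 0) (XT.lf (nat_lit 0) (nat_lit 1332387664) (nat_lit 152) (nat_lit 1252006229) (nat_lit 228) (nat_lit 10155120632) (nat_lit 47) (nat_lit 5) (nat_lit 49) (nat_lit 5) (nat_lit 50) (nat_lit 4) (nat_lit 483) (nat_lit 332) (nat_lit 325)) (XT.lf (nat_lit 0) (nat_lit 7048749560) (nat_lit 228) (nat_lit 3110088495) (nat_lit 0) (nat_lit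 2734212764) (nat_lit 47) (nat_lit 5) (nat_lit 50) (nat_lit 4) (nat_lit 47) (nat_lit 4) (nat_lit 484) (nat_lit 332) (nat_lit 324))) (XT.nd (nat_lit 78) (nat_lit 228) (nat_lit 0) (XT.lf (nat_lit 0) (nat_lit 5308528649) (nat_lit 228) (nat_lit 6274449329) (nat_lit 228) (nat_lit 1467083302) (nat_lit 44) (nat_lit 4) (nat_lit 47) (nat_lit 5) (nat_lit 47) (nat_lit 4) (nat_lit 485) (nat_lit 332) (nat_lit 323)) (XT.nd (nat_lit 78) (nat_lit 0) (nat_lit 0) (XT.lf (nat_lit 0) (nat_lit 610449888) (nat_lit 152) (nat_lit 2310828244) (nat_lit 228) (nat_lit 10289300842) (nat_lit 41) (nat_lit 5) (nat_lit 43) (nat_lit 5) (nat_lit 44) (nat_lit 4) (nat_lit 486) (nat_lit 332) (nat_lit 322)) (XT.lf (nat_lit 0) (nat_lit 7379513642) (nat_lit 228) (nat_lit 4266265057) (nat_lit 0) (nat_lit 1728313631) (nat_lit 41) (nat_lit 5) (nat_lit 44) (nat_lit 4) (nat_lit 41) (nat_lit 4) (nat_lit 487) (nat_lit 332) (nat_lit 321))))))) (XT.nd (nat_lit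 780) (nat_lit 988) (nat_lit 0) (XT.nd (nat_lit 390) (nat_lit 532) (nat_lit 0) (XT.nd (nat_lit 156) (nat_lit 456) (nat_lit 0) (XT.nd (nat_lit 78) (nat_lit 76) (nat_lit 0) (XT.lf (nat_lit 0) (nat_lit 4169636657) (nat_lit 228) (nat_lit 7739057862) (nat_lit 228) (nat_lit 1632559821) (nat_lit 38) (nat_lit 4) (nat_lit 41) (nat_lit 5) (nat_lit 41) (nat_lit 4) (nat_lit 488) (nat_lit 332) (nat_lit 320)) (XT.lf (nat_lit 0) (nat_lit 2748087286) (nat_lit 304) (nat_lit 1001732340) (nat_lit 76) (nat_lit 9962221074) (nat_lit 37) (nat_lit 5) (nat_lit 41) (nat_lit 5) (nat_lit 38) (nat_lit 4) (nat_lit 489) (nat_lit 332) (nat_lit 319))) (XT.nd (nat_lit 78) (nat_lit 304) (nat_lit 0) (XT.lf (nat_lit 0) (nat_lit 7186227360) (nat_lit 228) (nat_lit 6367169179) (nat_lit 0) (nat_lit 332808818) (nat_lit 35) (nat_lit 5) (nat_lit 38) (nat_lit 4) (nat_lit 35) (nat_lit 4) (nat_lit 490) (nat_lit 332) (nat_lit 318)) (XT.nd (nat_lit 78)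 (nat_lit 76) (nat_lit 0) (XT.lf (nat_lit 0) (nat_lit 2059865074) (nat_lit 228) (nat_lit 9639163373) (nat_lit 228) (nat_lit 2365119828) (nat_lit 32) (nat_lit 4) (nat_lit 35) (nat_lit 5) (nat_lit 35) (nat_lit 4) (nat_lit 491) (nat_lit 332) (nat_lit 317)) (XT.lf (nat_lit 0) (nat_lit 2013497024) (nat_lit 304) (nat_lit 3619157010) (nat_lit 76) (nat_lit 8613060774) (nat_lit 31) (nat_lit 5) (nat_lit 35) (nat_lit 5) (nat_lit 32) (nat_lit 4) (nat_lit 492) (nat_lit 332) (nat_lit 316))))) (XT.nd (nat_lit 156) (nat_lit 380) (nat_lit 0) (XT.nd (nat_lit 78) (nat_lit 0) (nat_lit 0) (XT.lf (nat_lit 0) (nat_lit 4881565125) (nat_lit 152) (nat_lit 1540354550) (nat_lit 228) (nat_lit 8009214465) (nat_lit 29) (nat_lit 5) (nat_lit 31) (nat_lit 5) (nat_lit 32) (nat_lit 4) (nat_lit 493) (nat_lit 332) (nat_lit 315)) (XT.lf (nat_lit 0) (nat_lit 10902446855) (nat_lit 228) (nat_lit 1136365060) (nat_lit 0) (nat_lit 2581783173) (nat_lit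 29) (nat_lit 5) (nat_lit 32) (nat_lit 4) (nat_lit 29) (nat_lit 4) (nat_lit 494) (nat_lit 332) (nat_lit 314))) (XT.nd (nat_lit 78) (nat_lit 152) (nat_lit 0) (XT.lf (nat_lit 0) (nat_lit 652084940) (nat_lit 228) (nat_lit 7384425127) (nat_lit 76) (nat_lit 6777221431) (nat_lit 26) (nat_lit 5) (nat_lit 29) (nat_lit 5) (nat_lit 27) (nat_lit 4) (nat_lit 495) (nat_lit 332) (nat_lit 313)) (XT.nd (nat_lit 78) (nat_lit 0) (nat_lit 0) (XT.lf (nat_lit 0) (nat_lit 1061540035) (nat_lit 152) (nat_lit 3956618236) (nat_lit 228) (nat_lit 9992927655) (nat_lit 24) (nat_lit 5) (nat_lit 26) (nat_lit 5) (nat_lit 27) (nat_lit 4) (nat_lit 496) (nat_lit 332) (nat_lit 312)) (XT.lf (nat_lit 0) (nat_lit 9466565426) (nat_lit 228) (nat_lit 5535562528) (nat_lit 0) (nat_lit 210370279) (nat_lit 24) (nat_lit 5) (nat_lit 27) (nat_lit 4) (nat_lit 24) (nat_lit 4) (nat_lit 497) (nat_lit 332) (nat_lit 311)))))) (XT.nd (nat_lit 390) (nat_lit 380)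 (nat_lit 0) (XT.nd (nat_lit 156) (nat_lit 380) (nat_lit 0) (XT.nd (nat_lit 78) (nat_lit 76) (nat_lit 0) (XT.lf (nat_lit 0) (nat_lit 2962259920) (nat_lit 152) (nat_lit 11032019128) (nat_lit 152) (nat_lit 1423863794) (nat_lit 22) (nat_lit 4) (nat_lit 24) (nat_lit 5) (nat_lit 24) (nat_lit 4) (nat_lit 498) (nat_lit 332) (nat_lit 310)) (XT.lf (nat_lit 0) (nat_lit 2927879340) (nat_lit 228) (nat_lit 4038898072) (nat_lit 76) (nat_lit 8661098231) (nat_lit 21) (nat_lit 5) (nat_lit 24) (nat_lit 5) (nat_lit 22) (nat_lit 4) (nat_lit 499) (nat_lit 332) (nat_lit 309))) (XT.nd (nat_lit 78) (nat_lit 228) (nat_lit 0) (XT.lf (nat_lit 0) (nat_lit 4500739457) (nat_lit 152) (nat_lit 2822155067) (nat_lit 228) (nat_lit 8519224483) (nat_lit 19) (nat_lit 5) (nat_lit 21) (nat_lit 5) (nat_lit 22) (nat_lit 4) (nat_lit 500) (nat_lit 332) (nat_lit 308)) (XT.nd (nat_lit 78) (nat_lit 228) (nat_lit 0) (XT.lf (nat_lit 0) (nat_lit 11788456010)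 (nat_lit 228) (nat_lit 2898962325) (nat_lit 0) (nat_lit 1373585982) (nat_lit 19) (nat_lit 5) (nat_lit 22) (nat_lit 4) (nat_lit 19) (nat_lit 4) (nat_lit 501) (nat_lit 332) (nat_lit 307)) (XT.lf (nat_lit 0) (nat_lit 61120779) (nat_lit 228) (nat_lit 10610187237) (nat_lit 76) (nat_lit 5612904577) (nat_lit 16) (nat_lit 5) (nat_lit 19) (nat_lit 5) (nat_lit 17) (nat_lit 4) (nat_lit 502) (nat_lit 332) (nat_lit 306))))) (XT.nd (nat_lit 234) (nat_lit 304) (nat_lit 0) (XT.nd (nat_lit 78) (nat_lit 76) (nat_lit 0) (XT.lf (nat_lit 0) (nat_lit 4391256754) (nat_lit 228) (nat_lit 2175843140) (nat_lit 76) (nat_lit 9944889673) (nat_lit 16) (nat_lit 5) (nat_lit 19) (nat_lit 5) (nat_lit 17) (nat_lit 4) (nat_lit 503) (nat_lit 332) (nat_lit 305)) (XT.nd (nat_lit 78) (nat_lit 0) (nat_lit 0) (XT.lf (nat_lit 0) (nat_lit 6419525868) (nat_lit 76) (nat_lit 2378548476) (nat_lit 152) (nat_lit 7946455395) (nat_lit 15) (nat_lit 5) (nat_lit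 16) (nat_lit 5) (nat_lit 17) (nat_lit 4) (nat_lit 504) (nat_lit 332) (nat_lit 304)) (XT.lf (nat_lit 0) (nat_lit 13268579911) (nat_lit 152) (nat_lit 1869548070) (nat_lit 0) (nat_lit 1844090756) (nat_lit 15) (nat_lit 5) (nat_lit 17) (nat_lit 4) (nat_lit 15) (nat_lit 4) (nat_lit 505) (nat_lit 332) (nat_lit 303)))) (XT.nd (nat_lit 78) (nat_lit 76) (nat_lit 0) (XT.lf (nat_lit 0) (nat_lit 605028536) (nat_lit 228) (nat_lit 10491061451) (nat_lit 76) (nat_lit 6128319546) (nat_lit 12) (nat_lit 5) (nat_lit 15) (nat_lit 5) (nat_lit 13) (nat_lit 4) (nat_lit 506) (nat_lit 332) (nat_lit 302)) (XT.nd (nat_lit 156) (nat_lit 76) (nat_lit 0) (XT.lf (nat_lit 0) (nat_lit 4922652830) (nat_lit 228) (nat_lit 2052528946) (nat_lit 76) (nat_lit 10496533775) (nat_lit 12) (nat_lit 5) (nat_lit 15) (nat_lit 5) (nat_lit 13) (nat_lit 4) (nat_lit 507) (nat_lit 332) (nat_lit 301)) (XT.lf (nat_lit 0) (nat_lit 13779400356) (nat_lit 152) (nat_lit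 2723159815) (nat_lit 0) (nat_lit 1479515512) (nat_lit 11) (nat_lit 5) (nat_lit 13) (nat_lit 4) (nat_lit 11) (nat_lit 4) (nat_lit 509) (nat_lit 332) (nat_lit 299))))))))
noncomputable def xc7 : XT := (XT.nd (nat_lit 1560) (nat_lit 1368) (nat_lit 0) (XT.nd (nat_lit 780) (nat_lit 1368) (nat_lit 0) (XT.nd (nat_lit 390) (nat_lit 988) (nat_lit 0) (XT.nd (nat_lit 156) (nat_lit 532) (nat_lit 0) (XT.nd (nat_lit 78) (nat_lit 304) (nat_lit 0) (XT.lf (nat_lit 0) (nat_lit 5343658219) (nat_lit 304) (nat_lit 201154943) (nat_lit 304) (nat_lit 201154943) (nat_lit 71) (nat_lit 4) (nat_lit 75) (nat_lit 5) (nat_lit 75) (nat_lit 4) (nat_lit 474) (nat_lit 333) (nat_lit 333)) (XT.lf (nat_lit 0) (nat_lit 4012780884) (nat_lit 304) (nat_lit 4218741286) (nat_lit 0) (nat_lit 3387754256) (nat_lit 67) (nat_lit 5) (nat_lit 71) (nat_lit 4) (nat_lit 67) (nat_lit 4) (nat_lit 475) (nat_lit 333) (nat_lit 332))) (XT.nd (nat_lit 78) (nat_lit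 304) (nat_lit 0) (XT.lf (nat_lit 0) (nat_lit 3969822260) (nat_lit 228) (nat_lit 4508873248) (nat_lit 228) (nat_lit 3271075415) (nat_lit 64) (nat_lit 4) (nat_lit 67) (nat_lit 5) (nat_lit 67) (nat_lit 4) (nat_lit 476) (nat_lit 333) (nat_lit 331)) (XT.nd (nat_lit 78) (nat_lit 0) (nat_lit 0) (XT.lf (nat_lit 0) (nat_lit 385730357) (nat_lit 228) (nat_lit 715400470) (nat_lit 304) (nat_lit 10782309646) (nat_lit 60) (nat_lit 5) (nat_lit 63) (nat_lit 5) (nat_lit 64) (nat_lit 4) (nat_lit 477) (nat_lit 333) (nat_lit 330)) (XT.lf (nat_lit 0) (nat_lit 5524537394) (nat_lit 304) (nat_lit 3350074654) (nat_lit 0) (nat_lit 3144605565) (nat_lit 60) (nat_lit 5) (nat_lit 64) (nat_lit 4) (nat_lit 60) (nat_lit 4) (nat_lit 478) (nat_lit 333) (nat_lit 329))))) (XT.nd (nat_lit 156) (nat_lit 456) (nat_lit 0) (XT.nd (nat_lit 78) (nat_lit 304) (nat_lit 0) (XT.lf (nat_lit 0) (nat_lit 4913321105) (nat_lit 228) (nat_lit 5095498080) (nat_lit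 228) (nat_lit 2149460376) (nat_lit 57) (nat_lit 4) (nat_lit 60) (nat_lit 5) (nat_lit 60) (nat_lit 4) (nat_lit 479) (nat_lit 333) (nat_lit 328)) (XT.lf (nat_lit 0) (nat_lit 978527828) (nat_lit 228) (nat_lit 1239081721) (nat_lit 304) (nat_lit 10082935855) (nat_lit 53) (nat_lit 5) (nat_lit 56) (nat_lit 5) (nat_lit 57) (nat_lit 4) (nat_lit 480) (nat_lit 333) (nat_lit 327))) (XT.nd (nat_lit 78) (nat_lit 456) (nat_lit 0) (XT.lf (nat_lit 0) (nat_lit 6645888844) (nat_lit 304) (nat_lit 3119407895) (nat_lit 0) (nat_lit 2680039084) (nat_lit 53) (nat_lit 5) (nat_lit 57) (nat_lit 4) (nat_lit 53) (nat_lit 4) (nat_lit 481) (nat_lit 333) (nat_lit 326)) (XT.nd (nat_lit 78) (nat_lit 228) (nat_lit 0) (XT.lf (nat_lit 0) (nat_lit 5202014882) (nat_lit 228) (nat_lit 5940139459) (nat_lit 228) (nat_lit 1451295377) (nat_lit 50) (nat_lit 4) (nat_lit 53) (nat_lit 5) (nat_lit 53) (nat_lit 4) (nat_lit 482) (nat_lit 333) (nat_lit 325))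 (XT.lf (nat_lit 0) (nat_lit 874590767) (nat_lit 152) (nat_lit 2034406451) (nat_lit 228) (nat_lit 9835870447) (nat_lit 47) (nat_lit 5) (nat_lit 49) (nat_lit 5) (nat_lit 50) (nat_lit 4) (nat_lit 483) (nat_lit 333) (nat_lit 324)))))) (XT.nd (nat_lit 390) (nat_lit 684) (nat_lit 0) (XT.nd (nat_lit 156) (nat_lit 456) (nat_lit 0) (XT.nd (nat_lit 78) (nat_lit 228) (nat_lit 0) (XT.lf (nat_lit 0) (nat_lit 7337494666) (nat_lit 228) (nat_lit 3620481871) (nat_lit 0) (nat_lit 1941152088) (nat_lit 47) (nat_lit 5) (nat_lit 50) (nat_lit 4) (nat_lit 47) (nat_lit 4) (nat_lit 484) (nat_lit 333) (nat_lit 323)) (XT.lf (nat_lit 0) (nat_lit 4739373445) (nat_lit 228) (nat_lit 7098479446) (nat_lit 228) (nat_lit 1218970955) (nat_lit 44) (nat_lit 4) (nat_lit 47) (nat_lit 5) (nat_lit 47) (nat_lit 4) (nat_lit 485) (nat_lit 333) (nat_lit 322))) (XT.nd (nat_lit 78) (nat_lit 380) (nat_lit 0) (XT.lf (nat_lit 0) (nat_lit 3132053712) (nat_lit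 304) (nat_lit 26452062) (nat_lit 76) (nat_lit 10059492270) (nat_lit 43) (nat_lit 5) (nat_lit 47) (nat_lit 5) (nat_lit 44) (nat_lit 4) (nat_lit 486) (nat_lit 333) (nat_lit 321)) (XT.nd (nat_lit 78) (nat_lit 228) (nat_lit 0) (XT.lf (nat_lit 0) (nat_lit 7554612889) (nat_lit 228) (nat_lit 4956932113) (nat_lit 0) (nat_lit 870686856) (nat_lit 41) (nat_lit 5) (nat_lit 44) (nat_lit 4) (nat_lit 41) (nat_lit 4) (nat_lit 487) (nat_lit 333) (nat_lit 320)) (XT.lf (nat_lit 0) (nat_lit 3418633930) (nat_lit 228) (nat_lit 8630874544) (nat_lit 228) (nat_lit 1500577893) (nat_lit 38) (nat_lit 4) (nat_lit 41) (nat_lit 5) (nat_lit 41) (nat_lit 4) (nat_lit 488) (nat_lit 333) (nat_lit 319))))) (XT.nd (nat_lit 156) (nat_lit 456) (nat_lit 0) (XT.nd (nat_lit 78) (nat_lit 152) (nat_lit 0) (XT.lf (nat_lit 0) (nat_lit 2848980308) (nat_lit 304) (nat_lit 1812974681) (nat_lit 76) (nat_lit 9059494292) (nat_lit 37) (nat_lit 5) (nat_lit 41)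 (nat_lit 5) (nat_lit 38) (nat_lit 4) (nat_lit 489) (nat_lit 333) (nat_lit 318)) (XT.lf (nat_lit 0) (nat_lit 6649028075) (nat_lit 152) (nat_lit 601457311) (nat_lit 228) (nat_lit 6645867652) (nat_lit 35) (nat_lit 5) (nat_lit 37) (nat_lit 5) (nat_lit 38) (nat_lit 4) (nat_lit 490) (nat_lit 333) (nat_lit 317))) (XT.nd (nat_lit 78) (nat_lit 228) (nat_lit 0) (XT.lf (nat_lit 0) (nat_lit 1121633178) (nat_lit 228) (nat_lit 10602984651) (nat_lit 228) (nat_lit 2350457778) (nat_lit 32) (nat_lit 4) (nat_lit 35) (nat_lit 5) (nat_lit 35) (nat_lit 4) (nat_lit 491) (nat_lit 333) (nat_lit 316)) (XT.nd (nat_lit 78) (nat_lit 152) (nat_lit 0) (XT.lf (nat_lit 0) (nat_lit 1999342251) (nat_lit 304) (nat_lit 4618147146) (nat_lit 76) (nat_lit 7639729363) (nat_lit 31) (nat_lit 5) (nat_lit 35) (nat_lit 5) (nat_lit 32) (nat_lit 4) (nat_lit 492) (nat_lit 333) (nat_lit 315)) (XT.lf (nat_lit 0) (nat_lit 3819890433) (nat_lit 152) (nat_lit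 2552918112) (nat_lit 228) (nat_lit 8070534591) (nat_lit 29) (nat_lit 5) (nat_lit 31) (nat_lit 5) (nat_lit 32) (nat_lit 4) (nat_lit 493) (nat_lit 333) (nat_lit 314))))))) (XT.nd (nat_lit 780) (nat_lit 380) (nat_lit 0) (XT.nd (nat_lit 390) (nat_lit 456) (nat_lit 0) (XT.nd (nat_lit 156) (nat_lit 304) (nat_lit 0) (XT.nd (nat_lit 78) (nat_lit 228) (nat_lit 0) (XT.lf (nat_lit 0) (nat_lit 10818800158) (nat_lit 228) (nat_lit 2252542743) (nat_lit 0) (nat_lit 1562157692) (nat_lit 29) (nat_lit 5) (nat_lit 32) (nat_lit 4) (nat_lit 29) (nat_lit 4) (nat_lit 494) (nat_lit 333) (nat_lit 313)) (XT.lf (nat_lit 0) (nat_lit 521489621) (nat_lit 228) (nat_lit 8576736395) (nat_lit 76) (nat_lit 5729135287) (nat_lit 26) (nat_lit 5) (nat_lit 29) (nat_lit 5) (nat_lit 27) (nat_lit 4) (nat_lit 495) (nat_lit 333) (nat_lit 312))) (XT.nd (nat_lit 78) (nat_lit 304) (nat_lit 0) (XT.lf (nat_lit 0) (nat_lit 4853300621) (nat_lit 228) (nat_lit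 192657553) (nat_lit 76) (nat_lit 9979448268) (nat_lit 26) (nat_lit 5) (nat_lit 29) (nat_lit 5) (nat_lit 27) (nat_lit 4) (nat_lit 496) (nat_lit 333) (nat_lit 311)) (XT.nd (nat_lit 78) (nat_lit 152) (nat_lit 0) (XT.lf (nat_lit 0) (nat_lit 8373941017) (nat_lit 152) (nat_lit 897972456) (nat_lit 228) (nat_lit 5955506521) (nat_lit 24) (nat_lit 5) (nat_lit 26) (nat_lit 5) (nat_lit 27) (nat_lit 4) (nat_lit 497) (nat_lit 333) (nat_lit 310)) (XT.lf (nat_lit 0) (nat_lit 1584989421) (nat_lit 152) (nat_lit 12173124169) (nat_lit 152) (nat_lit 1675786536) (nat_lit 22) (nat_lit 4) (nat_lit 24) (nat_lit 5) (nat_lit 24) (nat_lit 4) (nat_lit 498) (nat_lit 333) (nat_lit 309))))) (XT.nd (nat_lit 156) (nat_lit 228) (nat_lit 0) (XT.nd (nat_lit 78) (nat_lit 152) (nat_lit 0) (XT.lf (nat_lit 0) (nat_lit 2652559182) (nat_lit 228) (nat_lit 5477461227) (nat_lit 76) (nat_lit 7514184306) (nat_lit 21) (nat_lit 5) (nat_lit 24) (nat_lit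 5) (nat_lit 22) (nat_lit 4) (nat_lit 499) (nat_lit 333) (nat_lit 308)) (XT.lf (nat_lit 0) (nat_lit 2996197869) (nat_lit 152) (nat_lit 4015430145) (nat_lit 228) (nat_lit 8847543942) (nat_lit 19) (nat_lit 5) (nat_lit 21) (nat_lit 5) (nat_lit 22) (nat_lit 4) (nat_lit 500) (nat_lit 333) (nat_lit 307))) (XT.nd (nat_lit 78) (nat_lit 228) (nat_lit 0) (XT.lf (nat_lit 0) (nat_lit 11443349385) (nat_lit 228) (nat_lit 4459145571) (nat_lit 0) (nat_lit 176243964) (nat_lit 19) (nat_lit 5) (nat_lit 22) (nat_lit 4) (nat_lit 19) (nat_lit 4) (nat_lit 501) (nat_lit 333) (nat_lit 306)) (XT.nd (nat_lit 78) (nat_lit 76) (nat_lit 0) (XT.lf (nat_lit 0) (nat_lit 4047486849) (nat_lit 152) (nat_lit 11917416013) (nat_lit 152) (nat_lit 337780019) (nat_lit 17) (nat_lit 4) (nat_lit 19) (nat_lit 5) (nat_lit 19) (nat_lit 4) (nat_lit 502) (nat_lit 333) (nat_lit 305)) (XT.lf (nat_lit 0) (nat_lit 3971240989) (nat_lit 228) (nat_lit 3864131717)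 (nat_lit 76) (nat_lit 8695646483) (nat_lit 16) (nat_lit 5) (nat_lit 19) (nat_lit 5) (nat_lit 17) (nat_lit 4) (nat_lit 503) (nat_lit 333) (nat_lit 304)))))) (XT.nd (nat_lit 56862) (nat_lit 0) (nat_lit 3724) (XT.nd (nat_lit 156) (nat_lit 304) (nat_lit 0) (XT.nd (nat_lit 78) (nat_lit 0) (nat_lit 0) (XT.lf (nat_lit 0) (nat_lit 4663627114) (nat_lit 76) (nat_lit 3677986876) (nat_lit 152) (nat_lit 8422678747) (nat_lit 15) (nat_lit 5) (nat_lit 16) (nat_lit 5) (nat_lit 17) (nat_lit 4) (nat_lit 504) (nat_lit 333) (nat_lit 303)) (XT.lf (nat_lit 0) (nat_lit 12778715861) (nat_lit 152) (nat_lit 3681435900) (nat_lit 0) (nat_lit 542502443) (nat_lit 15) (nat_lit 5) (nat_lit 17) (nat_lit 4) (nat_lit 15) (nat_lit 4) (nat_lit 505) (nat_lit 333) (nat_lit 302))) (XT.nd (nat_lit 78) (nat_lit 76) (nat_lit 0) (XT.lf (nat_lit 0) (nat_lit 64488764) (nat_lit 228) (nat_lit 12389014683) (nat_lit 76) (nat_lit 4792150700) (nat_lit 12)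 (nat_lit 5) (nat_lit 15) (nat_lit 5) (nat_lit 13) (nat_lit 4) (nat_lit 506) (nat_lit 333) (nat_lit 301)) (XT.nd (nat_lit 156) (nat_lit 76) (nat_lit 0) (XT.lf (nat_lit 0) (nat_lit 4357668285) (nat_lit 228) (nat_lit 3994310255) (nat_lit 76) (nat_lit 9141474661) (nat_lit 12) (nat_lit 5) (nat_lit 15) (nat_lit 5) (nat_lit 13) (nat_lit 4) (nat_lit 507) (nat_lit 333) (nat_lit 300)) (XT.lf (nat_lit 0) (nat_lit 13144348351) (nat_lit 152) (nat_lit 4790661999) (nat_lit 0) (nat_lit 70212372) (nat_lit 11) (nat_lit 5) (nat_lit 13) (nat_lit 4) (nat_lit 11) (nat_lit 4) (nat_lit 509) (nat_lit 333) (nat_lit 298))))) (XT.nd (nat_lit 234) (nat_lit 760) (nat_lit 0) (XT.nd (nat_lit 78) (nat_lit 380) (nat_lit 0) (XT.lf (nat_lit 0) (nat_lit 1414099550) (nat_lit 304) (nat_lit 2793538266) (nat_lit 0) (nat_lit 1414099550) (nat_lit 75) (nat_lit 5) (nat_lit 79) (nat_lit 4) (nat_lit 75) (nat_lit 4) (nat_lit 472) (nat_lit 334) (nat_lit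 334)) (XT.nd (nat_lit 78) (nat_lit 76) (nat_lit 0) (XT.lf (nat_lit 0) (nat_lit 2458876920) (nat_lit 304) (nat_lit 4778956680) (nat_lit 304) (nat_lit 4128678976) (nat_lit 71) (nat_lit 4) (nat_lit 75) (nat_lit 5) (nat_lit 75) (nat_lit 4) (nat_lit 473) (nat_lit 334) (nat_lit 333)) (XT.lf (nat_lit 0) (nat_lit 211893176) (nat_lit 380) (nat_lit 859780648) (nat_lit 76) (nat_lit 10420896153) (nat_lit 70) (nat_lit 5) (nat_lit 75) (nat_lit 5) (nat_lit 71) (nat_lit 4) (nat_lit 474) (nat_lit 334) (nat_lit 332)))) (XT.nd (nat_lit 78) (nat_lit 532) (nat_lit 0) (XT.lf (nat_lit 0) (nat_lit 4584337772) (nat_lit 304) (nat_lit 4327264122) (nat_lit 0) (nat_lit 2709012779) (nat_lit 67) (nat_lit 5) (nat_lit 71) (nat_lit 4) (nat_lit 67) (nat_lit 4) (nat_lit 475) (nat_lit 334) (nat_lit 331)) (XT.nd (nat_lit 78) (nat_lit 304) (nat_lit 0) (XT.lf (nat_lit 0) (nat_lit 3806486485) (nat_lit 228) (nat_lit 5210687239) (nat_lit 228) (nat_lit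 2734606164) (nat_lit 64) (nat_lit 4) (nat_lit 67) (nat_lit 5) (nat_lit 67) (nat_lit 4) (nat_lit 476) (nat_lit 334) (nat_lit 330)) (XT.lf (nat_lit 0) (nat_lit 161200129) (nat_lit 228) (nat_lit 1435957175) (nat_lit 304) (nat_lit 10288899399) (nat_lit 60) (nat_lit 5) (nat_lit 63) (nat_lit 5) (nat_lit 64) (nat_lit 4) (nat_lit 477) (nat_lit 334) (nat_lit 329))))))))
noncomputable def xc8 : XT := (XT.nd (nat_lit 1560) (nat_lit 988) (nat_lit 0) (XT.nd (nat_lit 780) (nat_lit 1292) (nat_lit 0) (XT.nd (nat_lit 390) (nat_lit 684) (nat_lit 0) (XT.nd (nat_lit 156) (nat_lit 532) (nat_lit 0) (XT.nd (nat_lit 78) (nat_lit 228) (nat_lit 0) (XT.lf (nat_lit 0) (nat_lit 5984087917) (nat_lit 304) (nat_lit 3625460478) (nat_lit 0) (nat_lit 2413023585) (nat_lit 60) (nat_lit 5) (nat_lit 64) (nat_lit 4) (nat_lit 60) (nat_lit 4) (nat_lit 478) (nat_lit 334) (nat_lit 328)) (XT.lf (nat_lit 0) (nat_lit 4581705994) (nat_lit 228) (nat_lit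 5853336508) (nat_lit 228) (nat_lit 1727266418) (nat_lit 57) (nat_lit 4) (nat_lit 60) (nat_lit 5) (nat_lit 60) (nat_lit 4) (nat_lit 479) (nat_lit 334) (nat_lit 327))) (XT.nd (nat_lit 78) (nat_lit 228) (nat_lit 0) (XT.lf (nat_lit 0) (nat_lit 582994363) (nat_lit 228) (nat_lit 2017593630) (nat_lit 304) (nat_lit 9704613635) (nat_lit 53) (nat_lit 5) (nat_lit 56) (nat_lit 5) (nat_lit 57) (nat_lit 4) (nat_lit 480) (nat_lit 334) (nat_lit 326)) (XT.nd (nat_lit 78) (nat_lit 228) (nat_lit 0) (XT.lf (nat_lit 0) (nat_lit 6992842300) (nat_lit 304) (nat_lit 3566651194) (nat_lit 0) (nat_lit 1891227013) (nat_lit 53) (nat_lit 5) (nat_lit 57) (nat_lit 4) (nat_lit 53) (nat_lit 4) (nat_lit 481) (nat_lit 334) (nat_lit 325)) (XT.lf (nat_lit 0) (nat_lit 4697062545) (nat_lit 228) (nat_lit 6758403657) (nat_lit 228) (nat_lit 1144048838) (nat_lit 50) (nat_lit 4) (nat_lit 53) (nat_lit 5) (nat_lit 53) (nat_lit 4) (nat_lit 482) (nat_lit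 334) (nat_lit 324))))) (XT.nd (nat_lit 156) (nat_lit 456) (nat_lit 0) (XT.nd (nat_lit 78) (nat_lit 0) (nat_lit 0) (XT.lf (nat_lit 0) (nat_lit 302920067) (nat_lit 152) (nat_lit 2875278299) (nat_lit 228) (nat_lit 9573382541) (nat_lit 47) (nat_lit 5) (nat_lit 49) (nat_lit 5) (nat_lit 50) (nat_lit 4) (nat_lit 483) (nat_lit 334) (nat_lit 323)) (XT.lf (nat_lit 0) (nat_lit 7571061456) (nat_lit 228) (nat_lit 4244703571) (nat_lit 0) (nat_lit 1090796883) (nat_lit 47) (nat_lit 5) (nat_lit 50) (nat_lit 4) (nat_lit 47) (nat_lit 4) (nat_lit 484) (nat_lit 334) (nat_lit 322))) (XT.nd (nat_lit 78) (nat_lit 228) (nat_lit 0) (XT.lf (nat_lit 0) (nat_lit 4055896395) (nat_lit 228) (nat_lit 7981502503) (nat_lit 228) (nat_lit 1027545858) (nat_lit 44) (nat_lit 4) (nat_lit 47) (nat_lit 5) (nat_lit 47) (nat_lit 4) (nat_lit 485) (nat_lit 334) (nat_lit 321)) (XT.nd (nat_lit 78) (nat_lit 152) (nat_lit 0) (XT.lf (nat_lit 0) (nat_lit 3291439525)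 (nat_lit 304) (nat_lit 769652795) (nat_lit 76) (nat_lit 9165599282) (nat_lit 43) (nat_lit 5) (nat_lit 47) (nat_lit 5) (nat_lit 44) (nat_lit 4) (nat_lit 486) (nat_lit 334) (nat_lit 320)) (XT.lf (nat_lit 0) (nat_lit 7628036435) (nat_lit 152) (nat_lit 46070050) (nat_lit 228) (nat_lit 5717623569) (nat_lit 41) (nat_lit 5) (nat_lit 43) (nat_lit 5) (nat_lit 44) (nat_lit 4) (nat_lit 487) (nat_lit 334) (nat_lit 319)))))) (XT.nd (nat_lit 390) (nat_lit 532) (nat_lit 0) (XT.nd (nat_lit 156) (nat_lit 456) (nat_lit 0) (XT.nd (nat_lit 78) (nat_lit 76) (nat_lit 0) (XT.lf (nat_lit 0) (nat_lit 2551300092) (nat_lit 228) (nat_lit 9582938925) (nat_lit 228) (nat_lit 1426047470) (nat_lit 38) (nat_lit 4) (nat_lit 41) (nat_lit 5) (nat_lit 41) (nat_lit 4) (nat_lit 488) (nat_lit 334) (nat_lit 318)) (XT.lf (nat_lit 0) (nat_lit 2893750959) (nat_lit 304) (nat_lit 2740552020) (nat_lit 76) (nat_lit 8097918790) (nat_lit 37) (nat_lit 5)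 (nat_lit 41) (nat_lit 5) (nat_lit 38) (nat_lit 4) (nat_lit 489) (nat_lit 334) (nat_lit 317))) (XT.nd (nat_lit 78) (nat_lit 304) (nat_lit 0) (XT.lf (nat_lit 0) (nat_lit 5659890289) (nat_lit 152) (nat_lit 1600725676) (nat_lit 228) (nat_lit 6647208642) (nat_lit 35) (nat_lit 5) (nat_lit 37) (nat_lit 5) (nat_lit 38) (nat_lit 4) (nat_lit 490) (nat_lit 334) (nat_lit 316)) (XT.nd (nat_lit 78) (nat_lit 76) (nat_lit 0) (XT.lf (nat_lit 0) (nat_lit 64951112) (nat_lit 228) (nat_lit 11628338936) (nat_lit 228) (nat_lit 2394092449) (nat_lit 32) (nat_lit 4) (nat_lit 35) (nat_lit 5) (nat_lit 35) (nat_lit 4) (nat_lit 491) (nat_lit 334) (nat_lit 315)) (XT.lf (nat_lit 0) (nat_lit 1928216595) (nat_lit 304) (nat_lit 5735613299) (nat_lit 76) (nat_lit 6606268603) (nat_lit 31) (nat_lit 5) (nat_lit 35) (nat_lit 5) (nat_lit 32) (nat_lit 4) (nat_lit 492) (nat_lit 334) (nat_lit 314))))) (XT.nd (nat_lit 156) (nat_lit 380) (nat_lit 0)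 (XT.nd (nat_lit 78) (nat_lit 0) (nat_lit 0) (XT.lf (nat_lit 0) (nat_lit 2639134034) (nat_lit 152) (nat_lit 3627369600) (nat_lit 228) (nat_lit 8190428623) (nat_lit 29) (nat_lit 5) (nat_lit 31) (nat_lit 5) (nat_lit 32) (nat_lit 4) (nat_lit 493) (nat_lit 334) (nat_lit 313)) (XT.lf (nat_lit 0) (nat_lit 10678106123) (nat_lit 228) (nat_lit 3487822241) (nat_lit 0) (nat_lit 481854818) (nat_lit 29) (nat_lit 5) (nat_lit 32) (nat_lit 4) (nat_lit 29) (nat_lit 4) (nat_lit 494) (nat_lit 334) (nat_lit 312))) (XT.nd (nat_lit 78) (nat_lit 152) (nat_lit 0) (XT.lf (nat_lit 0) (nat_lit 332994777) (nat_lit 228) (nat_lit 9889781232) (nat_lit 76) (nat_lit 4619604486) (nat_lit 26) (nat_lit 5) (nat_lit 29) (nat_lit 5) (nat_lit 27) (nat_lit 4) (nat_lit 495) (nat_lit 334) (nat_lit 311)) (XT.nd (nat_lit 78) (nat_lit 152) (nat_lit 0) (XT.lf (nat_lit 0) (nat_lit 4637972338) (nat_lit 228) (nat_lit 1552725950) (nat_lit 76) (nat_lit 8850269373)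 (nat_lit 26) (nat_lit 5) (nat_lit 29) (nat_lit 5) (nat_lit 27) (nat_lit 4) (nat_lit 496) (nat_lit 334) (nat_lit 310)) (XT.lf (nat_lit 0) (nat_lit 6949083832) (nat_lit 152) (nat_lit 2071942946) (nat_lit 228) (nat_lit 6222670856) (nat_lit 24) (nat_lit 5) (nat_lit 26) (nat_lit 5) (nat_lit 27) (nat_lit 4) (nat_lit 497) (nat_lit 334) (nat_lit 309))))))) (XT.nd (nat_lit 858) (nat_lit 76) (nat_lit 0) (XT.nd (nat_lit 390) (nat_lit 380) (nat_lit 0) (XT.nd (nat_lit 156) (nat_lit 304) (nat_lit 0) (XT.nd (nat_lit 78) (nat_lit 76) (nat_lit 0) (XT.lf (nat_lit 0) (nat_lit 85615038) (nat_lit 152) (nat_lit 13378037945) (nat_lit 152) (nat_lit 1987401410) (nat_lit 22) (nat_lit 4) (nat_lit 24) (nat_lit 5) (nat_lit 24) (nat_lit 4) (nat_lit 498) (nat_lit 334) (nat_lit 308)) (XT.lf (nat_lit 0) (nat_lit 2318853323) (nat_lit 228) (nat_lit 7038212767) (nat_lit 76) (nat_lit 6304861864) (nat_lit 21) (nat_lit 5) (nat_lit 24) (nat_lit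 5) (nat_lit 22) (nat_lit 4) (nat_lit 499) (nat_lit 334) (nat_lit 307))) (XT.nd (nat_lit 78) (nat_lit 152) (nat_lit 0) (XT.lf (nat_lit 0) (nat_lit 1368762913) (nat_lit 152) (nat_lit 5272928275) (nat_lit 228) (nat_lit 9235933478) (nat_lit 19) (nat_lit 5) (nat_lit 21) (nat_lit 5) (nat_lit 22) (nat_lit 4) (nat_lit 500) (nat_lit 334) (nat_lit 306)) (XT.nd (nat_lit 78) (nat_lit 152) (nat_lit 0) (XT.lf (nat_lit 0) (nat_lit 9948300055) (nat_lit 152) (nat_lit 1098499216) (nat_lit 228) (nat_lit 5050929383) (nat_lit 19) (nat_lit 5) (nat_lit 21) (nat_lit 5) (nat_lit 22) (nat_lit 4) (nat_lit 501) (nat_lit 334) (nat_lit 305)) (XT.lf (nat_lit 0) (nat_lit 2296838995) (nat_lit 152) (nat_lit 13227935825) (nat_lit 152) (nat_lit 797774016) (nat_lit 17) (nat_lit 4) (nat_lit 19) (nat_lit 5) (nat_lit 19) (nat_lit 4) (nat_lit 502) (nat_lit 334) (nat_lit 304))))) (XT.nd (nat_lit 156) (nat_lit 228) (nat_lit 0) (XT.nd (nat_lit 78)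 (nat_lit 76) (nat_lit 0) (XT.lf (nat_lit 0) (nat_lit 3492235767) (nat_lit 228) (nat_lit 5676240190) (nat_lit 76) (nat_lit 7382974286) (nat_lit 16) (nat_lit 5) (nat_lit 19) (nat_lit 5) (nat_lit 17) (nat_lit 4) (nat_lit 503) (nat_lit 334) (nat_lit 303)) (XT.lf (nat_lit 0) (nat_lit 2783148721) (nat_lit 76) (nat_lit 5042697665) (nat_lit 152) (nat_lit 8959617047) (nat_lit 15) (nat_lit 5) (nat_lit 16) (nat_lit 5) (nat_lit 17) (nat_lit 4) (nat_lit 504) (nat_lit 334) (nat_lit 302))) (XT.nd (nat_lit 78) (nat_lit 228) (nat_lit 0) (XT.lf (nat_lit 0) (nat_lit 11400960828) (nat_lit 76) (nat_lit 834064789) (nat_lit 152) (nat_lit 4789362044) (nat_lit 15) (nat_lit 5) (nat_lit 16) (nat_lit 5) (nat_lit 17) (nat_lit 4) (nat_lit 505) (nat_lit 334) (nat_lit 301)) (XT.nd (nat_lit 78) (nat_lit 76) (nat_lit 0) (XT.lf (nat_lit 0) (nat_lit 2851261437) (nat_lit 152) (nat_lit 13873620996) (nat_lit 152) (nat_lit 543366595) (nat_lit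 13) (nat_lit 4) (nat_lit 15) (nat_lit 5) (nat_lit 15) (nat_lit 4) (nat_lit 506) (nat_lit 334) (nat_lit 300)) (XT.lf (nat_lit 0) (nat_lit 3732973812) (nat_lit 228) (nat_lit 6061723971) (nat_lit 76) (nat_lit 7721904228) (nat_lit 12) (nat_lit 5) (nat_lit 15) (nat_lit 5) (nat_lit 13) (nat_lit 4) (nat_lit 507) (nat_lit 334) (nat_lit 299)))))) (XT.nd (nat_lit 56628) (nat_lit 0) (nat_lit 3496) (XT.nd (nat_lit 56394) (nat_lit 0) (nat_lit 4560) (XT.nd (nat_lit 56316) (nat_lit 0) (nat_lit 5168) (XT.lf (nat_lit 0) (nat_lit 11035608281) (nat_lit 76) (nat_lit 1422903001) (nat_lit 152) (nat_lit 5571090986) (nat_lit 11) (nat_lit 5) (nat_lit 12) (nat_lit 5) (nat_lit 13) (nat_lit 4) (nat_lit 509) (nat_lit 334) (nat_lit 297)) (XT.lf (nat_lit 0) (nat_lit 335475814) (nat_lit 304) (nat_lit 2583398566) (nat_lit 304) (nat_lit 2583398566) (nat_lit 79) (nat_lit 4) (nat_lit 83) (nat_lit 5) (nat_lit 83) (nat_lit 4) (nat_lit 470) (nat_lit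 335) (nat_lit 335))) (XT.nd (nat_lit 78) (nat_lit 608) (nat_lit 0) (XT.lf (nat_lit 0) (nat_lit 8713528609) (nat_lit 304) (nat_lit 1543123599) (nat_lit 304) (nat_lit 866574676) (nat_lit 79) (nat_lit 4) (nat_lit 83) (nat_lit 5) (nat_lit 83) (nat_lit 4) (nat_lit 471) (nat_lit 335) (nat_lit 334)) (XT.nd (nat_lit 78) (nat_lit 304) (nat_lit 0) (XT.lf (nat_lit 0) (nat_lit 3458585061) (nat_lit 304) (nat_lit 5640533417) (nat_lit 0) (nat_lit 2145024099) (nat_lit 75) (nat_lit 5) (nat_lit 79) (nat_lit 4) (nat_lit 75) (nat_lit 4) (nat_lit 472) (nat_lit 335) (nat_lit 333)) (XT.lf (nat_lit 0) (nat_lit 2351604428) (nat_lit 304) (nat_lit 5483666397) (nat_lit 304) (nat_lit 3532578275) (nat_lit 71) (nat_lit 4) (nat_lit 75) (nat_lit 5) (nat_lit 75) (nat_lit 4) (nat_lit 473) (nat_lit 335) (nat_lit 332))))) (XT.nd (nat_lit 234) (nat_lit 532) (nat_lit 0) (XT.nd (nat_lit 78) (nat_lit 456) (nat_lit 0) (XT.lf (nat_lit 0) (nat_lit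 767996990) (nat_lit 380) (nat_lit 1024760829) (nat_lit 76) (nat_lit 9701724181) (nat_lit 70) (nat_lit 5) (nat_lit 75) (nat_lit 5) (nat_lit 71) (nat_lit 4) (nat_lit 474) (nat_lit 335) (nat_lit 331)) (XT.nd (nat_lit 78) (nat_lit 228) (nat_lit 0) (XT.lf (nat_lit 0) (nat_lit 5102649060) (nat_lit 304) (nat_lit 4544352352) (nat_lit 0) (nat_lit 1976290281) (nat_lit 67) (nat_lit 5) (nat_lit 71) (nat_lit 4) (nat_lit 67) (nat_lit 4) (nat_lit 475) (nat_lit 335) (nat_lit 330)) (XT.lf (nat_lit 0) (nat_lit 3534189024) (nat_lit 228) (nat_lit 5968137673) (nat_lit 228) (nat_lit 2252802342) (nat_lit 64) (nat_lit 4) (nat_lit 67) (nat_lit 5) (nat_lit 67) (nat_lit 4) (nat_lit 476) (nat_lit 335) (nat_lit 329)))) (XT.nd (nat_lit 78) (nat_lit 456) (nat_lit 0) (XT.lf (nat_lit 0) (nat_lit 2040272933) (nat_lit 304) (nat_lit 171411996) (nat_lit 76) (nat_lit 9678314363) (nat_lit 63) (nat_lit 5) (nat_lit 67) (nat_lit 5) (nat_lit 64)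 (nat_lit 4) (nat_lit 477) (nat_lit 335) (nat_lit 328)) (XT.nd (nat_lit 78) (nat_lit 228) (nat_lit 0) (XT.lf (nat_lit 0) (nat_lit 6389857687) (nat_lit 304) (nat_lit 4011151811) (nat_lit 0) (nat_lit 1626260436) (nat_lit 60) (nat_lit 5) (nat_lit 64) (nat_lit 4) (nat_lit 60) (nat_lit 4) (nat_lit 478) (nat_lit 335) (nat_lit 327)) (XT.lf (nat_lit 0) (nat_lit 4139350247) (nat_lit 228) (nat_lit 6668027077) (nat_lit 228) (nat_lit 1360306533) (nat_lit 57) (nat_lit 4) (nat_lit 60) (nat_lit 5) (nat_lit 60) (nat_lit 4) (nat_lit 479) (nat_lit 335) (nat_lit 326))))))))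
noncomputable def xc9 : XT := (XT.nd (nat_lit 1560) (nat_lit 760) (nat_lit 0) (XT.nd (nat_lit 780) (nat_lit 1216) (nat_lit 0) (XT.nd (nat_lit 390) (nat_lit 760) (nat_lit 0) (XT.nd (nat_lit 156) (nat_lit 456) (nat_lit 0) (XT.nd (nat_lit 78) (nat_lit 0) (nat_lit 0) (XT.lf (nat_lit 0) (nat_lit 75280870) (nat_lit 228) (nat_lit 2853657557) (nat_lit 304) (nat_lit 9382274382) (nat_lit 53) (nat_lit 5) (nat_lit 56) (nat_lit 5) (nat_lit 57) (nat_lit 4) (nat_lit 480) (nat_lit 335) (nat_lit 325)) (XT.lf (nat_lit 0) (nat_lit 7285401341) (nat_lit 304) (nat_lit 4126034084) (nat_lit 0) (nat_lit 1046019895) (nat_lit 53) (nat_lit 5) (nat_lit 57) (nat_lit 4) (nat_lit 53) (nat_lit 4) (nat_lit 481) (nat_lit 335) (nat_lit 324))) (XT.nd (nat_lit 78) (nat_lit 228) (nat_lit 0) (XT.lf (nat_lit 0) (nat_lit 4079495350) (nat_lit 228) (nat_lit 7634752483) (nat_lit 228) (nat_lit 892685221) (nat_lit 50) (nat_lit 4) (nat_lit 53) (nat_lit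 5) (nat_lit 53) (nat_lit 4) (nat_lit 482) (nat_lit 335) (nat_lit 323)) (XT.nd (nat_lit 78) (nat_lit 152) (nat_lit 0) (XT.lf (nat_lit 0) (nat_lit 3394588614) (nat_lit 304) (nat_lit 377827492) (nat_lit 76) (nat_lit 8987191063) (nat_lit 49) (nat_lit 5) (nat_lit 53) (nat_lit 5) (nat_lit 50) (nat_lit 4) (nat_lit 483) (nat_lit 335) (nat_lit 322)) (XT.lf (nat_lit 0) (nat_lit 7749541524) (nat_lit 228) (nat_lit 4982998385) (nat_lit 0) (nat_lit 182813676) (nat_lit 47) (nat_lit 5) (nat_lit 50) (nat_lit 4) (nat_lit 47) (nat_lit 4) (nat_lit 484) (nat_lit 335) (nat_lit 321))))) (XT.nd (nat_lit 156) (nat_lit 456) (nat_lit 0) (XT.nd (nat_lit 78) (nat_lit 76) (nat_lit 0) (XT.lf (nat_lit 0) (nat_lit 3257829468) (nat_lit 228) (nat_lit 8923864783) (nat_lit 228) (nat_lit 892732943) (nat_lit 44) (nat_lit 4) (nat_lit 47) (nat_lit 5) (nat_lit 47) (nat_lit 4) (nat_lit 485) (nat_lit 335) (nat_lit 320)) (XT.lf (nat_lit 0) (nat_lit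 3395534629) (nat_lit 304) (nat_lit 1627449919) (nat_lit 76) (nat_lit 8213757776) (nat_lit 43) (nat_lit 5) (nat_lit 47) (nat_lit 5) (nat_lit 44) (nat_lit 4) (nat_lit 486) (nat_lit 335) (nat_lit 319))) (XT.nd (nat_lit 78) (nat_lit 304) (nat_lit 0) (XT.lf (nat_lit 0) (nat_lit 6709791993) (nat_lit 152) (nat_lit 1034065671) (nat_lit 228) (nat_lit 5658616653) (nat_lit 41) (nat_lit 5) (nat_lit 43) (nat_lit 5) (nat_lit 44) (nat_lit 4) (nat_lit 487) (nat_lit 335) (nat_lit 318)) (XT.nd (nat_lit 78) (nat_lit 76) (nat_lit 0) (XT.lf (nat_lit 0) (nat_lit 1567295010) (nat_lit 228) (nat_lit 10595624364) (nat_lit 228) (nat_lit 1408939322) (nat_lit 38) (nat_lit 4) (nat_lit 41) (nat_lit 5) (nat_lit 41) (nat_lit 4) (nat_lit 488) (nat_lit 335) (nat_lit 317)) (XT.lf (nat_lit 0) (nat_lit 2882416796) (nat_lit 304) (nat_lit 3784828116) (nat_lit 76) (nat_lit 7077117482) (nat_lit 37) (nat_lit 5) (nat_lit 41) (nat_lit 5) (nat_lit 38)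 (nat_lit 4) (nat_lit 489) (nat_lit 335) (nat_lit 316)))))) (XT.nd (nat_lit 390) (nat_lit 608) (nat_lit 0) (XT.nd (nat_lit 156) (nat_lit 456) (nat_lit 0) (XT.nd (nat_lit 78) (nat_lit 0) (nat_lit 0) (XT.lf (nat_lit 0) (nat_lit 4553468243) (nat_lit 152) (nat_lit 2660965292) (nat_lit 228) (nat_lit 6706234816) (nat_lit 35) (nat_lit 5) (nat_lit 37) (nat_lit 5) (nat_lit 38) (nat_lit 4) (nat_lit 490) (nat_lit 335) (nat_lit 315)) (XT.lf (nat_lit 0) (nat_lit 11612243539) (nat_lit 228) (nat_lit 1096029850) (nat_lit 0) (nat_lit 1392656166) (nat_lit 35) (nat_lit 5) (nat_lit 38) (nat_lit 4) (nat_lit 35) (nat_lit 4) (nat_lit 491) (nat_lit 335) (nat_lit 314))) (XT.nd (nat_lit 78) (nat_lit 152) (nat_lit 0) (XT.lf (nat_lit 0) (nat_lit 1800092162) (nat_lit 304) (nat_lit 6971993690) (nat_lit 76) (nat_lit 5512273214) (nat_lit 31) (nat_lit 5) (nat_lit 35) (nat_lit 5) (nat_lit 32) (nat_lit 4) (nat_lit 492) (nat_lit 335) (nat_lit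 313)) (XT.nd (nat_lit 78) (nat_lit 0) (nat_lit 0) (XT.lf (nat_lit 0) (nat_lit 1338832886) (nat_lit 152) (nat_lit 4764130365) (nat_lit 228) (nat_lit 8368943579) (nat_lit 29) (nat_lit 5) (nat_lit 31) (nat_lit 5) (nat_lit 32) (nat_lit 4) (nat_lit 493) (nat_lit 335) (nat_lit 312)) (XT.lf (nat_lit 0) (nat_lit 9816334557) (nat_lit 152) (nat_lit 668314158) (nat_lit 228) (nat_lit 4178712956) (nat_lit 29) (nat_lit 5) (nat_lit 31) (nat_lit 5) (nat_lit 32) (nat_lit 4) (nat_lit 494) (nat_lit 335) (nat_lit 311))))) (XT.nd (nat_lit 156) (nat_lit 380) (nat_lit 0) (XT.nd (nat_lit 78) (nat_lit 0) (nat_lit 0) (XT.lf (nat_lit 0) (nat_lit 86526488) (nat_lit 228) (nat_lit 11324074557) (nat_lit 76) (nat_lit 3448193919) (nat_lit 26) (nat_lit 5) (nat_lit 29) (nat_lit 5) (nat_lit 27) (nat_lit 4) (nat_lit 495) (nat_lit 335) (nat_lit 310)) (XT.lf (nat_lit 0) (nat_lit 4365196755) (nat_lit 228) (nat_lit 3033120805) (nat_lit 76) (nat_lit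 7659595969) (nat_lit 26) (nat_lit 5) (nat_lit 29) (nat_lit 5) (nat_lit 27) (nat_lit 4) (nat_lit 496) (nat_lit 335) (nat_lit 309))) (XT.nd (nat_lit 78) (nat_lit 228) (nat_lit 0) (XT.lf (nat_lit 0) (nat_lit 5403217078) (nat_lit 152) (nat_lit 3309205859) (nat_lit 228) (nat_lit 6548942277) (nat_lit 24) (nat_lit 5) (nat_lit 26) (nat_lit 5) (nat_lit 27) (nat_lit 4) (nat_lit 497) (nat_lit 335) (nat_lit 308)) (XT.nd (nat_lit 78) (nat_lit 228) (nat_lit 0) (XT.lf (nat_lit 0) (nat_lit 13120757414) (nat_lit 228) (nat_lit 1516300384) (nat_lit 0) (nat_lit 832355060) (nat_lit 24) (nat_lit 5) (nat_lit 27) (nat_lit 4) (nat_lit 24) (nat_lit 4) (nat_lit 498) (nat_lit 335) (nat_lit 307)) (XT.lf (nat_lit 0) (nat_lit 1926630896) (nat_lit 228) (nat_lit 8721764751) (nat_lit 76) (nat_lit 5032656661) (nat_lit 21) (nat_lit 5) (nat_lit 24) (nat_lit 5) (nat_lit 22) (nat_lit 4) (nat_lit 499) (nat_lit 335) (nat_lit 306))))))) (XT.nd (nat_lit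 56940) (nat_lit 0) (nat_lit 3496) (XT.nd (nat_lit 390) (nat_lit 304) (nat_lit 0) (XT.nd (nat_lit 156) (nat_lit 304) (nat_lit 0) (XT.nd (nat_lit 78) (nat_lit 152) (nat_lit 0) (XT.lf (nat_lit 0) (nat_lit 6215420493) (nat_lit 228) (nat_lit 377190950) (nat_lit 76) (nat_lit 9304823300) (nat_lit 21) (nat_lit 5) (nat_lit 24) (nat_lit 5) (nat_lit 22) (nat_lit 4) (nat_lit 500) (nat_lit 335) (nat_lit 305)) (XT.lf (nat_lit 0) (nat_lit 8153175650) (nat_lit 152) (nat_lit 2439916711) (nat_lit 228) (nat_lit 5524999758) (nat_lit 19) (nat_lit 5) (nat_lit 21) (nat_lit 5) (nat_lit 22) (nat_lit 4) (nat_lit 501) (nat_lit 335) (nat_lit 304))) (XT.nd (nat_lit 78) (nat_lit 152) (nat_lit 0) (XT.lf (nat_lit 0) (nat_lit 421805419) (nat_lit 152) (nat_lit 14603791536) (nat_lit 152) (nat_lit 1318229338) (nat_lit 17) (nat_lit 4) (nat_lit 19) (nat_lit 5) (nat_lit 19) (nat_lit 4) (nat_lit 502) (nat_lit 335) (nat_lit 303)) (XT.nd (nat_lit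 78) (nat_lit 76) (nat_lit 0) (XT.lf (nat_lit 0) (nat_lit 2954053241) (nat_lit 228) (nat_lit 7612879189) (nat_lit 76) (nat_lit 6006358308) (nat_lit 16) (nat_lit 5) (nat_lit 19) (nat_lit 5) (nat_lit 17) (nat_lit 4) (nat_lit 503) (nat_lit 335) (nat_lit 302)) (XT.lf (nat_lit 0) (nat_lit 777353248) (nat_lit 76) (nat_lit 6473216022) (nat_lit 152) (nat_lit 9557480859) (nat_lit 15) (nat_lit 5) (nat_lit 16) (nat_lit 5) (nat_lit 17) (nat_lit 4) (nat_lit 504) (nat_lit 335) (nat_lit 301))))) (XT.nd (nat_lit 156) (nat_lit 152) (nat_lit 0) (XT.nd (nat_lit 78) (nat_lit 152) (nat_lit 0) (XT.lf (nat_lit 0) (nat_lit 9352597158) (nat_lit 76) (nat_lit 2283275319) (nat_lit 152) (nat_lit 5411583625) (nat_lit 15) (nat_lit 5) (nat_lit 16) (nat_lit 5) (nat_lit 17) (nat_lit 4) (nat_lit 505) (nat_lit 335) (nat_lit 300)) (XT.lf (nat_lit 0) (nat_lit 719189208) (nat_lit 152) (nat_lit 15359761173) (nat_lit 152) (nat_lit 1213306808) (nat_lit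 13) (nat_lit 4) (nat_lit 15) (nat_lit 5) (nat_lit 15) (nat_lit 4) (nat_lit 506) (nat_lit 335) (nat_lit 299))) (XT.nd (nat_lit 156) (nat_lit 76) (nat_lit 0) (XT.lf (nat_lit 0) (nat_lit 3048324433) (nat_lit 228) (nat_lit 8255580845) (nat_lit 76) (nat_lit 6237265780) (nat_lit 12) (nat_lit 5) (nat_lit 15) (nat_lit 5) (nat_lit 13) (nat_lit 4) (nat_lit 507) (nat_lit 335) (nat_lit 298)) (XT.nd (nat_lit 56160) (nat_lit 0) (nat_lit 5776) (XT.lf (nat_lit 0) (nat_lit 8729718705) (nat_lit 76) (nat_lit 2983553785) (nat_lit 152) (nat_lit 6342118341) (nat_lit 11) (nat_lit 5) (nat_lit 12) (nat_lit 5) (nat_lit 13) (nat_lit 4) (nat_lit 509) (nat_lit 335) (nat_lit 296)) (XT.lf (nat_lit 0) (nat_lit 3286395197) (nat_lit 304) (nat_lit 1050384128) (nat_lit 304) (nat_lit 1050384128) (nat_lit 87) (nat_lit 4) (nat_lit 91) (nat_lit 5) (nat_lit 91) (nat_lit 4) (nat_lit 468) (nat_lit 336) (nat_lit 336)))))) (XT.nd (nat_lit 390) (nat_lit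 1064) (nat_lit 0) (XT.nd (nat_lit 156) (nat_lit 608) (nat_lit 0) (XT.nd (nat_lit 78) (nat_lit 304) (nat_lit 0) (XT.lf (nat_lit 0) (nat_lit 2178043967) (nat_lit 304) (nat_lit 7222554871) (nat_lit 0) (nat_lit 1487964066) (nat_lit 83) (nat_lit 5) (nat_lit 87) (nat_lit 4) (nat_lit 83) (nat_lit 4) (nat_lit 469) (nat_lit 336) (nat_lit 335)) (XT.lf (nat_lit 0) (nat_lit 618128221) (nat_lit 304) (nat_lit 5876856834) (nat_lit 304) (nat_lit 4510228009) (nat_lit 79) (nat_lit 4) (nat_lit 83) (nat_lit 5) (nat_lit 83) (nat_lit 4) (nat_lit 470) (nat_lit 336) (nat_lit 334))) (XT.nd (nat_lit 78) (nat_lit 608) (nat_lit 0) (XT.lf (nat_lit 0) (nat_lit 8608917547) (nat_lit 304) (nat_lit 2272771340) (nat_lit 304) (nat_lit 242859257) (nat_lit 79) (nat_lit 4) (nat_lit 83) (nat_lit 5) (nat_lit 83) (nat_lit 4) (nat_lit 471) (nat_lit 336) (nat_lit 333)) (XT.nd (nat_lit 78) (nat_lit 304) (nat_lit 0) (XT.lf (nat_lit 0) (nat_lit 4036429193)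 (nat_lit 304) (nat_lit 5800925033) (nat_lit 0) (nat_lit 1408792147) (nat_lit 75) (nat_lit 5) (nat_lit 79) (nat_lit 4) (nat_lit 75) (nat_lit 4) (nat_lit 472) (nat_lit 336) (nat_lit 332)) (XT.lf (nat_lit 0) (nat_lit 2137017377) (nat_lit 304) (nat_lit 6243084484) (nat_lit 304) (nat_lit 2990420811) (nat_lit 71) (nat_lit 4) (nat_lit 75) (nat_lit 5) (nat_lit 75) (nat_lit 4) (nat_lit 473) (nat_lit 336) (nat_lit 331))))) (XT.nd (nat_lit 234) (nat_lit 532) (nat_lit 0) (XT.nd (nat_lit 78) (nat_lit 456) (nat_lit 0) (XT.lf (nat_lit 0) (nat_lit 1271496002) (nat_lit 380) (nat_lit 1297012952) (nat_lit 76) (nat_lit 8929216320) (nat_lit 70) (nat_lit 5) (nat_lit 75) (nat_lit 5) (nat_lit 71) (nat_lit 4) (nat_lit 474) (nat_lit 336) (nat_lit 330)) (XT.nd (nat_lit 78) (nat_lit 228) (nat_lit 0) (XT.lf (nat_lit 0) (nat_lit 5567918007) (nat_lit 304) (nat_lit 4870091108) (nat_lit 0) (nat_lit 1189299419) (nat_lit 67) (nat_lit 5) (nat_lit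 71) (nat_lit 4) (nat_lit 67) (nat_lit 4) (nat_lit 475) (nat_lit 336) (nat_lit 329)) (XT.lf (nat_lit 0) (nat_lit 3152823094) (nat_lit 228) (nat_lit 6781521588) (nat_lit 228) (nat_lit 1825475008) (nat_lit 64) (nat_lit 4) (nat_lit 67) (nat_lit 5) (nat_lit 67) (nat_lit 4) (nat_lit 476) (nat_lit 336) (nat_lit 328)))) (XT.nd (nat_lit 78) (nat_lit 456) (nat_lit 0) (XT.lf (nat_lit 0) (nat_lit 2431287331) (nat_lit 304) (nat_lit 610952045) (nat_lit 76) (nat_lit 8853017694) (nat_lit 63) (nat_lit 5) (nat_lit 67) (nat_lit 5) (nat_lit 64) (nat_lit 4) (nat_lit 477) (nat_lit 336) (nat_lit 327)) (XT.nd (nat_lit 78) (nat_lit 228) (nat_lit 0) (XT.lf (nat_lit 0) (nat_lit 6742005831) (nat_lit 304) (nat_lit 4507299906) (nat_lit 0) (nat_lit 784007583) (nat_lit 60) (nat_lit 5) (nat_lit 64) (nat_lit 4) (nat_lit 60) (nat_lit 4) (nat_lit 478) (nat_lit 336) (nat_lit 326)) (XT.lf (nat_lit 0) (nat_lit 3586080390) (nat_lit 228) (nat_lit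 7539889273) (nat_lit 228) (nat_lit 1048436816) (nat_lit 57) (nat_lit 4) (nat_lit 60) (nat_lit 5) (nat_lit 60) (nat_lit 4) (nat_lit 479) (nat_lit 336) (nat_lit 325))))))))
noncomputable def xc10 : XT := (XT.nd (nat_lit 1560) (nat_lit 760) (nat_lit 0) (XT.nd (nat_lit 780) (nat_lit 1216) (nat_lit 0) (XT.nd (nat_lit 390) (nat_lit 760) (nat_lit 0) (XT.nd (nat_lit 156) (nat_lit 456) (nat_lit 0) (XT.nd (nat_lit 78) (nat_lit 228) (nat_lit 0) (XT.lf (nat_lit 0) (nat_lit 3206326895) (nat_lit 304) (nat_lit 537666451) (nat_lit 76) (nat_lit 8574517212) (nat_lit 56) (nat_lit 5) (nat_lit 60) (nat_lit 5) (nat_lit 57) (nat_lit 4) (nat_lit 480) (nat_lit 336) (nat_lit 324)) (XT.lf (nat_lit 0) (nat_lit 7523680699) (nat_lit 304) (nat_lit 4797775929) (nat_lit 0) (nat_lit 144086276) (nat_lit 53) (nat_lit 5) (nat_lit 57) (nat_lit 4) (nat_lit 53) (nat_lit 4) (nat_lit 481) (nat_lit 336) (nat_lit 323))) (XT.nd (nat_lit 78) (nat_lit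 228) (nat_lit 0) (XT.lf (nat_lit 0) (nat_lit 3349071113) (nat_lit 228) (nat_lit 8569529604) (nat_lit 228) (nat_lit 697105951) (nat_lit 50) (nat_lit 4) (nat_lit 53) (nat_lit 5) (nat_lit 53) (nat_lit 4) (nat_lit 482) (nat_lit 336) (nat_lit 322)) (XT.nd (nat_lit 78) (nat_lit 152) (nat_lit 0) (XT.lf (nat_lit 0) (nat_lit 3558475441) (nat_lit 304) (nat_lit 1167469174) (nat_lit 76) (nat_lit 8043000530) (nat_lit 49) (nat_lit 5) (nat_lit 53) (nat_lit 5) (nat_lit 50) (nat_lit 4) (nat_lit 483) (nat_lit 336) (nat_lit 321)) (XT.lf (nat_lit 0) (nat_lit 7084595885) (nat_lit 152) (nat_lit 793561304) (nat_lit 228) (nat_lit 5047246865) (nat_lit 47) (nat_lit 5) (nat_lit 49) (nat_lit 5) (nat_lit 50) (nat_lit 4) (nat_lit 484) (nat_lit 336) (nat_lit 320))))) (XT.nd (nat_lit 156) (nat_lit 456) (nat_lit 0) (XT.nd (nat_lit 78) (nat_lit 76) (nat_lit 0) (XT.lf (nat_lit 0) (nat_lit 2344859699) (nat_lit 228) (nat_lit 9925935841) (nat_lit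 228) (nat_lit 814479342) (nat_lit 44) (nat_lit 4) (nat_lit 47) (nat_lit 5) (nat_lit 47) (nat_lit 4) (nat_lit 485) (nat_lit 336) (nat_lit 319)) (XT.lf (nat_lit 0) (nat_lit 3444379846) (nat_lit 304) (nat_lit 2600179827) (nat_lit 76) (nat_lit 7203594479) (nat_lit 43) (nat_lit 5) (nat_lit 47) (nat_lit 5) (nat_lit 44) (nat_lit 4) (nat_lit 486) (nat_lit 336) (nat_lit 318))) (XT.nd (nat_lit 78) (nat_lit 304) (nat_lit 0) (XT.lf (nat_lit 0) (nat_lit 5676049090) (nat_lit 152) (nat_lit 2082116484) (nat_lit 228) (nat_lit 5656417848) (nat_lit 41) (nat_lit 5) (nat_lit 43) (nat_lit 5) (nat_lit 44) (nat_lit 4) (nat_lit 487) (nat_lit 336) (nat_lit 317)) (XT.nd (nat_lit 78) (nat_lit 76) (nat_lit 0) (XT.lf (nat_lit 0) (nat_lit 466232802) (nat_lit 228) (nat_lit 11669327991) (nat_lit 228) (nat_lit 1449246742) (nat_lit 38) (nat_lit 4) (nat_lit 41) (nat_lit 5) (nat_lit 41) (nat_lit 4) (nat_lit 488) (nat_lit 336) (nat_lit 316))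 (XT.lf (nat_lit 0) (nat_lit 2814973374) (nat_lit 304) (nat_lit 4946212486) (nat_lit 76) (nat_lit 5996690053) (nat_lit 37) (nat_lit 5) (nat_lit 41) (nat_lit 5) (nat_lit 38) (nat_lit 4) (nat_lit 489) (nat_lit 336) (nat_lit 315)))))) (XT.nd (nat_lit 390) (nat_lit 608) (nat_lit 0) (XT.nd (nat_lit 156) (nat_lit 456) (nat_lit 0) (XT.nd (nat_lit 78) (nat_lit 0) (nat_lit 0) (XT.lf (nat_lit 0) (nat_lit 3329328047) (nat_lit 152) (nat_lit 3782591938) (nat_lit 228) (nat_lit 6822969320) (nat_lit 35) (nat_lit 5) (nat_lit 37) (nat_lit 5) (nat_lit 38) (nat_lit 4) (nat_lit 490) (nat_lit 336) (nat_lit 314)) (XT.lf (nat_lit 0) (nat_lit 11475429416) (nat_lit 228) (nat_lit 2373919546) (nat_lit 0) (nat_lit 266493475) (nat_lit 35) (nat_lit 5) (nat_lit 38) (nat_lit 4) (nat_lit 35) (nat_lit 4) (nat_lit 491) (nat_lit 336) (nat_lit 313))) (XT.nd (nat_lit 78) (nat_lit 152) (nat_lit 0) (XT.lf (nat_lit 0) (nat_lit 1614918707) (nat_lit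 304) (nat_lit 8327773176) (nat_lit 76) (nat_lit 4357314180) (nat_lit 31) (nat_lit 5) (nat_lit 35) (nat_lit 5) (nat_lit 32) (nat_lit 4) (nat_lit 492) (nat_lit 336) (nat_lit 312)) (XT.nd (nat_lit 78) (nat_lit 152) (nat_lit 0) (XT.lf (nat_lit 0) (nat_lit 5882652567) (nat_lit 304) (nat_lit 80453743) (nat_lit 76) (nat_lit 8525155836) (nat_lit 31) (nat_lit 5) (nat_lit 35) (nat_lit 5) (nat_lit 32) (nat_lit 4) (nat_lit 493) (nat_lit 336) (nat_lit 311)) (XT.lf (nat_lit 0) (nat_lit 8350332919) (nat_lit 152) (nat_lit 1887253332) (nat_lit 228) (nat_lit 4442671236) (nat_lit 29) (nat_lit 5) (nat_lit 31) (nat_lit 5) (nat_lit 32) (nat_lit 4) (nat_lit 494) (nat_lit 336) (nat_lit 310))))) (XT.nd (nat_lit 156) (nat_lit 380) (nat_lit 0) (XT.nd (nat_lit 78) (nat_lit 76) (nat_lit 0) (XT.lf (nat_lit 0) (nat_lit 1994969335) (nat_lit 152) (nat_lit 12660703965) (nat_lit 152) (nat_lit 220909162) (nat_lit 27) (nat_lit 4) (nat_lit 29)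 (nat_lit 5) (nat_lit 29) (nat_lit 4) (nat_lit 495) (nat_lit 336) (nat_lit 309)) (XT.lf (nat_lit 0) (nat_lit 4034866903) (nat_lit 228) (nat_lit 4634422664) (nat_lit 76) (nat_lit 6406961124) (nat_lit 26) (nat_lit 5) (nat_lit 29) (nat_lit 5) (nat_lit 27) (nat_lit 4) (nat_lit 496) (nat_lit 336) (nat_lit 308))) (XT.nd (nat_lit 78) (nat_lit 228) (nat_lit 0) (XT.lf (nat_lit 0) (nat_lit 3735734535) (nat_lit 152) (nat_lit 4610246399) (nat_lit 228) (nat_lit 6934448736) (nat_lit 24) (nat_lit 5) (nat_lit 26) (nat_lit 5) (nat_lit 27) (nat_lit 4) (nat_lit 497) (nat_lit 336) (nat_lit 307)) (XT.nd (nat_lit 78) (nat_lit 228) (nat_lit 0) (XT.lf (nat_lit 0) (nat_lit 12247195643) (nat_lit 152) (nat_lit 476567990) (nat_lit 228) (nat_lit 2765329665) (nat_lit 24) (nat_lit 5) (nat_lit 26) (nat_lit 5) (nat_lit 27) (nat_lit 4) (nat_lit 498) (nat_lit 336) (nat_lit 306)) (XT.lf (nat_lit 0) (nat_lit 1475738089) (nat_lit 228) (nat_lit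 10528777397) (nat_lit 76) (nat_lit 3697069791) (nat_lit 21) (nat_lit 5) (nat_lit 24) (nat_lit 5) (nat_lit 22) (nat_lit 4) (nat_lit 499) (nat_lit 336) (nat_lit 305))))))) (XT.nd (nat_lit 56784) (nat_lit 0) (nat_lit 3952) (XT.nd (nat_lit 390) (nat_lit 380) (nat_lit 0) (XT.nd (nat_lit 156) (nat_lit 228) (nat_lit 0) (XT.nd (nat_lit 78) (nat_lit 152) (nat_lit 0) (XT.lf (nat_lit 0) (nat_lit 5739859694) (nat_lit 228) (nat_lit 2227782329) (nat_lit 76) (nat_lit 7950823714) (nat_lit 21) (nat_lit 5) (nat_lit 24) (nat_lit 5) (nat_lit 22) (nat_lit 4) (nat_lit 500) (nat_lit 336) (nat_lit 304)) (XT.lf (nat_lit 0) (nat_lit 6234698855) (nat_lit 152) (nat_lit 3846192376) (nat_lit 228) (nat_lit 6058969260) (nat_lit 19) (nat_lit 5) (nat_lit 21) (nat_lit 5) (nat_lit 22) (nat_lit 4) (nat_lit 501) (nat_lit 336) (nat_lit 303))) (XT.nd (nat_lit 78) (nat_lit 228) (nat_lit 0) (XT.lf (nat_lit 0) (nat_lit 14477421201) (nat_lit 228)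 (nat_lit 1557648852) (nat_lit 0) (nat_lit 331248588) (nat_lit 19) (nat_lit 5) (nat_lit 22) (nat_lit 4) (nat_lit 19) (nat_lit 4) (nat_lit 502) (nat_lit 336) (nat_lit 302)) (XT.nd (nat_lit 78) (nat_lit 0) (nat_lit 0) (XT.lf (nat_lit 0) (nat_lit 2356482361) (nat_lit 228) (nat_lit 9674808181) (nat_lit 76) (nat_lit 4565258700) (nat_lit 16) (nat_lit 5) (nat_lit 19) (nat_lit 5) (nat_lit 17) (nat_lit 4) (nat_lit 503) (nat_lit 336) (nat_lit 301)) (XT.lf (nat_lit 0) (nat_lit 6624351655) (nat_lit 228) (nat_lit 1336780778) (nat_lit 76) (nat_lit 8870753359) (nat_lit 16) (nat_lit 5) (nat_lit 19) (nat_lit 5) (nat_lit 17) (nat_lit 4) (nat_lit 504) (nat_lit 336) (nat_lit 300))))) (XT.nd (nat_lit 156) (nat_lit 304) (nat_lit 0) (XT.nd (nat_lit 78) (nat_lit 0) (nat_lit 0) (XT.lf (nat_lit 0) (nat_lit 7178964492) (nat_lit 76) (nat_lit 3798487893) (nat_lit 152) (nat_lit 6094487572) (nat_lit 15) (nat_lit 5) (nat_lit 16) (nat_lit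 5) (nat_lit 17) (nat_lit 4) (nat_lit 505) (nat_lit 336) (nat_lit 299)) (XT.lf (nat_lit 0) (nat_lit 15382957533) (nat_lit 152) (nat_lit 1519783452) (nat_lit 0) (nat_lit 414755574) (nat_lit 15) (nat_lit 5) (nat_lit 17) (nat_lit 4) (nat_lit 15) (nat_lit 4) (nat_lit 506) (nat_lit 336) (nat_lit 298))) (XT.nd (nat_lit 156) (nat_lit 76) (nat_lit 0) (XT.lf (nat_lit 0) (nat_lit 2303451657) (nat_lit 228) (nat_lit 10576741213) (nat_lit 76) (nat_lit 4686977107) (nat_lit 12) (nat_lit 5) (nat_lit 15) (nat_lit 5) (nat_lit 13) (nat_lit 4) (nat_lit 507) (nat_lit 336) (nat_lit 297)) (XT.nd (nat_lit 56004) (nat_lit 0) (nat_lit 6080) (XT.lf (nat_lit 0) (nat_lit 6296458888) (nat_lit 76) (nat_lit 4611418915) (nat_lit 152) (nat_lit 7174729964) (nat_lit 11) (nat_lit 5) (nat_lit 12) (nat_lit 5) (nat_lit 13) (nat_lit 4) (nat_lit 509) (nat_lit 336) (nat_lit 295)) (XT.lf (nat_lit 0) (nat_lit 384928135) (nat_lit 380) (nat_lit 4506512623)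 (nat_lit 0) (nat_lit 384928135) (nat_lit 91) (nat_lit 5) (nat_lit 96) (nat_lit 4) (nat_lit 91) (nat_lit 4) (nat_lit 466) (nat_lit 337) (nat_lit 337)))))) (XT.nd (nat_lit 390) (nat_lit 1140) (nat_lit 0) (XT.nd (nat_lit 156) (nat_lit 684) (nat_lit 0) (XT.nd (nat_lit 78) (nat_lit 304) (nat_lit 0) (XT.lf (nat_lit 0) (nat_lit 5033099257) (nat_lit 380) (nat_lit 1314288701) (nat_lit 0) (nat_lit 4315140128) (nat_lit 91) (nat_lit 5) (nat_lit 96) (nat_lit 4) (nat_lit 91) (nat_lit 4) (nat_lit 467) (nat_lit 337) (nat_lit 336)) (XT.lf (nat_lit 0) (nat_lit 6521295911) (nat_lit 304) (nat_lit 2837765731) (nat_lit 304) (nat_lit 1415925102) (nat_lit 87) (nat_lit 4) (nat_lit 91) (nat_lit 5) (nat_lit 91) (nat_lit 4) (nat_lit 468) (nat_lit 337) (nat_lit 335))) (XT.nd (nat_lit 78) (nat_lit 380) (nat_lit 0) (XT.lf (nat_lit 0) (nat_lit 2816274168) (nat_lit 304) (nat_lit 7327858721) (nat_lit 0) (nat_lit 745763843) (nat_lit 83) (nat_lit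 5) (nat_lit 87) (nat_lit 4) (nat_lit 83) (nat_lit 4) (nat_lit 469) (nat_lit 337) (nat_lit 334)) (XT.nd (nat_lit 78) (nat_lit 76) (nat_lit 0) (XT.lf (nat_lit 0) (nat_lit 459637284) (nat_lit 304) (nat_lit 6640685568) (nat_lit 304) (nat_lit 3906891985) (nat_lit 79) (nat_lit 4) (nat_lit 83) (nat_lit 5) (nat_lit 83) (nat_lit 4) (nat_lit 470) (nat_lit 337) (nat_lit 333)) (XT.lf (nat_lit 0) (nat_lit 323961967) (nat_lit 380) (nat_lit 2729668111) (nat_lit 76) (nat_lit 8073518475) (nat_lit 78) (nat_lit 5) (nat_lit 83) (nat_lit 5) (nat_lit 79) (nat_lit 4) (nat_lit 471) (nat_lit 337) (nat_lit 332))))) (XT.nd (nat_lit 234) (nat_lit 532) (nat_lit 0) (XT.nd (nat_lit 78) (nat_lit 380) (nat_lit 0) (XT.lf (nat_lit 0) (nat_lit 4561958101) (nat_lit 304) (nat_lit 6068314278) (nat_lit 0) (nat_lit 619214525) (nat_lit 75) (nat_lit 5) (nat_lit 79) (nat_lit 4) (nat_lit 75) (nat_lit 4) (nat_lit 472) (nat_lit 337) (nat_lit 331)) (XT.nd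 (nat_lit 78) (nat_lit 76) (nat_lit 0) (XT.lf (nat_lit 0) (nat_lit 1815031614) (nat_lit 304) (nat_lit 7057508752) (nat_lit 304) (nat_lit 2501993973) (nat_lit 71) (nat_lit 4) (nat_lit 75) (nat_lit 5) (nat_lit 75) (nat_lit 4) (nat_lit 473) (nat_lit 337) (nat_lit 330)) (XT.lf (nat_lit 0) (nat_lit 1722587661) (nat_lit 380) (nat_lit 1676643784) (nat_lit 76) (nat_lit 8103069625) (nat_lit 70) (nat_lit 5) (nat_lit 75) (nat_lit 5) (nat_lit 71) (nat_lit 4) (nat_lit 474) (nat_lit 337) (nat_lit 329)))) (XT.nd (nat_lit 78) (nat_lit 304) (nat_lit 0) (XT.lf (nat_lit 0) (nat_lit 5980327072) (nat_lit 304) (nat_lit 5304608132) (nat_lit 0) (nat_lit 347731568) (nat_lit 67) (nat_lit 5) (nat_lit 71) (nat_lit 4) (nat_lit 67) (nat_lit 4) (nat_lit 475) (nat_lit 337) (nat_lit 328)) (XT.nd (nat_lit 78) (nat_lit 76) (nat_lit 0) (XT.lf (nat_lit 0) (nat_lit 2662239140) (nat_lit 228) (nat_lit 7651157958) (nat_lit 228) (nat_lit 1452456580)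 (nat_lit 64) (nat_lit 4) (nat_lit 67) (nat_lit 5) (nat_lit 67) (nat_lit 4) (nat_lit 476) (nat_lit 337) (nat_lit 327)) (XT.lf (nat_lit 0) (nat_lit 2769307218) (nat_lit 304) (nat_lit 1159706554) (nat_lit 76) (nat_lit 7972839257) (nat_lit 63) (nat_lit 5) (nat_lit 67) (nat_lit 5) (nat_lit 64) (nat_lit 4) (nat_lit 477) (nat_lit 337) (nat_lit 326))))))))
noncomputable def xc11 : XT := (XT.nd (nat_lit 1560) (nat_lit 988) (nat_lit 0) (XT.nd (nat_lit 780) (nat_lit 1292) (nat_lit 0) (XT.nd (nat_lit 390) (nat_lit 684) (nat_lit 0) (XT.nd (nat_lit 156) (nat_lit 532) (nat_lit 0) (XT.nd (nat_lit 78) (nat_lit 228) (nat_lit 0) (XT.lf (nat_lit 0) (nat_lit 6925839739) (nat_lit 228) (nat_lit 115581136) (nat_lit 304) (nat_lit 4999268622) (nat_lit 60) (nat_lit 5) (nat_lit 63) (nat_lit 5) (nat_lit 64) (nat_lit 4) (nat_lit 478) (nat_lit 337) (nat_lit 325)) (XT.lf (nat_lit 0) (nat_lit 2921679456) (nat_lit 228) (nat_lit 8469265002)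 (nat_lit 228) (nat_lit 791534964) (nat_lit 57) (nat_lit 4) (nat_lit 60) (nat_lit 5) (nat_lit 60) (nat_lit 4) (nat_lit 479) (nat_lit 337) (nat_lit 324))) (XT.nd (nat_lit 78) (nat_lit 456) (nat_lit 0) (XT.lf (nat_lit 0) (nat_lit 3430543502) (nat_lit 304) (nat_lit 1260771693) (nat_lit 76) (nat_lit 7635828916) (nat_lit 56) (nat_lit 5) (nat_lit 60) (nat_lit 5) (nat_lit 57) (nat_lit 4) (nat_lit 480) (nat_lit 337) (nat_lit 323)) (XT.nd (nat_lit 78) (nat_lit 228) (nat_lit 0) (XT.lf (nat_lit 0) (nat_lit 6887377679) (nat_lit 228) (nat_lit 825757501) (nat_lit 304) (nat_lit 4761744023) (nat_lit 53) (nat_lit 5) (nat_lit 56) (nat_lit 5) (nat_lit 57) (nat_lit 4) (nat_lit 481) (nat_lit 337) (nat_lit 322)) (XT.lf (nat_lit 0) (nat_lit 2505503394) (nat_lit 228) (nat_lit 9563101601) (nat_lit 228) (nat_lit 557234331) (nat_lit 50) (nat_lit 4) (nat_lit 53) (nat_lit 5) (nat_lit 53) (nat_lit 4) (nat_lit 482) (nat_lit 337) (nat_lit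 321))))) (XT.nd (nat_lit 156) (nat_lit 456) (nat_lit 0) (XT.nd (nat_lit 78) (nat_lit 152) (nat_lit 0) (XT.lf (nat_lit 0) (nat_lit 3667956360) (nat_lit 304) (nat_lit 2070287493) (nat_lit 76) (nat_lit 7041393981) (nat_lit 49) (nat_lit 5) (nat_lit 53) (nat_lit 5) (nat_lit 50) (nat_lit 4) (nat_lit 483) (nat_lit 337) (nat_lit 320)) (XT.lf (nat_lit 0) (nat_lit 6121886951) (nat_lit 152) (nat_lit 1831504278) (nat_lit 228) (nat_lit 4983397382) (nat_lit 47) (nat_lit 5) (nat_lit 49) (nat_lit 5) (nat_lit 50) (nat_lit 4) (nat_lit 484) (nat_lit 337) (nat_lit 319))) (XT.nd (nat_lit 78) (nat_lit 228) (nat_lit 0) (XT.lf (nat_lit 0) (nat_lit 1316629058) (nat_lit 228) (nat_lit 10988108645) (nat_lit 228) (nat_lit 792754367) (nat_lit 44) (nat_lit 4) (nat_lit 47) (nat_lit 5) (nat_lit 47) (nat_lit 4) (nat_lit 485) (nat_lit 337) (nat_lit 318)) (XT.nd (nat_lit 78) (nat_lit 152) (nat_lit 0) (XT.lf (nat_lit 0) (nat_lit 3437994331)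 (nat_lit 304) (nat_lit 3688223981) (nat_lit 76) (nat_lit 6134713250) (nat_lit 43) (nat_lit 5) (nat_lit 47) (nat_lit 5) (nat_lit 44) (nat_lit 4) (nat_lit 486) (nat_lit 337) (nat_lit 317)) (XT.lf (nat_lit 0) (nat_lit 4526402336) (nat_lit 152) (nat_lit 3190633490) (nat_lit 228) (nat_lit 5711026293) (nat_lit 41) (nat_lit 5) (nat_lit 43) (nat_lit 5) (nat_lit 44) (nat_lit 4) (nat_lit 487) (nat_lit 337) (nat_lit 316)))))) (XT.nd (nat_lit 390) (nat_lit 532) (nat_lit 0) (XT.nd (nat_lit 156) (nat_lit 456) (nat_lit 0) (XT.nd (nat_lit 78) (nat_lit 304) (nat_lit 0) (XT.lf (nat_lit 0) (nat_lit 12057037094) (nat_lit 228) (nat_lit 742451532) (nat_lit 0) (nat_lit 799551763) (nat_lit 41) (nat_lit 5) (nat_lit 44) (nat_lit 4) (nat_lit 41) (nat_lit 4) (nat_lit 488) (nat_lit 337) (nat_lit 315)) (XT.lf (nat_lit 0) (nat_lit 2691394245) (nat_lit 304) (nat_lit 6225160577) (nat_lit 76) (nat_lit 4856212805) (nat_lit 37) (nat_lit 5)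 (nat_lit 41) (nat_lit 5) (nat_lit 38) (nat_lit 4) (nat_lit 489) (nat_lit 337) (nat_lit 314))) (XT.nd (nat_lit 78) (nat_lit 304) (nat_lit 0) (XT.lf (nat_lit 0) (nat_lit 1986989647) (nat_lit 152) (nat_lit 4966045469) (nat_lit 228) (nat_lit 6997457934) (nat_lit 35) (nat_lit 5) (nat_lit 37) (nat_lit 5) (nat_lit 38) (nat_lit 4) (nat_lit 490) (nat_lit 337) (nat_lit 313)) (XT.nd (nat_lit 78) (nat_lit 304) (nat_lit 0) (XT.lf (nat_lit 0) (nat_lit 10355888721) (nat_lit 152) (nat_lit 932538255) (nat_lit 228) (nat_lit 2843587355) (nat_lit 35) (nat_lit 5) (nat_lit 37) (nat_lit 5) (nat_lit 38) (nat_lit 4) (nat_lit 491) (nat_lit 337) (nat_lit 312)) (XT.lf (nat_lit 0) (nat_lit 1372623613) (nat_lit 304) (nat_lit 9803483434) (nat_lit 76) (nat_lit 3140938575) (nat_lit 31) (nat_lit 5) (nat_lit 35) (nat_lit 5) (nat_lit 32) (nat_lit 4) (nat_lit 492) (nat_lit 337) (nat_lit 311))))) (XT.nd (nat_lit 156) (nat_lit 380) (nat_lit 0)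 (XT.nd (nat_lit 78) (nat_lit 152) (nat_lit 0) (XT.lf (nat_lit 0) (nat_lit 5614431358) (nat_lit 304) (nat_lit 1601211168) (nat_lit 76) (nat_lit 7290183167) (nat_lit 31) (nat_lit 5) (nat_lit 35) (nat_lit 5) (nat_lit 32) (nat_lit 4) (nat_lit 493) (nat_lit 337) (nat_lit 310)) (XT.lf (nat_lit 0) (nat_lit 6764614624) (nat_lit 152) (nat_lit 3169037121) (nat_lit 228) (nat_lit 4764888912) (nat_lit 29) (nat_lit 5) (nat_lit 31) (nat_lit 5) (nat_lit 32) (nat_lit 4) (nat_lit 494) (nat_lit 337) (nat_lit 309))) (XT.nd (nat_lit 78) (nat_lit 228) (nat_lit 0) (XT.lf (nat_lit 0) (nat_lit 333234650) (nat_lit 152) (nat_lit 13974067431) (nat_lit 152) (nat_lit 588457539) (nat_lit 27) (nat_lit 4) (nat_lit 29) (nat_lit 5) (nat_lit 29) (nat_lit 4) (nat_lit 495) (nat_lit 337) (nat_lit 308)) (XT.nd (nat_lit 78) (nat_lit 152) (nat_lit 0) (XT.lf (nat_lit 0) (nat_lit 3646853239) (nat_lit 228) (nat_lit 6357259490) (nat_lit 76) (nat_lit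 5091873609) (nat_lit 26) (nat_lit 5) (nat_lit 29) (nat_lit 5) (nat_lit 27) (nat_lit 4) (nat_lit 496) (nat_lit 337) (nat_lit 307)) (XT.lf (nat_lit 0) (nat_lit 1945982285) (nat_lit 152) (nat_lit 5975574776) (nat_lit 228) (nat_lit 7379341410) (nat_lit 24) (nat_lit 5) (nat_lit 26) (nat_lit 5) (nat_lit 27) (nat_lit 4) (nat_lit 497) (nat_lit 337) (nat_lit 306))))))) (XT.nd (nat_lit 858) (nat_lit 76) (nat_lit 0) (XT.nd (nat_lit 390) (nat_lit 532) (nat_lit 0) (XT.nd (nat_lit 156) (nat_lit 152) (nat_lit 0) (XT.nd (nat_lit 78) (nat_lit 228) (nat_lit 0) (XT.lf (nat_lit 0) (nat_lit 10414286698) (nat_lit 152) (nat_lit 1860468987) (nat_lit 228) (nat_lit 3235302948) (nat_lit 24) (nat_lit 5) (nat_lit 26) (nat_lit 5) (nat_lit 27) (nat_lit 4) (nat_lit 498) (nat_lit 337) (nat_lit 305)) (XT.lf (nat_lit 0) (nat_lit 965998082) (nat_lit 228) (nat_lit 12459959336) (nat_lit 76) (nat_lit 2297577497) (nat_lit 21) (nat_lit 5) (nat_lit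 24) (nat_lit 5) (nat_lit 22) (nat_lit 4) (nat_lit 499) (nat_lit 337) (nat_lit 304))) (XT.nd (nat_lit 78) (nat_lit 152) (nat_lit 0) (XT.lf (nat_lit 0) (nat_lit 5205935380) (nat_lit 228) (nat_lit 4201688516) (nat_lit 76) (nat_lit 6533279736) (nat_lit 21) (nat_lit 5) (nat_lit 24) (nat_lit 5) (nat_lit 22) (nat_lit 4) (nat_lit 500) (nat_lit 337) (nat_lit 303)) (XT.nd (nat_lit 78) (nat_lit 0) (nat_lit 0) (XT.lf (nat_lit 0) (nat_lit 4192117326) (nat_lit 152) (nat_lit 5317877694) (nat_lit 228) (nat_lit 6653047288) (nat_lit 19) (nat_lit 5) (nat_lit 21) (nat_lit 5) (nat_lit 22) (nat_lit 4) (nat_lit 501) (nat_lit 337) (nat_lit 302)) (XT.lf (nat_lit 0) (nat_lit 12726700165) (nat_lit 152) (nat_lit 1154130191) (nat_lit 228) (nat_lit 2509188391) (nat_lit 19) (nat_lit 5) (nat_lit 21) (nat_lit 5) (nat_lit 22) (nat_lit 4) (nat_lit 502) (nat_lit 337) (nat_lit 301))))) (XT.nd (nat_lit 156) (nat_lit 304) (nat_lit 0) (XT.nd (nat_lit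 78) (nat_lit 0) (nat_lit 0) (XT.lf (nat_lit 0) (nat_lit 1699288785) (nat_lit 228) (nat_lit 11862835766) (nat_lit 76) (nat_lit 3059110324) (nat_lit 16) (nat_lit 5) (nat_lit 19) (nat_lit 5) (nat_lit 17) (nat_lit 4) (nat_lit 503) (nat_lit 337) (nat_lit 300)) (XT.lf (nat_lit 0) (nat_lit 5944021174) (nat_lit 228) (nat_lit 3565994546) (nat_lit 76) (nat_lit 7347022585) (nat_lit 16) (nat_lit 5) (nat_lit 19) (nat_lit 5) (nat_lit 17) (nat_lit 4) (nat_lit 504) (nat_lit 337) (nat_lit 299))) (XT.nd (nat_lit 78) (nat_lit 228) (nat_lit 0) (XT.lf (nat_lit 0) (nat_lit 4879210425) (nat_lit 76) (nat_lit 5380296710) (nat_lit 152) (nat_lit 6838341690) (nat_lit 15) (nat_lit 5) (nat_lit 16) (nat_lit 5) (nat_lit 17) (nat_lit 4) (nat_lit 505) (nat_lit 337) (nat_lit 298)) (XT.nd (nat_lit 78) (nat_lit 228) (nat_lit 0) (XT.lf (nat_lit 0) (nat_lit 13460629306) (nat_lit 76) (nat_lit 1179155411) (nat_lit 152) (nat_lit 2704129242) (nat_lit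 15) (nat_lit 5) (nat_lit 16) (nat_lit 5) (nat_lit 17) (nat_lit 4) (nat_lit 506) (nat_lit 337) (nat_lit 297)) (XT.lf (nat_lit 0) (nat_lit 1498063379) (nat_lit 228) (nat_lit 13026115333) (nat_lit 76) (nat_lit 3070430253) (nat_lit 12) (nat_lit 5) (nat_lit 15) (nat_lit 5) (nat_lit 13) (nat_lit 4) (nat_lit 507) (nat_lit 337) (nat_lit 296)))))) (XT.nd (nat_lit 56160) (nat_lit 0) (nat_lit 4560) (XT.nd (nat_lit 55926) (nat_lit 0) (nat_lit 6080) (XT.nd (nat_lit 55848) (nat_lit 0) (nat_lit 6764) (XT.lf (nat_lit 0) (nat_lit 3734874611) (nat_lit 76) (nat_lit 6307136767) (nat_lit 152) (nat_lit 8069252369) (nat_lit 11) (nat_lit 5) (nat_lit 12) (nat_lit 5) (nat_lit 13) (nat_lit 4) (nat_lit 509) (nat_lit 337) (nat_lit 294)) (XT.lf (nat_lit 0) (nat_lit 1735393191) (nat_lit 380) (nat_lit 1698608784) (nat_lit 0) (nat_lit 1735393191) (nat_lit 100) (nat_lit 5) (nat_lit 105) (nat_lit 4) (nat_lit 100) (nat_lit 4) (nat_lit 464)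 (nat_lit 338) (nat_lit 338))) (XT.nd (nat_lit 78) (nat_lit 380) (nat_lit 0) (XT.lf (nat_lit 0) (nat_lit 4268659963) (nat_lit 304) (nat_lit 3461552146) (nat_lit 304) (nat_lit 2714587468) (nat_lit 96) (nat_lit 4) (nat_lit 100) (nat_lit 5) (nat_lit 100) (nat_lit 4) (nat_lit 465) (nat_lit 338) (nat_lit 337)) (XT.nd (nat_lit 78) (nat_lit 0) (nat_lit 0) (XT.lf (nat_lit 0) (nat_lit 1469410344) (nat_lit 380) (nat_lit 9064860753) (nat_lit 0) (nat_lit 19132902) (nat_lit 91) (nat_lit 5) (nat_lit 96) (nat_lit 4) (nat_lit 91) (nat_lit 4) (nat_lit 466) (nat_lit 338) (nat_lit 336)) (XT.lf (nat_lit 0) (nat_lit 5700531529) (nat_lit 380) (nat_lit 1416943332) (nat_lit 0) (nat_lit 3546372588) (nat_lit 91) (nat_lit 5) (nat_lit 96) (nat_lit 4) (nat_lit 91) (nat_lit 4) (nat_lit 467) (nat_lit 338) (nat_lit 335))))) (XT.nd (nat_lit 234) (nat_lit 608) (nat_lit 0) (XT.nd (nat_lit 78) (nat_lit 608) (nat_lit 0) (XT.lf (nat_lit 0) (nat_lit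 6366792266) (nat_lit 304) (nat_lit 3627206546) (nat_lit 304) (nat_lit 782967703) (nat_lit 87) (nat_lit 4) (nat_lit 91) (nat_lit 5) (nat_lit 91) (nat_lit 4) (nat_lit 468) (nat_lit 338) (nat_lit 334)) (XT.nd (nat_lit 78) (nat_lit 304) (nat_lit 0) (XT.lf (nat_lit 0) (nat_lit 3353729402) (nat_lit 228) (nat_lit 49496918) (nat_lit 304) (nat_lit 7489332166) (nat_lit 83) (nat_lit 5) (nat_lit 86) (nat_lit 5) (nat_lit 87) (nat_lit 4) (nat_lit 469) (nat_lit 338) (nat_lit 333)) (XT.lf (nat_lit 0) (nat_lit 195416663) (nat_lit 304) (nat_lit 7458582876) (nat_lit 304) (nat_lit 3356552460) (nat_lit 79) (nat_lit 4) (nat_lit 83) (nat_lit 5) (nat_lit 83) (nat_lit 4) (nat_lit 470) (nat_lit 338) (nat_lit 332)))) (XT.nd (nat_lit 78) (nat_lit 532) (nat_lit 0) (XT.lf (nat_lit 0) (nat_lit 835919887) (nat_lit 380) (nat_lit 3050999404) (nat_lit 76) (nat_lit 7244127751) (nat_lit 78) (nat_lit 5) (nat_lit 83) (nat_lit 5) (nat_lit 79)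 (nat_lit 4) (nat_lit 471) (nat_lit 338) (nat_lit 331)) (XT.nd (nat_lit 78) (nat_lit 304) (nat_lit 0) (XT.lf (nat_lit 0) (nat_lit 4809856189) (nat_lit 228) (nat_lit 226995490) (nat_lit 304) (nat_lit 6217284327) (nat_lit 75) (nat_lit 5) (nat_lit 78) (nat_lit 5) (nat_lit 79) (nat_lit 4) (nat_lit 472) (nat_lit 338) (nat_lit 330)) (XT.lf (nat_lit 0) (nat_lit 1385520871) (nat_lit 304) (nat_lit 7927258583) (nat_lit 304) (nat_lit 2067106222) (nat_lit 71) (nat_lit 4) (nat_lit 75) (nat_lit 5) (nat_lit 75) (nat_lit 4) (nat_lit 473) (nat_lit 338) (nat_lit 329))))))))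
noncomputable def xc12 : XT := (XT.nd (nat_lit 1560) (nat_lit 1520) (nat_lit 0) (XT.nd (nat_lit 780) (nat_lit 1368) (nat_lit 0) (XT.nd (nat_lit 390) (nat_lit 836) (nat_lit 0) (XT.nd (nat_lit 156) (nat_lit 532) (nat_lit 0) (XT.nd (nat_lit 78) (nat_lit 228) (nat_lit 0) (XT.lf (nat_lit 0) (nat_lit 2121448867) (nat_lit 380) (nat_lit 2163802200) (nat_lit 76) (nat_lit 7222960117) (nat_lit 70) (nat_lit 5) (nat_lit 75) (nat_lit 5) (nat_lit 71) (nat_lit 4) (nat_lit 474) (nat_lit 338) (nat_lit 328)) (XT.lf (nat_lit 0) (nat_lit 5787612331) (nat_lit 228) (nat_lit 556035805) (nat_lit 304) (nat_lit 5295648170) (nat_lit 67) (nat_lit 5) (nat_lit 70) (nat_lit 5) (nat_lit 71) (nat_lit 4) (nat_lit 475) (nat_lit 338) (nat_lit 327))) (XT.nd (nat_lit 78) (nat_lit 304) (nat_lit 0) (XT.lf (nat_lit 0) (nat_lit 2062244774) (nat_lit 228) (nat_lit 8577387817) (nat_lit 228) (nat_lit 1133600779) (nat_lit 64) (nat_lit 4) (nat_lit 67)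 (nat_lit 5) (nat_lit 67) (nat_lit 4) (nat_lit 476) (nat_lit 338) (nat_lit 326)) (XT.nd (nat_lit 78) (nat_lit 228) (nat_lit 0) (XT.lf (nat_lit 0) (nat_lit 3054465153) (nat_lit 304) (nat_lit 1817890720) (nat_lit 76) (nat_lit 7037433885) (nat_lit 63) (nat_lit 5) (nat_lit 67) (nat_lit 5) (nat_lit 64) (nat_lit 4) (nat_lit 477) (nat_lit 338) (nat_lit 325)) (XT.lf (nat_lit 0) (nat_lit 6210489423) (nat_lit 228) (nat_lit 1082507587) (nat_lit 304) (nat_lit 4756308812) (nat_lit 60) (nat_lit 5) (nat_lit 63) (nat_lit 5) (nat_lit 64) (nat_lit 4) (nat_lit 478) (nat_lit 338) (nat_lit 324))))) (XT.nd (nat_lit 156) (nat_lit 532) (nat_lit 0) (XT.nd (nat_lit 78) (nat_lit 76) (nat_lit 0) (XT.lf (nat_lit 0) (nat_lit 2145886894) (nat_lit 228) (nat_lit 9456518725) (nat_lit 228) (nat_lit 589500233) (nat_lit 57) (nat_lit 4) (nat_lit 60) (nat_lit 5) (nat_lit 60) (nat_lit 4) (nat_lit 479) (nat_lit 338) (nat_lit 323)) (XT.lf (nat_lit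 0) (nat_lit 3601187404) (nat_lit 304) (nat_lit 2095305750) (nat_lit 76) (nat_lit 6640633477) (nat_lit 56) (nat_lit 5) (nat_lit 60) (nat_lit 5) (nat_lit 57) (nat_lit 4) (nat_lit 480) (nat_lit 338) (nat_lit 322))) (XT.nd (nat_lit 78) (nat_lit 304) (nat_lit 0) (XT.lf (nat_lit 0) (nat_lit 5994065593) (nat_lit 228) (nat_lit 1855735957) (nat_lit 304) (nat_lit 4635747078) (nat_lit 53) (nat_lit 5) (nat_lit 56) (nat_lit 5) (nat_lit 57) (nat_lit 4) (nat_lit 481) (nat_lit 338) (nat_lit 321)) (XT.nd (nat_lit 78) (nat_lit 76) (nat_lit 0) (XT.lf (nat_lit 0) (nat_lit 1548461382) (nat_lit 228) (nat_lit 10615858108) (nat_lit 228) (nat_lit 473015509) (nat_lit 50) (nat_lit 4) (nat_lit 53) (nat_lit 5) (nat_lit 53) (nat_lit 4) (nat_lit 482) (nat_lit 338) (nat_lit 320)) (XT.lf (nat_lit 0) (nat_lit 3723074304) (nat_lit 304) (nat_lit 3086636496) (nat_lit 76) (nat_lit 5981978628) (nat_lit 49) (nat_lit 5) (nat_lit 53) (nat_lit 5)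 (nat_lit 50) (nat_lit 4) (nat_lit 483) (nat_lit 338) (nat_lit 319)))))) (XT.nd (nat_lit 390) (nat_lit 760) (nat_lit 0) (XT.nd (nat_lit 156) (nat_lit 228) (nat_lit 0) (XT.nd (nat_lit 78) (nat_lit 228) (nat_lit 0) (XT.lf (nat_lit 0) (nat_lit 5045077642) (nat_lit 152) (nat_lit 2928992785) (nat_lit 228) (nat_lit 4975465348) (nat_lit 47) (nat_lit 5) (nat_lit 49) (nat_lit 5) (nat_lit 50) (nat_lit 4) (nat_lit 484) (nat_lit 338) (nat_lit 318)) (XT.lf (nat_lit 0) (nat_lit 172734319) (nat_lit 228) (nat_lit 12110799735) (nat_lit 228) (nat_lit 827549499) (nat_lit 44) (nat_lit 4) (nat_lit 47) (nat_lit 5) (nat_lit 47) (nat_lit 4) (nat_lit 485) (nat_lit 338) (nat_lit 317))) (XT.nd (nat_lit 78) (nat_lit 152) (nat_lit 0) (XT.lf (nat_lit 0) (nat_lit 3376375580) (nat_lit 304) (nat_lit 4892009065) (nat_lit 76) (nat_lit 5006694920) (nat_lit 43) (nat_lit 5) (nat_lit 47) (nat_lit 5) (nat_lit 44) (nat_lit 4) (nat_lit 486) (nat_lit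 338) (nat_lit 316)) (XT.nd (nat_lit 78) (nat_lit 0) (nat_lit 0) (XT.lf (nat_lit 0) (nat_lit 3260400890) (nat_lit 152) (nat_lit 4360051402) (nat_lit 228) (nat_lit 5822463402) (nat_lit 41) (nat_lit 5) (nat_lit 43) (nat_lit 5) (nat_lit 44) (nat_lit 4) (nat_lit 487) (nat_lit 338) (nat_lit 315)) (XT.lf (nat_lit 0) (nat_lit 11550640381) (nat_lit 152) (nat_lit 378038121) (nat_lit 228) (nat_lit 1685857116) (nat_lit 41) (nat_lit 5) (nat_lit 43) (nat_lit 5) (nat_lit 44) (nat_lit 4) (nat_lit 488) (nat_lit 338) (nat_lit 314))))) (XT.nd (nat_lit 156) (nat_lit 304) (nat_lit 0) (XT.nd (nat_lit 78) (nat_lit 152) (nat_lit 0) (XT.lf (nat_lit 0) (nat_lit 2511630946) (nat_lit 304) (nat_lit 7622173936) (nat_lit 76) (nat_lit 3655238493) (nat_lit 37) (nat_lit 5) (nat_lit 41) (nat_lit 5) (nat_lit 38) (nat_lit 4) (nat_lit 489) (nat_lit 338) (nat_lit 313)) (XT.lf (nat_lit 0) (nat_lit 525926634) (nat_lit 152) (nat_lit 6211789983)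 (nat_lit 228) (nat_lit 7229769084) (nat_lit 35) (nat_lit 5) (nat_lit 37) (nat_lit 5) (nat_lit 38) (nat_lit 4) (nat_lit 490) (nat_lit 338) (nat_lit 312))) (XT.nd (nat_lit 78) (nat_lit 304) (nat_lit 0) (XT.lf (nat_lit 0) (nat_lit 8850233472) (nat_lit 152) (nat_lit 2197027631) (nat_lit 228) (nat_lit 3102268512) (nat_lit 35) (nat_lit 5) (nat_lit 37) (nat_lit 5) (nat_lit 38) (nat_lit 4) (nat_lit 491) (nat_lit 338) (nat_lit 311)) (XT.nd (nat_lit 78) (nat_lit 0) (nat_lit 0) (XT.lf (nat_lit 0) (nat_lit 1073111864) (nat_lit 304) (nat_lit 11399703175) (nat_lit 76) (nat_lit 1862669389) (nat_lit 31) (nat_lit 5) (nat_lit 35) (nat_lit 5) (nat_lit 32) (nat_lit 4) (nat_lit 492) (nat_lit 338) (nat_lit 310)) (XT.lf (nat_lit 0) (nat_lit 5289501848) (nat_lit 304) (nat_lit 3241594798) (nat_lit 76) (nat_lit 5993681565) (nat_lit 31) (nat_lit 5) (nat_lit 35) (nat_lit 5) (nat_lit 32) (nat_lit 4) (nat_lit 493) (nat_lit 338) (nat_lit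 309))))))) (XT.nd (nat_lit 780) (nat_lit 380) (nat_lit 0) (XT.nd (nat_lit 390) (nat_lit 608) (nat_lit 0) (XT.nd (nat_lit 156) (nat_lit 380) (nat_lit 0) (XT.nd (nat_lit 78) (nat_lit 0) (nat_lit 0) (XT.lf (nat_lit 0) (nat_lit 5058557822) (nat_lit 152) (nat_lit 4514168187) (nat_lit 228) (nat_lit 5145492342) (nat_lit 29) (nat_lit 5) (nat_lit 31) (nat_lit 5) (nat_lit 32) (nat_lit 4) (nat_lit 494) (nat_lit 338) (nat_lit 308)) (XT.lf (nat_lit 0) (nat_lit 13481767753) (nat_lit 152) (nat_lit 431685452) (nat_lit 228) (nat_lit 1002647720) (nat_lit 29) (nat_lit 5) (nat_lit 31) (nat_lit 5) (nat_lit 32) (nat_lit 4) (nat_lit 495) (nat_lit 338) (nat_lit 307))) (XT.nd (nat_lit 78) (nat_lit 152) (nat_lit 0) (XT.lf (nat_lit 0) (nat_lit 3201003603) (nat_lit 228) (nat_lit 8202306904) (nat_lit 76) (nat_lit 3713817705) (nat_lit 26) (nat_lit 5) (nat_lit 29) (nat_lit 5) (nat_lit 27) (nat_lit 4) (nat_lit 496) (nat_lit 338) (nat_lit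 306)) (XT.nd (nat_lit 78) (nat_lit 0) (nat_lit 0) (XT.lf (nat_lit 0) (nat_lit 33258467) (nat_lit 152) (nat_lit 7405726413) (nat_lit 228) (nat_lit 7883794767) (nat_lit 24) (nat_lit 5) (nat_lit 26) (nat_lit 5) (nat_lit 27) (nat_lit 4) (nat_lit 497) (nat_lit 338) (nat_lit 305)) (XT.lf (nat_lit 0) (nat_lit 8459252395) (nat_lit 152) (nat_lit 3308829075) (nat_lit 228) (nat_lit 3764345137) (nat_lit 24) (nat_lit 5) (nat_lit 26) (nat_lit 5) (nat_lit 27) (nat_lit 4) (nat_lit 498) (nat_lit 338) (nat_lit 304))))) (XT.nd (nat_lit 156) (nat_lit 380) (nat_lit 0) (XT.nd (nat_lit 78) (nat_lit 0) (nat_lit 0) (XT.lf (nat_lit 0) (nat_lit 397210976) (nat_lit 228) (nat_lit 14516067895) (nat_lit 76) (nat_lit 833630956) (nat_lit 21) (nat_lit 5) (nat_lit 24) (nat_lit 5) (nat_lit 22) (nat_lit 4) (nat_lit 499) (nat_lit 338) (nat_lit 303)) (XT.lf (nat_lit 0) (nat_lit 4613438170) (nat_lit 228) (nat_lit 6299683593) (nat_lit 76) (nat_lit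 5051635467) (nat_lit 21) (nat_lit 5) (nat_lit 24) (nat_lit 5) (nat_lit 22) (nat_lit 4) (nat_lit 500) (nat_lit 338) (nat_lit 302))) (XT.nd (nat_lit 78) (nat_lit 228) (nat_lit 0) (XT.lf (nat_lit 0) (nat_lit 2024630051) (nat_lit 152) (nat_lit 6855549794) (nat_lit 228) (nat_lit 7307466816) (nat_lit 19) (nat_lit 5) (nat_lit 21) (nat_lit 5) (nat_lit 22) (nat_lit 4) (nat_lit 501) (nat_lit 338) (nat_lit 301)) (XT.nd (nat_lit 78) (nat_lit 228) (nat_lit 0) (XT.lf (nat_lit 0) (nat_lit 10518417842) (nat_lit 152) (nat_lit 2709543058) (nat_lit 228) (nat_lit 3187127592) (nat_lit 19) (nat_lit 5) (nat_lit 21) (nat_lit 5) (nat_lit 22) (nat_lit 4) (nat_lit 502) (nat_lit 338) (nat_lit 300)) (XT.lf (nat_lit 0) (nat_lit 982214790) (nat_lit 228) (nat_lit 14177819992) (nat_lit 76) (nat_lit 1487322535) (nat_lit 16) (nat_lit 5) (nat_lit 19) (nat_lit 5) (nat_lit 17) (nat_lit 4) (nat_lit 503) (nat_lit 338) (nat_lit 299)))))) (XT.nd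 (nat_lit 56082) (nat_lit 0) (nat_lit 6080) (XT.nd (nat_lit 156) (nat_lit 304) (nat_lit 0) (XT.nd (nat_lit 78) (nat_lit 76) (nat_lit 0) (XT.lf (nat_lit 0) (nat_lit 5204263939) (nat_lit 228) (nat_lit 5921357384) (nat_lit 76) (nat_lit 5757997149) (nat_lit 16) (nat_lit 5) (nat_lit 19) (nat_lit 5) (nat_lit 17) (nat_lit 4) (nat_lit 504) (nat_lit 338) (nat_lit 298)) (XT.lf (nat_lit 0) (nat_lit 2452433092) (nat_lit 76) (nat_lit 7029322090) (nat_lit 152) (nat_lit 7643437686) (nat_lit 15) (nat_lit 5) (nat_lit 16) (nat_lit 5) (nat_lit 17) (nat_lit 4) (nat_lit 505) (nat_lit 338) (nat_lit 297))) (XT.nd (nat_lit 78) (nat_lit 304) (nat_lit 0) (XT.lf (nat_lit 0) (nat_lit 10994525540) (nat_lit 76) (nat_lit 2845449469) (nat_lit 152) (nat_lit 3531728052) (nat_lit 15) (nat_lit 5) (nat_lit 16) (nat_lit 5) (nat_lit 17) (nat_lit 4) (nat_lit 506) (nat_lit 338) (nat_lit 296)) (XT.nd (nat_lit 156) (nat_lit 76) (nat_lit 0) (XT.lf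 (nat_lit 0) (nat_lit 631843760) (nat_lit 228) (nat_lit 15604663744) (nat_lit 76) (nat_lit 1386991277) (nat_lit 12) (nat_lit 5) (nat_lit 15) (nat_lit 5) (nat_lit 13) (nat_lit 4) (nat_lit 507) (nat_lit 338) (nat_lit 295)) (XT.lf (nat_lit 0) (nat_lit 1043961330) (nat_lit 76) (nat_lit 8071372329) (nat_lit 152) (nat_lit 9026036348) (nat_lit 11) (nat_lit 5) (nat_lit 12) (nat_lit 5) (nat_lit 13) (nat_lit 4) (nat_lit 509) (nat_lit 338) (nat_lit 293))))) (XT.nd (nat_lit 234) (nat_lit 684) (nat_lit 0) (XT.nd (nat_lit 78) (nat_lit 380) (nat_lit 0) (XT.lf (nat_lit 0) (nat_lit 950858377) (nat_lit 380) (nat_lit 2057814969) (nat_lit 380) (nat_lit 2057814969) (nat_lit 105) (nat_lit 4) (nat_lit 110) (nat_lit 5) (nat_lit 110) (nat_lit 4) (nat_lit 462) (nat_lit 339) (nat_lit 339)) (XT.nd (nat_lit 78) (nat_lit 304) (nat_lit 0) (XT.lf (nat_lit 0) (nat_lit 29401767) (nat_lit 456) (nat_lit 717750480) (nat_lit 76) (nat_lit 9488277593)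 (nat_lit 104) (nat_lit 5) (nat_lit 110) (nat_lit 5) (nat_lit 105) (nat_lit 4) (nat_lit 463) (nat_lit 339) (nat_lit 338)) (XT.lf (nat_lit 0) (nat_lit 4200294309) (nat_lit 380) (nat_lit 3447729657) (nat_lit 0) (nat_lit 2691425658) (nat_lit 100) (nat_lit 5) (nat_lit 105) (nat_lit 4) (nat_lit 100) (nat_lit 4) (nat_lit 464) (nat_lit 339) (nat_lit 337)))) (XT.nd (nat_lit 78) (nat_lit 380) (nat_lit 0) (XT.lf (nat_lit 0) (nat_lit 4167296821) (nat_lit 304) (nat_lit 4260004268) (nat_lit 304) (nat_lit 2018817305) (nat_lit 96) (nat_lit 4) (nat_lit 100) (nat_lit 5) (nat_lit 100) (nat_lit 4) (nat_lit 465) (nat_lit 339) (nat_lit 336)) (XT.nd (nat_lit 78) (nat_lit 0) (nat_lit 0) (XT.lf (nat_lit 0) (nat_lit 1329760595) (nat_lit 304) (nat_lit 793460537) (nat_lit 380) (nat_lit 8432078736) (nat_lit 91) (nat_lit 5) (nat_lit 95) (nat_lit 5) (nat_lit 96) (nat_lit 4) (nat_lit 466) (nat_lit 339) (nat_lit 335)) (XT.lf (nat_lit 0)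 (nat_lit 6317698683) (nat_lit 380) (nat_lit 1622292852) (nat_lit 0) (nat_lit 2726495161) (nat_lit 91) (nat_lit 5) (nat_lit 96) (nat_lit 4) (nat_lit 91) (nat_lit 4) (nat_lit 467) (nat_lit 339) (nat_lit 334))))))))
noncomputable def xc13 : XT := (XT.nd (nat_lit 1560) (nat_lit 2204) (nat_lit 0) (XT.nd (nat_lit 780) (nat_lit 1672) (nat_lit 0) (XT.nd (nat_lit 390) (nat_lit 912) (nat_lit 0) (XT.nd (nat_lit 156) (nat_lit 608) (nat_lit 0) (XT.nd (nat_lit 78) (nat_lit 304) (nat_lit 0) (XT.lf (nat_lit 0) (nat_lit 6109218869) (nat_lit 304) (nat_lit 4469400285) (nat_lit 304) (nat_lit 201647841) (nat_lit 87) (nat_lit 4) (nat_lit 91) (nat_lit 5) (nat_lit 91) (nat_lit 4) (nat_lit 468) (nat_lit 339) (nat_lit 333)) (XT.lf (nat_lit 0) (nat_lit 3035970169) (nat_lit 228) (nat_lit 908092143) (nat_lit 304) (nat_lit 6952388261) (nat_lit 83) (nat_lit 5) (nat_lit 86) (nat_lit 5) (nat_lit 87) (nat_lit 4) (nat_lit 469) (nat_lit 339)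 (nat_lit 332))) (XT.nd (nat_lit 78) (nat_lit 608) (nat_lit 0) (XT.lf (nat_lit 0) (nat_lit 8157366105) (nat_lit 304) (nat_lit 172346858) (nat_lit 0) (nat_lit 2685490216) (nat_lit 83) (nat_lit 5) (nat_lit 87) (nat_lit 4) (nat_lit 83) (nat_lit 4) (nat_lit 470) (nat_lit 339) (nat_lit 331)) (XT.nd (nat_lit 78) (nat_lit 228) (nat_lit 0) (XT.lf (nat_lit 0) (nat_lit 1296400411) (nat_lit 380) (nat_lit 3478173685) (nat_lit 76) (nat_lit 6361702576) (nat_lit 78) (nat_lit 5) (nat_lit 83) (nat_lit 5) (nat_lit 79) (nat_lit 4) (nat_lit 471) (nat_lit 339) (nat_lit 330)) (XT.lf (nat_lit 0) (nat_lit 4328112755) (nat_lit 228) (nat_lit 1136137975) (nat_lit 304) (nat_lit 5795785681) (nat_lit 75) (nat_lit 5) (nat_lit 78) (nat_lit 5) (nat_lit 79) (nat_lit 4) (nat_lit 472) (nat_lit 339) (nat_lit 329))))) (XT.nd (nat_lit 156) (nat_lit 532) (nat_lit 0) (XT.nd (nat_lit 78) (nat_lit 76) (nat_lit 0) (XT.lf (nat_lit 0) (nat_lit 848316712)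 (nat_lit 304) (nat_lit 8852675056) (nat_lit 304) (nat_lit 1685587013) (nat_lit 71) (nat_lit 4) (nat_lit 75) (nat_lit 5) (nat_lit 75) (nat_lit 4) (nat_lit 473) (nat_lit 339) (nat_lit 328)) (XT.lf (nat_lit 0) (nat_lit 2468236036) (nat_lit 380) (nat_lit 2758679241) (nat_lit 76) (nat_lit 6288542656) (nat_lit 70) (nat_lit 5) (nat_lit 75) (nat_lit 5) (nat_lit 71) (nat_lit 4) (nat_lit 474) (nat_lit 339) (nat_lit 327))) (XT.nd (nat_lit 78) (nat_lit 304) (nat_lit 0) (XT.lf (nat_lit 0) (nat_lit 5136646082) (nat_lit 228) (nat_lit 1520417279) (nat_lit 304) (nat_lit 4990155579) (nat_lit 67) (nat_lit 5) (nat_lit 70) (nat_lit 5) (nat_lit 71) (nat_lit 4) (nat_lit 475) (nat_lit 339) (nat_lit 326)) (XT.nd (nat_lit 78) (nat_lit 76) (nat_lit 0) (XT.lf (nat_lit 0) (nat_lit 1352604707) (nat_lit 228) (nat_lit 9560574393) (nat_lit 228) (nat_lit 868782562) (nat_lit 64) (nat_lit 4) (nat_lit 67) (nat_lit 5) (nat_lit 67) (nat_lit 4)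 (nat_lit 476) (nat_lit 339) (nat_lit 325)) (XT.lf (nat_lit 0) (nat_lit 3286872962) (nat_lit 304) (nat_lit 2585762656) (nat_lit 76) (nat_lit 6046434752) (nat_lit 63) (nat_lit 5) (nat_lit 67) (nat_lit 5) (nat_lit 64) (nat_lit 4) (nat_lit 477) (nat_lit 339) (nat_lit 324)))))) (XT.nd (nat_lit 390) (nat_lit 684) (nat_lit 0) (XT.nd (nat_lit 156) (nat_lit 532) (nat_lit 0) (XT.nd (nat_lit 78) (nat_lit 228) (nat_lit 0) (XT.lf (nat_lit 0) (nat_lit 5384943043) (nat_lit 228) (nat_lit 2106731909) (nat_lit 304) (nat_lit 4567593884) (nat_lit 60) (nat_lit 5) (nat_lit 63) (nat_lit 5) (nat_lit 64) (nat_lit 4) (nat_lit 478) (nat_lit 339) (nat_lit 323)) (XT.lf (nat_lit 0) (nat_lit 1258398473) (nat_lit 228) (nat_lit 10502037602) (nat_lit 228) (nat_lit 442253392) (nat_lit 57) (nat_lit 4) (nat_lit 60) (nat_lit 5) (nat_lit 60) (nat_lit 4) (nat_lit 479) (nat_lit 339) (nat_lit 322))) (XT.nd (nat_lit 78) (nat_lit 456) (nat_lit 0)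 (XT.lf (nat_lit 0) (nat_lit 3718325519) (nat_lit 304) (nat_lit 3041595890) (nat_lit 76) (nat_lit 5588540622) (nat_lit 56) (nat_lit 5) (nat_lit 60) (nat_lit 5) (nat_lit 57) (nat_lit 4) (nat_lit 480) (nat_lit 339) (nat_lit 321)) (XT.nd (nat_lit 78) (nat_lit 228) (nat_lit 0) (XT.lf (nat_lit 0) (nat_lit 4988447294) (nat_lit 228) (nat_lit 2944338174) (nat_lit 304) (nat_lit 4564788854) (nat_lit 53) (nat_lit 5) (nat_lit 56) (nat_lit 5) (nat_lit 57) (nat_lit 4) (nat_lit 481) (nat_lit 339) (nat_lit 320)) (XT.lf (nat_lit 0) (nat_lit 477569766) (nat_lit 228) (nat_lit 11728211972) (nat_lit 228) (nat_lit 444416458) (nat_lit 50) (nat_lit 4) (nat_lit 53) (nat_lit 5) (nat_lit 53) (nat_lit 4) (nat_lit 482) (nat_lit 339) (nat_lit 319))))) (XT.nd (nat_lit 156) (nat_lit 456) (nat_lit 0) (XT.nd (nat_lit 78) (nat_lit 152) (nat_lit 0) (XT.lf (nat_lit 0) (nat_lit 3723850887) (nat_lit 304) (nat_lit 4216914751) (nat_lit 76) (nat_lit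 4864339015) (nat_lit 49) (nat_lit 5) (nat_lit 53) (nat_lit 5) (nat_lit 50) (nat_lit 4) (nat_lit 483) (nat_lit 339) (nat_lit 318)) (XT.lf (nat_lit 0) (nat_lit 3853745679) (nat_lit 152) (nat_lit 4086457212) (nat_lit 228) (nat_lit 5023447652) (nat_lit 47) (nat_lit 5) (nat_lit 49) (nat_lit 5) (nat_lit 50) (nat_lit 4) (nat_lit 484) (nat_lit 339) (nat_lit 317))) (XT.nd (nat_lit 78) (nat_lit 456) (nat_lit 0) (XT.lf (nat_lit 0) (nat_lit 12051817505) (nat_lit 152) (nat_lit 163479485) (nat_lit 228) (nat_lit 910595254) (nat_lit 47) (nat_lit 5) (nat_lit 49) (nat_lit 5) (nat_lit 50) (nat_lit 4) (nat_lit 485) (nat_lit 339) (nat_lit 316)) (XT.nd (nat_lit 78) (nat_lit 152) (nat_lit 0) (XT.lf (nat_lit 0) (nat_lit 3259499429) (nat_lit 304) (nat_lit 6212007151) (nat_lit 76) (nat_lit 3819097127) (nat_lit 43) (nat_lit 5) (nat_lit 47) (nat_lit 5) (nat_lit 44) (nat_lit 4) (nat_lit 486) (nat_lit 339) (nat_lit 315)) (XT.lf (nat_lit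 0) (nat_lit 1877548281) (nat_lit 152) (nat_lit 5590828814) (nat_lit 228) (nat_lit 5990772876) (nat_lit 41) (nat_lit 5) (nat_lit 43) (nat_lit 5) (nat_lit 44) (nat_lit 4) (nat_lit 487) (nat_lit 339) (nat_lit 314))))))) (XT.nd (nat_lit 780) (nat_lit 1064) (nat_lit 0) (XT.nd (nat_lit 390) (nat_lit 380) (nat_lit 0) (XT.nd (nat_lit 156) (nat_lit 456) (nat_lit 0) (XT.nd (nat_lit 78) (nat_lit 304) (nat_lit 0) (XT.lf (nat_lit 0) (nat_lit 10123363809) (nat_lit 152) (nat_lit 1627244549) (nat_lit 228) (nat_lit 1880687471) (nat_lit 41) (nat_lit 5) (nat_lit 43) (nat_lit 5) (nat_lit 44) (nat_lit 4) (nat_lit 488) (nat_lit 339) (nat_lit 313)) (XT.lf (nat_lit 0) (nat_lit 2275612982) (nat_lit 304) (nat_lit 9137800412) (nat_lit 76) (nat_lit 2393296146) (nat_lit 37) (nat_lit 5) (nat_lit 41) (nat_lit 5) (nat_lit 38) (nat_lit 4) (nat_lit 489) (nat_lit 339) (nat_lit 312))) (XT.nd (nat_lit 78) (nat_lit 456) (nat_lit 0) (XT.lf (nat_lit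 0) (nat_lit 6472726137) (nat_lit 304) (nat_lit 1040604865) (nat_lit 76) (nat_lit 6472406001) (nat_lit 37) (nat_lit 5) (nat_lit 41) (nat_lit 5) (nat_lit 38) (nat_lit 4) (nat_lit 490) (nat_lit 339) (nat_lit 311)) (XT.nd (nat_lit 78) (nat_lit 304) (nat_lit 0) (XT.lf (nat_lit 0) (nat_lit 7226155002) (nat_lit 152) (nat_lit 3523928972) (nat_lit 228) (nat_lit 3418346250) (nat_lit 35) (nat_lit 5) (nat_lit 37) (nat_lit 5) (nat_lit 38) (nat_lit 4) (nat_lit 491) (nat_lit 339) (nat_lit 310)) (XT.lf (nat_lit 0) (nat_lit 716266002) (nat_lit 304) (nat_lit 13117058366) (nat_lit 76) (nat_lit 522005340) (nat_lit 31) (nat_lit 5) (nat_lit 35) (nat_lit 5) (nat_lit 32) (nat_lit 4) (nat_lit 492) (nat_lit 339) (nat_lit 309))))) (XT.nd (nat_lit 156) (nat_lit 228) (nat_lit 0) (XT.nd (nat_lit 78) (nat_lit 152) (nat_lit 0) (XT.lf (nat_lit 0) (nat_lit 4907736613) (nat_lit 304) (nat_lit 5002247919) (nat_lit 76) (nat_lit 4635142599) (nat_lit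 31) (nat_lit 5) (nat_lit 35) (nat_lit 5) (nat_lit 32) (nat_lit 4) (nat_lit 493) (nat_lit 339) (nat_lit 308)) (XT.lf (nat_lit 0) (nat_lit 3231493472) (nat_lit 152) (nat_lit 5923174031) (nat_lit 228) (nat_lit 5584630784) (nat_lit 29) (nat_lit 5) (nat_lit 31) (nat_lit 5) (nat_lit 32) (nat_lit 4) (nat_lit 494) (nat_lit 339) (nat_lit 307))) (XT.nd (nat_lit 78) (nat_lit 228) (nat_lit 0) (XT.lf (nat_lit 0) (nat_lit 11612533721) (nat_lit 152) (nat_lit 1858635461) (nat_lit 228) (nat_lit 1466501239) (nat_lit 29) (nat_lit 5) (nat_lit 31) (nat_lit 5) (nat_lit 32) (nat_lit 4) (nat_lit 495) (nat_lit 339) (nat_lit 306)) (XT.nd (nat_lit 78) (nat_lit 0) (nat_lit 0) (XT.lf (nat_lit 0) (nat_lit 2697143151) (nat_lit 228) (nat_lit 10170288454) (nat_lit 76) (nat_lit 2272252995) (nat_lit 26) (nat_lit 5) (nat_lit 29) (nat_lit 5) (nat_lit 27) (nat_lit 4) (nat_lit 496) (nat_lit 339) (nat_lit 305)) (XT.lf (nat_lit 0) (nat_lit 6911081165)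 (nat_lit 228) (nat_lit 1976914849) (nat_lit 76) (nat_lit 6457825644) (nat_lit 26) (nat_lit 5) (nat_lit 29) (nat_lit 5) (nat_lit 27) (nat_lit 4) (nat_lit 497) (nat_lit 339) (nat_lit 304)))))) (XT.nd (nat_lit 390) (nat_lit 532) (nat_lit 0) (XT.nd (nat_lit 156) (nat_lit 380) (nat_lit 0) (XT.nd (nat_lit 78) (nat_lit 0) (nat_lit 0) (XT.lf (nat_lit 0) (nat_lit 6381326052) (nat_lit 152) (nat_lit 4822216239) (nat_lit 228) (nat_lit 4352663701) (nat_lit 24) (nat_lit 5) (nat_lit 26) (nat_lit 5) (nat_lit 27) (nat_lit 4) (nat_lit 498) (nat_lit 339) (nat_lit 303)) (XT.lf (nat_lit 0) (nat_lit 14851380987) (nat_lit 152) (nat_lit 696942224) (nat_lit 228) (nat_lit 223154626) (nat_lit 24) (nat_lit 5) (nat_lit 26) (nat_lit 5) (nat_lit 27) (nat_lit 4) (nat_lit 499) (nat_lit 339) (nat_lit 302))) (XT.nd (nat_lit 78) (nat_lit 152) (nat_lit 0) (XT.lf (nat_lit 0) (nat_lit 3962135712) (nat_lit 228) (nat_lit 8522590302) (nat_lit 76)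 (nat_lit 3505309870) (nat_lit 21) (nat_lit 5) (nat_lit 24) (nat_lit 5) (nat_lit 22) (nat_lit 4) (nat_lit 500) (nat_lit 339) (nat_lit 301)) (XT.nd (nat_lit 78) (nat_lit 152) (nat_lit 0) (XT.lf (nat_lit 0) (nat_lit 8192942734) (nat_lit 228) (nat_lit 265090057) (nat_lit 76) (nat_lit 7755615525) (nat_lit 21) (nat_lit 5) (nat_lit 24) (nat_lit 5) (nat_lit 22) (nat_lit 4) (nat_lit 501) (nat_lit 339) (nat_lit 300)) (XT.lf (nat_lit 0) (nat_lit 8185179680) (nat_lit 152) (nat_lit 4331197859) (nat_lit 228) (nat_lit 3925203758) (nat_lit 19) (nat_lit 5) (nat_lit 21) (nat_lit 5) (nat_lit 22) (nat_lit 4) (nat_lit 502) (nat_lit 339) (nat_lit 299))))) (XT.nd (nat_lit 234) (nat_lit 304) (nat_lit 0) (XT.nd (nat_lit 78) (nat_lit 0) (nat_lit 0) (XT.lf (nat_lit 0) (nat_lit 53246698) (nat_lit 152) (nat_lit 152724057) (nat_lit 228) (nat_lit 16468936226) (nat_lit 16) (nat_lit 5) (nat_lit 18) (nat_lit 5) (nat_lit 19) (nat_lit 5) (nat_lit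 503) (nat_lit 339) (nat_lit 298)) (XT.nd (nat_lit 78) (nat_lit 0) (nat_lit 0) (XT.lf (nat_lit 0) (nat_lit 4404789848) (nat_lit 228) (nat_lit 8403792964) (nat_lit 76) (nat_lit 4103053906) (nat_lit 16) (nat_lit 5) (nat_lit 19) (nat_lit 5) (nat_lit 17) (nat_lit 4) (nat_lit 504) (nat_lit 339) (nat_lit 297)) (XT.lf (nat_lit 0) (nat_lit 8644555847) (nat_lit 228) (nat_lit 100977248) (nat_lit 76) (nat_lit 8408436426) (nat_lit 16) (nat_lit 5) (nat_lit 19) (nat_lit 5) (nat_lit 17) (nat_lit 4) (nat_lit 505) (nat_lit 339) (nat_lit 296)))) (XT.nd (nat_lit 78) (nat_lit 228) (nat_lit 0) (XT.lf (nat_lit 0) (nat_lit 8401217936) (nat_lit 76) (nat_lit 4579268163) (nat_lit 152) (nat_lit 4420443232) (nat_lit 15) (nat_lit 5) (nat_lit 16) (nat_lit 5) (nat_lit 17) (nat_lit 4) (nat_lit 506) (nat_lit 339) (nat_lit 295)) (XT.nd (nat_lit 156) (nat_lit 228) (nat_lit 0) (XT.lf (nat_lit 0) (nat_lit 16998471131) (nat_lit 76) (nat_lit 362514960)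 (nat_lit 152) (nat_lit 292692801) (nat_lit 15) (nat_lit 5) (nat_lit 16) (nat_lit 5) (nat_lit 17) (nat_lit 4) (nat_lit 507) (nat_lit 339) (nat_lit 294)) (XT.lf (nat_lit 0) (nat_lit 8139020891) (nat_lit 228) (nat_lit 1754026130) (nat_lit 76) (nat_lit 8279660544) (nat_lit 12) (nat_lit 5) (nat_lit 15) (nat_lit 5) (nat_lit 13) (nat_lit 4) (nat_lit 509) (nat_lit 339) (nat_lit 292))))))))
noncomputable def xc14 : XT := (XT.nd (nat_lit 1560) (nat_lit 2736) (nat_lit 0) (XT.nd (nat_lit 780) (nat_lit 1976) (nat_lit 0) (XT.nd (nat_lit 390) (nat_lit 1292) (nat_lit 0) (XT.nd (nat_lit 156) (nat_lit 760) (nat_lit 0) (XT.nd (nat_lit 78) (nat_lit 380) (nat_lit 0) (XT.lf (nat_lit 0) (nat_lit 3465791673) (nat_lit 380) (nat_lit 750804616) (nat_lit 380) (nat_lit 750804616) (nat_lit 115) (nat_lit 4) (nat_lit 120) (nat_lit 5) (nat_lit 120) (nat_lit 4) (nat_lit 460) (nat_lit 340) (nat_lit 340)) (XT.lf (nat_lit 0) (nat_lit 2618112236)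 (nat_lit 380) (nat_lit 5589558996) (nat_lit 0) (nat_lit 1825427344) (nat_lit 110) (nat_lit 5) (nat_lit 115) (nat_lit 4) (nat_lit 110) (nat_lit 4) (nat_lit 461) (nat_lit 340) (nat_lit 339))) (XT.nd (nat_lit 78) (nat_lit 380) (nat_lit 0) (XT.lf (nat_lit 0) (nat_lit 1851860664) (nat_lit 380) (nat_lit 4925801069) (nat_lit 380) (nat_lit 3355974125) (nat_lit 105) (nat_lit 4) (nat_lit 110) (nat_lit 5) (nat_lit 110) (nat_lit 4) (nat_lit 462) (nat_lit 340) (nat_lit 338)) (XT.nd (nat_lit 78) (nat_lit 304) (nat_lit 0) (XT.lf (nat_lit 0) (nat_lit 747137798) (nat_lit 456) (nat_lit 822512563) (nat_lit 76) (nat_lit 8666990568) (nat_lit 104) (nat_lit 5) (nat_lit 110) (nat_lit 5) (nat_lit 105) (nat_lit 4) (nat_lit 463) (nat_lit 340) (nat_lit 337)) (XT.lf (nat_lit 0) (nat_lit 4880235518) (nat_lit 380) (nat_lit 3599285735) (nat_lit 0) (nat_lit 1861906504) (nat_lit 100) (nat_lit 5) (nat_lit 105) (nat_lit 4) (nat_lit 100) (nat_lit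 4) (nat_lit 464) (nat_lit 340) (nat_lit 336))))) (XT.nd (nat_lit 156) (nat_lit 608) (nat_lit 0) (XT.nd (nat_lit 78) (nat_lit 380) (nat_lit 0) (XT.lf (nat_lit 0) (nat_lit 3964530786) (nat_lit 304) (nat_lit 5110256952) (nat_lit 304) (nat_lit 1373968808) (nat_lit 96) (nat_lit 4) (nat_lit 100) (nat_lit 5) (nat_lit 100) (nat_lit 4) (nat_lit 465) (nat_lit 340) (nat_lit 335)) (XT.lf (nat_lit 0) (nat_lit 1068083231) (nat_lit 304) (nat_lit 1658774627) (nat_lit 380) (nat_lit 7831662020) (nat_lit 91) (nat_lit 5) (nat_lit 95) (nat_lit 5) (nat_lit 96) (nat_lit 4) (nat_lit 466) (nat_lit 340) (nat_lit 334))) (XT.nd (nat_lit 78) (nat_lit 608) (nat_lit 0) (XT.lf (nat_lit 0) (nat_lit 6884842743) (nat_lit 380) (nat_lit 1930417788) (nat_lit 0) (nat_lit 1855186326) (nat_lit 91) (nat_lit 5) (nat_lit 96) (nat_lit 4) (nat_lit 91) (nat_lit 4) (nat_lit 467) (nat_lit 340) (nat_lit 333)) (XT.nd (nat_lit 78) (nat_lit 228) (nat_lit 0)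 (XT.lf (nat_lit 0) (nat_lit 323957232) (nat_lit 380) (nat_lit 5038546065) (nat_lit 76) (nat_lit 5422343556) (nat_lit 86) (nat_lit 5) (nat_lit 91) (nat_lit 5) (nat_lit 87) (nat_lit 4) (nat_lit 468) (nat_lit 340) (nat_lit 332)) (XT.lf (nat_lit 0) (nat_lit 2613640171) (nat_lit 228) (nat_lit 1820447724) (nat_lit 304) (nat_lit 6467584753) (nat_lit 83) (nat_lit 5) (nat_lit 86) (nat_lit 5) (nat_lit 87) (nat_lit 4) (nat_lit 469) (nat_lit 340) (nat_lit 331)))))) (XT.nd (nat_lit 390) (nat_lit 988) (nat_lit 0) (XT.nd (nat_lit 156) (nat_lit 608) (nat_lit 0) (XT.nd (nat_lit 78) (nat_lit 380) (nat_lit 0) (XT.lf (nat_lit 0) (nat_lit 8611442500) (nat_lit 304) (nat_lit 642135947) (nat_lit 0) (nat_lit 1767575304) (nat_lit 83) (nat_lit 5) (nat_lit 87) (nat_lit 4) (nat_lit 83) (nat_lit 4) (nat_lit 470) (nat_lit 340) (nat_lit 330)) (XT.lf (nat_lit 0) (nat_lit 1705584121) (nat_lit 380) (nat_lit 4011358474) (nat_lit 76) (nat_lit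 5425896901) (nat_lit 78) (nat_lit 5) (nat_lit 83) (nat_lit 5) (nat_lit 79) (nat_lit 4) (nat_lit 471) (nat_lit 340) (nat_lit 329))) (XT.nd (nat_lit 78) (nat_lit 380) (nat_lit 0) (XT.lf (nat_lit 0) (nat_lit 3739908661) (nat_lit 228) (nat_lit 2100340419) (nat_lit 304) (nat_lit 5427022828) (nat_lit 75) (nat_lit 5) (nat_lit 78) (nat_lit 5) (nat_lit 79) (nat_lit 4) (nat_lit 472) (nat_lit 340) (nat_lit 328)) (XT.nd (nat_lit 78) (nat_lit 76) (nat_lit 0) (XT.lf (nat_lit 0) (nat_lit 203208469) (nat_lit 304) (nat_lit 9834121078) (nat_lit 304) (nat_lit 1357286731) (nat_lit 71) (nat_lit 4) (nat_lit 75) (nat_lit 5) (nat_lit 75) (nat_lit 4) (nat_lit 473) (nat_lit 340) (nat_lit 327)) (XT.lf (nat_lit 0) (nat_lit 2763085162) (nat_lit 380) (nat_lit 3461508193) (nat_lit 76) (nat_lit 5299450801) (nat_lit 70) (nat_lit 5) (nat_lit 75) (nat_lit 5) (nat_lit 71) (nat_lit 4) (nat_lit 474) (nat_lit 340) (nat_lit 326))))) (XT.nd (nat_lit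 156) (nat_lit 532) (nat_lit 0) (XT.nd (nat_lit 78) (nat_lit 228) (nat_lit 0) (XT.lf (nat_lit 0) (nat_lit 4377238075) (nat_lit 228) (nat_lit 2541169872) (nat_lit 304) (nat_lit 4738075590) (nat_lit 67) (nat_lit 5) (nat_lit 70) (nat_lit 5) (nat_lit 71) (nat_lit 4) (nat_lit 475) (nat_lit 340) (nat_lit 325)) (XT.lf (nat_lit 0) (nat_lit 533040647) (nat_lit 228) (nat_lit 10601103249) (nat_lit 228) (nat_lit 657898080) (nat_lit 64) (nat_lit 4) (nat_lit 67) (nat_lit 5) (nat_lit 67) (nat_lit 4) (nat_lit 476) (nat_lit 340) (nat_lit 324))) (XT.nd (nat_lit 78) (nat_lit 456) (nat_lit 0) (XT.lf (nat_lit 0) (nat_lit 3466621784) (nat_lit 304) (nat_lit 3463623487) (nat_lit 76) (nat_lit 4999453230) (nat_lit 63) (nat_lit 5) (nat_lit 67) (nat_lit 5) (nat_lit 64) (nat_lit 4) (nat_lit 477) (nat_lit 340) (nat_lit 323)) (XT.nd (nat_lit 78) (nat_lit 228) (nat_lit 0) (XT.lf (nat_lit 0) (nat_lit 4448876853) (nat_lit 228) (nat_lit 3188655758)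 (nat_lit 304) (nat_lit 4433049831) (nat_lit 60) (nat_lit 5) (nat_lit 63) (nat_lit 5) (nat_lit 64) (nat_lit 4) (nat_lit 478) (nat_lit 340) (nat_lit 322)) (XT.lf (nat_lit 0) (nat_lit 258866157) (nat_lit 228) (nat_lit 11606231638) (nat_lit 228) (nat_lit 349736698) (nat_lit 57) (nat_lit 4) (nat_lit 60) (nat_lit 5) (nat_lit 60) (nat_lit 4) (nat_lit 479) (nat_lit 340) (nat_lit 321))))))) (XT.nd (nat_lit 780) (nat_lit 1216) (nat_lit 0) (XT.nd (nat_lit 390) (nat_lit 760) (nat_lit 0) (XT.nd (nat_lit 156) (nat_lit 456) (nat_lit 0) (XT.nd (nat_lit 78) (nat_lit 228) (nat_lit 0) (XT.lf (nat_lit 0) (nat_lit 3782003784) (nat_lit 304) (nat_lit 4100013207) (nat_lit 76) (nat_lit 4479137765) (nat_lit 56) (nat_lit 5) (nat_lit 60) (nat_lit 5) (nat_lit 57) (nat_lit 4) (nat_lit 480) (nat_lit 340) (nat_lit 320)) (XT.lf (nat_lit 0) (nat_lit 3870128422) (nat_lit 228) (nat_lit 4091991055) (nat_lit 304) (nat_lit 4548841524) (nat_lit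 53) (nat_lit 5) (nat_lit 56) (nat_lit 5) (nat_lit 57) (nat_lit 4) (nat_lit 481) (nat_lit 340) (nat_lit 319))) (XT.nd (nat_lit 78) (nat_lit 456) (nat_lit 0) (XT.lf (nat_lit 0) (nat_lit 11964476891) (nat_lit 228) (nat_lit 234648755) (nat_lit 304) (nat_lit 465185961) (nat_lit 53) (nat_lit 5) (nat_lit 56) (nat_lit 5) (nat_lit 57) (nat_lit 4) (nat_lit 482) (nat_lit 340) (nat_lit 318)) (XT.nd (nat_lit 78) (nat_lit 152) (nat_lit 0) (XT.lf (nat_lit 0) (nat_lit 3670286415) (nat_lit 304) (nat_lit 5461565504) (nat_lit 76) (nat_lit 3688036852) (nat_lit 49) (nat_lit 5) (nat_lit 53) (nat_lit 5) (nat_lit 50) (nat_lit 4) (nat_lit 483) (nat_lit 340) (nat_lit 317)) (XT.lf (nat_lit 0) (nat_lit 2547423874) (nat_lit 152) (nat_lit 5304351468) (nat_lit 228) (nat_lit 5127363113) (nat_lit 47) (nat_lit 5) (nat_lit 49) (nat_lit 5) (nat_lit 50) (nat_lit 4) (nat_lit 484) (nat_lit 340) (nat_lit 316))))) (XT.nd (nat_lit 156) (nat_lit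 456) (nat_lit 0) (XT.nd (nat_lit 78) (nat_lit 304) (nat_lit 0) (XT.lf (nat_lit 0) (nat_lit 10701250308) (nat_lit 152) (nat_lit 1399467577) (nat_lit 228) (nat_lit 1041191702) (nat_lit 47) (nat_lit 5) (nat_lit 49) (nat_lit 5) (nat_lit 50) (nat_lit 4) (nat_lit 485) (nat_lit 340) (nat_lit 315)) (XT.lf (nat_lit 0) (nat_lit 3087320044) (nat_lit 304) (nat_lit 7648735886) (nat_lit 76) (nat_lit 2571454148) (nat_lit 43) (nat_lit 5) (nat_lit 47) (nat_lit 5) (nat_lit 44) (nat_lit 4) (nat_lit 486) (nat_lit 340) (nat_lit 314))) (XT.nd (nat_lit 78) (nat_lit 304) (nat_lit 0) (XT.lf (nat_lit 0) (nat_lit 377302214) (nat_lit 152) (nat_lit 6883448386) (nat_lit 228) (nat_lit 6216020720) (nat_lit 41) (nat_lit 5) (nat_lit 43) (nat_lit 5) (nat_lit 44) (nat_lit 4) (nat_lit 487) (nat_lit 340) (nat_lit 313)) (XT.nd (nat_lit 78) (nat_lit 304) (nat_lit 0) (XT.lf (nat_lit 0) (nat_lit 8579564836) (nat_lit 152) (nat_lit 2937931782) (nat_lit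 228) (nat_lit 2131936178) (nat_lit 41) (nat_lit 5) (nat_lit 43) (nat_lit 5) (nat_lit 44) (nat_lit 4) (nat_lit 488) (nat_lit 340) (nat_lit 312)) (XT.lf (nat_lit 0) (nat_lit 1983247797) (nat_lit 304) (nat_lit 10772634369) (nat_lit 76) (nat_lit 1069890886) (nat_lit 37) (nat_lit 5) (nat_lit 41) (nat_lit 5) (nat_lit 38) (nat_lit 4) (nat_lit 489) (nat_lit 340) (nat_lit 311)))))) (XT.nd (nat_lit 390) (nat_lit 608) (nat_lit 0) (XT.nd (nat_lit 156) (nat_lit 456) (nat_lit 0) (XT.nd (nat_lit 78) (nat_lit 152) (nat_lit 0) (XT.lf (nat_lit 0) (nat_lit 6155304234) (nat_lit 304) (nat_lit 2718583332) (nat_lit 76) (nat_lit 5131419655) (nat_lit 37) (nat_lit 5) (nat_lit 41) (nat_lit 5) (nat_lit 38) (nat_lit 4) (nat_lit 490) (nat_lit 340) (nat_lit 310)) (XT.lf (nat_lit 0) (nat_lit 5483016419) (nat_lit 152) (nat_lit 4913762631) (nat_lit 228) (nat_lit 3791944519) (nat_lit 35) (nat_lit 5) (nat_lit 37) (nat_lit 5) (nat_lit 38) (nat_lit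 4) (nat_lit 491) (nat_lit 340) (nat_lit 309))) (XT.nd (nat_lit 78) (nat_lit 380) (nat_lit 0) (XT.lf (nat_lit 0) (nat_lit 311547726) (nat_lit 228) (nat_lit 577869512) (nat_lit 76) (nat_lit 13486979976) (nat_lit 34) (nat_lit 5) (nat_lit 37) (nat_lit 5) (nat_lit 35) (nat_lit 5) (nat_lit 492) (nat_lit 340) (nat_lit 308)) (XT.nd (nat_lit 78) (nat_lit 152) (nat_lit 0) (XT.lf (nat_lit 0) (nat_lit 4468985941) (nat_lit 304) (nat_lit 6883860985) (nat_lit 76) (nat_lit 3214033508) (nat_lit 31) (nat_lit 5) (nat_lit 35) (nat_lit 5) (nat_lit 32) (nat_lit 4) (nat_lit 493) (nat_lit 340) (nat_lit 307)) (XT.lf (nat_lit 0) (nat_lit 1282705077) (nat_lit 152) (nat_lit 7396607204) (nat_lit 228) (nat_lit 6082476449) (nat_lit 29) (nat_lit 5) (nat_lit 31) (nat_lit 5) (nat_lit 32) (nat_lit 4) (nat_lit 494) (nat_lit 340) (nat_lit 306))))) (XT.nd (nat_lit 234) (nat_lit 380) (nat_lit 0) (XT.nd (nat_lit 78) (nat_lit 228) (nat_lit 0) (XT.lf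 (nat_lit 0) (nat_lit 9622402500) (nat_lit 152) (nat_lit 3349660953) (nat_lit 228) (nat_lit 1988577370) (nat_lit 29) (nat_lit 5) (nat_lit 31) (nat_lit 5) (nat_lit 32) (nat_lit 4) (nat_lit 495) (nat_lit 340) (nat_lit 305)) (XT.nd (nat_lit 78) (nat_lit 0) (nat_lit 0) (XT.lf (nat_lit 0) (nat_lit 2135074290) (nat_lit 228) (nat_lit 12261975899) (nat_lit 76) (nat_lit 766614162) (nat_lit 26) (nat_lit 5) (nat_lit 29) (nat_lit 5) (nat_lit 27) (nat_lit 4) (nat_lit 496) (nat_lit 340) (nat_lit 304)) (XT.lf (nat_lit 0) (nat_lit 6325652181) (nat_lit 228) (nat_lit 4109539132) (nat_lit 76) (nat_lit 4935081962) (nat_lit 26) (nat_lit 5) (nat_lit 29) (nat_lit 5) (nat_lit 27) (nat_lit 4) (nat_lit 497) (nat_lit 340) (nat_lit 303)))) (XT.nd (nat_lit 78) (nat_lit 228) (nat_lit 0) (XT.lf (nat_lit 0) (nat_lit 4179692797) (nat_lit 152) (nat_lit 6401223964) (nat_lit 228) (nat_lit 5000489352) (nat_lit 24) (nat_lit 5) (nat_lit 26) (nat_lit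 5) (nat_lit 27) (nat_lit 4) (nat_lit 498) (nat_lit 340) (nat_lit 302)) (XT.nd (nat_lit 78) (nat_lit 228) (nat_lit 0) (XT.lf (nat_lit 0) (nat_lit 12609877617) (nat_lit 152) (nat_lit 2293108178) (nat_lit 228) (nat_lit 894150883) (nat_lit 24) (nat_lit 5) (nat_lit 26) (nat_lit 5) (nat_lit 27) (nat_lit 4) (nat_lit 499) (nat_lit 340) (nat_lit 301)) (XT.lf (nat_lit 0) (nat_lit 3251772593) (nat_lit 228) (nat_lit 10871280371) (nat_lit 76) (nat_lit 1893696543) (nat_lit 21) (nat_lit 5) (nat_lit 24) (nat_lit 5) (nat_lit 22) (nat_lit 4) (nat_lit 500) (nat_lit 340) (nat_lit 300))))))))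
noncomputable def xc15 : XT := (XT.nd (nat_lit 56940) (nat_lit 0) (nat_lit 1900) (XT.nd (nat_lit 56160) (nat_lit 0) (nat_lit 5396) (XT.nd (nat_lit 390) (nat_lit 304) (nat_lit 0) (XT.nd (nat_lit 156) (nat_lit 228) (nat_lit 0) (XT.nd (nat_lit 78) (nat_lit 152) (nat_lit 0) (XT.lf (nat_lit 0) (nat_lit 7460237054) (nat_lit 228) (nat_lit 2653250728) (nat_lit 76) (nat_lit 6127325232) (nat_lit 21) (nat_lit 5) (nat_lit 24) (nat_lit 5) (nat_lit 22) (nat_lit 4) (nat_lit 501) (nat_lit 340) (nat_lit 299)) (XT.lf (nat_lit 0) (nat_lit 5726070685) (nat_lit 152) (nat_lit 6019730537) (nat_lit 228) (nat_lit 4723706329) (nat_lit 19) (nat_lit 5) (nat_lit 21) (nat_lit 5) (nat_lit 22) (nat_lit 4) (nat_lit 502) (nat_lit 340) (nat_lit 298))) (XT.nd (nat_lit 78) (nat_lit 228) (nat_lit 0) (XT.lf (nat_lit 0) (nat_lit 14231291029) (nat_lit 152) (nat_lit 1859706735) (nat_lit 228) (nat_lit 612307993) (nat_lit 19) (nat_lit 5) (nat_lit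 21) (nat_lit 5) (nat_lit 22) (nat_lit 4) (nat_lit 503) (nat_lit 340) (nat_lit 297)) (XT.nd (nat_lit 78) (nat_lit 0) (nat_lit 0) (XT.lf (nat_lit 0) (nat_lit 3545285384) (nat_lit 228) (nat_lit 11014274789) (nat_lit 76) (nat_lit 2381543858) (nat_lit 16) (nat_lit 5) (nat_lit 19) (nat_lit 5) (nat_lit 17) (nat_lit 4) (nat_lit 504) (nat_lit 340) (nat_lit 296)) (XT.lf (nat_lit 0) (nat_lit 7763676459) (nat_lit 228) (nat_lit 2749508742) (nat_lit 76) (nat_lit 6670682958) (nat_lit 16) (nat_lit 5) (nat_lit 19) (nat_lit 5) (nat_lit 17) (nat_lit 4) (nat_lit 505) (nat_lit 340) (nat_lit 295))))) (XT.nd (nat_lit 234) (nat_lit 228) (nat_lit 0) (XT.nd (nat_lit 78) (nat_lit 0) (nat_lit 0) (XT.lf (nat_lit 0) (nat_lit 5679689513) (nat_lit 76) (nat_lit 6381291423) (nat_lit 152) (nat_lit 5370623300) (nat_lit 15) (nat_lit 5) (nat_lit 16) (nat_lit 5) (nat_lit 17) (nat_lit 4) (nat_lit 506) (nat_lit 340) (nat_lit 294)) (XT.lf (nat_lit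 0) (nat_lit 14239884531) (nat_lit 76) (nat_lit 2180810881) (nat_lit 152) (nat_lit 1264077772) (nat_lit 15) (nat_lit 5) (nat_lit 16) (nat_lit 5) (nat_lit 17) (nat_lit 4) (nat_lit 507) (nat_lit 340) (nat_lit 293))) (XT.nd (nat_lit 55380) (nat_lit 0) (nat_lit 8208) (XT.lf (nat_lit 0) (nat_lit 7108777846) (nat_lit 228) (nat_lit 4668087981) (nat_lit 76) (nat_lit 6428501126) (nat_lit 12) (nat_lit 5) (nat_lit 15) (nat_lit 5) (nat_lit 13) (nat_lit 4) (nat_lit 509) (nat_lit 340) (nat_lit 291)) (XT.nd (nat_lit 78) (nat_lit 0) (nat_lit 0) (XT.lf (nat_lit 0) (nat_lit 486379696) (nat_lit 456) (nat_lit 3899186606) (nat_lit 0) (nat_lit 486379696) (nat_lit 120) (nat_lit 5) (nat_lit 126) (nat_lit 4) (nat_lit 120) (nat_lit 4) (nat_lit 458) (nat_lit 341) (nat_lit 341)) (XT.lf (nat_lit 0) (nat_lit 5068050012) (nat_lit 456) (nat_lit 527130230) (nat_lit 0) (nat_lit 4243340650) (nat_lit 120) (nat_lit 5) (nat_lit 126) (nat_lit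 4) (nat_lit 120) (nat_lit 4) (nat_lit 459) (nat_lit 341) (nat_lit 340)))))) (XT.nd (nat_lit 390) (nat_lit 1292) (nat_lit 0) (XT.nd (nat_lit 156) (nat_lit 760) (nat_lit 0) (XT.nd (nat_lit 78) (nat_lit 380) (nat_lit 0) (XT.lf (nat_lit 0) (nat_lit 6883041589) (nat_lit 380) (nat_lit 2342830539) (nat_lit 380) (nat_lit 709582586) (nat_lit 115) (nat_lit 4) (nat_lit 120) (nat_lit 5) (nat_lit 120) (nat_lit 4) (nat_lit 460) (nat_lit 341) (nat_lit 339)) (XT.lf (nat_lit 0) (nat_lit 3361917598) (nat_lit 380) (nat_lit 5688947476) (nat_lit 0) (nat_lit 983552063) (nat_lit 110) (nat_lit 5) (nat_lit 115) (nat_lit 4) (nat_lit 110) (nat_lit 4) (nat_lit 461) (nat_lit 341) (nat_lit 338))) (XT.nd (nat_lit 78) (nat_lit 380) (nat_lit 0) (XT.lf (nat_lit 0) (nat_lit 1702272845) (nat_lit 380) (nat_lit 5786805229) (nat_lit 380) (nat_lit 2646535723) (nat_lit 105) (nat_lit 4) (nat_lit 110) (nat_lit 5) (nat_lit 110) (nat_lit 4) (nat_lit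 462) (nat_lit 341) (nat_lit 337)) (XT.nd (nat_lit 78) (nat_lit 304) (nat_lit 0) (XT.lf (nat_lit 0) (nat_lit 1415941630) (nat_lit 456) (nat_lit 1027032091) (nat_lit 76) (nat_lit 7796190774) (nat_lit 104) (nat_lit 5) (nat_lit 110) (nat_lit 5) (nat_lit 105) (nat_lit 4) (nat_lit 463) (nat_lit 341) (nat_lit 336)) (XT.lf (nat_lit 0) (nat_lit 5510876654) (nat_lit 380) (nat_lit 3851945235) (nat_lit 0) (nat_lit 981903617) (nat_lit 100) (nat_lit 5) (nat_lit 105) (nat_lit 4) (nat_lit 100) (nat_lit 4) (nat_lit 464) (nat_lit 341) (nat_lit 335))))) (XT.nd (nat_lit 156) (nat_lit 608) (nat_lit 0) (XT.nd (nat_lit 78) (nat_lit 380) (nat_lit 0) (XT.lf (nat_lit 0) (nat_lit 3660282343) (nat_lit 304) (nat_lit 6012643630) (nat_lit 304) (nat_lit 779789094) (nat_lit 96) (nat_lit 4) (nat_lit 100) (nat_lit 5) (nat_lit 100) (nat_lit 4) (nat_lit 465) (nat_lit 341) (nat_lit 334)) (XT.lf (nat_lit 0) (nat_lit 703536929) (nat_lit 304) (nat_lit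 2576894440) (nat_lit 380) (nat_lit 7282636441) (nat_lit 91) (nat_lit 5) (nat_lit 95) (nat_lit 5) (nat_lit 96) (nat_lit 4) (nat_lit 466) (nat_lit 341) (nat_lit 333))) (XT.nd (nat_lit 78) (nat_lit 608) (nat_lit 0) (XT.lf (nat_lit 0) (nat_lit 7402186120) (nat_lit 380) (nat_lit 2341438976) (nat_lit 0) (nat_lit 932104393) (nat_lit 91) (nat_lit 5) (nat_lit 96) (nat_lit 4) (nat_lit 91) (nat_lit 4) (nat_lit 467) (nat_lit 341) (nat_lit 332)) (XT.nd (nat_lit 78) (nat_lit 228) (nat_lit 0) (XT.lf (nat_lit 0) (nat_lit 796387418) (nat_lit 380) (nat_lit 5511656845) (nat_lit 76) (nat_lit 4482686729) (nat_lit 86) (nat_lit 5) (nat_lit 91) (nat_lit 5) (nat_lit 87) (nat_lit 4) (nat_lit 468) (nat_lit 341) (nat_lit 331)) (XT.lf (nat_lit 0) (nat_lit 2086573787) (nat_lit 228) (nat_lit 2786921449) (nat_lit 304) (nat_lit 6034731522) (nat_lit 83) (nat_lit 5) (nat_lit 86) (nat_lit 5) (nat_lit 87) (nat_lit 4) (nat_lit 469) (nat_lit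 341) (nat_lit 330))))))) (XT.nd (nat_lit 780) (nat_lit 1748) (nat_lit 0) (XT.nd (nat_lit 390) (nat_lit 760) (nat_lit 0) (XT.nd (nat_lit 156) (nat_lit 608) (nat_lit 0) (XT.nd (nat_lit 78) (nat_lit 380) (nat_lit 0) (XT.lf (nat_lit 0) (nat_lit 9015138018) (nat_lit 304) (nat_lit 1216697760) (nat_lit 0) (nat_lit 796595647) (nat_lit 83) (nat_lit 5) (nat_lit 87) (nat_lit 4) (nat_lit 83) (nat_lit 4) (nat_lit 470) (nat_lit 341) (nat_lit 329)) (XT.lf (nat_lit 0) (nat_lit 2063631480) (nat_lit 380) (nat_lit 4650762862) (nat_lit 76) (nat_lit 4436343744) (nat_lit 78) (nat_lit 5) (nat_lit 83) (nat_lit 5) (nat_lit 79) (nat_lit 4) (nat_lit 471) (nat_lit 341) (nat_lit 328))) (XT.nd (nat_lit 78) (nat_lit 380) (nat_lit 0) (XT.lf (nat_lit 0) (nat_lit 3045013238) (nat_lit 228) (nat_lit 3119980941) (nat_lit 304) (nat_lit 5110851155) (nat_lit 75) (nat_lit 5) (nat_lit 78) (nat_lit 5) (nat_lit 79) (nat_lit 4) (nat_lit 472) (nat_lit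 341) (nat_lit 327)) (XT.nd (nat_lit 78) (nat_lit 380) (nat_lit 0) (XT.lf (nat_lit 0) (nat_lit 10325496024) (nat_lit 304) (nat_lit 542842746) (nat_lit 0) (nat_lit 535591125) (nat_lit 75) (nat_lit 5) (nat_lit 79) (nat_lit 4) (nat_lit 75) (nat_lit 4) (nat_lit 473) (nat_lit 341) (nat_lit 326)) (XT.lf (nat_lit 0) (nat_lit 3006111872) (nat_lit 380) (nat_lit 4272564675) (nat_lit 76) (nat_lit 4255296676) (nat_lit 70) (nat_lit 5) (nat_lit 75) (nat_lit 5) (nat_lit 71) (nat_lit 4) (nat_lit 474) (nat_lit 341) (nat_lit 325))))) (XT.nd (nat_lit 156) (nat_lit 532) (nat_lit 0) (XT.nd (nat_lit 78) (nat_lit 0) (nat_lit 0) (XT.lf (nat_lit 0) (nat_lit 3509090503) (nat_lit 228) (nat_lit 3618693880) (nat_lit 304) (nat_lit 4539309348) (nat_lit 67) (nat_lit 5) (nat_lit 70) (nat_lit 5) (nat_lit 71) (nat_lit 4) (nat_lit 475) (nat_lit 341) (nat_lit 324)) (XT.lf (nat_lit 0) (nat_lit 11305189719) (nat_lit 304) (nat_lit 391565108) (nat_lit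 0) (nat_lit 106671915) (nat_lit 67) (nat_lit 5) (nat_lit 71) (nat_lit 4) (nat_lit 67) (nat_lit 4) (nat_lit 476) (nat_lit 341) (nat_lit 323))) (XT.nd (nat_lit 78) (nat_lit 228) (nat_lit 0) (XT.lf (nat_lit 0) (nat_lit 3593782110) (nat_lit 304) (nat_lit 4451817472) (nat_lit 76) (nat_lit 3896078739) (nat_lit 63) (nat_lit 5) (nat_lit 67) (nat_lit 5) (nat_lit 64) (nat_lit 4) (nat_lit 477) (nat_lit 341) (nat_lit 322)) (XT.nd (nat_lit 78) (nat_lit 0) (nat_lit 0) (XT.lf (nat_lit 0) (nat_lit 3401923770) (nat_lit 228) (nat_lit 4328703418) (nat_lit 304) (nat_lit 4352623892) (nat_lit 60) (nat_lit 5) (nat_lit 63) (nat_lit 5) (nat_lit 64) (nat_lit 4) (nat_lit 478) (nat_lit 341) (nat_lit 321)) (XT.lf (nat_lit 0) (nat_lit 11382726993) (nat_lit 228) (nat_lit 542767746) (nat_lit 304) (nat_lit 302669699) (nat_lit 60) (nat_lit 5) (nat_lit 63) (nat_lit 5) (nat_lit 64) (nat_lit 4) (nat_lit 479) (nat_lit 341) (nat_lit 320))))))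 (XT.nd (nat_lit 390) (nat_lit 760) (nat_lit 0) (XT.nd (nat_lit 156) (nat_lit 456) (nat_lit 0) (XT.nd (nat_lit 78) (nat_lit 228) (nat_lit 0) (XT.lf (nat_lit 0) (nat_lit 3792247171) (nat_lit 304) (nat_lit 5270972766) (nat_lit 76) (nat_lit 3311989848) (nat_lit 56) (nat_lit 5) (nat_lit 60) (nat_lit 5) (nat_lit 57) (nat_lit 4) (nat_lit 480) (nat_lit 341) (nat_lit 319)) (XT.lf (nat_lit 0) (nat_lit 2638670421) (nat_lit 228) (nat_lit 5299144660) (nat_lit 304) (nat_lit 4587898834) (nat_lit 53) (nat_lit 5) (nat_lit 56) (nat_lit 5) (nat_lit 57) (nat_lit 4) (nat_lit 481) (nat_lit 341) (nat_lit 318))) (XT.nd (nat_lit 78) (nat_lit 456) (nat_lit 0) (XT.lf (nat_lit 0) (nat_lit 10688963002) (nat_lit 228) (nat_lit 1459540501) (nat_lit 304) (nat_lit 531094169) (nat_lit 53) (nat_lit 5) (nat_lit 56) (nat_lit 5) (nat_lit 57) (nat_lit 4) (nat_lit 482) (nat_lit 341) (nat_lit 317)) (XT.nd (nat_lit 78) (nat_lit 152) (nat_lit 0) (XT.lf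 (nat_lit 0) (nat_lit 3562359882) (nat_lit 304) (nat_lit 6821076855) (nat_lit 76) (nat_lit 2452610843) (nat_lit 49) (nat_lit 5) (nat_lit 53) (nat_lit 5) (nat_lit 50) (nat_lit 4) (nat_lit 483) (nat_lit 341) (nat_lit 316)) (XT.lf (nat_lit 0) (nat_lit 1125599942) (nat_lit 152) (nat_lit 6583153157) (nat_lit 228) (nat_lit 5287252479) (nat_lit 47) (nat_lit 5) (nat_lit 49) (nat_lit 5) (nat_lit 50) (nat_lit 4) (nat_lit 484) (nat_lit 341) (nat_lit 315))))) (XT.nd (nat_lit 234) (nat_lit 456) (nat_lit 0) (XT.nd (nat_lit 78) (nat_lit 304) (nat_lit 0) (XT.lf (nat_lit 0) (nat_lit 9236048543) (nat_lit 152) (nat_lit 2696008321) (nat_lit 228) (nat_lit 1227238901) (nat_lit 47) (nat_lit 5) (nat_lit 49) (nat_lit 5) (nat_lit 50) (nat_lit 4) (nat_lit 485) (nat_lit 341) (nat_lit 314)) (XT.nd (nat_lit 78) (nat_lit 0) (nat_lit 0) (XT.lf (nat_lit 0) (nat_lit 2859769903) (nat_lit 304) (nat_lit 9202758694) (nat_lit 76) (nat_lit 1263276711)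 (nat_lit 43) (nat_lit 5) (nat_lit 47) (nat_lit 5) (nat_lit 44) (nat_lit 4) (nat_lit 486) (nat_lit 341) (nat_lit 313)) (XT.lf (nat_lit 0) (nat_lit 7005548294) (nat_lit 304) (nat_lit 1224650680) (nat_lit 76) (nat_lit 5265426533) (nat_lit 43) (nat_lit 5) (nat_lit 47) (nat_lit 5) (nat_lit 44) (nat_lit 4) (nat_lit 487) (nat_lit 341) (nat_lit 312)))) (XT.nd (nat_lit 78) (nat_lit 304) (nat_lit 0) (XT.lf (nat_lit 0) (nat_lit 6918638051) (nat_lit 152) (nat_lit 4310613815) (nat_lit 228) (nat_lit 2439701766) (nat_lit 41) (nat_lit 5) (nat_lit 43) (nat_lit 5) (nat_lit 44) (nat_lit 4) (nat_lit 488) (nat_lit 341) (nat_lit 311)) (XT.nd (nat_lit 78) (nat_lit 0) (nat_lit 0) (XT.lf (nat_lit 0) (nat_lit 1316807321) (nat_lit 228) (nat_lit 319689050) (nat_lit 304) (nat_lit 12209703500) (nat_lit 37) (nat_lit 5) (nat_lit 40) (nat_lit 5) (nat_lit 41) (nat_lit 5) (nat_lit 489) (nat_lit 341) (nat_lit 310)) (XT.lf (nat_lit 0) (nat_lit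 5781911765) (nat_lit 304) (nat_lit 4515564420) (nat_lit 76) (nat_lit 3728796141) (nat_lit 37) (nat_lit 5) (nat_lit 41) (nat_lit 5) (nat_lit 38) (nat_lit 4) (nat_lit 490) (nat_lit 341) (nat_lit 309))))))))
noncomputable def xc16 : XT := (XT.nd (nat_lit 56862) (nat_lit 0) (nat_lit 3420) (XT.nd (nat_lit 780) (nat_lit 456) (nat_lit 0) (XT.nd (nat_lit 390) (nat_lit 608) (nat_lit 0) (XT.nd (nat_lit 156) (nat_lit 456) (nat_lit 0) (XT.nd (nat_lit 78) (nat_lit 0) (nat_lit 0) (XT.lf (nat_lit 0) (nat_lit 3620134137) (nat_lit 152) (nat_lit 6367073641) (nat_lit 228) (nat_lit 4223209828) (nat_lit 35) (nat_lit 5) (nat_lit 37) (nat_lit 5) (nat_lit 38) (nat_lit 4) (nat_lit 491) (nat_lit 341) (nat_lit 308)) (XT.lf (nat_lit 0) (nat_lit 11896539737) (nat_lit 152) (nat_lit 2362136253) (nat_lit 228) (nat_lit 139939088) (nat_lit 35) (nat_lit 5) (nat_lit 37) (nat_lit 5) (nat_lit 38) (nat_lit 4) (nat_lit 492) (nat_lit 341) (nat_lit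 307))) (XT.nd (nat_lit 78) (nat_lit 152) (nat_lit 0) (XT.lf (nat_lit 0) (nat_lit 3973077775) (nat_lit 304) (nat_lit 8887171883) (nat_lit 76) (nat_lit 1729796994) (nat_lit 31) (nat_lit 5) (nat_lit 35) (nat_lit 5) (nat_lit 32) (nat_lit 4) (nat_lit 493) (nat_lit 341) (nat_lit 306)) (XT.nd (nat_lit 78) (nat_lit 152) (nat_lit 0) (XT.lf (nat_lit 0) (nat_lit 8151593860) (nat_lit 304) (nat_lit 778229335) (nat_lit 76) (nat_lit 5855772906) (nat_lit 31) (nat_lit 5) (nat_lit 35) (nat_lit 5) (nat_lit 32) (nat_lit 4) (nat_lit 494) (nat_lit 341) (nat_lit 305)) (XT.lf (nat_lit 0) (nat_lit 7510593648) (nat_lit 152) (nat_lit 4905346644) (nat_lit 228) (nat_lit 2569080851) (nat_lit 29) (nat_lit 5) (nat_lit 31) (nat_lit 5) (nat_lit 32) (nat_lit 4) (nat_lit 495) (nat_lit 341) (nat_lit 304))))) (XT.nd (nat_lit 156) (nat_lit 380) (nat_lit 0) (XT.nd (nat_lit 78) (nat_lit 0) (nat_lit 0) (XT.lf (nat_lit 0) (nat_lit 705494182) (nat_lit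 152) (nat_lit 814369847) (nat_lit 228) (nat_lit 13669107088) (nat_lit 26) (nat_lit 5) (nat_lit 28) (nat_lit 5) (nat_lit 29) (nat_lit 5) (nat_lit 496) (nat_lit 341) (nat_lit 303)) (XT.lf (nat_lit 0) (nat_lit 5682252410) (nat_lit 228) (nat_lit 6365886896) (nat_lit 76) (nat_lit 3348009100) (nat_lit 26) (nat_lit 5) (nat_lit 29) (nat_lit 5) (nat_lit 27) (nat_lit 4) (nat_lit 497) (nat_lit 341) (nat_lit 302))) (XT.nd (nat_lit 78) (nat_lit 228) (nat_lit 0) (XT.lf (nat_lit 0) (nat_lit 1853489244) (nat_lit 152) (nat_lit 8046471468) (nat_lit 228) (nat_lit 5708076139) (nat_lit 24) (nat_lit 5) (nat_lit 26) (nat_lit 5) (nat_lit 27) (nat_lit 4) (nat_lit 498) (nat_lit 341) (nat_lit 301)) (XT.nd (nat_lit 78) (nat_lit 228) (nat_lit 0) (XT.lf (nat_lit 0) (nat_lit 10244585715) (nat_lit 152) (nat_lit 3955177477) (nat_lit 228) (nat_lit 1624453951) (nat_lit 24) (nat_lit 5) (nat_lit 26) (nat_lit 5) (nat_lit 27) (nat_lit 4) (nat_lit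 499) (nat_lit 341) (nat_lit 300)) (XT.lf (nat_lit 0) (nat_lit 2482070239) (nat_lit 228) (nat_lit 13346674857) (nat_lit 76) (nat_lit 216163480) (nat_lit 21) (nat_lit 5) (nat_lit 24) (nat_lit 5) (nat_lit 22) (nat_lit 4) (nat_lit 500) (nat_lit 341) (nat_lit 299)))))) (XT.nd (nat_lit 390) (nat_lit 76) (nat_lit 0) (XT.nd (nat_lit 156) (nat_lit 228) (nat_lit 0) (XT.nd (nat_lit 78) (nat_lit 152) (nat_lit 0) (XT.lf (nat_lit 0) (nat_lit 6668630229) (nat_lit 228) (nat_lit 5167341881) (nat_lit 76) (nat_lit 4433442204) (nat_lit 21) (nat_lit 5) (nat_lit 24) (nat_lit 5) (nat_lit 22) (nat_lit 4) (nat_lit 501) (nat_lit 341) (nat_lit 298)) (XT.lf (nat_lit 0) (nat_lit 3140126499) (nat_lit 152) (nat_lit 7775803260) (nat_lit 228) (nat_lit 5582948443) (nat_lit 19) (nat_lit 5) (nat_lit 21) (nat_lit 5) (nat_lit 22) (nat_lit 4) (nat_lit 502) (nat_lit 341) (nat_lit 297))) (XT.nd (nat_lit 78) (nat_lit 228) (nat_lit 0) (XT.lf (nat_lit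 0) (nat_lit 11607658525) (nat_lit 152) (nat_lit 3632169186) (nat_lit 228) (nat_lit 1493278651) (nat_lit 19) (nat_lit 5) (nat_lit 21) (nat_lit 5) (nat_lit 22) (nat_lit 4) (nat_lit 503) (nat_lit 341) (nat_lit 296)) (XT.nd (nat_lit 78) (nat_lit 0) (nat_lit 0) (XT.lf (nat_lit 0) (nat_lit 2625413484) (nat_lit 228) (nat_lit 13753826580) (nat_lit 76) (nat_lit 592791902) (nat_lit 16) (nat_lit 5) (nat_lit 19) (nat_lit 5) (nat_lit 17) (nat_lit 4) (nat_lit 504) (nat_lit 341) (nat_lit 295)) (XT.lf (nat_lit 0) (nat_lit 6822848752) (nat_lit 228) (nat_lit 5526364127) (nat_lit 76) (nat_lit 4866006082) (nat_lit 16) (nat_lit 5) (nat_lit 19) (nat_lit 5) (nat_lit 17) (nat_lit 4) (nat_lit 505) (nat_lit 341) (nat_lit 294))))) (XT.nd (nat_lit 55458) (nat_lit 0) (nat_lit 7980) (XT.nd (nat_lit 78) (nat_lit 0) (nat_lit 0) (XT.lf (nat_lit 0) (nat_lit 2828873004) (nat_lit 76) (nat_lit 8252225923) (nat_lit 152) (nat_lit 6382640873)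 (nat_lit 15) (nat_lit 5) (nat_lit 16) (nat_lit 5) (nat_lit 17) (nat_lit 4) (nat_lit 506) (nat_lit 341) (nat_lit 293)) (XT.lf (nat_lit 0) (nat_lit 11352736476) (nat_lit 76) (nat_lit 4067698971) (nat_lit 152) (nat_lit 2296884466) (nat_lit 15) (nat_lit 5) (nat_lit 16) (nat_lit 5) (nat_lit 17) (nat_lit 4) (nat_lit 507) (nat_lit 341) (nat_lit 292))) (XT.nd (nat_lit 78) (nat_lit 836) (nat_lit 0) (XT.lf (nat_lit 0) (nat_lit 1662096866) (nat_lit 456) (nat_lit 1455679207) (nat_lit 0) (nat_lit 1662096866) (nat_lit 131) (nat_lit 5) (nat_lit 137) (nat_lit 4) (nat_lit 131) (nat_lit 4) (nat_lit 456) (nat_lit 342) (nat_lit 342)) (XT.nd (nat_lit 78) (nat_lit 456) (nat_lit 0) (XT.lf (nat_lit 0) (nat_lit 4314976657) (nat_lit 380) (nat_lit 3097038001) (nat_lit 380) (nat_lit 2239010380) (nat_lit 126) (nat_lit 4) (nat_lit 131) (nat_lit 5) (nat_lit 131) (nat_lit 4) (nat_lit 457) (nat_lit 342) (nat_lit 341)) (XT.lf (nat_lit 0)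 (nat_lit 1781614001) (nat_lit 456) (nat_lit 7847236440) (nat_lit 0) (nat_lit 115701089) (nat_lit 120) (nat_lit 5) (nat_lit 126) (nat_lit 4) (nat_lit 120) (nat_lit 4) (nat_lit 458) (nat_lit 342) (nat_lit 340))))))) (XT.nd (nat_lit 780) (nat_lit 1976) (nat_lit 0) (XT.nd (nat_lit 390) (nat_lit 1368) (nat_lit 0) (XT.nd (nat_lit 156) (nat_lit 760) (nat_lit 0) (XT.nd (nat_lit 78) (nat_lit 456) (nat_lit 0) (XT.lf (nat_lit 0) (nat_lit 5845189973) (nat_lit 456) (nat_lit 623898581) (nat_lit 0) (nat_lit 3370738471) (nat_lit 120) (nat_lit 5) (nat_lit 126) (nat_lit 4) (nat_lit 120) (nat_lit 4) (nat_lit 459) (nat_lit 342) (nat_lit 339)) (XT.lf (nat_lit 0) (nat_lit 33119850) (nat_lit 456) (nat_lit 3200234297) (nat_lit 76) (nat_lit 6704055177) (nat_lit 114) (nat_lit 5) (nat_lit 120) (nat_lit 5) (nat_lit 115) (nat_lit 4) (nat_lit 460) (nat_lit 342) (nat_lit 338))) (XT.nd (nat_lit 78) (nat_lit 456) (nat_lit 0) (XT.lf (nat_lit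 0) (nat_lit 4057135116) (nat_lit 380) (nat_lit 5887763411) (nat_lit 0) (nat_lit 92156247) (nat_lit 110) (nat_lit 5) (nat_lit 115) (nat_lit 4) (nat_lit 110) (nat_lit 4) (nat_lit 461) (nat_lit 342) (nat_lit 337)) (XT.nd (nat_lit 78) (nat_lit 76) (nat_lit 0) (XT.lf (nat_lit 0) (nat_lit 1452894634) (nat_lit 380) (nat_lit 6698980068) (nat_lit 380) (nat_lit 1987036521) (nat_lit 105) (nat_lit 4) (nat_lit 110) (nat_lit 5) (nat_lit 110) (nat_lit 4) (nat_lit 462) (nat_lit 342) (nat_lit 336)) (XT.lf (nat_lit 0) (nat_lit 2036075540) (nat_lit 456) (nat_lit 1331389267) (nat_lit 76) (nat_lit 6875536722) (nat_lit 104) (nat_lit 5) (nat_lit 110) (nat_lit 5) (nat_lit 105) (nat_lit 4) (nat_lit 463) (nat_lit 342) (nat_lit 335))))) (XT.nd (nat_lit 156) (nat_lit 760) (nat_lit 0) (XT.nd (nat_lit 78) (nat_lit 304) (nat_lit 0) (XT.lf (nat_lit 0) (nat_lit 6092465026) (nat_lit 380) (nat_lit 4205807239) (nat_lit 0) (nat_lit 51071900)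 (nat_lit 100) (nat_lit 5) (nat_lit 105) (nat_lit 4) (nat_lit 100) (nat_lit 4) (nat_lit 464) (nat_lit 342) (nat_lit 334)) (XT.lf (nat_lit 0) (nat_lit 3254432179) (nat_lit 304) (nat_lit 6967518180) (nat_lit 304) (nat_lit 236045152) (nat_lit 96) (nat_lit 4) (nat_lit 100) (nat_lit 5) (nat_lit 100) (nat_lit 4) (nat_lit 465) (nat_lit 342) (nat_lit 333))) (XT.nd (nat_lit 78) (nat_lit 380) (nat_lit 0) (XT.lf (nat_lit 0) (nat_lit 235978730) (nat_lit 304) (nat_lit 3548180022) (nat_lit 380) (nat_lit 6784786695) (nat_lit 91) (nat_lit 5) (nat_lit 95) (nat_lit 5) (nat_lit 96) (nat_lit 4) (nat_lit 466) (nat_lit 342) (nat_lit 332)) (XT.nd (nat_lit 78) (nat_lit 380) (nat_lit 0) (XT.lf (nat_lit 0) (nat_lit 7826529755) (nat_lit 304) (nat_lit 43685573) (nat_lit 380) (nat_lit 2812115660) (nat_lit 91) (nat_lit 5) (nat_lit 95) (nat_lit 5) (nat_lit 96) (nat_lit 4) (nat_lit 467) (nat_lit 342) (nat_lit 331)) (XT.lf (nat_lit 0) (nat_lit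 1218472631) (nat_lit 380) (nat_lit 6089256768) (nat_lit 76) (nat_lit 3490218505) (nat_lit 86) (nat_lit 5) (nat_lit 91) (nat_lit 5) (nat_lit 87) (nat_lit 4) (nat_lit 468) (nat_lit 342) (nat_lit 330)))))) (XT.nd (nat_lit 390) (nat_lit 1140) (nat_lit 0) (XT.nd (nat_lit 156) (nat_lit 608) (nat_lit 0) (XT.nd (nat_lit 78) (nat_lit 0) (nat_lit 0) (XT.lf (nat_lit 0) (nat_lit 1454564325) (nat_lit 228) (nat_lit 3807892326) (nat_lit 304) (nat_lit 5653658822) (nat_lit 83) (nat_lit 5) (nat_lit 86) (nat_lit 5) (nat_lit 87) (nat_lit 4) (nat_lit 469) (nat_lit 342) (nat_lit 329)) (XT.lf (nat_lit 0) (nat_lit 9139252584) (nat_lit 228) (nat_lit 230857267) (nat_lit 304) (nat_lit 1666899226) (nat_lit 83) (nat_lit 5) (nat_lit 86) (nat_lit 5) (nat_lit 87) (nat_lit 4) (nat_lit 470) (nat_lit 342) (nat_lit 328))) (XT.nd (nat_lit 78) (nat_lit 228) (nat_lit 0) (XT.lf (nat_lit 0) (nat_lit 2370682900) (nat_lit 380) (nat_lit 5396637597)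 (nat_lit 76) (nat_lit 3392655045) (nat_lit 78) (nat_lit 5) (nat_lit 83) (nat_lit 5) (nat_lit 79) (nat_lit 4) (nat_lit 471) (nat_lit 342) (nat_lit 327)) (XT.nd (nat_lit 78) (nat_lit 0) (nat_lit 0) (XT.lf (nat_lit 0) (nat_lit 2243153978) (nat_lit 228) (nat_lit 4195459401) (nat_lit 304) (nat_lit 4847146672) (nat_lit 75) (nat_lit 5) (nat_lit 78) (nat_lit 5) (nat_lit 79) (nat_lit 4) (nat_lit 472) (nat_lit 342) (nat_lit 326)) (XT.lf (nat_lit 0) (nat_lit 10017653124) (nat_lit 228) (nat_lit 549972641) (nat_lit 304) (nat_lit 846857084) (nat_lit 75) (nat_lit 5) (nat_lit 78) (nat_lit 5) (nat_lit 79) (nat_lit 4) (nat_lit 473) (nat_lit 342) (nat_lit 325))))) (XT.nd (nat_lit 234) (nat_lit 532) (nat_lit 0) (XT.nd (nat_lit 78) (nat_lit 228) (nat_lit 0) (XT.lf (nat_lit 0) (nat_lit 3197411472) (nat_lit 380) (nat_lit 5192166748) (nat_lit 76) (nat_lit 3155670807) (nat_lit 70) (nat_lit 5) (nat_lit 75) (nat_lit 5) (nat_lit 71)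 (nat_lit 4) (nat_lit 474) (nat_lit 342) (nat_lit 324)) (XT.nd (nat_lit 78) (nat_lit 0) (nat_lit 0) (XT.lf (nat_lit 0) (nat_lit 2531862914) (nat_lit 228) (nat_lit 4753411860) (nat_lit 304) (nat_lit 4393778905) (nat_lit 67) (nat_lit 5) (nat_lit 70) (nat_lit 5) (nat_lit 71) (nat_lit 4) (nat_lit 475) (nat_lit 342) (nat_lit 323)) (XT.lf (nat_lit 0) (nat_lit 10390835668) (nat_lit 228) (nat_lit 1043927758) (nat_lit 304) (nat_lit 381189404) (nat_lit 67) (nat_lit 5) (nat_lit 70) (nat_lit 5) (nat_lit 71) (nat_lit 4) (nat_lit 476) (nat_lit 342) (nat_lit 322)))) (XT.nd (nat_lit 78) (nat_lit 228) (nat_lit 0) (XT.lf (nat_lit 0) (nat_lit 3668403806) (nat_lit 304) (nat_lit 5550732140) (nat_lit 76) (nat_lit 2735878583) (nat_lit 63) (nat_lit 5) (nat_lit 67) (nat_lit 5) (nat_lit 64) (nat_lit 4) (nat_lit 477) (nat_lit 342) (nat_lit 321)) (XT.nd (nat_lit 78) (nat_lit 0) (nat_lit 0) (XT.lf (nat_lit 0) (nat_lit 2243673223) (nat_lit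 228) (nat_lit 5527321966) (nat_lit 304) (nat_lit 4326284527) (nat_lit 60) (nat_lit 5) (nat_lit 63) (nat_lit 5) (nat_lit 64) (nat_lit 4) (nat_lit 478) (nat_lit 342) (nat_lit 320)) (XT.lf (nat_lit 0) (nat_lit 10180621660) (nat_lit 228) (nat_lit 1758746970) (nat_lit 304) (nat_lit 303361538) (nat_lit 60) (nat_lit 5) (nat_lit 63) (nat_lit 5) (nat_lit 64) (nat_lit 4) (nat_lit 479) (nat_lit 342) (nat_lit 319))))))))
noncomputable def xc17 : XT := (XT.nd (nat_lit 1560) (nat_lit 684) (nat_lit 0) (XT.nd (nat_lit 780) (nat_lit 1216) (nat_lit 0) (XT.nd (nat_lit 390) (nat_lit 684) (nat_lit 0) (XT.nd (nat_lit 156) (nat_lit 304) (nat_lit 0) (XT.nd (nat_lit 78) (nat_lit 228) (nat_lit 0) (XT.lf (nat_lit 0) (nat_lit 3749059697) (nat_lit 304) (nat_lit 6554933767) (nat_lit 76) (nat_lit 2086639164) (nat_lit 56) (nat_lit 5) (nat_lit 60) (nat_lit 5) (nat_lit 57) (nat_lit 4) (nat_lit 480) (nat_lit 342) (nat_lit 318)) (XT.lf (nat_lit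 0) (nat_lit 1293590366) (nat_lit 228) (nat_lit 6566272383) (nat_lit 304) (nat_lit 4681976102) (nat_lit 53) (nat_lit 5) (nat_lit 56) (nat_lit 5) (nat_lit 57) (nat_lit 4) (nat_lit 481) (nat_lit 342) (nat_lit 317))) (XT.nd (nat_lit 78) (nat_lit 304) (nat_lit 0) (XT.lf (nat_lit 0) (nat_lit 9300690899) (nat_lit 228) (nat_lit 2744058558) (nat_lit 304) (nat_lit 651495845) (nat_lit 53) (nat_lit 5) (nat_lit 56) (nat_lit 5) (nat_lit 57) (nat_lit 4) (nat_lit 482) (nat_lit 342) (nat_lit 316)) (XT.nd (nat_lit 78) (nat_lit 0) (nat_lit 0) (XT.lf (nat_lit 0) (nat_lit 3400028963) (nat_lit 304) (nat_lit 8295981943) (nat_lit 76) (nat_lit 1157576508) (nat_lit 49) (nat_lit 5) (nat_lit 53) (nat_lit 5) (nat_lit 50) (nat_lit 4) (nat_lit 483) (nat_lit 342) (nat_lit 315)) (XT.lf (nat_lit 0) (nat_lit 7513756899) (nat_lit 304) (nat_lit 406876517) (nat_lit 76) (nat_lit 5093571581) (nat_lit 49) (nat_lit 5) (nat_lit 53) (nat_lit 5) (nat_lit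 50) (nat_lit 4) (nat_lit 484) (nat_lit 342) (nat_lit 314))))) (XT.nd (nat_lit 156) (nat_lit 228) (nat_lit 0) (XT.nd (nat_lit 78) (nat_lit 304) (nat_lit 0) (XT.lf (nat_lit 0) (nat_lit 7655637620) (nat_lit 152) (nat_lit 4053610166) (nat_lit 228) (nat_lit 1468809809) (nat_lit 47) (nat_lit 5) (nat_lit 49) (nat_lit 5) (nat_lit 50) (nat_lit 4) (nat_lit 485) (nat_lit 342) (nat_lit 313)) (XT.lf (nat_lit 0) (nat_lit 2470100609) (nat_lit 228) (nat_lit 107356190) (nat_lit 304) (nat_lit 10768025831) (nat_lit 43) (nat_lit 5) (nat_lit 46) (nat_lit 5) (nat_lit 47) (nat_lit 5) (nat_lit 486) (nat_lit 342) (nat_lit 312))) (XT.nd (nat_lit 78) (nat_lit 228) (nat_lit 0) (XT.lf (nat_lit 0) (nat_lit 6697829859) (nat_lit 304) (nat_lit 2938715903) (nat_lit 76) (nat_lit 3879270973) (nat_lit 43) (nat_lit 5) (nat_lit 47) (nat_lit 5) (nat_lit 44) (nat_lit 4) (nat_lit 487) (nat_lit 342) (nat_lit 311)) (XT.nd (nat_lit 78) (nat_lit 76)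 (nat_lit 0) (XT.lf (nat_lit 0) (nat_lit 5139932110) (nat_lit 152) (nat_lit 5745828956) (nat_lit 228) (nat_lit 2804104926) (nat_lit 41) (nat_lit 5) (nat_lit 43) (nat_lit 5) (nat_lit 44) (nat_lit 4) (nat_lit 488) (nat_lit 342) (nat_lit 310)) (XT.lf (nat_lit 0) (nat_lit 1244142980) (nat_lit 228) (nat_lit 539082874) (nat_lit 76) (nat_lit 12084593749) (nat_lit 40) (nat_lit 5) (nat_lit 43) (nat_lit 5) (nat_lit 41) (nat_lit 5) (nat_lit 489) (nat_lit 342) (nat_lit 309)))))) (XT.nd (nat_lit 390) (nat_lit 532) (nat_lit 0) (XT.nd (nat_lit 156) (nat_lit 304) (nat_lit 0) (XT.nd (nat_lit 78) (nat_lit 152) (nat_lit 0) (XT.lf (nat_lit 0) (nat_lit 5352402302) (nat_lit 304) (nat_lit 6432252828) (nat_lit 76) (nat_lit 2263985409) (nat_lit 37) (nat_lit 5) (nat_lit 41) (nat_lit 5) (nat_lit 38) (nat_lit 4) (nat_lit 490) (nat_lit 342) (nat_lit 308)) (XT.lf (nat_lit 0) (nat_lit 1636777616) (nat_lit 152) (nat_lit 7884431928) (nat_lit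 228) (nat_lit 4712311303) (nat_lit 35) (nat_lit 5) (nat_lit 37) (nat_lit 5) (nat_lit 38) (nat_lit 4) (nat_lit 491) (nat_lit 342) (nat_lit 307))) (XT.nd (nat_lit 78) (nat_lit 304) (nat_lit 0) (XT.lf (nat_lit 0) (nat_lit 9872794653) (nat_lit 152) (nat_lit 3896472338) (nat_lit 228) (nat_lit 652924691) (nat_lit 35) (nat_lit 5) (nat_lit 37) (nat_lit 5) (nat_lit 38) (nat_lit 4) (nat_lit 492) (nat_lit 342) (nat_lit 306)) (XT.nd (nat_lit 78) (nat_lit 0) (nat_lit 0) (XT.lf (nat_lit 0) (nat_lit 3419817639) (nat_lit 304) (nat_lit 11012966224) (nat_lit 76) (nat_lit 181851003) (nat_lit 31) (nat_lit 5) (nat_lit 35) (nat_lit 5) (nat_lit 32) (nat_lit 4) (nat_lit 493) (nat_lit 342) (nat_lit 305)) (XT.lf (nat_lit 0) (nat_lit 7575312076) (nat_lit 304) (nat_lit 2944024272) (nat_lit 76) (nat_lit 4291313256) (nat_lit 31) (nat_lit 5) (nat_lit 35) (nat_lit 5) (nat_lit 32) (nat_lit 4) (nat_lit 494) (nat_lit 342) (nat_lit 304)))))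 (XT.nd (nat_lit 156) (nat_lit 304) (nat_lit 0) (XT.nd (nat_lit 78) (nat_lit 76) (nat_lit 0) (XT.lf (nat_lit 0) (nat_lit 5276279003) (nat_lit 152) (nat_lit 6526302607) (nat_lit 228) (nat_lit 3208239329) (nat_lit 29) (nat_lit 5) (nat_lit 31) (nat_lit 5) (nat_lit 32) (nat_lit 4) (nat_lit 495) (nat_lit 342) (nat_lit 303)) (XT.lf (nat_lit 0) (nat_lit 861974242) (nat_lit 228) (nat_lit 1598985398) (nat_lit 76) (nat_lit 12754441123) (nat_lit 28) (nat_lit 5) (nat_lit 31) (nat_lit 5) (nat_lit 29) (nat_lit 5) (nat_lit 496) (nat_lit 342) (nat_lit 302))) (XT.nd (nat_lit 78) (nat_lit 152) (nat_lit 0) (XT.lf (nat_lit 0) (nat_lit 4980629539) (nat_lit 228) (nat_lit 8746842982) (nat_lit 76) (nat_lit 1695984674) (nat_lit 26) (nat_lit 5) (nat_lit 29) (nat_lit 5) (nat_lit 27) (nat_lit 4) (nat_lit 497) (nat_lit 342) (nat_lit 301)) (XT.nd (nat_lit 78) (nat_lit 152) (nat_lit 0) (XT.lf (nat_lit 0) (nat_lit 9164290993) (nat_lit 228)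 (nat_lit 590351384) (nat_lit 76) (nat_lit 5881388595) (nat_lit 26) (nat_lit 5) (nat_lit 29) (nat_lit 5) (nat_lit 27) (nat_lit 4) (nat_lit 498) (nat_lit 342) (nat_lit 300)) (XT.lf (nat_lit 0) (nat_lit 7754577717) (nat_lit 152) (nat_lit 5683801911) (nat_lit 228) (nat_lit 2414350223) (nat_lit 24) (nat_lit 5) (nat_lit 26) (nat_lit 5) (nat_lit 27) (nat_lit 4) (nat_lit 499) (nat_lit 342) (nat_lit 299))))))) (XT.nd (nat_lit 55926) (nat_lit 0) (nat_lit 6080) (XT.nd (nat_lit 390) (nat_lit 76) (nat_lit 0) (XT.nd (nat_lit 156) (nat_lit 380) (nat_lit 0) (XT.nd (nat_lit 78) (nat_lit 0) (nat_lit 0) (XT.lf (nat_lit 0) (nat_lit 114526301) (nat_lit 152) (nat_lit 1548252788) (nat_lit 228) (nat_lit 14411543997) (nat_lit 21) (nat_lit 5) (nat_lit 23) (nat_lit 5) (nat_lit 24) (nat_lit 5) (nat_lit 500) (nat_lit 342) (nat_lit 298)) (XT.lf (nat_lit 0) (nat_lit 5817811824) (nat_lit 228) (nat_lit 7808349435) (nat_lit 76) (nat_lit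 2673302171) (nat_lit 21) (nat_lit 5) (nat_lit 24) (nat_lit 5) (nat_lit 22) (nat_lit 4) (nat_lit 501) (nat_lit 342) (nat_lit 297))) (XT.nd (nat_lit 78) (nat_lit 228) (nat_lit 0) (XT.lf (nat_lit 0) (nat_lit 426333027) (nat_lit 152) (nat_lit 9600104686) (nat_lit 228) (nat_lit 6503267058) (nat_lit 19) (nat_lit 5) (nat_lit 21) (nat_lit 5) (nat_lit 22) (nat_lit 4) (nat_lit 502) (nat_lit 342) (nat_lit 296)) (XT.nd (nat_lit 78) (nat_lit 228) (nat_lit 0) (XT.lf (nat_lit 0) (nat_lit 8856915721) (nat_lit 152) (nat_lit 5472538971) (nat_lit 228) (nat_lit 2434899761) (nat_lit 19) (nat_lit 5) (nat_lit 21) (nat_lit 5) (nat_lit 22) (nat_lit 4) (nat_lit 503) (nat_lit 342) (nat_lit 295)) (XT.lf (nat_lit 0) (nat_lit 372428525) (nat_lit 152) (nat_lit 1280700043) (nat_lit 228) (nat_lit 15351137778) (nat_lit 16) (nat_lit 5) (nat_lit 18) (nat_lit 5) (nat_lit 19) (nat_lit 5) (nat_lit 504) (nat_lit 342) (nat_lit 294))))) (XT.nd (nat_lit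 156) (nat_lit 76) (nat_lit 0) (XT.nd (nat_lit 78) (nat_lit 0) (nat_lit 0) (XT.lf (nat_lit 0) (nat_lit 5821703773) (nat_lit 228) (nat_lit 8432632368) (nat_lit 76) (nat_lit 2993698080) (nat_lit 16) (nat_lit 5) (nat_lit 19) (nat_lit 5) (nat_lit 17) (nat_lit 4) (nat_lit 505) (nat_lit 342) (nat_lit 293)) (XT.lf (nat_lit 0) (nat_lit 10041444962) (nat_lit 228) (nat_lit 150351465) (nat_lit 76) (nat_lit 7305532420) (nat_lit 16) (nat_lit 5) (nat_lit 19) (nat_lit 5) (nat_lit 17) (nat_lit 4) (nat_lit 506) (nat_lit 342) (nat_lit 292))) (XT.nd (nat_lit 55224) (nat_lit 0) (nat_lit 9196) (XT.lf (nat_lit 0) (nat_lit 8335894751) (nat_lit 76) (nat_lit 6023919187) (nat_lit 152) (nat_lit 3391517907) (nat_lit 15) (nat_lit 5) (nat_lit 16) (nat_lit 5) (nat_lit 17) (nat_lit 4) (nat_lit 507) (nat_lit 342) (nat_lit 291)) (XT.nd (nat_lit 78) (nat_lit 76) (nat_lit 0) (XT.lf (nat_lit 0) (nat_lit 875966216) (nat_lit 456) (nat_lit 1907679301)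 (nat_lit 456) (nat_lit 1907679301) (nat_lit 137) (nat_lit 4) (nat_lit 143) (nat_lit 5) (nat_lit 143) (nat_lit 4) (nat_lit 454) (nat_lit 343) (nat_lit 343)) (XT.lf (nat_lit 0) (nat_lit 164173732) (nat_lit 532) (nat_lit 561060997) (nat_lit 76) (nat_lit 8745598458) (nat_lit 136) (nat_lit 5) (nat_lit 143) (nat_lit 5) (nat_lit 137) (nat_lit 4) (nat_lit 455) (nat_lit 343) (nat_lit 342)))))) (XT.nd (nat_lit 390) (nat_lit 1444) (nat_lit 0) (XT.nd (nat_lit 156) (nat_lit 912) (nat_lit 0) (XT.nd (nat_lit 78) (nat_lit 380) (nat_lit 0) (XT.lf (nat_lit 0) (nat_lit 4167352238) (nat_lit 456) (nat_lit 2958910852) (nat_lit 0) (nat_lit 2434136444) (nat_lit 131) (nat_lit 5) (nat_lit 137) (nat_lit 4) (nat_lit 131) (nat_lit 4) (nat_lit 456) (nat_lit 343) (nat_lit 341)) (XT.lf (nat_lit 0) (nat_lit 4219552680) (nat_lit 380) (nat_lit 4003599292) (nat_lit 380) (nat_lit 1429179949) (nat_lit 126) (nat_lit 4) (nat_lit 131) (nat_lit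 5) (nat_lit 131) (nat_lit 4) (nat_lit 457) (nat_lit 343) (nat_lit 340))) (XT.nd (nat_lit 78) (nat_lit 456) (nat_lit 0) (XT.lf (nat_lit 0) (nat_lit 1747384480) (nat_lit 380) (nat_lit 800394324) (nat_lit 456) (nat_lit 7198647648) (nat_lit 120) (nat_lit 5) (nat_lit 125) (nat_lit 5) (nat_lit 126) (nat_lit 4) (nat_lit 458) (nat_lit 343) (nat_lit 339)) (XT.nd (nat_lit 78) (nat_lit 456) (nat_lit 0) (XT.lf (nat_lit 0) (nat_lit 6575065294) (nat_lit 456) (nat_lit 817473231) (nat_lit 0) (nat_lit 2449901279) (nat_lit 120) (nat_lit 5) (nat_lit 126) (nat_lit 4) (nat_lit 120) (nat_lit 4) (nat_lit 459) (nat_lit 343) (nat_lit 338)) (XT.lf (nat_lit 0) (nat_lit 718560650) (nat_lit 456) (nat_lit 3450813553) (nat_lit 76) (nat_lit 5771210731) (nat_lit 114) (nat_lit 5) (nat_lit 120) (nat_lit 5) (nat_lit 115) (nat_lit 4) (nat_lit 460) (nat_lit 343) (nat_lit 337))))) (XT.nd (nat_lit 234) (nat_lit 684) (nat_lit 0) (XT.nd (nat_lit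 78) (nat_lit 456) (nat_lit 0) (XT.lf (nat_lit 0) (nat_lit 3849229783) (nat_lit 304) (nat_lit 860393890) (nat_lit 380) (nat_lit 5331277127) (nat_lit 110) (nat_lit 5) (nat_lit 114) (nat_lit 5) (nat_lit 115) (nat_lit 4) (nat_lit 461) (nat_lit 343) (nat_lit 336)) (XT.nd (nat_lit 78) (nat_lit 76) (nat_lit 0) (XT.lf (nat_lit 0) (nat_lit 1103628235) (nat_lit 380) (nat_lit 7662683302) (nat_lit 380) (nat_lit 1377217893) (nat_lit 105) (nat_lit 4) (nat_lit 110) (nat_lit 5) (nat_lit 110) (nat_lit 4) (nat_lit 462) (nat_lit 343) (nat_lit 335)) (XT.lf (nat_lit 0) (nat_lit 2607782718) (nat_lit 456) (nat_lit 1735703447) (nat_lit 76) (nat_lit 5904667369) (nat_lit 104) (nat_lit 5) (nat_lit 110) (nat_lit 5) (nat_lit 105) (nat_lit 4) (nat_lit 463) (nat_lit 343) (nat_lit 334)))) (XT.nd (nat_lit 78) (nat_lit 380) (nat_lit 0) (XT.lf (nat_lit 0) (nat_lit 5688027840) (nat_lit 304) (nat_lit 943325564) (nat_lit 380) (nat_lit 3723809646)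 (nat_lit 100) (nat_lit 5) (nat_lit 104) (nat_lit 5) (nat_lit 105) (nat_lit 4) (nat_lit 464) (nat_lit 343) (nat_lit 333)) (XT.nd (nat_lit 78) (nat_lit 0) (nat_lit 0) (XT.lf (nat_lit 0) (nat_lit 254099403) (nat_lit 380) (nat_lit 7719450518) (nat_lit 76) (nat_lit 2491016591) (nat_lit 95) (nat_lit 5) (nat_lit 100) (nat_lit 5) (nat_lit 96) (nat_lit 4) (nat_lit 465) (nat_lit 343) (nat_lit 332)) (XT.lf (nat_lit 0) (nat_lit 4240411128) (nat_lit 380) (nat_lit 330384092) (nat_lit 76) (nat_lit 6005316405) (nat_lit 95) (nat_lit 5) (nat_lit 100) (nat_lit 5) (nat_lit 96) (nat_lit 4) (nat_lit 466) (nat_lit 343) (nat_lit 331))))))))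
noncomputable def xc18 : XT := (XT.nd (nat_lit 1560) (nat_lit 2128) (nat_lit 0) (XT.nd (nat_lit 780) (nat_lit 1824) (nat_lit 0) (XT.nd (nat_lit 390) (nat_lit 836) (nat_lit 0) (XT.nd (nat_lit 156) (nat_lit 608) (nat_lit 0) (XT.nd (nat_lit 78) (nat_lit 380) (nat_lit 0) (XT.lf (nat_lit 0) (nat_lit 7210229762) (nat_lit 304) (nat_lit 1085078176) (nat_lit 380) (nat_lit 2394822126) (nat_lit 91) (nat_lit 5) (nat_lit 95) (nat_lit 5) (nat_lit 96) (nat_lit 4) (nat_lit 467) (nat_lit 343) (nat_lit 330)) (XT.lf (nat_lit 0) (nat_lit 1590378394) (nat_lit 380) (nat_lit 6771572344) (nat_lit 76) (nat_lit 2444549680) (nat_lit 86) (nat_lit 5) (nat_lit 91) (nat_lit 5) (nat_lit 87) (nat_lit 4) (nat_lit 468) (nat_lit 343) (nat_lit 329))) (XT.nd (nat_lit 78) (nat_lit 380) (nat_lit 0) (XT.lf (nat_lit 0) (nat_lit 717363938) (nat_lit 228) (nat_lit 4883760736) (nat_lit 304) (nat_lit 5324217213) (nat_lit 83) (nat_lit 5) (nat_lit 86)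 (nat_lit 5) (nat_lit 87) (nat_lit 4) (nat_lit 469) (nat_lit 343) (nat_lit 328)) (XT.nd (nat_lit 78) (nat_lit 380) (nat_lit 0) (XT.lf (nat_lit 0) (nat_lit 8357133377) (nat_lit 228) (nat_lit 1323459377) (nat_lit 304) (nat_lit 1366215404) (nat_lit 83) (nat_lit 5) (nat_lit 86) (nat_lit 5) (nat_lit 87) (nat_lit 4) (nat_lit 470) (nat_lit 343) (nat_lit 327)) (XT.lf (nat_lit 0) (nat_lit 2626858793) (nat_lit 380) (nat_lit 6249275179) (nat_lit 76) (nat_lit 2294421514) (nat_lit 78) (nat_lit 5) (nat_lit 83) (nat_lit 5) (nat_lit 79) (nat_lit 4) (nat_lit 471) (nat_lit 343) (nat_lit 326))))) (XT.nd (nat_lit 156) (nat_lit 608) (nat_lit 0) (XT.nd (nat_lit 78) (nat_lit 0) (nat_lit 0) (XT.lf (nat_lit 0) (nat_lit 1334016428) (nat_lit 228) (nat_lit 5327197553) (nat_lit 304) (nat_lit 4635805967) (nat_lit 75) (nat_lit 5) (nat_lit 78) (nat_lit 5) (nat_lit 79) (nat_lit 4) (nat_lit 472) (nat_lit 343) (nat_lit 325)) (XT.lf (nat_lit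 0) (nat_lit 9064232373) (nat_lit 228) (nat_lit 1698576511) (nat_lit 304) (nat_lit 663490494) (nat_lit 75) (nat_lit 5) (nat_lit 78) (nat_lit 5) (nat_lit 79) (nat_lit 4) (nat_lit 473) (nat_lit 343) (nat_lit 324))) (XT.nd (nat_lit 78) (nat_lit 228) (nat_lit 0) (XT.lf (nat_lit 0) (nat_lit 3337058980) (nat_lit 380) (nat_lit 6220675041) (nat_lit 76) (nat_lit 2000141968) (nat_lit 70) (nat_lit 5) (nat_lit 75) (nat_lit 5) (nat_lit 71) (nat_lit 4) (nat_lit 474) (nat_lit 343) (nat_lit 323)) (XT.nd (nat_lit 78) (nat_lit 0) (nat_lit 0) (XT.lf (nat_lit 0) (nat_lit 1445172084) (nat_lit 228) (nat_lit 5945768801) (nat_lit 304) (nat_lit 4301427191) (nat_lit 67) (nat_lit 5) (nat_lit 70) (nat_lit 5) (nat_lit 71) (nat_lit 4) (nat_lit 475) (nat_lit 343) (nat_lit 322)) (XT.lf (nat_lit 0) (nat_lit 9260503462) (nat_lit 228) (nat_lit 2253244804) (nat_lit 304) (nat_lit 316060237) (nat_lit 67) (nat_lit 5) (nat_lit 70) (nat_lit 5) (nat_lit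 71) (nat_lit 4) (nat_lit 476) (nat_lit 343) (nat_lit 321)))))) (XT.nd (nat_lit 390) (nat_lit 988) (nat_lit 0) (XT.nd (nat_lit 156) (nat_lit 304) (nat_lit 0) (XT.nd (nat_lit 78) (nat_lit 228) (nat_lit 0) (XT.lf (nat_lit 0) (nat_lit 3690516137) (nat_lit 304) (nat_lit 6760798435) (nat_lit 76) (nat_lit 1518397781) (nat_lit 63) (nat_lit 5) (nat_lit 67) (nat_lit 5) (nat_lit 64) (nat_lit 4) (nat_lit 477) (nat_lit 343) (nat_lit 320)) (XT.lf (nat_lit 0) (nat_lit 973670996) (nat_lit 228) (nat_lit 6784981449) (nat_lit 304) (nat_lit 4354021406) (nat_lit 60) (nat_lit 5) (nat_lit 63) (nat_lit 5) (nat_lit 64) (nat_lit 4) (nat_lit 478) (nat_lit 343) (nat_lit 319))) (XT.nd (nat_lit 78) (nat_lit 304) (nat_lit 0) (XT.lf (nat_lit 0) (nat_lit 8867624545) (nat_lit 228) (nat_lit 3033426722) (nat_lit 304) (nat_lit 357599598) (nat_lit 60) (nat_lit 5) (nat_lit 63) (nat_lit 5) (nat_lit 64) (nat_lit 4) (nat_lit 479) (nat_lit 343) (nat_lit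 318)) (XT.nd (nat_lit 78) (nat_lit 0) (nat_lit 0) (XT.lf (nat_lit 0) (nat_lit 3652424426) (nat_lit 304) (nat_lit 7952399724) (nat_lit 76) (nat_lit 802605184) (nat_lit 56) (nat_lit 5) (nat_lit 60) (nat_lit 5) (nat_lit 57) (nat_lit 4) (nat_lit 480) (nat_lit 343) (nat_lit 317)) (XT.lf (nat_lit 0) (nat_lit 7729307350) (nat_lit 304) (nat_lit 163466837) (nat_lit 76) (nat_lit 4666546435) (nat_lit 56) (nat_lit 5) (nat_lit 60) (nat_lit 5) (nat_lit 57) (nat_lit 4) (nat_lit 481) (nat_lit 343) (nat_lit 316))))) (XT.nd (nat_lit 156) (nat_lit 456) (nat_lit 0) (XT.nd (nat_lit 78) (nat_lit 304) (nat_lit 0) (XT.lf (nat_lit 0) (nat_lit 7799116163) (nat_lit 228) (nat_lit 4088706659) (nat_lit 304) (nat_lit 826438207) (nat_lit 53) (nat_lit 5) (nat_lit 56) (nat_lit 5) (nat_lit 57) (nat_lit 4) (nat_lit 482) (nat_lit 343) (nat_lit 315)) (XT.lf (nat_lit 0) (nat_lit 2984330165) (nat_lit 228) (nat_lit 200199664) (nat_lit 304) (nat_lit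 9687959328) (nat_lit 49) (nat_lit 5) (nat_lit 52) (nat_lit 5) (nat_lit 53) (nat_lit 5) (nat_lit 483) (nat_lit 343) (nat_lit 314))) (XT.nd (nat_lit 78) (nat_lit 456) (nat_lit 0) (XT.lf (nat_lit 0) (nat_lit 7272097993) (nat_lit 304) (nat_lit 2039723273) (nat_lit 76) (nat_lit 3721814823) (nat_lit 49) (nat_lit 5) (nat_lit 53) (nat_lit 5) (nat_lit 50) (nat_lit 4) (nat_lit 484) (nat_lit 343) (nat_lit 313)) (XT.nd (nat_lit 78) (nat_lit 304) (nat_lit 0) (XT.lf (nat_lit 0) (nat_lit 5959397769) (nat_lit 152) (nat_lit 5472805503) (nat_lit 228) (nat_lit 1765999161) (nat_lit 47) (nat_lit 5) (nat_lit 49) (nat_lit 5) (nat_lit 50) (nat_lit 4) (nat_lit 485) (nat_lit 343) (nat_lit 312)) (XT.lf (nat_lit 0) (nat_lit 691108693) (nat_lit 228) (nat_lit 1557180219) (nat_lit 304) (nat_lit 11118100472) (nat_lit 43) (nat_lit 5) (nat_lit 46) (nat_lit 5) (nat_lit 47) (nat_lit 5) (nat_lit 486) (nat_lit 343) (nat_lit 311))))))) (XT.nd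 (nat_lit 780) (nat_lit 988) (nat_lit 0) (XT.nd (nat_lit 390) (nat_lit 684) (nat_lit 0) (XT.nd (nat_lit 156) (nat_lit 304) (nat_lit 0) (XT.nd (nat_lit 78) (nat_lit 152) (nat_lit 0) (XT.lf (nat_lit 0) (nat_lit 6335024926) (nat_lit 304) (nat_lit 4770514022) (nat_lit 76) (nat_lit 2431862966) (nat_lit 43) (nat_lit 5) (nat_lit 47) (nat_lit 5) (nat_lit 44) (nat_lit 4) (nat_lit 487) (nat_lit 343) (nat_lit 310)) (XT.lf (nat_lit 0) (nat_lit 3242749483) (nat_lit 152) (nat_lit 7244140033) (nat_lit 228) (nat_lit 3225288563) (nat_lit 41) (nat_lit 5) (nat_lit 43) (nat_lit 5) (nat_lit 44) (nat_lit 4) (nat_lit 488) (nat_lit 343) (nat_lit 309))) (XT.nd (nat_lit 78) (nat_lit 228) (nat_lit 0) (XT.lf (nat_lit 0) (nat_lit 804777501) (nat_lit 228) (nat_lit 2496399531) (nat_lit 76) (nat_lit 10589488822) (nat_lit 40) (nat_lit 5) (nat_lit 43) (nat_lit 5) (nat_lit 41) (nat_lit 5) (nat_lit 489) (nat_lit 343) (nat_lit 308)) (XT.nd (nat_lit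 78) (nat_lit 0) (nat_lit 0) (XT.lf (nat_lit 0) (nat_lit 4866607409) (nat_lit 304) (nat_lit 8469400197) (nat_lit 76) (nat_lit 736413023) (nat_lit 37) (nat_lit 5) (nat_lit 41) (nat_lit 5) (nat_lit 38) (nat_lit 4) (nat_lit 490) (nat_lit 343) (nat_lit 307)) (XT.lf (nat_lit 0) (nat_lit 9001639072) (nat_lit 304) (nat_lit 461695244) (nat_lit 76) (nat_lit 4794647283) (nat_lit 37) (nat_lit 5) (nat_lit 41) (nat_lit 5) (nat_lit 38) (nat_lit 4) (nat_lit 491) (nat_lit 343) (nat_lit 306))))) (XT.nd (nat_lit 156) (nat_lit 228) (nat_lit 0) (XT.nd (nat_lit 78) (nat_lit 304) (nat_lit 0) (XT.lf (nat_lit 0) (nat_lit 7728589475) (nat_lit 152) (nat_lit 5495117845) (nat_lit 228) (nat_lit 1223469946) (nat_lit 35) (nat_lit 5) (nat_lit 37) (nat_lit 5) (nat_lit 38) (nat_lit 4) (nat_lit 492) (nat_lit 343) (nat_lit 305)) (XT.lf (nat_lit 0) (nat_lit 1368978255) (nat_lit 228) (nat_lit 1449420916) (nat_lit 304) (nat_lit 11822067340) (nat_lit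 31) (nat_lit 5) (nat_lit 34) (nat_lit 5) (nat_lit 35) (nat_lit 5) (nat_lit 493) (nat_lit 343) (nat_lit 304))) (XT.nd (nat_lit 78) (nat_lit 228) (nat_lit 0) (XT.lf (nat_lit 0) (nat_lit 6941912762) (nat_lit 304) (nat_lit 5232351972) (nat_lit 76) (nat_lit 2662860888) (nat_lit 31) (nat_lit 5) (nat_lit 35) (nat_lit 5) (nat_lit 32) (nat_lit 4) (nat_lit 494) (nat_lit 343) (nat_lit 303)) (XT.nd (nat_lit 78) (nat_lit 76) (nat_lit 0) (XT.lf (nat_lit 0) (nat_lit 2918582364) (nat_lit 152) (nat_lit 8213164511) (nat_lit 228) (nat_lit 3906303455) (nat_lit 29) (nat_lit 5) (nat_lit 31) (nat_lit 5) (nat_lit 32) (nat_lit 4) (nat_lit 495) (nat_lit 343) (nat_lit 302)) (XT.lf (nat_lit 0) (nat_lit 150973733) (nat_lit 228) (nat_lit 4017871582) (nat_lit 76) (nat_lit 11074321801) (nat_lit 28) (nat_lit 5) (nat_lit 31) (nat_lit 5) (nat_lit 29) (nat_lit 5) (nat_lit 496) (nat_lit 343) (nat_lit 301)))))) (XT.nd (nat_lit 390) (nat_lit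 456) (nat_lit 0) (XT.nd (nat_lit 156) (nat_lit 380) (nat_lit 0) (XT.nd (nat_lit 78) (nat_lit 0) (nat_lit 0) (XT.lf (nat_lit 0) (nat_lit 4198724046) (nat_lit 152) (nat_lit 21926740) (nat_lit 228) (nat_lit 11231556722) (nat_lit 26) (nat_lit 5) (nat_lit 28) (nat_lit 5) (nat_lit 29) (nat_lit 5) (nat_lit 497) (nat_lit 343) (nat_lit 300)) (XT.lf (nat_lit 0) (nat_lit 8382588734) (nat_lit 228) (nat_lit 3134668813) (nat_lit 76) (nat_lit 4147962518) (nat_lit 26) (nat_lit 5) (nat_lit 29) (nat_lit 5) (nat_lit 27) (nat_lit 4) (nat_lit 498) (nat_lit 343) (nat_lit 299))) (XT.nd (nat_lit 78) (nat_lit 228) (nat_lit 0) (XT.lf (nat_lit 0) (nat_lit 5138877149) (nat_lit 152) (nat_lit 7479659372) (nat_lit 228) (nat_lit 3264149463) (nat_lit 24) (nat_lit 5) (nat_lit 26) (nat_lit 5) (nat_lit 27) (nat_lit 4) (nat_lit 499) (nat_lit 343) (nat_lit 298)) (XT.nd (nat_lit 78) (nat_lit 152) (nat_lit 0) (XT.lf (nat_lit 0) (nat_lit 802256225)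 (nat_lit 228) (nat_lit 2564233600) (nat_lit 76) (nat_lit 12738341181) (nat_lit 23) (nat_lit 5) (nat_lit 26) (nat_lit 5) (nat_lit 24) (nat_lit 5) (nat_lit 500) (nat_lit 343) (nat_lit 297)) (XT.lf (nat_lit 0) (nat_lit 4907448185) (nat_lit 228) (nat_lit 10577309078) (nat_lit 76) (nat_lit 846214883) (nat_lit 21) (nat_lit 5) (nat_lit 24) (nat_lit 5) (nat_lit 22) (nat_lit 4) (nat_lit 501) (nat_lit 343) (nat_lit 296))))) (XT.nd (nat_lit 234) (nat_lit 228) (nat_lit 0) (XT.nd (nat_lit 78) (nat_lit 228) (nat_lit 0) (XT.lf (nat_lit 0) (nat_lit 9092664966) (nat_lit 228) (nat_lit 2384682783) (nat_lit 76) (nat_lit 5084337824) (nat_lit 21) (nat_lit 5) (nat_lit 24) (nat_lit 5) (nat_lit 22) (nat_lit 4) (nat_lit 502) (nat_lit 343) (nat_lit 295)) (XT.nd (nat_lit 78) (nat_lit 76) (nat_lit 0) (XT.lf (nat_lit 0) (nat_lit 5977983896) (nat_lit 152) (nat_lit 7381537805) (nat_lit 228) (nat_lit 3437540585) (nat_lit 19) (nat_lit 5)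 (nat_lit 21) (nat_lit 5) (nat_lit 22) (nat_lit 4) (nat_lit 503) (nat_lit 343) (nat_lit 294)) (XT.lf (nat_lit 0) (nat_lit 641012751) (nat_lit 228) (nat_lit 2573372548) (nat_lit 76) (nat_lit 13823175249) (nat_lit 18) (nat_lit 5) (nat_lit 21) (nat_lit 5) (nat_lit 19) (nat_lit 5) (nat_lit 504) (nat_lit 343) (nat_lit 293)))) (XT.nd (nat_lit 78) (nat_lit 76) (nat_lit 0) (XT.lf (nat_lit 0) (nat_lit 4759848918) (nat_lit 228) (nat_lit 11469453177) (nat_lit 76) (nat_lit 1053024714) (nat_lit 16) (nat_lit 5) (nat_lit 19) (nat_lit 5) (nat_lit 17) (nat_lit 4) (nat_lit 505) (nat_lit 343) (nat_lit 292)) (XT.nd (nat_lit 78) (nat_lit 76) (nat_lit 0) (XT.lf (nat_lit 0) (nat_lit 8959842981) (nat_lit 228) (nat_lit 3222324285) (nat_lit 76) (nat_lit 5349852646) (nat_lit 16) (nat_lit 5) (nat_lit 19) (nat_lit 5) (nat_lit 17) (nat_lit 4) (nat_lit 506) (nat_lit 343) (nat_lit 291)) (XT.lf (nat_lit 0) (nat_lit 5188176281) (nat_lit 76)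 (nat_lit 8050238673) (nat_lit 152) (nat_lit 4548407362) (nat_lit 15) (nat_lit 5) (nat_lit 16) (nat_lit 5) (nat_lit 17) (nat_lit 4) (nat_lit 507) (nat_lit 343) (nat_lit 290))))))))
noncomputable def xc19 : XT := (XT.nd (nat_lit 1560) (nat_lit 3268) (nat_lit 0) (XT.nd (nat_lit 780) (nat_lit 2432) (nat_lit 0) (XT.nd (nat_lit 390) (nat_lit 1596) (nat_lit 0) (XT.nd (nat_lit 156) (nat_lit 912) (nat_lit 0) (XT.nd (nat_lit 78) (nat_lit 456) (nat_lit 0) (XT.lf (nat_lit 0) (nat_lit 3114530417) (nat_lit 456) (nat_lit 745790881) (nat_lit 456) (nat_lit 745790881) (nat_lit 149) (nat_lit 4) (nat_lit 155) (nat_lit 5) (nat_lit 155) (nat_lit 4) (nat_lit 452) (nat_lit 344) (nat_lit 344)) (XT.lf (nat_lit 0) (nat_lit 2459077767) (nat_lit 456) (nat_lit 5289163996) (nat_lit 0) (nat_lit 1548531992) (nat_lit 143) (nat_lit 5) (nat_lit 149) (nat_lit 4) (nat_lit 143) (nat_lit 4) (nat_lit 453) (nat_lit 344) (nat_lit 343))) (XT.nd (nat_lit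 78) (nat_lit 456) (nat_lit 0) (XT.lf (nat_lit 0) (nat_lit 1705064651) (nat_lit 456) (nat_lit 4740738480) (nat_lit 456) (nat_lit 2937500769) (nat_lit 137) (nat_lit 4) (nat_lit 143) (nat_lit 5) (nat_lit 143) (nat_lit 4) (nat_lit 454) (nat_lit 344) (nat_lit 342)) (XT.nd (nat_lit 78) (nat_lit 380) (nat_lit 0) (XT.lf (nat_lit 0) (nat_lit 998891603) (nat_lit 532) (nat_lit 660664844) (nat_lit 76) (nat_lit 7812462603) (nat_lit 136) (nat_lit 5) (nat_lit 143) (nat_lit 5) (nat_lit 137) (nat_lit 4) (nat_lit 455) (nat_lit 344) (nat_lit 341)) (XT.lf (nat_lit 0) (nat_lit 4963942609) (nat_lit 456) (nat_lit 3101586814) (nat_lit 0) (nat_lit 1496831330) (nat_lit 131) (nat_lit 5) (nat_lit 137) (nat_lit 4) (nat_lit 131) (nat_lit 4) (nat_lit 456) (nat_lit 344) (nat_lit 340))))) (XT.nd (nat_lit 156) (nat_lit 760) (nat_lit 0) (XT.nd (nat_lit 78) (nat_lit 456) (nat_lit 0) (XT.lf (nat_lit 0) (nat_lit 4028667304) (nat_lit 380) (nat_lit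 4959049768) (nat_lit 380) (nat_lit 667229127) (nat_lit 126) (nat_lit 4) (nat_lit 131) (nat_lit 5) (nat_lit 131) (nat_lit 4) (nat_lit 457) (nat_lit 344) (nat_lit 339)) (XT.lf (nat_lit 0) (nat_lit 1499866335) (nat_lit 380) (nat_lit 1767572064) (nat_lit 456) (nat_lit 6482161418) (nat_lit 120) (nat_lit 5) (nat_lit 125) (nat_lit 5) (nat_lit 126) (nat_lit 4) (nat_lit 458) (nat_lit 344) (nat_lit 338))) (XT.nd (nat_lit 78) (nat_lit 760) (nat_lit 0) (XT.lf (nat_lit 0) (nat_lit 7257962200) (nat_lit 456) (nat_lit 1107930092) (nat_lit 0) (nat_lit 1480467961) (nat_lit 120) (nat_lit 5) (nat_lit 126) (nat_lit 4) (nat_lit 120) (nat_lit 4) (nat_lit 459) (nat_lit 344) (nat_lit 337)) (XT.nd (nat_lit 78) (nat_lit 304) (nat_lit 0) (XT.lf (nat_lit 0) (nat_lit 1356314916) (nat_lit 456) (nat_lit 3799642079) (nat_lit 76) (nat_lit 4789117935) (nat_lit 114) (nat_lit 5) (nat_lit 120) (nat_lit 5) (nat_lit 115) (nat_lit 4) (nat_lit 460)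 (nat_lit 344) (nat_lit 336)) (XT.lf (nat_lit 0) (nat_lit 3449911906) (nat_lit 304) (nat_lit 1865075616) (nat_lit 380) (nat_lit 4731062231) (nat_lit 110) (nat_lit 5) (nat_lit 114) (nat_lit 5) (nat_lit 115) (nat_lit 4) (nat_lit 461) (nat_lit 344) (nat_lit 335)))))) (XT.nd (nat_lit 390) (nat_lit 1292) (nat_lit 0) (XT.nd (nat_lit 156) (nat_lit 684) (nat_lit 0) (XT.nd (nat_lit 78) (nat_lit 76) (nat_lit 0) (XT.lf (nat_lit 0) (nat_lit 654336682) (nat_lit 380) (nat_lit 8678292853) (nat_lit 380) (nat_lit 816840694) (nat_lit 105) (nat_lit 4) (nat_lit 110) (nat_lit 5) (nat_lit 110) (nat_lit 4) (nat_lit 462) (nat_lit 344) (nat_lit 334)) (XT.lf (nat_lit 0) (nat_lit 3131287362) (nat_lit 456) (nat_lit 2240133186) (nat_lit 76) (nat_lit 4883201984) (nat_lit 104) (nat_lit 5) (nat_lit 110) (nat_lit 5) (nat_lit 105) (nat_lit 4) (nat_lit 463) (nat_lit 344) (nat_lit 333))) (XT.nd (nat_lit 78) (nat_lit 380) (nat_lit 0) (XT.lf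 (nat_lit 0) (nat_lit 5131635179) (nat_lit 304) (nat_lit 1990666177) (nat_lit 380) (nat_lit 3239992126) (nat_lit 100) (nat_lit 5) (nat_lit 104) (nat_lit 5) (nat_lit 105) (nat_lit 4) (nat_lit 464) (nat_lit 344) (nat_lit 332)) (XT.nd (nat_lit 78) (nat_lit 0) (nat_lit 0) (XT.lf (nat_lit 0) (nat_lit 691775323) (nat_lit 380) (nat_lit 8339831968) (nat_lit 76) (nat_lit 1440832650) (nat_lit 95) (nat_lit 5) (nat_lit 100) (nat_lit 5) (nat_lit 96) (nat_lit 4) (nat_lit 465) (nat_lit 344) (nat_lit 331)) (XT.lf (nat_lit 0) (nat_lit 4649396581) (nat_lit 380) (nat_lit 995714729) (nat_lit 76) (nat_lit 4939457256) (nat_lit 95) (nat_lit 5) (nat_lit 100) (nat_lit 5) (nat_lit 96) (nat_lit 4) (nat_lit 466) (nat_lit 344) (nat_lit 330))))) (XT.nd (nat_lit 156) (nat_lit 608) (nat_lit 0) (XT.nd (nat_lit 78) (nat_lit 380) (nat_lit 0) (XT.lf (nat_lit 0) (nat_lit 6491403760) (nat_lit 304) (nat_lit 2180094628) (nat_lit 380) (nat_lit 2027754033)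 (nat_lit 91) (nat_lit 5) (nat_lit 95) (nat_lit 5) (nat_lit 96) (nat_lit 4) (nat_lit 467) (nat_lit 344) (nat_lit 329)) (XT.lf (nat_lit 0) (nat_lit 1912250554) (nat_lit 380) (nat_lit 7558871148) (nat_lit 76) (nat_lit 1345270188) (nat_lit 86) (nat_lit 5) (nat_lit 91) (nat_lit 5) (nat_lit 87) (nat_lit 4) (nat_lit 468) (nat_lit 344) (nat_lit 328))) (XT.nd (nat_lit 78) (nat_lit 608) (nat_lit 0) (XT.lf (nat_lit 0) (nat_lit 5890445756) (nat_lit 380) (nat_lit 123672923) (nat_lit 76) (nat_lit 4921774668) (nat_lit 86) (nat_lit 5) (nat_lit 91) (nat_lit 5) (nat_lit 87) (nat_lit 4) (nat_lit 469) (nat_lit 344) (nat_lit 327)) (XT.nd (nat_lit 78) (nat_lit 380) (nat_lit 0) (XT.lf (nat_lit 0) (nat_lit 7470414909) (nat_lit 228) (nat_lit 2471052819) (nat_lit 304) (nat_lit 1116469602) (nat_lit 83) (nat_lit 5) (nat_lit 86) (nat_lit 5) (nat_lit 87) (nat_lit 4) (nat_lit 470) (nat_lit 344) (nat_lit 326)) (XT.lf (nat_lit 0) (nat_lit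 2832259619) (nat_lit 380) (nat_lit 7209009974) (nat_lit 76) (nat_lit 1141212471) (nat_lit 78) (nat_lit 5) (nat_lit 83) (nat_lit 5) (nat_lit 79) (nat_lit 4) (nat_lit 471) (nat_lit 344) (nat_lit 325))))))) (XT.nd (nat_lit 780) (nat_lit 1596) (nat_lit 0) (XT.nd (nat_lit 390) (nat_lit 836) (nat_lit 0) (XT.nd (nat_lit 156) (nat_lit 608) (nat_lit 0) (XT.nd (nat_lit 78) (nat_lit 0) (nat_lit 0) (XT.lf (nat_lit 0) (nat_lit 317244062) (nat_lit 228) (nat_lit 6515639218) (nat_lit 304) (nat_lit 4476746160) (nat_lit 75) (nat_lit 5) (nat_lit 78) (nat_lit 5) (nat_lit 79) (nat_lit 4) (nat_lit 472) (nat_lit 344) (nat_lit 324)) (XT.lf (nat_lit 0) (nat_lit 8004045104) (nat_lit 228) (nat_lit 2903553193) (nat_lit 304) (nat_lit 531856291) (nat_lit 75) (nat_lit 5) (nat_lit 78) (nat_lit 5) (nat_lit 79) (nat_lit 4) (nat_lit 473) (nat_lit 344) (nat_lit 323))) (XT.nd (nat_lit 78) (nat_lit 228) (nat_lit 0) (XT.lf (nat_lit 0) (nat_lit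 3425109161) (nat_lit 380) (nat_lit 7358492891) (nat_lit 76) (nat_lit 788257012) (nat_lit 70) (nat_lit 5) (nat_lit 75) (nat_lit 5) (nat_lit 71) (nat_lit 4) (nat_lit 474) (nat_lit 344) (nat_lit 322)) (XT.nd (nat_lit 78) (nat_lit 0) (nat_lit 0) (XT.lf (nat_lit 0) (nat_lit 248591859) (nat_lit 228) (nat_lit 7196232293) (nat_lit 304) (nat_lit 4262217988) (nat_lit 67) (nat_lit 5) (nat_lit 70) (nat_lit 5) (nat_lit 71) (nat_lit 4) (nat_lit 475) (nat_lit 344) (nat_lit 321)) (XT.lf (nat_lit 0) (nat_lit 8021137574) (nat_lit 228) (nat_lit 3520335851) (nat_lit 304) (nat_lit 303539807) (nat_lit 67) (nat_lit 5) (nat_lit 70) (nat_lit 5) (nat_lit 71) (nat_lit 4) (nat_lit 476) (nat_lit 344) (nat_lit 320))))) (XT.nd (nat_lit 156) (nat_lit 532) (nat_lit 0) (XT.nd (nat_lit 78) (nat_lit 0) (nat_lit 0) (XT.lf (nat_lit 0) (nat_lit 3660127772) (nat_lit 304) (nat_lit 8082490895) (nat_lit 76) (nat_lit 243158890) (nat_lit 63) (nat_lit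 5) (nat_lit 67) (nat_lit 5) (nat_lit 64) (nat_lit 4) (nat_lit 477) (nat_lit 344) (nat_lit 319)) (XT.lf (nat_lit 0) (nat_lit 7696246896) (nat_lit 304) (nat_lit 403222336) (nat_lit 76) (nat_lit 4029917237) (nat_lit 63) (nat_lit 5) (nat_lit 67) (nat_lit 5) (nat_lit 64) (nat_lit 4) (nat_lit 478) (nat_lit 344) (nat_lit 318))) (XT.nd (nat_lit 78) (nat_lit 304) (nat_lit 0) (XT.lf (nat_lit 0) (nat_lit 7443220747) (nat_lit 228) (nat_lit 4367306879) (nat_lit 304) (nat_lit 465405149) (nat_lit 60) (nat_lit 5) (nat_lit 63) (nat_lit 5) (nat_lit 64) (nat_lit 4) (nat_lit 479) (nat_lit 344) (nat_lit 317)) (XT.nd (nat_lit 78) (nat_lit 0) (nat_lit 0) (XT.lf (nat_lit 0) (nat_lit 2958060012) (nat_lit 228) (nat_lit 547800131) (nat_lit 304) (nat_lit 8919675215) (nat_lit 56) (nat_lit 5) (nat_lit 59) (nat_lit 5) (nat_lit 60) (nat_lit 5) (nat_lit 480) (nat_lit 344) (nat_lit 316)) (XT.lf (nat_lit 0) (nat_lit 7554165521) (nat_lit 304)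 (nat_lit 1716775557) (nat_lit 76) (nat_lit 3307063648) (nat_lit 56) (nat_lit 5) (nat_lit 60) (nat_lit 5) (nat_lit 57) (nat_lit 4) (nat_lit 481) (nat_lit 344) (nat_lit 315)))))) (XT.nd (nat_lit 390) (nat_lit 836) (nat_lit 0) (XT.nd (nat_lit 156) (nat_lit 228) (nat_lit 0) (XT.nd (nat_lit 78) (nat_lit 304) (nat_lit 0) (XT.lf (nat_lit 0) (nat_lit 6183649940) (nat_lit 228) (nat_lit 5494012115) (nat_lit 304) (nat_lit 1055989859) (nat_lit 53) (nat_lit 5) (nat_lit 56) (nat_lit 5) (nat_lit 57) (nat_lit 4) (nat_lit 482) (nat_lit 344) (nat_lit 314)) (XT.lf (nat_lit 0) (nat_lit 1287679255) (nat_lit 228) (nat_lit 1634813008) (nat_lit 304) (nat_lit 9970133672) (nat_lit 49) (nat_lit 5) (nat_lit 52) (nat_lit 5) (nat_lit 53) (nat_lit 5) (nat_lit 483) (nat_lit 344) (nat_lit 313))) (XT.nd (nat_lit 78) (nat_lit 228) (nat_lit 0) (XT.lf (nat_lit 0) (nat_lit 6976373473) (nat_lit 304) (nat_lit 3788343103) (nat_lit 76) (nat_lit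 2289736064) (nat_lit 49) (nat_lit 5) (nat_lit 53) (nat_lit 5) (nat_lit 50) (nat_lit 4) (nat_lit 484) (nat_lit 344) (nat_lit 312)) (XT.nd (nat_lit 78) (nat_lit 76) (nat_lit 0) (XT.lf (nat_lit 0) (nat_lit 4146663800) (nat_lit 152) (nat_lit 6954150880) (nat_lit 228) (nat_lit 2118923501) (nat_lit 47) (nat_lit 5) (nat_lit 49) (nat_lit 5) (nat_lit 50) (nat_lit 4) (nat_lit 485) (nat_lit 344) (nat_lit 311)) (XT.lf (nat_lit 0) (nat_lit 1871657248) (nat_lit 228) (nat_lit 1190330657) (nat_lit 76) (nat_lit 10326555460) (nat_lit 46) (nat_lit 5) (nat_lit 49) (nat_lit 5) (nat_lit 47) (nat_lit 5) (nat_lit 486) (nat_lit 344) (nat_lit 310))))) (XT.nd (nat_lit 234) (nat_lit 380) (nat_lit 0) (XT.nd (nat_lit 78) (nat_lit 228) (nat_lit 0) (XT.lf (nat_lit 0) (nat_lit 5916991218) (nat_lit 304) (nat_lit 6720763391) (nat_lit 76) (nat_lit 922634902) (nat_lit 43) (nat_lit 5) (nat_lit 47) (nat_lit 5) (nat_lit 44) (nat_lit 4) (nat_lit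 487) (nat_lit 344) (nat_lit 309)) (XT.nd (nat_lit 78) (nat_lit 76) (nat_lit 0) (XT.lf (nat_lit 0) (nat_lit 1226346174) (nat_lit 152) (nat_lit 8806134619) (nat_lit 228) (nat_lit 3703417846) (nat_lit 41) (nat_lit 5) (nat_lit 43) (nat_lit 5) (nat_lit 44) (nat_lit 4) (nat_lit 488) (nat_lit 344) (nat_lit 308)) (XT.lf (nat_lit 0) (nat_lit 309678046) (nat_lit 228) (nat_lit 4573180389) (nat_lit 76) (nat_lit 9032060138) (nat_lit 40) (nat_lit 5) (nat_lit 43) (nat_lit 5) (nat_lit 41) (nat_lit 5) (nat_lit 489) (nat_lit 344) (nat_lit 307)))) (XT.nd (nat_lit 78) (nat_lit 152) (nat_lit 0) (XT.lf (nat_lit 0) (nat_lit 3464082237) (nat_lit 228) (nat_lit 865876184) (nat_lit 304) (nat_lit 9767551067) (nat_lit 37) (nat_lit 5) (nat_lit 40) (nat_lit 5) (nat_lit 41) (nat_lit 5) (nat_lit 490) (nat_lit 344) (nat_lit 306)) (XT.nd (nat_lit 78) (nat_lit 152) (nat_lit 0) (XT.lf (nat_lit 0) (nat_lit 8436673601) (nat_lit 304) (nat_lit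 2659177769) (nat_lit 76) (nat_lit 3187790466) (nat_lit 37) (nat_lit 5) (nat_lit 41) (nat_lit 5) (nat_lit 38) (nat_lit 4) (nat_lit 491) (nat_lit 344) (nat_lit 305)) (XT.lf (nat_lit 0) (nat_lit 5463083339) (nat_lit 152) (nat_lit 7158699694) (nat_lit 228) (nat_lit 1851798597) (nat_lit 35) (nat_lit 5) (nat_lit 37) (nat_lit 5) (nat_lit 38) (nat_lit 4) (nat_lit 492) (nat_lit 344) (nat_lit 304))))))))
noncomputable def xc20 : XT := (XT.nd (nat_lit 56316) (nat_lit 0) (nat_lit 4180) (XT.nd (nat_lit 780) (nat_lit 456) (nat_lit 0) (XT.nd (nat_lit 390) (nat_lit 380) (nat_lit 0) (XT.nd (nat_lit 156) (nat_lit 380) (nat_lit 0) (XT.nd (nat_lit 78) (nat_lit 228) (nat_lit 0) (XT.lf (nat_lit 0) (nat_lit 2167211479) (nat_lit 228) (nat_lit 975166092) (nat_lit 76) (nat_lit 11525201646) (nat_lit 34) (nat_lit 5) (nat_lit 37) (nat_lit 5) (nat_lit 35) (nat_lit 5) (nat_lit 493) (nat_lit 344) (nat_lit 303)) (XT.lf (nat_lit 0) (nat_lit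 6251147527) (nat_lit 304) (nat_lit 7644109818) (nat_lit 76) (nat_lit 969777195) (nat_lit 31) (nat_lit 5) (nat_lit 35) (nat_lit 5) (nat_lit 32) (nat_lit 4) (nat_lit 494) (nat_lit 344) (nat_lit 302))) (XT.nd (nat_lit 78) (nat_lit 228) (nat_lit 0) (XT.lf (nat_lit 0) (nat_lit 436579145) (nat_lit 152) (nat_lit 9966593870) (nat_lit 228) (nat_lit 4663546979) (nat_lit 29) (nat_lit 5) (nat_lit 31) (nat_lit 5) (nat_lit 32) (nat_lit 4) (nat_lit 495) (nat_lit 344) (nat_lit 301)) (XT.nd (nat_lit 78) (nat_lit 228) (nat_lit 0) (XT.lf (nat_lit 0) (nat_lit 8706859957) (nat_lit 152) (nat_lit 5939221693) (nat_lit 228) (nat_lit 626209709) (nat_lit 29) (nat_lit 5) (nat_lit 31) (nat_lit 5) (nat_lit 32) (nat_lit 4) (nat_lit 496) (nat_lit 344) (nat_lit 300)) (XT.lf (nat_lit 0) (nat_lit 1583938876) (nat_lit 152) (nat_lit 1829530624) (nat_lit 228) (nat_lit 12068712089) (nat_lit 26) (nat_lit 5) (nat_lit 28) (nat_lit 5) (nat_lit 29)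 (nat_lit 5) (nat_lit 497) (nat_lit 344) (nat_lit 299))))) (XT.nd (nat_lit 156) (nat_lit 228) (nat_lit 0) (XT.nd (nat_lit 78) (nat_lit 152) (nat_lit 0) (XT.lf (nat_lit 0) (nat_lit 7542513301) (nat_lit 228) (nat_lit 5804769658) (nat_lit 76) (nat_lit 2348573295) (nat_lit 26) (nat_lit 5) (nat_lit 29) (nat_lit 5) (nat_lit 27) (nat_lit 4) (nat_lit 498) (nat_lit 344) (nat_lit 298)) (XT.lf (nat_lit 0) (nat_lit 2396458245) (nat_lit 152) (nat_lit 9343454119) (nat_lit 228) (nat_lit 4174184925) (nat_lit 24) (nat_lit 5) (nat_lit 26) (nat_lit 5) (nat_lit 27) (nat_lit 4) (nat_lit 499) (nat_lit 344) (nat_lit 297))) (XT.nd (nat_lit 78) (nat_lit 228) (nat_lit 0) (XT.lf (nat_lit 0) (nat_lit 10767450472) (nat_lit 152) (nat_lit 5251208871) (nat_lit 228) (nat_lit 118104005) (nat_lit 24) (nat_lit 5) (nat_lit 26) (nat_lit 5) (nat_lit 27) (nat_lit 4) (nat_lit 500) (nat_lit 344) (nat_lit 296)) (XT.nd (nat_lit 78) (nat_lit 0) (nat_lit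 0) (XT.lf (nat_lit 0) (nat_lit 2881609914) (nat_lit 152) (nat_lit 1062470658) (nat_lit 228) (nat_lit 12419734283) (nat_lit 21) (nat_lit 5) (nat_lit 23) (nat_lit 5) (nat_lit 24) (nat_lit 5) (nat_lit 501) (nat_lit 344) (nat_lit 295)) (XT.lf (nat_lit 0) (nat_lit 8102162743) (nat_lit 228) (nat_lit 5318430122) (nat_lit 76) (nat_lit 3174481935) (nat_lit 21) (nat_lit 5) (nat_lit 24) (nat_lit 5) (nat_lit 22) (nat_lit 4) (nat_lit 502) (nat_lit 344) (nat_lit 294)))))) (XT.nd (nat_lit 390) (nat_lit 0) (nat_lit 0) (XT.nd (nat_lit 156) (nat_lit 304) (nat_lit 0) (XT.nd (nat_lit 78) (nat_lit 0) (nat_lit 0) (XT.lf (nat_lit 0) (nat_lit 2969734055) (nat_lit 152) (nat_lit 9359914314) (nat_lit 228) (nat_lit 4501594316) (nat_lit 19) (nat_lit 5) (nat_lit 21) (nat_lit 5) (nat_lit 22) (nat_lit 4) (nat_lit 503) (nat_lit 344) (nat_lit 293)) (XT.lf (nat_lit 0) (nat_lit 11425421513) (nat_lit 152) (nat_lit 5212204917) (nat_lit 228)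 (nat_lit 434596072) (nat_lit 19) (nat_lit 5) (nat_lit 21) (nat_lit 5) (nat_lit 22) (nat_lit 4) (nat_lit 504) (nat_lit 344) (nat_lit 292))) (XT.nd (nat_lit 78) (nat_lit 76) (nat_lit 0) (XT.lf (nat_lit 0) (nat_lit 2673672246) (nat_lit 152) (nat_lit 969490100) (nat_lit 228) (nat_lit 13674821937) (nat_lit 16) (nat_lit 5) (nat_lit 18) (nat_lit 5) (nat_lit 19) (nat_lit 5) (nat_lit 505) (nat_lit 344) (nat_lit 291)) (XT.nd (nat_lit 78) (nat_lit 76) (nat_lit 0) (XT.lf (nat_lit 0) (nat_lit 7817501909) (nat_lit 228) (nat_lit 6425351329) (nat_lit 76) (nat_lit 3325340703) (nat_lit 16) (nat_lit 5) (nat_lit 19) (nat_lit 5) (nat_lit 17) (nat_lit 4) (nat_lit 506) (nat_lit 344) (nat_lit 290)) (XT.lf (nat_lit 0) (nat_lit 1908346667) (nat_lit 76) (nat_lit 10147452066) (nat_lit 152) (nat_lit 5768006513) (nat_lit 15) (nat_lit 5) (nat_lit 16) (nat_lit 5) (nat_lit 17) (nat_lit 4) (nat_lit 507) (nat_lit 344) (nat_lit 289))))) (XT.nd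 (nat_lit 54912) (nat_lit 0) (nat_lit 9728) (XT.nd (nat_lit 54834) (nat_lit 0) (nat_lit 10640) (XT.lf (nat_lit 0) (nat_lit 10428015192) (nat_lit 76) (nat_lit 5955935105) (nat_lit 152) (nat_lit 1700483432) (nat_lit 15) (nat_lit 5) (nat_lit 16) (nat_lit 5) (nat_lit 17) (nat_lit 4) (nat_lit 508) (nat_lit 344) (nat_lit 288)) (XT.lf (nat_lit 0) (nat_lit 366450611) (nat_lit 532) (nat_lit 3791216651) (nat_lit 0) (nat_lit 366450611) (nat_lit 155) (nat_lit 5) (nat_lit 162) (nat_lit 4) (nat_lit 155) (nat_lit 4) (nat_lit 450) (nat_lit 345) (nat_lit 345))) (XT.nd (nat_lit 78) (nat_lit 912) (nat_lit 0) (XT.lf (nat_lit 0) (nat_lit 4657013695) (nat_lit 532) (nat_lit 762798355) (nat_lit 0) (nat_lit 3709681871) (nat_lit 155) (nat_lit 5) (nat_lit 162) (nat_lit 4) (nat_lit 155) (nat_lit 4) (nat_lit 451) (nat_lit 345) (nat_lit 344)) (XT.nd (nat_lit 78) (nat_lit 456) (nat_lit 0) (XT.lf (nat_lit 0) (nat_lit 6183498862) (nat_lit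 456) (nat_lit 2452731516) (nat_lit 456) (nat_lit 576643001) (nat_lit 149) (nat_lit 4) (nat_lit 155) (nat_lit 5) (nat_lit 155) (nat_lit 4) (nat_lit 452) (nat_lit 345) (nat_lit 343)) (XT.lf (nat_lit 0) (nat_lit 3323741105) (nat_lit 456) (nat_lit 5382595262) (nat_lit 0) (nat_lit 591746704) (nat_lit 143) (nat_lit 5) (nat_lit 149) (nat_lit 4) (nat_lit 143) (nat_lit 4) (nat_lit 453) (nat_lit 345) (nat_lit 342))))))) (XT.nd (nat_lit 780) (nat_lit 2584) (nat_lit 0) (XT.nd (nat_lit 390) (nat_lit 1216) (nat_lit 0) (XT.nd (nat_lit 156) (nat_lit 1216) (nat_lit 0) (XT.nd (nat_lit 78) (nat_lit 76) (nat_lit 0) (XT.lf (nat_lit 0) (nat_lit 1564442927) (nat_lit 456) (nat_lit 5714003296) (nat_lit 456) (nat_lit 2106820721) (nat_lit 137) (nat_lit 4) (nat_lit 143) (nat_lit 5) (nat_lit 143) (nat_lit 4) (nat_lit 454) (nat_lit 345) (nat_lit 341)) (XT.lf (nat_lit 0) (nat_lit 1787670565) (nat_lit 532) (nat_lit 854115652) (nat_lit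 76) (nat_lit 6832720946) (nat_lit 136) (nat_lit 5) (nat_lit 143) (nat_lit 5) (nat_lit 137) (nat_lit 4) (nat_lit 455) (nat_lit 345) (nat_lit 340))) (XT.nd (nat_lit 78) (nat_lit 836) (nat_lit 0) (XT.lf (nat_lit 0) (nat_lit 5714277236) (nat_lit 456) (nat_lit 3339442250) (nat_lit 0) (nat_lit 511910820) (nat_lit 131) (nat_lit 5) (nat_lit 137) (nat_lit 4) (nat_lit 131) (nat_lit 4) (nat_lit 456) (nat_lit 345) (nat_lit 339)) (XT.nd (nat_lit 78) (nat_lit 380) (nat_lit 0) (XT.lf (nat_lit 0) (nat_lit 46522628) (nat_lit 456) (nat_lit 5916929297) (nat_lit 76) (nat_lit 3695410852) (nat_lit 125) (nat_lit 5) (nat_lit 131) (nat_lit 5) (nat_lit 126) (nat_lit 4) (nat_lit 457) (nat_lit 345) (nat_lit 338)) (XT.lf (nat_lit 0) (nat_lit 1155440003) (nat_lit 380) (nat_lit 2784673809) (nat_lit 456) (nat_lit 5813974280) (nat_lit 120) (nat_lit 5) (nat_lit 125) (nat_lit 5) (nat_lit 126) (nat_lit 4) (nat_lit 458) (nat_lit 345) (nat_lit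 337))))) (XT.nd (nat_lit 156) (nat_lit 760) (nat_lit 0) (XT.nd (nat_lit 78) (nat_lit 456) (nat_lit 0) (XT.lf (nat_lit 0) (nat_lit 7894148494) (nat_lit 456) (nat_lit 1495383068) (nat_lit 0) (nat_lit 462058346) (nat_lit 120) (nat_lit 5) (nat_lit 126) (nat_lit 4) (nat_lit 120) (nat_lit 4) (nat_lit 459) (nat_lit 345) (nat_lit 336)) (XT.lf (nat_lit 0) (nat_lit 1946632750) (nat_lit 456) (nat_lit 4246856670) (nat_lit 76) (nat_lit 3757391655) (nat_lit 114) (nat_lit 5) (nat_lit 120) (nat_lit 5) (nat_lit 115) (nat_lit 4) (nat_lit 460) (nat_lit 345) (nat_lit 335))) (XT.nd (nat_lit 78) (nat_lit 456) (nat_lit 0) (XT.lf (nat_lit 0) (nat_lit 2951799554) (nat_lit 304) (nat_lit 2921058214) (nat_lit 380) (nat_lit 4179658010) (nat_lit 110) (nat_lit 5) (nat_lit 114) (nat_lit 5) (nat_lit 115) (nat_lit 4) (nat_lit 461) (nat_lit 345) (nat_lit 334)) (XT.nd (nat_lit 78) (nat_lit 76) (nat_lit 0) (XT.lf (nat_lit 0) (nat_lit 104843782)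 (nat_lit 380) (nat_lit 9746206999) (nat_lit 380) (nat_lit 305685168) (nat_lit 105) (nat_lit 4) (nat_lit 110) (nat_lit 5) (nat_lit 110) (nat_lit 4) (nat_lit 462) (nat_lit 345) (nat_lit 333)) (XT.lf (nat_lit 0) (nat_lit 3606794768) (nat_lit 456) (nat_lit 2844876299) (nat_lit 76) (nat_lit 3810739992) (nat_lit 104) (nat_lit 5) (nat_lit 110) (nat_lit 5) (nat_lit 105) (nat_lit 4) (nat_lit 463) (nat_lit 345) (nat_lit 332)))))) (XT.nd (nat_lit 390) (nat_lit 1216) (nat_lit 0) (XT.nd (nat_lit 156) (nat_lit 684) (nat_lit 0) (XT.nd (nat_lit 78) (nat_lit 380) (nat_lit 0) (XT.lf (nat_lit 0) (nat_lit 4474483469) (nat_lit 304) (nat_lit 3090681939) (nat_lit 380) (nat_lit 2805579565) (nat_lit 100) (nat_lit 5) (nat_lit 104) (nat_lit 5) (nat_lit 105) (nat_lit 4) (nat_lit 464) (nat_lit 345) (nat_lit 331)) (XT.lf (nat_lit 0) (nat_lit 1080250018) (nat_lit 380) (nat_lit 9063418407) (nat_lit 76) (nat_lit 337981111) (nat_lit 95)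 (nat_lit 5) (nat_lit 100) (nat_lit 5) (nat_lit 96) (nat_lit 4) (nat_lit 465) (nat_lit 345) (nat_lit 330))) (XT.nd (nat_lit 78) (nat_lit 684) (nat_lit 0) (XT.lf (nat_lit 0) (nat_lit 5009743369) (nat_lit 380) (nat_lit 1763369000) (nat_lit 76) (nat_lit 3821237865) (nat_lit 95) (nat_lit 5) (nat_lit 100) (nat_lit 5) (nat_lit 96) (nat_lit 4) (nat_lit 466) (nat_lit 345) (nat_lit 329)) (XT.nd (nat_lit 78) (nat_lit 380) (nat_lit 0) (XT.lf (nat_lit 0) (nat_lit 5669769857) (nat_lit 304) (nat_lit 3329164346) (nat_lit 380) (nat_lit 1710767433) (nat_lit 91) (nat_lit 5) (nat_lit 95) (nat_lit 5) (nat_lit 96) (nat_lit 4) (nat_lit 467) (nat_lit 345) (nat_lit 328)) (XT.lf (nat_lit 0) (nat_lit 2184215334) (nat_lit 380) (nat_lit 8451461924) (nat_lit 76) (nat_lit 191948940) (nat_lit 86) (nat_lit 5) (nat_lit 91) (nat_lit 5) (nat_lit 87) (nat_lit 4) (nat_lit 468) (nat_lit 345) (nat_lit 327))))) (XT.nd (nat_lit 234) (nat_lit 608)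 (nat_lit 0) (XT.nd (nat_lit 78) (nat_lit 608) (nat_lit 0) (XT.lf (nat_lit 0) (nat_lit 6135063990) (nat_lit 380) (nat_lit 1059724190) (nat_lit 76) (nat_lit 3752895194) (nat_lit 86) (nat_lit 5) (nat_lit 91) (nat_lit 5) (nat_lit 87) (nat_lit 4) (nat_lit 469) (nat_lit 345) (nat_lit 326)) (XT.nd (nat_lit 78) (nat_lit 380) (nat_lit 0) (XT.lf (nat_lit 0) (nat_lit 6478749445) (nat_lit 228) (nat_lit 3674087627) (nat_lit 304) (nat_lit 917563880) (nat_lit 83) (nat_lit 5) (nat_lit 86) (nat_lit 5) (nat_lit 87) (nat_lit 4) (nat_lit 470) (nat_lit 345) (nat_lit 325)) (XT.lf (nat_lit 0) (nat_lit 2919089153) (nat_lit 304) (nat_lit 68320355) (nat_lit 380) (nat_lit 8208341576) (nat_lit 78) (nat_lit 5) (nat_lit 82) (nat_lit 5) (nat_lit 83) (nat_lit 5) (nat_lit 471) (nat_lit 345) (nat_lit 324)))) (XT.nd (nat_lit 78) (nat_lit 608) (nat_lit 0) (XT.lf (nat_lit 0) (nat_lit 6958931824) (nat_lit 380) (nat_lit 796970534) (nat_lit 76)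 (nat_lit 3567586249) (nat_lit 78) (nat_lit 5) (nat_lit 83) (nat_lit 5) (nat_lit 79) (nat_lit 4) (nat_lit 472) (nat_lit 345) (nat_lit 323)) (XT.nd (nat_lit 78) (nat_lit 380) (nat_lit 0) (XT.lf (nat_lit 0) (nat_lit 6836675559) (nat_lit 228) (nat_lit 4165375226) (nat_lit 304) (nat_lit 451902852) (nat_lit 75) (nat_lit 5) (nat_lit 78) (nat_lit 5) (nat_lit 79) (nat_lit 4) (nat_lit 473) (nat_lit 345) (nat_lit 322)) (XT.lf (nat_lit 0) (nat_lit 2977913099) (nat_lit 304) (nat_lit 486844362) (nat_lit 380) (nat_lit 8122383054) (nat_lit 70) (nat_lit 5) (nat_lit 74) (nat_lit 5) (nat_lit 75) (nat_lit 5) (nat_lit 474) (nat_lit 345) (nat_lit 321))))))))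
noncomputable def xc21 : XT := (XT.nd (nat_lit 1560) (nat_lit 1216) (nat_lit 0) (XT.nd (nat_lit 780) (nat_lit 1368) (nat_lit 0) (XT.nd (nat_lit 390) (nat_lit 836) (nat_lit 0) (XT.nd (nat_lit 156) (nat_lit 532) (nat_lit 0) (XT.nd (nat_lit 78) (nat_lit 228) (nat_lit 0) (XT.lf (nat_lit 0) (nat_lit 7453817197) (nat_lit 380) (nat_lit 1044466597) (nat_lit 76) (nat_lit 3224660403) (nat_lit 70) (nat_lit 5) (nat_lit 75) (nat_lit 5) (nat_lit 71) (nat_lit 4) (nat_lit 475) (nat_lit 345) (nat_lit 320)) (XT.lf (nat_lit 0) (nat_lit 6672251979) (nat_lit 228) (nat_lit 4845697796) (nat_lit 304) (nat_lit 343623203) (nat_lit 67) (nat_lit 5) (nat_lit 70) (nat_lit 5) (nat_lit 71) (nat_lit 4) (nat_lit 476) (nat_lit 345) (nat_lit 319))) (XT.nd (nat_lit 78) (nat_lit 228) (nat_lit 0) (XT.lf (nat_lit 0) (nat_lit 2479571869) (nat_lit 228) (nat_lit 1104828204) (nat_lit 304) (nat_lit 8418672904) (nat_lit 63) (nat_lit 5) (nat_lit 66)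 (nat_lit 5) (nat_lit 67) (nat_lit 5) (nat_lit 477) (nat_lit 345) (nat_lit 318)) (XT.nd (nat_lit 78) (nat_lit 228) (nat_lit 0) (XT.lf (nat_lit 0) (nat_lit 7588154285) (nat_lit 304) (nat_lit 1878658294) (nat_lit 76) (nat_lit 2680523539) (nat_lit 63) (nat_lit 5) (nat_lit 67) (nat_lit 5) (nat_lit 64) (nat_lit 4) (nat_lit 478) (nat_lit 345) (nat_lit 317)) (XT.lf (nat_lit 0) (nat_lit 5906851677) (nat_lit 228) (nat_lit 5760910530) (nat_lit 304) (nat_lit 626820467) (nat_lit 60) (nat_lit 5) (nat_lit 63) (nat_lit 5) (nat_lit 64) (nat_lit 4) (nat_lit 479) (nat_lit 345) (nat_lit 316))))) (XT.nd (nat_lit 156) (nat_lit 532) (nat_lit 0) (XT.nd (nat_lit 78) (nat_lit 0) (nat_lit 0) (XT.lf (nat_lit 0) (nat_lit 1342045643) (nat_lit 228) (nat_lit 1969378801) (nat_lit 304) (nat_lit 9133491051) (nat_lit 56) (nat_lit 5) (nat_lit 59) (nat_lit 5) (nat_lit 60) (nat_lit 5) (nat_lit 480) (nat_lit 345) (nat_lit 315)) (XT.lf (nat_lit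 0) (nat_lit 7325969732) (nat_lit 304) (nat_lit 3383910604) (nat_lit 76) (nat_lit 1888186132) (nat_lit 56) (nat_lit 5) (nat_lit 60) (nat_lit 5) (nat_lit 57) (nat_lit 4) (nat_lit 481) (nat_lit 345) (nat_lit 314))) (XT.nd (nat_lit 78) (nat_lit 304) (nat_lit 0) (XT.lf (nat_lit 0) (nat_lit 4453658715) (nat_lit 228) (nat_lit 6960526028) (nat_lit 304) (nat_lit 1340240821) (nat_lit 53) (nat_lit 5) (nat_lit 56) (nat_lit 5) (nat_lit 57) (nat_lit 4) (nat_lit 482) (nat_lit 345) (nat_lit 313)) (XT.nd (nat_lit 78) (nat_lit 228) (nat_lit 0) (XT.lf (nat_lit 0) (nat_lit 2609608109) (nat_lit 304) (nat_lit 518355985) (nat_lit 76) (nat_lit 9786125660) (nat_lit 52) (nat_lit 5) (nat_lit 56) (nat_lit 5) (nat_lit 53) (nat_lit 5) (nat_lit 483) (nat_lit 345) (nat_lit 312)) (XT.lf (nat_lit 0) (nat_lit 6626467369) (nat_lit 304) (nat_lit 5653421741) (nat_lit 76) (nat_lit 796773703) (nat_lit 49) (nat_lit 5) (nat_lit 53) (nat_lit 5) (nat_lit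 50) (nat_lit 4) (nat_lit 484) (nat_lit 345) (nat_lit 311)))))) (XT.nd (nat_lit 390) (nat_lit 760) (nat_lit 0) (XT.nd (nat_lit 156) (nat_lit 380) (nat_lit 0) (XT.nd (nat_lit 78) (nat_lit 76) (nat_lit 0) (XT.lf (nat_lit 0) (nat_lit 2216724835) (nat_lit 152) (nat_lit 8498227217) (nat_lit 228) (nat_lit 2527721230) (nat_lit 47) (nat_lit 5) (nat_lit 49) (nat_lit 5) (nat_lit 50) (nat_lit 4) (nat_lit 485) (nat_lit 345) (nat_lit 310)) (XT.lf (nat_lit 0) (nat_lit 1444839744) (nat_lit 228) (nat_lit 3180155476) (nat_lit 76) (nat_lit 8787009529) (nat_lit 46) (nat_lit 5) (nat_lit 49) (nat_lit 5) (nat_lit 47) (nat_lit 5) (nat_lit 486) (nat_lit 345) (nat_lit 309))) (XT.nd (nat_lit 78) (nat_lit 152) (nat_lit 0) (XT.lf (nat_lit 0) (nat_lit 4790204561) (nat_lit 228) (nat_lit 657630008) (nat_lit 304) (nat_lit 8136868573) (nat_lit 43) (nat_lit 5) (nat_lit 46) (nat_lit 5) (nat_lit 47) (nat_lit 5) (nat_lit 487) (nat_lit 345) (nat_lit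 308)) (XT.nd (nat_lit 78) (nat_lit 152) (nat_lit 0) (XT.lf (nat_lit 0) (nat_lit 9528265470) (nat_lit 304) (nat_lit 898132847) (nat_lit 76) (nat_lit 3334520485) (nat_lit 43) (nat_lit 5) (nat_lit 47) (nat_lit 5) (nat_lit 44) (nat_lit 4) (nat_lit 488) (nat_lit 345) (nat_lit 307)) (XT.lf (nat_lit 0) (nat_lit 7168727818) (nat_lit 152) (nat_lit 6527270747) (nat_lit 228) (nat_lit 244556949) (nat_lit 41) (nat_lit 5) (nat_lit 43) (nat_lit 5) (nat_lit 44) (nat_lit 4) (nat_lit 489) (nat_lit 345) (nat_lit 306))))) (XT.nd (nat_lit 156) (nat_lit 456) (nat_lit 0) (XT.nd (nat_lit 78) (nat_lit 0) (nat_lit 0) (XT.lf (nat_lit 0) (nat_lit 1199099763) (nat_lit 228) (nat_lit 2542786852) (nat_lit 304) (nat_lit 10382037504) (nat_lit 37) (nat_lit 5) (nat_lit 40) (nat_lit 5) (nat_lit 41) (nat_lit 5) (nat_lit 490) (nat_lit 345) (nat_lit 305)) (XT.lf (nat_lit 0) (nat_lit 7815464530) (nat_lit 304) (nat_lit 4977998349) (nat_lit 76) (nat_lit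 1517261283) (nat_lit 37) (nat_lit 5) (nat_lit 41) (nat_lit 5) (nat_lit 38) (nat_lit 4) (nat_lit 491) (nat_lit 345) (nat_lit 304))) (XT.nd (nat_lit 78) (nat_lit 304) (nat_lit 0) (XT.lf (nat_lit 0) (nat_lit 3075387809) (nat_lit 152) (nat_lit 8887870268) (nat_lit 228) (nat_lit 2538157048) (nat_lit 35) (nat_lit 5) (nat_lit 37) (nat_lit 5) (nat_lit 38) (nat_lit 4) (nat_lit 492) (nat_lit 345) (nat_lit 303)) (XT.nd (nat_lit 78) (nat_lit 228) (nat_lit 0) (XT.lf (nat_lit 0) (nat_lit 1468078889) (nat_lit 228) (nat_lit 3423845665) (nat_lit 76) (nat_lit 9804017464) (nat_lit 34) (nat_lit 5) (nat_lit 37) (nat_lit 5) (nat_lit 35) (nat_lit 5) (nat_lit 493) (nat_lit 345) (nat_lit 302)) (XT.lf (nat_lit 0) (nat_lit 4708851774) (nat_lit 228) (nat_lit 799081879) (nat_lit 304) (nat_lit 9386349889) (nat_lit 31) (nat_lit 5) (nat_lit 34) (nat_lit 5) (nat_lit 35) (nat_lit 5) (nat_lit 494) (nat_lit 345) (nat_lit 301))))))) (XT.nd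 (nat_lit 780) (nat_lit 304) (nat_lit 0) (XT.nd (nat_lit 390) (nat_lit 532) (nat_lit 0) (XT.nd (nat_lit 156) (nat_lit 228) (nat_lit 0) (XT.nd (nat_lit 78) (nat_lit 152) (nat_lit 0) (XT.lf (nat_lit 0) (nat_lit 9630667965) (nat_lit 304) (nat_lit 2142234816) (nat_lit 76) (nat_lit 3323656521) (nat_lit 31) (nat_lit 5) (nat_lit 35) (nat_lit 5) (nat_lit 32) (nat_lit 4) (nat_lit 495) (nat_lit 345) (nat_lit 300)) (XT.lf (nat_lit 0) (nat_lit 6062865576) (nat_lit 152) (nat_lit 7775527602) (nat_lit 228) (nat_lit 1464445552) (nat_lit 29) (nat_lit 5) (nat_lit 31) (nat_lit 5) (nat_lit 32) (nat_lit 4) (nat_lit 496) (nat_lit 345) (nat_lit 299))) (XT.nd (nat_lit 78) (nat_lit 152) (nat_lit 0) (XT.lf (nat_lit 0) (nat_lit 2555125864) (nat_lit 228) (nat_lit 1142206430) (nat_lit 76) (nat_lit 11816131767) (nat_lit 28) (nat_lit 5) (nat_lit 31) (nat_lit 5) (nat_lit 29) (nat_lit 5) (nat_lit 497) (nat_lit 345) (nat_lit 298)) (XT.nd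 (nat_lit 78) (nat_lit 0) (nat_lit 0) (XT.lf (nat_lit 0) (nat_lit 6643735254) (nat_lit 228) (nat_lit 8601701017) (nat_lit 76) (nat_lit 482515284) (nat_lit 26) (nat_lit 5) (nat_lit 29) (nat_lit 5) (nat_lit 27) (nat_lit 4) (nat_lit 498) (nat_lit 345) (nat_lit 297)) (XT.lf (nat_lit 0) (nat_lit 10805238528) (nat_lit 228) (nat_lit 467541076) (nat_lit 76) (nat_lit 4674134963) (nat_lit 26) (nat_lit 5) (nat_lit 29) (nat_lit 5) (nat_lit 27) (nat_lit 4) (nat_lit 499) (nat_lit 345) (nat_lit 296))))) (XT.nd (nat_lit 156) (nat_lit 304) (nat_lit 0) (XT.nd (nat_lit 78) (nat_lit 76) (nat_lit 0) (XT.lf (nat_lit 0) (nat_lit 7861834254) (nat_lit 152) (nat_lit 7198907820) (nat_lit 228) (nat_lit 1109307400) (nat_lit 24) (nat_lit 5) (nat_lit 26) (nat_lit 5) (nat_lit 27) (nat_lit 4) (nat_lit 500) (nat_lit 345) (nat_lit 295)) (XT.lf (nat_lit 0) (nat_lit 2927260809) (nat_lit 228) (nat_lit 123627425) (nat_lit 76) (nat_lit 13347117608)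 (nat_lit 23) (nat_lit 5) (nat_lit 26) (nat_lit 5) (nat_lit 24) (nat_lit 5) (nat_lit 501) (nat_lit 345) (nat_lit 294))) (XT.nd (nat_lit 78) (nat_lit 152) (nat_lit 0) (XT.lf (nat_lit 0) (nat_lit 7051774575) (nat_lit 228) (nat_lit 8381650911) (nat_lit 76) (nat_lit 1196515420) (nat_lit 21) (nat_lit 5) (nat_lit 24) (nat_lit 5) (nat_lit 22) (nat_lit 4) (nat_lit 502) (nat_lit 345) (nat_lit 293)) (XT.nd (nat_lit 78) (nat_lit 152) (nat_lit 0) (XT.lf (nat_lit 0) (nat_lit 11240528175) (nat_lit 228) (nat_lit 166796863) (nat_lit 76) (nat_lit 5459562072) (nat_lit 21) (nat_lit 5) (nat_lit 24) (nat_lit 5) (nat_lit 22) (nat_lit 4) (nat_lit 503) (nat_lit 345) (nat_lit 292)) (XT.lf (nat_lit 0) (nat_lit 8252538481) (nat_lit 152) (nat_lit 7275579616) (nat_lit 228) (nat_lit 1580160198) (nat_lit 19) (nat_lit 5) (nat_lit 21) (nat_lit 5) (nat_lit 22) (nat_lit 4) (nat_lit 504) (nat_lit 345) (nat_lit 291)))))) (XT.nd (nat_lit 54990)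 (nat_lit 0) (nat_lit 9272) (XT.nd (nat_lit 156) (nat_lit 76) (nat_lit 0) (XT.nd (nat_lit 78) (nat_lit 152) (nat_lit 0) (XT.lf (nat_lit 0) (nat_lit 2476221969) (nat_lit 228) (nat_lit 596617171) (nat_lit 76) (nat_lit 14282081167) (nat_lit 18) (nat_lit 5) (nat_lit 21) (nat_lit 5) (nat_lit 19) (nat_lit 5) (nat_lit 505) (nat_lit 345) (nat_lit 290)) (XT.lf (nat_lit 0) (nat_lit 6613973768) (nat_lit 228) (nat_lit 9760688685) (nat_lit 76) (nat_lit 1231202665) (nat_lit 16) (nat_lit 5) (nat_lit 19) (nat_lit 5) (nat_lit 17) (nat_lit 4) (nat_lit 506) (nat_lit 345) (nat_lit 289))) (XT.nd (nat_lit 78) (nat_lit 76) (nat_lit 0) (XT.lf (nat_lit 0) (nat_lit 10821272182) (nat_lit 228) (nat_lit 1485143523) (nat_lit 76) (nat_lit 5555684016) (nat_lit 16) (nat_lit 5) (nat_lit 19) (nat_lit 5) (nat_lit 17) (nat_lit 4) (nat_lit 507) (nat_lit 345) (nat_lit 288)) (XT.nd (nat_lit 54678) (nat_lit 0) (nat_lit 11628) (XT.lf (nat_lit 0)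 (nat_lit 6981881624) (nat_lit 76) (nat_lit 8139314498) (nat_lit 152) (nat_lit 3002099901) (nat_lit 15) (nat_lit 5) (nat_lit 16) (nat_lit 5) (nat_lit 17) (nat_lit 4) (nat_lit 508) (nat_lit 345) (nat_lit 287)) (XT.lf (nat_lit 0) (nat_lit 1436792293) (nat_lit 532) (nat_lit 1571473286) (nat_lit 0) (nat_lit 1436792293) (nat_lit 168) (nat_lit 5) (nat_lit 175) (nat_lit 4) (nat_lit 168) (nat_lit 4) (nat_lit 448) (nat_lit 346) (nat_lit 346))))) (XT.nd (nat_lit 234) (nat_lit 1368) (nat_lit 0) (XT.nd (nat_lit 78) (nat_lit 532) (nat_lit 0) (XT.lf (nat_lit 0) (nat_lit 3614613465) (nat_lit 456) (nat_lit 3169728082) (nat_lit 456) (nat_lit 2184124052) (nat_lit 162) (nat_lit 4) (nat_lit 168) (nat_lit 5) (nat_lit 168) (nat_lit 4) (nat_lit 449) (nat_lit 346) (nat_lit 345)) (XT.nd (nat_lit 78) (nat_lit 0) (nat_lit 0) (XT.lf (nat_lit 0) (nat_lit 1418940503) (nat_lit 456) (nat_lit 249783751) (nat_lit 532) (nat_lit 7380135021)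 (nat_lit 155) (nat_lit 5) (nat_lit 161) (nat_lit 5) (nat_lit 162) (nat_lit 4) (nat_lit 450) (nat_lit 346) (nat_lit 344)) (XT.lf (nat_lit 0) (nat_lit 5559766740) (nat_lit 532) (nat_lit 853626483) (nat_lit 0) (nat_lit 2717399764) (nat_lit 155) (nat_lit 5) (nat_lit 162) (nat_lit 4) (nat_lit 155) (nat_lit 4) (nat_lit 451) (nat_lit 346) (nat_lit 343)))) (XT.nd (nat_lit 78) (nat_lit 836) (nat_lit 0) (XT.lf (nat_lit 0) (nat_lit 288608118) (nat_lit 532) (nat_lit 3169924351) (nat_lit 76) (nat_lit 5756250245) (nat_lit 148) (nat_lit 5) (nat_lit 155) (nat_lit 5) (nat_lit 149) (nat_lit 4) (nat_lit 452) (nat_lit 346) (nat_lit 342)) (XT.nd (nat_lit 78) (nat_lit 456) (nat_lit 0) (XT.lf (nat_lit 0) (nat_lit 3728445372) (nat_lit 380) (nat_lit 417123964) (nat_lit 456) (nat_lit 5155078716) (nat_lit 143) (nat_lit 5) (nat_lit 148) (nat_lit 5) (nat_lit 149) (nat_lit 4) (nat_lit 453) (nat_lit 346) (nat_lit 341)) (XT.lf (nat_lit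 0) (nat_lit 1330012114) (nat_lit 456) (nat_lit 6735534721) (nat_lit 456) (nat_lit 1322992702) (nat_lit 137) (nat_lit 4) (nat_lit 143) (nat_lit 5) (nat_lit 143) (nat_lit 4) (nat_lit 454) (nat_lit 346) (nat_lit 340))))))))
noncomputable def xc22 : XT := (XT.nd (nat_lit 1560) (nat_lit 2964) (nat_lit 0) (XT.nd (nat_lit 780) (nat_lit 2280) (nat_lit 0) (XT.nd (nat_lit 390) (nat_lit 1520) (nat_lit 0) (XT.nd (nat_lit 156) (nat_lit 836) (nat_lit 0) (XT.nd (nat_lit 78) (nat_lit 380) (nat_lit 0) (XT.lf (nat_lit 0) (nat_lit 2530819943) (nat_lit 532) (nat_lit 1141489282) (nat_lit 76) (nat_lit 5805989275) (nat_lit 136) (nat_lit 5) (nat_lit 143) (nat_lit 5) (nat_lit 137) (nat_lit 4) (nat_lit 455) (nat_lit 346) (nat_lit 339)) (XT.lf (nat_lit 0) (nat_lit 5894142777) (nat_lit 380) (nat_lit 527935295) (nat_lit 456) (nat_lit 3148062848) (nat_lit 131) (nat_lit 5) (nat_lit 136) (nat_lit 5) (nat_lit 137) (nat_lit 4) (nat_lit 456)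 (nat_lit 346) (nat_lit 338))) (XT.nd (nat_lit 78) (nat_lit 380) (nat_lit 0) (XT.lf (nat_lit 0) (nat_lit 704843251) (nat_lit 456) (nat_lit 6308563221) (nat_lit 76) (nat_lit 2650602341) (nat_lit 125) (nat_lit 5) (nat_lit 131) (nat_lit 5) (nat_lit 126) (nat_lit 4) (nat_lit 457) (nat_lit 346) (nat_lit 337)) (XT.nd (nat_lit 78) (nat_lit 0) (nat_lit 0) (XT.lf (nat_lit 0) (nat_lit 713970417) (nat_lit 380) (nat_lit 3852098423) (nat_lit 456) (nat_lit 5193824199) (nat_lit 120) (nat_lit 5) (nat_lit 125) (nat_lit 5) (nat_lit 126) (nat_lit 4) (nat_lit 458) (nat_lit 346) (nat_lit 336)) (XT.lf (nat_lit 0) (nat_lit 7874081974) (nat_lit 380) (nat_lit 613776732) (nat_lit 456) (nat_lit 1370192415) (nat_lit 120) (nat_lit 5) (nat_lit 125) (nat_lit 5) (nat_lit 126) (nat_lit 4) (nat_lit 459) (nat_lit 346) (nat_lit 335))))) (XT.nd (nat_lit 156) (nat_lit 760) (nat_lit 0) (XT.nd (nat_lit 78) (nat_lit 304) (nat_lit 0) (XT.lf (nat_lit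 0) (nat_lit 2489745647) (nat_lit 456) (nat_lit 4792632706) (nat_lit 76) (nat_lit 2675627293) (nat_lit 114) (nat_lit 5) (nat_lit 120) (nat_lit 5) (nat_lit 115) (nat_lit 4) (nat_lit 460) (nat_lit 346) (nat_lit 334)) (XT.lf (nat_lit 0) (nat_lit 2354697390) (nat_lit 304) (nat_lit 4028755794) (nat_lit 380) (nat_lit 3676848228) (nat_lit 110) (nat_lit 5) (nat_lit 114) (nat_lit 5) (nat_lit 115) (nat_lit 4) (nat_lit 461) (nat_lit 346) (nat_lit 333))) (XT.nd (nat_lit 78) (nat_lit 684) (nat_lit 0) (XT.lf (nat_lit 0) (nat_lit 162582004) (nat_lit 380) (nat_lit 543578881) (nat_lit 76) (nat_lit 9458984545) (nat_lit 109) (nat_lit 5) (nat_lit 114) (nat_lit 5) (nat_lit 110) (nat_lit 5) (nat_lit 462) (nat_lit 346) (nat_lit 332)) (XT.nd (nat_lit 78) (nat_lit 304) (nat_lit 0) (XT.lf (nat_lit 0) (nat_lit 4034491411) (nat_lit 456) (nat_lit 3550169941) (nat_lit 76) (nat_lit 2686860819) (nat_lit 104) (nat_lit 5) (nat_lit 110) (nat_lit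 5) (nat_lit 105) (nat_lit 4) (nat_lit 463) (nat_lit 346) (nat_lit 331)) (XT.lf (nat_lit 0) (nat_lit 3716315003) (nat_lit 304) (nat_lit 4243804230) (nat_lit 380) (nat_lit 2420401605) (nat_lit 100) (nat_lit 5) (nat_lit 104) (nat_lit 5) (nat_lit 105) (nat_lit 4) (nat_lit 464) (nat_lit 346) (nat_lit 330)))))) (XT.nd (nat_lit 390) (nat_lit 1216) (nat_lit 0) (XT.nd (nat_lit 156) (nat_lit 684) (nat_lit 0) (XT.nd (nat_lit 78) (nat_lit 0) (nat_lit 0) (XT.lf (nat_lit 0) (nat_lit 596216302) (nat_lit 304) (nat_lit 828840915) (nat_lit 380) (nat_lit 9067034064) (nat_lit 95) (nat_lit 5) (nat_lit 99) (nat_lit 5) (nat_lit 100) (nat_lit 5) (nat_lit 465) (nat_lit 346) (nat_lit 329)) (XT.lf (nat_lit 0) (nat_lit 5321592802) (nat_lit 380) (nat_lit 2633647944) (nat_lit 76) (nat_lit 2650219715) (nat_lit 95) (nat_lit 5) (nat_lit 100) (nat_lit 5) (nat_lit 96) (nat_lit 4) (nat_lit 466) (nat_lit 346) (nat_lit 328))) (XT.nd (nat_lit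 78) (nat_lit 380) (nat_lit 0) (XT.lf (nat_lit 0) (nat_lit 4745005842) (nat_lit 304) (nat_lit 4532737946) (nat_lit 380) (nat_lit 1443738018) (nat_lit 91) (nat_lit 5) (nat_lit 95) (nat_lit 5) (nat_lit 96) (nat_lit 4) (nat_lit 467) (nat_lit 346) (nat_lit 327)) (XT.nd (nat_lit 78) (nat_lit 0) (nat_lit 0) (XT.lf (nat_lit 0) (nat_lit 1383696041) (nat_lit 304) (nat_lit 1029366677) (nat_lit 380) (nat_lit 8427011363) (nat_lit 86) (nat_lit 5) (nat_lit 90) (nat_lit 5) (nat_lit 91) (nat_lit 5) (nat_lit 468) (nat_lit 346) (nat_lit 326)) (XT.lf (nat_lit 0) (nat_lit 6330417704) (nat_lit 380) (nat_lit 2100565299) (nat_lit 76) (nat_lit 2529826744) (nat_lit 86) (nat_lit 5) (nat_lit 91) (nat_lit 5) (nat_lit 87) (nat_lit 4) (nat_lit 469) (nat_lit 346) (nat_lit 325))))) (XT.nd (nat_lit 156) (nat_lit 608) (nat_lit 0) (XT.nd (nat_lit 78) (nat_lit 380) (nat_lit 0) (XT.lf (nat_lit 0) (nat_lit 5381748099) (nat_lit 228) (nat_lit 4933035582)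 (nat_lit 304) (nat_lit 769420236) (nat_lit 83) (nat_lit 5) (nat_lit 86) (nat_lit 5) (nat_lit 87) (nat_lit 4) (nat_lit 470) (nat_lit 346) (nat_lit 324)) (XT.lf (nat_lit 0) (nat_lit 1750137377) (nat_lit 304) (nat_lit 1349663926) (nat_lit 380) (nat_lit 8110417807) (nat_lit 78) (nat_lit 5) (nat_lit 82) (nat_lit 5) (nat_lit 83) (nat_lit 5) (nat_lit 471) (nat_lit 346) (nat_lit 323))) (XT.nd (nat_lit 78) (nat_lit 608) (nat_lit 0) (XT.lf (nat_lit 0) (nat_lit 7036927808) (nat_lit 380) (nat_lit 2014076404) (nat_lit 76) (nat_lit 2287648297) (nat_lit 78) (nat_lit 5) (nat_lit 83) (nat_lit 5) (nat_lit 79) (nat_lit 4) (nat_lit 472) (nat_lit 346) (nat_lit 322)) (XT.nd (nat_lit 78) (nat_lit 380) (nat_lit 0) (XT.lf (nat_lit 0) (nat_lit 5561665943) (nat_lit 228) (nat_lit 5484537444) (nat_lit 304) (nat_lit 423598825) (nat_lit 75) (nat_lit 5) (nat_lit 78) (nat_lit 5) (nat_lit 79) (nat_lit 4) (nat_lit 473) (nat_lit 346) (nat_lit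 321)) (XT.lf (nat_lit 0) (nat_lit 1627908305) (nat_lit 304) (nat_lit 1830512031) (nat_lit 380) (nat_lit 8145257979) (nat_lit 70) (nat_lit 5) (nat_lit 74) (nat_lit 5) (nat_lit 75) (nat_lit 5) (nat_lit 474) (nat_lit 346) (nat_lit 320))))))) (XT.nd (nat_lit 780) (nat_lit 1368) (nat_lit 0) (XT.nd (nat_lit 390) (nat_lit 836) (nat_lit 0) (XT.nd (nat_lit 156) (nat_lit 532) (nat_lit 0) (XT.nd (nat_lit 78) (nat_lit 228) (nat_lit 0) (XT.lf (nat_lit 0) (nat_lit 7413383232) (nat_lit 380) (nat_lit 2443681798) (nat_lit 76) (nat_lit 1883106258) (nat_lit 70) (nat_lit 5) (nat_lit 75) (nat_lit 5) (nat_lit 71) (nat_lit 4) (nat_lit 475) (nat_lit 346) (nat_lit 319)) (XT.lf (nat_lit 0) (nat_lit 5213317700) (nat_lit 228) (nat_lit 6229850389) (nat_lit 304) (nat_lit 436326145) (nat_lit 67) (nat_lit 5) (nat_lit 70) (nat_lit 5) (nat_lit 71) (nat_lit 4) (nat_lit 476) (nat_lit 346) (nat_lit 318))) (XT.nd (nat_lit 78) (nat_lit 228) (nat_lit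 0) (XT.lf (nat_lit 0) (nat_lit 942504655) (nat_lit 228) (nat_lit 2515609045) (nat_lit 304) (nat_lit 8563595487) (nat_lit 63) (nat_lit 5) (nat_lit 66) (nat_lit 5) (nat_lit 67) (nat_lit 5) (nat_lit 477) (nat_lit 346) (nat_lit 317)) (XT.nd (nat_lit 78) (nat_lit 228) (nat_lit 0) (XT.lf (nat_lit 0) (nat_lit 7428010506) (nat_lit 304) (nat_lit 3465985348) (nat_lit 76) (nat_lit 1272660416) (nat_lit 63) (nat_lit 5) (nat_lit 67) (nat_lit 5) (nat_lit 64) (nat_lit 4) (nat_lit 478) (nat_lit 346) (nat_lit 316)) (XT.lf (nat_lit 0) (nat_lit 4257914838) (nat_lit 228) (nat_lit 7214784186) (nat_lit 304) (nat_lit 841908853) (nat_lit 60) (nat_lit 5) (nat_lit 63) (nat_lit 5) (nat_lit 64) (nat_lit 4) (nat_lit 479) (nat_lit 346) (nat_lit 315))))) (XT.nd (nat_lit 156) (nat_lit 532) (nat_lit 0) (XT.nd (nat_lit 78) (nat_lit 228) (nat_lit 0) (XT.lf (nat_lit 0) (nat_lit 3066281636) (nat_lit 304) (nat_lit 383169204) (nat_lit 76) (nat_lit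 9016181697) (nat_lit 59) (nat_lit 5) (nat_lit 63) (nat_lit 5) (nat_lit 60) (nat_lit 5) (nat_lit 480) (nat_lit 346) (nat_lit 314)) (XT.lf (nat_lit 0) (nat_lit 7044630496) (nat_lit 304) (nat_lit 5165525757) (nat_lit 76) (nat_lit 409357463) (nat_lit 56) (nat_lit 5) (nat_lit 60) (nat_lit 5) (nat_lit 57) (nat_lit 4) (nat_lit 481) (nat_lit 346) (nat_lit 313))) (XT.nd (nat_lit 78) (nat_lit 304) (nat_lit 0) (XT.lf (nat_lit 0) (nat_lit 2608464059) (nat_lit 228) (nat_lit 8488823501) (nat_lit 304) (nat_lit 1679302565) (nat_lit 53) (nat_lit 5) (nat_lit 56) (nat_lit 5) (nat_lit 57) (nat_lit 4) (nat_lit 482) (nat_lit 346) (nat_lit 312)) (XT.nd (nat_lit 78) (nat_lit 228) (nat_lit 0) (XT.lf (nat_lit 0) (nat_lit 2251463096) (nat_lit 304) (nat_lit 2422952774) (nat_lit 76) (nat_lit 8262358991) (nat_lit 52) (nat_lit 5) (nat_lit 56) (nat_lit 5) (nat_lit 53) (nat_lit 5) (nat_lit 483) (nat_lit 346) (nat_lit 311)) (XT.lf (nat_lit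 0) (nat_lit 5459500446) (nat_lit 228) (nat_lit 767726606) (nat_lit 304) (nat_lit 6872948573) (nat_lit 49) (nat_lit 5) (nat_lit 52) (nat_lit 5) (nat_lit 53) (nat_lit 5) (nat_lit 484) (nat_lit 346) (nat_lit 310)))))) (XT.nd (nat_lit 390) (nat_lit 760) (nat_lit 0) (XT.nd (nat_lit 156) (nat_lit 380) (nat_lit 0) (XT.nd (nat_lit 78) (nat_lit 76) (nat_lit 0) (XT.lf (nat_lit 0) (nat_lit 168824036) (nat_lit 152) (nat_lit 10105640035) (nat_lit 228) (nat_lit 2992552662) (nat_lit 47) (nat_lit 5) (nat_lit 49) (nat_lit 5) (nat_lit 50) (nat_lit 4) (nat_lit 485) (nat_lit 346) (nat_lit 309)) (XT.lf (nat_lit 0) (nat_lit 963181885) (nat_lit 228) (nat_lit 5288210104) (nat_lit 76) (nat_lit 7185480491) (nat_lit 46) (nat_lit 5) (nat_lit 49) (nat_lit 5) (nat_lit 47) (nat_lit 5) (nat_lit 486) (nat_lit 346) (nat_lit 308))) (XT.nd (nat_lit 78) (nat_lit 152) (nat_lit 0) (XT.lf (nat_lit 0) (nat_lit 2615562076) (nat_lit 228) (nat_lit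 2314022105) (nat_lit 304) (nat_lit 8680723901) (nat_lit 43) (nat_lit 5) (nat_lit 46) (nat_lit 5) (nat_lit 47) (nat_lit 5) (nat_lit 487) (nat_lit 346) (nat_lit 307)) (XT.nd (nat_lit 78) (nat_lit 152) (nat_lit 0) (XT.lf (nat_lit 0) (nat_lit 8976881613) (nat_lit 304) (nat_lit 3125792396) (nat_lit 76) (nat_lit 1684517654) (nat_lit 43) (nat_lit 5) (nat_lit 47) (nat_lit 5) (nat_lit 44) (nat_lit 4) (nat_lit 488) (nat_lit 346) (nat_lit 306)) (XT.lf (nat_lit 0) (nat_lit 4873548421) (nat_lit 152) (nat_lit 8234224194) (nat_lit 228) (nat_lit 859797751) (nat_lit 41) (nat_lit 5) (nat_lit 43) (nat_lit 5) (nat_lit 44) (nat_lit 4) (nat_lit 489) (nat_lit 346) (nat_lit 305))))) (XT.nd (nat_lit 234) (nat_lit 304) (nat_lit 0) (XT.nd (nat_lit 78) (nat_lit 380) (nat_lit 0) (XT.lf (nat_lit 0) (nat_lit 3105029015) (nat_lit 228) (nat_lit 1172294323) (nat_lit 76) (nat_lit 9874294189) (nat_lit 40) (nat_lit 5) (nat_lit 43) (nat_lit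 5) (nat_lit 41) (nat_lit 5) (nat_lit 490) (nat_lit 346) (nat_lit 304)) (XT.nd (nat_lit 78) (nat_lit 152) (nat_lit 0) (XT.lf (nat_lit 0) (nat_lit 6918712693) (nat_lit 228) (nat_lit 220487103) (nat_lit 304) (nat_lit 7200010769) (nat_lit 37) (nat_lit 5) (nat_lit 40) (nat_lit 5) (nat_lit 41) (nat_lit 5) (nat_lit 491) (nat_lit 346) (nat_lit 303)) (XT.lf (nat_lit 0) (nat_lit 564566536) (nat_lit 152) (nat_lit 10683307675) (nat_lit 228) (nat_lit 3282814458) (nat_lit 35) (nat_lit 5) (nat_lit 37) (nat_lit 5) (nat_lit 38) (nat_lit 4) (nat_lit 492) (nat_lit 346) (nat_lit 302)))) (XT.nd (nat_lit 78) (nat_lit 228) (nat_lit 0) (XT.lf (nat_lit 0) (nat_lit 711838920) (nat_lit 228) (nat_lit 5995975125) (nat_lit 76) (nat_lit 8017929764) (nat_lit 34) (nat_lit 5) (nat_lit 37) (nat_lit 5) (nat_lit 35) (nat_lit 5) (nat_lit 493) (nat_lit 346) (nat_lit 301)) (XT.nd (nat_lit 78) (nat_lit 0) (nat_lit 0) (XT.lf (nat_lit 0) (nat_lit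 2065913175) (nat_lit 228) (nat_lit 2647690527) (nat_lit 304) (nat_lit 10211247913) (nat_lit 31) (nat_lit 5) (nat_lit 34) (nat_lit 5) (nat_lit 35) (nat_lit 5) (nat_lit 494) (nat_lit 346) (nat_lit 300)) (XT.lf (nat_lit 0) (nat_lit 8803484204) (nat_lit 304) (nat_lit 4839968865) (nat_lit 76) (nat_lit 1484335777) (nat_lit 31) (nat_lit 5) (nat_lit 35) (nat_lit 5) (nat_lit 32) (nat_lit 4) (nat_lit 495) (nat_lit 346) (nat_lit 299))))))))
noncomputable def xc23 : XT := (XT.nd (nat_lit 56004) (nat_lit 0) (nat_lit 4560) (XT.nd (nat_lit 780) (nat_lit 228) (nat_lit 0) (XT.nd (nat_lit 390) (nat_lit 456) (nat_lit 0) (XT.nd (nat_lit 156) (nat_lit 304) (nat_lit 0) (XT.nd (nat_lit 78) (nat_lit 76) (nat_lit 0) (XT.lf (nat_lit 0) (nat_lit 3293288645) (nat_lit 152) (nat_lit 9679496277) (nat_lit 228) (nat_lit 2362056151) (nat_lit 29) (nat_lit 5) (nat_lit 31) (nat_lit 5) (nat_lit 32) (nat_lit 4) (nat_lit 496) (nat_lit 346) (nat_lit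 298)) (XT.lf (nat_lit 0) (nat_lit 1648878346) (nat_lit 228) (nat_lit 3973518894) (nat_lit 76) (nat_lit 9923598047) (nat_lit 28) (nat_lit 5) (nat_lit 31) (nat_lit 5) (nat_lit 29) (nat_lit 5) (nat_lit 497) (nat_lit 346) (nat_lit 297))) (XT.nd (nat_lit 78) (nat_lit 152) (nat_lit 0) (XT.lf (nat_lit 0) (nat_lit 4225222234) (nat_lit 152) (nat_lit 1470225576) (nat_lit 228) (nat_lit 10065879830) (nat_lit 26) (nat_lit 5) (nat_lit 28) (nat_lit 5) (nat_lit 29) (nat_lit 5) (nat_lit 498) (nat_lit 346) (nat_lit 296)) (XT.nd (nat_lit 78) (nat_lit 152) (nat_lit 0) (XT.lf (nat_lit 0) (nat_lit 9827467764) (nat_lit 228) (nat_lit 3427338984) (nat_lit 76) (nat_lit 2726077552) (nat_lit 26) (nat_lit 5) (nat_lit 29) (nat_lit 5) (nat_lit 27) (nat_lit 4) (nat_lit 499) (nat_lit 346) (nat_lit 295)) (XT.lf (nat_lit 0) (nat_lit 4827992855) (nat_lit 152) (nat_lit 9215734038) (nat_lit 228) (nat_lit 2161081105) (nat_lit 24) (nat_lit 5)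 (nat_lit 26) (nat_lit 5) (nat_lit 27) (nat_lit 4) (nat_lit 500) (nat_lit 346) (nat_lit 294))))) (XT.nd (nat_lit 156) (nat_lit 228) (nat_lit 0) (XT.nd (nat_lit 78) (nat_lit 152) (nat_lit 0) (XT.lf (nat_lit 0) (nat_lit 1869764780) (nat_lit 228) (nat_lit 3219690410) (nat_lit 76) (nat_lit 11343839833) (nat_lit 23) (nat_lit 5) (nat_lit 26) (nat_lit 5) (nat_lit 24) (nat_lit 5) (nat_lit 501) (nat_lit 346) (nat_lit 293)) (XT.lf (nat_lit 0) (nat_lit 5085044940) (nat_lit 152) (nat_lit 861637930) (nat_lit 228) (nat_lit 10719502809) (nat_lit 21) (nat_lit 5) (nat_lit 23) (nat_lit 5) (nat_lit 24) (nat_lit 5) (nat_lit 502) (nat_lit 346) (nat_lit 292))) (XT.nd (nat_lit 78) (nat_lit 228) (nat_lit 0) (XT.lf (nat_lit 0) (nat_lit 10110772986) (nat_lit 228) (nat_lit 3394380143) (nat_lit 76) (nat_lit 3398475629) (nat_lit 21) (nat_lit 5) (nat_lit 24) (nat_lit 5) (nat_lit 22) (nat_lit 4) (nat_lit 503) (nat_lit 346) (nat_lit 291))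 (XT.nd (nat_lit 78) (nat_lit 76) (nat_lit 0) (XT.lf (nat_lit 0) (nat_lit 4948596170) (nat_lit 152) (nat_lit 9409620098) (nat_lit 228) (nat_lit 2787610143) (nat_lit 19) (nat_lit 5) (nat_lit 21) (nat_lit 5) (nat_lit 22) (nat_lit 4) (nat_lit 504) (nat_lit 346) (nat_lit 290)) (XT.lf (nat_lit 0) (nat_lit 1265940029) (nat_lit 228) (nat_lit 3963329465) (nat_lit 76) (nat_lit 12163732476) (nat_lit 18) (nat_lit 5) (nat_lit 21) (nat_lit 5) (nat_lit 19) (nat_lit 5) (nat_lit 505) (nat_lit 346) (nat_lit 289)))))) (XT.nd (nat_lit 54834) (nat_lit 0) (nat_lit 10108) (XT.nd (nat_lit 156) (nat_lit 76) (nat_lit 0) (XT.nd (nat_lit 78) (nat_lit 0) (nat_lit 0) (XT.lf (nat_lit 0) (nat_lit 4409140398) (nat_lit 152) (nat_lit 945786863) (nat_lit 228) (nat_lit 12289998141) (nat_lit 16) (nat_lit 5) (nat_lit 18) (nat_lit 5) (nat_lit 19) (nat_lit 5) (nat_lit 506) (nat_lit 346) (nat_lit 288)) (XT.lf (nat_lit 0) (nat_lit 9537841709) (nat_lit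 228) (nat_lit 4986574192) (nat_lit 76) (nat_lit 3377235051) (nat_lit 16) (nat_lit 5) (nat_lit 19) (nat_lit 5) (nat_lit 17) (nat_lit 4) (nat_lit 507) (nat_lit 346) (nat_lit 287))) (XT.nd (nat_lit 54522) (nat_lit 0) (nat_lit 12084) (XT.lf (nat_lit 0) (nat_lit 3401657412) (nat_lit 76) (nat_lit 10394977466) (nat_lit 152) (nat_lit 4367038191) (nat_lit 15) (nat_lit 5) (nat_lit 16) (nat_lit 5) (nat_lit 17) (nat_lit 4) (nat_lit 508) (nat_lit 346) (nat_lit 286)) (XT.nd (nat_lit 78) (nat_lit 76) (nat_lit 0) (XT.lf (nat_lit 0) (nat_lit 569238001) (nat_lit 532) (nat_lit 1899954789) (nat_lit 532) (nat_lit 1899954789) (nat_lit 175) (nat_lit 4) (nat_lit 182) (nat_lit 5) (nat_lit 182) (nat_lit 4) (nat_lit 446) (nat_lit 347) (nat_lit 347)) (XT.lf (nat_lit 0) (nat_lit 17927160) (nat_lit 608) (nat_lit 989209568) (nat_lit 76) (nat_lit 7806733109) (nat_lit 174) (nat_lit 5) (nat_lit 182) (nat_lit 5) (nat_lit 175) (nat_lit 4)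 (nat_lit 447) (nat_lit 347) (nat_lit 346))))) (XT.nd (nat_lit 156) (nat_lit 1064) (nat_lit 0) (XT.nd (nat_lit 78) (nat_lit 456) (nat_lit 0) (XT.lf (nat_lit 0) (nat_lit 3847090612) (nat_lit 532) (nat_lit 3187505867) (nat_lit 0) (nat_lit 1856170471) (nat_lit 168) (nat_lit 5) (nat_lit 175) (nat_lit 4) (nat_lit 168) (nat_lit 4) (nat_lit 448) (nat_lit 347) (nat_lit 345)) (XT.lf (nat_lit 0) (nat_lit 3525195861) (nat_lit 456) (nat_lit 4200884796) (nat_lit 456) (nat_lit 1243686194) (nat_lit 162) (nat_lit 4) (nat_lit 168) (nat_lit 5) (nat_lit 168) (nat_lit 4) (nat_lit 449) (nat_lit 347) (nat_lit 344))) (XT.nd (nat_lit 78) (nat_lit 532) (nat_lit 0) (XT.lf (nat_lit 0) (nat_lit 1276421247) (nat_lit 456) (nat_lit 1288406313) (nat_lit 532) (nat_lit 6485864996) (nat_lit 155) (nat_lit 5) (nat_lit 161) (nat_lit 5) (nat_lit 162) (nat_lit 4) (nat_lit 450) (nat_lit 347) (nat_lit 343)) (XT.nd (nat_lit 78) (nat_lit 532) (nat_lit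 0) (XT.lf (nat_lit 0) (nat_lit 6418295026) (nat_lit 532) (nat_lit 1035318357) (nat_lit 0) (nat_lit 1679778246) (nat_lit 155) (nat_lit 5) (nat_lit 162) (nat_lit 4) (nat_lit 155) (nat_lit 4) (nat_lit 451) (nat_lit 347) (nat_lit 342)) (XT.lf (nat_lit 0) (nat_lit 1101381977) (nat_lit 532) (nat_lit 3406417122) (nat_lit 76) (nat_lit 4710123036) (nat_lit 148) (nat_lit 5) (nat_lit 155) (nat_lit 5) (nat_lit 149) (nat_lit 4) (nat_lit 452) (nat_lit 347) (nat_lit 341))))))) (XT.nd (nat_lit 780) (nat_lit 2584) (nat_lit 0) (XT.nd (nat_lit 390) (nat_lit 1216) (nat_lit 0) (XT.nd (nat_lit 156) (nat_lit 912) (nat_lit 0) (XT.nd (nat_lit 78) (nat_lit 456) (nat_lit 0) (XT.lf (nat_lit 0) (nat_lit 3444886209) (nat_lit 380) (nat_lit 1481491562) (nat_lit 456) (nat_lit 4378062070) (nat_lit 143) (nat_lit 5) (nat_lit 148) (nat_lit 5) (nat_lit 149) (nat_lit 4) (nat_lit 453) (nat_lit 347) (nat_lit 340)) (XT.lf (nat_lit 0) (nat_lit 1001680280)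 (nat_lit 456) (nat_lit 7805733358) (nat_lit 456) (nat_lit 585709328) (nat_lit 137) (nat_lit 4) (nat_lit 143) (nat_lit 5) (nat_lit 143) (nat_lit 4) (nat_lit 454) (nat_lit 347) (nat_lit 339))) (XT.nd (nat_lit 78) (nat_lit 836) (nat_lit 0) (XT.lf (nat_lit 0) (nat_lit 3228631168) (nat_lit 532) (nat_lit 1522898430) (nat_lit 76) (nat_lit 4731864949) (nat_lit 136) (nat_lit 5) (nat_lit 143) (nat_lit 5) (nat_lit 137) (nat_lit 4) (nat_lit 455) (nat_lit 347) (nat_lit 338)) (XT.nd (nat_lit 78) (nat_lit 456) (nat_lit 0) (XT.lf (nat_lit 0) (nat_lit 5464245494) (nat_lit 380) (nat_lit 1623634444) (nat_lit 456) (nat_lit 2488009284) (nat_lit 131) (nat_lit 5) (nat_lit 136) (nat_lit 5) (nat_lit 137) (nat_lit 4) (nat_lit 456) (nat_lit 347) (nat_lit 337)) (XT.lf (nat_lit 0) (nat_lit 1316741736) (nat_lit 456) (nat_lit 6797002156) (nat_lit 76) (nat_lit 1556729076) (nat_lit 125) (nat_lit 5) (nat_lit 131) (nat_lit 5) (nat_lit 126)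 (nat_lit 4) (nat_lit 457) (nat_lit 347) (nat_lit 336))))) (XT.nd (nat_lit 156) (nat_lit 836) (nat_lit 0) (XT.nd (nat_lit 78) (nat_lit 0) (nat_lit 0) (XT.lf (nat_lit 0) (nat_lit 175284450) (nat_lit 380) (nat_lit 4970264504) (nat_lit 456) (nat_lit 4621467978) (nat_lit 120) (nat_lit 5) (nat_lit 125) (nat_lit 5) (nat_lit 126) (nat_lit 4) (nat_lit 458) (nat_lit 347) (nat_lit 335)) (XT.lf (nat_lit 0) (nat_lit 7292498031) (nat_lit 380) (nat_lit 1746208477) (nat_lit 456) (nat_lit 827052299) (nat_lit 120) (nat_lit 5) (nat_lit 125) (nat_lit 5) (nat_lit 126) (nat_lit 4) (nat_lit 459) (nat_lit 347) (nat_lit 334))) (XT.nd (nat_lit 78) (nat_lit 380) (nat_lit 0) (XT.lf (nat_lit 0) (nat_lit 2985866592) (nat_lit 456) (nat_lit 5437184215) (nat_lit 76) (nat_lit 1543400626) (nat_lit 114) (nat_lit 5) (nat_lit 120) (nat_lit 5) (nat_lit 115) (nat_lit 4) (nat_lit 460) (nat_lit 347) (nat_lit 333)) (XT.nd (nat_lit 78) (nat_lit 76)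 (nat_lit 0) (XT.lf (nat_lit 0) (nat_lit 1658371256) (nat_lit 304) (nat_lit 5188602748) (nat_lit 380) (nat_lit 3222435704) (nat_lit 110) (nat_lit 5) (nat_lit 114) (nat_lit 5) (nat_lit 115) (nat_lit 4) (nat_lit 461) (nat_lit 347) (nat_lit 332)) (XT.lf (nat_lit 0) (nat_lit 583036949) (nat_lit 380) (nat_lit 1294707473) (nat_lit 76) (nat_lit 8297020350) (nat_lit 109) (nat_lit 5) (nat_lit 114) (nat_lit 5) (nat_lit 110) (nat_lit 5) (nat_lit 462) (nat_lit 347) (nat_lit 331)))))) (XT.nd (nat_lit 390) (nat_lit 1216) (nat_lit 0) (XT.nd (nat_lit 156) (nat_lit 684) (nat_lit 0) (XT.nd (nat_lit 78) (nat_lit 304) (nat_lit 0) (XT.lf (nat_lit 0) (nat_lit 4414545013) (nat_lit 456) (nat_lit 4356290697) (nat_lit 76) (nat_lit 1511123729) (nat_lit 104) (nat_lit 5) (nat_lit 110) (nat_lit 5) (nat_lit 105) (nat_lit 4) (nat_lit 463) (nat_lit 347) (nat_lit 330)) (XT.lf (nat_lit 0) (nat_lit 2856832462) (nat_lit 304) (nat_lit 5450485256)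 (nat_lit 380) (nat_lit 2084307195) (nat_lit 100) (nat_lit 5) (nat_lit 104) (nat_lit 5) (nat_lit 105) (nat_lit 4) (nat_lit 464) (nat_lit 347) (nat_lit 329))) (XT.nd (nat_lit 78) (nat_lit 608) (nat_lit 0) (XT.lf (nat_lit 0) (nat_lit 1725672920) (nat_lit 380) (nat_lit 326555355) (nat_lit 76) (nat_lit 8451554181) (nat_lit 99) (nat_lit 5) (nat_lit 104) (nat_lit 5) (nat_lit 100) (nat_lit 5) (nat_lit 465) (nat_lit 347) (nat_lit 328)) (XT.nd (nat_lit 78) (nat_lit 304) (nat_lit 0) (XT.lf (nat_lit 0) (nat_lit 5585067177) (nat_lit 380) (nat_lit 3606892848) (nat_lit 76) (nat_lit 1425943583) (nat_lit 95) (nat_lit 5) (nat_lit 100) (nat_lit 5) (nat_lit 96) (nat_lit 4) (nat_lit 466) (nat_lit 347) (nat_lit 327)) (XT.lf (nat_lit 0) (nat_lit 3716749063) (nat_lit 304) (nat_lit 5791287418) (nat_lit 380) (nat_lit 1226561070) (nat_lit 91) (nat_lit 5) (nat_lit 95) (nat_lit 5) (nat_lit 96) (nat_lit 4) (nat_lit 467) (nat_lit 347)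 (nat_lit 326))))) (XT.nd (nat_lit 234) (nat_lit 608) (nat_lit 0) (XT.nd (nat_lit 78) (nat_lit 228) (nat_lit 0) (XT.lf (nat_lit 0) (nat_lit 284889572) (nat_lit 304) (nat_lit 2308931379) (nat_lit 380) (nat_lit 8260020699) (nat_lit 86) (nat_lit 5) (nat_lit 90) (nat_lit 5) (nat_lit 91) (nat_lit 5) (nat_lit 468) (nat_lit 347) (nat_lit 325)) (XT.nd (nat_lit 78) (nat_lit 228) (nat_lit 0) (XT.lf (nat_lit 0) (nat_lit 6476583508) (nat_lit 380) (nat_lit 3246604423) (nat_lit 76) (nat_lit 1252089683) (nat_lit 86) (nat_lit 5) (nat_lit 91) (nat_lit 5) (nat_lit 87) (nat_lit 4) (nat_lit 469) (nat_lit 347) (nat_lit 324)) (XT.lf (nat_lit 0) (nat_lit 4178980673) (nat_lit 228) (nat_lit 6248390387) (nat_lit 304) (nat_lit 671980574) (nat_lit 83) (nat_lit 5) (nat_lit 86) (nat_lit 5) (nat_lit 87) (nat_lit 4) (nat_lit 470) (nat_lit 347) (nat_lit 323)))) (XT.nd (nat_lit 78) (nat_lit 228) (nat_lit 0) (XT.lf (nat_lit 0) (nat_lit 473816484)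 (nat_lit 304) (nat_lit 2688154615) (nat_lit 380) (nat_lit 8064070875) (nat_lit 78) (nat_lit 5) (nat_lit 82) (nat_lit 5) (nat_lit 83) (nat_lit 5) (nat_lit 471) (nat_lit 347) (nat_lit 322)) (XT.nd (nat_lit 78) (nat_lit 228) (nat_lit 0) (XT.lf (nat_lit 0) (nat_lit 7064842061) (nat_lit 380) (nat_lit 3338711556) (nat_lit 76) (nat_lit 951614672) (nat_lit 78) (nat_lit 5) (nat_lit 83) (nat_lit 5) (nat_lit 79) (nat_lit 4) (nat_lit 472) (nat_lit 347) (nat_lit 321)) (XT.lf (nat_lit 0) (nat_lit 4178516255) (nat_lit 228) (nat_lit 6861557164) (nat_lit 304) (nat_lit 446933110) (nat_lit 75) (nat_lit 5) (nat_lit 78) (nat_lit 5) (nat_lit 79) (nat_lit 4) (nat_lit 473) (nat_lit 347) (nat_lit 320))))))))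
noncomputable def xc24 : XT := (XT.nd (nat_lit 1560) (nat_lit 1444) (nat_lit 0) (XT.nd (nat_lit 780) (nat_lit 1292) (nat_lit 0) (XT.nd (nat_lit 390) (nat_lit 836) (nat_lit 0) (XT.nd (nat_lit 156) (nat_lit 532) (nat_lit 0) (XT.nd (nat_lit 78) (nat_lit 0) (nat_lit 0) (XT.lf (nat_lit 0) (nat_lit 168111998) (nat_lit 304) (nat_lit 3232797402) (nat_lit 380) (nat_lit 8220673269) (nat_lit 70) (nat_lit 5) (nat_lit 74) (nat_lit 5) (nat_lit 75) (nat_lit 5) (nat_lit 474) (nat_lit 347) (nat_lit 319)) (XT.lf (nat_lit 0) (nat_lit 7321892379) (nat_lit 380) (nat_lit 3952862784) (nat_lit 76) (nat_lit 484007289) (nat_lit 70) (nat_lit 5) (nat_lit 75) (nat_lit 5) (nat_lit 71) (nat_lit 4) (nat_lit 475) (nat_lit 347) (nat_lit 318))) (XT.nd (nat_lit 78) (nat_lit 304) (nat_lit 0) (XT.lf (nat_lit 0) (nat_lit 3643762609) (nat_lit 228) (nat_lit 7673336436) (nat_lit 304) (nat_lit 581684986) (nat_lit 67) (nat_lit 5) (nat_lit 70) (nat_lit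 5) (nat_lit 71) (nat_lit 4) (nat_lit 476) (nat_lit 347) (nat_lit 317)) (XT.nd (nat_lit 78) (nat_lit 228) (nat_lit 0) (XT.lf (nat_lit 0) (nat_lit 3284208973) (nat_lit 304) (nat_lit 697615089) (nat_lit 76) (nat_lit 8059809638) (nat_lit 66) (nat_lit 5) (nat_lit 70) (nat_lit 5) (nat_lit 67) (nat_lit 5) (nat_lit 477) (nat_lit 347) (nat_lit 316)) (XT.lf (nat_lit 0) (nat_lit 7020225177) (nat_lit 228) (nat_lit 196805371) (nat_lit 304) (nat_lit 4970298401) (nat_lit 63) (nat_lit 5) (nat_lit 66) (nat_lit 5) (nat_lit 67) (nat_lit 5) (nat_lit 478) (nat_lit 347) (nat_lit 315))))) (XT.nd (nat_lit 156) (nat_lit 532) (nat_lit 0) (XT.nd (nat_lit 78) (nat_lit 76) (nat_lit 0) (XT.lf (nat_lit 0) (nat_lit 2495763586) (nat_lit 228) (nat_lit 8729497994) (nat_lit 304) (nat_lit 1110754656) (nat_lit 60) (nat_lit 5) (nat_lit 63) (nat_lit 5) (nat_lit 64) (nat_lit 4) (nat_lit 479) (nat_lit 347) (nat_lit 314)) (XT.lf (nat_lit 0) (nat_lit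 2777273662) (nat_lit 304) (nat_lit 2204246164) (nat_lit 76) (nat_lit 7506036020) (nat_lit 59) (nat_lit 5) (nat_lit 63) (nat_lit 5) (nat_lit 60) (nat_lit 5) (nat_lit 480) (nat_lit 347) (nat_lit 313))) (XT.nd (nat_lit 78) (nat_lit 304) (nat_lit 0) (XT.lf (nat_lit 0) (nat_lit 5572452282) (nat_lit 228) (nat_lit 1145019426) (nat_lit 304) (nat_lit 5924734487) (nat_lit 56) (nat_lit 5) (nat_lit 59) (nat_lit 5) (nat_lit 60) (nat_lit 5) (nat_lit 481) (nat_lit 347) (nat_lit 312)) (XT.nd (nat_lit 78) (nat_lit 76) (nat_lit 0) (XT.lf (nat_lit 0) (nat_lit 647342367) (nat_lit 228) (nat_lit 10079503867) (nat_lit 304) (nat_lit 2073308055) (nat_lit 53) (nat_lit 5) (nat_lit 56) (nat_lit 5) (nat_lit 57) (nat_lit 4) (nat_lit 482) (nat_lit 347) (nat_lit 311)) (XT.lf (nat_lit 0) (nat_lit 1839556309) (nat_lit 304) (nat_lit 4443746157) (nat_lit 76) (nat_lit 6677554895) (nat_lit 52) (nat_lit 5) (nat_lit 56) (nat_lit 5) (nat_lit 53)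 (nat_lit 5) (nat_lit 483) (nat_lit 347) (nat_lit 310)))))) (XT.nd (nat_lit 390) (nat_lit 608) (nat_lit 0) (XT.nd (nat_lit 156) (nat_lit 456) (nat_lit 0) (XT.nd (nat_lit 78) (nat_lit 0) (nat_lit 0) (XT.lf (nat_lit 0) (nat_lit 3373440489) (nat_lit 228) (nat_lit 2405719269) (nat_lit 304) (nat_lit 7345827263) (nat_lit 49) (nat_lit 5) (nat_lit 52) (nat_lit 5) (nat_lit 53) (nat_lit 5) (nat_lit 484) (nat_lit 347) (nat_lit 309)) (XT.lf (nat_lit 0) (nat_lit 9792149309) (nat_lit 304) (nat_lit 1971639640) (nat_lit 76) (nat_lit 1528729703) (nat_lit 49) (nat_lit 5) (nat_lit 53) (nat_lit 5) (nat_lit 50) (nat_lit 4) (nat_lit 485) (nat_lit 347) (nat_lit 308))) (XT.nd (nat_lit 78) (nat_lit 228) (nat_lit 0) (XT.lf (nat_lit 0) (nat_lit 426494785) (nat_lit 228) (nat_lit 7515321226) (nat_lit 76) (nat_lit 5521340298) (nat_lit 46) (nat_lit 5) (nat_lit 49) (nat_lit 5) (nat_lit 47) (nat_lit 5) (nat_lit 486) (nat_lit 347) (nat_lit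 307)) (XT.nd (nat_lit 78) (nat_lit 0) (nat_lit 0) (XT.lf (nat_lit 0) (nat_lit 321037229) (nat_lit 228) (nat_lit 4034929619) (nat_lit 304) (nat_lit 9281368920) (nat_lit 43) (nat_lit 5) (nat_lit 46) (nat_lit 5) (nat_lit 47) (nat_lit 5) (nat_lit 487) (nat_lit 347) (nat_lit 306)) (XT.lf (nat_lit 0) (nat_lit 8341103332) (nat_lit 228) (nat_lit 29237237) (nat_lit 304) (nat_lit 5444542404) (nat_lit 43) (nat_lit 5) (nat_lit 46) (nat_lit 5) (nat_lit 47) (nat_lit 5) (nat_lit 488) (nat_lit 347) (nat_lit 305))))) (XT.nd (nat_lit 156) (nat_lit 380) (nat_lit 0) (XT.nd (nat_lit 78) (nat_lit 76) (nat_lit 0) (XT.lf (nat_lit 0) (nat_lit 2457378025) (nat_lit 152) (nat_lit 10006466273) (nat_lit 228) (nat_lit 1532170172) (nat_lit 41) (nat_lit 5) (nat_lit 43) (nat_lit 5) (nat_lit 44) (nat_lit 4) (nat_lit 489) (nat_lit 347) (nat_lit 304)) (XT.lf (nat_lit 0) (nat_lit 2420003858) (nat_lit 228) (nat_lit 3649276649) (nat_lit 76) (nat_lit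 8111302707) (nat_lit 40) (nat_lit 5) (nat_lit 43) (nat_lit 5) (nat_lit 41) (nat_lit 5) (nat_lit 490) (nat_lit 347) (nat_lit 303))) (XT.nd (nat_lit 78) (nat_lit 152) (nat_lit 0) (XT.lf (nat_lit 0) (nat_lit 4372320928) (nat_lit 228) (nat_lit 2044270826) (nat_lit 304) (nat_lit 7952340913) (nat_lit 37) (nat_lit 5) (nat_lit 40) (nat_lit 5) (nat_lit 41) (nat_lit 5) (nat_lit 491) (nat_lit 347) (nat_lit 302)) (XT.nd (nat_lit 78) (nat_lit 152) (nat_lit 0) (XT.lf (nat_lit 0) (nat_lit 10488793075) (nat_lit 304) (nat_lit 2043211904) (nat_lit 76) (nat_lit 2029139918) (nat_lit 37) (nat_lit 5) (nat_lit 41) (nat_lit 5) (nat_lit 38) (nat_lit 4) (nat_lit 492) (nat_lit 347) (nat_lit 301)) (XT.lf (nat_lit 0) (nat_lit 6063749958) (nat_lit 152) (nat_lit 8590074991) (nat_lit 228) (nat_lit 103157929) (nat_lit 35) (nat_lit 5) (nat_lit 37) (nat_lit 5) (nat_lit 38) (nat_lit 4) (nat_lit 493) (nat_lit 347) (nat_lit 300))))))) (XT.nd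 (nat_lit 780) (nat_lit 380) (nat_lit 0) (XT.nd (nat_lit 390) (nat_lit 380) (nat_lit 0) (XT.nd (nat_lit 156) (nat_lit 380) (nat_lit 0) (XT.nd (nat_lit 78) (nat_lit 228) (nat_lit 0) (XT.lf (nat_lit 0) (nat_lit 3866026636) (nat_lit 228) (nat_lit 693207440) (nat_lit 76) (nat_lit 10397553061) (nat_lit 34) (nat_lit 5) (nat_lit 37) (nat_lit 5) (nat_lit 35) (nat_lit 5) (nat_lit 494) (nat_lit 347) (nat_lit 299)) (XT.lf (nat_lit 0) (nat_lit 7494243053) (nat_lit 228) (nat_lit 426992047) (nat_lit 304) (nat_lit 7239187017) (nat_lit 31) (nat_lit 5) (nat_lit 34) (nat_lit 5) (nat_lit 35) (nat_lit 5) (nat_lit 495) (nat_lit 347) (nat_lit 298))) (XT.nd (nat_lit 78) (nat_lit 228) (nat_lit 0) (XT.lf (nat_lit 0) (nat_lit 397043053) (nat_lit 152) (nat_lit 11651874372) (nat_lit 228) (nat_lit 3319393513) (nat_lit 29) (nat_lit 5) (nat_lit 31) (nat_lit 5) (nat_lit 32) (nat_lit 4) (nat_lit 496) (nat_lit 347) (nat_lit 297)) (XT.nd (nat_lit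 78) (nat_lit 152) (nat_lit 0) (XT.lf (nat_lit 0) (nat_lit 684087576) (nat_lit 228) (nat_lit 6931882478) (nat_lit 76) (nat_lit 7964023653) (nat_lit 28) (nat_lit 5) (nat_lit 31) (nat_lit 5) (nat_lit 29) (nat_lit 5) (nat_lit 497) (nat_lit 347) (nat_lit 296)) (XT.lf (nat_lit 0) (nat_lit 1192909125) (nat_lit 152) (nat_lit 3498443400) (nat_lit 228) (nat_lit 11104763605) (nat_lit 26) (nat_lit 5) (nat_lit 28) (nat_lit 5) (nat_lit 29) (nat_lit 5) (nat_lit 498) (nat_lit 347) (nat_lit 295))))) (XT.nd (nat_lit 156) (nat_lit 228) (nat_lit 0) (XT.nd (nat_lit 78) (nat_lit 152) (nat_lit 0) (XT.lf (nat_lit 0) (nat_lit 8790657237) (nat_lit 228) (nat_lit 6515526163) (nat_lit 76) (nat_lit 710147597) (nat_lit 26) (nat_lit 5) (nat_lit 29) (nat_lit 5) (nat_lit 27) (nat_lit 4) (nat_lit 499) (nat_lit 347) (nat_lit 294)) (XT.lf (nat_lit 0) (nat_lit 1664736534) (nat_lit 152) (nat_lit 11302478436) (nat_lit 228) (nat_lit 3273837580)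 (nat_lit 24) (nat_lit 5) (nat_lit 26) (nat_lit 5) (nat_lit 27) (nat_lit 4) (nat_lit 500) (nat_lit 347) (nat_lit 293))) (XT.nd (nat_lit 78) (nat_lit 152) (nat_lit 0) (XT.lf (nat_lit 0) (nat_lit 752468459) (nat_lit 228) (nat_lit 6445586015) (nat_lit 76) (nat_lit 9272015950) (nat_lit 23) (nat_lit 5) (nat_lit 26) (nat_lit 5) (nat_lit 24) (nat_lit 5) (nat_lit 501) (nat_lit 347) (nat_lit 292)) (XT.nd (nat_lit 78) (nat_lit 0) (nat_lit 0) (XT.lf (nat_lit 0) (nat_lit 1782880576) (nat_lit 152) (nat_lit 3006307457) (nat_lit 228) (nat_lit 11914580622) (nat_lit 21) (nat_lit 5) (nat_lit 23) (nat_lit 5) (nat_lit 24) (nat_lit 5) (nat_lit 502) (nat_lit 347) (nat_lit 291)) (XT.lf (nat_lit 0) (nat_lit 8920658277) (nat_lit 228) (nat_lit 6753230101) (nat_lit 76) (nat_lit 1267979289) (nat_lit 21) (nat_lit 5) (nat_lit 24) (nat_lit 5) (nat_lit 22) (nat_lit 4) (nat_lit 503) (nat_lit 347) (nat_lit 290)))))) (XT.nd (nat_lit 54834)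 (nat_lit 0) (nat_lit 10564) (XT.nd (nat_lit 156) (nat_lit 228) (nat_lit 0) (XT.nd (nat_lit 78) (nat_lit 0) (nat_lit 0) (XT.lf (nat_lit 0) (nat_lit 1512298915) (nat_lit 152) (nat_lit 11615163241) (nat_lit 228) (nat_lit 4057419418) (nat_lit 19) (nat_lit 5) (nat_lit 21) (nat_lit 5) (nat_lit 22) (nat_lit 4) (nat_lit 504) (nat_lit 347) (nat_lit 289)) (XT.lf (nat_lit 0) (nat_lit 9969703758) (nat_lit 152) (nat_lit 7457296235) (nat_lit 228) (nat_lit 5590671) (nat_lit 19) (nat_lit 5) (nat_lit 21) (nat_lit 5) (nat_lit 22) (nat_lit 4) (nat_lit 505) (nat_lit 347) (nat_lit 288))) (XT.nd (nat_lit 54522) (nat_lit 0) (nat_lit 12616) (XT.lf (nat_lit 0) (nat_lit 830912536) (nat_lit 152) (nat_lit 3211382098) (nat_lit 228) (nat_lit 13643046959) (nat_lit 16) (nat_lit 5) (nat_lit 18) (nat_lit 5) (nat_lit 19) (nat_lit 5) (nat_lit 506) (nat_lit 347) (nat_lit 287)) (XT.nd (nat_lit 78) (nat_lit 608) (nat_lit 0) (XT.lf (nat_lit 0)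 (nat_lit 2653149956) (nat_lit 532) (nat_lit 821510456) (nat_lit 532) (nat_lit 821510456) (nat_lit 190) (nat_lit 4) (nat_lit 197) (nat_lit 5) (nat_lit 197) (nat_lit 4) (nat_lit 444) (nat_lit 348) (nat_lit 348)) (XT.lf (nat_lit 0) (nat_lit 2139672738) (nat_lit 608) (nat_lit 5431363099) (nat_lit 0) (nat_lit 1093741857) (nat_lit 182) (nat_lit 5) (nat_lit 190) (nat_lit 4) (nat_lit 182) (nat_lit 4) (nat_lit 445) (nat_lit 348) (nat_lit 347))))) (XT.nd (nat_lit 234) (nat_lit 988) (nat_lit 0) (XT.nd (nat_lit 78) (nat_lit 532) (nat_lit 0) (XT.lf (nat_lit 0) (nat_lit 1094636957) (nat_lit 532) (nat_lit 4857832038) (nat_lit 532) (nat_lit 2786478723) (nat_lit 175) (nat_lit 4) (nat_lit 182) (nat_lit 5) (nat_lit 182) (nat_lit 4) (nat_lit 446) (nat_lit 348) (nat_lit 346)) (XT.nd (nat_lit 78) (nat_lit 456) (nat_lit 0) (XT.lf (nat_lit 0) (nat_lit 986621802) (nat_lit 608) (nat_lit 1083693384) (nat_lit 76) (nat_lit 6744719513)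 (nat_lit 174) (nat_lit 5) (nat_lit 182) (nat_lit 5) (nat_lit 175) (nat_lit 4) (nat_lit 447) (nat_lit 348) (nat_lit 345)) (XT.lf (nat_lit 0) (nat_lit 4777070315) (nat_lit 532) (nat_lit 3321201223) (nat_lit 0) (nat_lit 794449281) (nat_lit 168) (nat_lit 5) (nat_lit 175) (nat_lit 4) (nat_lit 168) (nat_lit 4) (nat_lit 448) (nat_lit 348) (nat_lit 344)))) (XT.nd (nat_lit 78) (nat_lit 532) (nat_lit 0) (XT.lf (nat_lit 0) (nat_lit 3346325587) (nat_lit 456) (nat_lit 5277998568) (nat_lit 456) (nat_lit 348045709) (nat_lit 162) (nat_lit 4) (nat_lit 168) (nat_lit 5) (nat_lit 168) (nat_lit 4) (nat_lit 449) (nat_lit 348) (nat_lit 343)) (XT.nd (nat_lit 78) (nat_lit 0) (nat_lit 0) (XT.lf (nat_lit 0) (nat_lit 1043106941) (nat_lit 456) (nat_lit 2373633895) (nat_lit 532) (nat_lit 5637091906) (nat_lit 155) (nat_lit 5) (nat_lit 161) (nat_lit 5) (nat_lit 162) (nat_lit 4) (nat_lit 450) (nat_lit 348) (nat_lit 342)) (XT.lf (nat_lit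 0) (nat_lit 7232935232) (nat_lit 532) (nat_lit 1307945229) (nat_lit 0) (nat_lit 596410404) (nat_lit 155) (nat_lit 5) (nat_lit 162) (nat_lit 4) (nat_lit 155) (nat_lit 4) (nat_lit 451) (nat_lit 348) (nat_lit 341))))))))
noncomputable def xc25 : XT := (XT.nd (nat_lit 1560) (nat_lit 3420) (nat_lit 0) (XT.nd (nat_lit 780) (nat_lit 2128) (nat_lit 0) (XT.nd (nat_lit 390) (nat_lit 1596) (nat_lit 0) (XT.nd (nat_lit 156) (nat_lit 912) (nat_lit 0) (XT.nd (nat_lit 78) (nat_lit 380) (nat_lit 0) (XT.lf (nat_lit 0) (nat_lit 1869560087) (nat_lit 532) (nat_lit 3735201623) (nat_lit 76) (nat_lit 3617606041) (nat_lit 148) (nat_lit 5) (nat_lit 155) (nat_lit 5) (nat_lit 149) (nat_lit 4) (nat_lit 452) (nat_lit 348) (nat_lit 340)) (XT.lf (nat_lit 0) (nat_lit 3068670053) (nat_lit 380) (nat_lit 2593909488) (nat_lit 456) (nat_lit 3646958249) (nat_lit 143) (nat_lit 5) (nat_lit 148) (nat_lit 5) (nat_lit 149) (nat_lit 4) (nat_lit 453)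 (nat_lit 348) (nat_lit 339))) (XT.nd (nat_lit 78) (nat_lit 380) (nat_lit 0) (XT.lf (nat_lit 0) (nat_lit 103937259) (nat_lit 532) (nat_lit 8820384157) (nat_lit 76) (nat_lit 474683932) (nat_lit 136) (nat_lit 5) (nat_lit 143) (nat_lit 5) (nat_lit 137) (nat_lit 4) (nat_lit 454) (nat_lit 348) (nat_lit 338)) (XT.nd (nat_lit 78) (nat_lit 380) (nat_lit 0) (XT.lf (nat_lit 0) (nat_lit 3881377892) (nat_lit 532) (nat_lit 1998492669) (nat_lit 76) (nat_lit 3609926743) (nat_lit 136) (nat_lit 5) (nat_lit 143) (nat_lit 5) (nat_lit 137) (nat_lit 4) (nat_lit 455) (nat_lit 348) (nat_lit 337)) (XT.lf (nat_lit 0) (nat_lit 4939762812) (nat_lit 380) (nat_lit 2768813285) (nat_lit 456) (nat_lit 1874368723) (nat_lit 131) (nat_lit 5) (nat_lit 136) (nat_lit 5) (nat_lit 137) (nat_lit 4) (nat_lit 456) (nat_lit 348) (nat_lit 336))))) (XT.nd (nat_lit 156) (nat_lit 1140) (nat_lit 0) (XT.nd (nat_lit 78) (nat_lit 0) (nat_lit 0) (XT.lf (nat_lit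 0) (nat_lit 1882458044) (nat_lit 456) (nat_lit 7382437648) (nat_lit 76) (nat_lit 413362087) (nat_lit 125) (nat_lit 5) (nat_lit 131) (nat_lit 5) (nat_lit 126) (nat_lit 4) (nat_lit 457) (nat_lit 348) (nat_lit 335)) (XT.lf (nat_lit 0) (nat_lit 5681773409) (nat_lit 456) (nat_lit 454785289) (nat_lit 76) (nat_lit 3638844028) (nat_lit 125) (nat_lit 5) (nat_lit 131) (nat_lit 5) (nat_lit 126) (nat_lit 4) (nat_lit 458) (nat_lit 348) (nat_lit 334))) (XT.nd (nat_lit 78) (nat_lit 760) (nat_lit 0) (XT.lf (nat_lit 0) (nat_lit 6614327596) (nat_lit 380) (nat_lit 2929540465) (nat_lit 456) (nat_lit 330908727) (nat_lit 120) (nat_lit 5) (nat_lit 125) (nat_lit 5) (nat_lit 126) (nat_lit 4) (nat_lit 459) (nat_lit 348) (nat_lit 333)) (XT.nd (nat_lit 78) (nat_lit 304) (nat_lit 0) (XT.lf (nat_lit 0) (nat_lit 3435190145) (nat_lit 456) (nat_lit 6180763964) (nat_lit 76) (nat_lit 360267645) (nat_lit 114) (nat_lit 5) (nat_lit 120) (nat_lit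 5) (nat_lit 115) (nat_lit 4) (nat_lit 460) (nat_lit 348) (nat_lit 332)) (XT.lf (nat_lit 0) (nat_lit 862548082) (nat_lit 304) (nat_lit 6401053918) (nat_lit 380) (nat_lit 2816242237) (nat_lit 110) (nat_lit 5) (nat_lit 114) (nat_lit 5) (nat_lit 115) (nat_lit 4) (nat_lit 461) (nat_lit 348) (nat_lit 331)))))) (XT.nd (nat_lit 390) (nat_lit 988) (nat_lit 0) (XT.nd (nat_lit 156) (nat_lit 684) (nat_lit 0) (XT.nd (nat_lit 78) (nat_lit 380) (nat_lit 0) (XT.lf (nat_lit 0) (nat_lit 956454217) (nat_lit 380) (nat_lit 2145508155) (nat_lit 76) (nat_lit 7083743060) (nat_lit 109) (nat_lit 5) (nat_lit 114) (nat_lit 5) (nat_lit 110) (nat_lit 5) (nat_lit 462) (nat_lit 348) (nat_lit 330)) (XT.lf (nat_lit 0) (nat_lit 4747104616) (nat_lit 456) (nat_lit 5263554693) (nat_lit 76) (nat_lit 283067647) (nat_lit 104) (nat_lit 5) (nat_lit 110) (nat_lit 5) (nat_lit 105) (nat_lit 4) (nat_lit 463) (nat_lit 348) (nat_lit 329))) (XT.nd (nat_lit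 78) (nat_lit 380) (nat_lit 0) (XT.lf (nat_lit 0) (nat_lit 1895698793) (nat_lit 304) (nat_lit 6711198223) (nat_lit 380) (nat_lit 1797164536) (nat_lit 100) (nat_lit 5) (nat_lit 104) (nat_lit 5) (nat_lit 105) (nat_lit 4) (nat_lit 464) (nat_lit 348) (nat_lit 328)) (XT.nd (nat_lit 78) (nat_lit 304) (nat_lit 0) (XT.lf (nat_lit 0) (nat_lit 1982383244) (nat_lit 380) (nat_lit 1343346268) (nat_lit 76) (nat_lit 7190994768) (nat_lit 99) (nat_lit 5) (nat_lit 104) (nat_lit 5) (nat_lit 100) (nat_lit 5) (nat_lit 465) (nat_lit 348) (nat_lit 327)) (XT.lf (nat_lit 0) (nat_lit 5800269815) (nat_lit 380) (nat_lit 4683485376) (nat_lit 76) (nat_lit 147929360) (nat_lit 95) (nat_lit 5) (nat_lit 100) (nat_lit 5) (nat_lit 96) (nat_lit 4) (nat_lit 466) (nat_lit 348) (nat_lit 326))))) (XT.nd (nat_lit 156) (nat_lit 608) (nat_lit 0) (XT.nd (nat_lit 78) (nat_lit 76) (nat_lit 0) (XT.lf (nat_lit 0) (nat_lit 2584596283) (nat_lit 304) (nat_lit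 7105306310) (nat_lit 380) (nat_lit 1059151421) (nat_lit 91) (nat_lit 5) (nat_lit 95) (nat_lit 5) (nat_lit 96) (nat_lit 4) (nat_lit 467) (nat_lit 348) (nat_lit 325)) (XT.lf (nat_lit 0) (nat_lit 2731267436) (nat_lit 380) (nat_lit 907339890) (nat_lit 76) (nat_lit 7230232848) (nat_lit 90) (nat_lit 5) (nat_lit 95) (nat_lit 5) (nat_lit 91) (nat_lit 5) (nat_lit 468) (nat_lit 348) (nat_lit 324))) (XT.nd (nat_lit 78) (nat_lit 304) (nat_lit 0) (XT.lf (nat_lit 0) (nat_lit 6492259334) (nat_lit 304) (nat_lit 81891078) (nat_lit 380) (nat_lit 4416931601) (nat_lit 86) (nat_lit 5) (nat_lit 90) (nat_lit 5) (nat_lit 91) (nat_lit 5) (nat_lit 469) (nat_lit 348) (nat_lit 323)) (XT.nd (nat_lit 78) (nat_lit 76) (nat_lit 0) (XT.lf (nat_lit 0) (nat_lit 2869975493) (nat_lit 228) (nat_lit 7620667868) (nat_lit 304) (nat_lit 625206683) (nat_lit 83) (nat_lit 5) (nat_lit 86) (nat_lit 5) (nat_lit 87) (nat_lit 4) (nat_lit 470) (nat_lit 348)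 (nat_lit 322)) (XT.lf (nat_lit 0) (nat_lit 3179854030) (nat_lit 304) (nat_lit 898434323) (nat_lit 76) (nat_lit 7164819314) (nat_lit 82) (nat_lit 5) (nat_lit 86) (nat_lit 5) (nat_lit 83) (nat_lit 5) (nat_lit 471) (nat_lit 348) (nat_lit 321))))))) (XT.nd (nat_lit 780) (nat_lit 1444) (nat_lit 0) (XT.nd (nat_lit 390) (nat_lit 836) (nat_lit 0) (XT.nd (nat_lit 156) (nat_lit 608) (nat_lit 0) (XT.nd (nat_lit 78) (nat_lit 228) (nat_lit 0) (XT.lf (nat_lit 0) (nat_lit 6598687367) (nat_lit 304) (nat_lit 446899731) (nat_lit 380) (nat_lit 4327397294) (nat_lit 78) (nat_lit 5) (nat_lit 82) (nat_lit 5) (nat_lit 83) (nat_lit 5) (nat_lit 472) (nat_lit 348) (nat_lit 320)) (XT.lf (nat_lit 0) (nat_lit 2686684082) (nat_lit 228) (nat_lit 8296974394) (nat_lit 304) (nat_lit 521914856) (nat_lit 75) (nat_lit 5) (nat_lit 78) (nat_lit 5) (nat_lit 79) (nat_lit 4) (nat_lit 473) (nat_lit 348) (nat_lit 319))) (XT.nd (nat_lit 78) (nat_lit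 532) (nat_lit 0) (XT.lf (nat_lit 0) (nat_lit 3301305129) (nat_lit 304) (nat_lit 1383660175) (nat_lit 76) (nat_lit 6955713235) (nat_lit 74) (nat_lit 5) (nat_lit 78) (nat_lit 5) (nat_lit 75) (nat_lit 5) (nat_lit 474) (nat_lit 348) (nat_lit 318)) (XT.nd (nat_lit 78) (nat_lit 228) (nat_lit 0) (XT.lf (nat_lit 0) (nat_lit 6199593004) (nat_lit 304) (nat_lit 986118288) (nat_lit 380) (nat_lit 4592885635) (nat_lit 70) (nat_lit 5) (nat_lit 74) (nat_lit 5) (nat_lit 75) (nat_lit 5) (nat_lit 475) (nat_lit 348) (nat_lit 317)) (XT.lf (nat_lit 0) (nat_lit 1962971191) (nat_lit 228) (nat_lit 9176722009) (nat_lit 304) (nat_lit 779756731) (nat_lit 67) (nat_lit 5) (nat_lit 70) (nat_lit 5) (nat_lit 71) (nat_lit 4) (nat_lit 476) (nat_lit 348) (nat_lit 316))))) (XT.nd (nat_lit 156) (nat_lit 532) (nat_lit 0) (XT.nd (nat_lit 78) (nat_lit 228) (nat_lit 0) (XT.lf (nat_lit 0) (nat_lit 3064879163) (nat_lit 304) (nat_lit 2436862379) (nat_lit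 76) (nat_lit 6561067556) (nat_lit 66) (nat_lit 5) (nat_lit 70) (nat_lit 5) (nat_lit 67) (nat_lit 5) (nat_lit 477) (nat_lit 348) (nat_lit 315)) (XT.lf (nat_lit 0) (nat_lit 5219045300) (nat_lit 228) (nat_lit 1743572932) (nat_lit 304) (nat_lit 5246594296) (nat_lit 63) (nat_lit 5) (nat_lit 66) (nat_lit 5) (nat_lit 67) (nat_lit 5) (nat_lit 478) (nat_lit 348) (nat_lit 314))) (XT.nd (nat_lit 78) (nat_lit 304) (nat_lit 0) (XT.lf (nat_lit 0) (nat_lit 619706883) (nat_lit 228) (nat_lit 10305645959) (nat_lit 304) (nat_lit 1433463304) (nat_lit 60) (nat_lit 5) (nat_lit 63) (nat_lit 5) (nat_lit 64) (nat_lit 4) (nat_lit 479) (nat_lit 348) (nat_lit 313)) (XT.nd (nat_lit 78) (nat_lit 228) (nat_lit 0) (XT.lf (nat_lit 0) (nat_lit 2435573736) (nat_lit 304) (nat_lit 4139500554) (nat_lit 76) (nat_lit 5935793999) (nat_lit 59) (nat_lit 5) (nat_lit 63) (nat_lit 5) (nat_lit 60) (nat_lit 5) (nat_lit 480) (nat_lit 348) (nat_lit 312))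 (XT.lf (nat_lit 0) (nat_lit 3573239609) (nat_lit 228) (nat_lit 2766783665) (nat_lit 304) (nat_lit 6326216368) (nat_lit 56) (nat_lit 5) (nat_lit 59) (nat_lit 5) (nat_lit 60) (nat_lit 5) (nat_lit 481) (nat_lit 348) (nat_lit 311)))))) (XT.nd (nat_lit 390) (nat_lit 760) (nat_lit 0) (XT.nd (nat_lit 156) (nat_lit 380) (nat_lit 0) (XT.nd (nat_lit 78) (nat_lit 304) (nat_lit 0) (XT.lf (nat_lit 0) (nat_lit 10312003087) (nat_lit 304) (nat_lit 1411714486) (nat_lit 76) (nat_lit 1101223971) (nat_lit 56) (nat_lit 5) (nat_lit 60) (nat_lit 5) (nat_lit 57) (nat_lit 4) (nat_lit 482) (nat_lit 348) (nat_lit 310)) (XT.lf (nat_lit 0) (nat_lit 1373726215) (nat_lit 304) (nat_lit 6581528604) (nat_lit 76) (nat_lit 5031091882) (nat_lit 52) (nat_lit 5) (nat_lit 56) (nat_lit 5) (nat_lit 53) (nat_lit 5) (nat_lit 483) (nat_lit 348) (nat_lit 309))) (XT.nd (nat_lit 78) (nat_lit 152) (nat_lit 0) (XT.lf (nat_lit 0) (nat_lit 1169589909) (nat_lit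 228) (nat_lit 4107257934) (nat_lit 304) (nat_lit 7874363728) (nat_lit 49) (nat_lit 5) (nat_lit 52) (nat_lit 5) (nat_lit 53) (nat_lit 5) (nat_lit 484) (nat_lit 348) (nat_lit 308)) (XT.nd (nat_lit 78) (nat_lit 152) (nat_lit 0) (XT.lf (nat_lit 0) (nat_lit 9090367278) (nat_lit 228) (nat_lit 167434777) (nat_lit 304) (nat_lit 4061587319) (nat_lit 49) (nat_lit 5) (nat_lit 52) (nat_lit 5) (nat_lit 53) (nat_lit 5) (nat_lit 485) (nat_lit 348) (nat_lit 307)) (XT.lf (nat_lit 0) (nat_lit 3627394189) (nat_lit 152) (nat_lit 9695820065) (nat_lit 228) (nat_lit 167630524) (nat_lit 47) (nat_lit 5) (nat_lit 49) (nat_lit 5) (nat_lit 50) (nat_lit 4) (nat_lit 486) (nat_lit 348) (nat_lit 306))))) (XT.nd (nat_lit 234) (nat_lit 456) (nat_lit 0) (XT.nd (nat_lit 78) (nat_lit 228) (nat_lit 0) (XT.lf (nat_lit 0) (nat_lit 3740355014) (nat_lit 228) (nat_lit 2066803068) (nat_lit 76) (nat_lit 7858366772) (nat_lit 46) (nat_lit 5) (nat_lit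 49) (nat_lit 5) (nat_lit 47) (nat_lit 5) (nat_lit 487) (nat_lit 348) (nat_lit 305)) (XT.nd (nat_lit 78) (nat_lit 0) (nat_lit 0) (XT.lf (nat_lit 0) (nat_lit 5889448184) (nat_lit 228) (nat_lit 1830270065) (nat_lit 304) (nat_lit 6124059068) (nat_lit 43) (nat_lit 5) (nat_lit 46) (nat_lit 5) (nat_lit 47) (nat_lit 5) (nat_lit 488) (nat_lit 348) (nat_lit 304)) (XT.lf (nat_lit 0) (nat_lit 11764485252) (nat_lit 304) (nat_lit 79672085) (nat_lit 76) (nat_lit 2181731161) (nat_lit 43) (nat_lit 5) (nat_lit 47) (nat_lit 5) (nat_lit 44) (nat_lit 4) (nat_lit 489) (nat_lit 348) (nat_lit 303)))) (XT.nd (nat_lit 78) (nat_lit 228) (nat_lit 0) (XT.lf (nat_lit 0) (nat_lit 1678757156) (nat_lit 228) (nat_lit 6248544989) (nat_lit 76) (nat_lit 6283686101) (nat_lit 40) (nat_lit 5) (nat_lit 43) (nat_lit 5) (nat_lit 41) (nat_lit 5) (nat_lit 490) (nat_lit 348) (nat_lit 302)) (XT.nd (nat_lit 78) (nat_lit 0) (nat_lit 0) (XT.lf (nat_lit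 0) (nat_lit 1702733555) (nat_lit 228) (nat_lit 3934641490) (nat_lit 304) (nat_lit 8762726718) (nat_lit 37) (nat_lit 5) (nat_lit 40) (nat_lit 5) (nat_lit 41) (nat_lit 5) (nat_lit 491) (nat_lit 348) (nat_lit 301)) (XT.lf (nat_lit 0) (nat_lit 9676747590) (nat_lit 304) (nat_lit 4767088359) (nat_lit 76) (nat_lit 149139192) (nat_lit 37) (nat_lit 5) (nat_lit 41) (nat_lit 5) (nat_lit 38) (nat_lit 4) (nat_lit 492) (nat_lit 348) (nat_lit 300))))))))
noncomputable def xc26 : XT := (XT.nd (nat_lit 55848) (nat_lit 0) (nat_lit 5472) (XT.nd (nat_lit 780) (nat_lit 380) (nat_lit 0) (XT.nd (nat_lit 390) (nat_lit 456) (nat_lit 0) (XT.nd (nat_lit 156) (nat_lit 380) (nat_lit 0) (XT.nd (nat_lit 78) (nat_lit 76) (nat_lit 0) (XT.lf (nat_lit 0) (nat_lit 3268513945) (nat_lit 152) (nat_lit 10534964800) (nat_lit 228) (nat_lit 986104874) (nat_lit 35) (nat_lit 5) (nat_lit 37) (nat_lit 5) (nat_lit 38) (nat_lit 4) (nat_lit 493) (nat_lit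 348) (nat_lit 299)) (XT.lf (nat_lit 0) (nat_lit 2974542177) (nat_lit 228) (nat_lit 3550054426) (nat_lit 76) (nat_lit 8465312588) (nat_lit 34) (nat_lit 5) (nat_lit 37) (nat_lit 5) (nat_lit 35) (nat_lit 5) (nat_lit 494) (nat_lit 348) (nat_lit 298))) (XT.nd (nat_lit 78) (nat_lit 152) (nat_lit 0) (XT.lf (nat_lit 0) (nat_lit 4564915737) (nat_lit 228) (nat_lit 2426092708) (nat_lit 304) (nat_lit 8203314795) (nat_lit 31) (nat_lit 5) (nat_lit 34) (nat_lit 5) (nat_lit 35) (nat_lit 5) (nat_lit 495) (nat_lit 348) (nat_lit 297)) (XT.nd (nat_lit 78) (nat_lit 152) (nat_lit 0) (XT.lf (nat_lit 0) (nat_lit 11083484659) (nat_lit 304) (nat_lit 2592553311) (nat_lit 76) (nat_lit 1726882353) (nat_lit 31) (nat_lit 5) (nat_lit 35) (nat_lit 5) (nat_lit 32) (nat_lit 4) (nat_lit 496) (nat_lit 348) (nat_lit 296)) (XT.lf (nat_lit 0) (nat_lit 5594736267) (nat_lit 152) (nat_lit 9676553466) (nat_lit 228) (nat_lit 344138231) (nat_lit 29)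 (nat_lit 5) (nat_lit 31) (nat_lit 5) (nat_lit 32) (nat_lit 4) (nat_lit 497) (nat_lit 348) (nat_lit 295))))) (XT.nd (nat_lit 156) (nat_lit 228) (nat_lit 0) (XT.nd (nat_lit 78) (nat_lit 152) (nat_lit 0) (XT.lf (nat_lit 0) (nat_lit 3640662911) (nat_lit 228) (nat_lit 1942820931) (nat_lit 76) (nat_lit 10248654680) (nat_lit 28) (nat_lit 5) (nat_lit 31) (nat_lit 5) (nat_lit 29) (nat_lit 5) (nat_lit 498) (nat_lit 348) (nat_lit 294)) (XT.lf (nat_lit 0) (nat_lit 6310731641) (nat_lit 152) (nat_lit 1392711118) (nat_lit 228) (nat_lit 8349644953) (nat_lit 26) (nat_lit 5) (nat_lit 28) (nat_lit 5) (nat_lit 29) (nat_lit 5) (nat_lit 499) (nat_lit 348) (nat_lit 293))) (XT.nd (nat_lit 78) (nat_lit 228) (nat_lit 0) (XT.lf (nat_lit 0) (nat_lit 11841361831) (nat_lit 228) (nat_lit 1607808275) (nat_lit 76) (nat_lit 2829415685) (nat_lit 26) (nat_lit 5) (nat_lit 29) (nat_lit 5) (nat_lit 27) (nat_lit 4) (nat_lit 500) (nat_lit 348)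 (nat_lit 292)) (XT.nd (nat_lit 78) (nat_lit 76) (nat_lit 0) (XT.lf (nat_lit 0) (nat_lit 6702914752) (nat_lit 152) (nat_lit 9374660569) (nat_lit 228) (nat_lit 430715217) (nat_lit 24) (nat_lit 5) (nat_lit 26) (nat_lit 5) (nat_lit 27) (nat_lit 4) (nat_lit 501) (nat_lit 348) (nat_lit 291)) (XT.lf (nat_lit 0) (nat_lit 3581686765) (nat_lit 228) (nat_lit 1629809504) (nat_lit 76) (nat_lit 11531151295) (nat_lit 23) (nat_lit 5) (nat_lit 26) (nat_lit 5) (nat_lit 24) (nat_lit 5) (nat_lit 502) (nat_lit 348) (nat_lit 290)))))) (XT.nd (nat_lit 54678) (nat_lit 0) (nat_lit 11856) (XT.nd (nat_lit 156) (nat_lit 228) (nat_lit 0) (XT.nd (nat_lit 78) (nat_lit 0) (nat_lit 0) (XT.lf (nat_lit 0) (nat_lit 6730695576) (nat_lit 152) (nat_lit 945158355) (nat_lit 228) (nat_lit 9305642170) (nat_lit 21) (nat_lit 5) (nat_lit 23) (nat_lit 5) (nat_lit 24) (nat_lit 5) (nat_lit 503) (nat_lit 348) (nat_lit 289)) (XT.lf (nat_lit 0) (nat_lit 11848733073)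 (nat_lit 228) (nat_lit 2030713732) (nat_lit 76) (nat_lit 3345745095) (nat_lit 21) (nat_lit 5) (nat_lit 24) (nat_lit 5) (nat_lit 22) (nat_lit 4) (nat_lit 504) (nat_lit 348) (nat_lit 288))) (XT.nd (nat_lit 78) (nat_lit 76) (nat_lit 0) (XT.lf (nat_lit 0) (nat_lit 6368168094) (nat_lit 152) (nat_lit 9748921148) (nat_lit 228) (nat_lit 1356438713) (nat_lit 19) (nat_lit 5) (nat_lit 21) (nat_lit 5) (nat_lit 22) (nat_lit 4) (nat_lit 505) (nat_lit 348) (nat_lit 287)) (XT.nd (nat_lit 54366) (nat_lit 0) (nat_lit 13604) (XT.lf (nat_lit 0) (nat_lit 2686177176) (nat_lit 228) (nat_lit 2844841911) (nat_lit 76) (nat_lit 12195898132) (nat_lit 18) (nat_lit 5) (nat_lit 21) (nat_lit 5) (nat_lit 19) (nat_lit 5) (nat_lit 506) (nat_lit 348) (nat_lit 286)) (XT.lf (nat_lit 0) (nat_lit 222700250) (nat_lit 608) (nat_lit 3780731436) (nat_lit 0) (nat_lit 222700250) (nat_lit 197) (nat_lit 5) (nat_lit 205) (nat_lit 4) (nat_lit 197) (nat_lit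 4) (nat_lit 442) (nat_lit 349) (nat_lit 349))))) (XT.nd (nat_lit 156) (nat_lit 1216) (nat_lit 0) (XT.nd (nat_lit 78) (nat_lit 532) (nat_lit 0) (XT.lf (nat_lit 0) (nat_lit 4202636715) (nat_lit 608) (nat_lit 1204538859) (nat_lit 0) (nat_lit 3114450226) (nat_lit 197) (nat_lit 5) (nat_lit 205) (nat_lit 4) (nat_lit 197) (nat_lit 4) (nat_lit 443) (nat_lit 349) (nat_lit 348)) (XT.lf (nat_lit 0) (nat_lit 5263764804) (nat_lit 532) (nat_lit 2742130698) (nat_lit 532) (nat_lit 587094710) (nat_lit 190) (nat_lit 4) (nat_lit 197) (nat_lit 5) (nat_lit 197) (nat_lit 4) (nat_lit 444) (nat_lit 349) (nat_lit 347))) (XT.nd (nat_lit 78) (nat_lit 608) (nat_lit 0) (XT.lf (nat_lit 0) (nat_lit 3142765308) (nat_lit 608) (nat_lit 5518756559) (nat_lit 0) (nat_lit 4562495) (nat_lit 182) (nat_lit 5) (nat_lit 190) (nat_lit 4) (nat_lit 182) (nat_lit 4) (nat_lit 445) (nat_lit 349) (nat_lit 346)) (XT.nd (nat_lit 78) (nat_lit 76) (nat_lit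 0) (XT.lf (nat_lit 0) (nat_lit 963102626) (nat_lit 532) (nat_lit 5960660973) (nat_lit 532) (nat_lit 1817142049) (nat_lit 175) (nat_lit 4) (nat_lit 182) (nat_lit 5) (nat_lit 182) (nat_lit 4) (nat_lit 446) (nat_lit 349) (nat_lit 345)) (XT.lf (nat_lit 0) (nat_lit 1912417132) (nat_lit 608) (nat_lit 1266040346) (nat_lit 76) (nat_lit 5639040555) (nat_lit 174) (nat_lit 5) (nat_lit 182) (nat_lit 5) (nat_lit 175) (nat_lit 4) (nat_lit 447) (nat_lit 349) (nat_lit 344))))))) (XT.nd (nat_lit 780) (nat_lit 2660) (nat_lit 0) (XT.nd (nat_lit 390) (nat_lit 1748) (nat_lit 0) (XT.nd (nat_lit 156) (nat_lit 988) (nat_lit 0) (XT.nd (nat_lit 78) (nat_lit 532) (nat_lit 0) (XT.lf (nat_lit 0) (nat_lit 5349799396) (nat_lit 456) (nat_lit 316141599) (nat_lit 532) (nat_lit 3229996072) (nat_lit 168) (nat_lit 5) (nat_lit 174) (nat_lit 5) (nat_lit 175) (nat_lit 4) (nat_lit 448) (nat_lit 349) (nat_lit 343)) (XT.lf (nat_lit 0) (nat_lit 496549748)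 (nat_lit 532) (nat_lit 5901609937) (nat_lit 76) (nat_lit 2578050639) (nat_lit 161) (nat_lit 5) (nat_lit 168) (nat_lit 5) (nat_lit 162) (nat_lit 4) (nat_lit 449) (nat_lit 349) (nat_lit 342))) (XT.nd (nat_lit 78) (nat_lit 532) (nat_lit 0) (XT.lf (nat_lit 0) (nat_lit 718906087) (nat_lit 456) (nat_lit 3505892077) (nat_lit 532) (nat_lit 4833482902) (nat_lit 155) (nat_lit 5) (nat_lit 161) (nat_lit 5) (nat_lit 162) (nat_lit 4) (nat_lit 450) (nat_lit 349) (nat_lit 341)) (XT.nd (nat_lit 78) (nat_lit 532) (nat_lit 0) (XT.lf (nat_lit 0) (nat_lit 7467300640) (nat_lit 456) (nat_lit 540213608) (nat_lit 532) (nat_lit 1134907829) (nat_lit 155) (nat_lit 5) (nat_lit 161) (nat_lit 5) (nat_lit 162) (nat_lit 4) (nat_lit 451) (nat_lit 349) (nat_lit 340)) (XT.lf (nat_lit 0) (nat_lit 2593443695) (nat_lit 532) (nat_lit 4156406789) (nat_lit 76) (nat_lit 2478270824) (nat_lit 148) (nat_lit 5) (nat_lit 155) (nat_lit 5) (nat_lit 149)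 (nat_lit 4) (nat_lit 452) (nat_lit 349) (nat_lit 339))))) (XT.nd (nat_lit 156) (nat_lit 836) (nat_lit 0) (XT.nd (nat_lit 78) (nat_lit 532) (nat_lit 0) (XT.lf (nat_lit 0) (nat_lit 2599649368) (nat_lit 380) (nat_lit 3754813983) (nat_lit 456) (nat_lit 2961480544) (nat_lit 143) (nat_lit 5) (nat_lit 148) (nat_lit 5) (nat_lit 149) (nat_lit 4) (nat_lit 453) (nat_lit 349) (nat_lit 338)) (XT.lf (nat_lit 0) (nat_lit 53210888) (nat_lit 456) (nat_lit 691801481) (nat_lit 532) (nat_lit 8661030388) (nat_lit 136) (nat_lit 5) (nat_lit 142) (nat_lit 5) (nat_lit 143) (nat_lit 5) (nat_lit 454) (nat_lit 349) (nat_lit 337))) (XT.nd (nat_lit 78) (nat_lit 836) (nat_lit 0) (XT.lf (nat_lit 0) (nat_lit 4489316093) (nat_lit 532) (nat_lit 2568458507) (nat_lit 76) (nat_lit 2439734682) (nat_lit 136) (nat_lit 5) (nat_lit 143) (nat_lit 5) (nat_lit 137) (nat_lit 4) (nat_lit 455) (nat_lit 349) (nat_lit 336)) (XT.nd (nat_lit 78) (nat_lit 456)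 (nat_lit 0) (XT.lf (nat_lit 0) (nat_lit 4320489049) (nat_lit 380) (nat_lit 3963920909) (nat_lit 456) (nat_lit 1306900523) (nat_lit 131) (nat_lit 5) (nat_lit 136) (nat_lit 5) (nat_lit 137) (nat_lit 4) (nat_lit 456) (nat_lit 349) (nat_lit 335)) (XT.lf (nat_lit 0) (nat_lit 1617033162) (nat_lit 380) (nat_lit 790312091) (nat_lit 456) (nat_lit 7279918417) (nat_lit 125) (nat_lit 5) (nat_lit 130) (nat_lit 5) (nat_lit 131) (nat_lit 5) (nat_lit 457) (nat_lit 349) (nat_lit 334)))))) (XT.nd (nat_lit 390) (nat_lit 1444) (nat_lit 0) (XT.nd (nat_lit 156) (nat_lit 760) (nat_lit 0) (XT.nd (nat_lit 78) (nat_lit 456) (nat_lit 0) (XT.lf (nat_lit 0) (nat_lit 6173731556) (nat_lit 456) (nat_lit 1178952175) (nat_lit 76) (nat_lit 2432394397) (nat_lit 125) (nat_lit 5) (nat_lit 131) (nat_lit 5) (nat_lit 126) (nat_lit 4) (nat_lit 458) (nat_lit 349) (nat_lit 333)) (XT.lf (nat_lit 0) (nat_lit 116879599) (nat_lit 456) (nat_lit 4046572826)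 (nat_lit 76) (nat_lit 5721640795) (nat_lit 119) (nat_lit 5) (nat_lit 125) (nat_lit 5) (nat_lit 120) (nat_lit 5) (nat_lit 459) (nat_lit 349) (nat_lit 332))) (XT.nd (nat_lit 78) (nat_lit 380) (nat_lit 0) (XT.lf (nat_lit 0) (nat_lit 2957790304) (nat_lit 380) (nat_lit 885853755) (nat_lit 456) (nat_lit 6143561346) (nat_lit 114) (nat_lit 5) (nat_lit 119) (nat_lit 5) (nat_lit 120) (nat_lit 5) (nat_lit 460) (nat_lit 349) (nat_lit 331)) (XT.nd (nat_lit 78) (nat_lit 380) (nat_lit 0) (XT.lf (nat_lit 0) (nat_lit 7633715361) (nat_lit 456) (nat_lit 32650312) (nat_lit 76) (nat_lit 2425239122) (nat_lit 114) (nat_lit 5) (nat_lit 120) (nat_lit 5) (nat_lit 115) (nat_lit 4) (nat_lit 461) (nat_lit 349) (nat_lit 330)) (XT.lf (nat_lit 0) (nat_lit 1282980245) (nat_lit 380) (nat_lit 3096314573) (nat_lit 76) (nat_lit 5818676882) (nat_lit 109) (nat_lit 5) (nat_lit 114) (nat_lit 5) (nat_lit 110) (nat_lit 5) (nat_lit 462) (nat_lit 349)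 (nat_lit 329))))) (XT.nd (nat_lit 234) (nat_lit 684) (nat_lit 0) (XT.nd (nat_lit 78) (nat_lit 380) (nat_lit 0) (XT.lf (nat_lit 0) (nat_lit 4027815931) (nat_lit 380) (nat_lit 1011049106) (nat_lit 456) (nat_lit 5267833014) (nat_lit 104) (nat_lit 5) (nat_lit 109) (nat_lit 5) (nat_lit 110) (nat_lit 5) (nat_lit 463) (nat_lit 349) (nat_lit 328)) (XT.nd (nat_lit 78) (nat_lit 76) (nat_lit 0) (XT.lf (nat_lit 0) (nat_lit 832537080) (nat_lit 304) (nat_lit 8026437530) (nat_lit 380) (nat_lit 1558861020) (nat_lit 100) (nat_lit 5) (nat_lit 104) (nat_lit 5) (nat_lit 105) (nat_lit 4) (nat_lit 464) (nat_lit 349) (nat_lit 327)) (XT.lf (nat_lit 0) (nat_lit 2191417829) (nat_lit 380) (nat_lit 2462374661) (nat_lit 76) (nat_lit 5877206761) (nat_lit 99) (nat_lit 5) (nat_lit 104) (nat_lit 5) (nat_lit 100) (nat_lit 5) (nat_lit 465) (nat_lit 349) (nat_lit 326)))) (XT.nd (nat_lit 78) (nat_lit 380) (nat_lit 0) (XT.lf (nat_lit 0) (nat_lit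 4775013538) (nat_lit 304) (nat_lit 1200063179) (nat_lit 380) (nat_lit 4671576149) (nat_lit 95) (nat_lit 5) (nat_lit 99) (nat_lit 5) (nat_lit 100) (nat_lit 5) (nat_lit 466) (nat_lit 349) (nat_lit 325)) (XT.nd (nat_lit 78) (nat_lit 76) (nat_lit 0) (XT.lf (nat_lit 0) (nat_lit 1348103520) (nat_lit 304) (nat_lit 8475309924) (nat_lit 380) (nat_lit 941443422) (nat_lit 91) (nat_lit 5) (nat_lit 95) (nat_lit 5) (nat_lit 96) (nat_lit 4) (nat_lit 467) (nat_lit 349) (nat_lit 324)) (XT.lf (nat_lit 0) (nat_lit 2822022004) (nat_lit 380) (nat_lit 2200396711) (nat_lit 76) (nat_lit 5862725502) (nat_lit 90) (nat_lit 5) (nat_lit 95) (nat_lit 5) (nat_lit 91) (nat_lit 5) (nat_lit 468) (nat_lit 349) (nat_lit 323))))))))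
noncomputable def xc27 : XT := (XT.nd (nat_lit 1560) (nat_lit 1900) (nat_lit 0) (XT.nd (nat_lit 780) (nat_lit 1520) (nat_lit 0) (XT.nd (nat_lit 390) (nat_lit 912) (nat_lit 0) (XT.nd (nat_lit 156) (nat_lit 608) (nat_lit 0) (XT.nd (nat_lit 78) (nat_lit 228) (nat_lit 0) (XT.lf (nat_lit 0) (nat_lit 5142284640) (nat_lit 304) (nat_lit 1488943968) (nat_lit 380) (nat_lit 4376839096) (nat_lit 86) (nat_lit 5) (nat_lit 90) (nat_lit 5) (nat_lit 91) (nat_lit 5) (nat_lit 469) (nat_lit 349) (nat_lit 322)) (XT.lf (nat_lit 0) (nat_lit 1454219225) (nat_lit 228) (nat_lit 9050406174) (nat_lit 304) (nat_lit 629080220) (nat_lit 83) (nat_lit 5) (nat_lit 86) (nat_lit 5) (nat_lit 87) (nat_lit 4) (nat_lit 470) (nat_lit 349) (nat_lit 321))) (XT.nd (nat_lit 78) (nat_lit 532) (nat_lit 0) (XT.lf (nat_lit 0) (nat_lit 3151324254) (nat_lit 304) (nat_lit 2371461547) (nat_lit 76) (nat_lit 5738679736) (nat_lit 82) (nat_lit 5) (nat_lit 86)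 (nat_lit 5) (nat_lit 83) (nat_lit 5) (nat_lit 471) (nat_lit 349) (nat_lit 320)) (XT.nd (nat_lit 78) (nat_lit 228) (nat_lit 0) (XT.lf (nat_lit 0) (nat_lit 5066903332) (nat_lit 304) (nat_lit 1915986043) (nat_lit 380) (nat_lit 4409143747) (nat_lit 78) (nat_lit 5) (nat_lit 82) (nat_lit 5) (nat_lit 83) (nat_lit 5) (nat_lit 472) (nat_lit 349) (nat_lit 319)) (XT.lf (nat_lit 0) (nat_lit 1085584392) (nat_lit 228) (nat_lit 9791352043) (nat_lit 304) (nat_lit 648573469) (nat_lit 75) (nat_lit 5) (nat_lit 78) (nat_lit 5) (nat_lit 79) (nat_lit 4) (nat_lit 473) (nat_lit 349) (nat_lit 318))))) (XT.nd (nat_lit 156) (nat_lit 532) (nat_lit 0) (XT.nd (nat_lit 78) (nat_lit 304) (nat_lit 0) (XT.lf (nat_lit 0) (nat_lit 3152273911) (nat_lit 304) (nat_lit 3042751741) (nat_lit 76) (nat_lit 5466093650) (nat_lit 74) (nat_lit 5) (nat_lit 78) (nat_lit 5) (nat_lit 75) (nat_lit 5) (nat_lit 474) (nat_lit 349) (nat_lit 317)) (XT.lf (nat_lit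 0) (nat_lit 4479831103) (nat_lit 304) (nat_lit 2522120632) (nat_lit 380) (nat_lit 4797787453) (nat_lit 70) (nat_lit 5) (nat_lit 74) (nat_lit 5) (nat_lit 75) (nat_lit 5) (nat_lit 475) (nat_lit 349) (nat_lit 316))) (XT.nd (nat_lit 78) (nat_lit 304) (nat_lit 0) (XT.lf (nat_lit 0) (nat_lit 170284315) (nat_lit 228) (nat_lit 10740596671) (nat_lit 304) (nat_lit 1030619054) (nat_lit 67) (nat_lit 5) (nat_lit 70) (nat_lit 5) (nat_lit 71) (nat_lit 4) (nat_lit 476) (nat_lit 349) (nat_lit 315)) (XT.nd (nat_lit 78) (nat_lit 228) (nat_lit 0) (XT.lf (nat_lit 0) (nat_lit 2793918893) (nat_lit 304) (nat_lit 4288280389) (nat_lit 76) (nat_lit 5003166792) (nat_lit 66) (nat_lit 5) (nat_lit 70) (nat_lit 5) (nat_lit 67) (nat_lit 5) (nat_lit 477) (nat_lit 349) (nat_lit 314)) (XT.lf (nat_lit 0) (nat_lit 3304965168) (nat_lit 228) (nat_lit 3351335855) (nat_lit 304) (nat_lit 5576182022) (nat_lit 63) (nat_lit 5) (nat_lit 66) (nat_lit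 5) (nat_lit 67) (nat_lit 5) (nat_lit 478) (nat_lit 349) (nat_lit 313)))))) (XT.nd (nat_lit 390) (nat_lit 684) (nat_lit 0) (XT.nd (nat_lit 156) (nat_lit 532) (nat_lit 0) (XT.nd (nat_lit 78) (nat_lit 304) (nat_lit 0) (XT.lf (nat_lit 0) (nat_lit 10581756582) (nat_lit 304) (nat_lit 1353010185) (nat_lit 76) (nat_lit 448071754) (nat_lit 63) (nat_lit 5) (nat_lit 67) (nat_lit 5) (nat_lit 64) (nat_lit 4) (nat_lit 479) (nat_lit 349) (nat_lit 312)) (XT.lf (nat_lit 0) (nat_lit 2041047859) (nat_lit 304) (nat_lit 6189691297) (nat_lit 76) (nat_lit 4304839851) (nat_lit 59) (nat_lit 5) (nat_lit 63) (nat_lit 5) (nat_lit 60) (nat_lit 5) (nat_lit 480) (nat_lit 349) (nat_lit 311))) (XT.nd (nat_lit 78) (nat_lit 304) (nat_lit 0) (XT.lf (nat_lit 0) (nat_lit 1458312938) (nat_lit 228) (nat_lit 4451131095) (nat_lit 304) (nat_lit 6782233309) (nat_lit 56) (nat_lit 5) (nat_lit 59) (nat_lit 5) (nat_lit 60) (nat_lit 5) (nat_lit 481) (nat_lit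 349) (nat_lit 310)) (XT.nd (nat_lit 78) (nat_lit 304) (nat_lit 0) (XT.lf (nat_lit 0) (nat_lit 9268935306) (nat_lit 228) (nat_lit 583120835) (nat_lit 304) (nat_lit 2998916256) (nat_lit 56) (nat_lit 5) (nat_lit 59) (nat_lit 5) (nat_lit 60) (nat_lit 5) (nat_lit 482) (nat_lit 349) (nat_lit 309)) (XT.lf (nat_lit 0) (nat_lit 853790135) (nat_lit 304) (nat_lit 8837138458) (nat_lit 76) (nat_lit 3322324280) (nat_lit 52) (nat_lit 5) (nat_lit 56) (nat_lit 5) (nat_lit 53) (nat_lit 5) (nat_lit 483) (nat_lit 349) (nat_lit 308))))) (XT.nd (nat_lit 156) (nat_lit 456) (nat_lit 0) (XT.nd (nat_lit 78) (nat_lit 228) (nat_lit 0) (XT.lf (nat_lit 0) (nat_lit 4727579812) (nat_lit 304) (nat_lit 1137794854) (nat_lit 76) (nat_lit 7313335182) (nat_lit 52) (nat_lit 5) (nat_lit 56) (nat_lit 5) (nat_lit 53) (nat_lit 5) (nat_lit 484) (nat_lit 349) (nat_lit 307)) (XT.lf (nat_lit 0) (nat_lit 6731666001) (nat_lit 228) (nat_lit 1947835565)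 (nat_lit 304) (nat_lit 4667972092) (nat_lit 49) (nat_lit 5) (nat_lit 52) (nat_lit 5) (nat_lit 53) (nat_lit 5) (nat_lit 485) (nat_lit 349) (nat_lit 306))) (XT.nd (nat_lit 78) (nat_lit 304) (nat_lit 0) (XT.lf (nat_lit 0) (nat_lit 1184306036) (nat_lit 152) (nat_lit 11511968315) (nat_lit 228) (nat_lit 823632751) (nat_lit 47) (nat_lit 5) (nat_lit 49) (nat_lit 5) (nat_lit 50) (nat_lit 4) (nat_lit 486) (nat_lit 349) (nat_lit 305)) (XT.nd (nat_lit 78) (nat_lit 228) (nat_lit 0) (XT.lf (nat_lit 0) (nat_lit 3071779273) (nat_lit 228) (nat_lit 4570565757) (nat_lit 76) (nat_lit 6052755922) (nat_lit 46) (nat_lit 5) (nat_lit 49) (nat_lit 5) (nat_lit 47) (nat_lit 5) (nat_lit 487) (nat_lit 349) (nat_lit 304)) (XT.lf (nat_lit 0) (nat_lit 3316776389) (nat_lit 228) (nat_lit 3696900764) (nat_lit 304) (nat_lit 6860430519) (nat_lit 43) (nat_lit 5) (nat_lit 46) (nat_lit 5) (nat_lit 47) (nat_lit 5) (nat_lit 488) (nat_lit 349) (nat_lit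 303))))))) (XT.nd (nat_lit 780) (nat_lit 760) (nat_lit 0) (XT.nd (nat_lit 390) (nat_lit 532) (nat_lit 0) (XT.nd (nat_lit 156) (nat_lit 380) (nat_lit 0) (XT.nd (nat_lit 78) (nat_lit 228) (nat_lit 0) (XT.lf (nat_lit 0) (nat_lit 11025649949) (nat_lit 304) (nat_lit 2705814796) (nat_lit 76) (nat_lit 325414845) (nat_lit 43) (nat_lit 5) (nat_lit 47) (nat_lit 5) (nat_lit 44) (nat_lit 4) (nat_lit 489) (nat_lit 349) (nat_lit 302)) (XT.lf (nat_lit 0) (nat_lit 880998224) (nat_lit 228) (nat_lit 8971118663) (nat_lit 76) (nat_lit 4390727658) (nat_lit 40) (nat_lit 5) (nat_lit 43) (nat_lit 5) (nat_lit 41) (nat_lit 5) (nat_lit 490) (nat_lit 349) (nat_lit 301))) (XT.nd (nat_lit 78) (nat_lit 380) (nat_lit 0) (XT.lf (nat_lit 0) (nat_lit 4808328216) (nat_lit 228) (nat_lit 1076786397) (nat_lit 76) (nat_lit 8547473780) (nat_lit 40) (nat_lit 5) (nat_lit 43) (nat_lit 5) (nat_lit 41) (nat_lit 5) (nat_lit 491) (nat_lit 349) (nat_lit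 300)) (XT.nd (nat_lit 78) (nat_lit 152) (nat_lit 0) (XT.lf (nat_lit 0) (nat_lit 6998670813) (nat_lit 228) (nat_lit 1820905479) (nat_lit 304) (nat_lit 5806452451) (nat_lit 37) (nat_lit 5) (nat_lit 40) (nat_lit 5) (nat_lit 41) (nat_lit 5) (nat_lit 492) (nat_lit 349) (nat_lit 299)) (XT.lf (nat_lit 0) (nat_lit 347741288) (nat_lit 152) (nat_lit 12548022989) (nat_lit 228) (nat_lit 1927888202) (nat_lit 35) (nat_lit 5) (nat_lit 37) (nat_lit 5) (nat_lit 38) (nat_lit 4) (nat_lit 493) (nat_lit 349) (nat_lit 298))))) (XT.nd (nat_lit 156) (nat_lit 228) (nat_lit 0) (XT.nd (nat_lit 78) (nat_lit 228) (nat_lit 0) (XT.lf (nat_lit 0) (nat_lit 2025387445) (nat_lit 228) (nat_lit 6532842937) (nat_lit 76) (nat_lit 6466268649) (nat_lit 34) (nat_lit 5) (nat_lit 37) (nat_lit 5) (nat_lit 35) (nat_lit 5) (nat_lit 494) (nat_lit 349) (nat_lit 297)) (XT.lf (nat_lit 0) (nat_lit 1508649951) (nat_lit 228) (nat_lit 4494024123) (nat_lit 304)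 (nat_lit 9227026740) (nat_lit 31) (nat_lit 5) (nat_lit 34) (nat_lit 5) (nat_lit 35) (nat_lit 5) (nat_lit 495) (nat_lit 349) (nat_lit 296))) (XT.nd (nat_lit 78) (nat_lit 228) (nat_lit 0) (XT.lf (nat_lit 0) (nat_lit 9732515412) (nat_lit 228) (nat_lit 332101228) (nat_lit 304) (nat_lit 5374295990) (nat_lit 31) (nat_lit 5) (nat_lit 34) (nat_lit 5) (nat_lit 35) (nat_lit 5) (nat_lit 496) (nat_lit 349) (nat_lit 295)) (XT.nd (nat_lit 78) (nat_lit 76) (nat_lit 0) (XT.lf (nat_lit 0) (nat_lit 2408445382) (nat_lit 152) (nat_lit 11802246827) (nat_lit 228) (nat_lit 1441566633) (nat_lit 29) (nat_lit 5) (nat_lit 31) (nat_lit 5) (nat_lit 32) (nat_lit 4) (nat_lit 497) (nat_lit 349) (nat_lit 294)) (XT.lf (nat_lit 0) (nat_lit 2538772495) (nat_lit 228) (nat_lit 5191670396) (nat_lit 76) (nat_lit 8139049940) (nat_lit 28) (nat_lit 5) (nat_lit 31) (nat_lit 5) (nat_lit 29) (nat_lit 5) (nat_lit 498) (nat_lit 349) (nat_lit 293))))))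 (XT.nd (nat_lit 390) (nat_lit 228) (nat_lit 0) (XT.nd (nat_lit 156) (nat_lit 380) (nat_lit 0) (XT.nd (nat_lit 78) (nat_lit 0) (nat_lit 0) (XT.lf (nat_lit 0) (nat_lit 2986069880) (nat_lit 152) (nat_lit 3575411274) (nat_lit 228) (nat_lit 9529766042) (nat_lit 26) (nat_lit 5) (nat_lit 28) (nat_lit 5) (nat_lit 29) (nat_lit 5) (nat_lit 499) (nat_lit 349) (nat_lit 292)) (XT.lf (nat_lit 0) (nat_lit 10666809390) (nat_lit 228) (nat_lit 4988736401) (nat_lit 76) (nat_lit 661854977) (nat_lit 26) (nat_lit 5) (nat_lit 29) (nat_lit 5) (nat_lit 27) (nat_lit 4) (nat_lit 500) (nat_lit 349) (nat_lit 291))) (XT.nd (nat_lit 78) (nat_lit 228) (nat_lit 0) (XT.lf (nat_lit 0) (nat_lit 3244989811) (nat_lit 152) (nat_lit 11617523792) (nat_lit 228) (nat_lit 1685405704) (nat_lit 24) (nat_lit 5) (nat_lit 26) (nat_lit 5) (nat_lit 27) (nat_lit 4) (nat_lit 501) (nat_lit 349) (nat_lit 290)) (XT.nd (nat_lit 78) (nat_lit 152) (nat_lit 0) (XT.lf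 (nat_lit 0) (nat_lit 2325421517) (nat_lit 228) (nat_lit 5150897323) (nat_lit 76) (nat_lit 9306484489) (nat_lit 23) (nat_lit 5) (nat_lit 26) (nat_lit 5) (nat_lit 24) (nat_lit 5) (nat_lit 502) (nat_lit 349) (nat_lit 289)) (XT.lf (nat_lit 0) (nat_lit 3131342385) (nat_lit 152) (nat_lit 3247200193) (nat_lit 228) (nat_lit 10643933609) (nat_lit 21) (nat_lit 5) (nat_lit 23) (nat_lit 5) (nat_lit 24) (nat_lit 5) (nat_lit 503) (nat_lit 349) (nat_lit 288))))) (XT.nd (nat_lit 54366) (nat_lit 0) (nat_lit 13604) (XT.nd (nat_lit 78) (nat_lit 228) (nat_lit 0) (XT.lf (nat_lit 0) (nat_lit 10518858380) (nat_lit 228) (nat_lit 5687222925) (nat_lit 76) (nat_lit 1060745278) (nat_lit 21) (nat_lit 5) (nat_lit 24) (nat_lit 5) (nat_lit 22) (nat_lit 4) (nat_lit 504) (nat_lit 349) (nat_lit 287)) (XT.nd (nat_lit 78) (nat_lit 76) (nat_lit 0) (XT.lf (nat_lit 0) (nat_lit 2632148271) (nat_lit 152) (nat_lit 12113538033) (nat_lit 228) (nat_lit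 2770310164) (nat_lit 19) (nat_lit 5) (nat_lit 21) (nat_lit 5) (nat_lit 22) (nat_lit 4) (nat_lit 505) (nat_lit 349) (nat_lit 286)) (XT.lf (nat_lit 0) (nat_lit 1273602633) (nat_lit 228) (nat_lit 6644694109) (nat_lit 76) (nat_lit 9851620649) (nat_lit 18) (nat_lit 5) (nat_lit 21) (nat_lit 5) (nat_lit 19) (nat_lit 5) (nat_lit 506) (nat_lit 349) (nat_lit 285)))) (XT.nd (nat_lit 78) (nat_lit 1216) (nat_lit 0) (XT.lf (nat_lit 0) (nat_lit 1240869222) (nat_lit 608) (nat_lit 1676914985) (nat_lit 0) (nat_lit 1240869222) (nat_lit 213) (nat_lit 5) (nat_lit 221) (nat_lit 4) (nat_lit 213) (nat_lit 4) (nat_lit 440) (nat_lit 350) (nat_lit 350)) (XT.nd (nat_lit 78) (nat_lit 608) (nat_lit 0) (XT.lf (nat_lit 0) (nat_lit 2927292778) (nat_lit 608) (nat_lit 3294492924) (nat_lit 608) (nat_lit 2162343700) (nat_lit 205) (nat_lit 4) (nat_lit 213) (nat_lit 5) (nat_lit 213) (nat_lit 4) (nat_lit 441) (nat_lit 350) (nat_lit 349)) (XT.lf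 (nat_lit 0) (nat_lit 844112100) (nat_lit 532) (nat_lit 683715396) (nat_lit 608) (nat_lit 6925003408) (nat_lit 197) (nat_lit 5) (nat_lit 204) (nat_lit 5) (nat_lit 205) (nat_lit 4) (nat_lit 442) (nat_lit 350) (nat_lit 348))))))))
noncomputable def xc28 : XT := (XT.nd (nat_lit 1560) (nat_lit 4332) (nat_lit 0) (XT.nd (nat_lit 780) (nat_lit 2964) (nat_lit 0) (XT.nd (nat_lit 390) (nat_lit 1976) (nat_lit 0) (XT.nd (nat_lit 156) (nat_lit 1140) (nat_lit 0) (XT.nd (nat_lit 78) (nat_lit 608) (nat_lit 0) (XT.lf (nat_lit 0) (nat_lit 5249288931) (nat_lit 608) (nat_lit 1289332910) (nat_lit 0) (nat_lit 1984302724) (nat_lit 197) (nat_lit 5) (nat_lit 205) (nat_lit 4) (nat_lit 197) (nat_lit 4) (nat_lit 443) (nat_lit 350) (nat_lit 347)) (XT.lf (nat_lit 0) (nat_lit 420474116) (nat_lit 608) (nat_lit 3461559373) (nat_lit 76) (nat_lit 4712847080) (nat_lit 189) (nat_lit 5) (nat_lit 197) (nat_lit 5) (nat_lit 190) (nat_lit 4) (nat_lit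 444) (nat_lit 350) (nat_lit 346))) (XT.nd (nat_lit 78) (nat_lit 608) (nat_lit 0) (XT.lf (nat_lit 0) (nat_lit 2967549024) (nat_lit 532) (nat_lit 1143286889) (nat_lit 608) (nat_lit 4557713840) (nat_lit 182) (nat_lit 5) (nat_lit 189) (nat_lit 5) (nat_lit 190) (nat_lit 4) (nat_lit 445) (nat_lit 350) (nat_lit 345)) (XT.nd (nat_lit 78) (nat_lit 76) (nat_lit 0) (XT.lf (nat_lit 0) (nat_lit 743821428) (nat_lit 532) (nat_lit 7108828867) (nat_lit 532) (nat_lit 891519424) (nat_lit 175) (nat_lit 4) (nat_lit 182) (nat_lit 5) (nat_lit 182) (nat_lit 4) (nat_lit 446) (nat_lit 350) (nat_lit 344)) (XT.lf (nat_lit 0) (nat_lit 2795676208) (nat_lit 608) (nat_lit 1536321963) (nat_lit 76) (nat_lit 4489262636) (nat_lit 174) (nat_lit 5) (nat_lit 182) (nat_lit 5) (nat_lit 175) (nat_lit 4) (nat_lit 447) (nat_lit 350) (nat_lit 343))))) (XT.nd (nat_lit 156) (nat_lit 988) (nat_lit 0) (XT.nd (nat_lit 78) (nat_lit 532) (nat_lit 0) (XT.lf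 (nat_lit 0) (nat_lit 5034473805) (nat_lit 456) (nat_lit 1483047746) (nat_lit 532) (nat_lit 2382825998) (nat_lit 168) (nat_lit 5) (nat_lit 174) (nat_lit 5) (nat_lit 175) (nat_lit 4) (nat_lit 448) (nat_lit 350) (nat_lit 342)) (XT.lf (nat_lit 0) (nat_lit 1293046727) (nat_lit 532) (nat_lit 6270081315) (nat_lit 76) (nat_lit 1418187591) (nat_lit 161) (nat_lit 5) (nat_lit 168) (nat_lit 5) (nat_lit 162) (nat_lit 4) (nat_lit 449) (nat_lit 350) (nat_lit 341))) (XT.nd (nat_lit 78) (nat_lit 532) (nat_lit 0) (XT.lf (nat_lit 0) (nat_lit 303691548) (nat_lit 456) (nat_lit 4685624882) (nat_lit 532) (nat_lit 4074722840) (nat_lit 155) (nat_lit 5) (nat_lit 161) (nat_lit 5) (nat_lit 162) (nat_lit 4) (nat_lit 450) (nat_lit 350) (nat_lit 340)) (XT.nd (nat_lit 78) (nat_lit 532) (nat_lit 0) (XT.lf (nat_lit 0) (nat_lit 7011060248) (nat_lit 456) (nat_lit 1731997207) (nat_lit 532) (nat_lit 405715388) (nat_lit 155) (nat_lit 5) (nat_lit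 161) (nat_lit 5) (nat_lit 162) (nat_lit 4) (nat_lit 451) (nat_lit 350) (nat_lit 339)) (XT.lf (nat_lit 0) (nat_lit 3273316676) (nat_lit 532) (nat_lit 4670197798) (nat_lit 76) (nat_lit 1291670585) (nat_lit 148) (nat_lit 5) (nat_lit 155) (nat_lit 5) (nat_lit 149) (nat_lit 4) (nat_lit 452) (nat_lit 350) (nat_lit 338)))))) (XT.nd (nat_lit 390) (nat_lit 1216) (nat_lit 0) (XT.nd (nat_lit 156) (nat_lit 1292) (nat_lit 0) (XT.nd (nat_lit 78) (nat_lit 76) (nat_lit 0) (XT.lf (nat_lit 0) (nat_lit 2037640226) (nat_lit 380) (nat_lit 4964660305) (nat_lit 456) (nat_lit 2321360140) (nat_lit 143) (nat_lit 5) (nat_lit 148) (nat_lit 5) (nat_lit 149) (nat_lit 4) (nat_lit 453) (nat_lit 350) (nat_lit 337)) (XT.lf (nat_lit 0) (nat_lit 1348100316) (nat_lit 456) (nat_lit 562335347) (nat_lit 76) (nat_lit 7503825321) (nat_lit 142) (nat_lit 5) (nat_lit 148) (nat_lit 5) (nat_lit 143) (nat_lit 5) (nat_lit 454) (nat_lit 350) (nat_lit 336)))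 (XT.nd (nat_lit 78) (nat_lit 836) (nat_lit 0) (XT.lf (nat_lit 0) (nat_lit 5052684178) (nat_lit 532) (nat_lit 3233019458) (nat_lit 76) (nat_lit 1220829866) (nat_lit 136) (nat_lit 5) (nat_lit 143) (nat_lit 5) (nat_lit 137) (nat_lit 4) (nat_lit 455) (nat_lit 350) (nat_lit 335)) (XT.nd (nat_lit 78) (nat_lit 456) (nat_lit 0) (XT.lf (nat_lit 0) (nat_lit 3606181355) (nat_lit 380) (nat_lit 5209425984) (nat_lit 456) (nat_lit 785382147) (nat_lit 131) (nat_lit 5) (nat_lit 136) (nat_lit 5) (nat_lit 137) (nat_lit 4) (nat_lit 456) (nat_lit 350) (nat_lit 334)) (XT.lf (nat_lit 0) (nat_lit 838967468) (nat_lit 380) (nat_lit 2050559625) (nat_lit 456) (nat_lit 6808008726) (nat_lit 125) (nat_lit 5) (nat_lit 130) (nat_lit 5) (nat_lit 131) (nat_lit 5) (nat_lit 457) (nat_lit 350) (nat_lit 333))))) (XT.nd (nat_lit 156) (nat_lit 760) (nat_lit 0) (XT.nd (nat_lit 78) (nat_lit 456) (nat_lit 0) (XT.lf (nat_lit 0) (nat_lit 6620478256)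 (nat_lit 456) (nat_lit 1999799081) (nat_lit 76) (nat_lit 1175792356) (nat_lit 125) (nat_lit 5) (nat_lit 131) (nat_lit 5) (nat_lit 126) (nat_lit 4) (nat_lit 458) (nat_lit 350) (nat_lit 332)) (XT.lf (nat_lit 0) (nat_lit 514313740) (nat_lit 456) (nat_lit 4933016468) (nat_lit 76) (nat_lit 4449360411) (nat_lit 119) (nat_lit 5) (nat_lit 125) (nat_lit 5) (nat_lit 120) (nat_lit 5) (nat_lit 459) (nat_lit 350) (nat_lit 331))) (XT.nd (nat_lit 78) (nat_lit 380) (nat_lit 0) (XT.lf (nat_lit 0) (nat_lit 2019039588) (nat_lit 380) (nat_lit 2189306448) (nat_lit 456) (nat_lit 5791121507) (nat_lit 114) (nat_lit 5) (nat_lit 119) (nat_lit 5) (nat_lit 120) (nat_lit 5) (nat_lit 460) (nat_lit 350) (nat_lit 330)) (XT.nd (nat_lit 78) (nat_lit 380) (nat_lit 0) (XT.lf (nat_lit 0) (nat_lit 7963494882) (nat_lit 456) (nat_lit 1015382968) (nat_lit 76) (nat_lit 1125697432) (nat_lit 114) (nat_lit 5) (nat_lit 120) (nat_lit 5) (nat_lit 115)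 (nat_lit 4) (nat_lit 461) (nat_lit 350) (nat_lit 329)) (XT.lf (nat_lit 0) (nat_lit 1562743083) (nat_lit 380) (nat_lit 4147499592) (nat_lit 76) (nat_lit 4501325711) (nat_lit 109) (nat_lit 5) (nat_lit 114) (nat_lit 5) (nat_lit 110) (nat_lit 5) (nat_lit 462) (nat_lit 350) (nat_lit 328))))))) (XT.nd (nat_lit 780) (nat_lit 1976) (nat_lit 0) (XT.nd (nat_lit 390) (nat_lit 988) (nat_lit 0) (XT.nd (nat_lit 156) (nat_lit 988) (nat_lit 0) (XT.nd (nat_lit 78) (nat_lit 0) (nat_lit 0) (XT.lf (nat_lit 0) (nat_lit 2922647755) (nat_lit 380) (nat_lit 2362938925) (nat_lit 456) (nat_lit 5035378209) (nat_lit 104) (nat_lit 5) (nat_lit 109) (nat_lit 5) (nat_lit 110) (nat_lit 5) (nat_lit 463) (nat_lit 350) (nat_lit 327)) (XT.lf (nat_lit 0) (nat_lit 9065811863) (nat_lit 456) (nat_lit 328701334) (nat_lit 76) (nat_lit 1038396103) (nat_lit 104) (nat_lit 5) (nat_lit 110) (nat_lit 5) (nat_lit 105) (nat_lit 4) (nat_lit 464) (nat_lit 350)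 (nat_lit 326))) (XT.nd (nat_lit 78) (nat_lit 608) (nat_lit 0) (XT.lf (nat_lit 0) (nat_lit 2352858648) (nat_lit 380) (nat_lit 3684079368) (nat_lit 76) (nat_lit 4509674948) (nat_lit 99) (nat_lit 5) (nat_lit 104) (nat_lit 5) (nat_lit 100) (nat_lit 5) (nat_lit 465) (nat_lit 350) (nat_lit 325)) (XT.nd (nat_lit 78) (nat_lit 304) (nat_lit 0) (XT.lf (nat_lit 0) (nat_lit 3497584164) (nat_lit 304) (nat_lit 2605511101) (nat_lit 380) (nat_lit 4559848377) (nat_lit 95) (nat_lit 5) (nat_lit 99) (nat_lit 5) (nat_lit 100) (nat_lit 5) (nat_lit 466) (nat_lit 350) (nat_lit 324)) (XT.lf (nat_lit 0) (nat_lit 6785874) (nat_lit 304) (nat_lit 9901835516) (nat_lit 380) (nat_lit 873390911) (nat_lit 91) (nat_lit 5) (nat_lit 95) (nat_lit 5) (nat_lit 96) (nat_lit 4) (nat_lit 467) (nat_lit 350) (nat_lit 323))))) (XT.nd (nat_lit 156) (nat_lit 608) (nat_lit 0) (XT.nd (nat_lit 78) (nat_lit 304) (nat_lit 0) (XT.lf (nat_lit 0) (nat_lit 2864270553)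 (nat_lit 380) (nat_lit 3598524348) (nat_lit 76) (nat_lit 4440002265) (nat_lit 90) (nat_lit 5) (nat_lit 95) (nat_lit 5) (nat_lit 91) (nat_lit 5) (nat_lit 468) (nat_lit 350) (nat_lit 322)) (XT.lf (nat_lit 0) (nat_lit 3686621888) (nat_lit 304) (nat_lit 2952981159) (nat_lit 380) (nat_lit 4386803048) (nat_lit 86) (nat_lit 5) (nat_lit 90) (nat_lit 5) (nat_lit 91) (nat_lit 5) (nat_lit 469) (nat_lit 350) (nat_lit 321))) (XT.nd (nat_lit 78) (nat_lit 608) (nat_lit 0) (XT.lf (nat_lit 0) (nat_lit 10469769632) (nat_lit 380) (nat_lit 67940437) (nat_lit 76) (nat_lit 615206351) (nat_lit 86) (nat_lit 5) (nat_lit 91) (nat_lit 5) (nat_lit 87) (nat_lit 4) (nat_lit 470) (nat_lit 350) (nat_lit 320)) (XT.nd (nat_lit 78) (nat_lit 304) (nat_lit 0) (XT.lf (nat_lit 0) (nat_lit 3073294253) (nat_lit 304) (nat_lit 3952057034) (nat_lit 76) (nat_lit 4255833024) (nat_lit 82) (nat_lit 5) (nat_lit 86) (nat_lit 5) (nat_lit 83) (nat_lit 5)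 (nat_lit 471) (nat_lit 350) (nat_lit 319)) (XT.lf (nat_lit 0) (nat_lit 3426889766) (nat_lit 304) (nat_lit 3443573916) (nat_lit 380) (nat_lit 4541983483) (nat_lit 78) (nat_lit 5) (nat_lit 82) (nat_lit 5) (nat_lit 83) (nat_lit 5) (nat_lit 472) (nat_lit 350) (nat_lit 318)))))) (XT.nd (nat_lit 390) (nat_lit 1064) (nat_lit 0) (XT.nd (nat_lit 156) (nat_lit 608) (nat_lit 0) (XT.nd (nat_lit 78) (nat_lit 304) (nat_lit 0) (XT.lf (nat_lit 0) (nat_lit 10723926026) (nat_lit 380) (nat_lit 617208322) (nat_lit 76) (nat_lit 205608504) (nat_lit 78) (nat_lit 5) (nat_lit 83) (nat_lit 5) (nat_lit 79) (nat_lit 4) (nat_lit 473) (nat_lit 350) (nat_lit 317)) (XT.lf (nat_lit 0) (nat_lit 2952665810) (nat_lit 304) (nat_lit 4812018143) (nat_lit 76) (nat_lit 3918250852) (nat_lit 74) (nat_lit 5) (nat_lit 78) (nat_lit 5) (nat_lit 75) (nat_lit 5) (nat_lit 474) (nat_lit 350) (nat_lit 316))) (XT.nd (nat_lit 78) (nat_lit 304) (nat_lit 0) (XT.lf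 (nat_lit 0) (nat_lit 2649187491) (nat_lit 304) (nat_lit 4118169895) (nat_lit 380) (nat_lit 5054903825) (nat_lit 70) (nat_lit 5) (nat_lit 74) (nat_lit 5) (nat_lit 75) (nat_lit 5) (nat_lit 475) (nat_lit 350) (nat_lit 315)) (XT.nd (nat_lit 78) (nat_lit 304) (nat_lit 0) (XT.lf (nat_lit 0) (nat_lit 10249858674) (nat_lit 304) (nat_lit 394540393) (nat_lit 380) (nat_lit 1320267409) (nat_lit 70) (nat_lit 5) (nat_lit 74) (nat_lit 5) (nat_lit 75) (nat_lit 5) (nat_lit 476) (nat_lit 350) (nat_lit 314)) (XT.lf (nat_lit 0) (nat_lit 2471221905) (nat_lit 304) (nat_lit 6252595165) (nat_lit 76) (nat_lit 3385496402) (nat_lit 66) (nat_lit 5) (nat_lit 70) (nat_lit 5) (nat_lit 67) (nat_lit 5) (nat_lit 477) (nat_lit 350) (nat_lit 313))))) (XT.nd (nat_lit 234) (nat_lit 532) (nat_lit 0) (XT.nd (nat_lit 78) (nat_lit 304) (nat_lit 0) (XT.lf (nat_lit 0) (nat_lit 1277234161) (nat_lit 228) (nat_lit 5020724635) (nat_lit 304) (nat_lit 5959190830)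 (nat_lit 63) (nat_lit 5) (nat_lit 66) (nat_lit 5) (nat_lit 67) (nat_lit 5) (nat_lit 478) (nat_lit 350) (nat_lit 312)) (XT.nd (nat_lit 78) (nat_lit 304) (nat_lit 0) (XT.lf (nat_lit 0) (nat_lit 8968524204) (nat_lit 228) (nat_lit 1229665726) (nat_lit 304) (nat_lit 2209825815) (nat_lit 63) (nat_lit 5) (nat_lit 66) (nat_lit 5) (nat_lit 67) (nat_lit 5) (nat_lit 479) (nat_lit 350) (nat_lit 311)) (XT.lf (nat_lit 0) (nat_lit 1593541313) (nat_lit 304) (nat_lit 8355622388) (nat_lit 76) (nat_lit 2612533989) (nat_lit 59) (nat_lit 5) (nat_lit 63) (nat_lit 5) (nat_lit 60) (nat_lit 5) (nat_lit 480) (nat_lit 350) (nat_lit 310)))) (XT.nd (nat_lit 78) (nat_lit 532) (nat_lit 0) (XT.lf (nat_lit 0) (nat_lit 5430584980) (nat_lit 304) (nat_lit 763017017) (nat_lit 76) (nat_lit 6524826878) (nat_lit 59) (nat_lit 5) (nat_lit 63) (nat_lit 5) (nat_lit 60) (nat_lit 5) (nat_lit 481) (nat_lit 350) (nat_lit 309)) (XT.nd (nat_lit 78) (nat_lit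 304) (nat_lit 0) (XT.lf (nat_lit 0) (nat_lit 7001431065) (nat_lit 228) (nat_lit 2345057145) (nat_lit 304) (nat_lit 3531775584) (nat_lit 56) (nat_lit 5) (nat_lit 59) (nat_lit 5) (nat_lit 60) (nat_lit 5) (nat_lit 482) (nat_lit 350) (nat_lit 308)) (XT.lf (nat_lit 0) (nat_lit 279544174) (nat_lit 304) (nat_lit 11211460274) (nat_lit 76) (nat_lit 1550581983) (nat_lit 52) (nat_lit 5) (nat_lit 56) (nat_lit 5) (nat_lit 53) (nat_lit 5) (nat_lit 483) (nat_lit 350) (nat_lit 307))))))))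
noncomputable def xc29 : XT := (XT.nd (nat_lit 1560) (nat_lit 304) (nat_lit 0) (XT.nd (nat_lit 780) (nat_lit 1064) (nat_lit 0) (XT.nd (nat_lit 390) (nat_lit 456) (nat_lit 0) (XT.nd (nat_lit 156) (nat_lit 456) (nat_lit 0) (XT.nd (nat_lit 78) (nat_lit 228) (nat_lit 0) (XT.lf (nat_lit 0) (nat_lit 4132021892) (nat_lit 304) (nat_lit 3547837774) (nat_lit 76) (nat_lit 5527615336) (nat_lit 52) (nat_lit 5) (nat_lit 56) (nat_lit 5) (nat_lit 53) (nat_lit 5) (nat_lit 484) (nat_lit 350) (nat_lit 306)) (XT.lf (nat_lit 0) (nat_lit 4254108780) (nat_lit 228) (nat_lit 3792854843) (nat_lit 304) (nat_lit 5330020042) (nat_lit 49) (nat_lit 5) (nat_lit 52) (nat_lit 5) (nat_lit 53) (nat_lit 5) (nat_lit 485) (nat_lit 350) (nat_lit 305))) (XT.nd (nat_lit 78) (nat_lit 456) (nat_lit 0) (XT.lf (nat_lit 0) (nat_lit 12023266331) (nat_lit 304) (nat_lit 1361432719) (nat_lit 76) (nat_lit 165532610) (nat_lit 49) (nat_lit 5) (nat_lit 53) (nat_lit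 5) (nat_lit 50) (nat_lit 4) (nat_lit 486) (nat_lit 350) (nat_lit 304)) (XT.nd (nat_lit 78) (nat_lit 228) (nat_lit 0) (XT.lf (nat_lit 0) (nat_lit 2347893054) (nat_lit 228) (nat_lit 7195443165) (nat_lit 76) (nat_lit 4182781130) (nat_lit 46) (nat_lit 5) (nat_lit 49) (nat_lit 5) (nat_lit 47) (nat_lit 5) (nat_lit 487) (nat_lit 350) (nat_lit 303)) (XT.lf (nat_lit 0) (nat_lit 622079058) (nat_lit 228) (nat_lit 5629861346) (nat_lit 304) (nat_lit 7653945529) (nat_lit 43) (nat_lit 5) (nat_lit 46) (nat_lit 5) (nat_lit 47) (nat_lit 5) (nat_lit 488) (nat_lit 350) (nat_lit 302))))) (XT.nd (nat_lit 156) (nat_lit 228) (nat_lit 0) (XT.nd (nat_lit 78) (nat_lit 228) (nat_lit 0) (XT.lf (nat_lit 0) (nat_lit 8624299517) (nat_lit 228) (nat_lit 1617294755) (nat_lit 304) (nat_lit 3847514714) (nat_lit 43) (nat_lit 5) (nat_lit 46) (nat_lit 5) (nat_lit 47) (nat_lit 5) (nat_lit 489) (nat_lit 350) (nat_lit 301)) (XT.lf (nat_lit 0) (nat_lit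 26414216) (nat_lit 228) (nat_lit 11818065347) (nat_lit 76) (nat_lit 2431685041) (nat_lit 40) (nat_lit 5) (nat_lit 43) (nat_lit 5) (nat_lit 41) (nat_lit 5) (nat_lit 490) (nat_lit 350) (nat_lit 300))) (XT.nd (nat_lit 78) (nat_lit 228) (nat_lit 0) (XT.lf (nat_lit 0) (nat_lit 3933908303) (nat_lit 228) (nat_lit 3957668986) (nat_lit 76) (nat_lit 6574732365) (nat_lit 40) (nat_lit 5) (nat_lit 43) (nat_lit 5) (nat_lit 41) (nat_lit 5) (nat_lit 491) (nat_lit 350) (nat_lit 299)) (XT.nd (nat_lit 78) (nat_lit 0) (nat_lit 0) (XT.lf (nat_lit 0) (nat_lit 4045790170) (nat_lit 228) (nat_lit 3860747185) (nat_lit 304) (nat_lit 6753989425) (nat_lit 37) (nat_lit 5) (nat_lit 40) (nat_lit 5) (nat_lit 41) (nat_lit 5) (nat_lit 492) (nat_lit 350) (nat_lit 298)) (XT.lf (nat_lit 0) (nat_lit 11947853910) (nat_lit 304) (nat_lit 2664306185) (nat_lit 76) (nat_lit 246692158) (nat_lit 37) (nat_lit 5) (nat_lit 41) (nat_lit 5) (nat_lit 38) (nat_lit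 4) (nat_lit 493) (nat_lit 350) (nat_lit 297)))))) (XT.nd (nat_lit 390) (nat_lit 380) (nat_lit 0) (XT.nd (nat_lit 156) (nat_lit 456) (nat_lit 0) (XT.nd (nat_lit 78) (nat_lit 0) (nat_lit 0) (XT.lf (nat_lit 0) (nat_lit 1018190223) (nat_lit 228) (nat_lit 9642742694) (nat_lit 76) (nat_lit 4399637304) (nat_lit 34) (nat_lit 5) (nat_lit 37) (nat_lit 5) (nat_lit 35) (nat_lit 5) (nat_lit 494) (nat_lit 350) (nat_lit 296)) (XT.lf (nat_lit 0) (nat_lit 4966724506) (nat_lit 228) (nat_lit 1653775040) (nat_lit 76) (nat_lit 8645851566) (nat_lit 34) (nat_lit 5) (nat_lit 37) (nat_lit 5) (nat_lit 35) (nat_lit 5) (nat_lit 495) (nat_lit 350) (nat_lit 295))) (XT.nd (nat_lit 78) (nat_lit 228) (nat_lit 0) (XT.lf (nat_lit 0) (nat_lit 6515588990) (nat_lit 228) (nat_lit 2483401338) (nat_lit 304) (nat_lit 6477170117) (nat_lit 31) (nat_lit 5) (nat_lit 34) (nat_lit 5) (nat_lit 35) (nat_lit 5) (nat_lit 496) (nat_lit 350) (nat_lit 294))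 (XT.nd (nat_lit 78) (nat_lit 228) (nat_lit 0) (XT.lf (nat_lit 0) (nat_lit 13096945542) (nat_lit 304) (nat_lit 895519380) (nat_lit 76) (nat_lit 1698008042) (nat_lit 31) (nat_lit 5) (nat_lit 35) (nat_lit 5) (nat_lit 32) (nat_lit 4) (nat_lit 497) (nat_lit 350) (nat_lit 293)) (XT.lf (nat_lit 0) (nat_lit 1377504006) (nat_lit 228) (nat_lit 8570558544) (nat_lit 76) (nat_lit 5960286059) (nat_lit 28) (nat_lit 5) (nat_lit 31) (nat_lit 5) (nat_lit 29) (nat_lit 5) (nat_lit 498) (nat_lit 350) (nat_lit 292))))) (XT.nd (nat_lit 156) (nat_lit 228) (nat_lit 0) (XT.nd (nat_lit 78) (nat_lit 152) (nat_lit 0) (XT.lf (nat_lit 0) (nat_lit 5362702297) (nat_lit 228) (nat_lit 463558326) (nat_lit 76) (nat_lit 10304596235) (nat_lit 28) (nat_lit 5) (nat_lit 31) (nat_lit 5) (nat_lit 29) (nat_lit 5) (nat_lit 499) (nat_lit 350) (nat_lit 291)) (XT.lf (nat_lit 0) (nat_lit 7845947640) (nat_lit 152) (nat_lit 1596707713) (nat_lit 228) (nat_lit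 6914866187) (nat_lit 26) (nat_lit 5) (nat_lit 28) (nat_lit 5) (nat_lit 29) (nat_lit 5) (nat_lit 500) (nat_lit 350) (nat_lit 290))) (XT.nd (nat_lit 78) (nat_lit 228) (nat_lit 0) (XT.lf (nat_lit 0) (nat_lit 13589220000) (nat_lit 228) (nat_lit 341064435) (nat_lit 76) (nat_lit 2658741970) (nat_lit 26) (nat_lit 5) (nat_lit 29) (nat_lit 5) (nat_lit 27) (nat_lit 4) (nat_lit 501) (nat_lit 350) (nat_lit 289)) (XT.nd (nat_lit 78) (nat_lit 0) (nat_lit 0) (XT.lf (nat_lit 0) (nat_lit 1008323995) (nat_lit 228) (nat_lit 8805146498) (nat_lit 76) (nat_lit 7011012719) (nat_lit 23) (nat_lit 5) (nat_lit 26) (nat_lit 5) (nat_lit 24) (nat_lit 5) (nat_lit 502) (nat_lit 350) (nat_lit 288)) (XT.lf (nat_lit 0) (nat_lit 5023784189) (nat_lit 228) (nat_lit 594425111) (nat_lit 76) (nat_lit 11446703317) (nat_lit 23) (nat_lit 5) (nat_lit 26) (nat_lit 5) (nat_lit 24) (nat_lit 5) (nat_lit 503) (nat_lit 350) (nat_lit 287))))))) (XT.nd (nat_lit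 54756) (nat_lit 0) (nat_lit 8892) (XT.nd (nat_lit 54366) (nat_lit 0) (nat_lit 12920) (XT.nd (nat_lit 156) (nat_lit 152) (nat_lit 0) (XT.nd (nat_lit 78) (nat_lit 0) (nat_lit 0) (XT.lf (nat_lit 0) (nat_lit 7822804850) (nat_lit 152) (nat_lit 1313219150) (nat_lit 228) (nat_lit 8173803799) (nat_lit 21) (nat_lit 5) (nat_lit 23) (nat_lit 5) (nat_lit 24) (nat_lit 5) (nat_lit 504) (nat_lit 350) (nat_lit 286)) (XT.lf (nat_lit 0) (nat_lit 13320303114) (nat_lit 228) (nat_lit 1223560344) (nat_lit 76) (nat_lit 3015988404) (nat_lit 21) (nat_lit 5) (nat_lit 24) (nat_lit 5) (nat_lit 22) (nat_lit 4) (nat_lit 505) (nat_lit 350) (nat_lit 285))) (XT.nd (nat_lit 54054) (nat_lit 0) (nat_lit 15352) (XT.lf (nat_lit 0) (nat_lit 7232083757) (nat_lit 152) (nat_lit 10378302633) (nat_lit 228) (nat_lit 204053985) (nat_lit 19) (nat_lit 5) (nat_lit 21) (nat_lit 5) (nat_lit 22) (nat_lit 4) (nat_lit 506) (nat_lit 350) (nat_lit 284)) (XT.nd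 (nat_lit 78) (nat_lit 0) (nat_lit 0) (XT.lf (nat_lit 0) (nat_lit 374301657) (nat_lit 608) (nat_lit 1859871118) (nat_lit 608) (nat_lit 1859871118) (nat_lit 221) (nat_lit 4) (nat_lit 229) (nat_lit 5) (nat_lit 229) (nat_lit 4) (nat_lit 438) (nat_lit 351) (nat_lit 351)) (XT.lf (nat_lit 0) (nat_lit 6957300119) (nat_lit 608) (nat_lit 1236480930) (nat_lit 608) (nat_lit 58592878) (nat_lit 221) (nat_lit 4) (nat_lit 229) (nat_lit 5) (nat_lit 229) (nat_lit 4) (nat_lit 439) (nat_lit 351) (nat_lit 350))))) (XT.nd (nat_lit 156) (nat_lit 1216) (nat_lit 0) (XT.nd (nat_lit 78) (nat_lit 608) (nat_lit 0) (XT.lf (nat_lit 0) (nat_lit 3604779345) (nat_lit 608) (nat_lit 3395341861) (nat_lit 0) (nat_lit 1317837914) (nat_lit 213) (nat_lit 5) (nat_lit 221) (nat_lit 4) (nat_lit 213) (nat_lit 4) (nat_lit 440) (nat_lit 351) (nat_lit 349)) (XT.lf (nat_lit 0) (nat_lit 2843990430) (nat_lit 608) (nat_lit 4469166585) (nat_lit 608) (nat_lit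 1072274935) (nat_lit 205) (nat_lit 4) (nat_lit 213) (nat_lit 5) (nat_lit 213) (nat_lit 4) (nat_lit 441) (nat_lit 351) (nat_lit 348))) (XT.nd (nat_lit 78) (nat_lit 608) (nat_lit 0) (XT.lf (nat_lit 0) (nat_lit 709809949) (nat_lit 532) (nat_lit 1861916827) (nat_lit 608) (nat_lit 5882918826) (nat_lit 197) (nat_lit 5) (nat_lit 204) (nat_lit 5) (nat_lit 205) (nat_lit 4) (nat_lit 442) (nat_lit 351) (nat_lit 347)) (XT.nd (nat_lit 78) (nat_lit 608) (nat_lit 0) (XT.lf (nat_lit 0) (nat_lit 6254817325) (nat_lit 608) (nat_lit 1458954264) (nat_lit 0) (nat_lit 811751013) (nat_lit 197) (nat_lit 5) (nat_lit 205) (nat_lit 4) (nat_lit 197) (nat_lit 4) (nat_lit 443) (nat_lit 351) (nat_lit 346)) (XT.lf (nat_lit 0) (nat_lit 1378526630) (nat_lit 608) (nat_lit 3683864951) (nat_lit 76) (nat_lit 3535606579) (nat_lit 189) (nat_lit 5) (nat_lit 197) (nat_lit 5) (nat_lit 190) (nat_lit 4) (nat_lit 444) (nat_lit 351) (nat_lit 345))))))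 (XT.nd (nat_lit 390) (nat_lit 1900) (nat_lit 0) (XT.nd (nat_lit 156) (nat_lit 1064) (nat_lit 0) (XT.nd (nat_lit 78) (nat_lit 532) (nat_lit 0) (XT.lf (nat_lit 0) (nat_lit 2701255477) (nat_lit 532) (nat_lit 2335903103) (nat_lit 608) (nat_lit 3635158364) (nat_lit 182) (nat_lit 5) (nat_lit 189) (nat_lit 5) (nat_lit 190) (nat_lit 4) (nat_lit 445) (nat_lit 351) (nat_lit 344)) (XT.lf (nat_lit 0) (nat_lit 436707372) (nat_lit 532) (nat_lit 8302785981) (nat_lit 532) (nat_lit 9247859) (nat_lit 175) (nat_lit 4) (nat_lit 182) (nat_lit 5) (nat_lit 182) (nat_lit 4) (nat_lit 446) (nat_lit 351) (nat_lit 343))) (XT.nd (nat_lit 78) (nat_lit 988) (nat_lit 0) (XT.lf (nat_lit 0) (nat_lit 3636745406) (nat_lit 608) (nat_lit 1894644226) (nat_lit 76) (nat_lit 3294934862) (nat_lit 174) (nat_lit 5) (nat_lit 182) (nat_lit 5) (nat_lit 175) (nat_lit 4) (nat_lit 447) (nat_lit 351) (nat_lit 342)) (XT.nd (nat_lit 78) (nat_lit 532) (nat_lit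 0) (XT.lf (nat_lit 0) (nat_lit 4630750338) (nat_lit 456) (nat_lit 2696168956) (nat_lit 532) (nat_lit 1579139232) (nat_lit 168) (nat_lit 5) (nat_lit 174) (nat_lit 5) (nat_lit 175) (nat_lit 4) (nat_lit 448) (nat_lit 351) (nat_lit 341)) (XT.lf (nat_lit 0) (nat_lit 2046322258) (nat_lit 532) (nat_lit 6729343167) (nat_lit 76) (nat_lit 212067561) (nat_lit 161) (nat_lit 5) (nat_lit 168) (nat_lit 5) (nat_lit 162) (nat_lit 4) (nat_lit 449) (nat_lit 351) (nat_lit 340))))) (XT.nd (nat_lit 234) (nat_lit 912) (nat_lit 0) (XT.nd (nat_lit 78) (nat_lit 988) (nat_lit 0) (XT.lf (nat_lit 0) (nat_lit 5711911504) (nat_lit 532) (nat_lit 200041063) (nat_lit 76) (nat_lit 3159130725) (nat_lit 161) (nat_lit 5) (nat_lit 168) (nat_lit 5) (nat_lit 162) (nat_lit 4) (nat_lit 450) (nat_lit 351) (nat_lit 339)) (XT.nd (nat_lit 78) (nat_lit 456) (nat_lit 0) (XT.lf (nat_lit 0) (nat_lit 275839656) (nat_lit 532) (nat_lit 2693791094) (nat_lit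 76) (nat_lit 6186757086) (nat_lit 154) (nat_lit 5) (nat_lit 161) (nat_lit 5) (nat_lit 155) (nat_lit 5) (nat_lit 451) (nat_lit 351) (nat_lit 338)) (XT.lf (nat_lit 0) (nat_lit 3909445647) (nat_lit 532) (nat_lit 5276776138) (nat_lit 76) (nat_lit 57339991) (nat_lit 148) (nat_lit 5) (nat_lit 155) (nat_lit 5) (nat_lit 149) (nat_lit 4) (nat_lit 452) (nat_lit 351) (nat_lit 337)))) (XT.nd (nat_lit 78) (nat_lit 532) (nat_lit 0) (XT.lf (nat_lit 0) (nat_lit 1382422228) (nat_lit 380) (nat_lit 6223922902) (nat_lit 456) (nat_lit 1726346011) (nat_lit 143) (nat_lit 5) (nat_lit 148) (nat_lit 5) (nat_lit 149) (nat_lit 4) (nat_lit 453) (nat_lit 351) (nat_lit 336)) (XT.nd (nat_lit 78) (nat_lit 456) (nat_lit 0) (XT.lf (nat_lit 0) (nat_lit 1907573783) (nat_lit 456) (nat_lit 1270610141) (nat_lit 76) (nat_lit 6245596602) (nat_lit 142) (nat_lit 5) (nat_lit 148) (nat_lit 5) (nat_lit 143) (nat_lit 5) (nat_lit 454) (nat_lit 351) (nat_lit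 335)) (XT.lf (nat_lit 0) (nat_lit 5524120194) (nat_lit 456) (nat_lit 47893841) (nat_lit 532) (nat_lit 3944853252) (nat_lit 136) (nat_lit 5) (nat_lit 142) (nat_lit 5) (nat_lit 143) (nat_lit 5) (nat_lit 455) (nat_lit 351) (nat_lit 334))))))))
noncomputable def xc30 : XT := (XT.nd (nat_lit 1560) (nat_lit 2964) (nat_lit 0) (XT.nd (nat_lit 780) (nat_lit 2204) (nat_lit 0) (XT.nd (nat_lit 390) (nat_lit 1140) (nat_lit 0) (XT.nd (nat_lit 156) (nat_lit 1216) (nat_lit 0) (XT.nd (nat_lit 78) (nat_lit 76) (nat_lit 0) (XT.lf (nat_lit 0) (nat_lit 2796559608) (nat_lit 380) (nat_lit 6505816945) (nat_lit 456) (nat_lit 309609079) (nat_lit 131) (nat_lit 5) (nat_lit 136) (nat_lit 5) (nat_lit 137) (nat_lit 4) (nat_lit 456) (nat_lit 351) (nat_lit 333)) (XT.lf (nat_lit 0) (nat_lit 3326706307) (nat_lit 456) (nat_lit 35437255) (nat_lit 76) (nat_lit 6346984417) (nat_lit 130) (nat_lit 5) (nat_lit 136) (nat_lit 5) (nat_lit 131) (nat_lit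 5) (nat_lit 457) (nat_lit 351) (nat_lit 332))) (XT.nd (nat_lit 78) (nat_lit 836) (nat_lit 0) (XT.lf (nat_lit 0) (nat_lit 6889851692) (nat_lit 380) (nat_lit 133201846) (nat_lit 456) (nat_lit 2785310898) (nat_lit 125) (nat_lit 5) (nat_lit 130) (nat_lit 5) (nat_lit 131) (nat_lit 5) (nat_lit 458) (nat_lit 351) (nat_lit 331)) (XT.nd (nat_lit 78) (nat_lit 380) (nat_lit 0) (XT.lf (nat_lit 0) (nat_lit 865889479) (nat_lit 456) (nat_lit 5917979265) (nat_lit 76) (nat_lit 3125747761) (nat_lit 119) (nat_lit 5) (nat_lit 125) (nat_lit 5) (nat_lit 120) (nat_lit 5) (nat_lit 459) (nat_lit 351) (nat_lit 330)) (XT.lf (nat_lit 0) (nat_lit 981255092) (nat_lit 380) (nat_lit 3545813823) (nat_lit 456) (nat_lit 5485991467) (nat_lit 114) (nat_lit 5) (nat_lit 119) (nat_lit 5) (nat_lit 120) (nat_lit 5) (nat_lit 460) (nat_lit 351) (nat_lit 329))))) (XT.nd (nat_lit 156) (nat_lit 760) (nat_lit 0) (XT.nd (nat_lit 78) (nat_lit 380) (nat_lit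 0) (XT.lf (nat_lit 0) (nat_lit 8020008838) (nat_lit 380) (nat_lit 228947293) (nat_lit 456) (nat_lit 1869886928) (nat_lit 114) (nat_lit 5) (nat_lit 119) (nat_lit 5) (nat_lit 120) (nat_lit 5) (nat_lit 461) (nat_lit 351) (nat_lit 328)) (XT.lf (nat_lit 0) (nat_lit 1795852442) (nat_lit 380) (nat_lit 5299475441) (nat_lit 76) (nat_lit 3131172938) (nat_lit 109) (nat_lit 5) (nat_lit 114) (nat_lit 5) (nat_lit 110) (nat_lit 5) (nat_lit 462) (nat_lit 351) (nat_lit 327))) (XT.nd (nat_lit 78) (nat_lit 380) (nat_lit 0) (XT.lf (nat_lit 0) (nat_lit 1716133868) (nat_lit 380) (nat_lit 3769370143) (nat_lit 456) (nat_lit 4851066300) (nat_lit 104) (nat_lit 5) (nat_lit 109) (nat_lit 5) (nat_lit 110) (nat_lit 5) (nat_lit 463) (nat_lit 351) (nat_lit 326)) (XT.nd (nat_lit 78) (nat_lit 380) (nat_lit 0) (XT.lf (nat_lit 0) (nat_lit 8866202573) (nat_lit 380) (nat_lit 367584047) (nat_lit 456) (nat_lit 1215375918) (nat_lit 104) (nat_lit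 5) (nat_lit 109) (nat_lit 5) (nat_lit 110) (nat_lit 5) (nat_lit 464) (nat_lit 351) (nat_lit 325)) (XT.lf (nat_lit 0) (nat_lit 2466769013) (nat_lit 380) (nat_lit 5008939490) (nat_lit 76) (nat_lit 3087863041) (nat_lit 99) (nat_lit 5) (nat_lit 104) (nat_lit 5) (nat_lit 100) (nat_lit 5) (nat_lit 465) (nat_lit 351) (nat_lit 324)))))) (XT.nd (nat_lit 390) (nat_lit 1216) (nat_lit 0) (XT.nd (nat_lit 156) (nat_lit 684) (nat_lit 0) (XT.nd (nat_lit 78) (nat_lit 0) (nat_lit 0) (XT.lf (nat_lit 0) (nat_lit 2116402785) (nat_lit 304) (nat_lit 4066999659) (nat_lit 380) (nat_lit 4497180289) (nat_lit 95) (nat_lit 5) (nat_lit 99) (nat_lit 5) (nat_lit 100) (nat_lit 5) (nat_lit 466) (nat_lit 351) (nat_lit 323)) (XT.lf (nat_lit 0) (nat_lit 9375479383) (nat_lit 304) (nat_lit 583215763) (nat_lit 380) (nat_lit 841569200) (nat_lit 95) (nat_lit 5) (nat_lit 99) (nat_lit 5) (nat_lit 100) (nat_lit 5) (nat_lit 467) (nat_lit 351) (nat_lit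 322))) (XT.nd (nat_lit 78) (nat_lit 304) (nat_lit 0) (XT.lf (nat_lit 0) (nat_lit 2858029650) (nat_lit 380) (nat_lit 5102271087) (nat_lit 76) (nat_lit 2961505206) (nat_lit 90) (nat_lit 5) (nat_lit 95) (nat_lit 5) (nat_lit 91) (nat_lit 5) (nat_lit 468) (nat_lit 351) (nat_lit 321)) (XT.nd (nat_lit 78) (nat_lit 0) (nat_lit 0) (XT.lf (nat_lit 0) (nat_lit 2124700230) (nat_lit 304) (nat_lit 4474576783) (nat_lit 380) (nat_lit 4446827367) (nat_lit 86) (nat_lit 5) (nat_lit 90) (nat_lit 5) (nat_lit 91) (nat_lit 5) (nat_lit 469) (nat_lit 351) (nat_lit 320)) (XT.lf (nat_lit 0) (nat_lit 9489740609) (nat_lit 304) (nat_lit 911937873) (nat_lit 380) (nat_lit 771499177) (nat_lit 86) (nat_lit 5) (nat_lit 90) (nat_lit 5) (nat_lit 91) (nat_lit 5) (nat_lit 470) (nat_lit 351) (nat_lit 319))))) (XT.nd (nat_lit 156) (nat_lit 608) (nat_lit 0) (XT.nd (nat_lit 78) (nat_lit 304) (nat_lit 0) (XT.lf (nat_lit 0) (nat_lit 2945733427) (nat_lit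 304) (nat_lit 5640840625) (nat_lit 76) (nat_lit 2715697669) (nat_lit 82) (nat_lit 5) (nat_lit 86) (nat_lit 5) (nat_lit 83) (nat_lit 5) (nat_lit 471) (nat_lit 351) (nat_lit 318)) (XT.lf (nat_lit 0) (nat_lit 1678003524) (nat_lit 304) (nat_lit 5030262406) (nat_lit 380) (nat_lit 4725968595) (nat_lit 78) (nat_lit 5) (nat_lit 82) (nat_lit 5) (nat_lit 83) (nat_lit 5) (nat_lit 472) (nat_lit 351) (nat_lit 317))) (XT.nd (nat_lit 78) (nat_lit 608) (nat_lit 0) (XT.lf (nat_lit 0) (nat_lit 9145106848) (nat_lit 304) (nat_lit 1392203535) (nat_lit 380) (nat_lit 1031715256) (nat_lit 78) (nat_lit 5) (nat_lit 82) (nat_lit 5) (nat_lit 83) (nat_lit 5) (nat_lit 473) (nat_lit 351) (nat_lit 316)) (XT.nd (nat_lit 78) (nat_lit 304) (nat_lit 0) (XT.lf (nat_lit 0) (nat_lit 2702402547) (nat_lit 304) (nat_lit 6692153212) (nat_lit 76) (nat_lit 2311577845) (nat_lit 74) (nat_lit 5) (nat_lit 78) (nat_lit 5) (nat_lit 75) (nat_lit 5) (nat_lit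 474) (nat_lit 351) (nat_lit 315)) (XT.lf (nat_lit 0) (nat_lit 706944270) (nat_lit 304) (nat_lit 5774891978) (nat_lit 380) (nat_lit 5364335581) (nat_lit 70) (nat_lit 5) (nat_lit 74) (nat_lit 5) (nat_lit 75) (nat_lit 5) (nat_lit 475) (nat_lit 351) (nat_lit 314))))))) (XT.nd (nat_lit 780) (nat_lit 1368) (nat_lit 0) (XT.nd (nat_lit 390) (nat_lit 760) (nat_lit 0) (XT.nd (nat_lit 156) (nat_lit 532) (nat_lit 0) (XT.nd (nat_lit 78) (nat_lit 304) (nat_lit 0) (XT.lf (nat_lit 0) (nat_lit 8271221191) (nat_lit 304) (nat_lit 2065216967) (nat_lit 380) (nat_lit 1652594261) (nat_lit 70) (nat_lit 5) (nat_lit 74) (nat_lit 5) (nat_lit 75) (nat_lit 5) (nat_lit 476) (nat_lit 351) (nat_lit 313)) (XT.lf (nat_lit 0) (nat_lit 2096661651) (nat_lit 304) (nat_lit 8330577028) (nat_lit 76) (nat_lit 1707422006) (nat_lit 66) (nat_lit 5) (nat_lit 70) (nat_lit 5) (nat_lit 67) (nat_lit 5) (nat_lit 477) (nat_lit 351) (nat_lit 312))) (XT.nd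 (nat_lit 78) (nat_lit 532) (nat_lit 0) (XT.lf (nat_lit 0) (nat_lit 5893066808) (nat_lit 304) (nat_lit 853599027) (nat_lit 76) (nat_lit 5536443793) (nat_lit 66) (nat_lit 5) (nat_lit 70) (nat_lit 5) (nat_lit 67) (nat_lit 5) (nat_lit 478) (nat_lit 351) (nat_lit 311)) (XT.nd (nat_lit 78) (nat_lit 304) (nat_lit 0) (XT.lf (nat_lit 0) (nat_lit 6790484464) (nat_lit 228) (nat_lit 2975357906) (nat_lit 304) (nat_lit 2668688522) (nat_lit 63) (nat_lit 5) (nat_lit 66) (nat_lit 5) (nat_lit 67) (nat_lit 5) (nat_lit 479) (nat_lit 351) (nat_lit 310)) (XT.lf (nat_lit 0) (nat_lit 1092878608) (nat_lit 304) (nat_lit 10638143214) (nat_lit 76) (nat_lit 858212761) (nat_lit 59) (nat_lit 5) (nat_lit 63) (nat_lit 5) (nat_lit 60) (nat_lit 5) (nat_lit 480) (nat_lit 351) (nat_lit 309))))) (XT.nd (nat_lit 156) (nat_lit 532) (nat_lit 0) (XT.nd (nat_lit 78) (nat_lit 228) (nat_lit 0) (XT.lf (nat_lit 0) (nat_lit 4908467203) (nat_lit 304) (nat_lit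 3081099439) (nat_lit 76) (nat_lit 4756833913) (nat_lit 59) (nat_lit 5) (nat_lit 63) (nat_lit 5) (nat_lit 60) (nat_lit 5) (nat_lit 481) (nat_lit 351) (nat_lit 308)) (XT.lf (nat_lit 0) (nat_lit 4617214910) (nat_lit 228) (nat_lit 4170641226) (nat_lit 304) (nat_lit 4119115197) (nat_lit 56) (nat_lit 5) (nat_lit 59) (nat_lit 5) (nat_lit 60) (nat_lit 5) (nat_lit 482) (nat_lit 351) (nat_lit 307))) (XT.nd (nat_lit 78) (nat_lit 532) (nat_lit 0) (XT.lf (nat_lit 0) (nat_lit 12441298083) (nat_lit 228) (nat_lit 282099991) (nat_lit 304) (nat_lit 347795188) (nat_lit 56) (nat_lit 5) (nat_lit 59) (nat_lit 5) (nat_lit 60) (nat_lit 5) (nat_lit 483) (nat_lit 351) (nat_lit 306)) (XT.nd (nat_lit 78) (nat_lit 228) (nat_lit 0) (XT.lf (nat_lit 0) (nat_lit 3482346777) (nat_lit 304) (nat_lit 6076823349) (nat_lit 76) (nat_lit 3678500064) (nat_lit 52) (nat_lit 5) (nat_lit 56) (nat_lit 5) (nat_lit 53) (nat_lit 5) (nat_lit 484) (nat_lit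 351) (nat_lit 305)) (XT.lf (nat_lit 0) (nat_lit 1656724027) (nat_lit 228) (nat_lit 5703216147) (nat_lit 304) (nat_lit 6047990795) (nat_lit 49) (nat_lit 5) (nat_lit 52) (nat_lit 5) (nat_lit 53) (nat_lit 5) (nat_lit 485) (nat_lit 351) (nat_lit 304)))))) (XT.nd (nat_lit 390) (nat_lit 912) (nat_lit 0) (XT.nd (nat_lit 156) (nat_lit 228) (nat_lit 0) (XT.nd (nat_lit 78) (nat_lit 228) (nat_lit 0) (XT.lf (nat_lit 0) (nat_lit 9558416870) (nat_lit 228) (nat_lit 1756432794) (nat_lit 304) (nat_lit 2266762214) (nat_lit 49) (nat_lit 5) (nat_lit 52) (nat_lit 5) (nat_lit 53) (nat_lit 5) (nat_lit 486) (nat_lit 351) (nat_lit 303)) (XT.lf (nat_lit 0) (nat_lit 1568412479) (nat_lit 228) (nat_lit 9942464657) (nat_lit 76) (nat_lit 2247709073) (nat_lit 46) (nat_lit 5) (nat_lit 49) (nat_lit 5) (nat_lit 47) (nat_lit 5) (nat_lit 487) (nat_lit 351) (nat_lit 302))) (XT.nd (nat_lit 78) (nat_lit 228) (nat_lit 0) (XT.lf (nat_lit 0) (nat_lit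 5448465225) (nat_lit 228) (nat_lit 2166903547) (nat_lit 76) (nat_lit 6323470671) (nat_lit 46) (nat_lit 5) (nat_lit 49) (nat_lit 5) (nat_lit 47) (nat_lit 5) (nat_lit 488) (nat_lit 351) (nat_lit 301)) (XT.nd (nat_lit 78) (nat_lit 0) (nat_lit 0) (XT.lf (nat_lit 0) (nat_lit 5772939854) (nat_lit 228) (nat_lit 3631140903) (nat_lit 304) (nat_lit 4718667170) (nat_lit 43) (nat_lit 5) (nat_lit 46) (nat_lit 5) (nat_lit 47) (nat_lit 5) (nat_lit 489) (nat_lit 351) (nat_lit 300)) (XT.lf (nat_lit 0) (nat_lit 13416901498) (nat_lit 304) (nat_lit 479113858) (nat_lit 76) (nat_lit 414766604) (nat_lit 43) (nat_lit 5) (nat_lit 47) (nat_lit 5) (nat_lit 44) (nat_lit 4) (nat_lit 490) (nat_lit 351) (nat_lit 299))))) (XT.nd (nat_lit 234) (nat_lit 456) (nat_lit 0) (XT.nd (nat_lit 78) (nat_lit 228) (nat_lit 0) (XT.lf (nat_lit 0) (nat_lit 3002717122) (nat_lit 228) (nat_lit 6963375624) (nat_lit 76) (nat_lit 4535407128) (nat_lit 40) (nat_lit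 5) (nat_lit 43) (nat_lit 5) (nat_lit 41) (nat_lit 5) (nat_lit 491) (nat_lit 351) (nat_lit 298)) (XT.nd (nat_lit 78) (nat_lit 0) (nat_lit 0) (XT.lf (nat_lit 0) (nat_lit 967087662) (nat_lit 228) (nat_lit 5969203881) (nat_lit 304) (nat_lit 7760210859) (nat_lit 37) (nat_lit 5) (nat_lit 40) (nat_lit 5) (nat_lit 41) (nat_lit 5) (nat_lit 492) (nat_lit 351) (nat_lit 297)) (XT.lf (nat_lit 0) (nat_lit 9085095457) (nat_lit 228) (nat_lit 1871987465) (nat_lit 304) (nat_lit 3938159683) (nat_lit 37) (nat_lit 5) (nat_lit 40) (nat_lit 5) (nat_lit 41) (nat_lit 5) (nat_lit 493) (nat_lit 351) (nat_lit 296)))) (XT.nd (nat_lit 78) (nat_lit 304) (nat_lit 0) (XT.lf (nat_lit 0) (nat_lit 2216845266) (nat_lit 152) (nat_lit 12833210420) (nat_lit 228) (nat_lit 48074979) (nat_lit 35) (nat_lit 5) (nat_lit 37) (nat_lit 5) (nat_lit 38) (nat_lit 4) (nat_lit 494) (nat_lit 351) (nat_lit 295)) (XT.nd (nat_lit 78) (nat_lit 228) (nat_lit 0) (XT.lf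 (nat_lit 0) (nat_lit 3882504333) (nat_lit 228) (nat_lit 4924102689) (nat_lit 76) (nat_lit 6497686466) (nat_lit 34) (nat_lit 5) (nat_lit 37) (nat_lit 5) (nat_lit 35) (nat_lit 5) (nat_lit 495) (nat_lit 351) (nat_lit 294)) (XT.lf (nat_lit 0) (nat_lit 3169914494) (nat_lit 228) (nat_lit 4704912263) (nat_lit 304) (nat_lit 7640078835) (nat_lit 31) (nat_lit 5) (nat_lit 34) (nat_lit 5) (nat_lit 35) (nat_lit 5) (nat_lit 496) (nat_lit 351) (nat_lit 293))))))))
noncomputable def xc31 : XT := (XT.nd (nat_lit 55458) (nat_lit 0) (nat_lit 5776) (XT.nd (nat_lit 54600) (nat_lit 0) (nat_lit 11780) (XT.nd (nat_lit 390) (nat_lit 532) (nat_lit 0) (XT.nd (nat_lit 156) (nat_lit 152) (nat_lit 0) (XT.nd (nat_lit 78) (nat_lit 228) (nat_lit 0) (XT.lf (nat_lit 0) (nat_lit 11429412919) (nat_lit 228) (nat_lit 514131198) (nat_lit 304) (nat_lit 3786262579) (nat_lit 31) (nat_lit 5) (nat_lit 34) (nat_lit 5) (nat_lit 35) (nat_lit 5) (nat_lit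 497) (nat_lit 351) (nat_lit 292)) (XT.lf (nat_lit 0) (nat_lit 156402046) (nat_lit 228) (nat_lit 12080810430) (nat_lit 76) (nat_lit 3711508617) (nat_lit 28) (nat_lit 5) (nat_lit 31) (nat_lit 5) (nat_lit 29) (nat_lit 5) (nat_lit 498) (nat_lit 351) (nat_lit 291))) (XT.nd (nat_lit 78) (nat_lit 152) (nat_lit 0) (XT.lf (nat_lit 0) (nat_lit 4123832863) (nat_lit 228) (nat_lit 4004768266) (nat_lit 76) (nat_lit 8042987168) (nat_lit 28) (nat_lit 5) (nat_lit 31) (nat_lit 5) (nat_lit 29) (nat_lit 5) (nat_lit 499) (nat_lit 351) (nat_lit 290)) (XT.nd (nat_lit 78) (nat_lit 0) (nat_lit 0) (XT.lf (nat_lit 0) (nat_lit 4226922501) (nat_lit 152) (nat_lit 3935947214) (nat_lit 228) (nat_lit 8236205122) (nat_lit 26) (nat_lit 5) (nat_lit 28) (nat_lit 5) (nat_lit 29) (nat_lit 5) (nat_lit 500) (nat_lit 351) (nat_lit 289)) (XT.lf (nat_lit 0) (nat_lit 12276889552) (nat_lit 228) (nat_lit 4016871651) (nat_lit 76) (nat_lit 337472860) (nat_lit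 26) (nat_lit 5) (nat_lit 29) (nat_lit 5) (nat_lit 27) (nat_lit 4) (nat_lit 501) (nat_lit 351) (nat_lit 288))))) (XT.nd (nat_lit 156) (nat_lit 304) (nat_lit 0) (XT.nd (nat_lit 78) (nat_lit 76) (nat_lit 0) (XT.lf (nat_lit 0) (nat_lit 4271229775) (nat_lit 152) (nat_lit 12221384041) (nat_lit 228) (nat_lit 375041041) (nat_lit 24) (nat_lit 5) (nat_lit 26) (nat_lit 5) (nat_lit 27) (nat_lit 4) (nat_lit 502) (nat_lit 351) (nat_lit 287)) (XT.lf (nat_lit 0) (nat_lit 3628347574) (nat_lit 228) (nat_lit 4413121822) (nat_lit 76) (nat_lit 9067006639) (nat_lit 23) (nat_lit 5) (nat_lit 26) (nat_lit 5) (nat_lit 24) (nat_lit 5) (nat_lit 503) (nat_lit 351) (nat_lit 286))) (XT.nd (nat_lit 78) (nat_lit 152) (nat_lit 0) (XT.lf (nat_lit 0) (nat_lit 3923702932) (nat_lit 152) (nat_lit 3774911732) (nat_lit 228) (nat_lit 9655619209) (nat_lit 21) (nat_lit 5) (nat_lit 23) (nat_lit 5) (nat_lit 24) (nat_lit 5) (nat_lit 504) (nat_lit 351)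 (nat_lit 285)) (XT.nd (nat_lit 78) (nat_lit 152) (nat_lit 0) (XT.lf (nat_lit 0) (nat_lit 11850309985) (nat_lit 228) (nat_lit 5180412632) (nat_lit 76) (nat_lit 574190132) (nat_lit 21) (nat_lit 5) (nat_lit 24) (nat_lit 5) (nat_lit 22) (nat_lit 4) (nat_lit 505) (nat_lit 351) (nat_lit 284)) (XT.lf (nat_lit 0) (nat_lit 3193512688) (nat_lit 152) (nat_lit 12904384146) (nat_lit 228) (nat_lit 1762457434) (nat_lit 19) (nat_lit 5) (nat_lit 21) (nat_lit 5) (nat_lit 22) (nat_lit 4) (nat_lit 506) (nat_lit 351) (nat_lit 283)))))) (XT.nd (nat_lit 390) (nat_lit 2964) (nat_lit 0) (XT.nd (nat_lit 156) (nat_lit 1216) (nat_lit 0) (XT.nd (nat_lit 78) (nat_lit 684) (nat_lit 0) (XT.lf (nat_lit 0) (nat_lit 2397589736) (nat_lit 684) (nat_lit 817240596) (nat_lit 684) (nat_lit 817240596) (nat_lit 238) (nat_lit 4) (nat_lit 247) (nat_lit 5) (nat_lit 247) (nat_lit 4) (nat_lit 436) (nat_lit 352) (nat_lit 352)) (XT.lf (nat_lit 0) (nat_lit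 1989560229) (nat_lit 684) (nat_lit 5347979892) (nat_lit 0) (nat_lit 788114416) (nat_lit 229) (nat_lit 5) (nat_lit 238) (nat_lit 4) (nat_lit 229) (nat_lit 4) (nat_lit 437) (nat_lit 352) (nat_lit 351))) (XT.nd (nat_lit 78) (nat_lit 608) (nat_lit 0) (XT.lf (nat_lit 0) (nat_lit 707855125) (nat_lit 608) (nat_lit 4930110486) (nat_lit 608) (nat_lit 2550776621) (nat_lit 221) (nat_lit 4) (nat_lit 229) (nat_lit 5) (nat_lit 229) (nat_lit 4) (nat_lit 438) (nat_lit 352) (nat_lit 350)) (XT.nd (nat_lit 78) (nat_lit 532) (nat_lit 0) (XT.lf (nat_lit 0) (nat_lit 1064384299) (nat_lit 684) (nat_lit 1384069787) (nat_lit 76) (nat_lit 5805075847) (nat_lit 220) (nat_lit 5) (nat_lit 229) (nat_lit 5) (nat_lit 221) (nat_lit 4) (nat_lit 439) (nat_lit 352) (nat_lit 349)) (XT.lf (nat_lit 0) (nat_lit 4687401022) (nat_lit 608) (nat_lit 3519893812) (nat_lit 0) (nat_lit 112621320) (nat_lit 213) (nat_lit 5) (nat_lit 221) (nat_lit 4) (nat_lit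 213) (nat_lit 4) (nat_lit 440) (nat_lit 352) (nat_lit 348))))) (XT.nd (nat_lit 234) (nat_lit 1748) (nat_lit 0) (XT.nd (nat_lit 78) (nat_lit 608) (nat_lit 0) (XT.lf (nat_lit 0) (nat_lit 2677353067) (nat_lit 608) (nat_lit 5686825339) (nat_lit 608) (nat_lit 23859148) (nat_lit 205) (nat_lit 4) (nat_lit 213) (nat_lit 5) (nat_lit 213) (nat_lit 4) (nat_lit 441) (nat_lit 352) (nat_lit 347)) (XT.nd (nat_lit 78) (nat_lit 0) (nat_lit 0) (XT.lf (nat_lit 0) (nat_lit 490830753) (nat_lit 532) (nat_lit 3083746693) (nat_lit 608) (nat_lit 4883189840) (nat_lit 197) (nat_lit 5) (nat_lit 204) (nat_lit 5) (nat_lit 205) (nat_lit 4) (nat_lit 442) (nat_lit 352) (nat_lit 346)) (XT.lf (nat_lit 0) (nat_lit 6813242690) (nat_lit 532) (nat_lit 409029221) (nat_lit 608) (nat_lit 1307095907) (nat_lit 197) (nat_lit 5) (nat_lit 204) (nat_lit 5) (nat_lit 205) (nat_lit 4) (nat_lit 443) (nat_lit 352) (nat_lit 345)))) (XT.nd (nat_lit 78) (nat_lit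 1140) (nat_lit 0) (XT.lf (nat_lit 0) (nat_lit 2295138390) (nat_lit 608) (nat_lit 3992417514) (nat_lit 76) (nat_lit 2314864540) (nat_lit 189) (nat_lit 5) (nat_lit 197) (nat_lit 5) (nat_lit 190) (nat_lit 4) (nat_lit 444) (nat_lit 352) (nat_lit 344)) (XT.nd (nat_lit 78) (nat_lit 608) (nat_lit 0) (XT.lf (nat_lit 0) (nat_lit 2348373349) (nat_lit 532) (nat_lit 3573693206) (nat_lit 608) (nat_lit 2755321458) (nat_lit 182) (nat_lit 5) (nat_lit 189) (nat_lit 5) (nat_lit 190) (nat_lit 4) (nat_lit 445) (nat_lit 352) (nat_lit 343)) (XT.lf (nat_lit 0) (nat_lit 30888934) (nat_lit 532) (nat_lit 793395104) (nat_lit 608) (nat_lit 7930127072) (nat_lit 174) (nat_lit 5) (nat_lit 181) (nat_lit 5) (nat_lit 182) (nat_lit 5) (nat_lit 446) (nat_lit 352) (nat_lit 342))))))) (XT.nd (nat_lit 780) (nat_lit 2660) (nat_lit 0) (XT.nd (nat_lit 390) (nat_lit 1824) (nat_lit 0) (XT.nd (nat_lit 156) (nat_lit 1064) (nat_lit 0) (XT.nd (nat_lit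 78) (nat_lit 456) (nat_lit 0) (XT.lf (nat_lit 0) (nat_lit 4435954556) (nat_lit 608) (nat_lit 2341147656) (nat_lit 76) (nat_lit 2055588870) (nat_lit 174) (nat_lit 5) (nat_lit 182) (nat_lit 5) (nat_lit 175) (nat_lit 4) (nat_lit 447) (nat_lit 352) (nat_lit 341)) (XT.lf (nat_lit 0) (nat_lit 4138470672) (nat_lit 456) (nat_lit 3955980965) (nat_lit 532) (nat_lit 818620601) (nat_lit 168) (nat_lit 5) (nat_lit 174) (nat_lit 5) (nat_lit 175) (nat_lit 4) (nat_lit 448) (nat_lit 352) (nat_lit 340))) (XT.nd (nat_lit 78) (nat_lit 532) (nat_lit 0) (XT.lf (nat_lit 0) (nat_lit 1708905108) (nat_lit 456) (nat_lit 1054613890) (nat_lit 532) (nat_lit 6231808957) (nat_lit 161) (nat_lit 5) (nat_lit 167) (nat_lit 5) (nat_lit 168) (nat_lit 5) (nat_lit 449) (nat_lit 352) (nat_lit 339)) (XT.nd (nat_lit 78) (nat_lit 532) (nat_lit 0) (XT.lf (nat_lit 0) (nat_lit 6394115216) (nat_lit 532) (nat_lit 789967404) (nat_lit 76) (nat_lit 1895308306)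 (nat_lit 161) (nat_lit 5) (nat_lit 168) (nat_lit 5) (nat_lit 162) (nat_lit 4) (nat_lit 450) (nat_lit 352) (nat_lit 338)) (XT.lf (nat_lit 0) (nat_lit 908943922) (nat_lit 532) (nat_lit 3344109983) (nat_lit 76) (nat_lit 4912205436) (nat_lit 154) (nat_lit 5) (nat_lit 161) (nat_lit 5) (nat_lit 155) (nat_lit 5) (nat_lit 451) (nat_lit 352) (nat_lit 337))))) (XT.nd (nat_lit 156) (nat_lit 988) (nat_lit 0) (XT.nd (nat_lit 78) (nat_lit 380) (nat_lit 0) (XT.lf (nat_lit 0) (nat_lit 3268653291) (nat_lit 456) (nat_lit 1241487337) (nat_lit 532) (nat_lit 4742952904) (nat_lit 148) (nat_lit 5) (nat_lit 154) (nat_lit 5) (nat_lit 155) (nat_lit 5) (nat_lit 452) (nat_lit 352) (nat_lit 336)) (XT.lf (nat_lit 0) (nat_lit 633738429) (nat_lit 380) (nat_lit 7533095603) (nat_lit 456) (nat_lit 1176204817) (nat_lit 143) (nat_lit 5) (nat_lit 148) (nat_lit 5) (nat_lit 149) (nat_lit 4) (nat_lit 453) (nat_lit 352) (nat_lit 335))) (XT.nd (nat_lit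 78) (nat_lit 912) (nat_lit 0) (XT.lf (nat_lit 0) (nat_lit 2423306694) (nat_lit 456) (nat_lit 2072589118) (nat_lit 76) (nat_lit 4938716217) (nat_lit 142) (nat_lit 5) (nat_lit 148) (nat_lit 5) (nat_lit 143) (nat_lit 5) (nat_lit 454) (nat_lit 352) (nat_lit 334)) (XT.nd (nat_lit 78) (nat_lit 456) (nat_lit 0) (XT.lf (nat_lit 0) (nat_lit 4672366801) (nat_lit 456) (nat_lit 1383190113) (nat_lit 532) (nat_lit 3472796824) (nat_lit 136) (nat_lit 5) (nat_lit 142) (nat_lit 5) (nat_lit 143) (nat_lit 5) (nat_lit 455) (nat_lit 352) (nat_lit 333)) (XT.lf (nat_lit 0) (nat_lit 119023500) (nat_lit 456) (nat_lit 7733779970) (nat_lit 76) (nat_lit 1771484100) (nat_lit 130) (nat_lit 5) (nat_lit 136) (nat_lit 5) (nat_lit 131) (nat_lit 5) (nat_lit 456) (nat_lit 352) (nat_lit 332)))))) (XT.nd (nat_lit 390) (nat_lit 1444) (nat_lit 0) (XT.nd (nat_lit 156) (nat_lit 836) (nat_lit 0) (XT.nd (nat_lit 78) (nat_lit 380) (nat_lit 0) (XT.lf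 (nat_lit 0) (nat_lit 3724899021) (nat_lit 456) (nat_lit 994717650) (nat_lit 76) (nat_lit 5002311131) (nat_lit 130) (nat_lit 5) (nat_lit 136) (nat_lit 5) (nat_lit 131) (nat_lit 5) (nat_lit 457) (nat_lit 352) (nat_lit 331)) (XT.lf (nat_lit 0) (nat_lit 5879162731) (nat_lit 380) (nat_lit 1509659412) (nat_lit 456) (nat_lit 2433000897) (nat_lit 125) (nat_lit 5) (nat_lit 130) (nat_lit 5) (nat_lit 131) (nat_lit 5) (nat_lit 458) (nat_lit 352) (nat_lit 330))) (XT.nd (nat_lit 78) (nat_lit 380) (nat_lit 0) (XT.lf (nat_lit 0) (nat_lit 1171744687) (nat_lit 456) (nat_lit 7001847475) (nat_lit 76) (nat_lit 1750283779) (nat_lit 119) (nat_lit 5) (nat_lit 125) (nat_lit 5) (nat_lit 120) (nat_lit 5) (nat_lit 459) (nat_lit 352) (nat_lit 329)) (XT.nd (nat_lit 78) (nat_lit 380) (nat_lit 0) (XT.lf (nat_lit 0) (nat_lit 4800950349) (nat_lit 456) (nat_lit 153924582) (nat_lit 76) (nat_lit 5073094070) (nat_lit 119) (nat_lit 5) (nat_lit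 125) (nat_lit 5) (nat_lit 120) (nat_lit 5) (nat_lit 460) (nat_lit 352) (nat_lit 328)) (XT.lf (nat_lit 0) (nat_lit 6844594369) (nat_lit 380) (nat_lit 1651881783) (nat_lit 456) (nat_lit 1637812268) (nat_lit 114) (nat_lit 5) (nat_lit 119) (nat_lit 5) (nat_lit 120) (nat_lit 5) (nat_lit 461) (nat_lit 352) (nat_lit 327))))) (XT.nd (nat_lit 234) (nat_lit 684) (nat_lit 0) (XT.nd (nat_lit 78) (nat_lit 380) (nat_lit 0) (XT.lf (nat_lit 0) (nat_lit 1982399738) (nat_lit 380) (nat_lit 6552693877) (nat_lit 76) (nat_lit 1707681249) (nat_lit 109) (nat_lit 5) (nat_lit 114) (nat_lit 5) (nat_lit 110) (nat_lit 5) (nat_lit 462) (nat_lit 352) (nat_lit 326)) (XT.nd (nat_lit 78) (nat_lit 0) (nat_lit 0) (XT.lf (nat_lit 0) (nat_lit 407801128) (nat_lit 380) (nat_lit 5230894301) (nat_lit 456) (nat_lit 4714825007) (nat_lit 104) (nat_lit 5) (nat_lit 109) (nat_lit 5) (nat_lit 110) (nat_lit 5) (nat_lit 463) (nat_lit 352) (nat_lit 325))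 (XT.lf (nat_lit 0) (nat_lit 7520164254) (nat_lit 380) (nat_lit 1842195138) (nat_lit 456) (nat_lit 1104254434) (nat_lit 104) (nat_lit 5) (nat_lit 109) (nat_lit 5) (nat_lit 110) (nat_lit 5) (nat_lit 464) (nat_lit 352) (nat_lit 324)))) (XT.nd (nat_lit 78) (nat_lit 304) (nat_lit 0) (XT.lf (nat_lit 0) (nat_lit 2533193593) (nat_lit 380) (nat_lit 6437474579) (nat_lit 76) (nat_lit 1611213468) (nat_lit 99) (nat_lit 5) (nat_lit 104) (nat_lit 5) (nat_lit 100) (nat_lit 5) (nat_lit 465) (nat_lit 352) (nat_lit 323)) (XT.nd (nat_lit 78) (nat_lit 0) (nat_lit 0) (XT.lf (nat_lit 0) (nat_lit 630927763) (nat_lit 304) (nat_lit 5585101986) (nat_lit 380) (nat_lit 4483547310) (nat_lit 95) (nat_lit 5) (nat_lit 99) (nat_lit 5) (nat_lit 100) (nat_lit 5) (nat_lit 466) (nat_lit 352) (nat_lit 322)) (XT.lf (nat_lit 0) (nat_lit 7852793131) (nat_lit 304) (nat_lit 2114608711) (nat_lit 380) (nat_lit 852343361) (nat_lit 95) (nat_lit 5) (nat_lit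 99) (nat_lit 5) (nat_lit 100) (nat_lit 5) (nat_lit 467) (nat_lit 352) (nat_lit 321))))))))
noncomputable def xc32 : XT := (XT.nd (nat_lit 1560) (nat_lit 1900) (nat_lit 0) (XT.nd (nat_lit 780) (nat_lit 1520) (nat_lit 0) (XT.nd (nat_lit 390) (nat_lit 1216) (nat_lit 0) (XT.nd (nat_lit 156) (nat_lit 304) (nat_lit 0) (XT.nd (nat_lit 78) (nat_lit 304) (nat_lit 0) (XT.lf (nat_lit 0) (nat_lit 2803296848) (nat_lit 380) (nat_lit 6712226632) (nat_lit 76) (nat_lit 1426654522) (nat_lit 90) (nat_lit 5) (nat_lit 95) (nat_lit 5) (nat_lit 91) (nat_lit 5) (nat_lit 468) (nat_lit 352) (nat_lit 320)) (XT.lf (nat_lit 0) (nat_lit 455907147) (nat_lit 304) (nat_lit 6054327545) (nat_lit 380) (nat_lit 4556935590) (nat_lit 86) (nat_lit 5) (nat_lit 90) (nat_lit 5) (nat_lit 91) (nat_lit 5) (nat_lit 469) (nat_lit 352) (nat_lit 319))) (XT.nd (nat_lit 78) (nat_lit 304) (nat_lit 0) (XT.lf (nat_lit 0) (nat_lit 7784239611) (nat_lit 304) (nat_lit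 2505143898) (nat_lit 380) (nat_lit 905332608) (nat_lit 86) (nat_lit 5) (nat_lit 90) (nat_lit 5) (nat_lit 91) (nat_lit 5) (nat_lit 470) (nat_lit 352) (nat_lit 318)) (XT.nd (nat_lit 78) (nat_lit 0) (nat_lit 0) (XT.lf (nat_lit 0) (nat_lit 2768591751) (nat_lit 304) (nat_lit 7438474588) (nat_lit 76) (nat_lit 1117669698) (nat_lit 82) (nat_lit 5) (nat_lit 86) (nat_lit 5) (nat_lit 83) (nat_lit 5) (nat_lit 471) (nat_lit 352) (nat_lit 317)) (XT.lf (nat_lit 0) (nat_lit 6497404056) (nat_lit 304) (nat_lit 178074711) (nat_lit 76) (nat_lit 4781901548) (nat_lit 82) (nat_lit 5) (nat_lit 86) (nat_lit 5) (nat_lit 83) (nat_lit 5) (nat_lit 472) (nat_lit 352) (nat_lit 316))))) (XT.nd (nat_lit 156) (nat_lit 608) (nat_lit 0) (XT.nd (nat_lit 78) (nat_lit 304) (nat_lit 0) (XT.lf (nat_lit 0) (nat_lit 7250464856) (nat_lit 304) (nat_lit 3052199164) (nat_lit 380) (nat_lit 1289990029) (nat_lit 78) (nat_lit 5) (nat_lit 82) (nat_lit 5)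 (nat_lit 83) (nat_lit 5) (nat_lit 473) (nat_lit 352) (nat_lit 315)) (XT.lf (nat_lit 0) (nat_lit 2401385980) (nat_lit 304) (nat_lit 8683894254) (nat_lit 76) (nat_lit 645444561) (nat_lit 74) (nat_lit 5) (nat_lit 78) (nat_lit 5) (nat_lit 75) (nat_lit 5) (nat_lit 474) (nat_lit 352) (nat_lit 314))) (XT.nd (nat_lit 78) (nat_lit 608) (nat_lit 0) (XT.lf (nat_lit 0) (nat_lit 6154026256) (nat_lit 304) (nat_lit 1329985418) (nat_lit 76) (nat_lit 4387293746) (nat_lit 74) (nat_lit 5) (nat_lit 78) (nat_lit 5) (nat_lit 75) (nat_lit 5) (nat_lit 475) (nat_lit 352) (nat_lit 313)) (XT.nd (nat_lit 78) (nat_lit 304) (nat_lit 0) (XT.lf (nat_lit 0) (nat_lit 6180936047) (nat_lit 304) (nat_lit 3796942440) (nat_lit 380) (nat_lit 2036908920) (nat_lit 70) (nat_lit 5) (nat_lit 74) (nat_lit 5) (nat_lit 75) (nat_lit 5) (nat_lit 476) (nat_lit 352) (nat_lit 312)) (XT.lf (nat_lit 0) (nat_lit 1638163962) (nat_lit 228) (nat_lit 32135930) (nat_lit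 304) (nat_lit 10491113589) (nat_lit 66) (nat_lit 5) (nat_lit 69) (nat_lit 5) (nat_lit 70) (nat_lit 5) (nat_lit 477) (nat_lit 352) (nat_lit 311)))))) (XT.nd (nat_lit 390) (nat_lit 760) (nat_lit 0) (XT.nd (nat_lit 156) (nat_lit 532) (nat_lit 0) (XT.nd (nat_lit 78) (nat_lit 228) (nat_lit 0) (XT.lf (nat_lit 0) (nat_lit 5444889458) (nat_lit 304) (nat_lit 3081455195) (nat_lit 76) (nat_lit 3783960117) (nat_lit 66) (nat_lit 5) (nat_lit 70) (nat_lit 5) (nat_lit 67) (nat_lit 5) (nat_lit 478) (nat_lit 352) (nat_lit 310)) (XT.lf (nat_lit 0) (nat_lit 4497861781) (nat_lit 228) (nat_lit 4783734733) (nat_lit 304) (nat_lit 3180856803) (nat_lit 63) (nat_lit 5) (nat_lit 66) (nat_lit 5) (nat_lit 67) (nat_lit 5) (nat_lit 479) (nat_lit 352) (nat_lit 309))) (XT.nd (nat_lit 78) (nat_lit 456) (nat_lit 0) (XT.lf (nat_lit 0) (nat_lit 547939734) (nat_lit 304) (nat_lit 420790444) (nat_lit 76) (nat_lit 11649288779) (nat_lit 62) (nat_lit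 5) (nat_lit 66) (nat_lit 5) (nat_lit 63) (nat_lit 5) (nat_lit 480) (nat_lit 352) (nat_lit 308)) (XT.nd (nat_lit 78) (nat_lit 228) (nat_lit 0) (XT.lf (nat_lit 0) (nat_lit 4333417614) (nat_lit 304) (nat_lit 5515969414) (nat_lit 76) (nat_lit 2926405687) (nat_lit 59) (nat_lit 5) (nat_lit 63) (nat_lit 5) (nat_lit 60) (nat_lit 5) (nat_lit 481) (nat_lit 352) (nat_lit 307)) (XT.lf (nat_lit 0) (nat_lit 2115351855) (nat_lit 228) (nat_lit 6060588993) (nat_lit 304) (nat_lit 4761165426) (nat_lit 56) (nat_lit 5) (nat_lit 59) (nat_lit 5) (nat_lit 60) (nat_lit 5) (nat_lit 482) (nat_lit 352) (nat_lit 306))))) (XT.nd (nat_lit 156) (nat_lit 456) (nat_lit 0) (XT.nd (nat_lit 78) (nat_lit 304) (nat_lit 0) (XT.lf (nat_lit 0) (nat_lit 9905479205) (nat_lit 228) (nat_lit 2185565524) (nat_lit 304) (nat_lit 1010697591) (nat_lit 56) (nat_lit 5) (nat_lit 59) (nat_lit 5) (nat_lit 60) (nat_lit 5) (nat_lit 483) (nat_lit 352) (nat_lit 305))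 (XT.lf (nat_lit 0) (nat_lit 2778299693) (nat_lit 304) (nat_lit 8725743337) (nat_lit 76) (nat_lit 1765264224) (nat_lit 52) (nat_lit 5) (nat_lit 56) (nat_lit 5) (nat_lit 53) (nat_lit 5) (nat_lit 484) (nat_lit 352) (nat_lit 304))) (XT.nd (nat_lit 78) (nat_lit 456) (nat_lit 0) (XT.lf (nat_lit 0) (nat_lit 6625053804) (nat_lit 304) (nat_lit 1047584989) (nat_lit 76) (nat_lit 5767551074) (nat_lit 52) (nat_lit 5) (nat_lit 56) (nat_lit 5) (nat_lit 53) (nat_lit 5) (nat_lit 485) (nat_lit 352) (nat_lit 303)) (XT.nd (nat_lit 78) (nat_lit 228) (nat_lit 0) (XT.lf (nat_lit 0) (nat_lit 6806746658) (nat_lit 228) (nat_lit 3746418563) (nat_lit 304) (nat_lit 3061246465) (nat_lit 49) (nat_lit 5) (nat_lit 52) (nat_lit 5) (nat_lit 53) (nat_lit 5) (nat_lit 486) (nat_lit 352) (nat_lit 302)) (XT.lf (nat_lit 0) (nat_lit 733031870) (nat_lit 228) (nat_lit 12812707497) (nat_lit 76) (nat_lit 246780899) (nat_lit 46) (nat_lit 5) (nat_lit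 49) (nat_lit 5) (nat_lit 47) (nat_lit 5) (nat_lit 487) (nat_lit 352) (nat_lit 301))))))) (XT.nd (nat_lit 780) (nat_lit 760) (nat_lit 0) (XT.nd (nat_lit 390) (nat_lit 684) (nat_lit 0) (XT.nd (nat_lit 156) (nat_lit 228) (nat_lit 0) (XT.nd (nat_lit 78) (nat_lit 228) (nat_lit 0) (XT.lf (nat_lit 0) (nat_lit 4593520248) (nat_lit 228) (nat_lit 5070286027) (nat_lit 76) (nat_lit 4309363175) (nat_lit 46) (nat_lit 5) (nat_lit 49) (nat_lit 5) (nat_lit 47) (nat_lit 5) (nat_lit 488) (nat_lit 352) (nat_lit 300)) (XT.lf (nat_lit 0) (nat_lit 2798051331) (nat_lit 228) (nat_lit 5712588747) (nat_lit 304) (nat_lit 5647212343) (nat_lit 43) (nat_lit 5) (nat_lit 46) (nat_lit 5) (nat_lit 47) (nat_lit 5) (nat_lit 489) (nat_lit 352) (nat_lit 299))) (XT.nd (nat_lit 78) (nat_lit 228) (nat_lit 0) (XT.lf (nat_lit 0) (nat_lit 10827286786) (nat_lit 228) (nat_lit 1674431088) (nat_lit 304) (nat_lit 1844607921) (nat_lit 43) (nat_lit 5) (nat_lit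 46) (nat_lit 5) (nat_lit 47) (nat_lit 5) (nat_lit 490) (nat_lit 352) (nat_lit 298)) (XT.nd (nat_lit 78) (nat_lit 0) (nat_lit 0) (XT.lf (nat_lit 0) (nat_lit 2014389501) (nat_lit 228) (nat_lit 10095085022) (nat_lit 76) (nat_lit 2428698335) (nat_lit 40) (nat_lit 5) (nat_lit 43) (nat_lit 5) (nat_lit 41) (nat_lit 5) (nat_lit 491) (nat_lit 352) (nat_lit 297)) (XT.lf (nat_lit 0) (nat_lit 5922993131) (nat_lit 228) (nat_lit 2209283823) (nat_lit 76) (nat_lit 6601402070) (nat_lit 40) (nat_lit 5) (nat_lit 43) (nat_lit 5) (nat_lit 41) (nat_lit 5) (nat_lit 492) (nat_lit 352) (nat_lit 296))))) (XT.nd (nat_lit 156) (nat_lit 456) (nat_lit 0) (XT.nd (nat_lit 78) (nat_lit 0) (nat_lit 0) (XT.lf (nat_lit 0) (nat_lit 5847595576) (nat_lit 228) (nat_lit 4063122602) (nat_lit 304) (nat_lit 5022366517) (nat_lit 37) (nat_lit 5) (nat_lit 40) (nat_lit 5) (nat_lit 41) (nat_lit 5) (nat_lit 493) (nat_lit 352) (nat_lit 295)) (XT.lf (nat_lit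 0) (nat_lit 13956818948) (nat_lit 304) (nat_lit 1104773165) (nat_lit 76) (nat_lit 75322143) (nat_lit 37) (nat_lit 5) (nat_lit 41) (nat_lit 5) (nat_lit 38) (nat_lit 4) (nat_lit 494) (nat_lit 352) (nat_lit 294))) (XT.nd (nat_lit 78) (nat_lit 228) (nat_lit 0) (XT.lf (nat_lit 0) (nat_lit 2739793217) (nat_lit 228) (nat_lit 8323401693) (nat_lit 76) (nat_lit 4280543818) (nat_lit 34) (nat_lit 5) (nat_lit 37) (nat_lit 5) (nat_lit 35) (nat_lit 5) (nat_lit 495) (nat_lit 352) (nat_lit 293)) (XT.nd (nat_lit 78) (nat_lit 228) (nat_lit 0) (XT.lf (nat_lit 0) (nat_lit 6693670669) (nat_lit 228) (nat_lit 301809216) (nat_lit 76) (nat_lit 8559643671) (nat_lit 34) (nat_lit 5) (nat_lit 37) (nat_lit 5) (nat_lit 35) (nat_lit 5) (nat_lit 496) (nat_lit 352) (nat_lit 292)) (XT.lf (nat_lit 0) (nat_lit 7923030578) (nat_lit 228) (nat_lit 2819659365) (nat_lit 304) (nat_lit 5027732431) (nat_lit 31) (nat_lit 5) (nat_lit 34) (nat_lit 5) (nat_lit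 35) (nat_lit 5) (nat_lit 497) (nat_lit 352) (nat_lit 291)))))) (XT.nd (nat_lit 390) (nat_lit 228) (nat_lit 0) (XT.nd (nat_lit 156) (nat_lit 304) (nat_lit 0) (XT.nd (nat_lit 78) (nat_lit 76) (nat_lit 0) (XT.lf (nat_lit 0) (nat_lit 259274068) (nat_lit 152) (nat_lit 14591240948) (nat_lit 228) (nat_lit 1139963070) (nat_lit 29) (nat_lit 5) (nat_lit 31) (nat_lit 5) (nat_lit 32) (nat_lit 4) (nat_lit 498) (nat_lit 352) (nat_lit 290)) (XT.lf (nat_lit 0) (nat_lit 2824999475) (nat_lit 228) (nat_lit 7678111493) (nat_lit 76) (nat_lit 5710734268) (nat_lit 28) (nat_lit 5) (nat_lit 31) (nat_lit 5) (nat_lit 29) (nat_lit 5) (nat_lit 499) (nat_lit 352) (nat_lit 289))) (XT.nd (nat_lit 78) (nat_lit 152) (nat_lit 0) (XT.lf (nat_lit 0) (nat_lit 474611121) (nat_lit 152) (nat_lit 6347985172) (nat_lit 228) (nat_lit 9619567750) (nat_lit 26) (nat_lit 5) (nat_lit 28) (nat_lit 5) (nat_lit 29) (nat_lit 5) (nat_lit 500) (nat_lit 352) (nat_lit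 288)) (XT.nd (nat_lit 78) (nat_lit 152) (nat_lit 0) (XT.lf (nat_lit 0) (nat_lit 8834755500) (nat_lit 152) (nat_lit 2082705801) (nat_lit 228) (nat_lit 5757248461) (nat_lit 26) (nat_lit 5) (nat_lit 28) (nat_lit 5) (nat_lit 29) (nat_lit 5) (nat_lit 501) (nat_lit 352) (nat_lit 287)) (XT.lf (nat_lit 0) (nat_lit 381418336) (nat_lit 152) (nat_lit 14696306760) (nat_lit 228) (nat_lit 1834517999) (nat_lit 24) (nat_lit 5) (nat_lit 26) (nat_lit 5) (nat_lit 27) (nat_lit 4) (nat_lit 502) (nat_lit 352) (nat_lit 286))))) (XT.nd (nat_lit 234) (nat_lit 0) (nat_lit 0) (XT.nd (nat_lit 78) (nat_lit 152) (nat_lit 0) (XT.lf (nat_lit 0) (nat_lit 2171354752) (nat_lit 228) (nat_lit 8367313392) (nat_lit 76) (nat_lit 6614921992) (nat_lit 23) (nat_lit 5) (nat_lit 26) (nat_lit 5) (nat_lit 24) (nat_lit 5) (nat_lit 503) (nat_lit 352) (nat_lit 285)) (XT.nd (nat_lit 78) (nat_lit 152) (nat_lit 0) (XT.lf (nat_lit 0) (nat_lit 6199816006) (nat_lit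 228) (nat_lit 110642615) (nat_lit 76) (nat_lit 11089728610) (nat_lit 23) (nat_lit 5) (nat_lit 26) (nat_lit 5) (nat_lit 24) (nat_lit 5) (nat_lit 504) (nat_lit 352) (nat_lit 284)) (XT.lf (nat_lit 0) (nat_lit 8364032175) (nat_lit 152) (nat_lit 1966778250) (nat_lit 228) (nat_lit 7320472777) (nat_lit 21) (nat_lit 5) (nat_lit 23) (nat_lit 5) (nat_lit 24) (nat_lit 5) (nat_lit 505) (nat_lit 352) (nat_lit 283)))) (XT.nd (nat_lit 53742) (nat_lit 0) (nat_lit 17176) (XT.lf (nat_lit 0) (nat_lit 14528937023) (nat_lit 228) (nat_lit 970627997) (nat_lit 76) (nat_lit 2408151923) (nat_lit 21) (nat_lit 5) (nat_lit 24) (nat_lit 5) (nat_lit 22) (nat_lit 4) (nat_lit 506) (nat_lit 352) (nat_lit 282)) (XT.nd (nat_lit 78) (nat_lit 0) (nat_lit 0) (XT.lf (nat_lit 0) (nat_lit 204028927) (nat_lit 684) (nat_lit 3564729696) (nat_lit 0) (nat_lit 204028927) (nat_lit 247) (nat_lit 5) (nat_lit 256) (nat_lit 4) (nat_lit 247) (nat_lit 4) (nat_lit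 434) (nat_lit 353) (nat_lit 353)) (XT.lf (nat_lit 0) (nat_lit 4008292341) (nat_lit 684) (nat_lit 1237652859) (nat_lit 0) (nat_lit 2758308118) (nat_lit 247) (nat_lit 5) (nat_lit 256) (nat_lit 4) (nat_lit 247) (nat_lit 4) (nat_lit 435) (nat_lit 353) (nat_lit 352))))))))
noncomputable def xc33 : XT := (XT.nd (nat_lit 1560) (nat_lit 5016) (nat_lit 0) (XT.nd (nat_lit 780) (nat_lit 3496) (nat_lit 0) (XT.nd (nat_lit 390) (nat_lit 2356) (nat_lit 0) (XT.nd (nat_lit 156) (nat_lit 1216) (nat_lit 0) (XT.nd (nat_lit 78) (nat_lit 684) (nat_lit 0) (XT.lf (nat_lit 0) (nat_lit 4755740684) (nat_lit 684) (nat_lit 2892255874) (nat_lit 684) (nat_lit 416796921) (nat_lit 238) (nat_lit 4) (nat_lit 247) (nat_lit 5) (nat_lit 247) (nat_lit 4) (nat_lit 436) (nat_lit 353) (nat_lit 351)) (XT.lf (nat_lit 0) (nat_lit 2694710715) (nat_lit 608) (nat_lit 459554374) (nat_lit 684) (nat_lit 4972641064) (nat_lit 229) (nat_lit 5) (nat_lit 237)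 (nat_lit 5) (nat_lit 238) (nat_lit 4) (nat_lit 437) (nat_lit 353) (nat_lit 350))) (XT.nd (nat_lit 78) (nat_lit 608) (nat_lit 0) (XT.lf (nat_lit 0) (nat_lit 585594578) (nat_lit 608) (nat_lit 6182356024) (nat_lit 608) (nat_lit 1422755222) (nat_lit 221) (nat_lit 4) (nat_lit 229) (nat_lit 5) (nat_lit 229) (nat_lit 4) (nat_lit 438) (nat_lit 353) (nat_lit 349)) (XT.nd (nat_lit 78) (nat_lit 532) (nat_lit 0) (XT.lf (nat_lit 0) (nat_lit 2146801985) (nat_lit 684) (nat_lit 1555210014) (nat_lit 76) (nat_lit 4553968134) (nat_lit 220) (nat_lit 5) (nat_lit 229) (nat_lit 5) (nat_lit 221) (nat_lit 4) (nat_lit 439) (nat_lit 353) (nat_lit 348)) (XT.lf (nat_lit 0) (nat_lit 4588031752) (nat_lit 532) (nat_lit 1149459335) (nat_lit 608) (nat_lit 2585538385) (nat_lit 213) (nat_lit 5) (nat_lit 220) (nat_lit 5) (nat_lit 221) (nat_lit 4) (nat_lit 440) (nat_lit 353) (nat_lit 347))))) (XT.nd (nat_lit 156) (nat_lit 1140) (nat_lit 0) (XT.nd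 (nat_lit 78) (nat_lit 532) (nat_lit 0) (XT.lf (nat_lit 0) (nat_lit 970418450) (nat_lit 684) (nat_lit 5971016232) (nat_lit 76) (nat_lit 1450384870) (nat_lit 204) (nat_lit 5) (nat_lit 213) (nat_lit 5) (nat_lit 205) (nat_lit 4) (nat_lit 441) (nat_lit 353) (nat_lit 346)) (XT.lf (nat_lit 0) (nat_lit 187088640) (nat_lit 532) (nat_lit 4349684144) (nat_lit 608) (nat_lit 3925424399) (nat_lit 197) (nat_lit 5) (nat_lit 204) (nat_lit 5) (nat_lit 205) (nat_lit 4) (nat_lit 442) (nat_lit 353) (nat_lit 345))) (XT.nd (nat_lit 78) (nat_lit 1140) (nat_lit 0) (XT.lf (nat_lit 0) (nat_lit 6470487116) (nat_lit 532) (nat_lit 1684513840) (nat_lit 608) (nat_lit 379401386) (nat_lit 197) (nat_lit 5) (nat_lit 204) (nat_lit 5) (nat_lit 205) (nat_lit 4) (nat_lit 443) (nat_lit 353) (nat_lit 344)) (XT.nd (nat_lit 78) (nat_lit 532) (nat_lit 0) (XT.lf (nat_lit 0) (nat_lit 3170668852) (nat_lit 608) (nat_lit 4387338062) (nat_lit 76) (nat_lit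 1050142243) (nat_lit 189) (nat_lit 5) (nat_lit 197) (nat_lit 5) (nat_lit 190) (nat_lit 4) (nat_lit 444) (nat_lit 353) (nat_lit 343)) (XT.lf (nat_lit 0) (nat_lit 1908764256) (nat_lit 532) (nat_lit 4857142605) (nat_lit 608) (nat_lit 1917858087) (nat_lit 182) (nat_lit 5) (nat_lit 189) (nat_lit 5) (nat_lit 190) (nat_lit 4) (nat_lit 445) (nat_lit 353) (nat_lit 342)))))) (XT.nd (nat_lit 390) (nat_lit 1900) (nat_lit 0) (XT.nd (nat_lit 156) (nat_lit 988) (nat_lit 0) (XT.nd (nat_lit 78) (nat_lit 532) (nat_lit 0) (XT.lf (nat_lit 0) (nat_lit 1621838976) (nat_lit 608) (nat_lit 460002088) (nat_lit 76) (nat_lit 6679430595) (nat_lit 181) (nat_lit 5) (nat_lit 189) (nat_lit 5) (nat_lit 182) (nat_lit 5) (nat_lit 446) (nat_lit 353) (nat_lit 341)) (XT.lf (nat_lit 0) (nat_lit 5193617075) (nat_lit 608) (nat_lit 2876007351) (nat_lit 76) (nat_lit 770738641) (nat_lit 174) (nat_lit 5) (nat_lit 182) (nat_lit 5) (nat_lit 175) (nat_lit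 4) (nat_lit 447) (nat_lit 353) (nat_lit 340))) (XT.nd (nat_lit 78) (nat_lit 532) (nat_lit 0) (XT.lf (nat_lit 0) (nat_lit 3557441758) (nat_lit 456) (nat_lit 5262977815) (nat_lit 532) (nat_lit 100971865) (nat_lit 168) (nat_lit 5) (nat_lit 174) (nat_lit 5) (nat_lit 175) (nat_lit 4) (nat_lit 448) (nat_lit 353) (nat_lit 339)) (XT.nd (nat_lit 78) (nat_lit 0) (nat_lit 0) (XT.lf (nat_lit 0) (nat_lit 1067811672) (nat_lit 456) (nat_lit 2371962438) (nat_lit 532) (nat_lit 5564432290) (nat_lit 161) (nat_lit 5) (nat_lit 167) (nat_lit 5) (nat_lit 168) (nat_lit 5) (nat_lit 449) (nat_lit 353) (nat_lit 338)) (XT.lf (nat_lit 0) (nat_lit 7034223330) (nat_lit 532) (nat_lit 1470301787) (nat_lit 76) (nat_lit 584479748) (nat_lit 161) (nat_lit 5) (nat_lit 168) (nat_lit 5) (nat_lit 162) (nat_lit 4) (nat_lit 450) (nat_lit 353) (nat_lit 337))))) (XT.nd (nat_lit 156) (nat_lit 912) (nat_lit 0) (XT.nd (nat_lit 78) (nat_lit 456) (nat_lit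 0) (XT.lf (nat_lit 0) (nat_lit 1499166717) (nat_lit 532) (nat_lit 4086290115) (nat_lit 76) (nat_lit 3589986689) (nat_lit 154) (nat_lit 5) (nat_lit 161) (nat_lit 5) (nat_lit 155) (nat_lit 5) (nat_lit 451) (nat_lit 353) (nat_lit 336)) (XT.lf (nat_lit 0) (nat_lit 2477829737) (nat_lit 456) (nat_lit 2590441478) (nat_lit 532) (nat_lit 4195660172) (nat_lit 148) (nat_lit 5) (nat_lit 154) (nat_lit 5) (nat_lit 155) (nat_lit 5) (nat_lit 452) (nat_lit 353) (nat_lit 335))) (XT.nd (nat_lit 78) (nat_lit 912) (nat_lit 0) (XT.lf (nat_lit 0) (nat_lit 8685342086) (nat_lit 532) (nat_lit 205967573) (nat_lit 76) (nat_lit 463371093) (nat_lit 148) (nat_lit 5) (nat_lit 155) (nat_lit 5) (nat_lit 149) (nat_lit 4) (nat_lit 453) (nat_lit 353) (nat_lit 334)) (XT.nd (nat_lit 78) (nat_lit 456) (nat_lit 0) (XT.lf (nat_lit 0) (nat_lit 2895501296) (nat_lit 456) (nat_lit 2968586779) (nat_lit 76) (nat_lit 3582671663) (nat_lit 142) (nat_lit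 5) (nat_lit 148) (nat_lit 5) (nat_lit 143) (nat_lit 5) (nat_lit 454) (nat_lit 353) (nat_lit 333)) (XT.lf (nat_lit 0) (nat_lit 3726112256) (nat_lit 456) (nat_lit 2769358406) (nat_lit 532) (nat_lit 3045687332) (nat_lit 136) (nat_lit 5) (nat_lit 142) (nat_lit 5) (nat_lit 143) (nat_lit 5) (nat_lit 455) (nat_lit 353) (nat_lit 332))))))) (XT.nd (nat_lit 780) (nat_lit 2204) (nat_lit 0) (XT.nd (nat_lit 390) (nat_lit 1520) (nat_lit 0) (XT.nd (nat_lit 156) (nat_lit 836) (nat_lit 0) (XT.nd (nat_lit 78) (nat_lit 0) (nat_lit 0) (XT.lf (nat_lit 0) (nat_lit 498800781) (nat_lit 456) (nat_lit 8751162236) (nat_lit 76) (nat_lit 387918462) (nat_lit 130) (nat_lit 5) (nat_lit 136) (nat_lit 5) (nat_lit 131) (nat_lit 5) (nat_lit 456) (nat_lit 353) (nat_lit 331)) (XT.lf (nat_lit 0) (nat_lit 4078814256) (nat_lit 456) (nat_lit 2050253114) (nat_lit 76) (nat_lit 3606981881) (nat_lit 130) (nat_lit 5) (nat_lit 136) (nat_lit 5) (nat_lit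 131) (nat_lit 5) (nat_lit 457) (nat_lit 353) (nat_lit 330))) (XT.nd (nat_lit 78) (nat_lit 456) (nat_lit 0) (XT.lf (nat_lit 0) (nat_lit 4771697565) (nat_lit 380) (nat_lit 2938494468) (nat_lit 456) (nat_lit 2126413460) (nat_lit 125) (nat_lit 5) (nat_lit 130) (nat_lit 5) (nat_lit 131) (nat_lit 5) (nat_lit 458) (nat_lit 353) (nat_lit 329)) (XT.nd (nat_lit 78) (nat_lit 0) (nat_lit 0) (XT.lf (nat_lit 0) (nat_lit 1431999309) (nat_lit 456) (nat_lit 8185046147) (nat_lit 76) (nat_lit 322429068) (nat_lit 119) (nat_lit 5) (nat_lit 125) (nat_lit 5) (nat_lit 120) (nat_lit 5) (nat_lit 459) (nat_lit 353) (nat_lit 328)) (XT.lf (nat_lit 0) (nat_lit 5036104170) (nat_lit 456) (nat_lit 1374811613) (nat_lit 76) (nat_lit 3633163331) (nat_lit 119) (nat_lit 5) (nat_lit 125) (nat_lit 5) (nat_lit 120) (nat_lit 5) (nat_lit 460) (nat_lit 353) (nat_lit 327))))) (XT.nd (nat_lit 156) (nat_lit 760) (nat_lit 0) (XT.nd (nat_lit 78) (nat_lit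 380) (nat_lit 0) (XT.lf (nat_lit 0) (nat_lit 5570041981) (nat_lit 380) (nat_lit 3128704123) (nat_lit 456) (nat_lit 1452319433) (nat_lit 114) (nat_lit 5) (nat_lit 119) (nat_lit 5) (nat_lit 120) (nat_lit 5) (nat_lit 461) (nat_lit 353) (nat_lit 326)) (XT.lf (nat_lit 0) (nat_lit 2122458126) (nat_lit 380) (nat_lit 7907646357) (nat_lit 76) (nat_lit 230292411) (nat_lit 109) (nat_lit 5) (nat_lit 114) (nat_lit 5) (nat_lit 110) (nat_lit 5) (nat_lit 462) (nat_lit 353) (nat_lit 325))) (XT.nd (nat_lit 78) (nat_lit 760) (nat_lit 0) (XT.lf (nat_lit 0) (nat_lit 5751732265) (nat_lit 380) (nat_lit 989710800) (nat_lit 76) (nat_lit 3630248622) (nat_lit 109) (nat_lit 5) (nat_lit 114) (nat_lit 5) (nat_lit 110) (nat_lit 5) (nat_lit 463) (nat_lit 353) (nat_lit 324)) (XT.nd (nat_lit 78) (nat_lit 380) (nat_lit 0) (XT.lf (nat_lit 0) (nat_lit 6072533336) (nat_lit 380) (nat_lit 3372215708) (nat_lit 456) (nat_lit 1040657593) (nat_lit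 104) (nat_lit 5) (nat_lit 109) (nat_lit 5) (nat_lit 110) (nat_lit 5) (nat_lit 464) (nat_lit 353) (nat_lit 323)) (XT.lf (nat_lit 0) (nat_lit 2552158439) (nat_lit 380) (nat_lit 7970244846) (nat_lit 76) (nat_lit 79147151) (nat_lit 99) (nat_lit 5) (nat_lit 104) (nat_lit 5) (nat_lit 100) (nat_lit 5) (nat_lit 465) (nat_lit 353) (nat_lit 322)))))) (XT.nd (nat_lit 390) (nat_lit 1216) (nat_lit 0) (XT.nd (nat_lit 156) (nat_lit 684) (nat_lit 0) (XT.nd (nat_lit 78) (nat_lit 304) (nat_lit 0) (XT.lf (nat_lit 0) (nat_lit 6207219185) (nat_lit 380) (nat_lit 946840431) (nat_lit 76) (nat_lit 3565749865) (nat_lit 99) (nat_lit 5) (nat_lit 104) (nat_lit 5) (nat_lit 100) (nat_lit 5) (nat_lit 466) (nat_lit 353) (nat_lit 321)) (XT.lf (nat_lit 0) (nat_lit 6225960328) (nat_lit 304) (nat_lit 3702950161) (nat_lit 380) (nat_lit 911668714) (nat_lit 95) (nat_lit 5) (nat_lit 99) (nat_lit 5) (nat_lit 100) (nat_lit 5) (nat_lit 467) (nat_lit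 353) (nat_lit 320))) (XT.nd (nat_lit 78) (nat_lit 304) (nat_lit 0) (XT.lf (nat_lit 0) (nat_lit 2533790742) (nat_lit 304) (nat_lit 167346466) (nat_lit 380) (nat_lit 8262762398) (nat_lit 90) (nat_lit 5) (nat_lit 94) (nat_lit 5) (nat_lit 95) (nat_lit 5) (nat_lit 468) (nat_lit 353) (nat_lit 319)) (XT.nd (nat_lit 78) (nat_lit 304) (nat_lit 0) (XT.lf (nat_lit 0) (nat_lit 6381014156) (nat_lit 380) (nat_lit 1303094349) (nat_lit 76) (nat_lit 3405332099) (nat_lit 90) (nat_lit 5) (nat_lit 95) (nat_lit 5) (nat_lit 91) (nat_lit 5) (nat_lit 469) (nat_lit 353) (nat_lit 318)) (XT.lf (nat_lit 0) (nat_lit 5971932522) (nat_lit 304) (nat_lit 4156860742) (nat_lit 380) (nat_lit 1088827923) (nat_lit 86) (nat_lit 5) (nat_lit 90) (nat_lit 5) (nat_lit 91) (nat_lit 5) (nat_lit 470) (nat_lit 353) (nat_lit 317))))) (XT.nd (nat_lit 234) (nat_lit 608) (nat_lit 0) (XT.nd (nat_lit 78) (nat_lit 304) (nat_lit 0) (XT.lf (nat_lit 0) (nat_lit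 1999306040) (nat_lit 228) (nat_lit 546038965) (nat_lit 304) (nat_lit 8803170159) (nat_lit 82) (nat_lit 5) (nat_lit 85) (nat_lit 5) (nat_lit 86) (nat_lit 5) (nat_lit 471) (nat_lit 353) (nat_lit 316)) (XT.nd (nat_lit 78) (nat_lit 304) (nat_lit 0) (XT.lf (nat_lit 0) (nat_lit 6248234136) (nat_lit 304) (nat_lit 2120986505) (nat_lit 76) (nat_lit 3112464195) (nat_lit 82) (nat_lit 5) (nat_lit 86) (nat_lit 5) (nat_lit 83) (nat_lit 5) (nat_lit 472) (nat_lit 353) (nat_lit 315)) (XT.lf (nat_lit 0) (nat_lit 5246245299) (nat_lit 304) (nat_lit 4772296933) (nat_lit 380) (nat_lit 1599122170) (nat_lit 78) (nat_lit 5) (nat_lit 82) (nat_lit 5) (nat_lit 83) (nat_lit 5) (nat_lit 473) (nat_lit 353) (nat_lit 314)))) (XT.nd (nat_lit 78) (nat_lit 304) (nat_lit 0) (XT.lf (nat_lit 0) (nat_lit 961442926) (nat_lit 228) (nat_lit 1095165679) (nat_lit 304) (nat_lit 9699967208) (nat_lit 74) (nat_lit 5) (nat_lit 77) (nat_lit 5) (nat_lit 78)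 (nat_lit 5) (nat_lit 474) (nat_lit 353) (nat_lit 313)) (XT.nd (nat_lit 78) (nat_lit 304) (nat_lit 0) (XT.lf (nat_lit 0) (nat_lit 5780370228) (nat_lit 304) (nat_lit 3469326200) (nat_lit 76) (nat_lit 2648043986) (nat_lit 74) (nat_lit 5) (nat_lit 78) (nat_lit 5) (nat_lit 75) (nat_lit 5) (nat_lit 475) (nat_lit 353) (nat_lit 312)) (XT.lf (nat_lit 0) (nat_lit 3978183524) (nat_lit 304) (nat_lit 5590395918) (nat_lit 380) (nat_lit 2473362096) (nat_lit 70) (nat_lit 5) (nat_lit 74) (nat_lit 5) (nat_lit 75) (nat_lit 5) (nat_lit 476) (nat_lit 353) (nat_lit 311))))))))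
noncomputable def xc34 : XT := (XT.nd (nat_lit 1560) (nat_lit 988) (nat_lit 0) (XT.nd (nat_lit 780) (nat_lit 1140) (nat_lit 0) (XT.nd (nat_lit 390) (nat_lit 760) (nat_lit 0) (XT.nd (nat_lit 156) (nat_lit 532) (nat_lit 0) (XT.nd (nat_lit 78) (nat_lit 228) (nat_lit 0) (XT.lf (nat_lit 0) (nat_lit 1207643225) (nat_lit 380) (nat_lit 644977877) (nat_lit 76) (nat_lit 10336647772) (nat_lit 69) (nat_lit 5) (nat_lit 74) (nat_lit 5) (nat_lit 70) (nat_lit 5) (nat_lit 477) (nat_lit 353) (nat_lit 310)) (XT.lf (nat_lit 0) (nat_lit 4944958338) (nat_lit 304) (nat_lit 5423959166) (nat_lit 76) (nat_lit 1969994062) (nat_lit 66) (nat_lit 5) (nat_lit 70) (nat_lit 5) (nat_lit 67) (nat_lit 5) (nat_lit 478) (nat_lit 353) (nat_lit 309))) (XT.nd (nat_lit 78) (nat_lit 304) (nat_lit 0) (XT.lf (nat_lit 0) (nat_lit 2089757087) (nat_lit 228) (nat_lit 6655505374) (nat_lit 304) (nat_lit 3746531511) (nat_lit 63) (nat_lit 5) (nat_lit 66) (nat_lit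 5) (nat_lit 67) (nat_lit 5) (nat_lit 479) (nat_lit 353) (nat_lit 308)) (XT.nd (nat_lit 78) (nat_lit 304) (nat_lit 0) (XT.lf (nat_lit 0) (nat_lit 9759006589) (nat_lit 228) (nat_lit 2857391857) (nat_lit 304) (nat_lit 31450550) (nat_lit 63) (nat_lit 5) (nat_lit 66) (nat_lit 5) (nat_lit 67) (nat_lit 5) (nat_lit 480) (nat_lit 353) (nat_lit 307)) (XT.lf (nat_lit 0) (nat_lit 3705210705) (nat_lit 304) (nat_lit 8068581794) (nat_lit 76) (nat_lit 1032824386) (nat_lit 59) (nat_lit 5) (nat_lit 63) (nat_lit 5) (nat_lit 60) (nat_lit 5) (nat_lit 481) (nat_lit 353) (nat_lit 306))))) (XT.nd (nat_lit 156) (nat_lit 532) (nat_lit 0) (XT.nd (nat_lit 78) (nat_lit 228) (nat_lit 0) (XT.lf (nat_lit 0) (nat_lit 7513782079) (nat_lit 304) (nat_lit 498514231) (nat_lit 76) (nat_lit 4956318529) (nat_lit 59) (nat_lit 5) (nat_lit 63) (nat_lit 5) (nat_lit 60) (nat_lit 5) (nat_lit 482) (nat_lit 353) (nat_lit 305)) (XT.lf (nat_lit 0) (nat_lit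 7251698105) (nat_lit 228) (nat_lit 4153870845) (nat_lit 304) (nat_lit 1728153528) (nat_lit 56) (nat_lit 5) (nat_lit 59) (nat_lit 5) (nat_lit 60) (nat_lit 5) (nat_lit 483) (nat_lit 353) (nat_lit 304))) (XT.nd (nat_lit 78) (nat_lit 228) (nat_lit 0) (XT.lf (nat_lit 0) (nat_lit 1805333784) (nat_lit 228) (nat_lit 215671037) (nat_lit 304) (nat_lit 11281365772) (nat_lit 52) (nat_lit 5) (nat_lit 55) (nat_lit 5) (nat_lit 56) (nat_lit 5) (nat_lit 484) (nat_lit 353) (nat_lit 303)) (XT.nd (nat_lit 78) (nat_lit 228) (nat_lit 0) (XT.lf (nat_lit 0) (nat_lit 5846669698) (nat_lit 304) (nat_lit 3850478961) (nat_lit 76) (nat_lit 3776531282) (nat_lit 52) (nat_lit 5) (nat_lit 56) (nat_lit 5) (nat_lit 53) (nat_lit 5) (nat_lit 485) (nat_lit 353) (nat_lit 302)) (XT.lf (nat_lit 0) (nat_lit 3933820031) (nat_lit 228) (nat_lit 5803005241) (nat_lit 304) (nat_lit 3911840458) (nat_lit 49) (nat_lit 5) (nat_lit 52) (nat_lit 5) (nat_lit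 53) (nat_lit 5) (nat_lit 486) (nat_lit 353) (nat_lit 301)))))) (XT.nd (nat_lit 390) (nat_lit 456) (nat_lit 0) (XT.nd (nat_lit 156) (nat_lit 456) (nat_lit 0) (XT.nd (nat_lit 78) (nat_lit 228) (nat_lit 0) (XT.lf (nat_lit 0) (nat_lit 11861074739) (nat_lit 228) (nat_lit 1830899119) (nat_lit 304) (nat_lit 135443188) (nat_lit 49) (nat_lit 5) (nat_lit 52) (nat_lit 5) (nat_lit 53) (nat_lit 5) (nat_lit 487) (nat_lit 353) (nat_lit 300)) (XT.lf (nat_lit 0) (nat_lit 3682731252) (nat_lit 228) (nat_lit 8097365643) (nat_lit 76) (nat_lit 2228873301) (nat_lit 46) (nat_lit 5) (nat_lit 49) (nat_lit 5) (nat_lit 47) (nat_lit 5) (nat_lit 488) (nat_lit 353) (nat_lit 299))) (XT.nd (nat_lit 78) (nat_lit 456) (nat_lit 0) (XT.lf (nat_lit 0) (nat_lit 7562879618) (nat_lit 228) (nat_lit 297578019) (nat_lit 76) (nat_lit 6333939443) (nat_lit 46) (nat_lit 5) (nat_lit 49) (nat_lit 5) (nat_lit 47) (nat_lit 5) (nat_lit 489) (nat_lit 353) (nat_lit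 298)) (XT.nd (nat_lit 78) (nat_lit 228) (nat_lit 0) (XT.lf (nat_lit 0) (nat_lit 7696059549) (nat_lit 228) (nat_lit 3837298725) (nat_lit 304) (nat_lit 2849928558) (nat_lit 43) (nat_lit 5) (nat_lit 46) (nat_lit 5) (nat_lit 47) (nat_lit 5) (nat_lit 490) (nat_lit 353) (nat_lit 297)) (XT.lf (nat_lit 0) (nat_lit 968537858) (nat_lit 228) (nat_lit 13354025299) (nat_lit 76) (nat_lit 253779824) (nat_lit 40) (nat_lit 5) (nat_lit 43) (nat_lit 5) (nat_lit 41) (nat_lit 5) (nat_lit 491) (nat_lit 353) (nat_lit 296))))) (XT.nd (nat_lit 156) (nat_lit 228) (nat_lit 0) (XT.nd (nat_lit 78) (nat_lit 228) (nat_lit 0) (XT.lf (nat_lit 0) (nat_lit 4858816179) (nat_lit 228) (nat_lit 5499575630) (nat_lit 76) (nat_lit 4413827987) (nat_lit 40) (nat_lit 5) (nat_lit 43) (nat_lit 5) (nat_lit 41) (nat_lit 5) (nat_lit 492) (nat_lit 353) (nat_lit 295)) (XT.lf (nat_lit 0) (nat_lit 2482432253) (nat_lit 228) (nat_lit 6324294111) (nat_lit 304)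 (nat_lit 6165699461) (nat_lit 37) (nat_lit 5) (nat_lit 40) (nat_lit 5) (nat_lit 41) (nat_lit 5) (nat_lit 493) (nat_lit 353) (nat_lit 294))) (XT.nd (nat_lit 78) (nat_lit 228) (nat_lit 0) (XT.lf (nat_lit 0) (nat_lit 10636948641) (nat_lit 228) (nat_lit 2197570986) (nat_lit 304) (nat_lit 2342105889) (nat_lit 37) (nat_lit 5) (nat_lit 40) (nat_lit 5) (nat_lit 41) (nat_lit 5) (nat_lit 494) (nat_lit 353) (nat_lit 293)) (XT.nd (nat_lit 78) (nat_lit 0) (nat_lit 0) (XT.lf (nat_lit 0) (nat_lit 1538143034) (nat_lit 228) (nat_lit 11853005109) (nat_lit 76) (nat_lit 1993554154) (nat_lit 34) (nat_lit 5) (nat_lit 37) (nat_lit 5) (nat_lit 35) (nat_lit 5) (nat_lit 495) (nat_lit 353) (nat_lit 292)) (XT.lf (nat_lit 0) (nat_lit 5474506972) (nat_lit 228) (nat_lit 3861658426) (nat_lit 76) (nat_lit 6260275749) (nat_lit 34) (nat_lit 5) (nat_lit 37) (nat_lit 5) (nat_lit 35) (nat_lit 5) (nat_lit 496) (nat_lit 353) (nat_lit 291)))))))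 (XT.nd (nat_lit 54288) (nat_lit 0) (nat_lit 13908) (XT.nd (nat_lit 390) (nat_lit 380) (nat_lit 0) (XT.nd (nat_lit 156) (nat_lit 380) (nat_lit 0) (XT.nd (nat_lit 78) (nat_lit 0) (nat_lit 0) (XT.lf (nat_lit 0) (nat_lit 4285826038) (nat_lit 228) (nat_lit 5196914951) (nat_lit 304) (nat_lit 6329818357) (nat_lit 31) (nat_lit 5) (nat_lit 34) (nat_lit 5) (nat_lit 35) (nat_lit 5) (nat_lit 497) (nat_lit 353) (nat_lit 290)) (XT.lf (nat_lit 0) (nat_lit 12589101525) (nat_lit 228) (nat_lit 973562026) (nat_lit 304) (nat_lit 2470513165) (nat_lit 31) (nat_lit 5) (nat_lit 34) (nat_lit 5) (nat_lit 35) (nat_lit 5) (nat_lit 498) (nat_lit 353) (nat_lit 289))) (XT.nd (nat_lit 78) (nat_lit 152) (nat_lit 0) (XT.lf (nat_lit 0) (nat_lit 1465692788) (nat_lit 228) (nat_lit 11485028532) (nat_lit 76) (nat_lit 3306922927) (nat_lit 28) (nat_lit 5) (nat_lit 31) (nat_lit 5) (nat_lit 29) (nat_lit 5) (nat_lit 499) (nat_lit 353) (nat_lit 288))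 (XT.nd (nat_lit 78) (nat_lit 152) (nat_lit 0) (XT.lf (nat_lit 0) (nat_lit 5443465428) (nat_lit 228) (nat_lit 3367702994) (nat_lit 76) (nat_lit 7675194511) (nat_lit 28) (nat_lit 5) (nat_lit 31) (nat_lit 5) (nat_lit 29) (nat_lit 5) (nat_lit 500) (nat_lit 353) (nat_lit 287)) (XT.lf (nat_lit 0) (nat_lit 4918705843) (nat_lit 152) (nat_lit 4580866094) (nat_lit 228) (nat_lit 7220115219) (nat_lit 26) (nat_lit 5) (nat_lit 28) (nat_lit 5) (nat_lit 29) (nat_lit 5) (nat_lit 501) (nat_lit 353) (nat_lit 286))))) (XT.nd (nat_lit 156) (nat_lit 152) (nat_lit 0) (XT.nd (nat_lit 78) (nat_lit 228) (nat_lit 0) (XT.lf (nat_lit 0) (nat_lit 13359100120) (nat_lit 152) (nat_lit 267419935) (nat_lit 228) (nat_lit 3331370013) (nat_lit 26) (nat_lit 5) (nat_lit 28) (nat_lit 5) (nat_lit 29) (nat_lit 5) (nat_lit 502) (nat_lit 353) (nat_lit 285)) (XT.lf (nat_lit 0) (nat_lit 652234354) (nat_lit 228) (nat_lit 12458550486) (nat_lit 76) (nat_lit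 4089487776) (nat_lit 23) (nat_lit 5) (nat_lit 26) (nat_lit 5) (nat_lit 24) (nat_lit 5) (nat_lit 503) (nat_lit 353) (nat_lit 284))) (XT.nd (nat_lit 78) (nat_lit 152) (nat_lit 0) (XT.lf (nat_lit 0) (nat_lit 4664685259) (nat_lit 228) (nat_lit 4230010990) (nat_lit 76) (nat_lit 8552496744) (nat_lit 23) (nat_lit 5) (nat_lit 26) (nat_lit 5) (nat_lit 24) (nat_lit 5) (nat_lit 504) (nat_lit 353) (nat_lit 283)) (XT.nd (nat_lit 78) (nat_lit 0) (nat_lit 0) (XT.lf (nat_lit 0) (nat_lit 4161973355) (nat_lit 152) (nat_lit 4590727351) (nat_lit 228) (nat_lit 8946450856) (nat_lit 21) (nat_lit 5) (nat_lit 23) (nat_lit 5) (nat_lit 24) (nat_lit 5) (nat_lit 505) (nat_lit 353) (nat_lit 282)) (XT.lf (nat_lit 0) (nat_lit 12723791851) (nat_lit 152) (nat_lit 195625814) (nat_lit 228) (nat_lit 5036798788) (nat_lit 21) (nat_lit 5) (nat_lit 23) (nat_lit 5) (nat_lit 24) (nat_lit 5) (nat_lit 506) (nat_lit 353) (nat_lit 281)))))) (XT.nd (nat_lit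 390) (nat_lit 2508) (nat_lit 0) (XT.nd (nat_lit 156) (nat_lit 1444) (nat_lit 0) (XT.nd (nat_lit 78) (nat_lit 684) (nat_lit 0) (XT.lf (nat_lit 0) (nat_lit 1211502537) (nat_lit 760) (nat_lit 1492821264) (nat_lit 0) (nat_lit 1211502537) (nat_lit 265) (nat_lit 5) (nat_lit 275) (nat_lit 4) (nat_lit 265) (nat_lit 4) (nat_lit 432) (nat_lit 354) (nat_lit 354)) (XT.lf (nat_lit 0) (nat_lit 2826537066) (nat_lit 684) (nat_lit 3180986121) (nat_lit 684) (nat_lit 1880502535) (nat_lit 256) (nat_lit 4) (nat_lit 265) (nat_lit 5) (nat_lit 265) (nat_lit 4) (nat_lit 433) (nat_lit 354) (nat_lit 353))) (XT.nd (nat_lit 78) (nat_lit 760) (nat_lit 0) (XT.lf (nat_lit 0) (nat_lit 771210528) (nat_lit 608) (nat_lit 885560770) (nat_lit 684) (nat_lit 6289348241) (nat_lit 247) (nat_lit 5) (nat_lit 255) (nat_lit 5) (nat_lit 256) (nat_lit 4) (nat_lit 434) (nat_lit 354) (nat_lit 352)) (XT.nd (nat_lit 78) (nat_lit 760) (nat_lit 0) (XT.lf (nat_lit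 0) (nat_lit 5219863868) (nat_lit 684) (nat_lit 1316274372) (nat_lit 0) (nat_lit 1469421007) (nat_lit 247) (nat_lit 5) (nat_lit 256) (nat_lit 4) (nat_lit 247) (nat_lit 4) (nat_lit 435) (nat_lit 354) (nat_lit 351)) (XT.lf (nat_lit 0) (nat_lit 751290213) (nat_lit 760) (nat_lit 3434282442) (nat_lit 76) (nat_lit 3881077088) (nat_lit 237) (nat_lit 5) (nat_lit 247) (nat_lit 5) (nat_lit 238) (nat_lit 4) (nat_lit 436) (nat_lit 354) (nat_lit 350))))) (XT.nd (nat_lit 234) (nat_lit 1216) (nat_lit 0) (XT.nd (nat_lit 78) (nat_lit 684) (nat_lit 0) (XT.lf (nat_lit 0) (nat_lit 2526233255) (nat_lit 608) (nat_lit 1758920200) (nat_lit 684) (nat_lit 3844207065) (nat_lit 229) (nat_lit 5) (nat_lit 237) (nat_lit 5) (nat_lit 238) (nat_lit 4) (nat_lit 437) (nat_lit 354) (nat_lit 349)) (XT.nd (nat_lit 78) (nat_lit 76) (nat_lit 0) (XT.lf (nat_lit 0) (nat_lit 381773728) (nat_lit 608) (nat_lit 7476969926) (nat_lit 608) (nat_lit 335235677)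 (nat_lit 221) (nat_lit 4) (nat_lit 229) (nat_lit 5) (nat_lit 229) (nat_lit 4) (nat_lit 438) (nat_lit 354) (nat_lit 348)) (XT.lf (nat_lit 0) (nat_lit 3189853114) (nat_lit 684) (nat_lit 1808181176) (nat_lit 76) (nat_lit 3261698805) (nat_lit 220) (nat_lit 5) (nat_lit 229) (nat_lit 5) (nat_lit 221) (nat_lit 4) (nat_lit 439) (nat_lit 354) (nat_lit 347)))) (XT.nd (nat_lit 78) (nat_lit 684) (nat_lit 0) (XT.lf (nat_lit 0) (nat_lit 4293138196) (nat_lit 532) (nat_lit 2455876235) (nat_lit 608) (nat_lit 1578414797) (nat_lit 213) (nat_lit 5) (nat_lit 220) (nat_lit 5) (nat_lit 221) (nat_lit 4) (nat_lit 440) (nat_lit 354) (nat_lit 346)) (XT.nd (nat_lit 78) (nat_lit 0) (nat_lit 0) (XT.lf (nat_lit 0) (nat_lit 1924071981) (nat_lit 684) (nat_lit 6316041710) (nat_lit 76) (nat_lit 156795678) (nat_lit 204) (nat_lit 5) (nat_lit 213) (nat_lit 5) (nat_lit 205) (nat_lit 4) (nat_lit 441) (nat_lit 354) (nat_lit 345)) (XT.lf (nat_lit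 0) (nat_lit 5459998621) (nat_lit 684) (nat_lit 198892331) (nat_lit 76) (nat_lit 2809019905) (nat_lit 204) (nat_lit 5) (nat_lit 213) (nat_lit 5) (nat_lit 205) (nat_lit 4) (nat_lit 442) (nat_lit 354) (nat_lit 344))))))))
noncomputable def xc35 : XT := (XT.nd (nat_lit 1560) (nat_lit 4028) (nat_lit 0) (XT.nd (nat_lit 780) (nat_lit 2964) (nat_lit 0) (XT.nd (nat_lit 390) (nat_lit 1976) (nat_lit 0) (XT.nd (nat_lit 156) (nat_lit 1140) (nat_lit 0) (XT.nd (nat_lit 78) (nat_lit 532) (nat_lit 0) (XT.lf (nat_lit 0) (nat_lit 500641547) (nat_lit 608) (nat_lit 2500414175) (nat_lit 76) (nat_lit 5539613363) (nat_lit 196) (nat_lit 5) (nat_lit 204) (nat_lit 5) (nat_lit 197) (nat_lit 5) (nat_lit 443) (nat_lit 354) (nat_lit 343)) (XT.lf (nat_lit 0) (nat_lit 3744666675) (nat_lit 532) (nat_lit 262499005) (nat_lit 608) (nat_lit 4607986778) (nat_lit 189) (nat_lit 5) (nat_lit 196) (nat_lit 5) (nat_lit 197) (nat_lit 5) (nat_lit 444)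 (nat_lit 354) (nat_lit 342))) (XT.nd (nat_lit 78) (nat_lit 608) (nat_lit 0) (XT.lf (nat_lit 0) (nat_lit 1382255803) (nat_lit 532) (nat_lit 6186754615) (nat_lit 608) (nat_lit 1122439835) (nat_lit 182) (nat_lit 5) (nat_lit 189) (nat_lit 5) (nat_lit 190) (nat_lit 4) (nat_lit 445) (nat_lit 354) (nat_lit 341)) (XT.nd (nat_lit 78) (nat_lit 532) (nat_lit 0) (XT.lf (nat_lit 0) (nat_lit 2378664000) (nat_lit 608) (nat_lit 1037656809) (nat_lit 76) (nat_lit 5353109678) (nat_lit 181) (nat_lit 5) (nat_lit 189) (nat_lit 5) (nat_lit 182) (nat_lit 5) (nat_lit 446) (nat_lit 354) (nat_lit 340)) (XT.lf (nat_lit 0) (nat_lit 5346151699) (nat_lit 532) (nat_lit 567563382) (nat_lit 608) (nat_lit 2935554676) (nat_lit 174) (nat_lit 5) (nat_lit 181) (nat_lit 5) (nat_lit 182) (nat_lit 5) (nat_lit 447) (nat_lit 354) (nat_lit 339))))) (XT.nd (nat_lit 156) (nat_lit 988) (nat_lit 0) (XT.nd (nat_lit 78) (nat_lit 456) (nat_lit 0) (XT.lf (nat_lit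 0) (nat_lit 566559136) (nat_lit 532) (nat_lit 6047311008) (nat_lit 76) (nat_lit 2317074693) (nat_lit 167) (nat_lit 5) (nat_lit 174) (nat_lit 5) (nat_lit 168) (nat_lit 5) (nat_lit 448) (nat_lit 354) (nat_lit 338)) (XT.lf (nat_lit 0) (nat_lit 336281186) (nat_lit 456) (nat_lit 3737676424) (nat_lit 532) (nat_lit 4940442097) (nat_lit 161) (nat_lit 5) (nat_lit 167) (nat_lit 5) (nat_lit 168) (nat_lit 5) (nat_lit 449) (nat_lit 354) (nat_lit 337))) (XT.nd (nat_lit 78) (nat_lit 988) (nat_lit 0) (XT.lf (nat_lit 0) (nat_lit 6853424803) (nat_lit 456) (nat_lit 784153309) (nat_lit 532) (nat_lit 1462248942) (nat_lit 161) (nat_lit 5) (nat_lit 167) (nat_lit 5) (nat_lit 168) (nat_lit 5) (nat_lit 450) (nat_lit 354) (nat_lit 336)) (XT.nd (nat_lit 78) (nat_lit 456) (nat_lit 0) (XT.lf (nat_lit 0) (nat_lit 2046739500) (nat_lit 532) (nat_lit 4920622540) (nat_lit 76) (nat_lit 2219582329) (nat_lit 154) (nat_lit 5) (nat_lit 161) (nat_lit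 5) (nat_lit 155) (nat_lit 5) (nat_lit 451) (nat_lit 354) (nat_lit 335)) (XT.lf (nat_lit 0) (nat_lit 1594389630) (nat_lit 456) (nat_lit 3989289413) (nat_lit 532) (nat_lit 3692408089) (nat_lit 148) (nat_lit 5) (nat_lit 154) (nat_lit 5) (nat_lit 155) (nat_lit 5) (nat_lit 452) (nat_lit 354) (nat_lit 334)))))) (XT.nd (nat_lit 390) (nat_lit 1596) (nat_lit 0) (XT.nd (nat_lit 156) (nat_lit 912) (nat_lit 0) (XT.nd (nat_lit 78) (nat_lit 456) (nat_lit 0) (XT.lf (nat_lit 0) (nat_lit 8231108181) (nat_lit 456) (nat_lit 940440370) (nat_lit 532) (nat_lit 195883343) (nat_lit 148) (nat_lit 5) (nat_lit 154) (nat_lit 5) (nat_lit 155) (nat_lit 5) (nat_lit 453) (nat_lit 354) (nat_lit 333)) (XT.lf (nat_lit 0) (nat_lit 3324342764) (nat_lit 456) (nat_lit 3958954496) (nat_lit 76) (nat_lit 2176931158) (nat_lit 142) (nat_lit 5) (nat_lit 148) (nat_lit 5) (nat_lit 143) (nat_lit 5) (nat_lit 454) (nat_lit 354) (nat_lit 332))) (XT.nd (nat_lit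 78) (nat_lit 456) (nat_lit 0) (XT.lf (nat_lit 0) (nat_lit 2684985478) (nat_lit 456) (nat_lit 4206942317) (nat_lit 532) (nat_lit 2663357280) (nat_lit 136) (nat_lit 5) (nat_lit 142) (nat_lit 5) (nat_lit 143) (nat_lit 5) (nat_lit 455) (nat_lit 354) (nat_lit 331)) (XT.nd (nat_lit 78) (nat_lit 380) (nat_lit 0) (XT.lf (nat_lit 0) (nat_lit 842250489) (nat_lit 532) (nat_lit 217287537) (nat_lit 76) (nat_lit 8593108506) (nat_lit 135) (nat_lit 5) (nat_lit 142) (nat_lit 5) (nat_lit 136) (nat_lit 5) (nat_lit 456) (nat_lit 354) (nat_lit 330)) (XT.lf (nat_lit 0) (nat_lit 4388590803) (nat_lit 456) (nat_lit 3202457583) (nat_lit 76) (nat_lit 2160449478) (nat_lit 130) (nat_lit 5) (nat_lit 136) (nat_lit 5) (nat_lit 131) (nat_lit 5) (nat_lit 457) (nat_lit 354) (nat_lit 329))))) (XT.nd (nat_lit 156) (nat_lit 760) (nat_lit 0) (XT.nd (nat_lit 78) (nat_lit 456) (nat_lit 0) (XT.lf (nat_lit 0) (nat_lit 3567021894) (nat_lit 380) (nat_lit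 4420267340) (nat_lit 456) (nat_lit 1865428357) (nat_lit 125) (nat_lit 5) (nat_lit 130) (nat_lit 5) (nat_lit 131) (nat_lit 5) (nat_lit 458) (nat_lit 354) (nat_lit 328)) (XT.lf (nat_lit 0) (nat_lit 480605778) (nat_lit 380) (nat_lit 1173770524) (nat_lit 456) (nat_lit 8301889650) (nat_lit 119) (nat_lit 5) (nat_lit 124) (nat_lit 5) (nat_lit 125) (nat_lit 5) (nat_lit 459) (nat_lit 354) (nat_lit 327))) (XT.nd (nat_lit 78) (nat_lit 760) (nat_lit 0) (XT.lf (nat_lit 0) (nat_lit 5226251637) (nat_lit 456) (nat_lit 2694754117) (nat_lit 76) (nat_lit 2140518706) (nat_lit 119) (nat_lit 5) (nat_lit 125) (nat_lit 5) (nat_lit 120) (nat_lit 5) (nat_lit 460) (nat_lit 354) (nat_lit 326)) (XT.nd (nat_lit 78) (nat_lit 380) (nat_lit 0) (XT.lf (nat_lit 0) (nat_lit 4195851852) (nat_lit 380) (nat_lit 4659993460) (nat_lit 456) (nat_lit 1313335681) (nat_lit 114) (nat_lit 5) (nat_lit 119) (nat_lit 5) (nat_lit 120) (nat_lit 5) (nat_lit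 461) (nat_lit 354) (nat_lit 325)) (XT.lf (nat_lit 0) (nat_lit 905775349) (nat_lit 304) (nat_lit 1318870161) (nat_lit 380) (nat_lit 8054557053) (nat_lit 109) (nat_lit 5) (nat_lit 113) (nat_lit 5) (nat_lit 114) (nat_lit 5) (nat_lit 462) (nat_lit 354) (nat_lit 324))))))) (XT.nd (nat_lit 780) (nat_lit 1976) (nat_lit 0) (XT.nd (nat_lit 390) (nat_lit 988) (nat_lit 0) (XT.nd (nat_lit 156) (nat_lit 684) (nat_lit 0) (XT.nd (nat_lit 78) (nat_lit 380) (nat_lit 0) (XT.lf (nat_lit 0) (nat_lit 5821460751) (nat_lit 380) (nat_lit 2483410113) (nat_lit 76) (nat_lit 2086284287) (nat_lit 109) (nat_lit 5) (nat_lit 114) (nat_lit 5) (nat_lit 110) (nat_lit 5) (nat_lit 463) (nat_lit 354) (nat_lit 323)) (XT.lf (nat_lit 0) (nat_lit 4522742120) (nat_lit 380) (nat_lit 4958245767) (nat_lit 456) (nat_lit 1024560456) (nat_lit 104) (nat_lit 5) (nat_lit 109) (nat_lit 5) (nat_lit 110) (nat_lit 5) (nat_lit 464) (nat_lit 354) (nat_lit 322)))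 (XT.nd (nat_lit 78) (nat_lit 304) (nat_lit 0) (XT.lf (nat_lit 0) (nat_lit 1004608505) (nat_lit 304) (nat_lit 1528989695) (nat_lit 380) (nat_lit 8088788896) (nat_lit 99) (nat_lit 5) (nat_lit 103) (nat_lit 5) (nat_lit 104) (nat_lit 5) (nat_lit 465) (nat_lit 354) (nat_lit 321)) (XT.nd (nat_lit 78) (nat_lit 304) (nat_lit 0) (XT.lf (nat_lit 0) (nat_lit 6155517018) (nat_lit 380) (nat_lit 2620450096) (nat_lit 76) (nat_lit 1965349827) (nat_lit 99) (nat_lit 5) (nat_lit 104) (nat_lit 5) (nat_lit 100) (nat_lit 5) (nat_lit 466) (nat_lit 354) (nat_lit 320)) (XT.lf (nat_lit 0) (nat_lit 4494342999) (nat_lit 304) (nat_lit 5348862992) (nat_lit 380) (nat_lit 1019568523) (nat_lit 95) (nat_lit 5) (nat_lit 99) (nat_lit 5) (nat_lit 100) (nat_lit 5) (nat_lit 467) (nat_lit 354) (nat_lit 319))))) (XT.nd (nat_lit 156) (nat_lit 608) (nat_lit 0) (XT.nd (nat_lit 78) (nat_lit 0) (nat_lit 0) (XT.lf (nat_lit 0) (nat_lit 721536503) (nat_lit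 304) (nat_lit 1838651913) (nat_lit 380) (nat_lit 8426617297) (nat_lit 90) (nat_lit 5) (nat_lit 94) (nat_lit 5) (nat_lit 95) (nat_lit 5) (nat_lit 468) (nat_lit 354) (nat_lit 318)) (XT.lf (nat_lit 0) (nat_lit 6206651081) (nat_lit 380) (nat_lit 3162919633) (nat_lit 76) (nat_lit 1743451637) (nat_lit 90) (nat_lit 5) (nat_lit 95) (nat_lit 5) (nat_lit 91) (nat_lit 5) (nat_lit 469) (nat_lit 354) (nat_lit 317))) (XT.nd (nat_lit 78) (nat_lit 304) (nat_lit 0) (XT.lf (nat_lit 0) (nat_lit 4052108635) (nat_lit 304) (nat_lit 5867736137) (nat_lit 380) (nat_lit 1322057082) (nat_lit 86) (nat_lit 5) (nat_lit 90) (nat_lit 5) (nat_lit 91) (nat_lit 5) (nat_lit 470) (nat_lit 354) (nat_lit 316)) (XT.nd (nat_lit 78) (nat_lit 228) (nat_lit 0) (XT.lf (nat_lit 0) (nat_lit 2280130290) (nat_lit 380) (nat_lit 4396325) (nat_lit 76) (nat_lit 9089007321) (nat_lit 85) (nat_lit 5) (nat_lit 90) (nat_lit 5) (nat_lit 86) (nat_lit 5) (nat_lit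 471) (nat_lit 354) (nat_lit 315)) (XT.lf (nat_lit 0) (nat_lit 5949763745) (nat_lit 304) (nat_lit 4173501102) (nat_lit 76) (nat_lit 1384110668) (nat_lit 82) (nat_lit 5) (nat_lit 86) (nat_lit 5) (nat_lit 83) (nat_lit 5) (nat_lit 472) (nat_lit 354) (nat_lit 314)))))) (XT.nd (nat_lit 390) (nat_lit 988) (nat_lit 0) (XT.nd (nat_lit 156) (nat_lit 608) (nat_lit 0) (XT.nd (nat_lit 78) (nat_lit 76) (nat_lit 0) (XT.lf (nat_lit 0) (nat_lit 3131662209) (nat_lit 304) (nat_lit 6553171390) (nat_lit 380) (nat_lit 1959232909) (nat_lit 78) (nat_lit 5) (nat_lit 82) (nat_lit 5) (nat_lit 83) (nat_lit 5) (nat_lit 473) (nat_lit 354) (nat_lit 313)) (XT.lf (nat_lit 0) (nat_lit 1673522215) (nat_lit 380) (nat_lit 1224214697) (nat_lit 76) (nat_lit 8885848142) (nat_lit 77) (nat_lit 5) (nat_lit 82) (nat_lit 5) (nat_lit 78) (nat_lit 5) (nat_lit 474) (nat_lit 354) (nat_lit 312))) (XT.nd (nat_lit 78) (nat_lit 380) (nat_lit 0) (XT.lf (nat_lit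 0) (nat_lit 5356131680) (nat_lit 304) (nat_lit 5721188734) (nat_lit 76) (nat_lit 848258560) (nat_lit 74) (nat_lit 5) (nat_lit 78) (nat_lit 5) (nat_lit 75) (nat_lit 5) (nat_lit 475) (nat_lit 354) (nat_lit 311)) (XT.nd (nat_lit 78) (nat_lit 76) (nat_lit 0) (XT.lf (nat_lit 0) (nat_lit 1662099796) (nat_lit 304) (nat_lit 7446280716) (nat_lit 380) (nat_lit 2962124948) (nat_lit 70) (nat_lit 5) (nat_lit 74) (nat_lit 5) (nat_lit 75) (nat_lit 5) (nat_lit 476) (nat_lit 354) (nat_lit 310)) (XT.lf (nat_lit 0) (nat_lit 704416461) (nat_lit 380) (nat_lit 3020358148) (nat_lit 76) (nat_lit 8493545051) (nat_lit 69) (nat_lit 5) (nat_lit 74) (nat_lit 5) (nat_lit 70) (nat_lit 5) (nat_lit 477) (nat_lit 354) (nat_lit 309))))) (XT.nd (nat_lit 234) (nat_lit 532) (nat_lit 0) (XT.nd (nat_lit 78) (nat_lit 228) (nat_lit 0) (XT.lf (nat_lit 0) (nat_lit 4393077397) (nat_lit 304) (nat_lit 7882029570) (nat_lit 76) (nat_lit 93834269) (nat_lit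 66) (nat_lit 5) (nat_lit 70) (nat_lit 5) (nat_lit 67) (nat_lit 5) (nat_lit 478) (nat_lit 354) (nat_lit 308)) (XT.nd (nat_lit 78) (nat_lit 228) (nat_lit 0) (XT.lf (nat_lit 0) (nat_lit 8159452726) (nat_lit 304) (nat_lit 429071833) (nat_lit 76) (nat_lit 3933983345) (nat_lit 66) (nat_lit 5) (nat_lit 70) (nat_lit 5) (nat_lit 67) (nat_lit 5) (nat_lit 479) (nat_lit 354) (nat_lit 307)) (XT.lf (nat_lit 0) (nat_lit 7201343966) (nat_lit 228) (nat_lit 4806245314) (nat_lit 304) (nat_lit 671439210) (nat_lit 63) (nat_lit 5) (nat_lit 66) (nat_lit 5) (nat_lit 67) (nat_lit 5) (nat_lit 480) (nat_lit 354) (nat_lit 306)))) (XT.nd (nat_lit 78) (nat_lit 228) (nat_lit 0) (XT.lf (nat_lit 0) (nat_lit 2092742643) (nat_lit 228) (nat_lit 936940716) (nat_lit 304) (nat_lit 9809080128) (nat_lit 59) (nat_lit 5) (nat_lit 62) (nat_lit 5) (nat_lit 63) (nat_lit 5) (nat_lit 481) (nat_lit 354) (nat_lit 305)) (XT.nd (nat_lit 78) (nat_lit 228)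 (nat_lit 0) (XT.lf (nat_lit 0) (nat_lit 6812350323) (nat_lit 304) (nat_lit 3202723458) (nat_lit 76) (nat_lit 2986210999) (nat_lit 59) (nat_lit 5) (nat_lit 63) (nat_lit 5) (nat_lit 60) (nat_lit 5) (nat_lit 482) (nat_lit 354) (nat_lit 304)) (XT.lf (nat_lit 0) (nat_lit 4478914083) (nat_lit 228) (nat_lit 6187787839) (nat_lit 304) (nat_lit 2500444353) (nat_lit 56) (nat_lit 5) (nat_lit 59) (nat_lit 5) (nat_lit 60) (nat_lit 5) (nat_lit 483) (nat_lit 354) (nat_lit 303))))))))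
noncomputable def xc36 : XT := (XT.nd (nat_lit 1560) (nat_lit 228) (nat_lit 0) (XT.nd (nat_lit 780) (nat_lit 1216) (nat_lit 0) (XT.nd (nat_lit 390) (nat_lit 456) (nat_lit 0) (XT.nd (nat_lit 156) (nat_lit 456) (nat_lit 0) (XT.nd (nat_lit 78) (nat_lit 228) (nat_lit 0) (XT.lf (nat_lit 0) (nat_lit 1227729541) (nat_lit 304) (nat_lit 1051797072) (nat_lit 76) (nat_lit 11056995275) (nat_lit 55) (nat_lit 5) (nat_lit 59) (nat_lit 5) (nat_lit 56) (nat_lit 5) (nat_lit 484) (nat_lit 354) (nat_lit 302)) (XT.lf (nat_lit 0) (nat_lit 5013726057) (nat_lit 304) (nat_lit 6774785298) (nat_lit 76) (nat_lit 1720118101) (nat_lit 52) (nat_lit 5) (nat_lit 56) (nat_lit 5) (nat_lit 53) (nat_lit 5) (nat_lit 485) (nat_lit 354) (nat_lit 301))) (XT.nd (nat_lit 78) (nat_lit 228) (nat_lit 0) (XT.lf (nat_lit 0) (nat_lit 938510350) (nat_lit 228) (nat_lit 7926999333) (nat_lit 304) (nat_lit 4818877757) (nat_lit 49) (nat_lit 5) (nat_lit 52) (nat_lit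 5) (nat_lit 53) (nat_lit 5) (nat_lit 486) (nat_lit 354) (nat_lit 300)) (XT.nd (nat_lit 78) (nat_lit 228) (nat_lit 0) (XT.lf (nat_lit 0) (nat_lit 8834254419) (nat_lit 228) (nat_lit 3967645919) (nat_lit 304) (nat_lit 1061618241) (nat_lit 49) (nat_lit 5) (nat_lit 52) (nat_lit 5) (nat_lit 53) (nat_lit 5) (nat_lit 487) (nat_lit 354) (nat_lit 299)) (XT.lf (nat_lit 0) (nat_lit 2715741064) (nat_lit 228) (nat_lit 11249329485) (nat_lit 76) (nat_lit 81185173) (nat_lit 46) (nat_lit 5) (nat_lit 49) (nat_lit 5) (nat_lit 47) (nat_lit 5) (nat_lit 488) (nat_lit 354) (nat_lit 298))))) (XT.nd (nat_lit 156) (nat_lit 228) (nat_lit 0) (XT.nd (nat_lit 78) (nat_lit 228) (nat_lit 0) (XT.lf (nat_lit 0) (nat_lit 6577453489) (nat_lit 228) (nat_lit 3480770085) (nat_lit 76) (nat_lit 4173832144) (nat_lit 46) (nat_lit 5) (nat_lit 49) (nat_lit 5) (nat_lit 47) (nat_lit 5) (nat_lit 489) (nat_lit 354) (nat_lit 297)) (XT.lf (nat_lit 0) (nat_lit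 4439541760) (nat_lit 228) (nat_lit 6069172460) (nat_lit 304) (nat_lit 3913019917) (nat_lit 43) (nat_lit 5) (nat_lit 46) (nat_lit 5) (nat_lit 47) (nat_lit 5) (nat_lit 490) (nat_lit 354) (nat_lit 296))) (XT.nd (nat_lit 78) (nat_lit 228) (nat_lit 0) (XT.lf (nat_lit 0) (nat_lit 12504005337) (nat_lit 228) (nat_lit 2001759236) (nat_lit 304) (nat_lit 109706798) (nat_lit 43) (nat_lit 5) (nat_lit 46) (nat_lit 5) (nat_lit 47) (nat_lit 5) (nat_lit 491) (nat_lit 354) (nat_lit 295)) (XT.nd (nat_lit 78) (nat_lit 0) (nat_lit 0) (XT.lf (nat_lit 0) (nat_lit 3737064389) (nat_lit 228) (nat_lit 8917761597) (nat_lit 76) (nat_lit 2157439426) (nat_lit 40) (nat_lit 5) (nat_lit 43) (nat_lit 5) (nat_lit 41) (nat_lit 5) (nat_lit 492) (nat_lit 354) (nat_lit 294)) (XT.lf (nat_lit 0) (nat_lit 7651243261) (nat_lit 228) (nat_lit 998445370) (nat_lit 76) (nat_lit 6363461415) (nat_lit 40) (nat_lit 5) (nat_lit 43) (nat_lit 5) (nat_lit 41)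 (nat_lit 5) (nat_lit 493) (nat_lit 354) (nat_lit 293)))))) (XT.nd (nat_lit 390) (nat_lit 532) (nat_lit 0) (XT.nd (nat_lit 156) (nat_lit 380) (nat_lit 0) (XT.nd (nat_lit 78) (nat_lit 76) (nat_lit 0) (XT.lf (nat_lit 0) (nat_lit 7112866343) (nat_lit 228) (nat_lit 4542138750) (nat_lit 304) (nat_lit 3562829178) (nat_lit 37) (nat_lit 5) (nat_lit 40) (nat_lit 5) (nat_lit 41) (nat_lit 5) (nat_lit 494) (nat_lit 354) (nat_lit 292)) (XT.lf (nat_lit 0) (nat_lit 280059823) (nat_lit 304) (nat_lit 88366328) (nat_lit 76) (nat_lit 15058714564) (nat_lit 36) (nat_lit 5) (nat_lit 40) (nat_lit 5) (nat_lit 37) (nat_lit 5) (nat_lit 495) (nat_lit 354) (nat_lit 291))) (XT.nd (nat_lit 78) (nat_lit 228) (nat_lit 0) (XT.lf (nat_lit 0) (nat_lit 4196276376) (nat_lit 228) (nat_lit 7552603151) (nat_lit 76) (nat_lit 3890406663) (nat_lit 34) (nat_lit 5) (nat_lit 37) (nat_lit 5) (nat_lit 35) (nat_lit 5) (nat_lit 496) (nat_lit 354) (nat_lit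 290)) (XT.nd (nat_lit 78) (nat_lit 0) (nat_lit 0) (XT.lf (nat_lit 0) (nat_lit 516372944) (nat_lit 228) (nat_lit 7646830216) (nat_lit 304) (nat_lit 7693030980) (nat_lit 31) (nat_lit 5) (nat_lit 34) (nat_lit 5) (nat_lit 35) (nat_lit 5) (nat_lit 497) (nat_lit 354) (nat_lit 289)) (XT.lf (nat_lit 0) (nat_lit 8790768378) (nat_lit 228) (nat_lit 3435666460) (nat_lit 304) (nat_lit 3850754024) (nat_lit 31) (nat_lit 5) (nat_lit 34) (nat_lit 5) (nat_lit 35) (nat_lit 5) (nat_lit 498) (nat_lit 354) (nat_lit 288))))) (XT.nd (nat_lit 156) (nat_lit 304) (nat_lit 0) (XT.nd (nat_lit 78) (nat_lit 0) (nat_lit 0) (XT.lf (nat_lit 0) (nat_lit 45379739) (nat_lit 228) (nat_lit 15427012294) (nat_lit 76) (nat_lit 830610473) (nat_lit 28) (nat_lit 5) (nat_lit 31) (nat_lit 5) (nat_lit 29) (nat_lit 5) (nat_lit 499) (nat_lit 354) (nat_lit 287)) (XT.lf (nat_lit 0) (nat_lit 4006737980) (nat_lit 228) (nat_lit 7338287212) (nat_lit 76) (nat_lit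 5187027619) (nat_lit 28) (nat_lit 5) (nat_lit 31) (nat_lit 5) (nat_lit 29) (nat_lit 5) (nat_lit 500) (nat_lit 354) (nat_lit 286))) (XT.nd (nat_lit 78) (nat_lit 152) (nat_lit 0) (XT.lf (nat_lit 0) (nat_lit 866942354) (nat_lit 152) (nat_lit 7153502850) (nat_lit 228) (nat_lit 8745783080) (nat_lit 26) (nat_lit 5) (nat_lit 28) (nat_lit 5) (nat_lit 29) (nat_lit 5) (nat_lit 501) (nat_lit 354) (nat_lit 285)) (XT.nd (nat_lit 78) (nat_lit 152) (nat_lit 0) (XT.lf (nat_lit 0) (nat_lit 9279481439) (nat_lit 152) (nat_lit 2851954021) (nat_lit 228) (nat_lit 4873318095) (nat_lit 26) (nat_lit 5) (nat_lit 28) (nat_lit 5) (nat_lit 29) (nat_lit 5) (nat_lit 502) (nat_lit 354) (nat_lit 284)) (XT.lf (nat_lit 0) (nat_lit 553866100) (nat_lit 152) (nat_lit 15752589987) (nat_lit 228) (nat_lit 941963374) (nat_lit 24) (nat_lit 5) (nat_lit 26) (nat_lit 5) (nat_lit 27) (nat_lit 4) (nat_lit 503) (nat_lit 354) (nat_lit 283))))))) (XT.nd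 (nat_lit 54132) (nat_lit 0) (nat_lit 11628) (XT.nd (nat_lit 53742) (nat_lit 0) (nat_lit 16416) (XT.nd (nat_lit 156) (nat_lit 152) (nat_lit 0) (XT.nd (nat_lit 78) (nat_lit 0) (nat_lit 0) (XT.lf (nat_lit 0) (nat_lit 3067145131) (nat_lit 228) (nat_lit 8487477702) (nat_lit 76) (nat_lit 5941156269) (nat_lit 23) (nat_lit 5) (nat_lit 26) (nat_lit 5) (nat_lit 24) (nat_lit 5) (nat_lit 504) (nat_lit 354) (nat_lit 282)) (XT.lf (nat_lit 0) (nat_lit 7112749641) (nat_lit 228) (nat_lit 177117294) (nat_lit 76) (nat_lit 10458721912) (nat_lit 23) (nat_lit 5) (nat_lit 26) (nat_lit 5) (nat_lit 24) (nat_lit 5) (nat_lit 505) (nat_lit 354) (nat_lit 281))) (XT.nd (nat_lit 53430) (nat_lit 0) (nat_lit 19228) (XT.lf (nat_lit 0) (nat_lit 8355486384) (nat_lit 152) (nat_lit 2907553662) (nat_lit 228) (nat_lit 6742945123) (nat_lit 21) (nat_lit 5) (nat_lit 23) (nat_lit 5) (nat_lit 24) (nat_lit 5) (nat_lit 506) (nat_lit 354) (nat_lit 280))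 (XT.nd (nat_lit 78) (nat_lit 76) (nat_lit 0) (XT.lf (nat_lit 0) (nat_lit 552117540) (nat_lit 760) (nat_lit 1654687953) (nat_lit 760) (nat_lit 1654687953) (nat_lit 275) (nat_lit 4) (nat_lit 285) (nat_lit 5) (nat_lit 285) (nat_lit 4) (nat_lit 430) (nat_lit 355) (nat_lit 355)) (XT.lf (nat_lit 0) (nat_lit 203811151) (nat_lit 836) (nat_lit 941324596) (nat_lit 76) (nat_lit 6631917517) (nat_lit 274) (nat_lit 5) (nat_lit 285) (nat_lit 5) (nat_lit 275) (nat_lit 4) (nat_lit 431) (nat_lit 355) (nat_lit 354))))) (XT.nd (nat_lit 156) (nat_lit 1444) (nat_lit 0) (XT.nd (nat_lit 78) (nat_lit 684) (nat_lit 0) (XT.lf (nat_lit 0) (nat_lit 3717628599) (nat_lit 760) (nat_lit 3024029515) (nat_lit 0) (nat_lit 1090651754) (nat_lit 265) (nat_lit 5) (nat_lit 275) (nat_lit 4) (nat_lit 265) (nat_lit 4) (nat_lit 432) (nat_lit 355) (nat_lit 353)) (XT.lf (nat_lit 0) (nat_lit 2749505497) (nat_lit 684) (nat_lit 4520896238) (nat_lit 684)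 (nat_lit 618935485) (nat_lit 256) (nat_lit 4) (nat_lit 265) (nat_lit 5) (nat_lit 265) (nat_lit 4) (nat_lit 433) (nat_lit 355) (nat_lit 352))) (XT.nd (nat_lit 78) (nat_lit 760) (nat_lit 0) (XT.lf (nat_lit 0) (nat_lit 645205311) (nat_lit 608) (nat_lit 2224671068) (nat_lit 684) (nat_lit 5078047819) (nat_lit 247) (nat_lit 5) (nat_lit 255) (nat_lit 5) (nat_lit 256) (nat_lit 4) (nat_lit 434) (nat_lit 355) (nat_lit 351)) (XT.nd (nat_lit 78) (nat_lit 760) (nat_lit 0) (XT.lf (nat_lit 0) (nat_lit 6393497824) (nat_lit 684) (nat_lit 1473548230) (nat_lit 0) (nat_lit 141125564) (nat_lit 247) (nat_lit 5) (nat_lit 256) (nat_lit 4) (nat_lit 247) (nat_lit 4) (nat_lit 435) (nat_lit 355) (nat_lit 350)) (XT.lf (nat_lit 0) (nat_lit 1875273556) (nat_lit 760) (nat_lit 3642207727) (nat_lit 76) (nat_lit 2552279949) (nat_lit 237) (nat_lit 5) (nat_lit 247) (nat_lit 5) (nat_lit 238) (nat_lit 4) (nat_lit 436) (nat_lit 355) (nat_lit 349))))))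 (XT.nd (nat_lit 390) (nat_lit 2280) (nat_lit 0) (XT.nd (nat_lit 156) (nat_lit 1216) (nat_lit 0) (XT.nd (nat_lit 78) (nat_lit 684) (nat_lit 0) (XT.lf (nat_lit 0) (nat_lit 2277464857) (nat_lit 608) (nat_lit 3100018992) (nat_lit 684) (nat_lit 2755638453) (nat_lit 229) (nat_lit 5) (nat_lit 237) (nat_lit 5) (nat_lit 238) (nat_lit 4) (nat_lit 437) (nat_lit 355) (nat_lit 348)) (XT.lf (nat_lit 0) (nat_lit 87494078) (nat_lit 608) (nat_lit 619395194) (nat_lit 684) (nat_lit 7491501854) (nat_lit 220) (nat_lit 5) (nat_lit 228) (nat_lit 5) (nat_lit 229) (nat_lit 5) (nat_lit 438) (nat_lit 355) (nat_lit 347))) (XT.nd (nat_lit 78) (nat_lit 1216) (nat_lit 0) (XT.lf (nat_lit 0) (nat_lit 4193946725) (nat_lit 684) (nat_lit 2143082480) (nat_lit 76) (nat_lit 1927761086) (nat_lit 220) (nat_lit 5) (nat_lit 229) (nat_lit 5) (nat_lit 221) (nat_lit 4) (nat_lit 439) (nat_lit 355) (nat_lit 346)) (XT.nd (nat_lit 78) (nat_lit 684) (nat_lit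 0) (XT.lf (nat_lit 0) (nat_lit 3915981780) (nat_lit 532) (nat_lit 3805645023) (nat_lit 608) (nat_lit 611505167) (nat_lit 213) (nat_lit 5) (nat_lit 220) (nat_lit 5) (nat_lit 221) (nat_lit 4) (nat_lit 440) (nat_lit 355) (nat_lit 345)) (XT.lf (nat_lit 0) (nat_lit 1649650901) (nat_lit 608) (nat_lit 1195902030) (nat_lit 684) (nat_lit 5557603877) (nat_lit 204) (nat_lit 5) (nat_lit 212) (nat_lit 5) (nat_lit 213) (nat_lit 5) (nat_lit 441) (nat_lit 355) (nat_lit 344))))) (XT.nd (nat_lit 234) (nat_lit 1140) (nat_lit 0) (XT.nd (nat_lit 78) (nat_lit 1140) (nat_lit 0) (XT.lf (nat_lit 0) (nat_lit 6345074795) (nat_lit 684) (nat_lit 666338794) (nat_lit 76) (nat_lit 1463487804) (nat_lit 204) (nat_lit 5) (nat_lit 213) (nat_lit 5) (nat_lit 205) (nat_lit 4) (nat_lit 442) (nat_lit 355) (nat_lit 343)) (XT.nd (nat_lit 78) (nat_lit 532) (nat_lit 0) (XT.lf (nat_lit 0) (nat_lit 1335591102) (nat_lit 608) (nat_lit 3024697558) (nat_lit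 76) (nat_lit 4187903756) (nat_lit 196) (nat_lit 5) (nat_lit 204) (nat_lit 5) (nat_lit 197) (nat_lit 5) (nat_lit 443) (nat_lit 355) (nat_lit 342)) (XT.lf (nat_lit 0) (nat_lit 3175773119) (nat_lit 532) (nat_lit 1634683620) (nat_lit 608) (nat_lit 3812866357) (nat_lit 189) (nat_lit 5) (nat_lit 196) (nat_lit 5) (nat_lit 197) (nat_lit 5) (nat_lit 444) (nat_lit 355) (nat_lit 341)))) (XT.nd (nat_lit 78) (nat_lit 608) (nat_lit 0) (XT.lf (nat_lit 0) (nat_lit 768641514) (nat_lit 532) (nat_lit 7563050652) (nat_lit 608) (nat_lit 368754772) (nat_lit 182) (nat_lit 5) (nat_lit 189) (nat_lit 5) (nat_lit 190) (nat_lit 4) (nat_lit 445) (nat_lit 355) (nat_lit 340)) (XT.nd (nat_lit 78) (nat_lit 532) (nat_lit 0) (XT.lf (nat_lit 0) (nat_lit 3094855351) (nat_lit 608) (nat_lit 1702706874) (nat_lit 76) (nat_lit 3981332580) (nat_lit 181) (nat_lit 5) (nat_lit 189) (nat_lit 5) (nat_lit 182) (nat_lit 5) (nat_lit 446) (nat_lit 355) (nat_lit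 339)) (XT.lf (nat_lit 0) (nat_lit 4634964812) (nat_lit 532) (nat_lit 1963256481) (nat_lit 608) (nat_lit 2261159546) (nat_lit 174) (nat_lit 5) (nat_lit 181) (nat_lit 5) (nat_lit 182) (nat_lit 5) (nat_lit 447) (nat_lit 355) (nat_lit 338))))))))
noncomputable def xc37 : XT := (XT.nd (nat_lit 1560) (nat_lit 3572) (nat_lit 0) (XT.nd (nat_lit 780) (nat_lit 2660) (nat_lit 0) (XT.nd (nat_lit 390) (nat_lit 1368) (nat_lit 0) (XT.nd (nat_lit 156) (nat_lit 1444) (nat_lit 0) (XT.nd (nat_lit 78) (nat_lit 0) (nat_lit 0) (XT.lf (nat_lit 0) (nat_lit 1190997223) (nat_lit 532) (nat_lit 6821605494) (nat_lit 76) (nat_lit 929200428) (nat_lit 167) (nat_lit 5) (nat_lit 174) (nat_lit 5) (nat_lit 168) (nat_lit 5) (nat_lit 448) (nat_lit 355) (nat_lit 337)) (XT.lf (nat_lit 0) (nat_lit 4669473459) (nat_lit 532) (nat_lit 479599597) (nat_lit 76) (nat_lit 3876775712) (nat_lit 167) (nat_lit 5) (nat_lit 174) (nat_lit 5) (nat_lit 168) (nat_lit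 5) (nat_lit 449) (nat_lit 355) (nat_lit 336))) (XT.nd (nat_lit 78) (nat_lit 988) (nat_lit 0) (XT.lf (nat_lit 0) (nat_lit 5994239062) (nat_lit 456) (nat_lit 2209245268) (nat_lit 532) (nat_lit 908396043) (nat_lit 161) (nat_lit 5) (nat_lit 167) (nat_lit 5) (nat_lit 168) (nat_lit 5) (nat_lit 450) (nat_lit 355) (nat_lit 335)) (XT.nd (nat_lit 78) (nat_lit 456) (nat_lit 0) (XT.lf (nat_lit 0) (nat_lit 2551877006) (nat_lit 532) (nat_lit 5847434449) (nat_lit 76) (nat_lit 800454942) (nat_lit 154) (nat_lit 5) (nat_lit 161) (nat_lit 5) (nat_lit 155) (nat_lit 5) (nat_lit 451) (nat_lit 355) (nat_lit 334)) (XT.lf (nat_lit 0) (nat_lit 617986524) (nat_lit 456) (nat_lit 5438579711) (nat_lit 532) (nat_lit 3232999302) (nat_lit 148) (nat_lit 5) (nat_lit 154) (nat_lit 5) (nat_lit 155) (nat_lit 5) (nat_lit 452) (nat_lit 355) (nat_lit 333))))) (XT.nd (nat_lit 156) (nat_lit 912) (nat_lit 0) (XT.nd (nat_lit 78) (nat_lit 380) (nat_lit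 0) (XT.lf (nat_lit 0) (nat_lit 234248389) (nat_lit 532) (nat_lit 2164813768) (nat_lit 76) (nat_lit 6982341270) (nat_lit 147) (nat_lit 5) (nat_lit 154) (nat_lit 5) (nat_lit 148) (nat_lit 5) (nat_lit 453) (nat_lit 355) (nat_lit 332)) (XT.lf (nat_lit 0) (nat_lit 3709999270) (nat_lit 456) (nat_lit 5044080649) (nat_lit 76) (nat_lit 720943432) (nat_lit 142) (nat_lit 5) (nat_lit 148) (nat_lit 5) (nat_lit 143) (nat_lit 5) (nat_lit 454) (nat_lit 355) (nat_lit 331))) (XT.nd (nat_lit 78) (nat_lit 456) (nat_lit 0) (XT.lf (nat_lit 0) (nat_lit 1548578182) (nat_lit 456) (nat_lit 5696505604) (nat_lit 532) (nat_lit 2325656736) (nat_lit 136) (nat_lit 5) (nat_lit 142) (nat_lit 5) (nat_lit 143) (nat_lit 5) (nat_lit 455) (nat_lit 355) (nat_lit 330)) (XT.nd (nat_lit 78) (nat_lit 380) (nat_lit 0) (XT.lf (nat_lit 0) (nat_lit 1150482961) (nat_lit 532) (nat_lit 1407823343) (nat_lit 76) (nat_lit 7110262703) (nat_lit 135) (nat_lit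 5) (nat_lit 142) (nat_lit 5) (nat_lit 136) (nat_lit 5) (nat_lit 456) (nat_lit 355) (nat_lit 329)) (XT.lf (nat_lit 0) (nat_lit 4654350142) (nat_lit 456) (nat_lit 4451782902) (nat_lit 76) (nat_lit 662146655) (nat_lit 130) (nat_lit 5) (nat_lit 136) (nat_lit 5) (nat_lit 131) (nat_lit 5) (nat_lit 457) (nat_lit 355) (nat_lit 328)))))) (XT.nd (nat_lit 390) (nat_lit 1368) (nat_lit 0) (XT.nd (nat_lit 156) (nat_lit 836) (nat_lit 0) (XT.nd (nat_lit 78) (nat_lit 76) (nat_lit 0) (XT.lf (nat_lit 0) (nat_lit 2264663297) (nat_lit 380) (nat_lit 5955559117) (nat_lit 456) (nat_lit 1649943239) (nat_lit 125) (nat_lit 5) (nat_lit 130) (nat_lit 5) (nat_lit 131) (nat_lit 5) (nat_lit 458) (nat_lit 355) (nat_lit 327)) (XT.lf (nat_lit 0) (nat_lit 1839621303) (nat_lit 456) (nat_lit 882951442) (nat_lit 76) (nat_lit 7251670896) (nat_lit 124) (nat_lit 5) (nat_lit 130) (nat_lit 5) (nat_lit 125) (nat_lit 5) (nat_lit 459) (nat_lit 355) (nat_lit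 326))) (XT.nd (nat_lit 78) (nat_lit 456) (nat_lit 0) (XT.lf (nat_lit 0) (nat_lit 5371467319) (nat_lit 456) (nat_lit 4114269718) (nat_lit 76) (nat_lit 594574842) (nat_lit 119) (nat_lit 5) (nat_lit 125) (nat_lit 5) (nat_lit 120) (nat_lit 5) (nat_lit 460) (nat_lit 355) (nat_lit 325)) (XT.nd (nat_lit 78) (nat_lit 76) (nat_lit 0) (XT.lf (nat_lit 0) (nat_lit 2721485082) (nat_lit 380) (nat_lit 6246350299) (nat_lit 456) (nat_lit 1220806509) (nat_lit 114) (nat_lit 5) (nat_lit 119) (nat_lit 5) (nat_lit 120) (nat_lit 5) (nat_lit 461) (nat_lit 355) (nat_lit 324)) (XT.lf (nat_lit 0) (nat_lit 2286498162) (nat_lit 456) (nat_lit 636135429) (nat_lit 76) (nat_lit 7376615731) (nat_lit 113) (nat_lit 5) (nat_lit 119) (nat_lit 5) (nat_lit 114) (nat_lit 5) (nat_lit 462) (nat_lit 355) (nat_lit 323))))) (XT.nd (nat_lit 156) (nat_lit 684) (nat_lit 0) (XT.nd (nat_lit 78) (nat_lit 380) (nat_lit 0) (XT.lf (nat_lit 0) (nat_lit 5845260517)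 (nat_lit 380) (nat_lit 4079230960) (nat_lit 76) (nat_lit 487479939) (nat_lit 109) (nat_lit 5) (nat_lit 114) (nat_lit 5) (nat_lit 110) (nat_lit 5) (nat_lit 463) (nat_lit 355) (nat_lit 322)) (XT.lf (nat_lit 0) (nat_lit 2870182844) (nat_lit 380) (nat_lit 6600907287) (nat_lit 456) (nat_lit 1055956710) (nat_lit 104) (nat_lit 5) (nat_lit 109) (nat_lit 5) (nat_lit 110) (nat_lit 5) (nat_lit 464) (nat_lit 355) (nat_lit 321))) (XT.nd (nat_lit 78) (nat_lit 608) (nat_lit 0) (XT.lf (nat_lit 0) (nat_lit 2473188671) (nat_lit 456) (nat_lit 717567493) (nat_lit 76) (nat_lit 7453729970) (nat_lit 103) (nat_lit 5) (nat_lit 109) (nat_lit 5) (nat_lit 104) (nat_lit 5) (nat_lit 465) (nat_lit 355) (nat_lit 320)) (XT.nd (nat_lit 78) (nat_lit 304) (nat_lit 0) (XT.lf (nat_lit 0) (nat_lit 6056806573) (nat_lit 380) (nat_lit 4398832280) (nat_lit 76) (nat_lit 308550949) (nat_lit 99) (nat_lit 5) (nat_lit 104) (nat_lit 5) (nat_lit 100) (nat_lit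 5) (nat_lit 466) (nat_lit 355) (nat_lit 319)) (XT.lf (nat_lit 0) (nat_lit 2657262080) (nat_lit 304) (nat_lit 7052992660) (nat_lit 380) (nat_lit 1176085102) (nat_lit 95) (nat_lit 5) (nat_lit 99) (nat_lit 5) (nat_lit 100) (nat_lit 5) (nat_lit 467) (nat_lit 355) (nat_lit 318))))))) (XT.nd (nat_lit 780) (nat_lit 1596) (nat_lit 0) (XT.nd (nat_lit 390) (nat_lit 988) (nat_lit 0) (XT.nd (nat_lit 156) (nat_lit 608) (nat_lit 0) (XT.nd (nat_lit 78) (nat_lit 304) (nat_lit 0) (XT.lf (nat_lit 0) (nat_lit 2378787189) (nat_lit 380) (nat_lit 1182237120) (nat_lit 76) (nat_lit 7449913158) (nat_lit 94) (nat_lit 5) (nat_lit 99) (nat_lit 5) (nat_lit 95) (nat_lit 5) (nat_lit 468) (nat_lit 355) (nat_lit 317)) (XT.lf (nat_lit 0) (nat_lit 5984117038) (nat_lit 380) (nat_lit 5130277353) (nat_lit 76) (nat_lit 23589582) (nat_lit 90) (nat_lit 5) (nat_lit 95) (nat_lit 5) (nat_lit 91) (nat_lit 5) (nat_lit 469) (nat_lit 355) (nat_lit 316)))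 (XT.nd (nat_lit 78) (nat_lit 304) (nat_lit 0) (XT.lf (nat_lit 0) (nat_lit 2024015077) (nat_lit 304) (nat_lit 7638441015) (nat_lit 380) (nat_lit 1605111545) (nat_lit 86) (nat_lit 5) (nat_lit 90) (nat_lit 5) (nat_lit 91) (nat_lit 5) (nat_lit 470) (nat_lit 355) (nat_lit 315)) (XT.nd (nat_lit 78) (nat_lit 228) (nat_lit 0) (XT.lf (nat_lit 0) (nat_lit 1979157175) (nat_lit 380) (nat_lit 2090524589) (nat_lit 76) (nat_lit 7329994125) (nat_lit 85) (nat_lit 5) (nat_lit 90) (nat_lit 5) (nat_lit 86) (nat_lit 5) (nat_lit 471) (nat_lit 355) (nat_lit 314)) (XT.lf (nat_lit 0) (nat_lit 5195329059) (nat_lit 228) (nat_lit 409203596) (nat_lit 304) (nat_lit 5929876634) (nat_lit 82) (nat_lit 5) (nat_lit 85) (nat_lit 5) (nat_lit 86) (nat_lit 5) (nat_lit 472) (nat_lit 355) (nat_lit 313))))) (XT.nd (nat_lit 156) (nat_lit 608) (nat_lit 0) (XT.nd (nat_lit 78) (nat_lit 76) (nat_lit 0) (XT.lf (nat_lit 0) (nat_lit 905886337) (nat_lit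 304) (nat_lit 8395520916) (nat_lit 380) (nat_lit 2370463464) (nat_lit 78) (nat_lit 5) (nat_lit 82) (nat_lit 5) (nat_lit 83) (nat_lit 5) (nat_lit 473) (nat_lit 355) (nat_lit 312)) (XT.lf (nat_lit 0) (nat_lit 1246649488) (nat_lit 380) (nat_lit 3508851277) (nat_lit 76) (nat_lit 7056368886) (nat_lit 77) (nat_lit 5) (nat_lit 82) (nat_lit 5) (nat_lit 78) (nat_lit 5) (nat_lit 474) (nat_lit 355) (nat_lit 311))) (XT.nd (nat_lit 78) (nat_lit 380) (nat_lit 0) (XT.lf (nat_lit 0) (nat_lit 3861579708) (nat_lit 228) (nat_lit 1026227486) (nat_lit 304) (nat_lit 7066891567) (nat_lit 74) (nat_lit 5) (nat_lit 77) (nat_lit 5) (nat_lit 78) (nat_lit 5) (nat_lit 475) (nat_lit 355) (nat_lit 310)) (XT.nd (nat_lit 78) (nat_lit 380) (nat_lit 0) (XT.lf (nat_lit 0) (nat_lit 8602089045) (nat_lit 304) (nat_lit 758148016) (nat_lit 76) (nat_lit 2740153559) (nat_lit 74) (nat_lit 5) (nat_lit 78) (nat_lit 5) (nat_lit 75) (nat_lit 5) (nat_lit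 476) (nat_lit 355) (nat_lit 309)) (XT.lf (nat_lit 0) (nat_lit 149786211) (nat_lit 380) (nat_lit 5510393189) (nat_lit 76) (nat_lit 6588610557) (nat_lit 69) (nat_lit 5) (nat_lit 74) (nat_lit 5) (nat_lit 70) (nat_lit 5) (nat_lit 477) (nat_lit 355) (nat_lit 308)))))) (XT.nd (nat_lit 390) (nat_lit 836) (nat_lit 0) (XT.nd (nat_lit 156) (nat_lit 532) (nat_lit 0) (XT.nd (nat_lit 78) (nat_lit 0) (nat_lit 0) (XT.lf (nat_lit 0) (nat_lit 1931392569) (nat_lit 228) (nat_lit 1869777477) (nat_lit 304) (nat_lit 8598992714) (nat_lit 66) (nat_lit 5) (nat_lit 69) (nat_lit 5) (nat_lit 70) (nat_lit 5) (nat_lit 478) (nat_lit 355) (nat_lit 307)) (XT.lf (nat_lit 0) (nat_lit 7535444063) (nat_lit 304) (nat_lit 3036369655) (nat_lit 76) (nat_lit 1982563310) (nat_lit 66) (nat_lit 5) (nat_lit 70) (nat_lit 5) (nat_lit 67) (nat_lit 5) (nat_lit 479) (nat_lit 355) (nat_lit 306))) (XT.nd (nat_lit 78) (nat_lit 304) (nat_lit 0) (XT.lf (nat_lit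 0) (nat_lit 4526914604) (nat_lit 228) (nat_lit 6819731770) (nat_lit 304) (nat_lit 1364995390) (nat_lit 63) (nat_lit 5) (nat_lit 66) (nat_lit 5) (nat_lit 67) (nat_lit 5) (nat_lit 480) (nat_lit 355) (nat_lit 305)) (XT.nd (nat_lit 78) (nat_lit 228) (nat_lit 0) (XT.lf (nat_lit 0) (nat_lit 2312108995) (nat_lit 304) (nat_lit 669353439) (nat_lit 76) (nat_lit 9890671926) (nat_lit 62) (nat_lit 5) (nat_lit 66) (nat_lit 5) (nat_lit 63) (nat_lit 5) (nat_lit 481) (nat_lit 355) (nat_lit 304)) (XT.lf (nat_lit 0) (nat_lit 6057636243) (nat_lit 304) (nat_lit 6026079521) (nat_lit 76) (nat_lit 951687833) (nat_lit 59) (nat_lit 5) (nat_lit 63) (nat_lit 5) (nat_lit 60) (nat_lit 5) (nat_lit 482) (nat_lit 355) (nat_lit 303))))) (XT.nd (nat_lit 234) (nat_lit 304) (nat_lit 0) (XT.nd (nat_lit 78) (nat_lit 304) (nat_lit 0) (XT.lf (nat_lit 0) (nat_lit 1586039774) (nat_lit 228) (nat_lit 8288114120) (nat_lit 304) (nat_lit 3327872926) (nat_lit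 56) (nat_lit 5) (nat_lit 59) (nat_lit 5) (nat_lit 60) (nat_lit 5) (nat_lit 483) (nat_lit 355) (nat_lit 302)) (XT.nd (nat_lit 78) (nat_lit 228) (nat_lit 0) (XT.lf (nat_lit 0) (nat_lit 392141309) (nat_lit 304) (nat_lit 4005807148) (nat_lit 76) (nat_lit 8973946504) (nat_lit 55) (nat_lit 5) (nat_lit 59) (nat_lit 5) (nat_lit 56) (nat_lit 5) (nat_lit 484) (nat_lit 355) (nat_lit 301)) (XT.lf (nat_lit 0) (nat_lit 3720700380) (nat_lit 228) (nat_lit 407843847) (nat_lit 304) (nat_lit 9416454930) (nat_lit 52) (nat_lit 5) (nat_lit 55) (nat_lit 5) (nat_lit 56) (nat_lit 5) (nat_lit 485) (nat_lit 355) (nat_lit 300)))) (XT.nd (nat_lit 78) (nat_lit 304) (nat_lit 0) (XT.lf (nat_lit 0) (nat_lit 7953033088) (nat_lit 304) (nat_lit 2151761239) (nat_lit 76) (nat_lit 3616513374) (nat_lit 52) (nat_lit 5) (nat_lit 56) (nat_lit 5) (nat_lit 53) (nat_lit 5) (nat_lit 486) (nat_lit 355) (nat_lit 299)) (XT.nd (nat_lit 78) (nat_lit 76) (nat_lit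 0) (XT.lf (nat_lit 0) (nat_lit 5684494271) (nat_lit 228) (nat_lit 6172383019) (nat_lit 304) (nat_lit 2044217052) (nat_lit 49) (nat_lit 5) (nat_lit 52) (nat_lit 5) (nat_lit 53) (nat_lit 5) (nat_lit 487) (nat_lit 355) (nat_lit 298)) (XT.lf (nat_lit 0) (nat_lit 1709178700) (nat_lit 304) (nat_lit 450707216) (nat_lit 76) (nat_lit 11924814567) (nat_lit 48) (nat_lit 5) (nat_lit 52) (nat_lit 5) (nat_lit 49) (nat_lit 5) (nat_lit 488) (nat_lit 355) (nat_lit 297))))))))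
noncomputable def xc38 : XT := (XT.nd (nat_lit 54756) (nat_lit 0) (nat_lit 10640) (XT.nd (nat_lit 780) (nat_lit 760) (nat_lit 0) (XT.nd (nat_lit 390) (nat_lit 684) (nat_lit 0) (XT.nd (nat_lit 156) (nat_lit 228) (nat_lit 0) (XT.nd (nat_lit 78) (nat_lit 228) (nat_lit 0) (XT.lf (nat_lit 0) (nat_lit 5535808446) (nat_lit 228) (nat_lit 6789470122) (nat_lit 76) (nat_lit 1945927873) (nat_lit 46) (nat_lit 5) (nat_lit 49) (nat_lit 5) (nat_lit 47) (nat_lit 5) (nat_lit 489) (nat_lit 355) (nat_lit 296)) (XT.lf (nat_lit 0) (nat_lit 1056456355) (nat_lit 228) (nat_lit 8370927538) (nat_lit 304) (nat_lit 5034298899) (nat_lit 43) (nat_lit 5) (nat_lit 46) (nat_lit 5) (nat_lit 47) (nat_lit 5) (nat_lit 490) (nat_lit 355) (nat_lit 295))) (XT.nd (nat_lit 78) (nat_lit 228) (nat_lit 0) (XT.lf (nat_lit 0) (nat_lit 9091101809) (nat_lit 228) (nat_lit 4315766239) (nat_lit 304) (nat_lit 1248907443) (nat_lit 43) (nat_lit 5) (nat_lit 46)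 (nat_lit 5) (nat_lit 47) (nat_lit 5) (nat_lit 491) (nat_lit 355) (nat_lit 294)) (XT.nd (nat_lit 78) (nat_lit 0) (nat_lit 0) (XT.lf (nat_lit 0) (nat_lit 2387517667) (nat_lit 152) (nat_lit 170889719) (nat_lit 228) (nat_lit 12295401999) (nat_lit 40) (nat_lit 5) (nat_lit 42) (nat_lit 5) (nat_lit 43) (nat_lit 5) (nat_lit 492) (nat_lit 355) (nat_lit 293)) (XT.lf (nat_lit 0) (nat_lit 6454208381) (nat_lit 228) (nat_lit 4575409209) (nat_lit 76) (nat_lit 4025447890) (nat_lit 40) (nat_lit 5) (nat_lit 43) (nat_lit 5) (nat_lit 41) (nat_lit 5) (nat_lit 493) (nat_lit 355) (nat_lit 292))))) (XT.nd (nat_lit 156) (nat_lit 456) (nat_lit 0) (XT.nd (nat_lit 78) (nat_lit 0) (nat_lit 0) (XT.lf (nat_lit 0) (nat_lit 3459017654) (nat_lit 228) (nat_lit 6958299595) (nat_lit 304) (nat_lit 4843249339) (nat_lit 37) (nat_lit 5) (nat_lit 40) (nat_lit 5) (nat_lit 41) (nat_lit 5) (nat_lit 494) (nat_lit 355) (nat_lit 291)) (XT.lf (nat_lit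 0) (nat_lit 11658031633) (nat_lit 228) (nat_lit 2798455147) (nat_lit 304) (nat_lit 1013762546) (nat_lit 37) (nat_lit 5) (nat_lit 40) (nat_lit 5) (nat_lit 41) (nat_lit 5) (nat_lit 495) (nat_lit 355) (nat_lit 290))) (XT.nd (nat_lit 78) (nat_lit 228) (nat_lit 0) (XT.lf (nat_lit 0) (nat_lit 2858477613) (nat_lit 228) (nat_lit 11376090822) (nat_lit 76) (nat_lit 1449107053) (nat_lit 34) (nat_lit 5) (nat_lit 37) (nat_lit 5) (nat_lit 35) (nat_lit 5) (nat_lit 496) (nat_lit 355) (nat_lit 289)) (XT.nd (nat_lit 78) (nat_lit 228) (nat_lit 0) (XT.lf (nat_lit 0) (nat_lit 6805548387) (nat_lit 228) (nat_lit 3342388336) (nat_lit 76) (nat_lit 5753087370) (nat_lit 34) (nat_lit 5) (nat_lit 37) (nat_lit 5) (nat_lit 35) (nat_lit 5) (nat_lit 497) (nat_lit 355) (nat_lit 288)) (XT.lf (nat_lit 0) (nat_lit 4859274736) (nat_lit 228) (nat_lit 5971152320) (nat_lit 304) (nat_lit 5292322285) (nat_lit 31) (nat_lit 5) (nat_lit 34) (nat_lit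 5) (nat_lit 35) (nat_lit 5) (nat_lit 498) (nat_lit 355) (nat_lit 287)))))) (XT.nd (nat_lit 390) (nat_lit 380) (nat_lit 0) (XT.nd (nat_lit 156) (nat_lit 152) (nat_lit 0) (XT.nd (nat_lit 78) (nat_lit 228) (nat_lit 0) (XT.lf (nat_lit 0) (nat_lit 13214205640) (nat_lit 228) (nat_lit 1711620475) (nat_lit 304) (nat_lit 1423289385) (nat_lit 31) (nat_lit 5) (nat_lit 34) (nat_lit 5) (nat_lit 35) (nat_lit 5) (nat_lit 499) (nat_lit 355) (nat_lit 286)) (XT.lf (nat_lit 0) (nat_lit 2508769036) (nat_lit 228) (nat_lit 11444923235) (nat_lit 76) (nat_lit 2625620950) (nat_lit 28) (nat_lit 5) (nat_lit 31) (nat_lit 5) (nat_lit 29) (nat_lit 5) (nat_lit 500) (nat_lit 355) (nat_lit 285))) (XT.nd (nat_lit 78) (nat_lit 152) (nat_lit 0) (XT.lf (nat_lit 0) (nat_lit 6501070488) (nat_lit 228) (nat_lit 3278553639) (nat_lit 76) (nat_lit 7034295885) (nat_lit 28) (nat_lit 5) (nat_lit 31) (nat_lit 5) (nat_lit 29) (nat_lit 5) (nat_lit 501)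 (nat_lit 355) (nat_lit 284)) (XT.nd (nat_lit 78) (nat_lit 0) (nat_lit 0) (XT.lf (nat_lit 0) (nat_lit 5063106181) (nat_lit 152) (nat_lit 5511740167) (nat_lit 228) (nat_lit 6478346361) (nat_lit 26) (nat_lit 5) (nat_lit 28) (nat_lit 5) (nat_lit 29) (nat_lit 5) (nat_lit 502) (nat_lit 355) (nat_lit 283)) (XT.lf (nat_lit 0) (nat_lit 13561958304) (nat_lit 152) (nat_lit 1159157082) (nat_lit 228) (nat_lit 2576321338) (nat_lit 26) (nat_lit 5) (nat_lit 28) (nat_lit 5) (nat_lit 29) (nat_lit 5) (nat_lit 503) (nat_lit 355) (nat_lit 282))))) (XT.nd (nat_lit 156) (nat_lit 152) (nat_lit 0) (XT.nd (nat_lit 78) (nat_lit 0) (nat_lit 0) (XT.lf (nat_lit 0) (nat_lit 1406569134) (nat_lit 228) (nat_lit 12884712345) (nat_lit 76) (nat_lit 3254683129) (nat_lit 23) (nat_lit 5) (nat_lit 26) (nat_lit 5) (nat_lit 24) (nat_lit 5) (nat_lit 504) (nat_lit 355) (nat_lit 281)) (XT.lf (nat_lit 0) (nat_lit 5437086735) (nat_lit 228) (nat_lit 4600860672)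 (nat_lit 76) (nat_lit 7761131584) (nat_lit 23) (nat_lit 5) (nat_lit 26) (nat_lit 5) (nat_lit 24) (nat_lit 5) (nat_lit 505) (nat_lit 355) (nat_lit 280))) (XT.nd (nat_lit 53274) (nat_lit 0) (nat_lit 20064) (XT.lf (nat_lit 0) (nat_lit 3846619450) (nat_lit 152) (nat_lit 5696692049) (nat_lit 228) (nat_lit 8514047969) (nat_lit 21) (nat_lit 5) (nat_lit 23) (nat_lit 5) (nat_lit 24) (nat_lit 5) (nat_lit 506) (nat_lit 355) (nat_lit 279)) (XT.nd (nat_lit 78) (nat_lit 836) (nat_lit 0) (XT.lf (nat_lit 0) (nat_lit 2588918401) (nat_lit 760) (nat_lit 610352123) (nat_lit 760) (nat_lit 610352123) (nat_lit 296) (nat_lit 4) (nat_lit 306) (nat_lit 5) (nat_lit 306) (nat_lit 4) (nat_lit 428) (nat_lit 356) (nat_lit 356)) (XT.lf (nat_lit 0) (nat_lit 2260167040) (nat_lit 836) (nat_lit 4530415420) (nat_lit 0) (nat_lit 880083454) (nat_lit 285) (nat_lit 5) (nat_lit 296) (nat_lit 4) (nat_lit 285) (nat_lit 4) (nat_lit 429) (nat_lit 356)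 (nat_lit 355))))))) (XT.nd (nat_lit 780) (nat_lit 4484) (nat_lit 0) (XT.nd (nat_lit 390) (nat_lit 2052) (nat_lit 0) (XT.nd (nat_lit 156) (nat_lit 2052) (nat_lit 0) (XT.nd (nat_lit 78) (nat_lit 76) (nat_lit 0) (XT.lf (nat_lit 0) (nat_lit 1066664181) (nat_lit 760) (nat_lit 4695044864) (nat_lit 760) (nat_lit 1961938155) (nat_lit 275) (nat_lit 4) (nat_lit 285) (nat_lit 5) (nat_lit 285) (nat_lit 4) (nat_lit 430) (nat_lit 356) (nat_lit 354)) (XT.lf (nat_lit 0) (nat_lit 1501991056) (nat_lit 836) (nat_lit 1025578032) (nat_lit 76) (nat_lit 5250621029) (nat_lit 274) (nat_lit 5) (nat_lit 285) (nat_lit 5) (nat_lit 275) (nat_lit 4) (nat_lit 431) (nat_lit 356) (nat_lit 353))) (XT.nd (nat_lit 78) (nat_lit 1368) (nat_lit 0) (XT.lf (nat_lit 0) (nat_lit 4693197533) (nat_lit 684) (nat_lit 283674291) (nat_lit 760) (nat_lit 2857373037) (nat_lit 265) (nat_lit 5) (nat_lit 274) (nat_lit 5) (nat_lit 275) (nat_lit 4) (nat_lit 432)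 (nat_lit 356) (nat_lit 352)) (XT.nd (nat_lit 78) (nat_lit 608) (nat_lit 0) (XT.lf (nat_lit 0) (nat_lit 596285439) (nat_lit 760) (nat_lit 5300471511) (nat_lit 76) (nat_lit 1995125321) (nat_lit 255) (nat_lit 5) (nat_lit 265) (nat_lit 5) (nat_lit 256) (nat_lit 4) (nat_lit 433) (nat_lit 356) (nat_lit 351)) (XT.lf (nat_lit 0) (nat_lit 440788929) (nat_lit 608) (nat_lit 3604375307) (nat_lit 684) (nat_lit 3905879244) (nat_lit 247) (nat_lit 5) (nat_lit 255) (nat_lit 5) (nat_lit 256) (nat_lit 4) (nat_lit 434) (nat_lit 356) (nat_lit 350))))) (XT.nd (nat_lit 156) (nat_lit 1292) (nat_lit 0) (XT.nd (nat_lit 78) (nat_lit 760) (nat_lit 0) (XT.lf (nat_lit 0) (nat_lit 6294320865) (nat_lit 608) (nat_lit 1243406613) (nat_lit 684) (nat_lit 474202515) (nat_lit 247) (nat_lit 5) (nat_lit 255) (nat_lit 5) (nat_lit 256) (nat_lit 4) (nat_lit 435) (nat_lit 356) (nat_lit 349)) (XT.lf (nat_lit 0) (nat_lit 2961060252) (nat_lit 760) (nat_lit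 3930204068) (nat_lit 76) (nat_lit 1182918970) (nat_lit 237) (nat_lit 5) (nat_lit 247) (nat_lit 5) (nat_lit 238) (nat_lit 4) (nat_lit 436) (nat_lit 356) (nat_lit 348))) (XT.nd (nat_lit 78) (nat_lit 684) (nat_lit 0) (XT.lf (nat_lit 0) (nat_lit 1948307966) (nat_lit 608) (nat_lit 4483376671) (nat_lit 684) (nat_lit 1706508337) (nat_lit 229) (nat_lit 5) (nat_lit 237) (nat_lit 5) (nat_lit 238) (nat_lit 4) (nat_lit 437) (nat_lit 356) (nat_lit 347)) (XT.nd (nat_lit 78) (nat_lit 608) (nat_lit 0) (XT.lf (nat_lit 0) (nat_lit 1712373652) (nat_lit 684) (nat_lit 291699701) (nat_lit 76) (nat_lit 6199866175) (nat_lit 228) (nat_lit 5) (nat_lit 237) (nat_lit 5) (nat_lit 229) (nat_lit 5) (nat_lit 438) (nat_lit 356) (nat_lit 346)) (XT.lf (nat_lit 0) (nat_lit 5159476580) (nat_lit 684) (nat_lit 2560045258) (nat_lit 76) (nat_lit 551631866) (nat_lit 220) (nat_lit 5) (nat_lit 229) (nat_lit 5) (nat_lit 221) (nat_lit 4) (nat_lit 439)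 (nat_lit 356) (nat_lit 345)))))) (XT.nd (nat_lit 390) (nat_lit 2128) (nat_lit 0) (XT.nd (nat_lit 156) (nat_lit 1140) (nat_lit 0) (XT.nd (nat_lit 78) (nat_lit 608) (nat_lit 0) (XT.lf (nat_lit 0) (nat_lit 311430931) (nat_lit 608) (nat_lit 4885774222) (nat_lit 76) (nat_lit 3142893802) (nat_lit 212) (nat_lit 5) (nat_lit 220) (nat_lit 5) (nat_lit 213) (nat_lit 5) (nat_lit 440) (nat_lit 356) (nat_lit 344)) (XT.lf (nat_lit 0) (nat_lit 1133559828) (nat_lit 608) (nat_lit 2595215887) (nat_lit 684) (nat_lit 4681917541) (nat_lit 204) (nat_lit 5) (nat_lit 212) (nat_lit 5) (nat_lit 213) (nat_lit 5) (nat_lit 441) (nat_lit 356) (nat_lit 343))) (XT.nd (nat_lit 78) (nat_lit 1140) (nat_lit 0) (XT.lf (nat_lit 0) (nat_lit 7191133691) (nat_lit 684) (nat_lit 1217887762) (nat_lit 76) (nat_lit 74174375) (nat_lit 204) (nat_lit 5) (nat_lit 213) (nat_lit 5) (nat_lit 205) (nat_lit 4) (nat_lit 442) (nat_lit 356) (nat_lit 342)) (XT.nd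 (nat_lit 78) (nat_lit 532) (nat_lit 0) (XT.lf (nat_lit 0) (nat_lit 2130750628) (nat_lit 608) (nat_lit 3634507652) (nat_lit 76) (nat_lit 2791766273) (nat_lit 196) (nat_lit 5) (nat_lit 204) (nat_lit 5) (nat_lit 197) (nat_lit 5) (nat_lit 443) (nat_lit 356) (nat_lit 341)) (XT.lf (nat_lit 0) (nat_lit 2520954341) (nat_lit 532) (nat_lit 3052993875) (nat_lit 608) (nat_lit 3058854237) (nat_lit 189) (nat_lit 5) (nat_lit 196) (nat_lit 5) (nat_lit 197) (nat_lit 5) (nat_lit 444) (nat_lit 356) (nat_lit 340))))) (XT.nd (nat_lit 234) (nat_lit 988) (nat_lit 0) (XT.nd (nat_lit 78) (nat_lit 532) (nat_lit 0) (XT.lf (nat_lit 0) (nat_lit 63570095) (nat_lit 532) (nat_lit 277217480) (nat_lit 608) (nat_lit 8369890356) (nat_lit 181) (nat_lit 5) (nat_lit 188) (nat_lit 5) (nat_lit 189) (nat_lit 5) (nat_lit 445) (nat_lit 356) (nat_lit 339)) (XT.nd (nat_lit 78) (nat_lit 532) (nat_lit 0) (XT.lf (nat_lit 0) (nat_lit 3770693891) (nat_lit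 608) (nat_lit 2455413086) (nat_lit 76) (nat_lit 2563561349) (nat_lit 181) (nat_lit 5) (nat_lit 189) (nat_lit 5) (nat_lit 182) (nat_lit 5) (nat_lit 446) (nat_lit 356) (nat_lit 338)) (XT.lf (nat_lit 0) (nat_lit 3835688220) (nat_lit 532) (nat_lit 3406645274) (nat_lit 608) (nat_lit 1628468198) (nat_lit 174) (nat_lit 5) (nat_lit 181) (nat_lit 5) (nat_lit 182) (nat_lit 5) (nat_lit 447) (nat_lit 356) (nat_lit 337)))) (XT.nd (nat_lit 78) (nat_lit 456) (nat_lit 0) (XT.lf (nat_lit 0) (nat_lit 1264104255) (nat_lit 456) (nat_lit 513138921) (nat_lit 532) (nat_lit 7176673923) (nat_lit 167) (nat_lit 5) (nat_lit 173) (nat_lit 5) (nat_lit 174) (nat_lit 5) (nat_lit 448) (nat_lit 356) (nat_lit 336)) (XT.nd (nat_lit 78) (nat_lit 456) (nat_lit 0) (XT.lf (nat_lit 0) (nat_lit 5226173187) (nat_lit 532) (nat_lit 1380922279) (nat_lit 76) (nat_lit 2431470245) (nat_lit 167) (nat_lit 5) (nat_lit 174) (nat_lit 5) (nat_lit 168) (nat_lit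 5) (nat_lit 449) (nat_lit 356) (nat_lit 335)) (XT.lf (nat_lit 0) (nat_lit 5044731089) (nat_lit 456) (nat_lit 3683587560) (nat_lit 532) (nat_lit 396927807) (nat_lit 161) (nat_lit 5) (nat_lit 167) (nat_lit 5) (nat_lit 168) (nat_lit 5) (nat_lit 450) (nat_lit 356) (nat_lit 334))))))))
noncomputable def xc39 : XT := (XT.nd (nat_lit 1560) (nat_lit 3572) (nat_lit 0) (XT.nd (nat_lit 780) (nat_lit 2204) (nat_lit 0) (XT.nd (nat_lit 390) (nat_lit 1292) (nat_lit 0) (XT.nd (nat_lit 156) (nat_lit 1368) (nat_lit 0) (XT.nd (nat_lit 78) (nat_lit 0) (nat_lit 0) (XT.lf (nat_lit 0) (nat_lit 2342343026) (nat_lit 456) (nat_lit 676828722) (nat_lit 532) (nat_lit 6194654996) (nat_lit 154) (nat_lit 5) (nat_lit 160) (nat_lit 5) (nat_lit 161) (nat_lit 5) (nat_lit 451) (nat_lit 356) (nat_lit 333)) (XT.lf (nat_lit 0) (nat_lit 6490051376) (nat_lit 532) (nat_lit 445837539) (nat_lit 76) (nat_lit 2368424308) (nat_lit 154) (nat_lit 5) (nat_lit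 161) (nat_lit 5) (nat_lit 155) (nat_lit 5) (nat_lit 452) (nat_lit 356) (nat_lit 332))) (XT.nd (nat_lit 78) (nat_lit 836) (nat_lit 0) (XT.lf (nat_lit 0) (nat_lit 619226882) (nat_lit 532) (nat_lit 3288242501) (nat_lit 76) (nat_lit 5489203412) (nat_lit 147) (nat_lit 5) (nat_lit 154) (nat_lit 5) (nat_lit 148) (nat_lit 5) (nat_lit 453) (nat_lit 356) (nat_lit 331)) (XT.nd (nat_lit 78) (nat_lit 456) (nat_lit 0) (XT.lf (nat_lit 0) (nat_lit 3261486011) (nat_lit 380) (nat_lit 796306189) (nat_lit 456) (nat_lit 5433254735) (nat_lit 142) (nat_lit 5) (nat_lit 147) (nat_lit 5) (nat_lit 148) (nat_lit 5) (nat_lit 454) (nat_lit 356) (nat_lit 330)) (XT.lf (nat_lit 0) (nat_lit 316444719) (nat_lit 456) (nat_lit 7238632410) (nat_lit 532) (nat_lit 2032453268) (nat_lit 136) (nat_lit 5) (nat_lit 142) (nat_lit 5) (nat_lit 143) (nat_lit 5) (nat_lit 455) (nat_lit 356) (nat_lit 329))))) (XT.nd (nat_lit 156) (nat_lit 836) (nat_lit 0)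 (XT.nd (nat_lit 78) (nat_lit 380) (nat_lit 0) (XT.lf (nat_lit 0) (nat_lit 1415292905) (nat_lit 532) (nat_lit 2694415535) (nat_lit 76) (nat_lit 5576113228) (nat_lit 135) (nat_lit 5) (nat_lit 142) (nat_lit 5) (nat_lit 136) (nat_lit 5) (nat_lit 456) (nat_lit 356) (nat_lit 328)) (XT.lf (nat_lit 0) (nat_lit 3981719939) (nat_lit 380) (nat_lit 900322042) (nat_lit 456) (nat_lit 4904242447) (nat_lit 130) (nat_lit 5) (nat_lit 135) (nat_lit 5) (nat_lit 136) (nat_lit 5) (nat_lit 457) (nat_lit 356) (nat_lit 327))) (XT.nd (nat_lit 78) (nat_lit 456) (nat_lit 0) (XT.lf (nat_lit 0) (nat_lit 864111045) (nat_lit 380) (nat_lit 7544971874) (nat_lit 456) (nat_lit 1479873605) (nat_lit 125) (nat_lit 5) (nat_lit 130) (nat_lit 5) (nat_lit 131) (nat_lit 5) (nat_lit 458) (nat_lit 356) (nat_lit 326)) (XT.nd (nat_lit 78) (nat_lit 380) (nat_lit 0) (XT.lf (nat_lit 0) (nat_lit 1983643209) (nat_lit 456) (nat_lit 2338740197) (nat_lit 76)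 (nat_lit 5671114509) (nat_lit 124) (nat_lit 5) (nat_lit 130) (nat_lit 5) (nat_lit 125) (nat_lit 5) (nat_lit 459) (nat_lit 356) (nat_lit 325)) (XT.lf (nat_lit 0) (nat_lit 4459787731) (nat_lit 380) (nat_lit 1018634080) (nat_lit 456) (nat_lit 4621894657) (nat_lit 119) (nat_lit 5) (nat_lit 124) (nat_lit 5) (nat_lit 125) (nat_lit 5) (nat_lit 460) (nat_lit 356) (nat_lit 324)))))) (XT.nd (nat_lit 390) (nat_lit 988) (nat_lit 0) (XT.nd (nat_lit 156) (nat_lit 760) (nat_lit 0) (XT.nd (nat_lit 78) (nat_lit 76) (nat_lit 0) (XT.lf (nat_lit 0) (nat_lit 1146363489) (nat_lit 380) (nat_lit 7888396741) (nat_lit 456) (nat_lit 1174695630) (nat_lit 114) (nat_lit 5) (nat_lit 119) (nat_lit 5) (nat_lit 120) (nat_lit 5) (nat_lit 461) (nat_lit 356) (nat_lit 323)) (XT.lf (nat_lit 0) (nat_lit 2308884592) (nat_lit 456) (nat_lit 2267275224) (nat_lit 76) (nat_lit 5744368332) (nat_lit 113) (nat_lit 5) (nat_lit 119) (nat_lit 5) (nat_lit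 114) (nat_lit 5) (nat_lit 462) (nat_lit 356) (nat_lit 322))) (XT.nd (nat_lit 78) (nat_lit 456) (nat_lit 0) (XT.lf (nat_lit 0) (nat_lit 4648519708) (nat_lit 304) (nat_lit 1182297448) (nat_lit 380) (nat_lit 4603177964) (nat_lit 109) (nat_lit 5) (nat_lit 113) (nat_lit 5) (nat_lit 114) (nat_lit 5) (nat_lit 463) (nat_lit 356) (nat_lit 321)) (XT.nd (nat_lit 78) (nat_lit 76) (nat_lit 0) (XT.lf (nat_lit 0) (nat_lit 1114207448) (nat_lit 380) (nat_lit 8300844449) (nat_lit 456) (nat_lit 1134858666) (nat_lit 104) (nat_lit 5) (nat_lit 109) (nat_lit 5) (nat_lit 110) (nat_lit 5) (nat_lit 464) (nat_lit 356) (nat_lit 320)) (XT.lf (nat_lit 0) (nat_lit 2372868136) (nat_lit 456) (nat_lit 2530351631) (nat_lit 76) (nat_lit 5764597206) (nat_lit 103) (nat_lit 5) (nat_lit 109) (nat_lit 5) (nat_lit 104) (nat_lit 5) (nat_lit 465) (nat_lit 356) (nat_lit 319))))) (XT.nd (nat_lit 156) (nat_lit 380) (nat_lit 0) (XT.nd (nat_lit 78) (nat_lit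 304) (nat_lit 0) (XT.lf (nat_lit 0) (nat_lit 4496322366) (nat_lit 304) (nat_lit 1423972143) (nat_lit 380) (nat_lit 4867957615) (nat_lit 99) (nat_lit 5) (nat_lit 103) (nat_lit 5) (nat_lit 104) (nat_lit 5) (nat_lit 466) (nat_lit 356) (nat_lit 318)) (XT.lf (nat_lit 0) (nat_lit 713997147) (nat_lit 304) (nat_lit 8816007452) (nat_lit 380) (nat_lit 1381279830) (nat_lit 95) (nat_lit 5) (nat_lit 99) (nat_lit 5) (nat_lit 100) (nat_lit 5) (nat_lit 467) (nat_lit 356) (nat_lit 317))) (XT.nd (nat_lit 78) (nat_lit 304) (nat_lit 0) (XT.lf (nat_lit 0) (nat_lit 2154467256) (nat_lit 380) (nat_lit 3183114875) (nat_lit 76) (nat_lit 5698770105) (nat_lit 94) (nat_lit 5) (nat_lit 99) (nat_lit 5) (nat_lit 95) (nat_lit 5) (nat_lit 468) (nat_lit 356) (nat_lit 316)) (XT.nd (nat_lit 78) (nat_lit 0) (nat_lit 0) (XT.lf (nat_lit 0) (nat_lit 3946619745) (nat_lit 304) (nat_lit 1778250596) (nat_lit 380) (nat_lit 5439234006) (nat_lit 90) (nat_lit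 5) (nat_lit 94) (nat_lit 5) (nat_lit 95) (nat_lit 5) (nat_lit 469) (nat_lit 356) (nat_lit 315)) (XT.lf (nat_lit 0) (nat_lit 9357260890) (nat_lit 380) (nat_lit 111659584) (nat_lit 76) (nat_lit 1825693438) (nat_lit 90) (nat_lit 5) (nat_lit 95) (nat_lit 5) (nat_lit 91) (nat_lit 5) (nat_lit 470) (nat_lit 356) (nat_lit 314))))))) (XT.nd (nat_lit 780) (nat_lit 1520) (nat_lit 0) (XT.nd (nat_lit 390) (nat_lit 836) (nat_lit 0) (XT.nd (nat_lit 156) (nat_lit 608) (nat_lit 0) (XT.nd (nat_lit 78) (nat_lit 228) (nat_lit 0) (XT.lf (nat_lit 0) (nat_lit 1629326814) (nat_lit 380) (nat_lit 4286118097) (nat_lit 76) (nat_lit 5511765982) (nat_lit 85) (nat_lit 5) (nat_lit 90) (nat_lit 5) (nat_lit 86) (nat_lit 5) (nat_lit 471) (nat_lit 356) (nat_lit 313)) (XT.lf (nat_lit 0) (nat_lit 2937241921) (nat_lit 228) (nat_lit 2282008369) (nat_lit 304) (nat_lit 6343409574) (nat_lit 82) (nat_lit 5) (nat_lit 85) (nat_lit 5) (nat_lit 86) (nat_lit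 5) (nat_lit 472) (nat_lit 356) (nat_lit 312))) (XT.nd (nat_lit 78) (nat_lit 608) (nat_lit 0) (XT.lf (nat_lit 0) (nat_lit 8877410036) (nat_lit 304) (nat_lit 1413174819) (nat_lit 76) (nat_lit 1410317136) (nat_lit 82) (nat_lit 5) (nat_lit 86) (nat_lit 5) (nat_lit 83) (nat_lit 5) (nat_lit 473) (nat_lit 356) (nat_lit 311)) (XT.nd (nat_lit 78) (nat_lit 228) (nat_lit 0) (XT.lf (nat_lit 0) (nat_lit 769580700) (nat_lit 380) (nat_lit 5905972247) (nat_lit 76) (nat_lit 5166012597) (nat_lit 77) (nat_lit 5) (nat_lit 82) (nat_lit 5) (nat_lit 78) (nat_lit 5) (nat_lit 474) (nat_lit 356) (nat_lit 310)) (XT.lf (nat_lit 0) (nat_lit 1399754619) (nat_lit 228) (nat_lit 2974781286) (nat_lit 304) (nat_lit 7610588832) (nat_lit 74) (nat_lit 5) (nat_lit 77) (nat_lit 5) (nat_lit 78) (nat_lit 5) (nat_lit 475) (nat_lit 356) (nat_lit 309))))) (XT.nd (nat_lit 156) (nat_lit 532) (nat_lit 0) (XT.nd (nat_lit 78) (nat_lit 304) (nat_lit 0) (XT.lf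 (nat_lit 0) (nat_lit 8056056082) (nat_lit 304) (nat_lit 3270278860) (nat_lit 76) (nat_lit 805142803) (nat_lit 74) (nat_lit 5) (nat_lit 78) (nat_lit 5) (nat_lit 75) (nat_lit 5) (nat_lit 476) (nat_lit 356) (nat_lit 308)) (XT.lf (nat_lit 0) (nat_lit 4161569109) (nat_lit 304) (nat_lit 7656531336) (nat_lit 380) (nat_lit 462531206) (nat_lit 70) (nat_lit 5) (nat_lit 74) (nat_lit 5) (nat_lit 75) (nat_lit 5) (nat_lit 477) (nat_lit 356) (nat_lit 307))) (XT.nd (nat_lit 78) (nat_lit 456) (nat_lit 0) (XT.lf (nat_lit 0) (nat_lit 3162708773) (nat_lit 380) (nat_lit 731554660) (nat_lit 76) (nat_lit 8538450857) (nat_lit 69) (nat_lit 5) (nat_lit 74) (nat_lit 5) (nat_lit 70) (nat_lit 5) (nat_lit 478) (nat_lit 356) (nat_lit 306)) (XT.nd (nat_lit 78) (nat_lit 228) (nat_lit 0) (XT.lf (nat_lit 0) (nat_lit 6826902035) (nat_lit 228) (nat_lit 32734173) (nat_lit 304) (nat_lit 5728044746) (nat_lit 66) (nat_lit 5) (nat_lit 69) (nat_lit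 5) (nat_lit 70) (nat_lit 5) (nat_lit 479) (nat_lit 356) (nat_lit 305)) (XT.lf (nat_lit 0) (nat_lit 1734669706) (nat_lit 228) (nat_lit 8898640827) (nat_lit 304) (nat_lit 2112391074) (nat_lit 63) (nat_lit 5) (nat_lit 66) (nat_lit 5) (nat_lit 67) (nat_lit 5) (nat_lit 480) (nat_lit 356) (nat_lit 304)))))) (XT.nd (nat_lit 390) (nat_lit 684) (nat_lit 0) (XT.nd (nat_lit 156) (nat_lit 532) (nat_lit 0) (XT.nd (nat_lit 78) (nat_lit 228) (nat_lit 0) (XT.lf (nat_lit 0) (nat_lit 1555371593) (nat_lit 304) (nat_lit 3522285766) (nat_lit 76) (nat_lit 7829021925) (nat_lit 62) (nat_lit 5) (nat_lit 66) (nat_lit 5) (nat_lit 63) (nat_lit 5) (nat_lit 481) (nat_lit 356) (nat_lit 303)) (XT.lf (nat_lit 0) (nat_lit 4093591040) (nat_lit 228) (nat_lit 1163305785) (nat_lit 304) (nat_lit 7813936785) (nat_lit 59) (nat_lit 5) (nat_lit 62) (nat_lit 5) (nat_lit 63) (nat_lit 5) (nat_lit 482) (nat_lit 356) (nat_lit 302))) (XT.nd (nat_lit 78)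 (nat_lit 532) (nat_lit 0) (XT.lf (nat_lit 0) (nat_lit 9036885970) (nat_lit 304) (nat_lit 1409330028) (nat_lit 76) (nat_lit 2791976354) (nat_lit 59) (nat_lit 5) (nat_lit 63) (nat_lit 5) (nat_lit 60) (nat_lit 5) (nat_lit 483) (nat_lit 356) (nat_lit 301)) (XT.nd (nat_lit 78) (nat_lit 304) (nat_lit 0) (XT.lf (nat_lit 0) (nat_lit 6323865396) (nat_lit 228) (nat_lit 6580382614) (nat_lit 304) (nat_lit 504424598) (nat_lit 56) (nat_lit 5) (nat_lit 59) (nat_lit 5) (nat_lit 60) (nat_lit 5) (nat_lit 484) (nat_lit 356) (nat_lit 300)) (XT.lf (nat_lit 0) (nat_lit 573297311) (nat_lit 228) (nat_lit 2626588306) (nat_lit 304) (nat_lit 10382735520) (nat_lit 52) (nat_lit 5) (nat_lit 55) (nat_lit 5) (nat_lit 56) (nat_lit 5) (nat_lit 485) (nat_lit 356) (nat_lit 299))))) (XT.nd (nat_lit 234) (nat_lit 380) (nat_lit 0) (XT.nd (nat_lit 78) (nat_lit 304) (nat_lit 0) (XT.lf (nat_lit 0) (nat_lit 6991779365) (nat_lit 304) (nat_lit 5352868345)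 (nat_lit 76) (nat_lit 1414938445) (nat_lit 52) (nat_lit 5) (nat_lit 56) (nat_lit 5) (nat_lit 53) (nat_lit 5) (nat_lit 486) (nat_lit 356) (nat_lit 298)) (XT.nd (nat_lit 78) (nat_lit 76) (nat_lit 0) (XT.lf (nat_lit 0) (nat_lit 2410559094) (nat_lit 228) (nat_lit 8445975021) (nat_lit 304) (nat_lit 3083624953) (nat_lit 49) (nat_lit 5) (nat_lit 52) (nat_lit 5) (nat_lit 53) (nat_lit 5) (nat_lit 487) (nat_lit 356) (nat_lit 297)) (XT.lf (nat_lit 0) (nat_lit 665605406) (nat_lit 304) (nat_lit 3786892600) (nat_lit 76) (nat_lit 9671762431) (nat_lit 48) (nat_lit 5) (nat_lit 52) (nat_lit 5) (nat_lit 49) (nat_lit 5) (nat_lit 488) (nat_lit 356) (nat_lit 296)))) (XT.nd (nat_lit 78) (nat_lit 228) (nat_lit 0) (XT.lf (nat_lit 0) (nat_lit 4084535917) (nat_lit 152) (nat_lit 355306972) (nat_lit 228) (nat_lit 9871975577) (nat_lit 46) (nat_lit 5) (nat_lit 48) (nat_lit 5) (nat_lit 49) (nat_lit 5) (nat_lit 489) (nat_lit 356) (nat_lit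 295)) (XT.nd (nat_lit 78) (nat_lit 228) (nat_lit 0) (XT.lf (nat_lit 0) (nat_lit 8304879634) (nat_lit 228) (nat_lit 2422331850) (nat_lit 76) (nat_lit 3775618247) (nat_lit 46) (nat_lit 5) (nat_lit 49) (nat_lit 5) (nat_lit 47) (nat_lit 5) (nat_lit 490) (nat_lit 356) (nat_lit 294)) (XT.lf (nat_lit 0) (nat_lit 5550888632) (nat_lit 228) (nat_lit 6700317000) (nat_lit 304) (nat_lit 2446384021) (nat_lit 43) (nat_lit 5) (nat_lit 46) (nat_lit 5) (nat_lit 47) (nat_lit 5) (nat_lit 491) (nat_lit 356) (nat_lit 293))))))))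
noncomputable def xc40 : XT := (XT.nd (nat_lit 54600) (nat_lit 0) (nat_lit 9956) (XT.nd (nat_lit 780) (nat_lit 380) (nat_lit 0) (XT.nd (nat_lit 390) (nat_lit 456) (nat_lit 0) (XT.nd (nat_lit 156) (nat_lit 456) (nat_lit 0) (XT.nd (nat_lit 78) (nat_lit 152) (nat_lit 0) (XT.lf (nat_lit 0) (nat_lit 1344134756) (nat_lit 304) (nat_lit 1246937653) (nat_lit 76) (nat_lit 12305360560) (nat_lit 42) (nat_lit 5) (nat_lit 46) (nat_lit 5) (nat_lit 43) (nat_lit 5) (nat_lit 492) (nat_lit 356) (nat_lit 292)) (XT.lf (nat_lit 0) (nat_lit 5199034701) (nat_lit 228) (nat_lit 8282419539) (nat_lit 76) (nat_lit 1617056672) (nat_lit 40) (nat_lit 5) (nat_lit 43) (nat_lit 5) (nat_lit 41) (nat_lit 5) (nat_lit 493) (nat_lit 356) (nat_lit 291))) (XT.nd (nat_lit 78) (nat_lit 456) (nat_lit 0) (XT.lf (nat_lit 0) (nat_lit 9123087535) (nat_lit 228) (nat_lit 321754360) (nat_lit 76) (nat_lit 5859954997) (nat_lit 40) (nat_lit 5) (nat_lit 43) (nat_lit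 5) (nat_lit 41) (nat_lit 5) (nat_lit 494) (nat_lit 356) (nat_lit 290)) (XT.nd (nat_lit 78) (nat_lit 228) (nat_lit 0) (XT.lf (nat_lit 0) (nat_lit 7844774441) (nat_lit 228) (nat_lit 5298910315) (nat_lit 304) (nat_lit 2371169997) (nat_lit 37) (nat_lit 5) (nat_lit 40) (nat_lit 5) (nat_lit 41) (nat_lit 5) (nat_lit 495) (nat_lit 356) (nat_lit 289)) (XT.lf (nat_lit 0) (nat_lit 388861709) (nat_lit 152) (nat_lit 1078728166) (nat_lit 228) (nat_lit 14261896498) (nat_lit 34) (nat_lit 5) (nat_lit 36) (nat_lit 5) (nat_lit 37) (nat_lit 5) (nat_lit 496) (nat_lit 356) (nat_lit 288))))) (XT.nd (nat_lit 156) (nat_lit 228) (nat_lit 0) (XT.nd (nat_lit 78) (nat_lit 228) (nat_lit 0) (XT.lf (nat_lit 0) (nat_lit 5391477052) (nat_lit 228) (nat_lit 7327860798) (nat_lit 76) (nat_lit 3227964267) (nat_lit 34) (nat_lit 5) (nat_lit 37) (nat_lit 5) (nat_lit 35) (nat_lit 5) (nat_lit 497) (nat_lit 356) (nat_lit 287)) (XT.lf (nat_lit 0) (nat_lit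 793078837) (nat_lit 228) (nat_lit 8581013913) (nat_lit 304) (nat_lit 6795783270) (nat_lit 31) (nat_lit 5) (nat_lit 34) (nat_lit 5) (nat_lit 35) (nat_lit 5) (nat_lit 498) (nat_lit 356) (nat_lit 286))) (XT.nd (nat_lit 78) (nat_lit 228) (nat_lit 0) (XT.lf (nat_lit 0) (nat_lit 9120795422) (nat_lit 228) (nat_lit 4332968196) (nat_lit 304) (nat_lit 2942796457) (nat_lit 31) (nat_lit 5) (nat_lit 34) (nat_lit 5) (nat_lit 35) (nat_lit 5) (nat_lit 499) (nat_lit 356) (nat_lit 285)) (XT.nd (nat_lit 78) (nat_lit 0) (nat_lit 0) (XT.lf (nat_lit 0) (nat_lit 938873884) (nat_lit 152) (nat_lit 10163259) (nat_lit 228) (nat_lit 15679124235) (nat_lit 28) (nat_lit 5) (nat_lit 30) (nat_lit 5) (nat_lit 31) (nat_lit 5) (nat_lit 500) (nat_lit 356) (nat_lit 284)) (XT.lf (nat_lit 0) (nat_lit 4925804954) (nat_lit 228) (nat_lit 7549802761) (nat_lit 76) (nat_lit 4387474265) (nat_lit 28) (nat_lit 5) (nat_lit 31) (nat_lit 5) (nat_lit 29) (nat_lit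 5) (nat_lit 501) (nat_lit 356) (nat_lit 283)))))) (XT.nd (nat_lit 53430) (nat_lit 0) (nat_lit 19152) (XT.nd (nat_lit 156) (nat_lit 228) (nat_lit 0) (XT.nd (nat_lit 78) (nat_lit 0) (nat_lit 0) (XT.lf (nat_lit 0) (nat_lit 708320866) (nat_lit 152) (nat_lit 8247821427) (nat_lit 228) (nat_lit 8147084233) (nat_lit 26) (nat_lit 5) (nat_lit 28) (nat_lit 5) (nat_lit 29) (nat_lit 5) (nat_lit 502) (nat_lit 356) (nat_lit 282)) (XT.lf (nat_lit 0) (nat_lit 9180924418) (nat_lit 152) (nat_lit 3906449462) (nat_lit 228) (nat_lit 4260400427) (nat_lit 26) (nat_lit 5) (nat_lit 28) (nat_lit 5) (nat_lit 29) (nat_lit 5) (nat_lit 503) (nat_lit 356) (nat_lit 281))) (XT.nd (nat_lit 78) (nat_lit 76) (nat_lit 0) (XT.lf (nat_lit 0) (nat_lit 172197974) (nat_lit 152) (nat_lit 17103613494) (nat_lit 228) (nat_lit 321915922) (nat_lit 24) (nat_lit 5) (nat_lit 26) (nat_lit 5) (nat_lit 27) (nat_lit 4) (nat_lit 504) (nat_lit 356) (nat_lit 280))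 (XT.nd (nat_lit 78) (nat_lit 0) (nat_lit 0) (XT.lf (nat_lit 0) (nat_lit 3698032577) (nat_lit 228) (nat_lit 9165576607) (nat_lit 76) (nat_lit 4987573055) (nat_lit 23) (nat_lit 5) (nat_lit 26) (nat_lit 5) (nat_lit 24) (nat_lit 5) (nat_lit 505) (nat_lit 356) (nat_lit 279)) (XT.lf (nat_lit 0) (nat_lit 7764781471) (nat_lit 228) (nat_lit 794024959) (nat_lit 76) (nat_lit 9551448592) (nat_lit 23) (nat_lit 5) (nat_lit 26) (nat_lit 5) (nat_lit 24) (nat_lit 5) (nat_lit 506) (nat_lit 356) (nat_lit 278))))) (XT.nd (nat_lit 156) (nat_lit 2356) (nat_lit 0) (XT.nd (nat_lit 78) (nat_lit 0) (nat_lit 0) (XT.lf (nat_lit 0) (nat_lit 424661458) (nat_lit 836) (nat_lit 2910825655) (nat_lit 0) (nat_lit 424661458) (nat_lit 306) (nat_lit 5) (nat_lit 317) (nat_lit 4) (nat_lit 306) (nat_lit 4) (nat_lit 426) (nat_lit 357) (nat_lit 357)) (XT.lf (nat_lit 0) (nat_lit 4306604054) (nat_lit 836) (nat_lit 391914771) (nat_lit 0) (nat_lit 2870765091)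 (nat_lit 306) (nat_lit 5) (nat_lit 317) (nat_lit 4) (nat_lit 306) (nat_lit 4) (nat_lit 427) (nat_lit 357) (nat_lit 356))) (XT.nd (nat_lit 78) (nat_lit 1520) (nat_lit 0) (XT.lf (nat_lit 0) (nat_lit 180209591) (nat_lit 836) (nat_lit 2479500845) (nat_lit 76) (nat_lit 4960170005) (nat_lit 295) (nat_lit 5) (nat_lit 306) (nat_lit 5) (nat_lit 296) (nat_lit 4) (nat_lit 428) (nat_lit 357) (nat_lit 355)) (XT.nd (nat_lit 78) (nat_lit 760) (nat_lit 0) (XT.lf (nat_lit 0) (nat_lit 3063072657) (nat_lit 760) (nat_lit 544194898) (nat_lit 836) (nat_lit 4064651657) (nat_lit 285) (nat_lit 5) (nat_lit 295) (nat_lit 5) (nat_lit 296) (nat_lit 4) (nat_lit 429) (nat_lit 357) (nat_lit 354)) (XT.lf (nat_lit 0) (nat_lit 953936752) (nat_lit 760) (nat_lit 6119488425) (nat_lit 760) (nat_lit 652203200) (nat_lit 275) (nat_lit 4) (nat_lit 285) (nat_lit 5) (nat_lit 285) (nat_lit 4) (nat_lit 430) (nat_lit 357) (nat_lit 353))))))) (XT.nd (nat_lit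 780) (nat_lit 4408) (nat_lit 0) (XT.nd (nat_lit 390) (nat_lit 2584) (nat_lit 0) (XT.nd (nat_lit 156) (nat_lit 1444) (nat_lit 0) (XT.nd (nat_lit 78) (nat_lit 684) (nat_lit 0) (XT.lf (nat_lit 0) (nat_lit 2763581975) (nat_lit 836) (nat_lit 1185333219) (nat_lit 76) (nat_lit 3831724767) (nat_lit 274) (nat_lit 5) (nat_lit 285) (nat_lit 5) (nat_lit 275) (nat_lit 4) (nat_lit 431) (nat_lit 357) (nat_lit 352)) (XT.lf (nat_lit 0) (nat_lit 4495016784) (nat_lit 684) (nat_lit 1711799801) (nat_lit 760) (nat_lit 1630530071) (nat_lit 265) (nat_lit 5) (nat_lit 274) (nat_lit 5) (nat_lit 275) (nat_lit 4) (nat_lit 432) (nat_lit 357) (nat_lit 351))) (XT.nd (nat_lit 78) (nat_lit 684) (nat_lit 0) (XT.lf (nat_lit 0) (nat_lit 1765944392) (nat_lit 760) (nat_lit 5543318741) (nat_lit 76) (nat_lit 586401787) (nat_lit 255) (nat_lit 5) (nat_lit 265) (nat_lit 5) (nat_lit 256) (nat_lit 4) (nat_lit 433) (nat_lit 357) (nat_lit 350)) (XT.nd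 (nat_lit 78) (nat_lit 76) (nat_lit 0) (XT.lf (nat_lit 0) (nat_lit 157881219) (nat_lit 608) (nat_lit 5025214546) (nat_lit 684) (nat_lit 2772382842) (nat_lit 247) (nat_lit 5) (nat_lit 255) (nat_lit 5) (nat_lit 256) (nat_lit 4) (nat_lit 434) (nat_lit 357) (nat_lit 349)) (XT.lf (nat_lit 0) (nat_lit 620895192) (nat_lit 684) (nat_lit 2045756110) (nat_lit 76) (nat_lit 5350240479) (nat_lit 246) (nat_lit 5) (nat_lit 255) (nat_lit 5) (nat_lit 247) (nat_lit 5) (nat_lit 435) (nat_lit 357) (nat_lit 348))))) (XT.nd (nat_lit 156) (nat_lit 1292) (nat_lit 0) (XT.nd (nat_lit 78) (nat_lit 608) (nat_lit 0) (XT.lf (nat_lit 0) (nat_lit 3780006312) (nat_lit 684) (nat_lit 230566778) (nat_lit 760) (nat_lit 4069314619) (nat_lit 237) (nat_lit 5) (nat_lit 246) (nat_lit 5) (nat_lit 247) (nat_lit 5) (nat_lit 436) (nat_lit 357) (nat_lit 347)) (XT.lf (nat_lit 0) (nat_lit 1538633500) (nat_lit 608) (nat_lit 5909535729) (nat_lit 684) (nat_lit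 696405293) (nat_lit 229) (nat_lit 5) (nat_lit 237) (nat_lit 5) (nat_lit 238) (nat_lit 4) (nat_lit 437) (nat_lit 357) (nat_lit 346))) (XT.nd (nat_lit 78) (nat_lit 1216) (nat_lit 0) (XT.lf (nat_lit 0) (nat_lit 2680485740) (nat_lit 684) (nat_lit 750595414) (nat_lit 76) (nat_lit 4779699543) (nat_lit 228) (nat_lit 5) (nat_lit 237) (nat_lit 5) (nat_lit 229) (nat_lit 5) (nat_lit 438) (nat_lit 357) (nat_lit 345)) (XT.nd (nat_lit 78) (nat_lit 608) (nat_lit 0) (XT.lf (nat_lit 0) (nat_lit 5213773245) (nat_lit 608) (nat_lit 878753524) (nat_lit 684) (nat_lit 2186184953) (nat_lit 220) (nat_lit 5) (nat_lit 228) (nat_lit 5) (nat_lit 229) (nat_lit 5) (nat_lit 439) (nat_lit 357) (nat_lit 344)) (XT.lf (nat_lit 0) (nat_lit 1187393484) (nat_lit 608) (nat_lit 5442011233) (nat_lit 76) (nat_lit 1718894913) (nat_lit 212) (nat_lit 5) (nat_lit 220) (nat_lit 5) (nat_lit 213) (nat_lit 5) (nat_lit 440) (nat_lit 357) (nat_lit 343))))))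 (XT.nd (nat_lit 390) (nat_lit 2584) (nat_lit 0) (XT.nd (nat_lit 156) (nat_lit 1216) (nat_lit 0) (XT.nd (nat_lit 78) (nat_lit 0) (nat_lit 0) (XT.lf (nat_lit 0) (nat_lit 533444235) (nat_lit 608) (nat_lit 4039610911) (nat_lit 684) (nat_lit 3846487156) (nat_lit 204) (nat_lit 5) (nat_lit 212) (nat_lit 5) (nat_lit 213) (nat_lit 5) (nat_lit 441) (nat_lit 357) (nat_lit 342)) (XT.lf (nat_lit 0) (nat_lit 6629919159) (nat_lit 608) (nat_lit 1377531788) (nat_lit 684) (nat_lit 485167589) (nat_lit 204) (nat_lit 5) (nat_lit 212) (nat_lit 5) (nat_lit 213) (nat_lit 5) (nat_lit 442) (nat_lit 357) (nat_lit 341))) (XT.nd (nat_lit 78) (nat_lit 608) (nat_lit 0) (XT.lf (nat_lit 0) (nat_lit 2886431952) (nat_lit 608) (nat_lit 4330083597) (nat_lit 76) (nat_lit 1350653408) (nat_lit 196) (nat_lit 5) (nat_lit 204) (nat_lit 5) (nat_lit 197) (nat_lit 5) (nat_lit 443) (nat_lit 357) (nat_lit 340)) (XT.nd (nat_lit 78) (nat_lit 76) (nat_lit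 0) (XT.lf (nat_lit 0) (nat_lit 1779953548) (nat_lit 532) (nat_lit 4517985971) (nat_lit 608) (nat_lit 2345654728) (nat_lit 189) (nat_lit 5) (nat_lit 196) (nat_lit 5) (nat_lit 197) (nat_lit 5) (nat_lit 444) (nat_lit 357) (nat_lit 339)) (XT.lf (nat_lit 0) (nat_lit 1017449199) (nat_lit 608) (nat_lit 729527205) (nat_lit 76) (nat_lit 6974957453) (nat_lit 188) (nat_lit 5) (nat_lit 196) (nat_lit 5) (nat_lit 189) (nat_lit 5) (nat_lit 445) (nat_lit 357) (nat_lit 338))))) (XT.nd (nat_lit 234) (nat_lit 988) (nat_lit 0) (XT.nd (nat_lit 78) (nat_lit 1064) (nat_lit 0) (XT.lf (nat_lit 0) (nat_lit 4406444654) (nat_lit 608) (nat_lit 3296070625) (nat_lit 76) (nat_lit 1099239996) (nat_lit 181) (nat_lit 5) (nat_lit 189) (nat_lit 5) (nat_lit 182) (nat_lit 5) (nat_lit 446) (nat_lit 357) (nat_lit 337)) (XT.nd (nat_lit 78) (nat_lit 532) (nat_lit 0) (XT.lf (nat_lit 0) (nat_lit 2948008481) (nat_lit 532) (nat_lit 4898295797) (nat_lit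 608) (nat_lit 1037232516) (nat_lit 174) (nat_lit 5) (nat_lit 181) (nat_lit 5) (nat_lit 182) (nat_lit 5) (nat_lit 447) (nat_lit 357) (nat_lit 336)) (XT.lf (nat_lit 0) (nat_lit 311857989) (nat_lit 456) (nat_lit 2016766873) (nat_lit 532) (nat_lit 6638604627) (nat_lit 167) (nat_lit 5) (nat_lit 173) (nat_lit 5) (nat_lit 174) (nat_lit 5) (nat_lit 448) (nat_lit 357) (nat_lit 335)))) (XT.nd (nat_lit 78) (nat_lit 988) (nat_lit 0) (XT.lf (nat_lit 0) (nat_lit 5742091749) (nat_lit 532) (nat_lit 2372450708) (nat_lit 76) (nat_lit 938056737) (nat_lit 167) (nat_lit 5) (nat_lit 174) (nat_lit 5) (nat_lit 168) (nat_lit 5) (nat_lit 449) (nat_lit 357) (nat_lit 334)) (XT.nd (nat_lit 78) (nat_lit 456) (nat_lit 0) (XT.lf (nat_lit 0) (nat_lit 71407373) (nat_lit 532) (nat_lit 5135871802) (nat_lit 76) (nat_lit 3932641971) (nat_lit 160) (nat_lit 5) (nat_lit 167) (nat_lit 5) (nat_lit 161) (nat_lit 5) (nat_lit 450) (nat_lit 357) (nat_lit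 333)) (XT.lf (nat_lit 0) (nat_lit 1234737026) (nat_lit 456) (nat_lit 2215267958) (nat_lit 532) (nat_lit 5779101980) (nat_lit 154) (nat_lit 5) (nat_lit 160) (nat_lit 5) (nat_lit 161) (nat_lit 5) (nat_lit 451) (nat_lit 357) (nat_lit 332))))))))
noncomputable def xc41 : XT := (XT.nd (nat_lit 1560) (nat_lit 3268) (nat_lit 0) (XT.nd (nat_lit 780) (nat_lit 2584) (nat_lit 0) (XT.nd (nat_lit 390) (nat_lit 1216) (nat_lit 0) (XT.nd (nat_lit 156) (nat_lit 912) (nat_lit 0) (XT.nd (nat_lit 78) (nat_lit 532) (nat_lit 0) (XT.lf (nat_lit 0) (nat_lit 6885991335) (nat_lit 532) (nat_lit 1594092260) (nat_lit 76) (nat_lit 840218641) (nat_lit 154) (nat_lit 5) (nat_lit 161) (nat_lit 5) (nat_lit 155) (nat_lit 5) (nat_lit 452) (nat_lit 357) (nat_lit 331)) (XT.lf (nat_lit 0) (nat_lit 961772153) (nat_lit 532) (nat_lit 4505778671) (nat_lit 76) (nat_lit 3945720602) (nat_lit 147) (nat_lit 5) (nat_lit 154) (nat_lit 5) (nat_lit 148) (nat_lit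 5) (nat_lit 453) (nat_lit 357) (nat_lit 330))) (XT.nd (nat_lit 78) (nat_lit 532) (nat_lit 0) (XT.lf (nat_lit 0) (nat_lit 1992537965) (nat_lit 380) (nat_lit 2375229072) (nat_lit 456) (nat_lit 5140540238) (nat_lit 142) (nat_lit 5) (nat_lit 147) (nat_lit 5) (nat_lit 148) (nat_lit 5) (nat_lit 454) (nat_lit 357) (nat_lit 329)) (XT.nd (nat_lit 78) (nat_lit 532) (nat_lit 0) (XT.lf (nat_lit 0) (nat_lit 7828599303) (nat_lit 456) (nat_lit 998626874) (nat_lit 76) (nat_lit 778303708) (nat_lit 142) (nat_lit 5) (nat_lit 148) (nat_lit 5) (nat_lit 143) (nat_lit 5) (nat_lit 455) (nat_lit 357) (nat_lit 328)) (XT.lf (nat_lit 0) (nat_lit 1636784170) (nat_lit 532) (nat_lit 4077568660) (nat_lit 76) (nat_lit 3990058454) (nat_lit 135) (nat_lit 5) (nat_lit 142) (nat_lit 5) (nat_lit 136) (nat_lit 5) (nat_lit 456) (nat_lit 357) (nat_lit 327))))) (XT.nd (nat_lit 156) (nat_lit 836) (nat_lit 0) (XT.nd (nat_lit 78) (nat_lit 0) (nat_lit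 0) (XT.lf (nat_lit 0) (nat_lit 2545352215) (nat_lit 380) (nat_lit 2525260305) (nat_lit 456) (nat_lit 4734929452) (nat_lit 130) (nat_lit 5) (nat_lit 135) (nat_lit 5) (nat_lit 136) (nat_lit 5) (nat_lit 457) (nat_lit 357) (nat_lit 326)) (XT.lf (nat_lit 0) (nat_lit 8558068847) (nat_lit 456) (nat_lit 626853544) (nat_lit 76) (nat_lit 724092696) (nat_lit 130) (nat_lit 5) (nat_lit 136) (nat_lit 5) (nat_lit 131) (nat_lit 5) (nat_lit 458) (nat_lit 357) (nat_lit 325))) (XT.nd (nat_lit 78) (nat_lit 380) (nat_lit 0) (XT.lf (nat_lit 0) (nat_lit 2083378089) (nat_lit 456) (nat_lit 3893634616) (nat_lit 76) (nat_lit 4037086029) (nat_lit 124) (nat_lit 5) (nat_lit 130) (nat_lit 5) (nat_lit 125) (nat_lit 5) (nat_lit 459) (nat_lit 357) (nat_lit 324)) (XT.nd (nat_lit 78) (nat_lit 0) (nat_lit 0) (XT.lf (nat_lit 0) (nat_lit 2849809075) (nat_lit 380) (nat_lit 2695002185) (nat_lit 456) (nat_lit 4576781726) (nat_lit 119) (nat_lit 5)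 (nat_lit 124) (nat_lit 5) (nat_lit 125) (nat_lit 5) (nat_lit 460) (nat_lit 357) (nat_lit 323)) (XT.lf (nat_lit 0) (nat_lit 9060088065) (nat_lit 456) (nat_lit 523177862) (nat_lit 76) (nat_lit 648296301) (nat_lit 119) (nat_lit 5) (nat_lit 125) (nat_lit 5) (nat_lit 120) (nat_lit 5) (nat_lit 461) (nat_lit 357) (nat_lit 322)))))) (XT.nd (nat_lit 390) (nat_lit 1064) (nat_lit 0) (XT.nd (nat_lit 156) (nat_lit 760) (nat_lit 0) (XT.nd (nat_lit 78) (nat_lit 304) (nat_lit 0) (XT.lf (nat_lit 0) (nat_lit 2285932685) (nat_lit 456) (nat_lit 4000163102) (nat_lit 76) (nat_lit 4057069214) (nat_lit 113) (nat_lit 5) (nat_lit 119) (nat_lit 5) (nat_lit 114) (nat_lit 5) (nat_lit 462) (nat_lit 357) (nat_lit 321)) (XT.lf (nat_lit 0) (nat_lit 2858607357) (nat_lit 304) (nat_lit 2915414664) (nat_lit 380) (nat_lit 4683294937) (nat_lit 109) (nat_lit 5) (nat_lit 113) (nat_lit 5) (nat_lit 114) (nat_lit 5) (nat_lit 463) (nat_lit 357) (nat_lit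 320))) (XT.nd (nat_lit 78) (nat_lit 760) (nat_lit 0) (XT.lf (nat_lit 0) (nat_lit 9317693906) (nat_lit 380) (nat_lit 736090433) (nat_lit 76) (nat_lit 520267280) (nat_lit 109) (nat_lit 5) (nat_lit 114) (nat_lit 5) (nat_lit 110) (nat_lit 5) (nat_lit 464) (nat_lit 357) (nat_lit 319)) (XT.nd (nat_lit 78) (nat_lit 304) (nat_lit 0) (XT.lf (nat_lit 0) (nat_lit 2226074671) (nat_lit 456) (nat_lit 4447630424) (nat_lit 76) (nat_lit 4018814122) (nat_lit 103) (nat_lit 5) (nat_lit 109) (nat_lit 5) (nat_lit 104) (nat_lit 5) (nat_lit 465) (nat_lit 357) (nat_lit 318)) (XT.lf (nat_lit 0) (nat_lit 2520004524) (nat_lit 304) (nat_lit 3219083455) (nat_lit 380) (nat_lit 5074562152) (nat_lit 99) (nat_lit 5) (nat_lit 103) (nat_lit 5) (nat_lit 104) (nat_lit 5) (nat_lit 466) (nat_lit 357) (nat_lit 317))))) (XT.nd (nat_lit 156) (nat_lit 684) (nat_lit 0) (XT.nd (nat_lit 78) (nat_lit 380) (nat_lit 0) (XT.lf (nat_lit 0) (nat_lit 9311060465)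 (nat_lit 380) (nat_lit 1318689180) (nat_lit 76) (nat_lit 307694897) (nat_lit 99) (nat_lit 5) (nat_lit 104) (nat_lit 5) (nat_lit 100) (nat_lit 5) (nat_lit 467) (nat_lit 357) (nat_lit 316)) (XT.lf (nat_lit 0) (nat_lit 1882455956) (nat_lit 380) (nat_lit 5291344499) (nat_lit 76) (nat_lit 3889353225) (nat_lit 94) (nat_lit 5) (nat_lit 99) (nat_lit 5) (nat_lit 95) (nat_lit 5) (nat_lit 468) (nat_lit 357) (nat_lit 315))) (XT.nd (nat_lit 78) (nat_lit 380) (nat_lit 0) (XT.lf (nat_lit 0) (nat_lit 1777258341) (nat_lit 304) (nat_lit 3640546552) (nat_lit 380) (nat_lit 5773808911) (nat_lit 90) (nat_lit 5) (nat_lit 94) (nat_lit 5) (nat_lit 95) (nat_lit 5) (nat_lit 469) (nat_lit 357) (nat_lit 314)) (XT.nd (nat_lit 78) (nat_lit 380) (nat_lit 0) (XT.lf (nat_lit 0) (nat_lit 8993379075) (nat_lit 304) (nat_lit 24036387) (nat_lit 380) (nat_lit 2305370300) (nat_lit 90) (nat_lit 5) (nat_lit 94) (nat_lit 5) (nat_lit 95) (nat_lit 5)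 (nat_lit 470) (nat_lit 357) (nat_lit 313)) (XT.lf (nat_lit 0) (nat_lit 1230502017) (nat_lit 380) (nat_lit 6592037867) (nat_lit 76) (nat_lit 3633609862) (nat_lit 85) (nat_lit 5) (nat_lit 90) (nat_lit 5) (nat_lit 86) (nat_lit 5) (nat_lit 471) (nat_lit 357) (nat_lit 312))))))) (XT.nd (nat_lit 780) (nat_lit 1520) (nat_lit 0) (XT.nd (nat_lit 390) (nat_lit 912) (nat_lit 0) (XT.nd (nat_lit 156) (nat_lit 608) (nat_lit 0) (XT.nd (nat_lit 78) (nat_lit 0) (nat_lit 0) (XT.lf (nat_lit 0) (nat_lit 568015584) (nat_lit 228) (nat_lit 4216643982) (nat_lit 304) (nat_lit 6807660871) (nat_lit 82) (nat_lit 5) (nat_lit 85) (nat_lit 5) (nat_lit 86) (nat_lit 5) (nat_lit 472) (nat_lit 357) (nat_lit 311)) (XT.lf (nat_lit 0) (nat_lit 7895943135) (nat_lit 228) (nat_lit 517406206) (nat_lit 304) (nat_lit 3317808902) (nat_lit 82) (nat_lit 5) (nat_lit 85) (nat_lit 5) (nat_lit 86) (nat_lit 5) (nat_lit 473) (nat_lit 357) (nat_lit 310))) (XT.nd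 (nat_lit 78) (nat_lit 228) (nat_lit 0) (XT.lf (nat_lit 0) (nat_lit 242128764) (nat_lit 380) (nat_lit 8416517654) (nat_lit 76) (nat_lit 3214037960) (nat_lit 77) (nat_lit 5) (nat_lit 82) (nat_lit 5) (nat_lit 78) (nat_lit 5) (nat_lit 474) (nat_lit 357) (nat_lit 309)) (XT.nd (nat_lit 78) (nat_lit 228) (nat_lit 0) (XT.lf (nat_lit 0) (nat_lit 3818173581) (nat_lit 380) (nat_lit 1160930036) (nat_lit 76) (nat_lit 7037724077) (nat_lit 77) (nat_lit 5) (nat_lit 82) (nat_lit 5) (nat_lit 78) (nat_lit 5) (nat_lit 475) (nat_lit 357) (nat_lit 308)) (XT.lf (nat_lit 0) (nat_lit 6258916883) (nat_lit 228) (nat_lit 1208203615) (nat_lit 304) (nat_lit 4696717468) (nat_lit 74) (nat_lit 5) (nat_lit 77) (nat_lit 5) (nat_lit 78) (nat_lit 5) (nat_lit 476) (nat_lit 357) (nat_lit 307))))) (XT.nd (nat_lit 156) (nat_lit 532) (nat_lit 0) (XT.nd (nat_lit 78) (nat_lit 76) (nat_lit 0) (XT.lf (nat_lit 0) (nat_lit 1468179190) (nat_lit 304) (nat_lit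 9716324478) (nat_lit 380) (nat_lit 1129387114) (nat_lit 70) (nat_lit 5) (nat_lit 74) (nat_lit 5) (nat_lit 75) (nat_lit 5) (nat_lit 477) (nat_lit 357) (nat_lit 306)) (XT.lf (nat_lit 0) (nat_lit 2485314337) (nat_lit 380) (nat_lit 3485197935) (nat_lit 76) (nat_lit 6495938896) (nat_lit 69) (nat_lit 5) (nat_lit 74) (nat_lit 5) (nat_lit 70) (nat_lit 5) (nat_lit 478) (nat_lit 357) (nat_lit 305))) (XT.nd (nat_lit 78) (nat_lit 304) (nat_lit 0) (XT.lf (nat_lit 0) (nat_lit 4005546471) (nat_lit 228) (nat_lit 2139470852) (nat_lit 304) (nat_lit 6477150356) (nat_lit 66) (nat_lit 5) (nat_lit 69) (nat_lit 5) (nat_lit 70) (nat_lit 5) (nat_lit 479) (nat_lit 357) (nat_lit 304)) (XT.nd (nat_lit 78) (nat_lit 304) (nat_lit 0) (XT.lf (nat_lit 0) (nat_lit 9874940545) (nat_lit 304) (nat_lit 1161055902) (nat_lit 76) (nat_lit 1745072159) (nat_lit 66) (nat_lit 5) (nat_lit 70) (nat_lit 5) (nat_lit 67) (nat_lit 5) (nat_lit 480) (nat_lit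 357) (nat_lit 303)) (XT.lf (nat_lit 0) (nat_lit 745586922) (nat_lit 304) (nat_lit 6494619828) (nat_lit 76) (nat_lit 5702476804) (nat_lit 62) (nat_lit 5) (nat_lit 66) (nat_lit 5) (nat_lit 63) (nat_lit 5) (nat_lit 481) (nat_lit 357) (nat_lit 302)))))) (XT.nd (nat_lit 390) (nat_lit 760) (nat_lit 0) (XT.nd (nat_lit 156) (nat_lit 532) (nat_lit 0) (XT.nd (nat_lit 78) (nat_lit 0) (nat_lit 0) (XT.lf (nat_lit 0) (nat_lit 1051096352) (nat_lit 228) (nat_lit 3357861345) (nat_lit 304) (nat_lit 8698648222) (nat_lit 59) (nat_lit 5) (nat_lit 62) (nat_lit 5) (nat_lit 63) (nat_lit 5) (nat_lit 482) (nat_lit 357) (nat_lit 301)) (XT.lf (nat_lit 0) (nat_lit 8156386635) (nat_lit 304) (nat_lit 4504699994) (nat_lit 76) (nat_lit 614534089) (nat_lit 59) (nat_lit 5) (nat_lit 63) (nat_lit 5) (nat_lit 60) (nat_lit 5) (nat_lit 483) (nat_lit 357) (nat_lit 300))) (XT.nd (nat_lit 78) (nat_lit 304) (nat_lit 0) (XT.lf (nat_lit 0) (nat_lit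 3157207793) (nat_lit 228) (nat_lit 8828028196) (nat_lit 304) (nat_lit 1461639996) (nat_lit 56) (nat_lit 5) (nat_lit 59) (nat_lit 5) (nat_lit 60) (nat_lit 5) (nat_lit 484) (nat_lit 357) (nat_lit 299)) (XT.nd (nat_lit 78) (nat_lit 228) (nat_lit 0) (XT.lf (nat_lit 0) (nat_lit 2233587052) (nat_lit 304) (nat_lit 2662670928) (nat_lit 76) (nat_lit 8725128147) (nat_lit 55) (nat_lit 5) (nat_lit 59) (nat_lit 5) (nat_lit 56) (nat_lit 5) (nat_lit 485) (nat_lit 357) (nat_lit 298)) (XT.lf (nat_lit 0) (nat_lit 5115251890) (nat_lit 228) (nat_lit 865646584) (nat_lit 304) (nat_lit 7818348802) (nat_lit 52) (nat_lit 5) (nat_lit 55) (nat_lit 5) (nat_lit 56) (nat_lit 5) (nat_lit 486) (nat_lit 357) (nat_lit 297))))) (XT.nd (nat_lit 234) (nat_lit 304) (nat_lit 0) (XT.nd (nat_lit 78) (nat_lit 456) (nat_lit 0) (XT.lf (nat_lit 0) (nat_lit 9806898695) (nat_lit 304) (nat_lit 975866259) (nat_lit 76) (nat_lit 3197834721) (nat_lit 52)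 (nat_lit 5) (nat_lit 56) (nat_lit 5) (nat_lit 53) (nat_lit 5) (nat_lit 487) (nat_lit 357) (nat_lit 296)) (XT.nd (nat_lit 78) (nat_lit 228) (nat_lit 0) (XT.lf (nat_lit 0) (nat_lit 6913329338) (nat_lit 228) (nat_lit 6812084609) (nat_lit 304) (nat_lit 439853976) (nat_lit 49) (nat_lit 5) (nat_lit 52) (nat_lit 5) (nat_lit 53) (nat_lit 5) (nat_lit 488) (nat_lit 357) (nat_lit 295)) (XT.lf (nat_lit 0) (nat_lit 547181077) (nat_lit 152) (nat_lit 2752898019) (nat_lit 228) (nat_lit 11053609577) (nat_lit 46) (nat_lit 5) (nat_lit 48) (nat_lit 5) (nat_lit 49) (nat_lit 5) (nat_lit 489) (nat_lit 357) (nat_lit 294)))) (XT.nd (nat_lit 78) (nat_lit 304) (nat_lit 0) (XT.lf (nat_lit 0) (nat_lit 7132517131) (nat_lit 228) (nat_lit 6014840199) (nat_lit 76) (nat_lit 1397998644) (nat_lit 46) (nat_lit 5) (nat_lit 49) (nat_lit 5) (nat_lit 47) (nat_lit 5) (nat_lit 490) (nat_lit 357) (nat_lit 293)) (XT.nd (nat_lit 78) (nat_lit 76) (nat_lit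 0) (XT.lf (nat_lit 0) (nat_lit 1881977489) (nat_lit 228) (nat_lit 9156346636) (nat_lit 304) (nat_lit 3702606131) (nat_lit 43) (nat_lit 5) (nat_lit 46) (nat_lit 5) (nat_lit 47) (nat_lit 5) (nat_lit 491) (nat_lit 357) (nat_lit 292)) (XT.lf (nat_lit 0) (nat_lit 87721730) (nat_lit 304) (nat_lit 4979356771) (nat_lit 76) (nat_lit 9873195352) (nat_lit 42) (nat_lit 5) (nat_lit 46) (nat_lit 5) (nat_lit 43) (nat_lit 5) (nat_lit 492) (nat_lit 357) (nat_lit 291))))))))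
noncomputable def xc42 : XT := (XT.nd (nat_lit 54444) (nat_lit 0) (nat_lit 10412) (XT.nd (nat_lit 780) (nat_lit 380) (nat_lit 0) (XT.nd (nat_lit 390) (nat_lit 456) (nat_lit 0) (XT.nd (nat_lit 156) (nat_lit 456) (nat_lit 0) (XT.nd (nat_lit 78) (nat_lit 0) (nat_lit 0) (XT.lf (nat_lit 0) (nat_lit 3016784412) (nat_lit 152) (nat_lit 874120956) (nat_lit 228) (nat_lit 11252484505) (nat_lit 40) (nat_lit 5) (nat_lit 42) (nat_lit 5) (nat_lit 43) (nat_lit 5) (nat_lit 493) (nat_lit 357) (nat_lit 290)) (XT.lf (nat_lit 0) (nat_lit 7793010479) (nat_lit 228) (nat_lit 4188104171) (nat_lit 76) (nat_lit 3369003835) (nat_lit 40) (nat_lit 5) (nat_lit 43) (nat_lit 5) (nat_lit 41) (nat_lit 5) (nat_lit 494) (nat_lit 357) (nat_lit 289))) (XT.nd (nat_lit 78) (nat_lit 228) (nat_lit 0) (XT.lf (nat_lit 0) (nat_lit 3899386768) (nat_lit 228) (nat_lit 7872651575) (nat_lit 304) (nat_lit 3788972998) (nat_lit 37) (nat_lit 5) (nat_lit 40)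 (nat_lit 5) (nat_lit 41) (nat_lit 5) (nat_lit 495) (nat_lit 357) (nat_lit 288)) (XT.nd (nat_lit 78) (nat_lit 152) (nat_lit 0) (XT.lf (nat_lit 0) (nat_lit 49932119) (nat_lit 304) (nat_lit 3625906152) (nat_lit 76) (nat_lit 12100361251) (nat_lit 36) (nat_lit 5) (nat_lit 40) (nat_lit 5) (nat_lit 37) (nat_lit 5) (nat_lit 496) (nat_lit 357) (nat_lit 287)) (XT.lf (nat_lit 0) (nat_lit 3917081980) (nat_lit 228) (nat_lit 11448379693) (nat_lit 76) (nat_lit 629691734) (nat_lit 34) (nat_lit 5) (nat_lit 37) (nat_lit 5) (nat_lit 35) (nat_lit 5) (nat_lit 497) (nat_lit 357) (nat_lit 286))))) (XT.nd (nat_lit 156) (nat_lit 228) (nat_lit 0) (XT.nd (nat_lit 78) (nat_lit 228) (nat_lit 0) (XT.lf (nat_lit 0) (nat_lit 7878996987) (nat_lit 228) (nat_lit 3364698828) (nat_lit 76) (nat_lit 4974448843) (nat_lit 34) (nat_lit 5) (nat_lit 37) (nat_lit 5) (nat_lit 35) (nat_lit 5) (nat_lit 498) (nat_lit 357) (nat_lit 285)) (XT.lf (nat_lit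 0) (nat_lit 4891621974) (nat_lit 228) (nat_lit 7029489906) (nat_lit 304) (nat_lit 4524471216) (nat_lit 31) (nat_lit 5) (nat_lit 34) (nat_lit 5) (nat_lit 35) (nat_lit 5) (nat_lit 499) (nat_lit 357) (nat_lit 284))) (XT.nd (nat_lit 78) (nat_lit 228) (nat_lit 0) (XT.lf (nat_lit 0) (nat_lit 13305840310) (nat_lit 228) (nat_lit 2730270417) (nat_lit 304) (nat_lit 641625210) (nat_lit 31) (nat_lit 5) (nat_lit 34) (nat_lit 5) (nat_lit 35) (nat_lit 5) (nat_lit 500) (nat_lit 357) (nat_lit 283)) (XT.nd (nat_lit 78) (nat_lit 0) (nat_lit 0) (XT.lf (nat_lit 0) (nat_lit 3288402087) (nat_lit 228) (nat_lit 11959850116) (nat_lit 76) (nat_lit 1665593841) (nat_lit 28) (nat_lit 5) (nat_lit 31) (nat_lit 5) (nat_lit 29) (nat_lit 5) (nat_lit 501) (nat_lit 357) (nat_lit 282)) (XT.lf (nat_lit 0) (nat_lit 7299273511) (nat_lit 228) (nat_lit 3736920559) (nat_lit 76) (nat_lit 6118188856) (nat_lit 28) (nat_lit 5) (nat_lit 31) (nat_lit 5)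 (nat_lit 29) (nat_lit 5) (nat_lit 502) (nat_lit 357) (nat_lit 281)))))) (XT.nd (nat_lit 53274) (nat_lit 0) (nat_lit 19912) (XT.nd (nat_lit 156) (nat_lit 228) (nat_lit 0) (XT.nd (nat_lit 78) (nat_lit 0) (nat_lit 0) (XT.lf (nat_lit 0) (nat_lit 4660287394) (nat_lit 152) (nat_lit 6730890102) (nat_lit 228) (nat_lit 6008542720) (nat_lit 26) (nat_lit 5) (nat_lit 28) (nat_lit 5) (nat_lit 29) (nat_lit 5) (nat_lit 503) (nat_lit 357) (nat_lit 280)) (XT.lf (nat_lit 0) (nat_lit 13225131251) (nat_lit 152) (nat_lit 2335668888) (nat_lit 228) (nat_lit 2089252359) (nat_lit 26) (nat_lit 5) (nat_lit 28) (nat_lit 5) (nat_lit 29) (nat_lit 5) (nat_lit 504) (nat_lit 357) (nat_lit 279))) (XT.nd (nat_lit 78) (nat_lit 0) (nat_lit 0) (XT.lf (nat_lit 0) (nat_lit 1894905184) (nat_lit 228) (nat_lit 13873055185) (nat_lit 76) (nat_lit 2136958658) (nat_lit 23) (nat_lit 5) (nat_lit 26) (nat_lit 5) (nat_lit 24) (nat_lit 5) (nat_lit 505) (nat_lit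 357) (nat_lit 278)) (XT.nd (nat_lit 52962) (nat_lit 0) (nat_lit 23180) (XT.lf (nat_lit 0) (nat_lit 5947437348) (nat_lit 228) (nat_lit 5526483310) (nat_lit 76) (nat_lit 6690358219) (nat_lit 23) (nat_lit 5) (nat_lit 26) (nat_lit 5) (nat_lit 24) (nat_lit 5) (nat_lit 506) (nat_lit 357) (nat_lit 277)) (XT.lf (nat_lit 0) (nat_lit 1454592856) (nat_lit 912) (nat_lit 803756162) (nat_lit 0) (nat_lit 1454592856) (nat_lit 328) (nat_lit 5) (nat_lit 340) (nat_lit 4) (nat_lit 328) (nat_lit 4) (nat_lit 424) (nat_lit 358) (nat_lit 358))))) (XT.nd (nat_lit 156) (nat_lit 1596) (nat_lit 0) (XT.nd (nat_lit 78) (nat_lit 836) (nat_lit 0) (XT.lf (nat_lit 0) (nat_lit 3753655043) (nat_lit 836) (nat_lit 2606404295) (nat_lit 836) (nat_lit 1112557438) (nat_lit 317) (nat_lit 4) (nat_lit 328) (nat_lit 5) (nat_lit 328) (nat_lit 4) (nat_lit 425) (nat_lit 358) (nat_lit 357)) (XT.lf (nat_lit 0) (nat_lit 1658672734) (nat_lit 760) (nat_lit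 627008123) (nat_lit 836) (nat_lit 5235202098) (nat_lit 306) (nat_lit 5) (nat_lit 316) (nat_lit 5) (nat_lit 317) (nat_lit 4) (nat_lit 426) (nat_lit 358) (nat_lit 356))) (XT.nd (nat_lit 78) (nat_lit 1596) (nat_lit 0) (XT.lf (nat_lit 0) (nat_lit 5707255011) (nat_lit 836) (nat_lit 464175236) (nat_lit 0) (nat_lit 1399175049) (nat_lit 306) (nat_lit 5) (nat_lit 317) (nat_lit 4) (nat_lit 306) (nat_lit 4) (nat_lit 427) (nat_lit 358) (nat_lit 355)) (XT.nd (nat_lit 78) (nat_lit 760) (nat_lit 0) (XT.lf (nat_lit 0) (nat_lit 1529234052) (nat_lit 836) (nat_lit 2599110761) (nat_lit 76) (nat_lit 3493334948) (nat_lit 295) (nat_lit 5) (nat_lit 306) (nat_lit 5) (nat_lit 296) (nat_lit 4) (nat_lit 428) (nat_lit 358) (nat_lit 354)) (XT.lf (nat_lit 0) (nat_lit 2906133840) (nat_lit 760) (nat_lit 2018282254) (nat_lit 836) (nat_lit 2749960150) (nat_lit 285) (nat_lit 5) (nat_lit 295) (nat_lit 5) (nat_lit 296) (nat_lit 4) (nat_lit 429)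 (nat_lit 358) (nat_lit 353))))))) (XT.nd (nat_lit 780) (nat_lit 4560) (nat_lit 0) (XT.nd (nat_lit 390) (nat_lit 2660) (nat_lit 0) (XT.nd (nat_lit 156) (nat_lit 1444) (nat_lit 0) (XT.nd (nat_lit 78) (nat_lit 0) (nat_lit 0) (XT.lf (nat_lit 0) (nat_lit 612206672) (nat_lit 836) (nat_lit 6966950294) (nat_lit 76) (nat_lit 149693684) (nat_lit 274) (nat_lit 5) (nat_lit 285) (nat_lit 5) (nat_lit 275) (nat_lit 4) (nat_lit 430) (nat_lit 358) (nat_lit 352)) (XT.lf (nat_lit 0) (nat_lit 3989078650) (nat_lit 836) (nat_lit 1420652808) (nat_lit 76) (nat_lit 2374672302) (nat_lit 274) (nat_lit 5) (nat_lit 285) (nat_lit 5) (nat_lit 275) (nat_lit 4) (nat_lit 431) (nat_lit 358) (nat_lit 351))) (XT.nd (nat_lit 78) (nat_lit 760) (nat_lit 0) (XT.lf (nat_lit 0) (nat_lit 4220979237) (nat_lit 684) (nat_lit 3179790635) (nat_lit 760) (nat_lit 440990104) (nat_lit 265) (nat_lit 5) (nat_lit 274) (nat_lit 5) (nat_lit 275) (nat_lit 4) (nat_lit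 432) (nat_lit 358) (nat_lit 350)) (XT.nd (nat_lit 78) (nat_lit 0) (nat_lit 0) (XT.lf (nat_lit 0) (nat_lit 2030530423) (nat_lit 684) (nat_lit 873760120) (nat_lit 760) (nat_lit 4996363017) (nat_lit 255) (nat_lit 5) (nat_lit 264) (nat_lit 5) (nat_lit 265) (nat_lit 5) (nat_lit 433) (nat_lit 358) (nat_lit 349)) (XT.lf (nat_lit 0) (nat_lit 6285439307) (nat_lit 760) (nat_lit 200958134) (nat_lit 76) (nat_lit 1474807435) (nat_lit 255) (nat_lit 5) (nat_lit 265) (nat_lit 5) (nat_lit 256) (nat_lit 4) (nat_lit 434) (nat_lit 358) (nat_lit 348))))) (XT.nd (nat_lit 156) (nat_lit 1292) (nat_lit 0) (XT.nd (nat_lit 78) (nat_lit 684) (nat_lit 0) (XT.lf (nat_lit 0) (nat_lit 1672630719) (nat_lit 684) (nat_lit 2455937437) (nat_lit 76) (nat_lit 3894534380) (nat_lit 246) (nat_lit 5) (nat_lit 255) (nat_lit 5) (nat_lit 247) (nat_lit 5) (nat_lit 435) (nat_lit 358) (nat_lit 347)) (XT.lf (nat_lit 0) (nat_lit 3328802043) (nat_lit 684)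 (nat_lit 1701980424) (nat_lit 760) (nat_lit 3055963083) (nat_lit 237) (nat_lit 5) (nat_lit 246) (nat_lit 5) (nat_lit 247) (nat_lit 5) (nat_lit 436) (nat_lit 358) (nat_lit 346))) (XT.nd (nat_lit 78) (nat_lit 608) (nat_lit 0) (XT.lf (nat_lit 0) (nat_lit 271459245) (nat_lit 684) (nat_lit 7105774565) (nat_lit 76) (nat_lit 774999922) (nat_lit 228) (nat_lit 5) (nat_lit 237) (nat_lit 5) (nat_lit 229) (nat_lit 5) (nat_lit 437) (nat_lit 358) (nat_lit 345)) (XT.nd (nat_lit 78) (nat_lit 608) (nat_lit 0) (XT.lf (nat_lit 0) (nat_lit 3611037121) (nat_lit 684) (nat_lit 1290520520) (nat_lit 76) (nat_lit 3317371038) (nat_lit 228) (nat_lit 5) (nat_lit 237) (nat_lit 5) (nat_lit 229) (nat_lit 5) (nat_lit 438) (nat_lit 358) (nat_lit 344)) (XT.lf (nat_lit 0) (nat_lit 4631336792) (nat_lit 608) (nat_lit 2360332657) (nat_lit 684) (nat_lit 1295833731) (nat_lit 220) (nat_lit 5) (nat_lit 228) (nat_lit 5) (nat_lit 229) (nat_lit 5) (nat_lit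 439) (nat_lit 358) (nat_lit 343)))))) (XT.nd (nat_lit 390) (nat_lit 2204) (nat_lit 0) (XT.nd (nat_lit 156) (nat_lit 1748) (nat_lit 0) (XT.nd (nat_lit 78) (nat_lit 0) (nat_lit 0) (XT.lf (nat_lit 0) (nat_lit 2024746005) (nat_lit 608) (nat_lit 6082109060) (nat_lit 76) (nat_lit 250961550) (nat_lit 212) (nat_lit 5) (nat_lit 220) (nat_lit 5) (nat_lit 213) (nat_lit 5) (nat_lit 440) (nat_lit 358) (nat_lit 342)) (XT.lf (nat_lit 0) (nat_lit 5379702257) (nat_lit 608) (nat_lit 148951728) (nat_lit 76) (nat_lit 2901033829) (nat_lit 212) (nat_lit 5) (nat_lit 220) (nat_lit 5) (nat_lit 213) (nat_lit 5) (nat_lit 441) (nat_lit 358) (nat_lit 341))) (XT.nd (nat_lit 78) (nat_lit 1064) (nat_lit 0) (XT.lf (nat_lit 0) (nat_lit 279136564) (nat_lit 684) (nat_lit 2594698885) (nat_lit 76) (nat_lit 5629464318) (nat_lit 203) (nat_lit 5) (nat_lit 212) (nat_lit 5) (nat_lit 204) (nat_lit 5) (nat_lit 442) (nat_lit 358) (nat_lit 340)) (XT.nd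 (nat_lit 78) (nat_lit 532) (nat_lit 0) (XT.lf (nat_lit 0) (nat_lit 3466018808) (nat_lit 532) (nat_lit 137807347) (nat_lit 608) (nat_lit 4974785558) (nat_lit 196) (nat_lit 5) (nat_lit 203) (nat_lit 5) (nat_lit 204) (nat_lit 5) (nat_lit 443) (nat_lit 358) (nat_lit 339)) (XT.lf (nat_lit 0) (nat_lit 952480152) (nat_lit 532) (nat_lit 6030234414) (nat_lit 608) (nat_lit 1672988142) (nat_lit 189) (nat_lit 5) (nat_lit 196) (nat_lit 5) (nat_lit 197) (nat_lit 5) (nat_lit 444) (nat_lit 358) (nat_lit 338))))) (XT.nd (nat_lit 234) (nat_lit 1064) (nat_lit 0) (XT.nd (nat_lit 78) (nat_lit 1064) (nat_lit 0) (XT.lf (nat_lit 0) (nat_lit 1655047163) (nat_lit 608) (nat_lit 1608614124) (nat_lit 76) (nat_lit 5470831418) (nat_lit 188) (nat_lit 5) (nat_lit 196) (nat_lit 5) (nat_lit 189) (nat_lit 5) (nat_lit 445) (nat_lit 358) (nat_lit 337)) (XT.nd (nat_lit 78) (nat_lit 532) (nat_lit 0) (XT.lf (nat_lit 0) (nat_lit 4587385113) (nat_lit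 532) (nat_lit 417683719) (nat_lit 608) (nat_lit 3810037319) (nat_lit 181) (nat_lit 5) (nat_lit 188) (nat_lit 5) (nat_lit 189) (nat_lit 5) (nat_lit 446) (nat_lit 358) (nat_lit 336)) (XT.lf (nat_lit 0) (nat_lit 1971577485) (nat_lit 532) (nat_lit 6438793009) (nat_lit 608) (nat_lit 487220643) (nat_lit 174) (nat_lit 5) (nat_lit 181) (nat_lit 5) (nat_lit 182) (nat_lit 5) (nat_lit 447) (nat_lit 358) (nat_lit 335)))) (XT.nd (nat_lit 78) (nat_lit 988) (nat_lit 0) (XT.lf (nat_lit 0) (nat_lit 2843989404) (nat_lit 608) (nat_lit 721096161) (nat_lit 76) (nat_lit 5416687353) (nat_lit 173) (nat_lit 5) (nat_lit 181) (nat_lit 5) (nat_lit 174) (nat_lit 5) (nat_lit 448) (nat_lit 358) (nat_lit 334)) (XT.nd (nat_lit 78) (nat_lit 532) (nat_lit 0) (XT.lf (nat_lit 0) (nat_lit 5609327503) (nat_lit 456) (nat_lit 612077977) (nat_lit 532) (nat_lit 2846469757) (nat_lit 167) (nat_lit 5) (nat_lit 173) (nat_lit 5) (nat_lit 174) (nat_lit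 5) (nat_lit 449) (nat_lit 358) (nat_lit 333)) (XT.lf (nat_lit 0) (nat_lit 493087559) (nat_lit 532) (nat_lit 6285958937) (nat_lit 76) (nat_lit 2376827016) (nat_lit 160) (nat_lit 5) (nat_lit 167) (nat_lit 5) (nat_lit 161) (nat_lit 5) (nat_lit 450) (nat_lit 358) (nat_lit 332))))))))
noncomputable def xc43 : XT := (XT.nd (nat_lit 1560) (nat_lit 3344) (nat_lit 0) (XT.nd (nat_lit 780) (nat_lit 2204) (nat_lit 0) (XT.nd (nat_lit 390) (nat_lit 1748) (nat_lit 0) (XT.nd (nat_lit 156) (nat_lit 912) (nat_lit 0) (XT.nd (nat_lit 78) (nat_lit 0) (nat_lit 0) (XT.lf (nat_lit 0) (nat_lit 34451066) (nat_lit 456) (nat_lit 3804828448) (nat_lit 532) (nat_lit 5406438855) (nat_lit 154) (nat_lit 5) (nat_lit 160) (nat_lit 5) (nat_lit 161) (nat_lit 5) (nat_lit 451) (nat_lit 358) (nat_lit 331)) (XT.lf (nat_lit 0) (nat_lit 6497332157) (nat_lit 456) (nat_lit 748053707) (nat_lit 532) (nat_lit 2092136093) (nat_lit 154) (nat_lit 5) (nat_lit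 160) (nat_lit 5) (nat_lit 161) (nat_lit 5) (nat_lit 452) (nat_lit 358) (nat_lit 330))) (XT.nd (nat_lit 78) (nat_lit 380) (nat_lit 0) (XT.lf (nat_lit 0) (nat_lit 1262018532) (nat_lit 532) (nat_lit 5817899742) (nat_lit 76) (nat_lit 2351287554) (nat_lit 147) (nat_lit 5) (nat_lit 154) (nat_lit 5) (nat_lit 148) (nat_lit 5) (nat_lit 453) (nat_lit 358) (nat_lit 329)) (XT.nd (nat_lit 78) (nat_lit 0) (nat_lit 0) (XT.lf (nat_lit 0) (nat_lit 628438846) (nat_lit 380) (nat_lit 4006863441) (nat_lit 456) (nat_lit 4891603708) (nat_lit 142) (nat_lit 5) (nat_lit 147) (nat_lit 5) (nat_lit 148) (nat_lit 5) (nat_lit 454) (nat_lit 358) (nat_lit 328)) (XT.lf (nat_lit 0) (nat_lit 7214163339) (nat_lit 380) (nat_lit 853244175) (nat_lit 456) (nat_lit 1557305532) (nat_lit 142) (nat_lit 5) (nat_lit 147) (nat_lit 5) (nat_lit 148) (nat_lit 5) (nat_lit 455) (nat_lit 358) (nat_lit 327))))) (XT.nd (nat_lit 156) (nat_lit 836) (nat_lit 0)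 (XT.nd (nat_lit 78) (nat_lit 380) (nat_lit 0) (XT.lf (nat_lit 0) (nat_lit 1815043615) (nat_lit 532) (nat_lit 5557825130) (nat_lit 76) (nat_lit 2351476399) (nat_lit 135) (nat_lit 5) (nat_lit 142) (nat_lit 5) (nat_lit 136) (nat_lit 5) (nat_lit 456) (nat_lit 358) (nat_lit 326)) (XT.lf (nat_lit 0) (nat_lit 1011273698) (nat_lit 380) (nat_lit 4204505781) (nat_lit 456) (nat_lit 4610367530) (nat_lit 130) (nat_lit 5) (nat_lit 135) (nat_lit 5) (nat_lit 136) (nat_lit 5) (nat_lit 457) (nat_lit 358) (nat_lit 325))) (XT.nd (nat_lit 78) (nat_lit 836) (nat_lit 0) (XT.lf (nat_lit 0) (nat_lit 7719461464) (nat_lit 380) (nat_lit 956114539) (nat_lit 456) (nat_lit 1254606461) (nat_lit 130) (nat_lit 5) (nat_lit 135) (nat_lit 5) (nat_lit 136) (nat_lit 5) (nat_lit 458) (nat_lit 358) (nat_lit 324)) (XT.nd (nat_lit 78) (nat_lit 380) (nat_lit 0) (XT.lf (nat_lit 0) (nat_lit 2138865055) (nat_lit 456) (nat_lit 5548244461) (nat_lit 76)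 (nat_lit 2348944662) (nat_lit 124) (nat_lit 5) (nat_lit 130) (nat_lit 5) (nat_lit 125) (nat_lit 5) (nat_lit 459) (nat_lit 358) (nat_lit 323)) (XT.lf (nat_lit 0) (nat_lit 1139464739) (nat_lit 380) (nat_lit 4427285284) (nat_lit 456) (nat_lit 4577477987) (nat_lit 119) (nat_lit 5) (nat_lit 124) (nat_lit 5) (nat_lit 125) (nat_lit 5) (nat_lit 460) (nat_lit 358) (nat_lit 322)))))) (XT.nd (nat_lit 390) (nat_lit 988) (nat_lit 0) (XT.nd (nat_lit 156) (nat_lit 760) (nat_lit 0) (XT.nd (nat_lit 78) (nat_lit 456) (nat_lit 0) (XT.lf (nat_lit 0) (nat_lit 7969306521) (nat_lit 380) (nat_lit 1086236954) (nat_lit 456) (nat_lit 1199191893) (nat_lit 119) (nat_lit 5) (nat_lit 124) (nat_lit 5) (nat_lit 125) (nat_lit 5) (nat_lit 461) (nat_lit 358) (nat_lit 321)) (XT.lf (nat_lit 0) (nat_lit 2217633442) (nat_lit 456) (nat_lit 5835478629) (nat_lit 76) (nat_lit 2314056692) (nat_lit 113) (nat_lit 5) (nat_lit 119) (nat_lit 5) (nat_lit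 114) (nat_lit 5) (nat_lit 462) (nat_lit 358) (nat_lit 320))) (XT.nd (nat_lit 78) (nat_lit 456) (nat_lit 0) (XT.lf (nat_lit 0) (nat_lit 965572723) (nat_lit 304) (nat_lit 4706073012) (nat_lit 380) (nat_lit 4810364486) (nat_lit 109) (nat_lit 5) (nat_lit 113) (nat_lit 5) (nat_lit 114) (nat_lit 5) (nat_lit 463) (nat_lit 358) (nat_lit 319)) (XT.nd (nat_lit 78) (nat_lit 456) (nat_lit 0) (XT.lf (nat_lit 0) (nat_lit 7915742594) (nat_lit 304) (nat_lit 1274581040) (nat_lit 380) (nat_lit 1408928932) (nat_lit 109) (nat_lit 5) (nat_lit 113) (nat_lit 5) (nat_lit 114) (nat_lit 5) (nat_lit 464) (nat_lit 358) (nat_lit 318)) (XT.lf (nat_lit 0) (nat_lit 2032750709) (nat_lit 456) (nat_lit 6470155748) (nat_lit 76) (nat_lit 2215696095) (nat_lit 103) (nat_lit 5) (nat_lit 109) (nat_lit 5) (nat_lit 104) (nat_lit 5) (nat_lit 465) (nat_lit 358) (nat_lit 317))))) (XT.nd (nat_lit 156) (nat_lit 684) (nat_lit 0) (XT.nd (nat_lit 78) (nat_lit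 0) (nat_lit 0) (XT.lf (nat_lit 0) (nat_lit 437699509) (nat_lit 304) (nat_lit 5073386471) (nat_lit 380) (nat_lit 5329348402) (nat_lit 99) (nat_lit 5) (nat_lit 103) (nat_lit 5) (nat_lit 104) (nat_lit 5) (nat_lit 466) (nat_lit 358) (nat_lit 316)) (XT.lf (nat_lit 0) (nat_lit 7506258873) (nat_lit 304) (nat_lit 1553822392) (nat_lit 380) (nat_lit 1904614283) (nat_lit 99) (nat_lit 5) (nat_lit 103) (nat_lit 5) (nat_lit 104) (nat_lit 5) (nat_lit 467) (nat_lit 358) (nat_lit 315))) (XT.nd (nat_lit 78) (nat_lit 304) (nat_lit 0) (XT.lf (nat_lit 0) (nat_lit 1562646617) (nat_lit 380) (nat_lit 7507752749) (nat_lit 76) (nat_lit 2020952942) (nat_lit 94) (nat_lit 5) (nat_lit 99) (nat_lit 5) (nat_lit 95) (nat_lit 5) (nat_lit 468) (nat_lit 358) (nat_lit 314)) (XT.nd (nat_lit 78) (nat_lit 304) (nat_lit 0) (XT.lf (nat_lit 0) (nat_lit 5065898362) (nat_lit 380) (nat_lit 494498397) (nat_lit 76) (nat_lit 5660064412) (nat_lit 94) (nat_lit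 5) (nat_lit 99) (nat_lit 5) (nat_lit 95) (nat_lit 5) (nat_lit 469) (nat_lit 358) (nat_lit 313)) (XT.lf (nat_lit 0) (nat_lit 6683222072) (nat_lit 304) (nat_lit 1958671972) (nat_lit 380) (nat_lit 2710218044) (nat_lit 90) (nat_lit 5) (nat_lit 94) (nat_lit 5) (nat_lit 95) (nat_lit 5) (nat_lit 470) (nat_lit 358) (nat_lit 312))))))) (XT.nd (nat_lit 780) (nat_lit 1520) (nat_lit 0) (XT.nd (nat_lit 390) (nat_lit 836) (nat_lit 0) (XT.nd (nat_lit 156) (nat_lit 608) (nat_lit 0) (XT.nd (nat_lit 78) (nat_lit 0) (nat_lit 0) (XT.lf (nat_lit 0) (nat_lit 782526382) (nat_lit 380) (nat_lit 9009188180) (nat_lit 76) (nat_lit 1694789233) (nat_lit 85) (nat_lit 5) (nat_lit 90) (nat_lit 5) (nat_lit 86) (nat_lit 5) (nat_lit 471) (nat_lit 358) (nat_lit 311)) (XT.lf (nat_lit 0) (nat_lit 4313012335) (nat_lit 380) (nat_lit 1888186057) (nat_lit 76) (nat_lit 5421955805) (nat_lit 85) (nat_lit 5) (nat_lit 90) (nat_lit 5) (nat_lit 86) (nat_lit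 5) (nat_lit 472) (nat_lit 358) (nat_lit 310))) (XT.nd (nat_lit 78) (nat_lit 380) (nat_lit 0) (XT.lf (nat_lit 0) (nat_lit 5383254696) (nat_lit 228) (nat_lit 2526229479) (nat_lit 304) (nat_lit 3853158340) (nat_lit 82) (nat_lit 5) (nat_lit 85) (nat_lit 5) (nat_lit 86) (nat_lit 5) (nat_lit 473) (nat_lit 358) (nat_lit 309)) (XT.nd (nat_lit 78) (nat_lit 76) (nat_lit 0) (XT.lf (nat_lit 0) (nat_lit 861512178) (nat_lit 304) (nat_lit 10703304708) (nat_lit 380) (nat_lit 340377270) (nat_lit 78) (nat_lit 5) (nat_lit 82) (nat_lit 5) (nat_lit 83) (nat_lit 5) (nat_lit 474) (nat_lit 358) (nat_lit 308)) (XT.lf (nat_lit 0) (nat_lit 3220698072) (nat_lit 380) (nat_lit 3817042461) (nat_lit 76) (nat_lit 5012035609) (nat_lit 77) (nat_lit 5) (nat_lit 82) (nat_lit 5) (nat_lit 78) (nat_lit 5) (nat_lit 475) (nat_lit 358) (nat_lit 307))))) (XT.nd (nat_lit 156) (nat_lit 608) (nat_lit 0) (XT.nd (nat_lit 78) (nat_lit 0) (nat_lit 0) (XT.lf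 (nat_lit 0) (nat_lit 3536553054) (nat_lit 228) (nat_lit 3296364012) (nat_lit 304) (nat_lit 5364609593) (nat_lit 74) (nat_lit 5) (nat_lit 77) (nat_lit 5) (nat_lit 78) (nat_lit 5) (nat_lit 476) (nat_lit 358) (nat_lit 306)) (XT.lf (nat_lit 0) (nat_lit 10508259669) (nat_lit 304) (nat_lit 1324225809) (nat_lit 76) (nat_lit 515940382) (nat_lit 74) (nat_lit 5) (nat_lit 78) (nat_lit 5) (nat_lit 75) (nat_lit 5) (nat_lit 477) (nat_lit 358) (nat_lit 305))) (XT.nd (nat_lit 78) (nat_lit 228) (nat_lit 0) (XT.lf (nat_lit 0) (nat_lit 1756181210) (nat_lit 380) (nat_lit 6355947676) (nat_lit 76) (nat_lit 4389508535) (nat_lit 69) (nat_lit 5) (nat_lit 74) (nat_lit 5) (nat_lit 70) (nat_lit 5) (nat_lit 478) (nat_lit 358) (nat_lit 304)) (XT.nd (nat_lit 78) (nat_lit 0) (nat_lit 0) (XT.lf (nat_lit 0) (nat_lit 1066138311) (nat_lit 228) (nat_lit 4312125673) (nat_lit 304) (nat_lit 7279847604) (nat_lit 66) (nat_lit 5) (nat_lit 69) (nat_lit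 5) (nat_lit 70) (nat_lit 5) (nat_lit 479) (nat_lit 358) (nat_lit 303)) (XT.lf (nat_lit 0) (nat_lit 8662405421) (nat_lit 228) (nat_lit 415934673) (nat_lit 304) (nat_lit 3739274513) (nat_lit 66) (nat_lit 5) (nat_lit 69) (nat_lit 5) (nat_lit 70) (nat_lit 5) (nat_lit 480) (nat_lit 358) (nat_lit 302)))))) (XT.nd (nat_lit 390) (nat_lit 684) (nat_lit 0) (XT.nd (nat_lit 156) (nat_lit 532) (nat_lit 0) (XT.nd (nat_lit 78) (nat_lit 76) (nat_lit 0) (XT.lf (nat_lit 0) (nat_lit 3391851136) (nat_lit 228) (nat_lit 9469169761) (nat_lit 304) (nat_lit 119124925) (nat_lit 63) (nat_lit 5) (nat_lit 66) (nat_lit 5) (nat_lit 67) (nat_lit 5) (nat_lit 481) (nat_lit 358) (nat_lit 301)) (XT.lf (nat_lit 0) (nat_lit 3520944011) (nat_lit 304) (nat_lit 2085254856) (nat_lit 76) (nat_lit 7539386924) (nat_lit 62) (nat_lit 5) (nat_lit 66) (nat_lit 5) (nat_lit 63) (nat_lit 5) (nat_lit 482) (nat_lit 358) (nat_lit 300))) (XT.nd (nat_lit 78) (nat_lit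 304) (nat_lit 0) (XT.lf (nat_lit 0) (nat_lit 5581512112) (nat_lit 228) (nat_lit 1651221685) (nat_lit 304) (nat_lit 6081584334) (nat_lit 59) (nat_lit 5) (nat_lit 62) (nat_lit 5) (nat_lit 63) (nat_lit 5) (nat_lit 483) (nat_lit 358) (nat_lit 299)) (XT.nd (nat_lit 78) (nat_lit 304) (nat_lit 0) (XT.lf (nat_lit 0) (nat_lit 11012763007) (nat_lit 304) (nat_lit 130757647) (nat_lit 76) (nat_lit 2343033811) (nat_lit 59) (nat_lit 5) (nat_lit 63) (nat_lit 5) (nat_lit 60) (nat_lit 5) (nat_lit 484) (nat_lit 358) (nat_lit 298)) (XT.lf (nat_lit 0) (nat_lit 1216280475) (nat_lit 304) (nat_lit 6014711362) (nat_lit 76) (nat_lit 6430577278) (nat_lit 55) (nat_lit 5) (nat_lit 59) (nat_lit 5) (nat_lit 56) (nat_lit 5) (nat_lit 485) (nat_lit 358) (nat_lit 297))))) (XT.nd (nat_lit 234) (nat_lit 228) (nat_lit 0) (XT.nd (nat_lit 78) (nat_lit 228) (nat_lit 0) (XT.lf (nat_lit 0) (nat_lit 1689637969) (nat_lit 228) (nat_lit 3234493238) (nat_lit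 304) (nat_lit 8916092666) (nat_lit 52) (nat_lit 5) (nat_lit 55) (nat_lit 5) (nat_lit 56) (nat_lit 5) (nat_lit 486) (nat_lit 358) (nat_lit 296)) (XT.nd (nat_lit 78) (nat_lit 228) (nat_lit 0) (XT.lf (nat_lit 0) (nat_lit 8717610883) (nat_lit 304) (nat_lit 4455805816) (nat_lit 76) (nat_lit 848814290) (nat_lit 52) (nat_lit 5) (nat_lit 56) (nat_lit 5) (nat_lit 53) (nat_lit 5) (nat_lit 487) (nat_lit 358) (nat_lit 295)) (XT.lf (nat_lit 0) (nat_lit 3358603058) (nat_lit 228) (nat_lit 9237639103) (nat_lit 304) (nat_lit 1611458982) (nat_lit 49) (nat_lit 5) (nat_lit 52) (nat_lit 5) (nat_lit 53) (nat_lit 5) (nat_lit 488) (nat_lit 358) (nat_lit 294)))) (XT.nd (nat_lit 78) (nat_lit 152) (nat_lit 0) (XT.lf (nat_lit 0) (nat_lit 2123516338) (nat_lit 304) (nat_lit 3077755445) (nat_lit 76) (nat_lit 9195412779) (nat_lit 48) (nat_lit 5) (nat_lit 52) (nat_lit 5) (nat_lit 49) (nat_lit 5) (nat_lit 489) (nat_lit 358) (nat_lit 293))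 (XT.nd (nat_lit 78) (nat_lit 0) (nat_lit 0) (XT.lf (nat_lit 0) (nat_lit 4846036901) (nat_lit 152) (nat_lit 1063847723) (nat_lit 228) (nat_lit 8679392614) (nat_lit 46) (nat_lit 5) (nat_lit 48) (nat_lit 5) (nat_lit 49) (nat_lit 5) (nat_lit 490) (nat_lit 358) (nat_lit 292)) (XT.lf (nat_lit 0) (nat_lit 9780194781) (nat_lit 228) (nat_lit 1891927685) (nat_lit 76) (nat_lit 3113442894) (nat_lit 46) (nat_lit 5) (nat_lit 49) (nat_lit 5) (nat_lit 47) (nat_lit 5) (nat_lit 491) (nat_lit 358) (nat_lit 291))))))))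
noncomputable def xc44 : XT := (XT.nd (nat_lit 54288) (nat_lit 0) (nat_lit 11400) (XT.nd (nat_lit 780) (nat_lit 380) (nat_lit 0) (XT.nd (nat_lit 390) (nat_lit 684) (nat_lit 0) (XT.nd (nat_lit 156) (nat_lit 380) (nat_lit 0) (XT.nd (nat_lit 78) (nat_lit 76) (nat_lit 0) (XT.lf (nat_lit 0) (nat_lit 6134910507) (nat_lit 228) (nat_lit 7607457707) (nat_lit 304) (nat_lit 1243129619) (nat_lit 43) (nat_lit 5) (nat_lit 46) (nat_lit 5) (nat_lit 47) (nat_lit 5) (nat_lit 492) (nat_lit 358) (nat_lit 290)) (XT.lf (nat_lit 0) (nat_lit 2540751608) (nat_lit 304) (nat_lit 913164349) (nat_lit 76) (nat_lit 11735575122) (nat_lit 42) (nat_lit 5) (nat_lit 46) (nat_lit 5) (nat_lit 43) (nat_lit 5) (nat_lit 493) (nat_lit 358) (nat_lit 289))) (XT.nd (nat_lit 78) (nat_lit 228) (nat_lit 0) (XT.lf (nat_lit 0) (nat_lit 6404106247) (nat_lit 228) (nat_lit 8186913634) (nat_lit 76) (nat_lit 805978426) (nat_lit 40) (nat_lit 5) (nat_lit 43) (nat_lit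 5) (nat_lit 41) (nat_lit 5) (nat_lit 494) (nat_lit 358) (nat_lit 288)) (XT.nd (nat_lit 78) (nat_lit 228) (nat_lit 0) (XT.lf (nat_lit 0) (nat_lit 10342176230) (nat_lit 228) (nat_lit 177322081) (nat_lit 76) (nat_lit 5089215542) (nat_lit 40) (nat_lit 5) (nat_lit 43) (nat_lit 5) (nat_lit 41) (nat_lit 5) (nat_lit 495) (nat_lit 358) (nat_lit 287)) (XT.lf (nat_lit 0) (nat_lit 8044980886) (nat_lit 228) (nat_lit 6335285803) (nat_lit 304) (nat_lit 1443978841) (nat_lit 37) (nat_lit 5) (nat_lit 40) (nat_lit 5) (nat_lit 41) (nat_lit 5) (nat_lit 496) (nat_lit 358) (nat_lit 286))))) (XT.nd (nat_lit 156) (nat_lit 456) (nat_lit 0) (XT.nd (nat_lit 78) (nat_lit 0) (nat_lit 0) (XT.lf (nat_lit 0) (nat_lit 325327901) (nat_lit 152) (nat_lit 2069896218) (nat_lit 228) (nat_lit 13649103833) (nat_lit 34) (nat_lit 5) (nat_lit 36) (nat_lit 5) (nat_lit 37) (nat_lit 5) (nat_lit 497) (nat_lit 358) (nat_lit 285)) (XT.lf (nat_lit 0) (nat_lit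 6328453418) (nat_lit 228) (nat_lit 7648210830) (nat_lit 76) (nat_lit 2291231932) (nat_lit 34) (nat_lit 5) (nat_lit 37) (nat_lit 5) (nat_lit 35) (nat_lit 5) (nat_lit 498) (nat_lit 358) (nat_lit 284))) (XT.nd (nat_lit 78) (nat_lit 228) (nat_lit 0) (XT.lf (nat_lit 0) (nat_lit 525026797) (nat_lit 228) (nat_lit 9802243067) (nat_lit 304) (nat_lit 6168933926) (nat_lit 31) (nat_lit 5) (nat_lit 34) (nat_lit 5) (nat_lit 35) (nat_lit 5) (nat_lit 499) (nat_lit 358) (nat_lit 283)) (XT.nd (nat_lit 78) (nat_lit 228) (nat_lit 0) (XT.lf (nat_lit 0) (nat_lit 8913600472) (nat_lit 228) (nat_lit 5513847212) (nat_lit 304) (nat_lit 2301208506) (nat_lit 31) (nat_lit 5) (nat_lit 34) (nat_lit 5) (nat_lit 35) (nat_lit 5) (nat_lit 500) (nat_lit 358) (nat_lit 282)) (XT.lf (nat_lit 0) (nat_lit 448207893) (nat_lit 152) (nat_lit 1147461960) (nat_lit 228) (nat_lit 15370413257) (nat_lit 28) (nat_lit 5) (nat_lit 30) (nat_lit 5) (nat_lit 31)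 (nat_lit 5) (nat_lit 501) (nat_lit 358) (nat_lit 281)))))) (XT.nd (nat_lit 53118) (nat_lit 0) (nat_lit 21508) (XT.nd (nat_lit 156) (nat_lit 380) (nat_lit 0) (XT.nd (nat_lit 78) (nat_lit 0) (nat_lit 0) (XT.lf (nat_lit 0) (nat_lit 5584515676) (nat_lit 228) (nat_lit 8312891964) (nat_lit 76) (nat_lit 3309655821) (nat_lit 28) (nat_lit 5) (nat_lit 31) (nat_lit 5) (nat_lit 29) (nat_lit 5) (nat_lit 502) (nat_lit 358) (nat_lit 280)) (XT.lf (nat_lit 0) (nat_lit 9631872262) (nat_lit 228) (nat_lit 1702936) (nat_lit 76) (nat_lit 7819719401) (nat_lit 28) (nat_lit 5) (nat_lit 31) (nat_lit 5) (nat_lit 29) (nat_lit 5) (nat_lit 503) (nat_lit 358) (nat_lit 279))) (XT.nd (nat_lit 78) (nat_lit 228) (nat_lit 0) (XT.lf (nat_lit 0) (nat_lit 8538383676) (nat_lit 152) (nat_lit 5248929901) (nat_lit 228) (nat_lit 3916599775) (nat_lit 26) (nat_lit 5) (nat_lit 28) (nat_lit 5) (nat_lit 29) (nat_lit 5) (nat_lit 504) (nat_lit 358) (nat_lit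 278)) (XT.nd (nat_lit 78) (nat_lit 152) (nat_lit 0) (XT.lf (nat_lit 0) (nat_lit 37207149) (nat_lit 228) (nat_lit 760045042) (nat_lit 76) (nat_lit 17162854041) (nat_lit 25) (nat_lit 5) (nat_lit 28) (nat_lit 5) (nat_lit 26) (nat_lit 5) (nat_lit 505) (nat_lit 358) (nat_lit 277)) (XT.lf (nat_lit 0) (nat_lit 4065591640) (nat_lit 228) (nat_lit 10403060574) (nat_lit 76) (nat_lit 3751299500) (nat_lit 23) (nat_lit 5) (nat_lit 26) (nat_lit 5) (nat_lit 24) (nat_lit 5) (nat_lit 506) (nat_lit 358) (nat_lit 276))))) (XT.nd (nat_lit 156) (nat_lit 1672) (nat_lit 0) (XT.nd (nat_lit 78) (nat_lit 912) (nat_lit 0) (XT.lf (nat_lit 0) (nat_lit 1305503734) (nat_lit 912) (nat_lit 1181308897) (nat_lit 912) (nat_lit 1181308897) (nat_lit 340) (nat_lit 4) (nat_lit 352) (nat_lit 5) (nat_lit 352) (nat_lit 4) (nat_lit 422) (nat_lit 359) (nat_lit 359)) (XT.lf (nat_lit 0) (nat_lit 492538900) (nat_lit 836) (nat_lit 520697322) (nat_lit 912)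 (nat_lit 6367605149) (nat_lit 328) (nat_lit 5) (nat_lit 339) (nat_lit 5) (nat_lit 340) (nat_lit 4) (nat_lit 423) (nat_lit 359) (nat_lit 358))) (XT.nd (nat_lit 78) (nat_lit 1672) (nat_lit 0) (XT.lf (nat_lit 0) (nat_lit 4400725017) (nat_lit 912) (nat_lit 1642670797) (nat_lit 0) (nat_lit 1383154366) (nat_lit 328) (nat_lit 5) (nat_lit 340) (nat_lit 4) (nat_lit 328) (nat_lit 4) (nat_lit 424) (nat_lit 359) (nat_lit 357)) (XT.nd (nat_lit 78) (nat_lit 760) (nat_lit 0) (XT.lf (nat_lit 0) (nat_lit 341108265) (nat_lit 912) (nat_lit 3793087695) (nat_lit 76) (nat_lit 3339704886) (nat_lit 316) (nat_lit 5) (nat_lit 328) (nat_lit 5) (nat_lit 317) (nat_lit 4) (nat_lit 425) (nat_lit 359) (nat_lit 356)) (XT.lf (nat_lit 0) (nat_lit 1541100493) (nat_lit 760) (nat_lit 2151506362) (nat_lit 836) (nat_lit 3830080095) (nat_lit 306) (nat_lit 5) (nat_lit 316) (nat_lit 5) (nat_lit 317) (nat_lit 4) (nat_lit 426) (nat_lit 359) (nat_lit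 355))))))) (XT.nd (nat_lit 780) (nat_lit 4864) (nat_lit 0) (XT.nd (nat_lit 390) (nat_lit 2812) (nat_lit 0) (XT.nd (nat_lit 156) (nat_lit 1596) (nat_lit 0) (XT.nd (nat_lit 78) (nat_lit 836) (nat_lit 0) (XT.lf (nat_lit 0) (nat_lit 6963794346) (nat_lit 760) (nat_lit 110188306) (nat_lit 836) (nat_lit 499251613) (nat_lit 306) (nat_lit 5) (nat_lit 316) (nat_lit 5) (nat_lit 317) (nat_lit 4) (nat_lit 427) (nat_lit 359) (nat_lit 354)) (XT.lf (nat_lit 0) (nat_lit 2842907920) (nat_lit 836) (nat_lit 2792359527) (nat_lit 76) (nat_lit 1989535031) (nat_lit 295) (nat_lit 5) (nat_lit 306) (nat_lit 5) (nat_lit 296) (nat_lit 4) (nat_lit 428) (nat_lit 359) (nat_lit 353))) (XT.nd (nat_lit 78) (nat_lit 836) (nat_lit 0) (XT.lf (nat_lit 0) (nat_lit 2675278323) (nat_lit 760) (nat_lit 3531060839) (nat_lit 836) (nat_lit 1471814610) (nat_lit 285) (nat_lit 5) (nat_lit 295) (nat_lit 5) (nat_lit 296) (nat_lit 4) (nat_lit 429) (nat_lit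 359) (nat_lit 352)) (XT.nd (nat_lit 78) (nat_lit 0) (nat_lit 0) (XT.lf (nat_lit 0) (nat_lit 481512180) (nat_lit 760) (nat_lit 1359166272) (nat_lit 836) (nat_lit 5892460997) (nat_lit 274) (nat_lit 5) (nat_lit 284) (nat_lit 5) (nat_lit 285) (nat_lit 5) (nat_lit 430) (nat_lit 359) (nat_lit 351)) (XT.lf (nat_lit 0) (nat_lit 5178961666) (nat_lit 836) (nat_lit 1731629080) (nat_lit 76) (nat_lit 878892240) (nat_lit 274) (nat_lit 5) (nat_lit 285) (nat_lit 5) (nat_lit 275) (nat_lit 4) (nat_lit 431) (nat_lit 359) (nat_lit 350))))) (XT.nd (nat_lit 156) (nat_lit 1368) (nat_lit 0) (XT.nd (nat_lit 78) (nat_lit 684) (nat_lit 0) (XT.lf (nat_lit 0) (nat_lit 702379100) (nat_lit 760) (nat_lit 3981130042) (nat_lit 76) (nat_lit 3163884991) (nat_lit 264) (nat_lit 5) (nat_lit 274) (nat_lit 5) (nat_lit 265) (nat_lit 5) (nat_lit 432) (nat_lit 359) (nat_lit 349)) (XT.lf (nat_lit 0) (nat_lit 1627418892) (nat_lit 684) (nat_lit 2382800818)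 (nat_lit 760) (nat_lit 3896661447) (nat_lit 255) (nat_lit 5) (nat_lit 264) (nat_lit 5) (nat_lit 265) (nat_lit 5) (nat_lit 433) (nat_lit 359) (nat_lit 348))) (XT.nd (nat_lit 78) (nat_lit 1368) (nat_lit 0) (XT.lf (nat_lit 0) (nat_lit 7332647510) (nat_lit 684) (nat_lit 20325326) (nat_lit 760) (nat_lit 615244786) (nat_lit 255) (nat_lit 5) (nat_lit 264) (nat_lit 5) (nat_lit 265) (nat_lit 5) (nat_lit 434) (nat_lit 359) (nat_lit 347)) (XT.nd (nat_lit 78) (nat_lit 684) (nat_lit 0) (XT.lf (nat_lit 0) (nat_lit 2687635759) (nat_lit 684) (nat_lit 2945235129) (nat_lit 76) (nat_lit 2397755380) (nat_lit 246) (nat_lit 5) (nat_lit 255) (nat_lit 5) (nat_lit 247) (nat_lit 5) (nat_lit 435) (nat_lit 359) (nat_lit 346)) (XT.lf (nat_lit 0) (nat_lit 2798127482) (nat_lit 684) (nat_lit 3216178621) (nat_lit 760) (nat_lit 2080609048) (nat_lit 237) (nat_lit 5) (nat_lit 246) (nat_lit 5) (nat_lit 247) (nat_lit 5) (nat_lit 436) (nat_lit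 359) (nat_lit 345)))))) (XT.nd (nat_lit 390) (nat_lit 2964) (nat_lit 0) (XT.nd (nat_lit 156) (nat_lit 1216) (nat_lit 0) (XT.nd (nat_lit 78) (nat_lit 0) (nat_lit 0) (XT.lf (nat_lit 0) (nat_lit 464201362) (nat_lit 608) (nat_lit 732999733) (nat_lit 684) (nat_lit 6963827599) (nat_lit 228) (nat_lit 5) (nat_lit 236) (nat_lit 5) (nat_lit 237) (nat_lit 5) (nat_lit 437) (nat_lit 359) (nat_lit 344)) (XT.lf (nat_lit 0) (nat_lit 4504392715) (nat_lit 684) (nat_lit 1911686755) (nat_lit 76) (nat_lit 1812307200) (nat_lit 228) (nat_lit 5) (nat_lit 237) (nat_lit 5) (nat_lit 229) (nat_lit 5) (nat_lit 438) (nat_lit 359) (nat_lit 343))) (XT.nd (nat_lit 78) (nat_lit 608) (nat_lit 0) (XT.lf (nat_lit 0) (nat_lit 3967272423) (nat_lit 608) (nat_lit 3886355647) (nat_lit 684) (nat_lit 443976042) (nat_lit 220) (nat_lit 5) (nat_lit 228) (nat_lit 5) (nat_lit 229) (nat_lit 5) (nat_lit 439) (nat_lit 359) (nat_lit 342)) (XT.nd (nat_lit 78)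 (nat_lit 0) (nat_lit 0) (XT.lf (nat_lit 0) (nat_lit 1553869714) (nat_lit 532) (nat_lit 1278246376) (nat_lit 608) (nat_lit 5536371568) (nat_lit 212) (nat_lit 5) (nat_lit 219) (nat_lit 5) (nat_lit 220) (nat_lit 5) (nat_lit 440) (nat_lit 359) (nat_lit 341)) (XT.lf (nat_lit 0) (nat_lit 6152065340) (nat_lit 608) (nat_lit 907771113) (nat_lit 76) (nat_lit 1381236681) (nat_lit 212) (nat_lit 5) (nat_lit 220) (nat_lit 5) (nat_lit 213) (nat_lit 5) (nat_lit 441) (nat_lit 359) (nat_lit 340))))) (XT.nd (nat_lit 234) (nat_lit 1216) (nat_lit 0) (XT.nd (nat_lit 78) (nat_lit 1064) (nat_lit 0) (XT.lf (nat_lit 0) (nat_lit 998512782) (nat_lit 684) (nat_lit 3414744521) (nat_lit 76) (nat_lit 4101974981) (nat_lit 203) (nat_lit 5) (nat_lit 212) (nat_lit 5) (nat_lit 204) (nat_lit 5) (nat_lit 442) (nat_lit 359) (nat_lit 339)) (XT.nd (nat_lit 78) (nat_lit 532) (nat_lit 0) (XT.lf (nat_lit 0) (nat_lit 2600554746) (nat_lit 532) (nat_lit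 1690954059) (nat_lit 608) (nat_lit 4299682619) (nat_lit 196) (nat_lit 5) (nat_lit 203) (nat_lit 5) (nat_lit 204) (nat_lit 5) (nat_lit 443) (nat_lit 359) (nat_lit 338)) (XT.lf (nat_lit 0) (nat_lit 38209653) (nat_lit 532) (nat_lit 7590332244) (nat_lit 608) (nat_lit 1040590689) (nat_lit 189) (nat_lit 5) (nat_lit 196) (nat_lit 5) (nat_lit 197) (nat_lit 5) (nat_lit 444) (nat_lit 359) (nat_lit 337)))) (XT.nd (nat_lit 78) (nat_lit 1140) (nat_lit 0) (XT.lf (nat_lit 0) (nat_lit 2253418769) (nat_lit 608) (nat_lit 2574869134) (nat_lit 76) (nat_lit 3920079752) (nat_lit 188) (nat_lit 5) (nat_lit 196) (nat_lit 5) (nat_lit 189) (nat_lit 5) (nat_lit 445) (nat_lit 359) (nat_lit 336)) (XT.nd (nat_lit 78) (nat_lit 608) (nat_lit 0) (XT.lf (nat_lit 0) (nat_lit 3574067029) (nat_lit 532) (nat_lit 1997566980) (nat_lit 608) (nat_lit 3257995528) (nat_lit 181) (nat_lit 5) (nat_lit 188) (nat_lit 5) (nat_lit 189) (nat_lit 5) (nat_lit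 446) (nat_lit 359) (nat_lit 335)) (XT.lf (nat_lit 0) (nat_lit 21497421) (nat_lit 608) (nat_lit 8007099349) (nat_lit 76) (nat_lit 884370638) (nat_lit 173) (nat_lit 5) (nat_lit 181) (nat_lit 5) (nat_lit 174) (nat_lit 5) (nat_lit 447) (nat_lit 359) (nat_lit 334))))))))
noncomputable def xc45 : XT := (XT.nd (nat_lit 1560) (nat_lit 3572) (nat_lit 0) (XT.nd (nat_lit 780) (nat_lit 2736) (nat_lit 0) (XT.nd (nat_lit 390) (nat_lit 1444) (nat_lit 0) (XT.nd (nat_lit 156) (nat_lit 988) (nat_lit 0) (XT.nd (nat_lit 78) (nat_lit 456) (nat_lit 0) (XT.lf (nat_lit 0) (nat_lit 3321406660) (nat_lit 608) (nat_lit 1839470409) (nat_lit 76) (nat_lit 3836718666) (nat_lit 173) (nat_lit 5) (nat_lit 181) (nat_lit 5) (nat_lit 174) (nat_lit 5) (nat_lit 448) (nat_lit 359) (nat_lit 333)) (XT.lf (nat_lit 0) (nat_lit 4442189966) (nat_lit 456) (nat_lit 2224632566) (nat_lit 532) (nat_lit 2417526896) (nat_lit 167) (nat_lit 5) (nat_lit 173) (nat_lit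 5) (nat_lit 174) (nat_lit 5) (nat_lit 449) (nat_lit 359) (nat_lit 332))) (XT.nd (nat_lit 78) (nat_lit 456) (nat_lit 0) (XT.lf (nat_lit 0) (nat_lit 873483892) (nat_lit 532) (nat_lit 7528650668) (nat_lit 76) (nat_lit 771026789) (nat_lit 160) (nat_lit 5) (nat_lit 167) (nat_lit 5) (nat_lit 161) (nat_lit 5) (nat_lit 450) (nat_lit 359) (nat_lit 331)) (XT.nd (nat_lit 78) (nat_lit 456) (nat_lit 0) (XT.lf (nat_lit 0) (nat_lit 4195322168) (nat_lit 532) (nat_lit 1242473730) (nat_lit 76) (nat_lit 3825708098) (nat_lit 160) (nat_lit 5) (nat_lit 167) (nat_lit 5) (nat_lit 161) (nat_lit 5) (nat_lit 451) (nat_lit 359) (nat_lit 330)) (XT.lf (nat_lit 0) (nat_lit 5170336549) (nat_lit 456) (nat_lit 2399043047) (nat_lit 532) (nat_lit 1786579470) (nat_lit 154) (nat_lit 5) (nat_lit 160) (nat_lit 5) (nat_lit 161) (nat_lit 5) (nat_lit 452) (nat_lit 359) (nat_lit 329))))) (XT.nd (nat_lit 156) (nat_lit 912) (nat_lit 0) (XT.nd (nat_lit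 78) (nat_lit 0) (nat_lit 0) (XT.lf (nat_lit 0) (nat_lit 1520083765) (nat_lit 532) (nat_lit 7225120272) (nat_lit 76) (nat_lit 705278998) (nat_lit 147) (nat_lit 5) (nat_lit 154) (nat_lit 5) (nat_lit 148) (nat_lit 5) (nat_lit 453) (nat_lit 359) (nat_lit 328)) (XT.lf (nat_lit 0) (nat_lit 4865900521) (nat_lit 532) (nat_lit 820443028) (nat_lit 76) (nat_lit 3860398892) (nat_lit 147) (nat_lit 5) (nat_lit 154) (nat_lit 5) (nat_lit 148) (nat_lit 5) (nat_lit 454) (nat_lit 359) (nat_lit 327))) (XT.nd (nat_lit 78) (nat_lit 532) (nat_lit 0) (XT.lf (nat_lit 0) (nat_lit 5721178814) (nat_lit 380) (nat_lit 2548285535) (nat_lit 456) (nat_lit 1375665674) (nat_lit 142) (nat_lit 5) (nat_lit 147) (nat_lit 5) (nat_lit 148) (nat_lit 5) (nat_lit 455) (nat_lit 359) (nat_lit 326)) (XT.nd (nat_lit 78) (nat_lit 0) (nat_lit 0) (XT.lf (nat_lit 0) (nat_lit 1950141144) (nat_lit 532) (nat_lit 7135765439) (nat_lit 76) (nat_lit 659724481) (nat_lit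 135) (nat_lit 5) (nat_lit 142) (nat_lit 5) (nat_lit 136) (nat_lit 5) (nat_lit 456) (nat_lit 359) (nat_lit 325)) (XT.lf (nat_lit 0) (nat_lit 5321632493) (nat_lit 532) (nat_lit 612971146) (nat_lit 76) (nat_lit 3913423325) (nat_lit 135) (nat_lit 5) (nat_lit 142) (nat_lit 5) (nat_lit 136) (nat_lit 5) (nat_lit 457) (nat_lit 359) (nat_lit 324)))))) (XT.nd (nat_lit 390) (nat_lit 1064) (nat_lit 0) (XT.nd (nat_lit 156) (nat_lit 836) (nat_lit 0) (XT.nd (nat_lit 78) (nat_lit 456) (nat_lit 0) (XT.lf (nat_lit 0) (nat_lit 6054246432) (nat_lit 380) (nat_lit 2700702787) (nat_lit 456) (nat_lit 1197651763) (nat_lit 130) (nat_lit 5) (nat_lit 135) (nat_lit 5) (nat_lit 136) (nat_lit 5) (nat_lit 458) (nat_lit 359) (nat_lit 323)) (XT.lf (nat_lit 0) (nat_lit 2150125865) (nat_lit 456) (nat_lit 7303218598) (nat_lit 76) (nat_lit 606028391) (nat_lit 124) (nat_lit 5) (nat_lit 130) (nat_lit 5) (nat_lit 125) (nat_lit 5) (nat_lit 459)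 (nat_lit 359) (nat_lit 322))) (XT.nd (nat_lit 78) (nat_lit 836) (nat_lit 0) (XT.lf (nat_lit 0) (nat_lit 5548609230) (nat_lit 456) (nat_lit 663103700) (nat_lit 76) (nat_lit 3956430237) (nat_lit 124) (nat_lit 5) (nat_lit 130) (nat_lit 5) (nat_lit 125) (nat_lit 5) (nat_lit 460) (nat_lit 359) (nat_lit 321)) (XT.nd (nat_lit 78) (nat_lit 456) (nat_lit 0) (XT.lf (nat_lit 0) (nat_lit 6125490568) (nat_lit 380) (nat_lit 2885766995) (nat_lit 456) (nat_lit 1267924147) (nat_lit 119) (nat_lit 5) (nat_lit 124) (nat_lit 5) (nat_lit 125) (nat_lit 5) (nat_lit 461) (nat_lit 359) (nat_lit 320)) (XT.lf (nat_lit 0) (nat_lit 2103960077) (nat_lit 456) (nat_lit 7773941535) (nat_lit 76) (nat_lit 514647230) (nat_lit 113) (nat_lit 5) (nat_lit 119) (nat_lit 5) (nat_lit 114) (nat_lit 5) (nat_lit 462) (nat_lit 359) (nat_lit 319))))) (XT.nd (nat_lit 156) (nat_lit 760) (nat_lit 0) (XT.nd (nat_lit 78) (nat_lit 304) (nat_lit 0) (XT.lf (nat_lit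 0) (nat_lit 5530344206) (nat_lit 456) (nat_lit 1017800527) (nat_lit 76) (nat_lit 3959805935) (nat_lit 113) (nat_lit 5) (nat_lit 119) (nat_lit 5) (nat_lit 114) (nat_lit 5) (nat_lit 463) (nat_lit 359) (nat_lit 318)) (XT.lf (nat_lit 0) (nat_lit 5886808775) (nat_lit 304) (nat_lit 3134369063) (nat_lit 380) (nat_lit 1604579713) (nat_lit 109) (nat_lit 5) (nat_lit 113) (nat_lit 5) (nat_lit 114) (nat_lit 5) (nat_lit 464) (nat_lit 359) (nat_lit 317))) (XT.nd (nat_lit 78) (nat_lit 304) (nat_lit 0) (XT.lf (nat_lit 0) (nat_lit 1792820437) (nat_lit 456) (nat_lit 8598720749) (nat_lit 76) (nat_lit 354536021) (nat_lit 103) (nat_lit 5) (nat_lit 109) (nat_lit 5) (nat_lit 104) (nat_lit 5) (nat_lit 465) (nat_lit 359) (nat_lit 316)) (XT.nd (nat_lit 78) (nat_lit 304) (nat_lit 0) (XT.lf (nat_lit 0) (nat_lit 5247570409) (nat_lit 456) (nat_lit 1728439221) (nat_lit 76) (nat_lit 3892378323) (nat_lit 103) (nat_lit 5) (nat_lit 109) (nat_lit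 5) (nat_lit 104) (nat_lit 5) (nat_lit 466) (nat_lit 359) (nat_lit 315)) (XT.lf (nat_lit 0) (nat_lit 5285526302) (nat_lit 304) (nat_lit 3479126031) (nat_lit 380) (nat_lit 2228642123) (nat_lit 99) (nat_lit 5) (nat_lit 103) (nat_lit 5) (nat_lit 104) (nat_lit 5) (nat_lit 467) (nat_lit 359) (nat_lit 314))))))) (XT.nd (nat_lit 780) (nat_lit 1672) (nat_lit 0) (XT.nd (nat_lit 390) (nat_lit 836) (nat_lit 0) (XT.nd (nat_lit 156) (nat_lit 684) (nat_lit 0) (XT.nd (nat_lit 78) (nat_lit 0) (nat_lit 0) (XT.lf (nat_lit 0) (nat_lit 1194913824) (nat_lit 380) (nat_lit 9833208805) (nat_lit 76) (nat_lit 92836550) (nat_lit 94) (nat_lit 5) (nat_lit 99) (nat_lit 5) (nat_lit 95) (nat_lit 5) (nat_lit 468) (nat_lit 359) (nat_lit 313)) (XT.lf (nat_lit 0) (nat_lit 4678010615) (nat_lit 380) (nat_lit 2851365655) (nat_lit 76) (nat_lit 3721101532) (nat_lit 94) (nat_lit 5) (nat_lit 99) (nat_lit 5) (nat_lit 95) (nat_lit 5) (nat_lit 469) (nat_lit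 359) (nat_lit 312))) (XT.nd (nat_lit 78) (nat_lit 380) (nat_lit 0) (XT.lf (nat_lit 0) (nat_lit 4263828739) (nat_lit 304) (nat_lit 3954709493) (nat_lit 380) (nat_lit 3164306380) (nat_lit 90) (nat_lit 5) (nat_lit 94) (nat_lit 5) (nat_lit 95) (nat_lit 5) (nat_lit 470) (nat_lit 359) (nat_lit 311)) (XT.nd (nat_lit 78) (nat_lit 304) (nat_lit 0) (XT.lf (nat_lit 0) (nat_lit 287378482) (nat_lit 380) (nat_lit 21989534) (nat_lit 76) (nat_lit 11208873845) (nat_lit 89) (nat_lit 5) (nat_lit 94) (nat_lit 5) (nat_lit 90) (nat_lit 5) (nat_lit 471) (nat_lit 359) (nat_lit 310)) (XT.lf (nat_lit 0) (nat_lit 3796118359) (nat_lit 380) (nat_lit 4448496879) (nat_lit 76) (nat_lit 3410718101) (nat_lit 85) (nat_lit 5) (nat_lit 90) (nat_lit 5) (nat_lit 86) (nat_lit 5) (nat_lit 472) (nat_lit 359) (nat_lit 309))))) (XT.nd (nat_lit 156) (nat_lit 608) (nat_lit 0) (XT.nd (nat_lit 78) (nat_lit 0) (nat_lit 0) (XT.lf (nat_lit 0) (nat_lit 2758140459)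 (nat_lit 228) (nat_lit 4598198082) (nat_lit 304) (nat_lit 4439214181) (nat_lit 82) (nat_lit 5) (nat_lit 85) (nat_lit 5) (nat_lit 86) (nat_lit 5) (nat_lit 473) (nat_lit 359) (nat_lit 308)) (XT.lf (nat_lit 0) (nat_lit 10108258121) (nat_lit 228) (nat_lit 870922289) (nat_lit 304) (nat_lit 959579688) (nat_lit 82) (nat_lit 5) (nat_lit 85) (nat_lit 5) (nat_lit 86) (nat_lit 5) (nat_lit 474) (nat_lit 359) (nat_lit 307))) (XT.nd (nat_lit 78) (nat_lit 228) (nat_lit 0) (XT.lf (nat_lit 0) (nat_lit 2572786940) (nat_lit 380) (nat_lit 6587982303) (nat_lit 76) (nat_lit 2923395525) (nat_lit 77) (nat_lit 5) (nat_lit 82) (nat_lit 5) (nat_lit 78) (nat_lit 5) (nat_lit 475) (nat_lit 359) (nat_lit 306)) (XT.nd (nat_lit 78) (nat_lit 0) (nat_lit 0) (XT.lf (nat_lit 0) (nat_lit 698442736) (nat_lit 228) (nat_lit 5449457350) (nat_lit 304) (nat_lit 6084762888) (nat_lit 74) (nat_lit 5) (nat_lit 77) (nat_lit 5) (nat_lit 78) (nat_lit 5)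 (nat_lit 476) (nat_lit 359) (nat_lit 305)) (XT.lf (nat_lit 0) (nat_lit 8159800842) (nat_lit 228) (nat_lit 1641541639) (nat_lit 304) (nat_lit 2582663163) (nat_lit 74) (nat_lit 5) (nat_lit 77) (nat_lit 5) (nat_lit 78) (nat_lit 5) (nat_lit 477) (nat_lit 359) (nat_lit 304)))))) (XT.nd (nat_lit 390) (nat_lit 760) (nat_lit 0) (XT.nd (nat_lit 156) (nat_lit 532) (nat_lit 0) (XT.nd (nat_lit 78) (nat_lit 0) (nat_lit 0) (XT.lf (nat_lit 0) (nat_lit 975023460) (nat_lit 380) (nat_lit 9344929667) (nat_lit 76) (nat_lit 2218333722) (nat_lit 69) (nat_lit 5) (nat_lit 74) (nat_lit 5) (nat_lit 70) (nat_lit 5) (nat_lit 478) (nat_lit 359) (nat_lit 303)) (XT.lf (nat_lit 0) (nat_lit 4572011976) (nat_lit 380) (nat_lit 1966343482) (nat_lit 76) (nat_lit 6156912593) (nat_lit 69) (nat_lit 5) (nat_lit 74) (nat_lit 5) (nat_lit 70) (nat_lit 5) (nat_lit 479) (nat_lit 359) (nat_lit 302))) (XT.nd (nat_lit 78) (nat_lit 304) (nat_lit 0) (XT.lf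 (nat_lit 0) (nat_lit 5574468941) (nat_lit 228) (nat_lit 2666676426) (nat_lit 304) (nat_lit 4614249606) (nat_lit 66) (nat_lit 5) (nat_lit 69) (nat_lit 5) (nat_lit 70) (nat_lit 5) (nat_lit 480) (nat_lit 359) (nat_lit 301)) (XT.nd (nat_lit 78) (nat_lit 76) (nat_lit 0) (XT.lf (nat_lit 0) (nat_lit 209982791) (nat_lit 228) (nat_lit 11760846051) (nat_lit 304) (nat_lit 1048162242) (nat_lit 63) (nat_lit 5) (nat_lit 66) (nat_lit 5) (nat_lit 67) (nat_lit 5) (nat_lit 481) (nat_lit 359) (nat_lit 300)) (XT.lf (nat_lit 0) (nat_lit 2586405138) (nat_lit 304) (nat_lit 5329019351) (nat_lit 76) (nat_lit 5269485680) (nat_lit 62) (nat_lit 5) (nat_lit 66) (nat_lit 5) (nat_lit 63) (nat_lit 5) (nat_lit 482) (nat_lit 359) (nat_lit 299))))) (XT.nd (nat_lit 234) (nat_lit 228) (nat_lit 0) (XT.nd (nat_lit 78) (nat_lit 304) (nat_lit 0) (XT.lf (nat_lit 0) (nat_lit 2265748214) (nat_lit 228) (nat_lit 3993579310) (nat_lit 304) (nat_lit 7095096997)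 (nat_lit 59) (nat_lit 5) (nat_lit 62) (nat_lit 5) (nat_lit 63) (nat_lit 5) (nat_lit 483) (nat_lit 359) (nat_lit 298)) (XT.nd (nat_lit 78) (nat_lit 304) (nat_lit 0) (XT.lf (nat_lit 0) (nat_lit 10006893073) (nat_lit 304) (nat_lit 3500020674) (nat_lit 76) (nat_lit 20400955) (nat_lit 59) (nat_lit 5) (nat_lit 63) (nat_lit 5) (nat_lit 60) (nat_lit 5) (nat_lit 484) (nat_lit 359) (nat_lit 297)) (XT.lf (nat_lit 0) (nat_lit 143844716) (nat_lit 304) (nat_lit 9491657413) (nat_lit 76) (nat_lit 4067758173) (nat_lit 55) (nat_lit 5) (nat_lit 59) (nat_lit 5) (nat_lit 56) (nat_lit 5) (nat_lit 485) (nat_lit 359) (nat_lit 296)))) (XT.nd (nat_lit 78) (nat_lit 228) (nat_lit 0) (XT.lf (nat_lit 0) (nat_lit 3823843500) (nat_lit 304) (nat_lit 1837552245) (nat_lit 76) (nat_lit 8221080661) (nat_lit 55) (nat_lit 5) (nat_lit 59) (nat_lit 5) (nat_lit 56) (nat_lit 5) (nat_lit 486) (nat_lit 359) (nat_lit 295)) (XT.nd (nat_lit 78) (nat_lit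 0) (nat_lit 0) (XT.lf (nat_lit 0) (nat_lit 5992611353) (nat_lit 228) (nat_lit 1590306532) (nat_lit 304) (nat_lit 6482257969) (nat_lit 52) (nat_lit 5) (nat_lit 55) (nat_lit 5) (nat_lit 56) (nat_lit 5) (nat_lit 487) (nat_lit 359) (nat_lit 294)) (XT.lf (nat_lit 0) (nat_lit 11412942723) (nat_lit 304) (nat_lit 319492560) (nat_lit 76) (nat_lit 2519186995) (nat_lit 52) (nat_lit 5) (nat_lit 56) (nat_lit 5) (nat_lit 53) (nat_lit 5) (nat_lit 488) (nat_lit 359) (nat_lit 293))))))))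
noncomputable def xc46 : XT := (XT.nd (nat_lit 54132) (nat_lit 0) (nat_lit 13680) (XT.nd (nat_lit 780) (nat_lit 836) (nat_lit 0) (XT.nd (nat_lit 390) (nat_lit 608) (nat_lit 0) (XT.nd (nat_lit 156) (nat_lit 304) (nat_lit 0) (XT.nd (nat_lit 78) (nat_lit 152) (nat_lit 0) (XT.lf (nat_lit 0) (nat_lit 893833078) (nat_lit 304) (nat_lit 6823732671) (nat_lit 76) (nat_lit 6723574445) (nat_lit 48) (nat_lit 5) (nat_lit 52) (nat_lit 5) (nat_lit 49) (nat_lit 5) (nat_lit 489) (nat_lit 359) (nat_lit 292)) (XT.lf (nat_lit 0) (nat_lit 1022805153) (nat_lit 152) (nat_lit 3616453589) (nat_lit 228) (nat_lit 9995296883) (nat_lit 46) (nat_lit 5) (nat_lit 48) (nat_lit 5) (nat_lit 49) (nat_lit 5) (nat_lit 490) (nat_lit 359) (nat_lit 291))) (XT.nd (nat_lit 78) (nat_lit 304) (nat_lit 0) (XT.lf (nat_lit 0) (nat_lit 8476946093) (nat_lit 228) (nat_lit 5771050659) (nat_lit 76) (nat_lit 583503278) (nat_lit 46) (nat_lit 5) (nat_lit 49) (nat_lit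 5) (nat_lit 47) (nat_lit 5) (nat_lit 491) (nat_lit 359) (nat_lit 290)) (XT.nd (nat_lit 78) (nat_lit 76) (nat_lit 0) (XT.lf (nat_lit 0) (nat_lit 2177228837) (nat_lit 228) (nat_lit 10220459897) (nat_lit 304) (nat_lit 2634576135) (nat_lit 43) (nat_lit 5) (nat_lit 46) (nat_lit 5) (nat_lit 47) (nat_lit 5) (nat_lit 492) (nat_lit 359) (nat_lit 289)) (XT.lf (nat_lit 0) (nat_lit 1151848952) (nat_lit 304) (nat_lit 4935268821) (nat_lit 76) (nat_lit 9149638736) (nat_lit 42) (nat_lit 5) (nat_lit 46) (nat_lit 5) (nat_lit 43) (nat_lit 5) (nat_lit 493) (nat_lit 359) (nat_lit 288))))) (XT.nd (nat_lit 156) (nat_lit 456) (nat_lit 0) (XT.nd (nat_lit 78) (nat_lit 0) (nat_lit 0) (XT.lf (nat_lit 0) (nat_lit 3113422722) (nat_lit 152) (nat_lit 1854447753) (nat_lit 228) (nat_lit 10477343459) (nat_lit 40) (nat_lit 5) (nat_lit 42) (nat_lit 5) (nat_lit 43) (nat_lit 5) (nat_lit 494) (nat_lit 359) (nat_lit 287)) (XT.lf (nat_lit 0) (nat_lit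 8878566354) (nat_lit 228) (nat_lit 4336392913) (nat_lit 76) (nat_lit 2442521162) (nat_lit 40) (nat_lit 5) (nat_lit 43) (nat_lit 5) (nat_lit 41) (nat_lit 5) (nat_lit 495) (nat_lit 359) (nat_lit 286))) (XT.nd (nat_lit 78) (nat_lit 228) (nat_lit 0) (XT.lf (nat_lit 0) (nat_lit 3804577224) (nat_lit 228) (nat_lit 9069514939) (nat_lit 304) (nat_lit 2999774632) (nat_lit 37) (nat_lit 5) (nat_lit 40) (nat_lit 5) (nat_lit 41) (nat_lit 5) (nat_lit 496) (nat_lit 359) (nat_lit 285)) (XT.nd (nat_lit 78) (nat_lit 152) (nat_lit 0) (XT.lf (nat_lit 0) (nat_lit 842714377) (nat_lit 304) (nat_lit 3984615161) (nat_lit 76) (nat_lit 11267167339) (nat_lit 36) (nat_lit 5) (nat_lit 40) (nat_lit 5) (nat_lit 37) (nat_lit 5) (nat_lit 497) (nat_lit 359) (nat_lit 284)) (XT.lf (nat_lit 0) (nat_lit 4246580988) (nat_lit 152) (nat_lit 473196110) (nat_lit 228) (nat_lit 11599414542) (nat_lit 34) (nat_lit 5) (nat_lit 36) (nat_lit 5) (nat_lit 37)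 (nat_lit 5) (nat_lit 498) (nat_lit 359) (nat_lit 283)))))) (XT.nd (nat_lit 390) (nat_lit 380) (nat_lit 0) (XT.nd (nat_lit 156) (nat_lit 228) (nat_lit 0) (XT.nd (nat_lit 78) (nat_lit 228) (nat_lit 0) (XT.lf (nat_lit 0) (nat_lit 8697457894) (nat_lit 228) (nat_lit 3928494869) (nat_lit 76) (nat_lit 3921972337) (nat_lit 34) (nat_lit 5) (nat_lit 37) (nat_lit 5) (nat_lit 35) (nat_lit 5) (nat_lit 499) (nat_lit 359) (nat_lit 282)) (XT.lf (nat_lit 0) (nat_lit 4382729351) (nat_lit 228) (nat_lit 8374530583) (nat_lit 304) (nat_lit 4023928160) (nat_lit 31) (nat_lit 5) (nat_lit 34) (nat_lit 5) (nat_lit 35) (nat_lit 5) (nat_lit 500) (nat_lit 359) (nat_lit 281))) (XT.nd (nat_lit 78) (nat_lit 228) (nat_lit 0) (XT.lf (nat_lit 0) (nat_lit 12863639167) (nat_lit 228) (nat_lit 4032205191) (nat_lit 304) (nat_lit 123326358) (nat_lit 31) (nat_lit 5) (nat_lit 34) (nat_lit 5) (nat_lit 35) (nat_lit 5) (nat_lit 501) (nat_lit 359) (nat_lit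 280)) (XT.nd (nat_lit 78) (nat_lit 0) (nat_lit 0) (XT.lf (nat_lit 0) (nat_lit 3806597446) (nat_lit 228) (nat_lit 13030677603) (nat_lit 76) (nat_lit 424105722) (nat_lit 28) (nat_lit 5) (nat_lit 31) (nat_lit 5) (nat_lit 29) (nat_lit 5) (nat_lit 502) (nat_lit 359) (nat_lit 279)) (XT.lf (nat_lit 0) (nat_lit 7839944501) (nat_lit 228) (nat_lit 4743898789) (nat_lit 76) (nat_lit 4924051652) (nat_lit 28) (nat_lit 5) (nat_lit 31) (nat_lit 5) (nat_lit 29) (nat_lit 5) (nat_lit 503) (nat_lit 359) (nat_lit 278))))) (XT.nd (nat_lit 156) (nat_lit 228) (nat_lit 0) (XT.nd (nat_lit 78) (nat_lit 0) (nat_lit 0) (XT.lf (nat_lit 0) (nat_lit 3708916914) (nat_lit 152) (nat_lit 8241377964) (nat_lit 228) (nat_lit 5809123421) (nat_lit 26) (nat_lit 5) (nat_lit 28) (nat_lit 5) (nat_lit 29) (nat_lit 5) (nat_lit 504) (nat_lit 359) (nat_lit 277)) (XT.lf (nat_lit 0) (nat_lit 12347069970) (nat_lit 152) (nat_lit 3800104191) (nat_lit 228) (nat_lit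 1868717045) (nat_lit 26) (nat_lit 5) (nat_lit 28) (nat_lit 5) (nat_lit 29) (nat_lit 5) (nat_lit 505) (nat_lit 359) (nat_lit 276))) (XT.nd (nat_lit 52650) (nat_lit 0) (nat_lit 25004) (XT.lf (nat_lit 0) (nat_lit 2118506369) (nat_lit 228) (nat_lit 15425669134) (nat_lit 76) (nat_lit 733119862) (nat_lit 23) (nat_lit 5) (nat_lit 26) (nat_lit 5) (nat_lit 24) (nat_lit 5) (nat_lit 506) (nat_lit 359) (nat_lit 275)) (XT.nd (nat_lit 78) (nat_lit 988) (nat_lit 0) (XT.lf (nat_lit 0) (nat_lit 3416046904) (nat_lit 1748) (nat_lit 104839404) (nat_lit 1748) (nat_lit 104839404) (nat_lit 365) (nat_lit 4) (nat_lit 388) (nat_lit 5) (nat_lit 388) (nat_lit 4) (nat_lit 420) (nat_lit 360) (nat_lit 360)) (XT.lf (nat_lit 0) (nat_lit 3148234092) (nat_lit 988) (nat_lit 2582128555) (nat_lit 0) (nat_lit 1562951857) (nat_lit 352) (nat_lit 5) (nat_lit 365) (nat_lit 4) (nat_lit 352) (nat_lit 4) (nat_lit 421) (nat_lit 360) (nat_lit 359)))))))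 (XT.nd (nat_lit 780) (nat_lit 5396) (nat_lit 0) (XT.nd (nat_lit 390) (nat_lit 2432) (nat_lit 0) (XT.nd (nat_lit 156) (nat_lit 1672) (nat_lit 0) (XT.nd (nat_lit 78) (nat_lit 912) (nat_lit 0) (XT.lf (nat_lit 0) (nat_lit 2576727635) (nat_lit 912) (nat_lit 3949833259) (nat_lit 912) (nat_lit 810352755) (nat_lit 340) (nat_lit 4) (nat_lit 352) (nat_lit 5) (nat_lit 352) (nat_lit 4) (nat_lit 422) (nat_lit 360) (nat_lit 358)) (XT.lf (nat_lit 0) (nat_lit 412404205) (nat_lit 836) (nat_lit 2100273271) (nat_lit 912) (nat_lit 4869304968) (nat_lit 328) (nat_lit 5) (nat_lit 339) (nat_lit 5) (nat_lit 340) (nat_lit 4) (nat_lit 423) (nat_lit 360) (nat_lit 357))) (XT.nd (nat_lit 78) (nat_lit 1672) (nat_lit 0) (XT.lf (nat_lit 0) (nat_lit 5679195473) (nat_lit 836) (nat_lit 180332560) (nat_lit 912) (nat_lit 1568998279) (nat_lit 328) (nat_lit 5) (nat_lit 339) (nat_lit 5) (nat_lit 340) (nat_lit 4) (nat_lit 424) (nat_lit 360) (nat_lit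 356)) (XT.nd (nat_lit 78) (nat_lit 760) (nat_lit 0) (XT.lf (nat_lit 0) (nat_lit 1745566448) (nat_lit 912) (nat_lit 3946119398) (nat_lit 76) (nat_lit 1784688629) (nat_lit 316) (nat_lit 5) (nat_lit 328) (nat_lit 5) (nat_lit 317) (nat_lit 4) (nat_lit 425) (nat_lit 360) (nat_lit 355)) (XT.lf (nat_lit 0) (nat_lit 1351582405) (nat_lit 760) (nat_lit 3713482588) (nat_lit 836) (nat_lit 2460756593) (nat_lit 306) (nat_lit 5) (nat_lit 316) (nat_lit 5) (nat_lit 317) (nat_lit 4) (nat_lit 426) (nat_lit 360) (nat_lit 354))))) (XT.nd (nat_lit 156) (nat_lit 1596) (nat_lit 0) (XT.nd (nat_lit 78) (nat_lit 760) (nat_lit 0) (XT.lf (nat_lit 0) (nat_lit 828053638) (nat_lit 836) (nat_lit 841945803) (nat_lit 76) (nat_lit 5906888814) (nat_lit 305) (nat_lit 5) (nat_lit 316) (nat_lit 5) (nat_lit 306) (nat_lit 5) (nat_lit 427) (nat_lit 360) (nat_lit 353)) (XT.lf (nat_lit 0) (nat_lit 4121746362) (nat_lit 836) (nat_lit 3059322927) (nat_lit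 76) (nat_lit 448180526) (nat_lit 295) (nat_lit 5) (nat_lit 306) (nat_lit 5) (nat_lit 296) (nat_lit 4) (nat_lit 428) (nat_lit 360) (nat_lit 352))) (XT.nd (nat_lit 78) (nat_lit 836) (nat_lit 0) (XT.lf (nat_lit 0) (nat_lit 2370415575) (nat_lit 760) (nat_lit 5083123900) (nat_lit 836) (nat_lit 229713805) (nat_lit 285) (nat_lit 5) (nat_lit 295) (nat_lit 5) (nat_lit 296) (nat_lit 4) (nat_lit 429) (nat_lit 360) (nat_lit 351)) (XT.nd (nat_lit 78) (nat_lit 0) (nat_lit 0) (XT.lf (nat_lit 0) (nat_lit 124717156) (nat_lit 760) (nat_lit 2909946512) (nat_lit 836) (nat_lit 4704069155) (nat_lit 274) (nat_lit 5) (nat_lit 284) (nat_lit 5) (nat_lit 285) (nat_lit 5) (nat_lit 430) (nat_lit 360) (nat_lit 350)) (XT.lf (nat_lit 0) (nat_lit 5673092186) (nat_lit 760) (nat_lit 664922577) (nat_lit 836) (nat_lit 1457778529) (nat_lit 274) (nat_lit 5) (nat_lit 284) (nat_lit 5) (nat_lit 285) (nat_lit 5) (nat_lit 431) (nat_lit 360) (nat_lit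 349)))))) (XT.nd (nat_lit 390) (nat_lit 2584) (nat_lit 0) (XT.nd (nat_lit 156) (nat_lit 1368) (nat_lit 0) (XT.nd (nat_lit 78) (nat_lit 684) (nat_lit 0) (XT.lf (nat_lit 0) (nat_lit 1804057358) (nat_lit 760) (nat_lit 4421523333) (nat_lit 76) (nat_lit 1628710560) (nat_lit 264) (nat_lit 5) (nat_lit 274) (nat_lit 5) (nat_lit 265) (nat_lit 5) (nat_lit 432) (nat_lit 360) (nat_lit 348)) (XT.lf (nat_lit 0) (nat_lit 1146788569) (nat_lit 684) (nat_lit 3933519117) (nat_lit 760) (nat_lit 2834119630) (nat_lit 255) (nat_lit 5) (nat_lit 264) (nat_lit 5) (nat_lit 265) (nat_lit 5) (nat_lit 433) (nat_lit 360) (nat_lit 347))) (XT.nd (nat_lit 78) (nat_lit 1292) (nat_lit 0) (XT.lf (nat_lit 0) (nat_lit 413097330) (nat_lit 760) (nat_lit 1160754073) (nat_lit 76) (nat_lit 6402437523) (nat_lit 254) (nat_lit 5) (nat_lit 264) (nat_lit 5) (nat_lit 255) (nat_lit 5) (nat_lit 434) (nat_lit 360) (nat_lit 346)) (XT.nd (nat_lit 78) (nat_lit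 684) (nat_lit 0) (XT.lf (nat_lit 0) (nat_lit 3666308356) (nat_lit 684) (nat_lit 3513841068) (nat_lit 76) (nat_lit 859316509) (nat_lit 246) (nat_lit 5) (nat_lit 255) (nat_lit 5) (nat_lit 247) (nat_lit 5) (nat_lit 435) (nat_lit 360) (nat_lit 345)) (XT.lf (nat_lit 0) (nat_lit 2187774522) (nat_lit 684) (nat_lit 4773755173) (nat_lit 760) (nat_lit 1142870022) (nat_lit 237) (nat_lit 5) (nat_lit 246) (nat_lit 5) (nat_lit 247) (nat_lit 5) (nat_lit 436) (nat_lit 360) (nat_lit 344))))) (XT.nd (nat_lit 234) (nat_lit 1216) (nat_lit 0) (XT.nd (nat_lit 78) (nat_lit 1292) (nat_lit 0) (XT.lf (nat_lit 0) (nat_lit 2092267419) (nat_lit 760) (nat_lit 201711721) (nat_lit 76) (nat_lit 5877035134) (nat_lit 236) (nat_lit 5) (nat_lit 246) (nat_lit 5) (nat_lit 237) (nat_lit 5) (nat_lit 437) (nat_lit 360) (nat_lit 343)) (XT.nd (nat_lit 78) (nat_lit 684) (nat_lit 0) (XT.lf (nat_lit 0) (nat_lit 5360902858) (nat_lit 684) (nat_lit 2614337713)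 (nat_lit 76) (nat_lit 263917806) (nat_lit 228) (nat_lit 5) (nat_lit 237) (nat_lit 5) (nat_lit 229) (nat_lit 5) (nat_lit 438) (nat_lit 360) (nat_lit 342)) (XT.lf (nat_lit 0) (nat_lit 364873200) (nat_lit 684) (nat_lit 5090099242) (nat_lit 76) (nat_lit 2853998027) (nat_lit 219) (nat_lit 5) (nat_lit 228) (nat_lit 5) (nat_lit 220) (nat_lit 5) (nat_lit 439) (nat_lit 360) (nat_lit 341)))) (XT.nd (nat_lit 78) (nat_lit 684) (nat_lit 0) (XT.lf (nat_lit 0) (nat_lit 746973577) (nat_lit 532) (nat_lit 2856492095) (nat_lit 608) (nat_lit 4776978365) (nat_lit 212) (nat_lit 5) (nat_lit 219) (nat_lit 5) (nat_lit 220) (nat_lit 5) (nat_lit 440) (nat_lit 360) (nat_lit 340)) (XT.nd (nat_lit 78) (nat_lit 684) (nat_lit 0) (XT.lf (nat_lit 0) (nat_lit 6702232770) (nat_lit 532) (nat_lit 185958402) (nat_lit 608) (nat_lit 1565556677) (nat_lit 212) (nat_lit 5) (nat_lit 219) (nat_lit 5) (nat_lit 220) (nat_lit 5) (nat_lit 441) (nat_lit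 360) (nat_lit 339)) (XT.lf (nat_lit 0) (nat_lit 1679606232) (nat_lit 684) (nat_lit 4320007842) (nat_lit 76) (nat_lit 2528869694) (nat_lit 203) (nat_lit 5) (nat_lit 212) (nat_lit 5) (nat_lit 204) (nat_lit 5) (nat_lit 442) (nat_lit 360) (nat_lit 338))))))))
noncomputable def xc47 : XT := (XT.nd (nat_lit 1638) (nat_lit 4104) (nat_lit 0) (XT.nd (nat_lit 780) (nat_lit 3116) (nat_lit 0) (XT.nd (nat_lit 390) (nat_lit 1976) (nat_lit 0) (XT.nd (nat_lit 156) (nat_lit 1216) (nat_lit 0) (XT.nd (nat_lit 78) (nat_lit 0) (nat_lit 0) (XT.lf (nat_lit 0) (nat_lit 1649417372) (nat_lit 532) (nat_lit 3291446329) (nat_lit 608) (nat_lit 3664227039) (nat_lit 196) (nat_lit 5) (nat_lit 203) (nat_lit 5) (nat_lit 204) (nat_lit 5) (nat_lit 443) (nat_lit 360) (nat_lit 337)) (XT.lf (nat_lit 0) (nat_lit 7729766376) (nat_lit 532) (nat_lit 515509269) (nat_lit 608) (nat_lit 438421485) (nat_lit 196) (nat_lit 5) (nat_lit 203) (nat_lit 5) (nat_lit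 204) (nat_lit 5) (nat_lit 444) (nat_lit 360) (nat_lit 336))) (XT.nd (nat_lit 78) (nat_lit 608) (nat_lit 0) (XT.lf (nat_lit 0) (nat_lit 2812798670) (nat_lit 608) (nat_lit 3628671159) (nat_lit 76) (nat_lit 2322094319) (nat_lit 188) (nat_lit 5) (nat_lit 196) (nat_lit 5) (nat_lit 189) (nat_lit 5) (nat_lit 445) (nat_lit 360) (nat_lit 335)) (XT.nd (nat_lit 78) (nat_lit 76) (nat_lit 0) (XT.lf (nat_lit 0) (nat_lit 2472709497) (nat_lit 532) (nat_lit 3626421027) (nat_lit 608) (nat_lit 2746345239) (nat_lit 181) (nat_lit 5) (nat_lit 188) (nat_lit 5) (nat_lit 189) (nat_lit 5) (nat_lit 446) (nat_lit 360) (nat_lit 334)) (XT.lf (nat_lit 0) (nat_lit 490064147) (nat_lit 608) (nat_lit 253913687) (nat_lit 76) (nat_lit 8185508422) (nat_lit 180) (nat_lit 5) (nat_lit 188) (nat_lit 5) (nat_lit 181) (nat_lit 5) (nat_lit 447) (nat_lit 360) (nat_lit 333))))) (XT.nd (nat_lit 156) (nat_lit 988) (nat_lit 0) (XT.nd (nat_lit 78) (nat_lit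 456) (nat_lit 0) (XT.lf (nat_lit 0) (nat_lit 3759039067) (nat_lit 608) (nat_lit 3047793404) (nat_lit 76) (nat_lit 2207912170) (nat_lit 173) (nat_lit 5) (nat_lit 181) (nat_lit 5) (nat_lit 174) (nat_lit 5) (nat_lit 448) (nat_lit 360) (nat_lit 332)) (XT.lf (nat_lit 0) (nat_lit 3184573030) (nat_lit 456) (nat_lit 3887773121) (nat_lit 532) (nat_lit 2029805506) (nat_lit 167) (nat_lit 5) (nat_lit 173) (nat_lit 5) (nat_lit 174) (nat_lit 5) (nat_lit 449) (nat_lit 360) (nat_lit 331))) (XT.nd (nat_lit 78) (nat_lit 456) (nat_lit 0) (XT.lf (nat_lit 0) (nat_lit 321415690) (nat_lit 456) (nat_lit 897154782) (nat_lit 532) (nat_lit 7973104468) (nat_lit 160) (nat_lit 5) (nat_lit 166) (nat_lit 5) (nat_lit 167) (nat_lit 5) (nat_lit 450) (nat_lit 360) (nat_lit 330)) (XT.nd (nat_lit 78) (nat_lit 456) (nat_lit 0) (XT.lf (nat_lit 0) (nat_lit 4510926960) (nat_lit 532) (nat_lit 2611376245) (nat_lit 76) (nat_lit 2160314522) (nat_lit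 160) (nat_lit 5) (nat_lit 167) (nat_lit 5) (nat_lit 161) (nat_lit 5) (nat_lit 451) (nat_lit 360) (nat_lit 329)) (XT.lf (nat_lit 0) (nat_lit 3750341071) (nat_lit 456) (nat_lit 4102230761) (nat_lit 532) (nat_lit 1523159515) (nat_lit 154) (nat_lit 5) (nat_lit 160) (nat_lit 5) (nat_lit 161) (nat_lit 5) (nat_lit 452) (nat_lit 360) (nat_lit 328)))))) (XT.nd (nat_lit 390) (nat_lit 1672) (nat_lit 0) (XT.nd (nat_lit 156) (nat_lit 912) (nat_lit 0) (XT.nd (nat_lit 78) (nat_lit 0) (nat_lit 0) (XT.lf (nat_lit 0) (nat_lit 736455274) (nat_lit 456) (nat_lit 1006146346) (nat_lit 532) (nat_lit 7728378334) (nat_lit 147) (nat_lit 5) (nat_lit 153) (nat_lit 5) (nat_lit 154) (nat_lit 5) (nat_lit 453) (nat_lit 360) (nat_lit 327)) (XT.lf (nat_lit 0) (nat_lit 5058957615) (nat_lit 532) (nat_lit 2356078845) (nat_lit 76) (nat_lit 2152801821) (nat_lit 147) (nat_lit 5) (nat_lit 154) (nat_lit 5) (nat_lit 148) (nat_lit 5) (nat_lit 454)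 (nat_lit 360) (nat_lit 326))) (XT.nd (nat_lit 78) (nat_lit 532) (nat_lit 0) (XT.lf (nat_lit 0) (nat_lit 4132586780) (nat_lit 380) (nat_lit 4297141848) (nat_lit 456) (nat_lit 1237162605) (nat_lit 142) (nat_lit 5) (nat_lit 147) (nat_lit 5) (nat_lit 148) (nat_lit 5) (nat_lit 455) (nat_lit 360) (nat_lit 325)) (XT.nd (nat_lit 78) (nat_lit 0) (nat_lit 0) (XT.lf (nat_lit 0) (nat_lit 948982312) (nat_lit 456) (nat_lit 1100291247) (nat_lit 532) (nat_lit 7718860958) (nat_lit 135) (nat_lit 5) (nat_lit 141) (nat_lit 5) (nat_lit 142) (nat_lit 5) (nat_lit 456) (nat_lit 360) (nat_lit 324)) (XT.lf (nat_lit 0) (nat_lit 5391387111) (nat_lit 532) (nat_lit 2321607721) (nat_lit 76) (nat_lit 2158132106) (nat_lit 135) (nat_lit 5) (nat_lit 142) (nat_lit 5) (nat_lit 136) (nat_lit 5) (nat_lit 457) (nat_lit 360) (nat_lit 323))))) (XT.nd (nat_lit 234) (nat_lit 836) (nat_lit 0) (XT.nd (nat_lit 78) (nat_lit 456) (nat_lit 0) (XT.lf (nat_lit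 0) (nat_lit 4290722464) (nat_lit 380) (nat_lit 4500733389) (nat_lit 456) (nat_lit 1184918852) (nat_lit 130) (nat_lit 5) (nat_lit 135) (nat_lit 5) (nat_lit 136) (nat_lit 5) (nat_lit 458) (nat_lit 360) (nat_lit 322)) (XT.nd (nat_lit 78) (nat_lit 0) (nat_lit 0) (XT.lf (nat_lit 0) (nat_lit 916817386) (nat_lit 380) (nat_lit 1208191934) (nat_lit 456) (nat_lit 7958897702) (nat_lit 124) (nat_lit 5) (nat_lit 129) (nat_lit 5) (nat_lit 130) (nat_lit 5) (nat_lit 459) (nat_lit 360) (nat_lit 321)) (XT.lf (nat_lit 0) (nat_lit 5494076298) (nat_lit 456) (nat_lit 2551140176) (nat_lit 76) (nat_lit 2148057470) (nat_lit 124) (nat_lit 5) (nat_lit 130) (nat_lit 5) (nat_lit 125) (nat_lit 5) (nat_lit 460) (nat_lit 360) (nat_lit 320)))) (XT.nd (nat_lit 78) (nat_lit 456) (nat_lit 0) (XT.lf (nat_lit 0) (nat_lit 4180563851) (nat_lit 380) (nat_lit 4742384004) (nat_lit 456) (nat_lit 1382048289) (nat_lit 119) (nat_lit 5) (nat_lit 124)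 (nat_lit 5) (nat_lit 125) (nat_lit 5) (nat_lit 461) (nat_lit 360) (nat_lit 319)) (XT.nd (nat_lit 78) (nat_lit 0) (nat_lit 0) (XT.lf (nat_lit 0) (nat_lit 593998573) (nat_lit 380) (nat_lit 1359697498) (nat_lit 456) (nat_lit 8465442561) (nat_lit 113) (nat_lit 5) (nat_lit 118) (nat_lit 5) (nat_lit 119) (nat_lit 5) (nat_lit 462) (nat_lit 360) (nat_lit 318)) (XT.lf (nat_lit 0) (nat_lit 5350311921) (nat_lit 456) (nat_lit 3091785390) (nat_lit 76) (nat_lit 2093046164) (nat_lit 113) (nat_lit 5) (nat_lit 119) (nat_lit 5) (nat_lit 114) (nat_lit 5) (nat_lit 463) (nat_lit 360) (nat_lit 317))))))) (XT.nd (nat_lit 780) (nat_lit 1748) (nat_lit 0) (XT.nd (nat_lit 390) (nat_lit 1216) (nat_lit 0) (XT.nd (nat_lit 156) (nat_lit 760) (nat_lit 0) (XT.nd (nat_lit 78) (nat_lit 76) (nat_lit 0) (XT.lf (nat_lit 0) (nat_lit 3753855337) (nat_lit 304) (nat_lit 5052912039) (nat_lit 380) (nat_lit 1846878048) (nat_lit 109) (nat_lit 5) (nat_lit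 113) (nat_lit 5) (nat_lit 114) (nat_lit 5) (nat_lit 464) (nat_lit 360) (nat_lit 316)) (XT.lf (nat_lit 0) (nat_lit 1516941031) (nat_lit 380) (nat_lit 68796562) (nat_lit 76) (nat_lit 9189001338) (nat_lit 108) (nat_lit 5) (nat_lit 113) (nat_lit 5) (nat_lit 109) (nat_lit 5) (nat_lit 465) (nat_lit 360) (nat_lit 315))) (XT.nd (nat_lit 78) (nat_lit 380) (nat_lit 0) (XT.lf (nat_lit 0) (nat_lit 4940603009) (nat_lit 456) (nat_lit 3995087672) (nat_lit 76) (nat_lit 1961987826) (nat_lit 103) (nat_lit 5) (nat_lit 109) (nat_lit 5) (nat_lit 104) (nat_lit 5) (nat_lit 466) (nat_lit 360) (nat_lit 314)) (XT.nd (nat_lit 78) (nat_lit 76) (nat_lit 0) (XT.lf (nat_lit 0) (nat_lit 2957751567) (nat_lit 304) (nat_lit 5464881938) (nat_lit 380) (nat_lit 2600659462) (nat_lit 99) (nat_lit 5) (nat_lit 103) (nat_lit 5) (nat_lit 104) (nat_lit 5) (nat_lit 467) (nat_lit 360) (nat_lit 313)) (XT.lf (nat_lit 0) (nat_lit 798917977) (nat_lit 380)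 (nat_lit 1114548437) (nat_lit 76) (nat_lit 9238123398) (nat_lit 98) (nat_lit 5) (nat_lit 103) (nat_lit 5) (nat_lit 99) (nat_lit 5) (nat_lit 468) (nat_lit 360) (nat_lit 312))))) (XT.nd (nat_lit 156) (nat_lit 608) (nat_lit 0) (XT.nd (nat_lit 78) (nat_lit 304) (nat_lit 0) (XT.lf (nat_lit 0) (nat_lit 4242450400) (nat_lit 380) (nat_lit 5317576757) (nat_lit 76) (nat_lit 1721879096) (nat_lit 94) (nat_lit 5) (nat_lit 99) (nat_lit 5) (nat_lit 95) (nat_lit 5) (nat_lit 469) (nat_lit 360) (nat_lit 311)) (XT.lf (nat_lit 0) (nat_lit 1734250294) (nat_lit 304) (nat_lit 6012931709) (nat_lit 380) (nat_lit 3667813382) (nat_lit 90) (nat_lit 5) (nat_lit 94) (nat_lit 5) (nat_lit 95) (nat_lit 5) (nat_lit 470) (nat_lit 360) (nat_lit 310))) (XT.nd (nat_lit 78) (nat_lit 608) (nat_lit 0) (XT.lf (nat_lit 0) (nat_lit 8938609506) (nat_lit 304) (nat_lit 2380324336) (nat_lit 380) (nat_lit 231886628) (nat_lit 90) (nat_lit 5) (nat_lit 94)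 (nat_lit 5) (nat_lit 95) (nat_lit 5) (nat_lit 471) (nat_lit 360) (nat_lit 309)) (XT.nd (nat_lit 78) (nat_lit 228) (nat_lit 0) (XT.lf (nat_lit 0) (nat_lit 3230087002) (nat_lit 380) (nat_lit 7121370548) (nat_lit 76) (nat_lit 1337486692) (nat_lit 85) (nat_lit 5) (nat_lit 90) (nat_lit 5) (nat_lit 86) (nat_lit 5) (nat_lit 472) (nat_lit 360) (nat_lit 308)) (XT.lf (nat_lit 0) (nat_lit 19570968) (nat_lit 228) (nat_lit 6734124554) (nat_lit 304) (nat_lit 5076206252) (nat_lit 82) (nat_lit 5) (nat_lit 85) (nat_lit 5) (nat_lit 86) (nat_lit 5) (nat_lit 473) (nat_lit 360) (nat_lit 307)))))) (XT.nd (nat_lit 390) (nat_lit 760) (nat_lit 0) (XT.nd (nat_lit 156) (nat_lit 608) (nat_lit 0) (XT.nd (nat_lit 78) (nat_lit 380) (nat_lit 0) (XT.lf (nat_lit 0) (nat_lit 7340105554) (nat_lit 228) (nat_lit 3017777947) (nat_lit 304) (nat_lit 1615604525) (nat_lit 82) (nat_lit 5) (nat_lit 85) (nat_lit 5) (nat_lit 86) (nat_lit 5) (nat_lit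 474) (nat_lit 360) (nat_lit 306)) (XT.lf (nat_lit 0) (nat_lit 1874186100) (nat_lit 380) (nat_lit 9474836203) (nat_lit 76) (nat_lit 770984750) (nat_lit 77) (nat_lit 5) (nat_lit 82) (nat_lit 5) (nat_lit 78) (nat_lit 5) (nat_lit 475) (nat_lit 360) (nat_lit 305))) (XT.nd (nat_lit 78) (nat_lit 608) (nat_lit 0) (XT.lf (nat_lit 0) (nat_lit 5426451795) (nat_lit 380) (nat_lit 2226932297) (nat_lit 76) (nat_lit 4615583582) (nat_lit 77) (nat_lit 5) (nat_lit 82) (nat_lit 5) (nat_lit 78) (nat_lit 5) (nat_lit 476) (nat_lit 360) (nat_lit 304)) (XT.nd (nat_lit 78) (nat_lit 380) (nat_lit 0) (XT.lf (nat_lit 0) (nat_lit 5175663284) (nat_lit 228) (nat_lit 3871437034) (nat_lit 304) (nat_lit 3373871261) (nat_lit 74) (nat_lit 5) (nat_lit 77) (nat_lit 5) (nat_lit 78) (nat_lit 5) (nat_lit 477) (nat_lit 360) (nat_lit 303)) (XT.lf (nat_lit 0) (nat_lit 122974044) (nat_lit 304) (nat_lit 18681999) (nat_lit 380) (nat_lit 12434755354) (nat_lit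 69) (nat_lit 5) (nat_lit 73) (nat_lit 5) (nat_lit 74) (nat_lit 5) (nat_lit 478) (nat_lit 360) (nat_lit 302))))) (XT.nd (nat_lit 234) (nat_lit 532) (nat_lit 0) (XT.nd (nat_lit 78) (nat_lit 228) (nat_lit 0) (XT.lf (nat_lit 0) (nat_lit 3720707401) (nat_lit 380) (nat_lit 5103668312) (nat_lit 76) (nat_lit 3909380679) (nat_lit 69) (nat_lit 5) (nat_lit 74) (nat_lit 5) (nat_lit 70) (nat_lit 5) (nat_lit 479) (nat_lit 360) (nat_lit 301)) (XT.nd (nat_lit 78) (nat_lit 0) (nat_lit 0) (XT.lf (nat_lit 0) (nat_lit 2366702661) (nat_lit 228) (nat_lit 4984844651) (nat_lit 304) (nat_lit 5543106820) (nat_lit 66) (nat_lit 5) (nat_lit 69) (nat_lit 5) (nat_lit 70) (nat_lit 5) (nat_lit 480) (nat_lit 360) (nat_lit 300)) (XT.lf (nat_lit 0) (nat_lit 9998730200) (nat_lit 228) (nat_lit 1055561896) (nat_lit 304) (nat_lit 2004501774) (nat_lit 66) (nat_lit 5) (nat_lit 69) (nat_lit 5) (nat_lit 70) (nat_lit 5) (nat_lit 481) (nat_lit 360)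 (nat_lit 299)))) (XT.nd (nat_lit 78) (nat_lit 228) (nat_lit 0) (XT.lf (nat_lit 0) (nat_lit 1598150179) (nat_lit 304) (nat_lit 8695254515) (nat_lit 76) (nat_lit 2932326270) (nat_lit 62) (nat_lit 5) (nat_lit 66) (nat_lit 5) (nat_lit 63) (nat_lit 5) (nat_lit 482) (nat_lit 360) (nat_lit 298)) (XT.nd (nat_lit 78) (nat_lit 228) (nat_lit 0) (XT.lf (nat_lit 0) (nat_lit 5239362548) (nat_lit 304) (nat_lit 1158156138) (nat_lit 76) (nat_lit 6998365402) (nat_lit 62) (nat_lit 5) (nat_lit 66) (nat_lit 5) (nat_lit 63) (nat_lit 5) (nat_lit 483) (nat_lit 360) (nat_lit 297)) (XT.lf (nat_lit 0) (nat_lit 6560365702) (nat_lit 228) (nat_lit 2401962473) (nat_lit 304) (nat_lit 4606942574) (nat_lit 59) (nat_lit 5) (nat_lit 62) (nat_lit 5) (nat_lit 63) (nat_lit 5) (nat_lit 484) (nat_lit 360) (nat_lit 296))))))))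
noncomputable def xc48 : XT := (XT.nd (nat_lit 1560) (nat_lit 228) (nat_lit 0) (XT.nd (nat_lit 780) (nat_lit 1064) (nat_lit 0) (XT.nd (nat_lit 390) (nat_lit 532) (nat_lit 0) (XT.nd (nat_lit 156) (nat_lit 456) (nat_lit 0) (XT.nd (nat_lit 78) (nat_lit 76) (nat_lit 0) (XT.lf (nat_lit 0) (nat_lit 644999346) (nat_lit 228) (nat_lit 12104127697) (nat_lit 304) (nat_lit 997219500) (nat_lit 56) (nat_lit 5) (nat_lit 59) (nat_lit 5) (nat_lit 60) (nat_lit 5) (nat_lit 485) (nat_lit 360) (nat_lit 295)) (XT.lf (nat_lit 0) (nat_lit 2679307312) (nat_lit 304) (nat_lit 5468301008) (nat_lit 76) (nat_lit 5778419060) (nat_lit 55) (nat_lit 5) (nat_lit 59) (nat_lit 5) (nat_lit 56) (nat_lit 5) (nat_lit 486) (nat_lit 360) (nat_lit 294))) (XT.nd (nat_lit 78) (nat_lit 228) (nat_lit 0) (XT.lf (nat_lit 0) (nat_lit 2286259405) (nat_lit 228) (nat_lit 4111832035) (nat_lit 304) (nat_lit 7711445333) (nat_lit 52) (nat_lit 5) (nat_lit 55) (nat_lit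 5) (nat_lit 56) (nat_lit 5) (nat_lit 487) (nat_lit 360) (nat_lit 293)) (XT.nd (nat_lit 78) (nat_lit 228) (nat_lit 0) (XT.lf (nat_lit 0) (nat_lit 10195593061) (nat_lit 304) (nat_lit 4080906144) (nat_lit 76) (nat_lit 20138517) (nat_lit 52) (nat_lit 5) (nat_lit 56) (nat_lit 5) (nat_lit 53) (nat_lit 5) (nat_lit 488) (nat_lit 360) (nat_lit 292)) (XT.lf (nat_lit 0) (nat_lit 3785110797) (nat_lit 228) (nat_lit 10303753141) (nat_lit 304) (nat_lit 398228408) (nat_lit 49) (nat_lit 5) (nat_lit 52) (nat_lit 5) (nat_lit 53) (nat_lit 5) (nat_lit 489) (nat_lit 360) (nat_lit 291))))) (XT.nd (nat_lit 156) (nat_lit 304) (nat_lit 0) (XT.nd (nat_lit 78) (nat_lit 152) (nat_lit 0) (XT.lf (nat_lit 0) (nat_lit 3329975768) (nat_lit 304) (nat_lit 2892852977) (nat_lit 76) (nat_lit 8458183456) (nat_lit 48) (nat_lit 5) (nat_lit 52) (nat_lit 5) (nat_lit 49) (nat_lit 5) (nat_lit 490) (nat_lit 360) (nat_lit 290)) (XT.lf (nat_lit 0) (nat_lit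 5083856693) (nat_lit 152) (nat_lit 2045270497) (nat_lit 228) (nat_lit 7749603885) (nat_lit 46) (nat_lit 5) (nat_lit 48) (nat_lit 5) (nat_lit 49) (nat_lit 5) (nat_lit 491) (nat_lit 360) (nat_lit 289))) (XT.nd (nat_lit 78) (nat_lit 304) (nat_lit 0) (XT.lf (nat_lit 0) (nat_lit 11007028195) (nat_lit 228) (nat_lit 1888000761) (nat_lit 76) (nat_lit 2185327468) (nat_lit 46) (nat_lit 5) (nat_lit 49) (nat_lit 5) (nat_lit 47) (nat_lit 5) (nat_lit 492) (nat_lit 360) (nat_lit 288)) (XT.nd (nat_lit 78) (nat_lit 76) (nat_lit 0) (XT.lf (nat_lit 0) (nat_lit 6192938595) (nat_lit 228) (nat_lit 8792751864) (nat_lit 304) (nat_lit 299867040) (nat_lit 43) (nat_lit 5) (nat_lit 46) (nat_lit 5) (nat_lit 47) (nat_lit 5) (nat_lit 493) (nat_lit 360) (nat_lit 287)) (XT.lf (nat_lit 0) (nat_lit 3484777529) (nat_lit 304) (nat_lit 1108467080) (nat_lit 76) (nat_lit 10901518914) (nat_lit 42) (nat_lit 5) (nat_lit 46) (nat_lit 5) (nat_lit 43)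 (nat_lit 5) (nat_lit 494) (nat_lit 360) (nat_lit 286)))))) (XT.nd (nat_lit 390) (nat_lit 456) (nat_lit 0) (XT.nd (nat_lit 156) (nat_lit 456) (nat_lit 0) (XT.nd (nat_lit 78) (nat_lit 0) (nat_lit 0) (XT.lf (nat_lit 0) (nat_lit 7075372590) (nat_lit 152) (nat_lit 281774219) (nat_lit 228) (nat_lit 8350653138) (nat_lit 40) (nat_lit 5) (nat_lit 42) (nat_lit 5) (nat_lit 43) (nat_lit 5) (nat_lit 495) (nat_lit 360) (nat_lit 285)) (XT.lf (nat_lit 0) (nat_lit 11311402946) (nat_lit 228) (nat_lit 564740346) (nat_lit 76) (nat_lit 4048871746) (nat_lit 40) (nat_lit 5) (nat_lit 43) (nat_lit 5) (nat_lit 41) (nat_lit 5) (nat_lit 496) (nat_lit 360) (nat_lit 284))) (XT.nd (nat_lit 78) (nat_lit 228) (nat_lit 0) (XT.lf (nat_lit 0) (nat_lit 7713665111) (nat_lit 228) (nat_lit 7653839627) (nat_lit 304) (nat_lit 778621079) (nat_lit 37) (nat_lit 5) (nat_lit 40) (nat_lit 5) (nat_lit 41) (nat_lit 5) (nat_lit 497) (nat_lit 360) (nat_lit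 283)) (XT.nd (nat_lit 78) (nat_lit 152) (nat_lit 0) (XT.lf (nat_lit 0) (nat_lit 3066658239) (nat_lit 304) (nat_lit 276656558) (nat_lit 76) (nat_lit 13028449930) (nat_lit 36) (nat_lit 5) (nat_lit 40) (nat_lit 5) (nat_lit 37) (nat_lit 5) (nat_lit 498) (nat_lit 360) (nat_lit 282)) (XT.lf (nat_lit 0) (nat_lit 7009504977) (nat_lit 228) (nat_lit 8514183844) (nat_lit 76) (nat_lit 1077509126) (nat_lit 34) (nat_lit 5) (nat_lit 37) (nat_lit 5) (nat_lit 35) (nat_lit 5) (nat_lit 499) (nat_lit 360) (nat_lit 281))))) (XT.nd (nat_lit 156) (nat_lit 228) (nat_lit 0) (XT.nd (nat_lit 78) (nat_lit 228) (nat_lit 0) (XT.lf (nat_lit 0) (nat_lit 11026765960) (nat_lit 228) (nat_lit 284765480) (nat_lit 76) (nat_lit 5523783340) (nat_lit 34) (nat_lit 5) (nat_lit 37) (nat_lit 5) (nat_lit 35) (nat_lit 5) (nat_lit 500) (nat_lit 360) (nat_lit 280)) (XT.lf (nat_lit 0) (nat_lit 8168194414) (nat_lit 228) (nat_lit 6981316326) (nat_lit 304)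 (nat_lit 1924106411) (nat_lit 31) (nat_lit 5) (nat_lit 34) (nat_lit 5) (nat_lit 35) (nat_lit 5) (nat_lit 501) (nat_lit 360) (nat_lit 279))) (XT.nd (nat_lit 78) (nat_lit 152) (nat_lit 0) (XT.lf (nat_lit 0) (nat_lit 1985371892) (nat_lit 304) (nat_lit 584051700) (nat_lit 76) (nat_lit 14747521555) (nat_lit 30) (nat_lit 5) (nat_lit 34) (nat_lit 5) (nat_lit 31) (nat_lit 5) (nat_lit 502) (nat_lit 360) (nat_lit 278)) (XT.nd (nat_lit 78) (nat_lit 0) (nat_lit 0) (XT.lf (nat_lit 0) (nat_lit 5984433817) (nat_lit 228) (nat_lit 9629280357) (nat_lit 76) (nat_lit 1950433634) (nat_lit 28) (nat_lit 5) (nat_lit 31) (nat_lit 5) (nat_lit 29) (nat_lit 5) (nat_lit 503) (nat_lit 360) (nat_lit 277)) (XT.lf (nat_lit 0) (nat_lit 10057237923) (nat_lit 228) (nat_lit 1248570101) (nat_lit 76) (nat_lit 6510616800) (nat_lit 28) (nat_lit 5) (nat_lit 31) (nat_lit 5) (nat_lit 29) (nat_lit 5) (nat_lit 504) (nat_lit 360) (nat_lit 276)))))))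 (XT.nd (nat_lit 53196) (nat_lit 0) (nat_lit 16112) (XT.nd (nat_lit 52806) (nat_lit 0) (nat_lit 22116) (XT.nd (nat_lit 52572) (nat_lit 0) (nat_lit 25764) (XT.nd (nat_lit 78) (nat_lit 76) (nat_lit 0) (XT.lf (nat_lit 0) (nat_lit 7349682136) (nat_lit 152) (nat_lit 6882867966) (nat_lit 228) (nat_lit 3840781649) (nat_lit 26) (nat_lit 5) (nat_lit 28) (nat_lit 5) (nat_lit 29) (nat_lit 5) (nat_lit 505) (nat_lit 360) (nat_lit 275)) (XT.lf (nat_lit 0) (nat_lit 135755707) (nat_lit 228) (nat_lit 2245971381) (nat_lit 76) (nat_lit 15953998478) (nat_lit 25) (nat_lit 5) (nat_lit 28) (nat_lit 5) (nat_lit 26) (nat_lit 5) (nat_lit 506) (nat_lit 360) (nat_lit 274))) (XT.nd (nat_lit 78) (nat_lit 1824) (nat_lit 0) (XT.lf (nat_lit 0) (nat_lit 974844316) (nat_lit 1748) (nat_lit 1635640691) (nat_lit 0) (nat_lit 974844316) (nat_lit 388) (nat_lit 5) (nat_lit 411) (nat_lit 4) (nat_lit 388) (nat_lit 4) (nat_lit 418) (nat_lit 361) (nat_lit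 361)) (XT.nd (nat_lit 78) (nat_lit 76) (nat_lit 0) (XT.lf (nat_lit 0) (nat_lit 1725067622) (nat_lit 1748) (nat_lit 3567396895) (nat_lit 1748) (nat_lit 1918069258) (nat_lit 365) (nat_lit 4) (nat_lit 388) (nat_lit 5) (nat_lit 388) (nat_lit 4) (nat_lit 419) (nat_lit 361) (nat_lit 360)) (XT.lf (nat_lit 0) (nat_lit 1388227712) (nat_lit 1824) (nat_lit 462095538) (nat_lit 76) (nat_lit 5401616161) (nat_lit 364) (nat_lit 5) (nat_lit 388) (nat_lit 5) (nat_lit 365) (nat_lit 4) (nat_lit 420) (nat_lit 361) (nat_lit 359))))) (XT.nd (nat_lit 156) (nat_lit 1748) (nat_lit 0) (XT.nd (nat_lit 78) (nat_lit 988) (nat_lit 0) (XT.lf (nat_lit 0) (nat_lit 4643817741) (nat_lit 912) (nat_lit 56882998) (nat_lit 988) (nat_lit 2593951980) (nat_lit 352) (nat_lit 5) (nat_lit 364) (nat_lit 5) (nat_lit 365) (nat_lit 4) (nat_lit 421) (nat_lit 361) (nat_lit 358)) (XT.lf (nat_lit 0) (nat_lit 698290677) (nat_lit 988) (nat_lit 4869645010) (nat_lit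 76) (nat_lit 1770898115) (nat_lit 339) (nat_lit 5) (nat_lit 352) (nat_lit 5) (nat_lit 340) (nat_lit 4) (nat_lit 422) (nat_lit 361) (nat_lit 357))) (XT.nd (nat_lit 78) (nat_lit 912) (nat_lit 0) (XT.lf (nat_lit 0) (nat_lit 262328379) (nat_lit 836) (nat_lit 3716071330) (nat_lit 912) (nat_lit 3406065820) (nat_lit 328) (nat_lit 5) (nat_lit 339) (nat_lit 5) (nat_lit 340) (nat_lit 4) (nat_lit 423) (nat_lit 361) (nat_lit 356)) (XT.nd (nat_lit 78) (nat_lit 912) (nat_lit 0) (XT.lf (nat_lit 0) (nat_lit 5495952089) (nat_lit 836) (nat_lit 1798378042) (nat_lit 912) (nat_lit 137319526) (nat_lit 328) (nat_lit 5) (nat_lit 339) (nat_lit 5) (nat_lit 340) (nat_lit 4) (nat_lit 424) (nat_lit 361) (nat_lit 355)) (XT.lf (nat_lit 0) (nat_lit 3115959269) (nat_lit 912) (nat_lit 4170893393) (nat_lit 76) (nat_lit 193330441) (nat_lit 316) (nat_lit 5) (nat_lit 328) (nat_lit 5) (nat_lit 317) (nat_lit 4) (nat_lit 425) (nat_lit 361) (nat_lit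 354)))))) (XT.nd (nat_lit 390) (nat_lit 3572) (nat_lit 0) (XT.nd (nat_lit 156) (nat_lit 1596) (nat_lit 0) (XT.nd (nat_lit 78) (nat_lit 76) (nat_lit 0) (XT.lf (nat_lit 0) (nat_lit 1090044151) (nat_lit 760) (nat_lit 5313549340) (nat_lit 836) (nat_lit 1126694605) (nat_lit 306) (nat_lit 5) (nat_lit 316) (nat_lit 5) (nat_lit 317) (nat_lit 4) (nat_lit 426) (nat_lit 361) (nat_lit 353)) (XT.lf (nat_lit 0) (nat_lit 2114612202) (nat_lit 836) (nat_lit 1150145589) (nat_lit 76) (nat_lit 4317043675) (nat_lit 305) (nat_lit 5) (nat_lit 316) (nat_lit 5) (nat_lit 306) (nat_lit 5) (nat_lit 427) (nat_lit 361) (nat_lit 352))) (XT.nd (nat_lit 78) (nat_lit 836) (nat_lit 0) (XT.lf (nat_lit 0) (nat_lit 4227326024) (nat_lit 760) (nat_lit 1146367838) (nat_lit 836) (nat_lit 2261180795) (nat_lit 295) (nat_lit 5) (nat_lit 305) (nat_lit 5) (nat_lit 306) (nat_lit 5) (nat_lit 428) (nat_lit 361) (nat_lit 351)) (XT.nd (nat_lit 78) (nat_lit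 0) (nat_lit 0) (XT.lf (nat_lit 0) (nat_lit 964018070) (nat_lit 836) (nat_lit 5704592950) (nat_lit 76) (nat_lit 1020938900) (nat_lit 284) (nat_lit 5) (nat_lit 295) (nat_lit 5) (nat_lit 285) (nat_lit 5) (nat_lit 429) (nat_lit 361) (nat_lit 350)) (XT.lf (nat_lit 0) (nat_lit 4195642999) (nat_lit 836) (nat_lit 303585616) (nat_lit 76) (nat_lit 3246384104) (nat_lit 284) (nat_lit 5) (nat_lit 295) (nat_lit 5) (nat_lit 285) (nat_lit 5) (nat_lit 430) (nat_lit 361) (nat_lit 349))))) (XT.nd (nat_lit 234) (nat_lit 1368) (nat_lit 0) (XT.nd (nat_lit 78) (nat_lit 1444) (nat_lit 0) (XT.lf (nat_lit 0) (nat_lit 5207554404) (nat_lit 760) (nat_lit 2260864050) (nat_lit 836) (nat_lit 334884177) (nat_lit 274) (nat_lit 5) (nat_lit 284) (nat_lit 5) (nat_lit 285) (nat_lit 5) (nat_lit 431) (nat_lit 361) (nat_lit 348)) (XT.nd (nat_lit 78) (nat_lit 684) (nat_lit 0) (XT.lf (nat_lit 0) (nat_lit 2870260363) (nat_lit 760) (nat_lit 4939270117)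 (nat_lit 76) (nat_lit 52980820) (nat_lit 264) (nat_lit 5) (nat_lit 274) (nat_lit 5) (nat_lit 265) (nat_lit 5) (nat_lit 432) (nat_lit 361) (nat_lit 347)) (XT.lf (nat_lit 0) (nat_lit 588450971) (nat_lit 684) (nat_lit 5526523140) (nat_lit 760) (nat_lit 1808320881) (nat_lit 255) (nat_lit 5) (nat_lit 264) (nat_lit 5) (nat_lit 265) (nat_lit 5) (nat_lit 433) (nat_lit 361) (nat_lit 346)))) (XT.nd (nat_lit 78) (nat_lit 1292) (nat_lit 0) (XT.lf (nat_lit 0) (nat_lit 1397664780) (nat_lit 760) (nat_lit 1768054152) (nat_lit 76) (nat_lit 4819876263) (nat_lit 254) (nat_lit 5) (nat_lit 264) (nat_lit 5) (nat_lit 255) (nat_lit 5) (nat_lit 434) (nat_lit 361) (nat_lit 345)) (XT.nd (nat_lit 78) (nat_lit 684) (nat_lit 0) (XT.lf (nat_lit 0) (nat_lit 3882805881) (nat_lit 608) (nat_lit 730972378) (nat_lit 684) (nat_lit 3435751814) (nat_lit 246) (nat_lit 5) (nat_lit 254) (nat_lit 5) (nat_lit 255) (nat_lit 5) (nat_lit 435) (nat_lit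 361) (nat_lit 344)) (XT.lf (nat_lit 0) (nat_lit 1497503807) (nat_lit 684) (nat_lit 6375320893) (nat_lit 760) (nat_lit 242378263) (nat_lit 237) (nat_lit 5) (nat_lit 246) (nat_lit 5) (nat_lit 247) (nat_lit 5) (nat_lit 436) (nat_lit 361) (nat_lit 343))))))))
noncomputable def xc49 : XT := (XT.nd (nat_lit 1560) (nat_lit 5092) (nat_lit 0) (XT.nd (nat_lit 780) (nat_lit 3040) (nat_lit 0) (XT.nd (nat_lit 390) (nat_lit 2356) (nat_lit 0) (XT.nd (nat_lit 156) (nat_lit 1216) (nat_lit 0) (XT.nd (nat_lit 78) (nat_lit 608) (nat_lit 0) (XT.lf (nat_lit 0) (nat_lit 2954125357) (nat_lit 760) (nat_lit 941866637) (nat_lit 76) (nat_lit 4286260073) (nat_lit 236) (nat_lit 5) (nat_lit 246) (nat_lit 5) (nat_lit 237) (nat_lit 5) (nat_lit 437) (nat_lit 361) (nat_lit 342)) (XT.lf (nat_lit 0) (nat_lit 4843584790) (nat_lit 608) (nat_lit 1346058149) (nat_lit 684) (nat_lit 2061430295) (nat_lit 228) (nat_lit 5) (nat_lit 236) (nat_lit 5)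 (nat_lit 237) (nat_lit 5) (nat_lit 438) (nat_lit 361) (nat_lit 341))) (XT.nd (nat_lit 78) (nat_lit 532) (nat_lit 0) (XT.lf (nat_lit 0) (nat_lit 1130555528) (nat_lit 684) (nat_lit 5936002472) (nat_lit 76) (nat_lit 1255044000) (nat_lit 219) (nat_lit 5) (nat_lit 228) (nat_lit 5) (nat_lit 220) (nat_lit 5) (nat_lit 439) (nat_lit 361) (nat_lit 340)) (XT.nd (nat_lit 78) (nat_lit 532) (nat_lit 0) (XT.lf (nat_lit 0) (nat_lit 4338378613) (nat_lit 684) (nat_lit 141729687) (nat_lit 76) (nat_lit 3913596515) (nat_lit 219) (nat_lit 5) (nat_lit 228) (nat_lit 5) (nat_lit 220) (nat_lit 5) (nat_lit 440) (nat_lit 361) (nat_lit 339)) (XT.lf (nat_lit 0) (nat_lit 5778859776) (nat_lit 532) (nat_lit 1817687721) (nat_lit 608) (nat_lit 871005852) (nat_lit 212) (nat_lit 5) (nat_lit 219) (nat_lit 5) (nat_lit 220) (nat_lit 5) (nat_lit 441) (nat_lit 361) (nat_lit 338))))) (XT.nd (nat_lit 156) (nat_lit 1140) (nat_lit 0) (XT.nd (nat_lit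 78) (nat_lit 532) (nat_lit 0) (XT.lf (nat_lit 0) (nat_lit 2322684010) (nat_lit 684) (nat_lit 5310843854) (nat_lit 76) (nat_lit 909531551) (nat_lit 203) (nat_lit 5) (nat_lit 212) (nat_lit 5) (nat_lit 204) (nat_lit 5) (nat_lit 442) (nat_lit 361) (nat_lit 337)) (XT.lf (nat_lit 0) (nat_lit 612233691) (nat_lit 532) (nat_lit 4939911803) (nat_lit 608) (nat_lit 3068169618) (nat_lit 196) (nat_lit 5) (nat_lit 203) (nat_lit 5) (nat_lit 204) (nat_lit 5) (nat_lit 443) (nat_lit 361) (nat_lit 336))) (XT.nd (nat_lit 78) (nat_lit 1064) (nat_lit 0) (XT.lf (nat_lit 0) (nat_lit 130610311) (nat_lit 608) (nat_lit 2040235666) (nat_lit 76) (nat_lit 6528566527) (nat_lit 195) (nat_lit 5) (nat_lit 203) (nat_lit 5) (nat_lit 196) (nat_lit 5) (nat_lit 444) (nat_lit 361) (nat_lit 335)) (XT.nd (nat_lit 78) (nat_lit 532) (nat_lit 0) (XT.lf (nat_lit 0) (nat_lit 3333406232) (nat_lit 608) (nat_lit 4770433454) (nat_lit 76) (nat_lit 676248456)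 (nat_lit 188) (nat_lit 5) (nat_lit 196) (nat_lit 5) (nat_lit 189) (nat_lit 5) (nat_lit 445) (nat_lit 361) (nat_lit 334)) (XT.lf (nat_lit 0) (nat_lit 1282880612) (nat_lit 532) (nat_lit 5304884628) (nat_lit 608) (nat_lit 2274885806) (nat_lit 181) (nat_lit 5) (nat_lit 188) (nat_lit 5) (nat_lit 189) (nat_lit 5) (nat_lit 446) (nat_lit 361) (nat_lit 333)))))) (XT.nd (nat_lit 390) (nat_lit 1444) (nat_lit 0) (XT.nd (nat_lit 156) (nat_lit 988) (nat_lit 0) (XT.nd (nat_lit 78) (nat_lit 532) (nat_lit 0) (XT.lf (nat_lit 0) (nat_lit 931188420) (nat_lit 608) (nat_lit 1496559423) (nat_lit 76) (nat_lit 6519346882) (nat_lit 180) (nat_lit 5) (nat_lit 188) (nat_lit 5) (nat_lit 181) (nat_lit 5) (nat_lit 447) (nat_lit 361) (nat_lit 332)) (XT.lf (nat_lit 0) (nat_lit 4157058243) (nat_lit 608) (nat_lit 4346538999) (nat_lit 76) (nat_lit 529629117) (nat_lit 173) (nat_lit 5) (nat_lit 181) (nat_lit 5) (nat_lit 174) (nat_lit 5) (nat_lit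 448) (nat_lit 361) (nat_lit 331))) (XT.nd (nat_lit 78) (nat_lit 532) (nat_lit 0) (XT.lf (nat_lit 0) (nat_lit 1835983510) (nat_lit 456) (nat_lit 5602151855) (nat_lit 532) (nat_lit 1683153538) (nat_lit 167) (nat_lit 5) (nat_lit 173) (nat_lit 5) (nat_lit 174) (nat_lit 5) (nat_lit 449) (nat_lit 361) (nat_lit 330)) (XT.nd (nat_lit 78) (nat_lit 456) (nat_lit 0) (XT.lf (nat_lit 0) (nat_lit 1535203679) (nat_lit 532) (nat_lit 1085043851) (nat_lit 76) (nat_lit 6591039595) (nat_lit 166) (nat_lit 5) (nat_lit 173) (nat_lit 5) (nat_lit 167) (nat_lit 5) (nat_lit 450) (nat_lit 361) (nat_lit 329)) (XT.lf (nat_lit 0) (nat_lit 4785993980) (nat_lit 532) (nat_lit 4073245134) (nat_lit 76) (nat_lit 443832419) (nat_lit 160) (nat_lit 5) (nat_lit 167) (nat_lit 5) (nat_lit 161) (nat_lit 5) (nat_lit 451) (nat_lit 361) (nat_lit 328))))) (XT.nd (nat_lit 156) (nat_lit 912) (nat_lit 0) (XT.nd (nat_lit 78) (nat_lit 76) (nat_lit 0) (XT.lf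 (nat_lit 0) (nat_lit 2236788861) (nat_lit 456) (nat_lit 5858284766) (nat_lit 532) (nat_lit 1301772927) (nat_lit 154) (nat_lit 5) (nat_lit 160) (nat_lit 5) (nat_lit 161) (nat_lit 5) (nat_lit 452) (nat_lit 361) (nat_lit 327)) (XT.lf (nat_lit 0) (nat_lit 1933646656) (nat_lit 532) (nat_lit 841242455) (nat_lit 76) (nat_lit 6717735767) (nat_lit 153) (nat_lit 5) (nat_lit 160) (nat_lit 5) (nat_lit 154) (nat_lit 5) (nat_lit 453) (nat_lit 361) (nat_lit 326))) (XT.nd (nat_lit 78) (nat_lit 456) (nat_lit 0) (XT.lf (nat_lit 0) (nat_lit 5210469035) (nat_lit 532) (nat_lit 3987312902) (nat_lit 76) (nat_lit 392501453) (nat_lit 147) (nat_lit 5) (nat_lit 154) (nat_lit 5) (nat_lit 148) (nat_lit 5) (nat_lit 454) (nat_lit 361) (nat_lit 325)) (XT.nd (nat_lit 78) (nat_lit 76) (nat_lit 0) (XT.lf (nat_lit 0) (nat_lit 2447764260) (nat_lit 380) (nat_lit 6100498939) (nat_lit 456) (nat_lit 1141742009) (nat_lit 142) (nat_lit 5) (nat_lit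 147) (nat_lit 5) (nat_lit 148) (nat_lit 5) (nat_lit 455) (nat_lit 361) (nat_lit 324)) (XT.lf (nat_lit 0) (nat_lit 2115318951) (nat_lit 456) (nat_lit 803605153) (nat_lit 76) (nat_lit 6872883438) (nat_lit 141) (nat_lit 5) (nat_lit 147) (nat_lit 5) (nat_lit 142) (nat_lit 5) (nat_lit 456) (nat_lit 361) (nat_lit 323))))))) (XT.nd (nat_lit 780) (nat_lit 2204) (nat_lit 0) (XT.nd (nat_lit 390) (nat_lit 1216) (nat_lit 0) (XT.nd (nat_lit 156) (nat_lit 836) (nat_lit 0) (XT.nd (nat_lit 78) (nat_lit 380) (nat_lit 0) (XT.lf (nat_lit 0) (nat_lit 5418504827) (nat_lit 532) (nat_lit 4128569116) (nat_lit 76) (nat_lit 348513364) (nat_lit 135) (nat_lit 5) (nat_lit 142) (nat_lit 5) (nat_lit 136) (nat_lit 5) (nat_lit 457) (nat_lit 361) (nat_lit 322)) (XT.lf (nat_lit 0) (nat_lit 2428197981) (nat_lit 380) (nat_lit 6356912238) (nat_lit 456) (nat_lit 1216402737) (nat_lit 130) (nat_lit 5) (nat_lit 135) (nat_lit 5) (nat_lit 136) (nat_lit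 5) (nat_lit 458) (nat_lit 361) (nat_lit 321))) (XT.nd (nat_lit 78) (nat_lit 760) (nat_lit 0) (XT.lf (nat_lit 0) (nat_lit 2066684949) (nat_lit 456) (nat_lit 1013887421) (nat_lit 76) (nat_lit 7029030343) (nat_lit 129) (nat_lit 5) (nat_lit 135) (nat_lit 5) (nat_lit 130) (nat_lit 5) (nat_lit 459) (nat_lit 361) (nat_lit 320)) (XT.nd (nat_lit 78) (nat_lit 380) (nat_lit 0) (XT.lf (nat_lit 0) (nat_lit 5395731682) (nat_lit 456) (nat_lit 4540329380) (nat_lit 76) (nat_lit 283717099) (nat_lit 124) (nat_lit 5) (nat_lit 130) (nat_lit 5) (nat_lit 125) (nat_lit 5) (nat_lit 460) (nat_lit 361) (nat_lit 319)) (XT.lf (nat_lit 0) (nat_lit 2133763654) (nat_lit 380) (nat_lit 6656816064) (nat_lit 456) (nat_lit 1541609073) (nat_lit 119) (nat_lit 5) (nat_lit 124) (nat_lit 5) (nat_lit 125) (nat_lit 5) (nat_lit 461) (nat_lit 361) (nat_lit 318))))) (XT.nd (nat_lit 156) (nat_lit 760) (nat_lit 0) (XT.nd (nat_lit 78) (nat_lit 380) (nat_lit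 0) (XT.lf (nat_lit 0) (nat_lit 1771701460) (nat_lit 456) (nat_lit 1517595465) (nat_lit 76) (nat_lit 7157553256) (nat_lit 118) (nat_lit 5) (nat_lit 124) (nat_lit 5) (nat_lit 119) (nat_lit 5) (nat_lit 462) (nat_lit 361) (nat_lit 317)) (XT.lf (nat_lit 0) (nat_lit 5125209141) (nat_lit 456) (nat_lit 5269858854) (nat_lit 76) (nat_lit 168656695) (nat_lit 113) (nat_lit 5) (nat_lit 119) (nat_lit 5) (nat_lit 114) (nat_lit 5) (nat_lit 463) (nat_lit 361) (nat_lit 316))) (XT.nd (nat_lit 78) (nat_lit 456) (nat_lit 0) (XT.lf (nat_lit 0) (nat_lit 1516045828) (nat_lit 304) (nat_lit 7030962337) (nat_lit 380) (nat_lit 2135918957) (nat_lit 109) (nat_lit 5) (nat_lit 113) (nat_lit 5) (nat_lit 114) (nat_lit 5) (nat_lit 464) (nat_lit 361) (nat_lit 315)) (XT.nd (nat_lit 78) (nat_lit 380) (nat_lit 0) (XT.lf (nat_lit 0) (nat_lit 1211623422) (nat_lit 380) (nat_lit 2364471738) (nat_lit 76) (nat_lit 7228371422) (nat_lit 108) (nat_lit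 5) (nat_lit 113) (nat_lit 5) (nat_lit 109) (nat_lit 5) (nat_lit 465) (nat_lit 361) (nat_lit 314)) (XT.lf (nat_lit 0) (nat_lit 4559313100) (nat_lit 380) (nat_lit 28090846) (nat_lit 456) (nat_lit 6340966770) (nat_lit 103) (nat_lit 5) (nat_lit 108) (nat_lit 5) (nat_lit 109) (nat_lit 5) (nat_lit 466) (nat_lit 361) (nat_lit 313)))))) (XT.nd (nat_lit 390) (nat_lit 1216) (nat_lit 0) (XT.nd (nat_lit 156) (nat_lit 608) (nat_lit 0) (XT.nd (nat_lit 78) (nat_lit 76) (nat_lit 0) (XT.lf (nat_lit 0) (nat_lit 522021817) (nat_lit 304) (nat_lit 7511868841) (nat_lit 380) (nat_lit 3020812190) (nat_lit 99) (nat_lit 5) (nat_lit 103) (nat_lit 5) (nat_lit 104) (nat_lit 5) (nat_lit 467) (nat_lit 361) (nat_lit 312)) (XT.lf (nat_lit 0) (nat_lit 364783626) (nat_lit 380) (nat_lit 3609025533) (nat_lit 76) (nat_lit 7209641462) (nat_lit 98) (nat_lit 5) (nat_lit 103) (nat_lit 5) (nat_lit 99) (nat_lit 5) (nat_lit 468) (nat_lit 361) (nat_lit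 311))) (XT.nd (nat_lit 78) (nat_lit 304) (nat_lit 0) (XT.lf (nat_lit 0) (nat_lit 3418389251) (nat_lit 304) (nat_lit 342883888) (nat_lit 380) (nat_lit 7553441185) (nat_lit 94) (nat_lit 5) (nat_lit 98) (nat_lit 5) (nat_lit 99) (nat_lit 5) (nat_lit 469) (nat_lit 361) (nat_lit 310)) (XT.nd (nat_lit 78) (nat_lit 304) (nat_lit 0) (XT.lf (nat_lit 0) (nat_lit 7233526147) (nat_lit 380) (nat_lit 894616273) (nat_lit 76) (nat_lit 3320316885) (nat_lit 94) (nat_lit 5) (nat_lit 99) (nat_lit 5) (nat_lit 95) (nat_lit 5) (nat_lit 470) (nat_lit 361) (nat_lit 309)) (XT.lf (nat_lit 0) (nat_lit 6268449214) (nat_lit 304) (nat_lit 4512132160) (nat_lit 380) (nat_lit 804203102) (nat_lit 90) (nat_lit 5) (nat_lit 94) (nat_lit 5) (nat_lit 95) (nat_lit 5) (nat_lit 471) (nat_lit 361) (nat_lit 308))))) (XT.nd (nat_lit 234) (nat_lit 608) (nat_lit 0) (XT.nd (nat_lit 78) (nat_lit 228) (nat_lit 0) (XT.lf (nat_lit 0) (nat_lit 1810786133) (nat_lit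 304) (nat_lit 809163785) (nat_lit 380) (nat_lit 9103945094) (nat_lit 85) (nat_lit 5) (nat_lit 89) (nat_lit 5) (nat_lit 90) (nat_lit 5) (nat_lit 472) (nat_lit 361) (nat_lit 307)) (XT.nd (nat_lit 78) (nat_lit 228) (nat_lit 0) (XT.lf (nat_lit 0) (nat_lit 6119715927) (nat_lit 380) (nat_lit 2796365500) (nat_lit 76) (nat_lit 2949253768) (nat_lit 85) (nat_lit 5) (nat_lit 90) (nat_lit 5) (nat_lit 86) (nat_lit 5) (nat_lit 473) (nat_lit 361) (nat_lit 306)) (XT.lf (nat_lit 0) (nat_lit 4458003844) (nat_lit 228) (nat_lit 5229214792) (nat_lit 304) (nat_lit 2322442200) (nat_lit 82) (nat_lit 5) (nat_lit 85) (nat_lit 5) (nat_lit 86) (nat_lit 5) (nat_lit 474) (nat_lit 361) (nat_lit 305)))) (XT.nd (nat_lit 78) (nat_lit 532) (nat_lit 0) (XT.lf (nat_lit 0) (nat_lit 1136284889) (nat_lit 304) (nat_lit 326780161) (nat_lit 76) (nat_lit 10694018741) (nat_lit 81) (nat_lit 5) (nat_lit 85) (nat_lit 5) (nat_lit 82) (nat_lit 5) (nat_lit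 475) (nat_lit 361) (nat_lit 304)) (XT.nd (nat_lit 78) (nat_lit 228) (nat_lit 0) (XT.lf (nat_lit 0) (nat_lit 4658933662) (nat_lit 380) (nat_lit 5259617582) (nat_lit 76) (nat_lit 2388090864) (nat_lit 77) (nat_lit 5) (nat_lit 82) (nat_lit 5) (nat_lit 78) (nat_lit 5) (nat_lit 476) (nat_lit 361) (nat_lit 303)) (XT.lf (nat_lit 0) (nat_lit 2074079358) (nat_lit 228) (nat_lit 6167763693) (nat_lit 304) (nat_lit 4217562997) (nat_lit 74) (nat_lit 5) (nat_lit 77) (nat_lit 5) (nat_lit 78) (nat_lit 5) (nat_lit 477) (nat_lit 361) (nat_lit 302))))))))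
noncomputable def xc50 : XT := (XT.nd (nat_lit 1560) (nat_lit 836) (nat_lit 0) (XT.nd (nat_lit 780) (nat_lit 1368) (nat_lit 0) (XT.nd (nat_lit 390) (nat_lit 532) (nat_lit 0) (XT.nd (nat_lit 156) (nat_lit 532) (nat_lit 0) (XT.nd (nat_lit 78) (nat_lit 380) (nat_lit 0) (XT.lf (nat_lit 0) (nat_lit 9569114741) (nat_lit 228) (nat_lit 2327364944) (nat_lit 304) (nat_lit 718754603) (nat_lit 74) (nat_lit 5) (nat_lit 77) (nat_lit 5) (nat_lit 78) (nat_lit 5) (nat_lit 478) (nat_lit 361) (nat_lit 301)) (XT.lf (nat_lit 0) (nat_lit 2817094337) (nat_lit 380) (nat_lit 8361049096) (nat_lit 76) (nat_lit 1595586711) (nat_lit 69) (nat_lit 5) (nat_lit 74) (nat_lit 5) (nat_lit 70) (nat_lit 5) (nat_lit 479) (nat_lit 361) (nat_lit 300))) (XT.nd (nat_lit 78) (nat_lit 532) (nat_lit 0) (XT.lf (nat_lit 0) (nat_lit 6415443994) (nat_lit 380) (nat_lit 949532577) (nat_lit 76) (nat_lit 5570305972) (nat_lit 69) (nat_lit 5) (nat_lit 74) (nat_lit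 5) (nat_lit 70) (nat_lit 5) (nat_lit 480) (nat_lit 361) (nat_lit 299)) (XT.nd (nat_lit 78) (nat_lit 304) (nat_lit 0) (XT.lf (nat_lit 0) (nat_lit 6642244440) (nat_lit 228) (nat_lit 3452729722) (nat_lit 304) (nat_lit 3004917168) (nat_lit 66) (nat_lit 5) (nat_lit 69) (nat_lit 5) (nat_lit 70) (nat_lit 5) (nat_lit 481) (nat_lit 361) (nat_lit 298)) (XT.lf (nat_lit 0) (nat_lit 555791581) (nat_lit 304) (nat_lit 12185280438) (nat_lit 76) (nat_lit 526992160) (nat_lit 62) (nat_lit 5) (nat_lit 66) (nat_lit 5) (nat_lit 63) (nat_lit 5) (nat_lit 482) (nat_lit 361) (nat_lit 297))))) (XT.nd (nat_lit 156) (nat_lit 304) (nat_lit 0) (XT.nd (nat_lit 78) (nat_lit 228) (nat_lit 0) (XT.lf (nat_lit 0) (nat_lit 4180337993) (nat_lit 304) (nat_lit 4675587447) (nat_lit 76) (nat_lit 4582629666) (nat_lit 62) (nat_lit 5) (nat_lit 66) (nat_lit 5) (nat_lit 63) (nat_lit 5) (nat_lit 483) (nat_lit 361) (nat_lit 296)) (XT.lf (nat_lit 0) (nat_lit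 2968964495) (nat_lit 228) (nat_lit 4894682193) (nat_lit 304) (nat_lit 5749092614) (nat_lit 59) (nat_lit 5) (nat_lit 62) (nat_lit 5) (nat_lit 63) (nat_lit 5) (nat_lit 484) (nat_lit 361) (nat_lit 295))) (XT.nd (nat_lit 78) (nat_lit 304) (nat_lit 0) (XT.lf (nat_lit 0) (nat_lit 10775869945) (nat_lit 228) (nat_lit 843419231) (nat_lit 304) (nat_lit 2171153356) (nat_lit 59) (nat_lit 5) (nat_lit 62) (nat_lit 5) (nat_lit 63) (nat_lit 5) (nat_lit 485) (nat_lit 361) (nat_lit 294)) (XT.nd (nat_lit 78) (nat_lit 0) (nat_lit 0) (XT.lf (nat_lit 0) (nat_lit 1479103554) (nat_lit 304) (nat_lit 9226192046) (nat_lit 76) (nat_lit 3265817673) (nat_lit 55) (nat_lit 5) (nat_lit 59) (nat_lit 5) (nat_lit 56) (nat_lit 5) (nat_lit 486) (nat_lit 361) (nat_lit 293)) (XT.lf (nat_lit 0) (nat_lit 5167135770) (nat_lit 304) (nat_lit 1528080760) (nat_lit 76) (nat_lit 7460025237) (nat_lit 55) (nat_lit 5) (nat_lit 59) (nat_lit 5) (nat_lit 56)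 (nat_lit 5) (nat_lit 487) (nat_lit 361) (nat_lit 292)))))) (XT.nd (nat_lit 390) (nat_lit 684) (nat_lit 0) (XT.nd (nat_lit 156) (nat_lit 456) (nat_lit 0) (XT.nd (nat_lit 78) (nat_lit 0) (nat_lit 0) (XT.lf (nat_lit 0) (nat_lit 6354928846) (nat_lit 228) (nat_lit 2583756117) (nat_lit 304) (nat_lit 5404180782) (nat_lit 52) (nat_lit 5) (nat_lit 55) (nat_lit 5) (nat_lit 56) (nat_lit 5) (nat_lit 488) (nat_lit 361) (nat_lit 291)) (XT.lf (nat_lit 0) (nat_lit 12775080325) (nat_lit 304) (nat_lit 180807796) (nat_lit 76) (nat_lit 1578573660) (nat_lit 52) (nat_lit 5) (nat_lit 56) (nat_lit 5) (nat_lit 53) (nat_lit 5) (nat_lit 489) (nat_lit 361) (nat_lit 290))) (XT.nd (nat_lit 78) (nat_lit 152) (nat_lit 0) (XT.lf (nat_lit 0) (nat_lit 1969983364) (nat_lit 304) (nat_lit 6925781605) (nat_lit 76) (nat_lit 5833130991) (nat_lit 48) (nat_lit 5) (nat_lit 52) (nat_lit 5) (nat_lit 49) (nat_lit 5) (nat_lit 490) (nat_lit 361) (nat_lit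 289)) (XT.nd (nat_lit 78) (nat_lit 0) (nat_lit 0) (XT.lf (nat_lit 0) (nat_lit 971444655) (nat_lit 152) (nat_lit 4755799702) (nat_lit 228) (nat_lit 9200211963) (nat_lit 46) (nat_lit 5) (nat_lit 48) (nat_lit 5) (nat_lit 49) (nat_lit 5) (nat_lit 491) (nat_lit 361) (nat_lit 288)) (XT.lf (nat_lit 0) (nat_lit 9069228018) (nat_lit 152) (nat_lit 506483323) (nat_lit 228) (nat_lit 5553962614) (nat_lit 46) (nat_lit 5) (nat_lit 48) (nat_lit 5) (nat_lit 49) (nat_lit 5) (nat_lit 492) (nat_lit 361) (nat_lit 287))))) (XT.nd (nat_lit 156) (nat_lit 380) (nat_lit 0) (XT.nd (nat_lit 78) (nat_lit 76) (nat_lit 0) (XT.lf (nat_lit 0) (nat_lit 1942926465) (nat_lit 228) (nat_lit 11565737473) (nat_lit 304) (nat_lit 1827128821) (nat_lit 43) (nat_lit 5) (nat_lit 46) (nat_lit 5) (nat_lit 47) (nat_lit 5) (nat_lit 493) (nat_lit 361) (nat_lit 286)) (XT.lf (nat_lit 0) (nat_lit 1962746691) (nat_lit 304) (nat_lit 5423949018) (nat_lit 76) (nat_lit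 8158800778) (nat_lit 42) (nat_lit 5) (nat_lit 46) (nat_lit 5) (nat_lit 43) (nat_lit 5) (nat_lit 494) (nat_lit 361) (nat_lit 285))) (XT.nd (nat_lit 78) (nat_lit 228) (nat_lit 0) (XT.lf (nat_lit 0) (nat_lit 2677555087) (nat_lit 152) (nat_lit 3114498149) (nat_lit 228) (nat_lit 9967344261) (nat_lit 40) (nat_lit 5) (nat_lit 42) (nat_lit 5) (nat_lit 43) (nat_lit 5) (nat_lit 495) (nat_lit 361) (nat_lit 284)) (XT.nd (nat_lit 78) (nat_lit 228) (nat_lit 0) (XT.lf (nat_lit 0) (nat_lit 9713468068) (nat_lit 228) (nat_lit 5020483944) (nat_lit 76) (nat_lit 1243320668) (nat_lit 40) (nat_lit 5) (nat_lit 43) (nat_lit 5) (nat_lit 41) (nat_lit 5) (nat_lit 496) (nat_lit 361) (nat_lit 283)) (XT.lf (nat_lit 0) (nat_lit 3174149194) (nat_lit 228) (nat_lit 10551781058) (nat_lit 304) (nat_lit 2473329201) (nat_lit 37) (nat_lit 5) (nat_lit 40) (nat_lit 5) (nat_lit 41) (nat_lit 5) (nat_lit 497) (nat_lit 361) (nat_lit 282))))))) (XT.nd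 (nat_lit 53118) (nat_lit 0) (nat_lit 20444) (XT.nd (nat_lit 390) (nat_lit 304) (nat_lit 0) (XT.nd (nat_lit 156) (nat_lit 304) (nat_lit 0) (XT.nd (nat_lit 78) (nat_lit 152) (nat_lit 0) (XT.lf (nat_lit 0) (nat_lit 1380035797) (nat_lit 304) (nat_lit 4882570249) (nat_lit 76) (nat_lit 10162798273) (nat_lit 36) (nat_lit 5) (nat_lit 40) (nat_lit 5) (nat_lit 37) (nat_lit 5) (nat_lit 498) (nat_lit 361) (nat_lit 281)) (XT.lf (nat_lit 0) (nat_lit 3403013245) (nat_lit 152) (nat_lit 1868458374) (nat_lit 228) (nat_lit 11384397154) (nat_lit 34) (nat_lit 5) (nat_lit 36) (nat_lit 5) (nat_lit 37) (nat_lit 5) (nat_lit 499) (nat_lit 361) (nat_lit 280))) (XT.nd (nat_lit 78) (nat_lit 304) (nat_lit 0) (XT.lf (nat_lit 0) (nat_lit 9262792045) (nat_lit 228) (nat_lit 5035154495) (nat_lit 76) (nat_lit 2592560834) (nat_lit 34) (nat_lit 5) (nat_lit 37) (nat_lit 5) (nat_lit 35) (nat_lit 5) (nat_lit 500) (nat_lit 361) (nat_lit 279)) (XT.nd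 (nat_lit 78) (nat_lit 76) (nat_lit 0) (XT.lf (nat_lit 0) (nat_lit 3330983526) (nat_lit 228) (nat_lit 10009608402) (nat_lit 304) (nat_lit 3789119616) (nat_lit 31) (nat_lit 5) (nat_lit 34) (nat_lit 5) (nat_lit 35) (nat_lit 5) (nat_lit 501) (nat_lit 361) (nat_lit 278)) (XT.lf (nat_lit 0) (nat_lit 131303104) (nat_lit 304) (nat_lit 5488657639) (nat_lit 76) (nat_lit 11753594072) (nat_lit 30) (nat_lit 5) (nat_lit 34) (nat_lit 5) (nat_lit 31) (nat_lit 5) (nat_lit 502) (nat_lit 361) (nat_lit 277))))) (XT.nd (nat_lit 156) (nat_lit 152) (nat_lit 0) (XT.nd (nat_lit 78) (nat_lit 0) (nat_lit 0) (XT.lf (nat_lit 0) (nat_lit 2954914766) (nat_lit 152) (nat_lit 1116949773) (nat_lit 228) (nat_lit 13550065680) (nat_lit 28) (nat_lit 5) (nat_lit 30) (nat_lit 5) (nat_lit 31) (nat_lit 5) (nat_lit 503) (nat_lit 361) (nat_lit 276)) (XT.lf (nat_lit 0) (nat_lit 8124215172) (nat_lit 228) (nat_lit 6302055509) (nat_lit 76) (nat_lit 3448348302)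 (nat_lit 28) (nat_lit 5) (nat_lit 31) (nat_lit 5) (nat_lit 29) (nat_lit 5) (nat_lit 504) (nat_lit 361) (nat_lit 275))) (XT.nd (nat_lit 52416) (nat_lit 0) (nat_lit 29184) (XT.lf (nat_lit 0) (nat_lit 2206187607) (nat_lit 152) (nat_lit 10047002125) (nat_lit 228) (nat_lit 5879265558) (nat_lit 26) (nat_lit 5) (nat_lit 28) (nat_lit 5) (nat_lit 29) (nat_lit 5) (nat_lit 505) (nat_lit 361) (nat_lit 274)) (XT.nd (nat_lit 78) (nat_lit 76) (nat_lit 0) (XT.lf (nat_lit 0) (nat_lit 569466520) (nat_lit 1596) (nat_lit 1488913486) (nat_lit 1596) (nat_lit 1488913486) (nat_lit 411) (nat_lit 4) (nat_lit 432) (nat_lit 5) (nat_lit 432) (nat_lit 4) (nat_lit 416) (nat_lit 362) (nat_lit 362)) (XT.lf (nat_lit 0) (nat_lit 317098001) (nat_lit 1672) (nat_lit 1075422511) (nat_lit 76) (nat_lit 5739848064) (nat_lit 410) (nat_lit 5) (nat_lit 432) (nat_lit 5) (nat_lit 411) (nat_lit 4) (nat_lit 417) (nat_lit 362) (nat_lit 361)))))) (XT.nd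 (nat_lit 390) (nat_lit 3344) (nat_lit 0) (XT.nd (nat_lit 156) (nat_lit 1976) (nat_lit 0) (XT.nd (nat_lit 78) (nat_lit 1748) (nat_lit 0) (XT.lf (nat_lit 0) (nat_lit 3599273244) (nat_lit 1748) (nat_lit 3304433685) (nat_lit 0) (nat_lit 267631416) (nat_lit 388) (nat_lit 5) (nat_lit 411) (nat_lit 4) (nat_lit 388) (nat_lit 4) (nat_lit 418) (nat_lit 362) (nat_lit 360)) (XT.lf (nat_lit 0) (nat_lit 1658540547) (nat_lit 1748) (nat_lit 5250988821) (nat_lit 1748) (nat_lit 302359114) (nat_lit 365) (nat_lit 4) (nat_lit 388) (nat_lit 5) (nat_lit 388) (nat_lit 4) (nat_lit 419) (nat_lit 362) (nat_lit 359))) (XT.nd (nat_lit 78) (nat_lit 1900) (nat_lit 0) (XT.lf (nat_lit 0) (nat_lit 2950845701) (nat_lit 1824) (nat_lit 573203625) (nat_lit 76) (nat_lit 3729696680) (nat_lit 364) (nat_lit 5) (nat_lit 388) (nat_lit 5) (nat_lit 365) (nat_lit 4) (nat_lit 420) (nat_lit 362) (nat_lit 358)) (XT.nd (nat_lit 78) (nat_lit 988) (nat_lit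 0) (XT.lf (nat_lit 0) (nat_lit 4498712410) (nat_lit 912) (nat_lit 1732387897) (nat_lit 988) (nat_lit 1066026569) (nat_lit 352) (nat_lit 5) (nat_lit 364) (nat_lit 5) (nat_lit 365) (nat_lit 4) (nat_lit 421) (nat_lit 362) (nat_lit 357)) (XT.lf (nat_lit 0) (nat_lit 2163002349) (nat_lit 988) (nat_lit 5054101927) (nat_lit 76) (nat_lit 124891066) (nat_lit 339) (nat_lit 5) (nat_lit 352) (nat_lit 5) (nat_lit 340) (nat_lit 4) (nat_lit 422) (nat_lit 362) (nat_lit 356))))) (XT.nd (nat_lit 234) (nat_lit 1596) (nat_lit 0) (XT.nd (nat_lit 78) (nat_lit 912) (nat_lit 0) (XT.lf (nat_lit 0) (nat_lit 42252569) (nat_lit 836) (nat_lit 5368725145) (nat_lit 912) (nat_lit 1977313885) (nat_lit 328) (nat_lit 5) (nat_lit 339) (nat_lit 5) (nat_lit 340) (nat_lit 4) (nat_lit 423) (nat_lit 362) (nat_lit 355)) (XT.nd (nat_lit 78) (nat_lit 836) (nat_lit 0) (XT.lf (nat_lit 0) (nat_lit 1243959281) (nat_lit 912) (nat_lit 2200928311) (nat_lit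 76) (nat_lit 3991052162) (nat_lit 327) (nat_lit 5) (nat_lit 339) (nat_lit 5) (nat_lit 328) (nat_lit 5) (nat_lit 424) (nat_lit 362) (nat_lit 354)) (XT.lf (nat_lit 0) (nat_lit 3008200834) (nat_lit 836) (nat_lit 1454064050) (nat_lit 912) (nat_lit 3022874523) (nat_lit 316) (nat_lit 5) (nat_lit 327) (nat_lit 5) (nat_lit 328) (nat_lit 5) (nat_lit 425) (nat_lit 362) (nat_lit 353)))) (XT.nd (nat_lit 78) (nat_lit 760) (nat_lit 0) (XT.lf (nat_lit 0) (nat_lit 170364971) (nat_lit 836) (nat_lit 6780825886) (nat_lit 76) (nat_lit 584874956) (nat_lit 305) (nat_lit 5) (nat_lit 316) (nat_lit 5) (nat_lit 306) (nat_lit 5) (nat_lit 426) (nat_lit 362) (nat_lit 352)) (XT.nd (nat_lit 78) (nat_lit 760) (nat_lit 0) (XT.lf (nat_lit 0) (nat_lit 3367476388) (nat_lit 836) (nat_lit 1530918668) (nat_lit 76) (nat_lit 2689645603) (nat_lit 305) (nat_lit 5) (nat_lit 316) (nat_lit 5) (nat_lit 306) (nat_lit 5) (nat_lit 427) (nat_lit 362) (nat_lit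 351)) (XT.lf (nat_lit 0) (nat_lit 3808833070) (nat_lit 760) (nat_lit 2786166089) (nat_lit 836) (nat_lit 1046764894) (nat_lit 295) (nat_lit 5) (nat_lit 305) (nat_lit 5) (nat_lit 306) (nat_lit 5) (nat_lit 428) (nat_lit 362) (nat_lit 350))))))))
noncomputable def xc51 : XT := (XT.nd (nat_lit 1560) (nat_lit 6004) (nat_lit 0) (XT.nd (nat_lit 780) (nat_lit 4180) (nat_lit 0) (XT.nd (nat_lit 390) (nat_lit 2736) (nat_lit 0) (XT.nd (nat_lit 156) (nat_lit 1520) (nat_lit 0) (XT.nd (nat_lit 78) (nat_lit 0) (nat_lit 0) (XT.lf (nat_lit 0) (nat_lit 1519933349) (nat_lit 760) (nat_lit 604101746) (nat_lit 836) (nat_lit 5573034247) (nat_lit 284) (nat_lit 5) (nat_lit 294) (nat_lit 5) (nat_lit 295) (nat_lit 5) (nat_lit 429) (nat_lit 362) (nat_lit 349)) (XT.lf (nat_lit 0) (nat_lit 5323374989) (nat_lit 836) (nat_lit 804971515) (nat_lit 76) (nat_lit 1625449267) (nat_lit 284) (nat_lit 5) (nat_lit 295) (nat_lit 5) (nat_lit 285) (nat_lit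 5) (nat_lit 430) (nat_lit 362) (nat_lit 348))) (XT.nd (nat_lit 78) (nat_lit 684) (nat_lit 0) (XT.lf (nat_lit 0) (nat_lit 742832402) (nat_lit 836) (nat_lit 3150060823) (nat_lit 76) (nat_lit 3919138627) (nat_lit 273) (nat_lit 5) (nat_lit 284) (nat_lit 5) (nat_lit 274) (nat_lit 5) (nat_lit 431) (nat_lit 362) (nat_lit 347)) (XT.nd (nat_lit 78) (nat_lit 0) (nat_lit 0) (XT.lf (nat_lit 0) (nat_lit 2326989333) (nat_lit 684) (nat_lit 1584705863) (nat_lit 760) (nat_lit 3960156529) (nat_lit 264) (nat_lit 5) (nat_lit 273) (nat_lit 5) (nat_lit 274) (nat_lit 5) (nat_lit 432) (nat_lit 362) (nat_lit 346)) (XT.lf (nat_lit 0) (nat_lit 7114935171) (nat_lit 760) (nat_lit 47185782) (nat_lit 76) (nat_lit 771360503) (nat_lit 264) (nat_lit 5) (nat_lit 274) (nat_lit 5) (nat_lit 265) (nat_lit 5) (nat_lit 433) (nat_lit 362) (nat_lit 345))))) (XT.nd (nat_lit 156) (nat_lit 1368) (nat_lit 0) (XT.nd (nat_lit 78) (nat_lit 608) (nat_lit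 0) (XT.lf (nat_lit 0) (nat_lit 2346912714) (nat_lit 760) (nat_lit 2453713928) (nat_lit 76) (nat_lit 3195593325) (nat_lit 254) (nat_lit 5) (nat_lit 264) (nat_lit 5) (nat_lit 255) (nat_lit 5) (nat_lit 434) (nat_lit 362) (nat_lit 344)) (XT.lf (nat_lit 0) (nat_lit 3155470642) (nat_lit 608) (nat_lit 2376134088) (nat_lit 684) (nat_lit 2529194152) (nat_lit 246) (nat_lit 5) (nat_lit 254) (nat_lit 5) (nat_lit 255) (nat_lit 5) (nat_lit 435) (nat_lit 362) (nat_lit 343))) (XT.nd (nat_lit 78) (nat_lit 608) (nat_lit 0) (XT.lf (nat_lit 0) (nat_lit 613071957) (nat_lit 760) (nat_lit 7404317854) (nat_lit 76) (nat_lit 109858651) (nat_lit 236) (nat_lit 5) (nat_lit 246) (nat_lit 5) (nat_lit 237) (nat_lit 5) (nat_lit 436) (nat_lit 362) (nat_lit 342)) (XT.nd (nat_lit 78) (nat_lit 608) (nat_lit 0) (XT.lf (nat_lit 0) (nat_lit 3780098989) (nat_lit 760) (nat_lit 1762641725) (nat_lit 76) (nat_lit 2652066042) (nat_lit 236) (nat_lit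 5) (nat_lit 246) (nat_lit 5) (nat_lit 237) (nat_lit 5) (nat_lit 437) (nat_lit 362) (nat_lit 341)) (XT.lf (nat_lit 0) (nat_lit 3979533684) (nat_lit 608) (nat_lit 3004690783) (nat_lit 684) (nat_lit 1280045720) (nat_lit 228) (nat_lit 5) (nat_lit 236) (nat_lit 5) (nat_lit 237) (nat_lit 5) (nat_lit 438) (nat_lit 362) (nat_lit 340)))))) (XT.nd (nat_lit 390) (nat_lit 2280) (nat_lit 0) (XT.nd (nat_lit 156) (nat_lit 1216) (nat_lit 0) (XT.nd (nat_lit 78) (nat_lit 0) (nat_lit 0) (XT.lf (nat_lit 0) (nat_lit 1467459567) (nat_lit 608) (nat_lit 394294485) (nat_lit 684) (nat_lit 6473756055) (nat_lit 219) (nat_lit 5) (nat_lit 227) (nat_lit 5) (nat_lit 228) (nat_lit 5) (nat_lit 439) (nat_lit 362) (nat_lit 339)) (XT.lf (nat_lit 0) (nat_lit 5041605803) (nat_lit 684) (nat_lit 1103573953) (nat_lit 76) (nat_lit 2263006181) (nat_lit 219) (nat_lit 5) (nat_lit 228) (nat_lit 5) (nat_lit 220) (nat_lit 5) (nat_lit 440) (nat_lit 362)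 (nat_lit 338))) (XT.nd (nat_lit 78) (nat_lit 684) (nat_lit 0) (XT.lf (nat_lit 0) (nat_lit 4772089757) (nat_lit 532) (nat_lit 3496235259) (nat_lit 608) (nat_lit 214351770) (nat_lit 212) (nat_lit 5) (nat_lit 219) (nat_lit 5) (nat_lit 220) (nat_lit 5) (nat_lit 441) (nat_lit 362) (nat_lit 337)) (XT.nd (nat_lit 78) (nat_lit 0) (nat_lit 0) (XT.lf (nat_lit 0) (nat_lit 2166246140) (nat_lit 608) (nat_lit 766730285) (nat_lit 684) (nat_lit 5625888956) (nat_lit 203) (nat_lit 5) (nat_lit 211) (nat_lit 5) (nat_lit 212) (nat_lit 5) (nat_lit 442) (nat_lit 362) (nat_lit 336)) (XT.lf (nat_lit 0) (nat_lit 6128914270) (nat_lit 684) (nat_lit 504695892) (nat_lit 76) (nat_lit 2003193942) (nat_lit 203) (nat_lit 5) (nat_lit 212) (nat_lit 5) (nat_lit 204) (nat_lit 5) (nat_lit 443) (nat_lit 362) (nat_lit 335))))) (XT.nd (nat_lit 156) (nat_lit 1140) (nat_lit 0) (XT.nd (nat_lit 78) (nat_lit 532) (nat_lit 0) (XT.lf (nat_lit 0) (nat_lit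 655730744) (nat_lit 608) (nat_lit 3216272315) (nat_lit 76) (nat_lit 4844393972) (nat_lit 195) (nat_lit 5) (nat_lit 203) (nat_lit 5) (nat_lit 196) (nat_lit 5) (nat_lit 444) (nat_lit 362) (nat_lit 334)) (XT.lf (nat_lit 0) (nat_lit 2790510342) (nat_lit 532) (nat_lit 1031633320) (nat_lit 608) (nat_lit 4975668497) (nat_lit 188) (nat_lit 5) (nat_lit 195) (nat_lit 5) (nat_lit 196) (nat_lit 5) (nat_lit 445) (nat_lit 362) (nat_lit 333))) (XT.nd (nat_lit 78) (nat_lit 608) (nat_lit 0) (XT.lf (nat_lit 0) (nat_lit 4113775) (nat_lit 532) (nat_lit 7033616002) (nat_lit 608) (nat_lit 1843432341) (nat_lit 181) (nat_lit 5) (nat_lit 188) (nat_lit 5) (nat_lit 189) (nat_lit 5) (nat_lit 446) (nat_lit 362) (nat_lit 332)) (XT.nd (nat_lit 78) (nat_lit 532) (nat_lit 0) (XT.lf (nat_lit 0) (nat_lit 1333304977) (nat_lit 608) (nat_lit 2828580321) (nat_lit 76) (nat_lit 4804149187) (nat_lit 180) (nat_lit 5) (nat_lit 188) (nat_lit 5) (nat_lit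 181) (nat_lit 5) (nat_lit 447) (nat_lit 362) (nat_lit 331)) (XT.lf (nat_lit 0) (nat_lit 3308787130) (nat_lit 532) (nat_lit 1214719911) (nat_lit 608) (nat_lit 4529383362) (nat_lit 173) (nat_lit 5) (nat_lit 180) (nat_lit 5) (nat_lit 181) (nat_lit 5) (nat_lit 448) (nat_lit 362) (nat_lit 330))))))) (XT.nd (nat_lit 780) (nat_lit 2736) (nat_lit 0) (XT.nd (nat_lit 390) (nat_lit 1748) (nat_lit 0) (XT.nd (nat_lit 156) (nat_lit 988) (nat_lit 0) (XT.nd (nat_lit 78) (nat_lit 76) (nat_lit 0) (XT.lf (nat_lit 0) (nat_lit 395892549) (nat_lit 456) (nat_lit 7368441074) (nat_lit 532) (nat_lit 1377435050) (nat_lit 167) (nat_lit 5) (nat_lit 173) (nat_lit 5) (nat_lit 174) (nat_lit 5) (nat_lit 449) (nat_lit 362) (nat_lit 329)) (XT.lf (nat_lit 0) (nat_lit 1813985638) (nat_lit 532) (nat_lit 2579233487) (nat_lit 76) (nat_lit 4838976909) (nat_lit 166) (nat_lit 5) (nat_lit 173) (nat_lit 5) (nat_lit 167) (nat_lit 5) (nat_lit 450) (nat_lit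 362) (nat_lit 328))) (XT.nd (nat_lit 78) (nat_lit 532) (nat_lit 0) (XT.lf (nat_lit 0) (nat_lit 3687332260) (nat_lit 456) (nat_lit 1342012068) (nat_lit 532) (nat_lit 4295354843) (nat_lit 160) (nat_lit 5) (nat_lit 166) (nat_lit 5) (nat_lit 167) (nat_lit 5) (nat_lit 451) (nat_lit 362) (nat_lit 327)) (XT.nd (nat_lit 78) (nat_lit 76) (nat_lit 0) (XT.lf (nat_lit 0) (nat_lit 629086371) (nat_lit 456) (nat_lit 7667893710) (nat_lit 532) (nat_lit 1122332887) (nat_lit 154) (nat_lit 5) (nat_lit 160) (nat_lit 5) (nat_lit 161) (nat_lit 5) (nat_lit 452) (nat_lit 362) (nat_lit 326)) (XT.lf (nat_lit 0) (nat_lit 2088521080) (nat_lit 532) (nat_lit 2503884425) (nat_lit 76) (nat_lit 4923116245) (nat_lit 153) (nat_lit 5) (nat_lit 160) (nat_lit 5) (nat_lit 154) (nat_lit 5) (nat_lit 453) (nat_lit 362) (nat_lit 325))))) (XT.nd (nat_lit 156) (nat_lit 912) (nat_lit 0) (XT.nd (nat_lit 78) (nat_lit 380) (nat_lit 0) (XT.lf (nat_lit 0)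 (nat_lit 3889764727) (nat_lit 456) (nat_lit 1440079423) (nat_lit 532) (nat_lit 4284055427) (nat_lit 147) (nat_lit 5) (nat_lit 153) (nat_lit 5) (nat_lit 154) (nat_lit 5) (nat_lit 454) (nat_lit 362) (nat_lit 324)) (XT.lf (nat_lit 0) (nat_lit 666050540) (nat_lit 380) (nat_lit 7959064008) (nat_lit 456) (nat_lit 1089366466) (nat_lit 142) (nat_lit 5) (nat_lit 147) (nat_lit 5) (nat_lit 148) (nat_lit 5) (nat_lit 455) (nat_lit 362) (nat_lit 323))) (XT.nd (nat_lit 78) (nat_lit 836) (nat_lit 0) (XT.lf (nat_lit 0) (nat_lit 2145475890) (nat_lit 456) (nat_lit 2641100779) (nat_lit 76) (nat_lit 5030139301) (nat_lit 141) (nat_lit 5) (nat_lit 147) (nat_lit 5) (nat_lit 142) (nat_lit 5) (nat_lit 456) (nat_lit 362) (nat_lit 322)) (XT.nd (nat_lit 78) (nat_lit 380) (nat_lit 0) (XT.lf (nat_lit 0) (nat_lit 3876679606) (nat_lit 456) (nat_lit 1536291292) (nat_lit 532) (nat_lit 4508247271) (nat_lit 135) (nat_lit 5) (nat_lit 141) (nat_lit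 5) (nat_lit 142) (nat_lit 5) (nat_lit 457) (nat_lit 362) (nat_lit 321)) (XT.lf (nat_lit 0) (nat_lit 465942584) (nat_lit 380) (nat_lit 8269967249) (nat_lit 456) (nat_lit 1292115764) (nat_lit 130) (nat_lit 5) (nat_lit 135) (nat_lit 5) (nat_lit 136) (nat_lit 5) (nat_lit 458) (nat_lit 362) (nat_lit 320)))))) (XT.nd (nat_lit 390) (nat_lit 1444) (nat_lit 0) (XT.nd (nat_lit 156) (nat_lit 836) (nat_lit 0) (XT.nd (nat_lit 78) (nat_lit 380) (nat_lit 0) (XT.lf (nat_lit 0) (nat_lit 1971081759) (nat_lit 456) (nat_lit 3032773942) (nat_lit 76) (nat_lit 5132695268) (nat_lit 129) (nat_lit 5) (nat_lit 135) (nat_lit 5) (nat_lit 130) (nat_lit 5) (nat_lit 459) (nat_lit 362) (nat_lit 319)) (XT.lf (nat_lit 0) (nat_lit 3605227533) (nat_lit 380) (nat_lit 1659081137) (nat_lit 456) (nat_lit 4983142103) (nat_lit 124) (nat_lit 5) (nat_lit 129) (nat_lit 5) (nat_lit 130) (nat_lit 5) (nat_lit 460) (nat_lit 362) (nat_lit 318))) (XT.nd (nat_lit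 78) (nat_lit 836) (nat_lit 0) (XT.lf (nat_lit 0) (nat_lit 8614203262) (nat_lit 456) (nat_lit 15506614) (nat_lit 76) (nat_lit 1731058401) (nat_lit 124) (nat_lit 5) (nat_lit 130) (nat_lit 5) (nat_lit 125) (nat_lit 5) (nat_lit 461) (nat_lit 362) (nat_lit 317)) (XT.nd (nat_lit 78) (nat_lit 380) (nat_lit 0) (XT.lf (nat_lit 0) (nat_lit 1549066287) (nat_lit 456) (nat_lit 3724563882) (nat_lit 76) (nat_lit 5202240959) (nat_lit 118) (nat_lit 5) (nat_lit 124) (nat_lit 5) (nat_lit 119) (nat_lit 5) (nat_lit 462) (nat_lit 362) (nat_lit 316)) (XT.lf (nat_lit 0) (nat_lit 3028656775) (nat_lit 380) (nat_lit 1838225795) (nat_lit 456) (nat_lit 5726584250) (nat_lit 113) (nat_lit 5) (nat_lit 118) (nat_lit 5) (nat_lit 119) (nat_lit 5) (nat_lit 463) (nat_lit 362) (nat_lit 315))))) (XT.nd (nat_lit 234) (nat_lit 684) (nat_lit 0) (XT.nd (nat_lit 78) (nat_lit 760) (nat_lit 0) (XT.lf (nat_lit 0) (nat_lit 8247171001) (nat_lit 456) (nat_lit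 816644547) (nat_lit 76) (nat_lit 1649691126) (nat_lit 113) (nat_lit 5) (nat_lit 119) (nat_lit 5) (nat_lit 114) (nat_lit 5) (nat_lit 464) (nat_lit 362) (nat_lit 314)) (XT.nd (nat_lit 78) (nat_lit 380) (nat_lit 0) (XT.lf (nat_lit 0) (nat_lit 860457894) (nat_lit 380) (nat_lit 4766384378) (nat_lit 76) (nat_lit 5208755343) (nat_lit 108) (nat_lit 5) (nat_lit 113) (nat_lit 5) (nat_lit 109) (nat_lit 5) (nat_lit 465) (nat_lit 362) (nat_lit 313)) (XT.lf (nat_lit 0) (nat_lit 2095813427) (nat_lit 380) (nat_lit 2105142041) (nat_lit 456) (nat_lit 6759258736) (nat_lit 103) (nat_lit 5) (nat_lit 108) (nat_lit 5) (nat_lit 109) (nat_lit 5) (nat_lit 466) (nat_lit 362) (nat_lit 312)))) (XT.nd (nat_lit 78) (nat_lit 684) (nat_lit 0) (XT.lf (nat_lit 0) (nat_lit 7611403521) (nat_lit 456) (nat_lit 1996091136) (nat_lit 76) (nat_lit 1479779114) (nat_lit 103) (nat_lit 5) (nat_lit 109) (nat_lit 5) (nat_lit 104) (nat_lit 5) (nat_lit 467)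 (nat_lit 362) (nat_lit 311)) (XT.nd (nat_lit 78) (nat_lit 380) (nat_lit 0) (XT.lf (nat_lit 0) (nat_lit 5003017528) (nat_lit 304) (nat_lit 6095515505) (nat_lit 380) (nat_lit 118185237) (nat_lit 99) (nat_lit 5) (nat_lit 103) (nat_lit 5) (nat_lit 104) (nat_lit 5) (nat_lit 468) (nat_lit 362) (nat_lit 310)) (XT.lf (nat_lit 0) (nat_lit 750594875) (nat_lit 304) (nat_lit 2493203227) (nat_lit 380) (nat_lit 8104926618) (nat_lit 94) (nat_lit 5) (nat_lit 98) (nat_lit 5) (nat_lit 99) (nat_lit 5) (nat_lit 469) (nat_lit 362) (nat_lit 309))))))))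
noncomputable def xc52 : XT := (XT.nd (nat_lit 1560) (nat_lit 1824) (nat_lit 0) (XT.nd (nat_lit 780) (nat_lit 1292) (nat_lit 0) (XT.nd (nat_lit 390) (nat_lit 988) (nat_lit 0) (XT.nd (nat_lit 156) (nat_lit 608) (nat_lit 0) (XT.nd (nat_lit 78) (nat_lit 304) (nat_lit 0) (XT.lf (nat_lit 0) (nat_lit 6683469749) (nat_lit 380) (nat_lit 3611478841) (nat_lit 76) (nat_lit 1188178893) (nat_lit 94) (nat_lit 5) (nat_lit 99) (nat_lit 5) (nat_lit 95) (nat_lit 5) (nat_lit 470) (nat_lit 362) (nat_lit 308)) (XT.lf (nat_lit 0) (nat_lit 3486652792) (nat_lit 304) (nat_lit 6707555954) (nat_lit 380) (nat_lit 1425976266) (nat_lit 90) (nat_lit 5) (nat_lit 94) (nat_lit 5) (nat_lit 95) (nat_lit 5) (nat_lit 471) (nat_lit 362) (nat_lit 307))) (XT.nd (nat_lit 78) (nat_lit 532) (nat_lit 0) (XT.lf (nat_lit 0) (nat_lit 1976368496) (nat_lit 380) (nat_lit 1054633316) (nat_lit 76) (nat_lit 8728979533) (nat_lit 89) (nat_lit 5) (nat_lit 94)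 (nat_lit 5) (nat_lit 90) (nat_lit 5) (nat_lit 472) (nat_lit 362) (nat_lit 306)) (XT.nd (nat_lit 78) (nat_lit 228) (nat_lit 0) (XT.lf (nat_lit 0) (nat_lit 5436624711) (nat_lit 380) (nat_lit 5726176612) (nat_lit 76) (nat_lit 739416085) (nat_lit 85) (nat_lit 5) (nat_lit 90) (nat_lit 5) (nat_lit 86) (nat_lit 5) (nat_lit 473) (nat_lit 362) (nat_lit 305)) (XT.lf (nat_lit 0) (nat_lit 1460822754) (nat_lit 228) (nat_lit 7506100057) (nat_lit 304) (nat_lit 3080369905) (nat_lit 82) (nat_lit 5) (nat_lit 85) (nat_lit 5) (nat_lit 86) (nat_lit 5) (nat_lit 474) (nat_lit 362) (nat_lit 304))))) (XT.nd (nat_lit 156) (nat_lit 608) (nat_lit 0) (XT.nd (nat_lit 78) (nat_lit 304) (nat_lit 0) (XT.lf (nat_lit 0) (nat_lit 370597762) (nat_lit 304) (nat_lit 3384789533) (nat_lit 76) (nat_lit 8439786149) (nat_lit 81) (nat_lit 5) (nat_lit 85) (nat_lit 5) (nat_lit 82) (nat_lit 5) (nat_lit 475) (nat_lit 362) (nat_lit 303)) (XT.lf (nat_lit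 0) (nat_lit 3840509947) (nat_lit 380) (nat_lit 8409962609) (nat_lit 76) (nat_lit 95319189) (nat_lit 77) (nat_lit 5) (nat_lit 82) (nat_lit 5) (nat_lit 78) (nat_lit 5) (nat_lit 476) (nat_lit 362) (nat_lit 302))) (XT.nd (nat_lit 78) (nat_lit 608) (nat_lit 0) (XT.lf (nat_lit 0) (nat_lit 7392696572) (nat_lit 380) (nat_lit 1131135053) (nat_lit 76) (nat_lit 3975343664) (nat_lit 77) (nat_lit 5) (nat_lit 82) (nat_lit 5) (nat_lit 78) (nat_lit 5) (nat_lit 477) (nat_lit 362) (nat_lit 301)) (XT.nd (nat_lit 78) (nat_lit 380) (nat_lit 0) (XT.lf (nat_lit 0) (nat_lit 6321382701) (nat_lit 228) (nat_lit 4701412271) (nat_lit 304) (nat_lit 1632704371) (nat_lit 74) (nat_lit 5) (nat_lit 77) (nat_lit 5) (nat_lit 78) (nat_lit 5) (nat_lit 478) (nat_lit 362) (nat_lit 300)) (XT.lf (nat_lit 0) (nat_lit 1070171458) (nat_lit 304) (nat_lit 795813921) (nat_lit 380) (nat_lit 10949116268) (nat_lit 69) (nat_lit 5) (nat_lit 73) (nat_lit 5)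 (nat_lit 74) (nat_lit 5) (nat_lit 479) (nat_lit 362) (nat_lit 299)))))) (XT.nd (nat_lit 390) (nat_lit 760) (nat_lit 0) (XT.nd (nat_lit 156) (nat_lit 304) (nat_lit 0) (XT.nd (nat_lit 78) (nat_lit 228) (nat_lit 0) (XT.lf (nat_lit 0) (nat_lit 5442379798) (nat_lit 380) (nat_lit 4355516057) (nat_lit 76) (nat_lit 3179202053) (nat_lit 69) (nat_lit 5) (nat_lit 74) (nat_lit 5) (nat_lit 70) (nat_lit 5) (nat_lit 480) (nat_lit 362) (nat_lit 298)) (XT.lf (nat_lit 0) (nat_lit 3163907298) (nat_lit 228) (nat_lit 5918959891) (nat_lit 304) (nat_lit 4059625025) (nat_lit 66) (nat_lit 5) (nat_lit 69) (nat_lit 5) (nat_lit 70) (nat_lit 5) (nat_lit 481) (nat_lit 362) (nat_lit 297))) (XT.nd (nat_lit 78) (nat_lit 304) (nat_lit 0) (XT.lf (nat_lit 0) (nat_lit 10839110595) (nat_lit 228) (nat_lit 1953337736) (nat_lit 304) (nat_lit 518829632) (nat_lit 66) (nat_lit 5) (nat_lit 69) (nat_lit 5) (nat_lit 70) (nat_lit 5) (nat_lit 482) (nat_lit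 362) (nat_lit 296)) (XT.nd (nat_lit 78) (nat_lit 0) (nat_lit 0) (XT.lf (nat_lit 0) (nat_lit 3067127815) (nat_lit 304) (nat_lit 8317640795) (nat_lit 76) (nat_lit 2097979916) (nat_lit 62) (nat_lit 5) (nat_lit 66) (nat_lit 5) (nat_lit 63) (nat_lit 5) (nat_lit 483) (nat_lit 362) (nat_lit 295)) (XT.lf (nat_lit 0) (nat_lit 6715141225) (nat_lit 304) (nat_lit 738368557) (nat_lit 76) (nat_lit 6204133154) (nat_lit 62) (nat_lit 5) (nat_lit 66) (nat_lit 5) (nat_lit 63) (nat_lit 5) (nat_lit 484) (nat_lit 362) (nat_lit 294))))) (XT.nd (nat_lit 156) (nat_lit 228) (nat_lit 0) (XT.nd (nat_lit 78) (nat_lit 304) (nat_lit 0) (XT.lf (nat_lit 0) (nat_lit 7032556459) (nat_lit 228) (nat_lit 3417494963) (nat_lit 304) (nat_lit 3385713615) (nat_lit 59) (nat_lit 5) (nat_lit 62) (nat_lit 5) (nat_lit 63) (nat_lit 5) (nat_lit 485) (nat_lit 362) (nat_lit 293)) (XT.lf (nat_lit 0) (nat_lit 222761560) (nat_lit 304) (nat_lit 13112699043) (nat_lit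 76) (nat_lit 682291169) (nat_lit 55) (nat_lit 5) (nat_lit 59) (nat_lit 5) (nat_lit 56) (nat_lit 5) (nat_lit 486) (nat_lit 362) (nat_lit 292))) (XT.nd (nat_lit 78) (nat_lit 228) (nat_lit 0) (XT.lf (nat_lit 0) (nat_lit 3895197696) (nat_lit 304) (nat_lit 5440533271) (nat_lit 76) (nat_lit 4866465199) (nat_lit 55) (nat_lit 5) (nat_lit 59) (nat_lit 5) (nat_lit 56) (nat_lit 5) (nat_lit 487) (nat_lit 362) (nat_lit 291)) (XT.nd (nat_lit 78) (nat_lit 0) (nat_lit 0) (XT.lf (nat_lit 0) (nat_lit 2364707080) (nat_lit 228) (nat_lit 5260842369) (nat_lit 304) (nat_lit 6765098548) (nat_lit 52) (nat_lit 5) (nat_lit 55) (nat_lit 5) (nat_lit 56) (nat_lit 5) (nat_lit 488) (nat_lit 362) (nat_lit 290)) (XT.lf (nat_lit 0) (nat_lit 10348755848) (nat_lit 228) (nat_lit 1087649079) (nat_lit 304) (nat_lit 3146353730) (nat_lit 52) (nat_lit 5) (nat_lit 55) (nat_lit 5) (nat_lit 56) (nat_lit 5) (nat_lit 489) (nat_lit 362) (nat_lit 289)))))))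 (XT.nd (nat_lit 780) (nat_lit 608) (nat_lit 0) (XT.nd (nat_lit 390) (nat_lit 456) (nat_lit 0) (XT.nd (nat_lit 156) (nat_lit 456) (nat_lit 0) (XT.nd (nat_lit 78) (nat_lit 0) (nat_lit 0) (XT.lf (nat_lit 0) (nat_lit 552107469) (nat_lit 304) (nat_lit 11090976546) (nat_lit 76) (nat_lit 3135274481) (nat_lit 48) (nat_lit 5) (nat_lit 52) (nat_lit 5) (nat_lit 49) (nat_lit 5) (nat_lit 490) (nat_lit 362) (nat_lit 288)) (XT.lf (nat_lit 0) (nat_lit 4288169120) (nat_lit 304) (nat_lit 3231538393) (nat_lit 76) (nat_lit 7457638936) (nat_lit 48) (nat_lit 5) (nat_lit 52) (nat_lit 5) (nat_lit 49) (nat_lit 5) (nat_lit 491) (nat_lit 362) (nat_lit 287))) (XT.nd (nat_lit 78) (nat_lit 304) (nat_lit 0) (XT.lf (nat_lit 0) (nat_lit 4798416873) (nat_lit 152) (nat_lit 3302197476) (nat_lit 228) (nat_lit 7079673704) (nat_lit 46) (nat_lit 5) (nat_lit 48) (nat_lit 5) (nat_lit 49) (nat_lit 5) (nat_lit 492) (nat_lit 362) (nat_lit 286)) (XT.nd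 (nat_lit 78) (nat_lit 304) (nat_lit 0) (XT.lf (nat_lit 0) (nat_lit 11988263935) (nat_lit 228) (nat_lit 2410452219) (nat_lit 76) (nat_lit 988600229) (nat_lit 46) (nat_lit 5) (nat_lit 49) (nat_lit 5) (nat_lit 47) (nat_lit 5) (nat_lit 493) (nat_lit 362) (nat_lit 285)) (XT.lf (nat_lit 0) (nat_lit 380966679) (nat_lit 304) (nat_lit 9875548537) (nat_lit 76) (nat_lit 5341321794) (nat_lit 42) (nat_lit 5) (nat_lit 46) (nat_lit 5) (nat_lit 43) (nat_lit 5) (nat_lit 494) (nat_lit 362) (nat_lit 284))))) (XT.nd (nat_lit 156) (nat_lit 304) (nat_lit 0) (XT.nd (nat_lit 78) (nat_lit 152) (nat_lit 0) (XT.lf (nat_lit 0) (nat_lit 4178664068) (nat_lit 304) (nat_lit 1833334967) (nat_lit 76) (nat_lit 9800374434) (nat_lit 42) (nat_lit 5) (nat_lit 46) (nat_lit 5) (nat_lit 43) (nat_lit 5) (nat_lit 495) (nat_lit 362) (nat_lit 283)) (XT.lf (nat_lit 0) (nat_lit 6405863082) (nat_lit 152) (nat_lit 1659872965) (nat_lit 228) (nat_lit 7965202664)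 (nat_lit 40) (nat_lit 5) (nat_lit 42) (nat_lit 5) (nat_lit 43) (nat_lit 5) (nat_lit 496) (nat_lit 362) (nat_lit 282))) (XT.nd (nat_lit 78) (nat_lit 304) (nat_lit 0) (XT.lf (nat_lit 0) (nat_lit 12032924259) (nat_lit 228) (nat_lit 1485055574) (nat_lit 76) (nat_lit 2735854269) (nat_lit 40) (nat_lit 5) (nat_lit 43) (nat_lit 5) (nat_lit 41) (nat_lit 5) (nat_lit 497) (nat_lit 362) (nat_lit 281)) (XT.nd (nat_lit 78) (nat_lit 76) (nat_lit 0) (XT.lf (nat_lit 0) (nat_lit 6849550240) (nat_lit 228) (nat_lit 9257866084) (nat_lit 304) (nat_lit 373218091) (nat_lit 37) (nat_lit 5) (nat_lit 40) (nat_lit 5) (nat_lit 41) (nat_lit 5) (nat_lit 498) (nat_lit 362) (nat_lit 280)) (XT.lf (nat_lit 0) (nat_lit 3487426313) (nat_lit 304) (nat_lit 1411033609) (nat_lit 76) (nat_lit 11813404093) (nat_lit 36) (nat_lit 5) (nat_lit 40) (nat_lit 5) (nat_lit 37) (nat_lit 5) (nat_lit 499) (nat_lit 362) (nat_lit 279)))))) (XT.nd (nat_lit 390)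 (nat_lit 0) (nat_lit 0) (XT.nd (nat_lit 156) (nat_lit 456) (nat_lit 0) (XT.nd (nat_lit 78) (nat_lit 0) (nat_lit 0) (XT.lf (nat_lit 0) (nat_lit 7016780054) (nat_lit 152) (nat_lit 422151684) (nat_lit 228) (nat_lit 9508370078) (nat_lit 34) (nat_lit 5) (nat_lit 36) (nat_lit 5) (nat_lit 37) (nat_lit 5) (nat_lit 500) (nat_lit 362) (nat_lit 278)) (XT.lf (nat_lit 0) (nat_lit 11479090724) (nat_lit 228) (nat_lit 1628251831) (nat_lit 76) (nat_lit 4079919091) (nat_lit 34) (nat_lit 5) (nat_lit 37) (nat_lit 5) (nat_lit 35) (nat_lit 5) (nat_lit 501) (nat_lit 362) (nat_lit 277))) (XT.nd (nat_lit 78) (nat_lit 228) (nat_lit 0) (XT.lf (nat_lit 0) (nat_lit 6882132597) (nat_lit 228) (nat_lit 8739113514) (nat_lit 304) (nat_lit 1810356328) (nat_lit 31) (nat_lit 5) (nat_lit 34) (nat_lit 5) (nat_lit 35) (nat_lit 5) (nat_lit 502) (nat_lit 362) (nat_lit 276)) (XT.nd (nat_lit 78) (nat_lit 152) (nat_lit 0) (XT.lf (nat_lit 0) (nat_lit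 2121772249) (nat_lit 304) (nat_lit 2155398181) (nat_lit 76) (nat_lit 13403688692) (nat_lit 30) (nat_lit 5) (nat_lit 34) (nat_lit 5) (nat_lit 31) (nat_lit 5) (nat_lit 503) (nat_lit 362) (nat_lit 275)) (XT.lf (nat_lit 0) (nat_lit 6126387830) (nat_lit 228) (nat_lit 11502164181) (nat_lit 76) (nat_lit 305953203) (nat_lit 28) (nat_lit 5) (nat_lit 31) (nat_lit 5) (nat_lit 29) (nat_lit 5) (nat_lit 504) (nat_lit 362) (nat_lit 274))))) (XT.nd (nat_lit 52416) (nat_lit 0) (nat_lit 27360) (XT.nd (nat_lit 52260) (nat_lit 0) (nat_lit 30704) (XT.lf (nat_lit 0) (nat_lit 10228349493) (nat_lit 228) (nat_lit 3044964694) (nat_lit 76) (nat_lit 4919570166) (nat_lit 28) (nat_lit 5) (nat_lit 31) (nat_lit 5) (nat_lit 29) (nat_lit 5) (nat_lit 505) (nat_lit 362) (nat_lit 273)) (XT.nd (nat_lit 78) (nat_lit 1596) (nat_lit 0) (XT.lf (nat_lit 0) (nat_lit 2797958525) (nat_lit 1444) (nat_lit 356779011) (nat_lit 1444) (nat_lit 356779011)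 (nat_lit 453) (nat_lit 4) (nat_lit 472) (nat_lit 5) (nat_lit 472) (nat_lit 4) (nat_lit 414) (nat_lit 363) (nat_lit 363)) (XT.lf (nat_lit 0) (nat_lit 2554637589) (nat_lit 1596) (nat_lit 3699378948) (nat_lit 0) (nat_lit 804357905) (nat_lit 432) (nat_lit 5) (nat_lit 453) (nat_lit 4) (nat_lit 432) (nat_lit 4) (nat_lit 415) (nat_lit 363) (nat_lit 362)))) (XT.nd (nat_lit 78) (nat_lit 1748) (nat_lit 0) (XT.lf (nat_lit 0) (nat_lit 1106713552) (nat_lit 1596) (nat_lit 4727399126) (nat_lit 1596) (nat_lit 1261158968) (nat_lit 411) (nat_lit 4) (nat_lit 432) (nat_lit 5) (nat_lit 432) (nat_lit 4) (nat_lit 416) (nat_lit 363) (nat_lit 361)) (XT.nd (nat_lit 78) (nat_lit 1672) (nat_lit 0) (XT.lf (nat_lit 0) (nat_lit 1978731148) (nat_lit 1672) (nat_lit 1151517427) (nat_lit 76) (nat_lit 4003257261) (nat_lit 410) (nat_lit 5) (nat_lit 432) (nat_lit 5) (nat_lit 411) (nat_lit 4) (nat_lit 417) (nat_lit 363) (nat_lit 360)) (XT.lf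 (nat_lit 0) (nat_lit 3759760233) (nat_lit 1672) (nat_lit 1466795320) (nat_lit 1748) (nat_lit 1946631683) (nat_lit 388) (nat_lit 5) (nat_lit 410) (nat_lit 5) (nat_lit 411) (nat_lit 4) (nat_lit 418) (nat_lit 363) (nat_lit 359))))))))
noncomputable def xc53 : XT := (XT.nd (nat_lit 1560) (nat_lit 7524) (nat_lit 0) (XT.nd (nat_lit 780) (nat_lit 5016) (nat_lit 0) (XT.nd (nat_lit 390) (nat_lit 3420) (nat_lit 0) (XT.nd (nat_lit 156) (nat_lit 1900) (nat_lit 0) (XT.nd (nat_lit 78) (nat_lit 0) (nat_lit 0) (XT.lf (nat_lit 0) (nat_lit 1263574902) (nat_lit 1824) (nat_lit 5697451113) (nat_lit 76) (nat_lit 253406152) (nat_lit 364) (nat_lit 5) (nat_lit 388) (nat_lit 5) (nat_lit 365) (nat_lit 4) (nat_lit 419) (nat_lit 363) (nat_lit 358)) (XT.lf (nat_lit 0) (nat_lit 4481537924) (nat_lit 1824) (nat_lit 751364079) (nat_lit 76) (nat_lit 2023997146) (nat_lit 364) (nat_lit 5) (nat_lit 388) (nat_lit 5) (nat_lit 365) (nat_lit 4)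 (nat_lit 420) (nat_lit 363) (nat_lit 357))) (XT.nd (nat_lit 78) (nat_lit 912) (nat_lit 0) (XT.lf (nat_lit 0) (nat_lit 423182897) (nat_lit 988) (nat_lit 3017426417) (nat_lit 76) (nat_lit 3860278605) (nat_lit 351) (nat_lit 5) (nat_lit 364) (nat_lit 5) (nat_lit 352) (nat_lit 5) (nat_lit 421) (nat_lit 363) (nat_lit 356)) (XT.nd (nat_lit 78) (nat_lit 0) (nat_lit 0) (XT.lf (nat_lit 0) (nat_lit 2027689717) (nat_lit 912) (nat_lit 1577537280) (nat_lit 988) (nat_lit 3741072891) (nat_lit 339) (nat_lit 5) (nat_lit 351) (nat_lit 5) (nat_lit 352) (nat_lit 5) (nat_lit 422) (nat_lit 363) (nat_lit 355)) (XT.lf (nat_lit 0) (nat_lit 6812582878) (nat_lit 988) (nat_lit 244658152) (nat_lit 76) (nat_lit 336188932) (nat_lit 339) (nat_lit 5) (nat_lit 352) (nat_lit 5) (nat_lit 340) (nat_lit 4) (nat_lit 423) (nat_lit 363) (nat_lit 354))))) (XT.nd (nat_lit 156) (nat_lit 1672) (nat_lit 0) (XT.nd (nat_lit 78) (nat_lit 836) (nat_lit 0)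 (XT.lf (nat_lit 0) (nat_lit 2590553897) (nat_lit 912) (nat_lit 2537615159) (nat_lit 76) (nat_lit 2313379465) (nat_lit 327) (nat_lit 5) (nat_lit 339) (nat_lit 5) (nat_lit 328) (nat_lit 5) (nat_lit 424) (nat_lit 363) (nat_lit 353)) (XT.lf (nat_lit 0) (nat_lit 2634954017) (nat_lit 836) (nat_lit 3142132100) (nat_lit 912) (nat_lit 1714317719) (nat_lit 316) (nat_lit 5) (nat_lit 327) (nat_lit 5) (nat_lit 328) (nat_lit 5) (nat_lit 425) (nat_lit 363) (nat_lit 352))) (XT.nd (nat_lit 78) (nat_lit 836) (nat_lit 0) (XT.lf (nat_lit 0) (nat_lit 333713839) (nat_lit 760) (nat_lit 1092245595) (nat_lit 836) (nat_lit 6116936303) (nat_lit 305) (nat_lit 5) (nat_lit 315) (nat_lit 5) (nat_lit 316) (nat_lit 5) (nat_lit 426) (nat_lit 363) (nat_lit 351)) (XT.nd (nat_lit 78) (nat_lit 836) (nat_lit 0) (XT.lf (nat_lit 0) (nat_lit 4587137513) (nat_lit 836) (nat_lit 1984414362) (nat_lit 76) (nat_lit 1024056401) (nat_lit 305) (nat_lit 5)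 (nat_lit 316) (nat_lit 5) (nat_lit 306) (nat_lit 5) (nat_lit 427) (nat_lit 363) (nat_lit 350)) (XT.lf (nat_lit 0) (nat_lit 131465850) (nat_lit 836) (nat_lit 4333553144) (nat_lit 76) (nat_lit 3184943386) (nat_lit 294) (nat_lit 5) (nat_lit 305) (nat_lit 5) (nat_lit 295) (nat_lit 5) (nat_lit 428) (nat_lit 363) (nat_lit 349)))))) (XT.nd (nat_lit 390) (nat_lit 2660) (nat_lit 0) (XT.nd (nat_lit 156) (nat_lit 1596) (nat_lit 0) (XT.nd (nat_lit 78) (nat_lit 0) (nat_lit 0) (XT.lf (nat_lit 0) (nat_lit 973566059) (nat_lit 760) (nat_lit 2283295299) (nat_lit 836) (nat_lit 4448921834) (nat_lit 284) (nat_lit 5) (nat_lit 294) (nat_lit 5) (nat_lit 295) (nat_lit 5) (nat_lit 429) (nat_lit 363) (nat_lit 348)) (XT.lf (nat_lit 0) (nat_lit 6381790553) (nat_lit 760) (nat_lit 35934901) (nat_lit 836) (nat_lit 1345571261) (nat_lit 284) (nat_lit 5) (nat_lit 294) (nat_lit 5) (nat_lit 295) (nat_lit 5) (nat_lit 430) (nat_lit 363) (nat_lit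 347))) (XT.nd (nat_lit 78) (nat_lit 760) (nat_lit 0) (XT.lf (nat_lit 0) (nat_lit 1781734951) (nat_lit 836) (nat_lit 3782915128) (nat_lit 76) (nat_lit 2257393120) (nat_lit 273) (nat_lit 5) (nat_lit 284) (nat_lit 5) (nat_lit 274) (nat_lit 5) (nat_lit 431) (nat_lit 363) (nat_lit 346)) (XT.nd (nat_lit 78) (nat_lit 76) (nat_lit 0) (XT.lf (nat_lit 0) (nat_lit 1653641318) (nat_lit 684) (nat_lit 3265459555) (nat_lit 760) (nat_lit 2963408702) (nat_lit 264) (nat_lit 5) (nat_lit 273) (nat_lit 5) (nat_lit 274) (nat_lit 5) (nat_lit 432) (nat_lit 363) (nat_lit 345)) (XT.lf (nat_lit 0) (nat_lit 143765145) (nat_lit 760) (nat_lit 759069240) (nat_lit 76) (nat_lit 7041939687) (nat_lit 263) (nat_lit 5) (nat_lit 273) (nat_lit 5) (nat_lit 264) (nat_lit 5) (nat_lit 433) (nat_lit 363) (nat_lit 344))))) (XT.nd (nat_lit 156) (nat_lit 1368) (nat_lit 0) (XT.nd (nat_lit 78) (nat_lit 608) (nat_lit 0) (XT.lf (nat_lit 0) (nat_lit 3261213384)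 (nat_lit 760) (nat_lit 3218002287) (nat_lit 76) (nat_lit 1528951736) (nat_lit 254) (nat_lit 5) (nat_lit 264) (nat_lit 5) (nat_lit 255) (nat_lit 5) (nat_lit 434) (nat_lit 363) (nat_lit 343)) (XT.lf (nat_lit 0) (nat_lit 2349100385) (nat_lit 608) (nat_lit 4065393918) (nat_lit 684) (nat_lit 1658895545) (nat_lit 246) (nat_lit 5) (nat_lit 254) (nat_lit 5) (nat_lit 255) (nat_lit 5) (nat_lit 435) (nat_lit 363) (nat_lit 342))) (XT.nd (nat_lit 78) (nat_lit 1292) (nat_lit 0) (XT.lf (nat_lit 0) (nat_lit 1440483480) (nat_lit 684) (nat_lit 142094844) (nat_lit 76) (nat_lit 6557792260) (nat_lit 245) (nat_lit 5) (nat_lit 254) (nat_lit 5) (nat_lit 246) (nat_lit 5) (nat_lit 436) (nat_lit 363) (nat_lit 341)) (XT.nd (nat_lit 78) (nat_lit 608) (nat_lit 0) (XT.lf (nat_lit 0) (nat_lit 4570512226) (nat_lit 760) (nat_lit 2664358857) (nat_lit 76) (nat_lit 973812181) (nat_lit 236) (nat_lit 5) (nat_lit 246) (nat_lit 5) (nat_lit 237)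 (nat_lit 5) (nat_lit 437) (nat_lit 363) (nat_lit 340)) (XT.lf (nat_lit 0) (nat_lit 3034099528) (nat_lit 608) (nat_lit 4709123209) (nat_lit 684) (nat_lit 535566394) (nat_lit 228) (nat_lit 5) (nat_lit 236) (nat_lit 5) (nat_lit 237) (nat_lit 5) (nat_lit 438) (nat_lit 363) (nat_lit 339))))))) (XT.nd (nat_lit 780) (nat_lit 3344) (nat_lit 0) (XT.nd (nat_lit 390) (nat_lit 2280) (nat_lit 0) (XT.nd (nat_lit 156) (nat_lit 1216) (nat_lit 0) (XT.nd (nat_lit 78) (nat_lit 0) (nat_lit 0) (XT.lf (nat_lit 0) (nat_lit 457973798) (nat_lit 608) (nat_lit 2106779262) (nat_lit 684) (nat_lit 5785827235) (nat_lit 219) (nat_lit 5) (nat_lit 227) (nat_lit 5) (nat_lit 228) (nat_lit 5) (nat_lit 439) (nat_lit 363) (nat_lit 338)) (XT.lf (nat_lit 0) (nat_lit 5708573172) (nat_lit 684) (nat_lit 2148733106) (nat_lit 76) (nat_lit 566683803) (nat_lit 219) (nat_lit 5) (nat_lit 228) (nat_lit 5) (nat_lit 220) (nat_lit 5) (nat_lit 440) (nat_lit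 363) (nat_lit 337))) (XT.nd (nat_lit 78) (nat_lit 608) (nat_lit 0) (XT.lf (nat_lit 0) (nat_lit 399355848) (nat_lit 608) (nat_lit 4820223533) (nat_lit 76) (nat_lit 3279492166) (nat_lit 211) (nat_lit 5) (nat_lit 219) (nat_lit 5) (nat_lit 212) (nat_lit 5) (nat_lit 441) (nat_lit 363) (nat_lit 336)) (XT.nd (nat_lit 78) (nat_lit 0) (nat_lit 0) (XT.lf (nat_lit 0) (nat_lit 1008806979) (nat_lit 608) (nat_lit 2503232156) (nat_lit 684) (nat_lit 5063842400) (nat_lit 203) (nat_lit 5) (nat_lit 211) (nat_lit 5) (nat_lit 212) (nat_lit 5) (nat_lit 442) (nat_lit 363) (nat_lit 335)) (XT.lf (nat_lit 0) (nat_lit 6672613740) (nat_lit 684) (nat_lit 1699349982) (nat_lit 76) (nat_lit 282576108) (nat_lit 203) (nat_lit 5) (nat_lit 212) (nat_lit 5) (nat_lit 204) (nat_lit 5) (nat_lit 443) (nat_lit 363) (nat_lit 334))))) (XT.nd (nat_lit 156) (nat_lit 1140) (nat_lit 0) (XT.nd (nat_lit 78) (nat_lit 532) (nat_lit 0) (XT.lf (nat_lit 0) (nat_lit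 1142895720) (nat_lit 608) (nat_lit 4479655369) (nat_lit 76) (nat_lit 3112163212) (nat_lit 195) (nat_lit 5) (nat_lit 203) (nat_lit 5) (nat_lit 196) (nat_lit 5) (nat_lit 444) (nat_lit 363) (nat_lit 333)) (XT.lf (nat_lit 0) (nat_lit 1478948598) (nat_lit 532) (nat_lit 2798325842) (nat_lit 608) (nat_lit 4539507271) (nat_lit 188) (nat_lit 5) (nat_lit 195) (nat_lit 5) (nat_lit 196) (nat_lit 5) (nat_lit 445) (nat_lit 363) (nat_lit 332))) (XT.nd (nat_lit 78) (nat_lit 1140) (nat_lit 0) (XT.lf (nat_lit 0) (nat_lit 7458057185) (nat_lit 608) (nat_lit 1346202173) (nat_lit 76) (nat_lit 96579750) (nat_lit 188) (nat_lit 5) (nat_lit 196) (nat_lit 5) (nat_lit 189) (nat_lit 5) (nat_lit 446) (nat_lit 363) (nat_lit 331)) (XT.nd (nat_lit 78) (nat_lit 532) (nat_lit 0) (XT.lf (nat_lit 0) (nat_lit 1696571509) (nat_lit 608) (nat_lit 4250498745) (nat_lit 76) (nat_lit 3039242710) (nat_lit 180) (nat_lit 5) (nat_lit 188) (nat_lit 5) (nat_lit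 181) (nat_lit 5) (nat_lit 447) (nat_lit 363) (nat_lit 330)) (XT.lf (nat_lit 0) (nat_lit 1836862783) (nat_lit 532) (nat_lit 3017595221) (nat_lit 608) (nat_lit 4219367904) (nat_lit 173) (nat_lit 5) (nat_lit 180) (nat_lit 5) (nat_lit 181) (nat_lit 5) (nat_lit 448) (nat_lit 363) (nat_lit 329)))))) (XT.nd (nat_lit 390) (nat_lit 1824) (nat_lit 0) (XT.nd (nat_lit 156) (nat_lit 988) (nat_lit 0) (XT.nd (nat_lit 78) (nat_lit 532) (nat_lit 0) (XT.lf (nat_lit 0) (nat_lit 8041979405) (nat_lit 532) (nat_lit 16574435) (nat_lit 608) (nat_lit 1104895457) (nat_lit 173) (nat_lit 5) (nat_lit 180) (nat_lit 5) (nat_lit 181) (nat_lit 5) (nat_lit 449) (nat_lit 363) (nat_lit 328)) (XT.lf (nat_lit 0) (nat_lit 2052938832) (nat_lit 532) (nat_lit 4165954597) (nat_lit 76) (nat_lit 3035558174) (nat_lit 166) (nat_lit 5) (nat_lit 173) (nat_lit 5) (nat_lit 167) (nat_lit 5) (nat_lit 450) (nat_lit 363) (nat_lit 327))) (XT.nd (nat_lit 78) (nat_lit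 532) (nat_lit 0) (XT.lf (nat_lit 0) (nat_lit 2048714794) (nat_lit 456) (nat_lit 3186907043) (nat_lit 532) (nat_lit 4111996316) (nat_lit 160) (nat_lit 5) (nat_lit 166) (nat_lit 5) (nat_lit 167) (nat_lit 5) (nat_lit 451) (nat_lit 363) (nat_lit 326)) (XT.nd (nat_lit 78) (nat_lit 532) (nat_lit 0) (XT.lf (nat_lit 0) (nat_lit 8383132964) (nat_lit 456) (nat_lit 82743840) (nat_lit 532) (nat_lit 977112467) (nat_lit 160) (nat_lit 5) (nat_lit 166) (nat_lit 5) (nat_lit 167) (nat_lit 5) (nat_lit 452) (nat_lit 363) (nat_lit 325)) (XT.lf (nat_lit 0) (nat_lit 2202504072) (nat_lit 532) (nat_lit 4261781394) (nat_lit 76) (nat_lit 3075489714) (nat_lit 153) (nat_lit 5) (nat_lit 160) (nat_lit 5) (nat_lit 154) (nat_lit 5) (nat_lit 453) (nat_lit 363) (nat_lit 324))))) (XT.nd (nat_lit 234) (nat_lit 912) (nat_lit 0) (XT.nd (nat_lit 78) (nat_lit 456) (nat_lit 0) (XT.lf (nat_lit 0) (nat_lit 2078014029) (nat_lit 456) (nat_lit 3332700326)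 (nat_lit 532) (nat_lit 4228110052) (nat_lit 147) (nat_lit 5) (nat_lit 153) (nat_lit 5) (nat_lit 154) (nat_lit 5) (nat_lit 454) (nat_lit 363) (nat_lit 323)) (XT.nd (nat_lit 78) (nat_lit 456) (nat_lit 0) (XT.lf (nat_lit 0) (nat_lit 8541988409) (nat_lit 456) (nat_lit 127026384) (nat_lit 532) (nat_lit 1071139415) (nat_lit 147) (nat_lit 5) (nat_lit 153) (nat_lit 5) (nat_lit 154) (nat_lit 5) (nat_lit 455) (nat_lit 363) (nat_lit 322)) (XT.lf (nat_lit 0) (nat_lit 2133594778) (nat_lit 456) (nat_lit 4576671224) (nat_lit 76) (nat_lit 3132726795) (nat_lit 141) (nat_lit 5) (nat_lit 147) (nat_lit 5) (nat_lit 142) (nat_lit 5) (nat_lit 456) (nat_lit 363) (nat_lit 321)))) (XT.nd (nat_lit 78) (nat_lit 456) (nat_lit 0) (XT.lf (nat_lit 0) (nat_lit 1885227313) (nat_lit 456) (nat_lit 3482237057) (nat_lit 532) (nat_lit 4580711583) (nat_lit 135) (nat_lit 5) (nat_lit 141) (nat_lit 5) (nat_lit 142) (nat_lit 5) (nat_lit 457) (nat_lit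 363) (nat_lit 320)) (XT.nd (nat_lit 78) (nat_lit 456) (nat_lit 0) (XT.lf (nat_lit 0) (nat_lit 8478674888) (nat_lit 456) (nat_lit 176675172) (nat_lit 532) (nat_lit 1400342668) (nat_lit 135) (nat_lit 5) (nat_lit 141) (nat_lit 5) (nat_lit 142) (nat_lit 5) (nat_lit 458) (nat_lit 363) (nat_lit 319)) (XT.lf (nat_lit 0) (nat_lit 1832209671) (nat_lit 456) (nat_lit 5152658119) (nat_lit 76) (nat_lit 3180013616) (nat_lit 129) (nat_lit 5) (nat_lit 135) (nat_lit 5) (nat_lit 130) (nat_lit 5) (nat_lit 459) (nat_lit 363) (nat_lit 318))))))))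
noncomputable def xc54 : XT := (XT.nd (nat_lit 1560) (nat_lit 2964) (nat_lit 0) (XT.nd (nat_lit 780) (nat_lit 1900) (nat_lit 0) (XT.nd (nat_lit 390) (nat_lit 1140) (nat_lit 0) (XT.nd (nat_lit 156) (nat_lit 836) (nat_lit 0) (XT.nd (nat_lit 78) (nat_lit 0) (nat_lit 0) (XT.lf (nat_lit 0) (nat_lit 1427358779) (nat_lit 380) (nat_lit 3663865400) (nat_lit 456) (nat_lit 5185249085) (nat_lit 124) (nat_lit 5) (nat_lit 129) (nat_lit 5) (nat_lit 130) (nat_lit 5) (nat_lit 460) (nat_lit 363) (nat_lit 317)) (XT.lf (nat_lit 0) (nat_lit 8149781349) (nat_lit 380) (nat_lit 260080451) (nat_lit 456) (nat_lit 1980561760) (nat_lit 124) (nat_lit 5) (nat_lit 129) (nat_lit 5) (nat_lit 130) (nat_lit 5) (nat_lit 461) (nat_lit 363) (nat_lit 316))) (XT.nd (nat_lit 78) (nat_lit 380) (nat_lit 0) (XT.lf (nat_lit 0) (nat_lit 1281846614) (nat_lit 456) (nat_lit 6035562551) (nat_lit 76) (nat_lit 3188880822) (nat_lit 118) (nat_lit 5) (nat_lit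 124) (nat_lit 5) (nat_lit 119) (nat_lit 5) (nat_lit 462) (nat_lit 363) (nat_lit 315)) (XT.nd (nat_lit 78) (nat_lit 0) (nat_lit 0) (XT.lf (nat_lit 0) (nat_lit 657492255) (nat_lit 380) (nat_lit 3907297795) (nat_lit 456) (nat_lit 6059800296) (nat_lit 113) (nat_lit 5) (nat_lit 118) (nat_lit 5) (nat_lit 119) (nat_lit 5) (nat_lit 463) (nat_lit 363) (nat_lit 314)) (XT.lf (nat_lit 0) (nat_lit 7507891536) (nat_lit 380) (nat_lit 407050470) (nat_lit 456) (nat_lit 2830297992) (nat_lit 113) (nat_lit 5) (nat_lit 118) (nat_lit 5) (nat_lit 119) (nat_lit 5) (nat_lit 464) (nat_lit 363) (nat_lit 313))))) (XT.nd (nat_lit 156) (nat_lit 760) (nat_lit 0) (XT.nd (nat_lit 78) (nat_lit 0) (nat_lit 0) (XT.lf (nat_lit 0) (nat_lit 463306737) (nat_lit 380) (nat_lit 7275476410) (nat_lit 76) (nat_lit 3129361095) (nat_lit 108) (nat_lit 5) (nat_lit 113) (nat_lit 5) (nat_lit 109) (nat_lit 5) (nat_lit 465) (nat_lit 363) (nat_lit 312)) (XT.lf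 (nat_lit 0) (nat_lit 3771286824) (nat_lit 380) (nat_lit 469469291) (nat_lit 76) (nat_lit 6752661727) (nat_lit 108) (nat_lit 5) (nat_lit 113) (nat_lit 5) (nat_lit 109) (nat_lit 5) (nat_lit 466) (nat_lit 363) (nat_lit 311))) (XT.nd (nat_lit 78) (nat_lit 380) (nat_lit 0) (XT.lf (nat_lit 0) (nat_lit 6501076136) (nat_lit 380) (nat_lit 649110310) (nat_lit 456) (nat_lit 3970928461) (nat_lit 103) (nat_lit 5) (nat_lit 108) (nat_lit 5) (nat_lit 109) (nat_lit 5) (nat_lit 467) (nat_lit 363) (nat_lit 310)) (XT.nd (nat_lit 78) (nat_lit 76) (nat_lit 0) (XT.lf (nat_lit 0) (nat_lit 2319826828) (nat_lit 304) (nat_lit 8277434021) (nat_lit 380) (nat_lit 654106063) (nat_lit 99) (nat_lit 5) (nat_lit 103) (nat_lit 5) (nat_lit 104) (nat_lit 5) (nat_lit 468) (nat_lit 363) (nat_lit 309)) (XT.lf (nat_lit 0) (nat_lit 2691664866) (nat_lit 380) (nat_lit 2001940375) (nat_lit 76) (nat_lit 6690308689) (nat_lit 98) (nat_lit 5) (nat_lit 103)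 (nat_lit 5) (nat_lit 99) (nat_lit 5) (nat_lit 469) (nat_lit 363) (nat_lit 308)))))) (XT.nd (nat_lit 390) (nat_lit 912) (nat_lit 0) (XT.nd (nat_lit 156) (nat_lit 380) (nat_lit 0) (XT.nd (nat_lit 78) (nat_lit 304) (nat_lit 0) (XT.lf (nat_lit 0) (nat_lit 5072337079) (nat_lit 304) (nat_lit 1019821476) (nat_lit 380) (nat_lit 5426947731) (nat_lit 94) (nat_lit 5) (nat_lit 98) (nat_lit 5) (nat_lit 99) (nat_lit 5) (nat_lit 470) (nat_lit 363) (nat_lit 307)) (XT.lf (nat_lit 0) (nat_lit 592129339) (nat_lit 304) (nat_lit 8967456666) (nat_lit 380) (nat_lit 2097449954) (nat_lit 90) (nat_lit 5) (nat_lit 94) (nat_lit 5) (nat_lit 95) (nat_lit 5) (nat_lit 471) (nat_lit 363) (nat_lit 306))) (XT.nd (nat_lit 78) (nat_lit 304) (nat_lit 0) (XT.lf (nat_lit 0) (nat_lit 1295852188) (nat_lit 380) (nat_lit 4009599702) (nat_lit 76) (nat_lit 6491830264) (nat_lit 89) (nat_lit 5) (nat_lit 94) (nat_lit 5) (nat_lit 90) (nat_lit 5) (nat_lit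 472) (nat_lit 363) (nat_lit 305)) (XT.nd (nat_lit 78) (nat_lit 0) (nat_lit 0) (XT.lf (nat_lit 0) (nat_lit 3158998588) (nat_lit 304) (nat_lit 1555125245) (nat_lit 380) (nat_lit 7226239649) (nat_lit 85) (nat_lit 5) (nat_lit 89) (nat_lit 5) (nat_lit 90) (nat_lit 5) (nat_lit 473) (nat_lit 363) (nat_lit 304)) (XT.lf (nat_lit 0) (nat_lit 8207443417) (nat_lit 380) (nat_lit 1630938760) (nat_lit 76) (nat_lit 2247801649) (nat_lit 85) (nat_lit 5) (nat_lit 90) (nat_lit 5) (nat_lit 86) (nat_lit 5) (nat_lit 474) (nat_lit 363) (nat_lit 303))))) (XT.nd (nat_lit 156) (nat_lit 304) (nat_lit 0) (XT.nd (nat_lit 78) (nat_lit 380) (nat_lit 0) (XT.lf (nat_lit 0) (nat_lit 5672104795) (nat_lit 228) (nat_lit 6111197659) (nat_lit 304) (nat_lit 451375483) (nat_lit 82) (nat_lit 5) (nat_lit 85) (nat_lit 5) (nat_lit 86) (nat_lit 5) (nat_lit 475) (nat_lit 363) (nat_lit 302)) (XT.lf (nat_lit 0) (nat_lit 692038977) (nat_lit 304) (nat_lit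 2293713027) (nat_lit 380) (nat_lit 9400382087) (nat_lit 77) (nat_lit 5) (nat_lit 81) (nat_lit 5) (nat_lit 82) (nat_lit 5) (nat_lit 476) (nat_lit 363) (nat_lit 301))) (XT.nd (nat_lit 78) (nat_lit 304) (nat_lit 0) (XT.lf (nat_lit 0) (nat_lit 6506128221) (nat_lit 380) (nat_lit 4427500214) (nat_lit 76) (nat_lit 1606530458) (nat_lit 77) (nat_lit 5) (nat_lit 82) (nat_lit 5) (nat_lit 78) (nat_lit 5) (nat_lit 477) (nat_lit 363) (nat_lit 300)) (XT.nd (nat_lit 78) (nat_lit 76) (nat_lit 0) (XT.lf (nat_lit 0) (nat_lit 2954264074) (nat_lit 228) (nat_lit 7143514604) (nat_lit 304) (nat_lit 2599478177) (nat_lit 74) (nat_lit 5) (nat_lit 77) (nat_lit 5) (nat_lit 78) (nat_lit 5) (nat_lit 478) (nat_lit 363) (nat_lit 299)) (XT.lf (nat_lit 0) (nat_lit 888396432) (nat_lit 304) (nat_lit 2373106028) (nat_lit 76) (nat_lit 9595956885) (nat_lit 73) (nat_lit 5) (nat_lit 77) (nat_lit 5) (nat_lit 74) (nat_lit 5) (nat_lit 479) (nat_lit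 363) (nat_lit 298))))))) (XT.nd (nat_lit 780) (nat_lit 1368) (nat_lit 0) (XT.nd (nat_lit 390) (nat_lit 760) (nat_lit 0) (XT.nd (nat_lit 156) (nat_lit 532) (nat_lit 0) (XT.nd (nat_lit 78) (nat_lit 0) (nat_lit 0) (XT.lf (nat_lit 0) (nat_lit 4416606927) (nat_lit 380) (nat_lit 7883623189) (nat_lit 76) (nat_lit 720193834) (nat_lit 69) (nat_lit 5) (nat_lit 74) (nat_lit 5) (nat_lit 70) (nat_lit 5) (nat_lit 480) (nat_lit 363) (nat_lit 297)) (XT.lf (nat_lit 0) (nat_lit 8020415758) (nat_lit 380) (nat_lit 431905482) (nat_lit 76) (nat_lit 4734235160) (nat_lit 69) (nat_lit 5) (nat_lit 74) (nat_lit 5) (nat_lit 70) (nat_lit 5) (nat_lit 481) (nat_lit 363) (nat_lit 296))) (XT.nd (nat_lit 78) (nat_lit 304) (nat_lit 0) (XT.lf (nat_lit 0) (nat_lit 7211520019) (nat_lit 228) (nat_lit 4499646363) (nat_lit 304) (nat_lit 1644556859) (nat_lit 66) (nat_lit 5) (nat_lit 69) (nat_lit 5) (nat_lit 70) (nat_lit 5) (nat_lit 482) (nat_lit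 363) (nat_lit 295)) (XT.nd (nat_lit 78) (nat_lit 0) (nat_lit 0) (XT.lf (nat_lit 0) (nat_lit 1439673496) (nat_lit 228) (nat_lit 462625638) (nat_lit 304) (nat_lit 11626122470) (nat_lit 62) (nat_lit 5) (nat_lit 65) (nat_lit 5) (nat_lit 66) (nat_lit 5) (nat_lit 483) (nat_lit 363) (nat_lit 294)) (XT.lf (nat_lit 0) (nat_lit 5531604168) (nat_lit 304) (nat_lit 4532296905) (nat_lit 76) (nat_lit 3639793333) (nat_lit 62) (nat_lit 5) (nat_lit 66) (nat_lit 5) (nat_lit 63) (nat_lit 5) (nat_lit 484) (nat_lit 363) (nat_lit 293))))) (XT.nd (nat_lit 156) (nat_lit 532) (nat_lit 0) (XT.nd (nat_lit 78) (nat_lit 0) (nat_lit 0) (XT.lf (nat_lit 0) (nat_lit 3162553992) (nat_lit 228) (nat_lit 6063436982) (nat_lit 304) (nat_lit 4656640143) (nat_lit 59) (nat_lit 5) (nat_lit 62) (nat_lit 5) (nat_lit 63) (nat_lit 5) (nat_lit 485) (nat_lit 363) (nat_lit 292)) (XT.lf (nat_lit 0) (nat_lit 11021931805) (nat_lit 228) (nat_lit 1971926299)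 (nat_lit 304) (nat_lit 1071304807) (nat_lit 59) (nat_lit 5) (nat_lit 62) (nat_lit 5) (nat_lit 63) (nat_lit 5) (nat_lit 486) (nat_lit 363) (nat_lit 291))) (XT.nd (nat_lit 78) (nat_lit 228) (nat_lit 0) (XT.lf (nat_lit 0) (nat_lit 2566934508) (nat_lit 304) (nat_lit 9482617126) (nat_lit 76) (nat_lit 2201163632) (nat_lit 55) (nat_lit 5) (nat_lit 59) (nat_lit 5) (nat_lit 56) (nat_lit 5) (nat_lit 487) (nat_lit 363) (nat_lit 290)) (XT.nd (nat_lit 78) (nat_lit 228) (nat_lit 0) (XT.lf (nat_lit 0) (nat_lit 6266942549) (nat_lit 304) (nat_lit 1733328351) (nat_lit 76) (nat_lit 6439506895) (nat_lit 55) (nat_lit 5) (nat_lit 59) (nat_lit 5) (nat_lit 56) (nat_lit 5) (nat_lit 488) (nat_lit 363) (nat_lit 289)) (XT.lf (nat_lit 0) (nat_lit 6202911442) (nat_lit 228) (nat_lit 3848625726) (nat_lit 304) (nat_lit 4580880257) (nat_lit 52) (nat_lit 5) (nat_lit 55) (nat_lit 5) (nat_lit 56) (nat_lit 5) (nat_lit 489) (nat_lit 363) (nat_lit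 288)))))) (XT.nd (nat_lit 390) (nat_lit 684) (nat_lit 0) (XT.nd (nat_lit 156) (nat_lit 380) (nat_lit 0) (XT.nd (nat_lit 78) (nat_lit 304) (nat_lit 0) (XT.lf (nat_lit 0) (nat_lit 13896487811) (nat_lit 304) (nat_lit 559419531) (nat_lit 76) (nat_lit 373316650) (nat_lit 52) (nat_lit 5) (nat_lit 56) (nat_lit 5) (nat_lit 53) (nat_lit 5) (nat_lit 490) (nat_lit 363) (nat_lit 287)) (XT.lf (nat_lit 0) (nat_lit 2797253627) (nat_lit 304) (nat_lit 7555189367) (nat_lit 76) (nat_lit 4676259701) (nat_lit 48) (nat_lit 5) (nat_lit 52) (nat_lit 5) (nat_lit 49) (nat_lit 5) (nat_lit 491) (nat_lit 363) (nat_lit 286))) (XT.nd (nat_lit 78) (nat_lit 228) (nat_lit 0) (XT.lf (nat_lit 0) (nat_lit 392912098) (nat_lit 152) (nat_lit 6173869498) (nat_lit 228) (nat_lit 8665724515) (nat_lit 46) (nat_lit 5) (nat_lit 48) (nat_lit 5) (nat_lit 49) (nat_lit 5) (nat_lit 492) (nat_lit 363) (nat_lit 285)) (XT.nd (nat_lit 78) (nat_lit 228) (nat_lit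 0) (XT.lf (nat_lit 0) (nat_lit 8554076988) (nat_lit 152) (nat_lit 1879661822) (nat_lit 228) (nat_lit 5006212874) (nat_lit 46) (nat_lit 5) (nat_lit 48) (nat_lit 5) (nat_lit 49) (nat_lit 5) (nat_lit 493) (nat_lit 363) (nat_lit 284)) (XT.lf (nat_lit 0) (nat_lit 1178331056) (nat_lit 228) (nat_lit 13195365351) (nat_lit 304) (nat_lit 1277943267) (nat_lit 43) (nat_lit 5) (nat_lit 46) (nat_lit 5) (nat_lit 47) (nat_lit 5) (nat_lit 494) (nat_lit 363) (nat_lit 283))))) (XT.nd (nat_lit 234) (nat_lit 456) (nat_lit 0) (XT.nd (nat_lit 78) (nat_lit 152) (nat_lit 0) (XT.lf (nat_lit 0) (nat_lit 2522568800) (nat_lit 304) (nat_lit 6446497712) (nat_lit 76) (nat_lit 6897557681) (nat_lit 42) (nat_lit 5) (nat_lit 46) (nat_lit 5) (nat_lit 43) (nat_lit 5) (nat_lit 495) (nat_lit 363) (nat_lit 282)) (XT.nd (nat_lit 78) (nat_lit 0) (nat_lit 0) (XT.lf (nat_lit 0) (nat_lit 1707849831) (nat_lit 152) (nat_lit 4657615999) (nat_lit 228) (nat_lit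 9720610243) (nat_lit 40) (nat_lit 5) (nat_lit 42) (nat_lit 5) (nat_lit 43) (nat_lit 5) (nat_lit 496) (nat_lit 363) (nat_lit 281)) (XT.lf (nat_lit 0) (nat_lit 10066041948) (nat_lit 152) (nat_lit 235058941) (nat_lit 228) (nat_lit 6008504715) (nat_lit 40) (nat_lit 5) (nat_lit 42) (nat_lit 5) (nat_lit 43) (nat_lit 5) (nat_lit 497) (nat_lit 363) (nat_lit 280)))) (XT.nd (nat_lit 78) (nat_lit 228) (nat_lit 0) (XT.lf (nat_lit 0) (nat_lit 2006209134) (nat_lit 228) (nat_lit 12323062484) (nat_lit 304) (nat_lit 2208063743) (nat_lit 37) (nat_lit 5) (nat_lit 40) (nat_lit 5) (nat_lit 41) (nat_lit 5) (nat_lit 498) (nat_lit 363) (nat_lit 279)) (XT.nd (nat_lit 78) (nat_lit 152) (nat_lit 0) (XT.lf (nat_lit 0) (nat_lit 1663319873) (nat_lit 304) (nat_lit 6322030251) (nat_lit 76) (nat_lit 8783722500) (nat_lit 36) (nat_lit 5) (nat_lit 40) (nat_lit 5) (nat_lit 37) (nat_lit 5) (nat_lit 499) (nat_lit 363) (nat_lit 278)) (XT.lf (nat_lit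 0) (nat_lit 2017801672) (nat_lit 152) (nat_lit 3551503102) (nat_lit 228) (nat_lit 11436118905) (nat_lit 34) (nat_lit 5) (nat_lit 36) (nat_lit 5) (nat_lit 37) (nat_lit 5) (nat_lit 500) (nat_lit 363) (nat_lit 277))))))))
noncomputable def xc55 : XT := (XT.nd (nat_lit 53586) (nat_lit 0) (nat_lit 11552) (XT.nd (nat_lit 52806) (nat_lit 0) (nat_lit 21812) (XT.nd (nat_lit 52416) (nat_lit 0) (nat_lit 29032) (XT.nd (nat_lit 156) (nat_lit 228) (nat_lit 0) (XT.nd (nat_lit 78) (nat_lit 228) (nat_lit 0) (XT.lf (nat_lit 0) (nat_lit 9576133135) (nat_lit 228) (nat_lit 6687507321) (nat_lit 76) (nat_lit 982412452) (nat_lit 34) (nat_lit 5) (nat_lit 37) (nat_lit 5) (nat_lit 35) (nat_lit 5) (nat_lit 501) (nat_lit 363) (nat_lit 276)) (XT.lf (nat_lit 0) (nat_lit 1733317043) (nat_lit 228) (nat_lit 11938784308) (nat_lit 304) (nat_lit 3819218826) (nat_lit 31) (nat_lit 5) (nat_lit 34) (nat_lit 5) (nat_lit 35) (nat_lit 5) (nat_lit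 502) (nat_lit 363) (nat_lit 275))) (XT.nd (nat_lit 78) (nat_lit 152) (nat_lit 0) (XT.lf (nat_lit 0) (nat_lit 126520323) (nat_lit 304) (nat_lit 7372947958) (nat_lit 76) (nat_lit 10241626783) (nat_lit 30) (nat_lit 5) (nat_lit 34) (nat_lit 5) (nat_lit 31) (nat_lit 5) (nat_lit 503) (nat_lit 363) (nat_lit 274)) (XT.nd (nat_lit 78) (nat_lit 0) (nat_lit 0) (XT.lf (nat_lit 0) (nat_lit 1125591648) (nat_lit 152) (nat_lit 2956576845) (nat_lit 228) (nat_lit 13913554586) (nat_lit 28) (nat_lit 5) (nat_lit 30) (nat_lit 5) (nat_lit 31) (nat_lit 5) (nat_lit 504) (nat_lit 363) (nat_lit 273)) (XT.lf (nat_lit 0) (nat_lit 8152494036) (nat_lit 228) (nat_lit 8415411459) (nat_lit 76) (nat_lit 1686831971) (nat_lit 28) (nat_lit 5) (nat_lit 31) (nat_lit 5) (nat_lit 29) (nat_lit 5) (nat_lit 505) (nat_lit 363) (nat_lit 272))))) (XT.nd (nat_lit 156) (nat_lit 3268) (nat_lit 0) (XT.nd (nat_lit 78) (nat_lit 1444) (nat_lit 0) (XT.lf (nat_lit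 0) (nat_lit 782646574) (nat_lit 1444) (nat_lit 1912501136) (nat_lit 0) (nat_lit 782646574) (nat_lit 472) (nat_lit 5) (nat_lit 491) (nat_lit 4) (nat_lit 472) (nat_lit 4) (nat_lit 412) (nat_lit 364) (nat_lit 364)) (XT.lf (nat_lit 0) (nat_lit 828726166) (nat_lit 1444) (nat_lit 3990574799) (nat_lit 1444) (nat_lit 2169583816) (nat_lit 453) (nat_lit 4) (nat_lit 472) (nat_lit 5) (nat_lit 472) (nat_lit 4) (nat_lit 413) (nat_lit 364) (nat_lit 363))) (XT.nd (nat_lit 78) (nat_lit 3192) (nat_lit 0) (XT.lf (nat_lit 0) (nat_lit 1059731844) (nat_lit 1520) (nat_lit 1465617933) (nat_lit 76) (nat_lit 4498229694) (nat_lit 452) (nat_lit 5) (nat_lit 472) (nat_lit 5) (nat_lit 453) (nat_lit 4) (nat_lit 414) (nat_lit 364) (nat_lit 362)) (XT.nd (nat_lit 78) (nat_lit 1672) (nat_lit 0) (XT.lf (nat_lit 0) (nat_lit 3289579439) (nat_lit 1520) (nat_lit 990685601) (nat_lit 1596) (nat_lit 2779355322) (nat_lit 432) (nat_lit 5) (nat_lit 452)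 (nat_lit 5) (nat_lit 453) (nat_lit 4) (nat_lit 415) (nat_lit 364) (nat_lit 361)) (XT.lf (nat_lit 0) (nat_lit 417726721) (nat_lit 1672) (nat_lit 6090031648) (nat_lit 76) (nat_lit 589512565) (nat_lit 410) (nat_lit 5) (nat_lit 432) (nat_lit 5) (nat_lit 411) (nat_lit 4) (nat_lit 416) (nat_lit 364) (nat_lit 360)))))) (XT.nd (nat_lit 390) (nat_lit 2736) (nat_lit 0) (XT.nd (nat_lit 156) (nat_lit 2812) (nat_lit 0) (XT.nd (nat_lit 78) (nat_lit 1672) (nat_lit 0) (XT.lf (nat_lit 0) (nat_lit 3609193720) (nat_lit 1672) (nat_lit 1292595946) (nat_lit 76) (nat_lit 2234213960) (nat_lit 410) (nat_lit 5) (nat_lit 432) (nat_lit 5) (nat_lit 411) (nat_lit 4) (nat_lit 417) (nat_lit 364) (nat_lit 359)) (XT.lf (nat_lit 0) (nat_lit 3585596857) (nat_lit 1672) (nat_lit 3239032845) (nat_lit 1748) (nat_lit 351727224) (nat_lit 388) (nat_lit 5) (nat_lit 410) (nat_lit 5) (nat_lit 411) (nat_lit 4) (nat_lit 418) (nat_lit 364) (nat_lit 358)))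 (XT.nd (nat_lit 78) (nat_lit 988) (nat_lit 0) (XT.lf (nat_lit 0) (nat_lit 1297052446) (nat_lit 1748) (nat_lit 1506332332) (nat_lit 1824) (nat_lit 4414716712) (nat_lit 364) (nat_lit 5) (nat_lit 387) (nat_lit 5) (nat_lit 388) (nat_lit 5) (nat_lit 419) (nat_lit 364) (nat_lit 357)) (XT.nd (nat_lit 78) (nat_lit 988) (nat_lit 0) (XT.lf (nat_lit 0) (nat_lit 5980904652) (nat_lit 1824) (nat_lit 996646765) (nat_lit 76) (nat_lit 283848657) (nat_lit 364) (nat_lit 5) (nat_lit 388) (nat_lit 5) (nat_lit 365) (nat_lit 4) (nat_lit 420) (nat_lit 364) (nat_lit 356)) (XT.lf (nat_lit 0) (nat_lit 1866331698) (nat_lit 988) (nat_lit 3311881826) (nat_lit 76) (nat_lit 2127645295) (nat_lit 351) (nat_lit 5) (nat_lit 364) (nat_lit 5) (nat_lit 352) (nat_lit 5) (nat_lit 421) (nat_lit 364) (nat_lit 355))))) (XT.nd (nat_lit 156) (nat_lit 1748) (nat_lit 0) (XT.nd (nat_lit 78) (nat_lit 76) (nat_lit 0) (XT.lf (nat_lit 0) (nat_lit 1697844730)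 (nat_lit 912) (nat_lit 3318500103) (nat_lit 988) (nat_lit 2335588002) (nat_lit 339) (nat_lit 5) (nat_lit 351) (nat_lit 5) (nat_lit 352) (nat_lit 5) (nat_lit 422) (nat_lit 364) (nat_lit 354)) (XT.lf (nat_lit 0) (nat_lit 781876309) (nat_lit 988) (nat_lit 614538555) (nat_lit 76) (nat_lit 6003200484) (nat_lit 338) (nat_lit 5) (nat_lit 351) (nat_lit 5) (nat_lit 339) (nat_lit 5) (nat_lit 423) (nat_lit 364) (nat_lit 353))) (XT.nd (nat_lit 78) (nat_lit 912) (nat_lit 0) (XT.lf (nat_lit 0) (nat_lit 3904793369) (nat_lit 912) (nat_lit 2944998579) (nat_lit 76) (nat_lit 598704046) (nat_lit 327) (nat_lit 5) (nat_lit 339) (nat_lit 5) (nat_lit 328) (nat_lit 5) (nat_lit 424) (nat_lit 364) (nat_lit 352)) (XT.nd (nat_lit 78) (nat_lit 76) (nat_lit 0) (XT.lf (nat_lit 0) (nat_lit 2190700237) (nat_lit 836) (nat_lit 4868966433) (nat_lit 912) (nat_lit 439337612) (nat_lit 316) (nat_lit 5) (nat_lit 327) (nat_lit 5) (nat_lit 328) (nat_lit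 5) (nat_lit 425) (nat_lit 364) (nat_lit 351)) (XT.lf (nat_lit 0) (nat_lit 2653433401) (nat_lit 912) (nat_lit 162034119) (nat_lit 76) (nat_lit 4735497821) (nat_lit 315) (nat_lit 5) (nat_lit 327) (nat_lit 5) (nat_lit 316) (nat_lit 5) (nat_lit 426) (nat_lit 364) (nat_lit 350))))))) (XT.nd (nat_lit 780) (nat_lit 4940) (nat_lit 0) (XT.nd (nat_lit 390) (nat_lit 2128) (nat_lit 0) (XT.nd (nat_lit 156) (nat_lit 1596) (nat_lit 0) (XT.nd (nat_lit 78) (nat_lit 836) (nat_lit 0) (XT.lf (nat_lit 0) (nat_lit 5089131086) (nat_lit 760) (nat_lit 689418955) (nat_lit 836) (nat_lit 1825867721) (nat_lit 305) (nat_lit 5) (nat_lit 315) (nat_lit 5) (nat_lit 316) (nat_lit 5) (nat_lit 427) (nat_lit 364) (nat_lit 349)) (XT.lf (nat_lit 0) (nat_lit 1262438370) (nat_lit 836) (nat_lit 4915321893) (nat_lit 76) (nat_lit 1481598378) (nat_lit 294) (nat_lit 5) (nat_lit 305) (nat_lit 5) (nat_lit 295) (nat_lit 5) (nat_lit 428) (nat_lit 364) (nat_lit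 348))) (XT.nd (nat_lit 78) (nat_lit 836) (nat_lit 0) (XT.lf (nat_lit 0) (nat_lit 352491876) (nat_lit 760) (nat_lit 4003732524) (nat_lit 836) (nat_lit 3359604821) (nat_lit 284) (nat_lit 5) (nat_lit 294) (nat_lit 5) (nat_lit 295) (nat_lit 5) (nat_lit 429) (nat_lit 364) (nat_lit 347)) (XT.nd (nat_lit 78) (nat_lit 836) (nat_lit 0) (XT.lf (nat_lit 0) (nat_lit 5729761436) (nat_lit 760) (nat_lit 1760089754) (nat_lit 836) (nat_lit 284053535) (nat_lit 284) (nat_lit 5) (nat_lit 294) (nat_lit 5) (nat_lit 295) (nat_lit 5) (nat_lit 430) (nat_lit 364) (nat_lit 346)) (XT.lf (nat_lit 0) (nat_lit 2786622949) (nat_lit 836) (nat_lit 4492385031) (nat_lit 76) (nat_lit 554376107) (nat_lit 273) (nat_lit 5) (nat_lit 284) (nat_lit 5) (nat_lit 274) (nat_lit 5) (nat_lit 431) (nat_lit 364) (nat_lit 345))))) (XT.nd (nat_lit 156) (nat_lit 1368) (nat_lit 0) (XT.nd (nat_lit 78) (nat_lit 76) (nat_lit 0) (XT.lf (nat_lit 0) (nat_lit 903288611)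 (nat_lit 684) (nat_lit 4989235285) (nat_lit 760) (nat_lit 2001972105) (nat_lit 264) (nat_lit 5) (nat_lit 273) (nat_lit 5) (nat_lit 274) (nat_lit 5) (nat_lit 432) (nat_lit 364) (nat_lit 344)) (XT.lf (nat_lit 0) (nat_lit 1066130659) (nat_lit 760) (nat_lit 1558855499) (nat_lit 76) (nat_lit 5332194336) (nat_lit 263) (nat_lit 5) (nat_lit 273) (nat_lit 5) (nat_lit 264) (nat_lit 5) (nat_lit 433) (nat_lit 364) (nat_lit 343))) (XT.nd (nat_lit 78) (nat_lit 684) (nat_lit 0) (XT.lf (nat_lit 0) (nat_lit 3959010648) (nat_lit 684) (nat_lit 183103523) (nat_lit 760) (nat_lit 3879304256) (nat_lit 254) (nat_lit 5) (nat_lit 263) (nat_lit 5) (nat_lit 264) (nat_lit 5) (nat_lit 434) (nat_lit 364) (nat_lit 342)) (XT.nd (nat_lit 78) (nat_lit 76) (nat_lit 0) (XT.lf (nat_lit 0) (nat_lit 1463378887) (nat_lit 608) (nat_lit 5799414322) (nat_lit 684) (nat_lit 824514699) (nat_lit 246) (nat_lit 5) (nat_lit 254) (nat_lit 5) (nat_lit 255)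 (nat_lit 5) (nat_lit 435) (nat_lit 364) (nat_lit 341)) (XT.lf (nat_lit 0) (nat_lit 2238380414) (nat_lit 684) (nat_lit 1078190826) (nat_lit 76) (nat_lit 4838134296) (nat_lit 245) (nat_lit 5) (nat_lit 254) (nat_lit 5) (nat_lit 246) (nat_lit 5) (nat_lit 436) (nat_lit 364) (nat_lit 340)))))) (XT.nd (nat_lit 390) (nat_lit 2356) (nat_lit 0) (XT.nd (nat_lit 156) (nat_lit 1216) (nat_lit 0) (XT.nd (nat_lit 78) (nat_lit 684) (nat_lit 0) (XT.lf (nat_lit 0) (nat_lit 4571488131) (nat_lit 684) (nat_lit 759115586) (nat_lit 760) (nat_lit 2893184744) (nat_lit 236) (nat_lit 5) (nat_lit 245) (nat_lit 5) (nat_lit 246) (nat_lit 5) (nat_lit 437) (nat_lit 364) (nat_lit 339)) (XT.lf (nat_lit 0) (nat_lit 170039892) (nat_lit 684) (nat_lit 6288842883) (nat_lit 76) (nat_lit 1835730616) (nat_lit 227) (nat_lit 5) (nat_lit 236) (nat_lit 5) (nat_lit 228) (nat_lit 5) (nat_lit 438) (nat_lit 364) (nat_lit 338))) (XT.nd (nat_lit 78) (nat_lit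 1216) (nat_lit 0) (XT.lf (nat_lit 0) (nat_lit 3235693117) (nat_lit 684) (nat_lit 626505717) (nat_lit 76) (nat_lit 4504702342) (nat_lit 227) (nat_lit 5) (nat_lit 236) (nat_lit 5) (nat_lit 228) (nat_lit 5) (nat_lit 439) (nat_lit 364) (nat_lit 337)) (XT.nd (nat_lit 78) (nat_lit 608) (nat_lit 0) (XT.lf (nat_lit 0) (nat_lit 5155614611) (nat_lit 608) (nat_lit 1191664741) (nat_lit 684) (nat_lit 2093689348) (nat_lit 219) (nat_lit 5) (nat_lit 227) (nat_lit 5) (nat_lit 228) (nat_lit 5) (nat_lit 440) (nat_lit 364) (nat_lit 336)) (XT.lf (nat_lit 0) (nat_lit 973346186) (nat_lit 608) (nat_lit 6016558775) (nat_lit 76) (nat_lit 1526868689) (nat_lit 211) (nat_lit 5) (nat_lit 219) (nat_lit 5) (nat_lit 212) (nat_lit 5) (nat_lit 441) (nat_lit 364) (nat_lit 335))))) (XT.nd (nat_lit 234) (nat_lit 1140) (nat_lit 0) (XT.nd (nat_lit 78) (nat_lit 1216) (nat_lit 0) (XT.lf (nat_lit 0) (nat_lit 4055637681) (nat_lit 608) (nat_lit 231377497)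 (nat_lit 76) (nat_lit 4307188602) (nat_lit 211) (nat_lit 5) (nat_lit 219) (nat_lit 5) (nat_lit 212) (nat_lit 5) (nat_lit 442) (nat_lit 364) (nat_lit 334)) (XT.nd (nat_lit 78) (nat_lit 608) (nat_lit 0) (XT.lf (nat_lit 0) (nat_lit 5683409608) (nat_lit 608) (nat_lit 1505849458) (nat_lit 684) (nat_lit 1484154140) (nat_lit 203) (nat_lit 5) (nat_lit 211) (nat_lit 5) (nat_lit 212) (nat_lit 5) (nat_lit 443) (nat_lit 364) (nat_lit 333)) (XT.lf (nat_lit 0) (nat_lit 1592296284) (nat_lit 608) (nat_lit 5830880274) (nat_lit 76) (nat_lit 1331194942) (nat_lit 195) (nat_lit 5) (nat_lit 203) (nat_lit 5) (nat_lit 196) (nat_lit 5) (nat_lit 444) (nat_lit 364) (nat_lit 332)))) (XT.nd (nat_lit 78) (nat_lit 608) (nat_lit 0) (XT.lf (nat_lit 0) (nat_lit 78993103) (nat_lit 532) (nat_lit 4615534942) (nat_lit 608) (nat_lit 4142565173) (nat_lit 188) (nat_lit 5) (nat_lit 195) (nat_lit 5) (nat_lit 196) (nat_lit 5) (nat_lit 445) (nat_lit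 364) (nat_lit 331)) (XT.nd (nat_lit 78) (nat_lit 608) (nat_lit 0) (XT.lf (nat_lit 0) (nat_lit 6125159421) (nat_lit 532) (nat_lit 1726714680) (nat_lit 608) (nat_lit 1069756395) (nat_lit 188) (nat_lit 5) (nat_lit 195) (nat_lit 5) (nat_lit 196) (nat_lit 5) (nat_lit 446) (nat_lit 364) (nat_lit 330)) (XT.lf (nat_lit 0) (nat_lit 2021130474) (nat_lit 608) (nat_lit 5762872308) (nat_lit 76) (nat_lit 1223935331) (nat_lit 180) (nat_lit 5) (nat_lit 188) (nat_lit 5) (nat_lit 181) (nat_lit 5) (nat_lit 447) (nat_lit 364) (nat_lit 329))))))))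
noncomputable def xc56 : XT := (XT.nd (nat_lit 1560) (nat_lit 3648) (nat_lit 0) (XT.nd (nat_lit 780) (nat_lit 2888) (nat_lit 0) (XT.nd (nat_lit 390) (nat_lit 1444) (nat_lit 0) (XT.nd (nat_lit 156) (nat_lit 988) (nat_lit 0) (XT.nd (nat_lit 78) (nat_lit 0) (nat_lit 0) (XT.lf (nat_lit 0) (nat_lit 273891181) (nat_lit 532) (nat_lit 4872665331) (nat_lit 608) (nat_lit 3949554258) (nat_lit 173) (nat_lit 5) (nat_lit 180) (nat_lit 5) (nat_lit 181) (nat_lit 5) (nat_lit 448) (nat_lit 364) (nat_lit 328)) (XT.lf (nat_lit 0) (nat_lit 6449106442) (nat_lit 532) (nat_lit 1879476661) (nat_lit 608) (nat_lit 857602740) (nat_lit 173) (nat_lit 5) (nat_lit 180) (nat_lit 5) (nat_lit 181) (nat_lit 5) (nat_lit 449) (nat_lit 364) (nat_lit 327))) (XT.nd (nat_lit 78) (nat_lit 456) (nat_lit 0) (XT.lf (nat_lit 0) (nat_lit 2252156969) (nat_lit 532) (nat_lit 5845829426) (nat_lit 76) (nat_lit 1180076168) (nat_lit 166) (nat_lit 5) (nat_lit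 173) (nat_lit 5) (nat_lit 167) (nat_lit 5) (nat_lit 450) (nat_lit 364) (nat_lit 326)) (XT.nd (nat_lit 78) (nat_lit 0) (nat_lit 0) (XT.lf (nat_lit 0) (nat_lit 316309759) (nat_lit 456) (nat_lit 5085677691) (nat_lit 532) (nat_lit 3969908417) (nat_lit 160) (nat_lit 5) (nat_lit 166) (nat_lit 5) (nat_lit 167) (nat_lit 5) (nat_lit 451) (nat_lit 364) (nat_lit 325)) (XT.lf (nat_lit 0) (nat_lit 6621114639) (nat_lit 456) (nat_lit 1989754527) (nat_lit 532) (nat_lit 856834798) (nat_lit 160) (nat_lit 5) (nat_lit 166) (nat_lit 5) (nat_lit 167) (nat_lit 5) (nat_lit 452) (nat_lit 364) (nat_lit 324))))) (XT.nd (nat_lit 156) (nat_lit 456) (nat_lit 0) (XT.nd (nat_lit 78) (nat_lit 456) (nat_lit 0) (XT.lf (nat_lit 0) (nat_lit 2275640330) (nat_lit 532) (nat_lit 6115622733) (nat_lit 76) (nat_lit 1174131614) (nat_lit 153) (nat_lit 5) (nat_lit 160) (nat_lit 5) (nat_lit 154) (nat_lit 5) (nat_lit 453) (nat_lit 364) (nat_lit 323)) (XT.lf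 (nat_lit 0) (nat_lit 169641797) (nat_lit 456) (nat_lit 5280887320) (nat_lit 532) (nat_lit 4214590183) (nat_lit 147) (nat_lit 5) (nat_lit 153) (nat_lit 5) (nat_lit 154) (nat_lit 5) (nat_lit 454) (nat_lit 364) (nat_lit 322))) (XT.nd (nat_lit 78) (nat_lit 456) (nat_lit 0) (XT.lf (nat_lit 0) (nat_lit 6604308023) (nat_lit 456) (nat_lit 2083810580) (nat_lit 532) (nat_lit 1078753507) (nat_lit 147) (nat_lit 5) (nat_lit 153) (nat_lit 5) (nat_lit 154) (nat_lit 5) (nat_lit 455) (nat_lit 364) (nat_lit 321)) (XT.nd (nat_lit 78) (nat_lit 0) (nat_lit 0) (XT.lf (nat_lit 0) (nat_lit 2079670957) (nat_lit 456) (nat_lit 6611075536) (nat_lit 76) (nat_lit 1179901834) (nat_lit 141) (nat_lit 5) (nat_lit 147) (nat_lit 5) (nat_lit 142) (nat_lit 5) (nat_lit 456) (nat_lit 364) (nat_lit 320)) (XT.lf (nat_lit 0) (nat_lit 5281010611) (nat_lit 456) (nat_lit 203082087) (nat_lit 76) (nat_lit 4492397667) (nat_lit 141) (nat_lit 5) (nat_lit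 147) (nat_lit 5) (nat_lit 142) (nat_lit 5) (nat_lit 457) (nat_lit 364) (nat_lit 319)))))) (XT.nd (nat_lit 390) (nat_lit 1140) (nat_lit 0) (XT.nd (nat_lit 156) (nat_lit 836) (nat_lit 0) (XT.nd (nat_lit 78) (nat_lit 456) (nat_lit 0) (XT.lf (nat_lit 0) (nat_lit 6358678614) (nat_lit 456) (nat_lit 2188801458) (nat_lit 532) (nat_lit 1536963512) (nat_lit 135) (nat_lit 5) (nat_lit 141) (nat_lit 5) (nat_lit 142) (nat_lit 5) (nat_lit 458) (nat_lit 364) (nat_lit 318)) (XT.lf (nat_lit 0) (nat_lit 1650014227) (nat_lit 456) (nat_lit 7374371281) (nat_lit 76) (nat_lit 1170219629) (nat_lit 129) (nat_lit 5) (nat_lit 135) (nat_lit 5) (nat_lit 130) (nat_lit 5) (nat_lit 459) (nat_lit 364) (nat_lit 317))) (XT.nd (nat_lit 78) (nat_lit 836) (nat_lit 0) (XT.lf (nat_lit 0) (nat_lit 4880082713) (nat_lit 456) (nat_lit 841918994) (nat_lit 76) (nat_lit 4584781860) (nat_lit 129) (nat_lit 5) (nat_lit 135) (nat_lit 5) (nat_lit 130) (nat_lit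 5) (nat_lit 460) (nat_lit 364) (nat_lit 316)) (XT.nd (nat_lit 78) (nat_lit 456) (nat_lit 0) (XT.lf (nat_lit 0) (nat_lit 5840660136) (nat_lit 380) (nat_lit 2333042405) (nat_lit 456) (nat_lit 2247539179) (nat_lit 124) (nat_lit 5) (nat_lit 129) (nat_lit 5) (nat_lit 130) (nat_lit 5) (nat_lit 461) (nat_lit 364) (nat_lit 315)) (XT.lf (nat_lit 0) (nat_lit 969937647) (nat_lit 456) (nat_lit 8451497748) (nat_lit 76) (nat_lit 1116683291) (nat_lit 118) (nat_lit 5) (nat_lit 124) (nat_lit 5) (nat_lit 119) (nat_lit 5) (nat_lit 462) (nat_lit 364) (nat_lit 314))))) (XT.nd (nat_lit 156) (nat_lit 760) (nat_lit 0) (XT.nd (nat_lit 78) (nat_lit 380) (nat_lit 0) (XT.lf (nat_lit 0) (nat_lit 4229516450) (nat_lit 456) (nat_lit 1795563718) (nat_lit 76) (nat_lit 4631813240) (nat_lit 118) (nat_lit 5) (nat_lit 124) (nat_lit 5) (nat_lit 119) (nat_lit 5) (nat_lit 463) (nat_lit 364) (nat_lit 313)) (XT.lf (nat_lit 0) (nat_lit 5002663302)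 (nat_lit 380) (nat_lit 2546287044) (nat_lit 456) (nat_lit 3229214005) (nat_lit 113) (nat_lit 5) (nat_lit 118) (nat_lit 5) (nat_lit 119) (nat_lit 5) (nat_lit 464) (nat_lit 364) (nat_lit 312))) (XT.nd (nat_lit 78) (nat_lit 380) (nat_lit 0) (XT.lf (nat_lit 0) (nat_lit 20014203) (nat_lit 380) (nat_lit 9892731791) (nat_lit 76) (nat_lit 989373230) (nat_lit 108) (nat_lit 5) (nat_lit 113) (nat_lit 5) (nat_lit 109) (nat_lit 5) (nat_lit 465) (nat_lit 364) (nat_lit 311)) (XT.nd (nat_lit 78) (nat_lit 380) (nat_lit 0) (XT.lf (nat_lit 0) (nat_lit 3309455001) (nat_lit 380) (nat_lit 3114865571) (nat_lit 76) (nat_lit 4603449569) (nat_lit 108) (nat_lit 5) (nat_lit 113) (nat_lit 5) (nat_lit 109) (nat_lit 5) (nat_lit 466) (nat_lit 364) (nat_lit 310)) (XT.lf (nat_lit 0) (nat_lit 3792568170) (nat_lit 380) (nat_lit 2860025248) (nat_lit 456) (nat_lit 4503595415) (nat_lit 103) (nat_lit 5) (nat_lit 108) (nat_lit 5) (nat_lit 109)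 (nat_lit 5) (nat_lit 467) (nat_lit 364) (nat_lit 309))))))) (XT.nd (nat_lit 780) (nat_lit 1672) (nat_lit 0) (XT.nd (nat_lit 390) (nat_lit 912) (nat_lit 0) (XT.nd (nat_lit 156) (nat_lit 684) (nat_lit 0) (XT.nd (nat_lit 78) (nat_lit 380) (nat_lit 0) (XT.lf (nat_lit 0) (nat_lit 10052192808) (nat_lit 456) (nat_lit 467538018) (nat_lit 76) (nat_lit 767665789) (nat_lit 103) (nat_lit 5) (nat_lit 109) (nat_lit 5) (nat_lit 104) (nat_lit 5) (nat_lit 468) (nat_lit 364) (nat_lit 308)) (XT.lf (nat_lit 0) (nat_lit 2097084449) (nat_lit 380) (nat_lit 4855592294) (nat_lit 76) (nat_lit 4467770458) (nat_lit 98) (nat_lit 5) (nat_lit 103) (nat_lit 5) (nat_lit 99) (nat_lit 5) (nat_lit 469) (nat_lit 364) (nat_lit 307))) (XT.nd (nat_lit 78) (nat_lit 380) (nat_lit 0) (XT.lf (nat_lit 0) (nat_lit 2153168602) (nat_lit 304) (nat_lit 3307801851) (nat_lit 380) (nat_lit 6095407173) (nat_lit 94) (nat_lit 5) (nat_lit 98) (nat_lit 5) (nat_lit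 99) (nat_lit 5) (nat_lit 470) (nat_lit 364) (nat_lit 306)) (XT.nd (nat_lit 78) (nat_lit 380) (nat_lit 0) (XT.lf (nat_lit 0) (nat_lit 8892152221) (nat_lit 380) (nat_lit 2384566615) (nat_lit 76) (nat_lit 418319176) (nat_lit 94) (nat_lit 5) (nat_lit 99) (nat_lit 5) (nat_lit 95) (nat_lit 5) (nat_lit 471) (nat_lit 364) (nat_lit 305)) (XT.lf (nat_lit 0) (nat_lit 566377301) (nat_lit 380) (nat_lit 7079020620) (nat_lit 76) (nat_lit 4190649282) (nat_lit 89) (nat_lit 5) (nat_lit 94) (nat_lit 5) (nat_lit 90) (nat_lit 5) (nat_lit 472) (nat_lit 364) (nat_lit 304))))) (XT.nd (nat_lit 156) (nat_lit 608) (nat_lit 0) (XT.nd (nat_lit 78) (nat_lit 0) (nat_lit 0) (XT.lf (nat_lit 0) (nat_lit 21563402) (nat_lit 304) (nat_lit 3925559220) (nat_lit 380) (nat_lit 8032761902) (nat_lit 85) (nat_lit 5) (nat_lit 89) (nat_lit 5) (nat_lit 90) (nat_lit 5) (nat_lit 473) (nat_lit 364) (nat_lit 303)) (XT.lf (nat_lit 0) (nat_lit 7306204322)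 (nat_lit 304) (nat_lit 102456806) (nat_lit 380) (nat_lit 4717684718) (nat_lit 85) (nat_lit 5) (nat_lit 89) (nat_lit 5) (nat_lit 90) (nat_lit 5) (nat_lit 474) (nat_lit 364) (nat_lit 302))) (XT.nd (nat_lit 78) (nat_lit 380) (nat_lit 0) (XT.lf (nat_lit 0) (nat_lit 2414398960) (nat_lit 228) (nat_lit 8531583365) (nat_lit 304) (nat_lit 1329633642) (nat_lit 82) (nat_lit 5) (nat_lit 85) (nat_lit 5) (nat_lit 86) (nat_lit 5) (nat_lit 475) (nat_lit 364) (nat_lit 301)) (XT.nd (nat_lit 78) (nat_lit 304) (nat_lit 0) (XT.lf (nat_lit 0) (nat_lit 2097840285) (nat_lit 304) (nat_lit 2636474495) (nat_lit 76) (nat_lit 7693299875) (nat_lit 81) (nat_lit 5) (nat_lit 85) (nat_lit 5) (nat_lit 82) (nat_lit 5) (nat_lit 476) (nat_lit 364) (nat_lit 300)) (XT.lf (nat_lit 0) (nat_lit 4733567199) (nat_lit 304) (nat_lit 840212040) (nat_lit 380) (nat_lit 7008753914) (nat_lit 77) (nat_lit 5) (nat_lit 81) (nat_lit 5) (nat_lit 82) (nat_lit 5)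 (nat_lit 477) (nat_lit 364) (nat_lit 299)))))) (XT.nd (nat_lit 390) (nat_lit 836) (nat_lit 0) (XT.nd (nat_lit 156) (nat_lit 608) (nat_lit 0) (XT.nd (nat_lit 78) (nat_lit 228) (nat_lit 0) (XT.lf (nat_lit 0) (nat_lit 9124532288) (nat_lit 380) (nat_lit 526563822) (nat_lit 76) (nat_lit 3089357804) (nat_lit 77) (nat_lit 5) (nat_lit 82) (nat_lit 5) (nat_lit 78) (nat_lit 5) (nat_lit 478) (nat_lit 364) (nat_lit 298)) (XT.lf (nat_lit 0) (nat_lit 6976589131) (nat_lit 228) (nat_lit 5788368771) (nat_lit 304) (nat_lit 136211649) (nat_lit 74) (nat_lit 5) (nat_lit 77) (nat_lit 5) (nat_lit 78) (nat_lit 5) (nat_lit 479) (nat_lit 364) (nat_lit 297))) (XT.nd (nat_lit 78) (nat_lit 228) (nat_lit 0) (XT.lf (nat_lit 0) (nat_lit 1517909611) (nat_lit 304) (nat_lit 1831706158) (nat_lit 380) (nat_lit 9715424036) (nat_lit 69) (nat_lit 5) (nat_lit 73) (nat_lit 5) (nat_lit 74) (nat_lit 5) (nat_lit 480) (nat_lit 364) (nat_lit 296)) (XT.nd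 (nat_lit 78) (nat_lit 228) (nat_lit 0) (XT.lf (nat_lit 0) (nat_lit 6925711972) (nat_lit 380) (nat_lit 4109216342) (nat_lit 76) (nat_lit 2196802676) (nat_lit 69) (nat_lit 5) (nat_lit 74) (nat_lit 5) (nat_lit 70) (nat_lit 5) (nat_lit 481) (nat_lit 364) (nat_lit 295)) (XT.lf (nat_lit 0) (nat_lit 3459812183) (nat_lit 228) (nat_lit 7116782056) (nat_lit 304) (nat_lit 2825105356) (nat_lit 66) (nat_lit 5) (nat_lit 69) (nat_lit 5) (nat_lit 70) (nat_lit 5) (nat_lit 482) (nat_lit 364) (nat_lit 294))))) (XT.nd (nat_lit 234) (nat_lit 532) (nat_lit 0) (XT.nd (nat_lit 78) (nat_lit 228) (nat_lit 0) (XT.lf (nat_lit 0) (nat_lit 712412241) (nat_lit 304) (nat_lit 2394464145) (nat_lit 76) (nat_lit 10468175524) (nat_lit 65) (nat_lit 5) (nat_lit 69) (nat_lit 5) (nat_lit 66) (nat_lit 5) (nat_lit 483) (nat_lit 364) (nat_lit 293)) (XT.nd (nat_lit 78) (nat_lit 0) (nat_lit 0) (XT.lf (nat_lit 0) (nat_lit 4293294898) (nat_lit 304) (nat_lit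 8453246868) (nat_lit 76) (nat_lit 1004755535) (nat_lit 62) (nat_lit 5) (nat_lit 66) (nat_lit 5) (nat_lit 63) (nat_lit 5) (nat_lit 484) (nat_lit 364) (nat_lit 292)) (XT.lf (nat_lit 0) (nat_lit 7952053435) (nat_lit 304) (nat_lit 824695337) (nat_lit 76) (nat_lit 5154201866) (nat_lit 62) (nat_lit 5) (nat_lit 66) (nat_lit 5) (nat_lit 63) (nat_lit 5) (nat_lit 485) (nat_lit 364) (nat_lit 291)))) (XT.nd (nat_lit 78) (nat_lit 304) (nat_lit 0) (XT.lf (nat_lit 0) (nat_lit 6999064108) (nat_lit 228) (nat_lit 4700471836) (nat_lit 304) (nat_lit 2414358161) (nat_lit 59) (nat_lit 5) (nat_lit 62) (nat_lit 5) (nat_lit 63) (nat_lit 5) (nat_lit 486) (nat_lit 364) (nat_lit 290)) (XT.nd (nat_lit 78) (nat_lit 0) (nat_lit 0) (XT.lf (nat_lit 0) (nat_lit 641297588) (nat_lit 228) (nat_lit 544060127) (nat_lit 304) (nat_lit 13115389727) (nat_lit 55) (nat_lit 5) (nat_lit 58) (nat_lit 5) (nat_lit 59) (nat_lit 5) (nat_lit 487) (nat_lit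 364) (nat_lit 289)) (XT.lf (nat_lit 0) (nat_lit 4867136824) (nat_lit 304) (nat_lit 5931077718) (nat_lit 76) (nat_lit 3691963759) (nat_lit 55) (nat_lit 5) (nat_lit 59) (nat_lit 5) (nat_lit 56) (nat_lit 5) (nat_lit 488) (nat_lit 364) (nat_lit 288))))))))
noncomputable def xc57 : XT := (XT.nd (nat_lit 53430) (nat_lit 0) (nat_lit 17860) (XT.nd (nat_lit 780) (nat_lit 912) (nat_lit 0) (XT.nd (nat_lit 390) (nat_lit 456) (nat_lit 0) (XT.nd (nat_lit 156) (nat_lit 456) (nat_lit 0) (XT.nd (nat_lit 78) (nat_lit 0) (nat_lit 0) (XT.lf (nat_lit 0) (nat_lit 1925088006) (nat_lit 228) (nat_lit 6684460602) (nat_lit 304) (nat_lit 6074116656) (nat_lit 52) (nat_lit 5) (nat_lit 55) (nat_lit 5) (nat_lit 56) (nat_lit 5) (nat_lit 489) (nat_lit 364) (nat_lit 287)) (XT.lf (nat_lit 0) (nat_lit 9970674227) (nat_lit 228) (nat_lit 2467088541) (nat_lit 304) (nat_lit 2443047399) (nat_lit 52) (nat_lit 5) (nat_lit 55) (nat_lit 5) (nat_lit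 56) (nat_lit 5) (nat_lit 490) (nat_lit 364) (nat_lit 286))) (XT.nd (nat_lit 78) (nat_lit 152) (nat_lit 0) (XT.lf (nat_lit 0) (nat_lit 1247605944) (nat_lit 304) (nat_lit 12013944485) (nat_lit 76) (nat_lit 1820120914) (nat_lit 48) (nat_lit 5) (nat_lit 52) (nat_lit 5) (nat_lit 49) (nat_lit 5) (nat_lit 491) (nat_lit 364) (nat_lit 285)) (XT.nd (nat_lit 78) (nat_lit 152) (nat_lit 0) (XT.lf (nat_lit 0) (nat_lit 5000549727) (nat_lit 304) (nat_lit 4094598892) (nat_lit 76) (nat_lit 6190661221) (nat_lit 48) (nat_lit 5) (nat_lit 52) (nat_lit 5) (nat_lit 49) (nat_lit 5) (nat_lit 492) (nat_lit 364) (nat_lit 284)) (XT.lf (nat_lit 0) (nat_lit 3988703455) (nat_lit 152) (nat_lit 4837955120) (nat_lit 228) (nat_lit 6667417138) (nat_lit 46) (nat_lit 5) (nat_lit 48) (nat_lit 5) (nat_lit 49) (nat_lit 5) (nat_lit 493) (nat_lit 364) (nat_lit 283))))) (XT.nd (nat_lit 156) (nat_lit 152) (nat_lit 0) (XT.nd (nat_lit 78) (nat_lit 304)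 (nat_lit 0) (XT.lf (nat_lit 0) (nat_lit 12242740014) (nat_lit 152) (nat_lit 486478815) (nat_lit 228) (nat_lit 2977296085) (nat_lit 46) (nat_lit 5) (nat_lit 48) (nat_lit 5) (nat_lit 49) (nat_lit 5) (nat_lit 494) (nat_lit 364) (nat_lit 282)) (XT.lf (nat_lit 0) (nat_lit 805733519) (nat_lit 304) (nat_lit 11198858849) (nat_lit 76) (nat_lit 3917926267) (nat_lit 42) (nat_lit 5) (nat_lit 46) (nat_lit 5) (nat_lit 43) (nat_lit 5) (nat_lit 495) (nat_lit 364) (nat_lit 281))) (XT.nd (nat_lit 78) (nat_lit 152) (nat_lit 0) (XT.lf (nat_lit 0) (nat_lit 4624137811) (nat_lit 304) (nat_lit 3089689685) (nat_lit 76) (nat_lit 8428635951) (nat_lit 42) (nat_lit 5) (nat_lit 46) (nat_lit 5) (nat_lit 43) (nat_lit 5) (nat_lit 496) (nat_lit 364) (nat_lit 280)) (XT.nd (nat_lit 78) (nat_lit 0) (nat_lit 0) (XT.lf (nat_lit 0) (nat_lit 5204812323) (nat_lit 152) (nat_lit 3321345296) (nat_lit 228) (nat_lit 7840510681) (nat_lit 40) (nat_lit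 5) (nat_lit 42) (nat_lit 5) (nat_lit 43) (nat_lit 5) (nat_lit 497) (nat_lit 364) (nat_lit 279)) (XT.lf (nat_lit 0) (nat_lit 12508177240) (nat_lit 228) (nat_lit 2940746850) (nat_lit 76) (nat_lit 1146399947) (nat_lit 40) (nat_lit 5) (nat_lit 43) (nat_lit 5) (nat_lit 41) (nat_lit 5) (nat_lit 498) (nat_lit 364) (nat_lit 278)))))) (XT.nd (nat_lit 390) (nat_lit 228) (nat_lit 0) (XT.nd (nat_lit 156) (nat_lit 380) (nat_lit 0) (XT.nd (nat_lit 78) (nat_lit 76) (nat_lit 0) (XT.lf (nat_lit 0) (nat_lit 5449924377) (nat_lit 228) (nat_lit 11151375176) (nat_lit 304) (nat_lit 226629947) (nat_lit 37) (nat_lit 5) (nat_lit 40) (nat_lit 5) (nat_lit 41) (nat_lit 5) (nat_lit 499) (nat_lit 364) (nat_lit 277)) (XT.lf (nat_lit 0) (nat_lit 3656418651) (nat_lit 304) (nat_lit 3085145246) (nat_lit 76) (nat_lit 10323267044) (nat_lit 36) (nat_lit 5) (nat_lit 40) (nat_lit 5) (nat_lit 37) (nat_lit 5) (nat_lit 500) (nat_lit 364) (nat_lit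 276))) (XT.nd (nat_lit 78) (nat_lit 228) (nat_lit 0) (XT.lf (nat_lit 0) (nat_lit 5399356173) (nat_lit 152) (nat_lit 2224432266) (nat_lit 228) (nat_lit 9682463635) (nat_lit 34) (nat_lit 5) (nat_lit 36) (nat_lit 5) (nat_lit 37) (nat_lit 5) (nat_lit 501) (nat_lit 364) (nat_lit 275)) (XT.nd (nat_lit 78) (nat_lit 228) (nat_lit 0) (XT.lf (nat_lit 0) (nat_lit 11681552826) (nat_lit 228) (nat_lit 3515962225) (nat_lit 76) (nat_lit 2354771047) (nat_lit 34) (nat_lit 5) (nat_lit 37) (nat_lit 5) (nat_lit 35) (nat_lit 5) (nat_lit 502) (nat_lit 364) (nat_lit 274)) (XT.lf (nat_lit 0) (nat_lit 5051533263) (nat_lit 228) (nat_lit 10791698734) (nat_lit 304) (nat_lit 1959558921) (nat_lit 31) (nat_lit 5) (nat_lit 34) (nat_lit 5) (nat_lit 35) (nat_lit 5) (nat_lit 503) (nat_lit 364) (nat_lit 273))))) (XT.nd (nat_lit 52026) (nat_lit 0) (nat_lit 33744) (XT.nd (nat_lit 78) (nat_lit 152) (nat_lit 0) (XT.lf (nat_lit 0) (nat_lit 2002239664)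 (nat_lit 304) (nat_lit 4275960390) (nat_lit 76) (nat_lit 11779866849) (nat_lit 30) (nat_lit 5) (nat_lit 34) (nat_lit 5) (nat_lit 31) (nat_lit 5) (nat_lit 504) (nat_lit 364) (nat_lit 272)) (XT.lf (nat_lit 0) (nat_lit 4371204965) (nat_lit 152) (nat_lit 1649993150) (nat_lit 228) (nat_lit 12296912991) (nat_lit 28) (nat_lit 5) (nat_lit 30) (nat_lit 5) (nat_lit 31) (nat_lit 5) (nat_lit 505) (nat_lit 364) (nat_lit 271))) (XT.nd (nat_lit 78) (nat_lit 1444) (nat_lit 0) (XT.lf (nat_lit 0) (nat_lit 417312928) (nat_lit 1292) (nat_lit 1514485271) (nat_lit 1292) (nat_lit 1514485271) (nat_lit 491) (nat_lit 4) (nat_lit 508) (nat_lit 5) (nat_lit 508) (nat_lit 4) (nat_lit 410) (nat_lit 365) (nat_lit 365)) (XT.nd (nat_lit 78) (nat_lit 1368) (nat_lit 0) (XT.lf (nat_lit 0) (nat_lit 192651639) (nat_lit 1368) (nat_lit 1505402706) (nat_lit 76) (nat_lit 5225742742) (nat_lit 490) (nat_lit 5) (nat_lit 508) (nat_lit 5) (nat_lit 491)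 (nat_lit 4) (nat_lit 411) (nat_lit 365) (nat_lit 364)) (XT.lf (nat_lit 0) (nat_lit 3098293418) (nat_lit 1368) (nat_lit 292926007) (nat_lit 1444) (nat_lit 3565026553) (nat_lit 472) (nat_lit 5) (nat_lit 490) (nat_lit 5) (nat_lit 491) (nat_lit 4) (nat_lit 412) (nat_lit 365) (nat_lit 363))))))) (XT.nd (nat_lit 780) (nat_lit 5776) (nat_lit 0) (XT.nd (nat_lit 390) (nat_lit 5396) (nat_lit 0) (XT.nd (nat_lit 156) (nat_lit 3192) (nat_lit 0) (XT.nd (nat_lit 78) (nat_lit 76) (nat_lit 0) (XT.lf (nat_lit 0) (nat_lit 766420978) (nat_lit 1444) (nat_lit 5843768106) (nat_lit 1444) (nat_lit 380081044) (nat_lit 453) (nat_lit 4) (nat_lit 472) (nat_lit 5) (nat_lit 472) (nat_lit 4) (nat_lit 413) (nat_lit 365) (nat_lit 362)) (XT.lf (nat_lit 0) (nat_lit 2793238560) (nat_lit 1520) (nat_lit 1571624853) (nat_lit 76) (nat_lit 2660545683) (nat_lit 452) (nat_lit 5) (nat_lit 472) (nat_lit 5) (nat_lit 453) (nat_lit 4) (nat_lit 414) (nat_lit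 365) (nat_lit 361))) (XT.nd (nat_lit 78) (nat_lit 1672) (nat_lit 0) (XT.lf (nat_lit 0) (nat_lit 3151667958) (nat_lit 1520) (nat_lit 2829319753) (nat_lit 1596) (nat_lit 1081143564) (nat_lit 432) (nat_lit 5) (nat_lit 452) (nat_lit 5) (nat_lit 453) (nat_lit 4) (nat_lit 415) (nat_lit 365) (nat_lit 360)) (XT.nd (nat_lit 78) (nat_lit 0) (nat_lit 0) (XT.lf (nat_lit 0) (nat_lit 826987401) (nat_lit 1596) (nat_lit 1229913766) (nat_lit 1672) (nat_lit 5043420073) (nat_lit 410) (nat_lit 5) (nat_lit 431) (nat_lit 5) (nat_lit 432) (nat_lit 5) (nat_lit 416) (nat_lit 365) (nat_lit 359)) (XT.lf (nat_lit 0) (nat_lit 5209125113) (nat_lit 1672) (nat_lit 1498713395) (nat_lit 76) (nat_lit 432024419) (nat_lit 410) (nat_lit 5) (nat_lit 432) (nat_lit 5) (nat_lit 411) (nat_lit 4) (nat_lit 417) (nat_lit 365) (nat_lit 358))))) (XT.nd (nat_lit 156) (nat_lit 1900) (nat_lit 0) (XT.nd (nat_lit 78) (nat_lit 1748) (nat_lit 0) (XT.lf (nat_lit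 0) (nat_lit 1195589030) (nat_lit 1748) (nat_lit 3842607410) (nat_lit 76) (nat_lit 2142530118) (nat_lit 387) (nat_lit 5) (nat_lit 410) (nat_lit 5) (nat_lit 388) (nat_lit 5) (nat_lit 418) (nat_lit 365) (nat_lit 357)) (XT.lf (nat_lit 0) (nat_lit 1008714215) (nat_lit 1748) (nat_lit 3305039989) (nat_lit 1824) (nat_lit 2909340661) (nat_lit 364) (nat_lit 5) (nat_lit 387) (nat_lit 5) (nat_lit 388) (nat_lit 5) (nat_lit 419) (nat_lit 365) (nat_lit 356))) (XT.nd (nat_lit 78) (nat_lit 1824) (nat_lit 0) (XT.lf (nat_lit 0) (nat_lit 189769672) (nat_lit 1824) (nat_lit 1320208406) (nat_lit 76) (nat_lit 5757051259) (nat_lit 363) (nat_lit 5) (nat_lit 387) (nat_lit 5) (nat_lit 364) (nat_lit 5) (nat_lit 420) (nat_lit 365) (nat_lit 355)) (XT.nd (nat_lit 78) (nat_lit 912) (nat_lit 0) (XT.lf (nat_lit 0) (nat_lit 3277966902) (nat_lit 988) (nat_lit 3674974817) (nat_lit 76) (nat_lit 359238233) (nat_lit 351) (nat_lit 5) (nat_lit 364)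 (nat_lit 5) (nat_lit 352) (nat_lit 5) (nat_lit 421) (nat_lit 365) (nat_lit 354)) (XT.lf (nat_lit 0) (nat_lit 1299067190) (nat_lit 912) (nat_lit 5097020394) (nat_lit 988) (nat_lit 962825241) (nat_lit 339) (nat_lit 5) (nat_lit 351) (nat_lit 5) (nat_lit 352) (nat_lit 5) (nat_lit 422) (nat_lit 365) (nat_lit 353)))))) (XT.nd (nat_lit 390) (nat_lit 3192) (nat_lit 0) (XT.nd (nat_lit 156) (nat_lit 1672) (nat_lit 0) (XT.nd (nat_lit 78) (nat_lit 836) (nat_lit 0) (XT.lf (nat_lit 0) (nat_lit 2107497976) (nat_lit 988) (nat_lit 1059870531) (nat_lit 76) (nat_lit 4239651506) (nat_lit 338) (nat_lit 5) (nat_lit 351) (nat_lit 5) (nat_lit 339) (nat_lit 5) (nat_lit 423) (nat_lit 365) (nat_lit 352)) (XT.lf (nat_lit 0) (nat_lit 4025804992) (nat_lit 836) (nat_lit 1168977872) (nat_lit 912) (nat_lit 2261850235) (nat_lit 327) (nat_lit 5) (nat_lit 338) (nat_lit 5) (nat_lit 339) (nat_lit 5) (nat_lit 424) (nat_lit 365) (nat_lit 351)))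 (XT.nd (nat_lit 78) (nat_lit 760) (nat_lit 0) (XT.lf (nat_lit 0) (nat_lit 792039995) (nat_lit 912) (nat_lit 5837889239) (nat_lit 76) (nat_lit 877910278) (nat_lit 315) (nat_lit 5) (nat_lit 327) (nat_lit 5) (nat_lit 316) (nat_lit 5) (nat_lit 425) (nat_lit 365) (nat_lit 350)) (XT.nd (nat_lit 78) (nat_lit 760) (nat_lit 0) (XT.lf (nat_lit 0) (nat_lit 3850992297) (nat_lit 912) (nat_lit 725098253) (nat_lit 76) (nat_lit 2984232760) (nat_lit 315) (nat_lit 5) (nat_lit 327) (nat_lit 5) (nat_lit 316) (nat_lit 5) (nat_lit 426) (nat_lit 365) (nat_lit 349)) (XT.lf (nat_lit 0) (nat_lit 4488159147) (nat_lit 760) (nat_lit 2456541293) (nat_lit 836) (nat_lit 669721751) (nat_lit 305) (nat_lit 5) (nat_lit 315) (nat_lit 5) (nat_lit 316) (nat_lit 5) (nat_lit 427) (nat_lit 365) (nat_lit 348))))) (XT.nd (nat_lit 234) (nat_lit 1520) (nat_lit 0) (XT.nd (nat_lit 78) (nat_lit 836) (nat_lit 0) (XT.lf (nat_lit 0) (nat_lit 2096665870) (nat_lit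 760) (nat_lit 265381859) (nat_lit 836) (nat_lit 5308010260) (nat_lit 294) (nat_lit 5) (nat_lit 304) (nat_lit 5) (nat_lit 305) (nat_lit 5) (nat_lit 428) (nat_lit 365) (nat_lit 347)) (XT.nd (nat_lit 78) (nat_lit 836) (nat_lit 0) (XT.lf (nat_lit 0) (nat_lit 5424785787) (nat_lit 836) (nat_lit 339027263) (nat_lit 76) (nat_lit 1963353711) (nat_lit 294) (nat_lit 5) (nat_lit 305) (nat_lit 5) (nat_lit 295) (nat_lit 5) (nat_lit 429) (nat_lit 365) (nat_lit 346)) (XT.lf (nat_lit 0) (nat_lit 733888071) (nat_lit 836) (nat_lit 2787277218) (nat_lit 76) (nat_lit 4264575980) (nat_lit 283) (nat_lit 5) (nat_lit 294) (nat_lit 5) (nat_lit 284) (nat_lit 5) (nat_lit 430) (nat_lit 365) (nat_lit 345)))) (XT.nd (nat_lit 78) (nat_lit 760) (nat_lit 0) (XT.lf (nat_lit 0) (nat_lit 2559320785) (nat_lit 760) (nat_lit 1206402447) (nat_lit 836) (nat_lit 4080179072) (nat_lit 273) (nat_lit 5) (nat_lit 283) (nat_lit 5) (nat_lit 284) (nat_lit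 5) (nat_lit 431) (nat_lit 365) (nat_lit 344)) (XT.nd (nat_lit 78) (nat_lit 76) (nat_lit 0) (XT.lf (nat_lit 0) (nat_lit 75636956) (nat_lit 684) (nat_lit 6756709043) (nat_lit 760) (nat_lit 1075469703) (nat_lit 264) (nat_lit 5) (nat_lit 273) (nat_lit 5) (nat_lit 274) (nat_lit 5) (nat_lit 432) (nat_lit 365) (nat_lit 343)) (XT.lf (nat_lit 0) (nat_lit 1954539002) (nat_lit 760) (nat_lit 2436435307) (nat_lit 76) (nat_lit 3579939738) (nat_lit 263) (nat_lit 5) (nat_lit 273) (nat_lit 5) (nat_lit 264) (nat_lit 5) (nat_lit 433) (nat_lit 365) (nat_lit 342))))))))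
noncomputable def xc58 : XT := (XT.nd (nat_lit 1560) (nat_lit 5168) (nat_lit 0) (XT.nd (nat_lit 780) (nat_lit 3800) (nat_lit 0) (XT.nd (nat_lit 390) (nat_lit 1824) (nat_lit 0) (XT.nd (nat_lit 156) (nat_lit 1444) (nat_lit 0) (XT.nd (nat_lit 78) (nat_lit 608) (nat_lit 0) (XT.lf (nat_lit 0) (nat_lit 3039376554) (nat_lit 684) (nat_lit 1959740955) (nat_lit 760) (nat_lit 3036677574) (nat_lit 254) (nat_lit 5) (nat_lit 263) (nat_lit 5) (nat_lit 264) (nat_lit 5) (nat_lit 434) (nat_lit 365) (nat_lit 341)) (XT.lf (nat_lit 0) (nat_lit 497958806) (nat_lit 608) (nat_lit 7578875308) (nat_lit 684) (nat_lit 25724406) (nat_lit 246) (nat_lit 5) (nat_lit 254) (nat_lit 5) (nat_lit 255) (nat_lit 5) (nat_lit 435) (nat_lit 365) (nat_lit 340))) (XT.nd (nat_lit 78) (nat_lit 1368) (nat_lit 0) (XT.lf (nat_lit 0) (nat_lit 3001654372) (nat_lit 684) (nat_lit 2094478256) (nat_lit 76) (nat_lit 3074234734) (nat_lit 245) (nat_lit 5) (nat_lit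 254) (nat_lit 5) (nat_lit 246) (nat_lit 5) (nat_lit 436) (nat_lit 365) (nat_lit 339)) (XT.nd (nat_lit 78) (nat_lit 684) (nat_lit 0) (XT.lf (nat_lit 0) (nat_lit 3511464516) (nat_lit 684) (nat_lit 2550981708) (nat_lit 760) (nat_lit 2177646553) (nat_lit 236) (nat_lit 5) (nat_lit 245) (nat_lit 5) (nat_lit 246) (nat_lit 5) (nat_lit 437) (nat_lit 365) (nat_lit 338)) (XT.lf (nat_lit 0) (nat_lit 832762977) (nat_lit 684) (nat_lit 7419728028) (nat_lit 76) (nat_lit 59215723) (nat_lit 227) (nat_lit 5) (nat_lit 236) (nat_lit 5) (nat_lit 228) (nat_lit 5) (nat_lit 438) (nat_lit 365) (nat_lit 337))))) (XT.nd (nat_lit 156) (nat_lit 1216) (nat_lit 0) (XT.nd (nat_lit 78) (nat_lit 608) (nat_lit 0) (XT.lf (nat_lit 0) (nat_lit 3874231190) (nat_lit 684) (nat_lit 1787628680) (nat_lit 76) (nat_lit 2722631403) (nat_lit 227) (nat_lit 5) (nat_lit 236) (nat_lit 5) (nat_lit 228) (nat_lit 5) (nat_lit 439) (nat_lit 365) (nat_lit 336))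 (XT.lf (nat_lit 0) (nat_lit 3949022048) (nat_lit 608) (nat_lit 3005250581) (nat_lit 684) (nat_lit 1504929868) (nat_lit 219) (nat_lit 5) (nat_lit 227) (nat_lit 5) (nat_lit 228) (nat_lit 5) (nat_lit 440) (nat_lit 365) (nat_lit 335))) (XT.nd (nat_lit 78) (nat_lit 608) (nat_lit 0) (XT.lf (nat_lit 0) (nat_lit 1235312297) (nat_lit 532) (nat_lit 277142694) (nat_lit 608) (nat_lit 7023326892) (nat_lit 211) (nat_lit 5) (nat_lit 218) (nat_lit 5) (nat_lit 219) (nat_lit 5) (nat_lit 441) (nat_lit 365) (nat_lit 334)) (XT.nd (nat_lit 78) (nat_lit 608) (nat_lit 0) (XT.lf (nat_lit 0) (nat_lit 4569572635) (nat_lit 608) (nat_lit 1543507101) (nat_lit 76) (nat_lit 2500647821) (nat_lit 211) (nat_lit 5) (nat_lit 219) (nat_lit 5) (nat_lit 212) (nat_lit 5) (nat_lit 442) (nat_lit 365) (nat_lit 333)) (XT.lf (nat_lit 0) (nat_lit 4324021794) (nat_lit 608) (nat_lit 3347430043) (nat_lit 684) (nat_lit 1022131818) (nat_lit 203) (nat_lit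 5) (nat_lit 211) (nat_lit 5) (nat_lit 212) (nat_lit 5) (nat_lit 443) (nat_lit 365) (nat_lit 332)))))) (XT.nd (nat_lit 390) (nat_lit 2052) (nat_lit 0) (XT.nd (nat_lit 156) (nat_lit 1140) (nat_lit 0) (XT.nd (nat_lit 78) (nat_lit 0) (nat_lit 0) (XT.lf (nat_lit 0) (nat_lit 1501549456) (nat_lit 532) (nat_lit 505843485) (nat_lit 608) (nat_lit 6767917706) (nat_lit 195) (nat_lit 5) (nat_lit 202) (nat_lit 5) (nat_lit 203) (nat_lit 5) (nat_lit 444) (nat_lit 365) (nat_lit 331)) (XT.lf (nat_lit 0) (nat_lit 5083222146) (nat_lit 608) (nat_lit 1391413985) (nat_lit 76) (nat_lit 2383935434) (nat_lit 195) (nat_lit 5) (nat_lit 203) (nat_lit 5) (nat_lit 196) (nat_lit 5) (nat_lit 445) (nat_lit 365) (nat_lit 330))) (XT.nd (nat_lit 78) (nat_lit 608) (nat_lit 0) (XT.lf (nat_lit 0) (nat_lit 4606682623) (nat_lit 532) (nat_lit 3602377329) (nat_lit 608) (nat_lit 734689984) (nat_lit 188) (nat_lit 5) (nat_lit 195) (nat_lit 5) (nat_lit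 196) (nat_lit 5) (nat_lit 446) (nat_lit 365) (nat_lit 329)) (XT.nd (nat_lit 78) (nat_lit 0) (nat_lit 0) (XT.lf (nat_lit 0) (nat_lit 1660312904) (nat_lit 532) (nat_lit 651023119) (nat_lit 608) (nat_lit 6719497854) (nat_lit 180) (nat_lit 5) (nat_lit 187) (nat_lit 5) (nat_lit 188) (nat_lit 5) (nat_lit 447) (nat_lit 365) (nat_lit 328)) (XT.lf (nat_lit 0) (nat_lit 5408881799) (nat_lit 608) (nat_lit 1362631940) (nat_lit 76) (nat_lit 2348060697) (nat_lit 180) (nat_lit 5) (nat_lit 188) (nat_lit 5) (nat_lit 181) (nat_lit 5) (nat_lit 448) (nat_lit 365) (nat_lit 327))))) (XT.nd (nat_lit 156) (nat_lit 988) (nat_lit 0) (XT.nd (nat_lit 78) (nat_lit 532) (nat_lit 0) (XT.lf (nat_lit 0) (nat_lit 4765159597) (nat_lit 532) (nat_lit 3795147594) (nat_lit 608) (nat_lit 649964440) (nat_lit 173) (nat_lit 5) (nat_lit 180) (nat_lit 5) (nat_lit 181) (nat_lit 5) (nat_lit 449) (nat_lit 365) (nat_lit 326)) (XT.lf (nat_lit 0) (nat_lit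 1678634840) (nat_lit 456) (nat_lit 737874101) (nat_lit 532) (nat_lit 6886433413) (nat_lit 166) (nat_lit 5) (nat_lit 172) (nat_lit 5) (nat_lit 173) (nat_lit 5) (nat_lit 450) (nat_lit 365) (nat_lit 325))) (XT.nd (nat_lit 78) (nat_lit 988) (nat_lit 0) (XT.lf (nat_lit 0) (nat_lit 5538313980) (nat_lit 532) (nat_lit 1490750927) (nat_lit 76) (nat_lit 2368280775) (nat_lit 166) (nat_lit 5) (nat_lit 173) (nat_lit 5) (nat_lit 167) (nat_lit 5) (nat_lit 451) (nat_lit 365) (nat_lit 324)) (XT.nd (nat_lit 78) (nat_lit 532) (nat_lit 0) (XT.lf (nat_lit 0) (nat_lit 4765210021) (nat_lit 456) (nat_lit 3951223934) (nat_lit 532) (nat_lit 777344385) (nat_lit 160) (nat_lit 5) (nat_lit 166) (nat_lit 5) (nat_lit 167) (nat_lit 5) (nat_lit 452) (nat_lit 365) (nat_lit 323)) (XT.lf (nat_lit 0) (nat_lit 1521009209) (nat_lit 456) (nat_lit 792092114) (nat_lit 532) (nat_lit 7279186112) (nat_lit 153) (nat_lit 5) (nat_lit 159) (nat_lit 5) (nat_lit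 160) (nat_lit 5) (nat_lit 453) (nat_lit 365) (nat_lit 322))))))) (XT.nd (nat_lit 780) (nat_lit 2508) (nat_lit 0) (XT.nd (nat_lit 390) (nat_lit 1292) (nat_lit 0) (XT.nd (nat_lit 156) (nat_lit 912) (nat_lit 0) (XT.nd (nat_lit 78) (nat_lit 456) (nat_lit 0) (XT.lf (nat_lit 0) (nat_lit 5461225232) (nat_lit 532) (nat_lit 1812019563) (nat_lit 76) (nat_lit 2419311349) (nat_lit 153) (nat_lit 5) (nat_lit 160) (nat_lit 5) (nat_lit 154) (nat_lit 5) (nat_lit 454) (nat_lit 365) (nat_lit 321)) (XT.lf (nat_lit 0) (nat_lit 4569832392) (nat_lit 456) (nat_lit 4096756290) (nat_lit 532) (nat_lit 1128373412) (nat_lit 147) (nat_lit 5) (nat_lit 153) (nat_lit 5) (nat_lit 154) (nat_lit 5) (nat_lit 455) (nat_lit 365) (nat_lit 320))) (XT.nd (nat_lit 78) (nat_lit 456) (nat_lit 0) (XT.lf (nat_lit 0) (nat_lit 1149018181) (nat_lit 380) (nat_lit 840119714) (nat_lit 456) (nat_lit 7910446421) (nat_lit 141) (nat_lit 5) (nat_lit 146) (nat_lit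 5) (nat_lit 147) (nat_lit 5) (nat_lit 456) (nat_lit 365) (nat_lit 319)) (XT.nd (nat_lit 78) (nat_lit 456) (nat_lit 0) (XT.lf (nat_lit 0) (nat_lit 5165130982) (nat_lit 456) (nat_lit 2365725908) (nat_lit 76) (nat_lit 2475084514) (nat_lit 141) (nat_lit 5) (nat_lit 147) (nat_lit 5) (nat_lit 142) (nat_lit 5) (nat_lit 457) (nat_lit 365) (nat_lit 318)) (XT.lf (nat_lit 0) (nat_lit 4138874768) (nat_lit 456) (nat_lit 4258811322) (nat_lit 532) (nat_lit 1716894782) (nat_lit 135) (nat_lit 5) (nat_lit 141) (nat_lit 5) (nat_lit 142) (nat_lit 5) (nat_lit 458) (nat_lit 365) (nat_lit 317))))) (XT.nd (nat_lit 156) (nat_lit 836) (nat_lit 0) (XT.nd (nat_lit 78) (nat_lit 0) (nat_lit 0) (XT.lf (nat_lit 0) (nat_lit 520926602) (nat_lit 380) (nat_lit 909401814) (nat_lit 456) (nat_lit 8795287313) (nat_lit 129) (nat_lit 5) (nat_lit 134) (nat_lit 5) (nat_lit 135) (nat_lit 5) (nat_lit 459) (nat_lit 365) (nat_lit 316)) (XT.lf (nat_lit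 0) (nat_lit 4635199657) (nat_lit 456) (nat_lit 3194611365) (nat_lit 76) (nat_lit 2508494583) (nat_lit 129) (nat_lit 5) (nat_lit 135) (nat_lit 5) (nat_lit 130) (nat_lit 5) (nat_lit 460) (nat_lit 365) (nat_lit 315))) (XT.nd (nat_lit 78) (nat_lit 456) (nat_lit 0) (XT.lf (nat_lit 0) (nat_lit 3428608801) (nat_lit 380) (nat_lit 4465635531) (nat_lit 456) (nat_lit 2559218284) (nat_lit 124) (nat_lit 5) (nat_lit 129) (nat_lit 5) (nat_lit 130) (nat_lit 5) (nat_lit 461) (nat_lit 365) (nat_lit 314)) (XT.nd (nat_lit 78) (nat_lit 380) (nat_lit 0) (XT.lf (nat_lit 0) (nat_lit 622549719) (nat_lit 456) (nat_lit 403398521) (nat_lit 76) (nat_lit 9545234815) (nat_lit 123) (nat_lit 5) (nat_lit 129) (nat_lit 5) (nat_lit 124) (nat_lit 5) (nat_lit 462) (nat_lit 365) (nat_lit 313)) (XT.lf (nat_lit 0) (nat_lit 3854074540) (nat_lit 456) (nat_lit 4345321738) (nat_lit 76) (nat_lit 2491129508) (nat_lit 118) (nat_lit 5) (nat_lit 124) (nat_lit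 5) (nat_lit 119) (nat_lit 5) (nat_lit 463) (nat_lit 365) (nat_lit 312)))))) (XT.nd (nat_lit 390) (nat_lit 1368) (nat_lit 0) (XT.nd (nat_lit 156) (nat_lit 760) (nat_lit 0) (XT.nd (nat_lit 78) (nat_lit 0) (nat_lit 0) (XT.lf (nat_lit 0) (nat_lit 2391265278) (nat_lit 380) (nat_lit 4746933985) (nat_lit 456) (nat_lit 3674310446) (nat_lit 113) (nat_lit 5) (nat_lit 118) (nat_lit 5) (nat_lit 119) (nat_lit 5) (nat_lit 464) (nat_lit 365) (nat_lit 311)) (XT.lf (nat_lit 0) (nat_lit 9266520108) (nat_lit 380) (nat_lit 1213940287) (nat_lit 456) (nat_lit 456637292) (nat_lit 113) (nat_lit 5) (nat_lit 118) (nat_lit 5) (nat_lit 119) (nat_lit 5) (nat_lit 465) (nat_lit 365) (nat_lit 310))) (XT.nd (nat_lit 78) (nat_lit 380) (nat_lit 0) (XT.lf (nat_lit 0) (nat_lit 2801671477) (nat_lit 380) (nat_lit 5868899792) (nat_lit 76) (nat_lit 2392985452) (nat_lit 108) (nat_lit 5) (nat_lit 113) (nat_lit 5) (nat_lit 109) (nat_lit 5) (nat_lit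 466) (nat_lit 365) (nat_lit 309)) (XT.nd (nat_lit 78) (nat_lit 0) (nat_lit 0) (XT.lf (nat_lit 0) (nat_lit 974526675) (nat_lit 380) (nat_lit 5134167238) (nat_lit 456) (nat_lit 5084010097) (nat_lit 103) (nat_lit 5) (nat_lit 108) (nat_lit 5) (nat_lit 109) (nat_lit 5) (nat_lit 467) (nat_lit 365) (nat_lit 308)) (XT.lf (nat_lit 0) (nat_lit 7980098338) (nat_lit 380) (nat_lit 1505500085) (nat_lit 456) (nat_lit 1838773420) (nat_lit 103) (nat_lit 5) (nat_lit 108) (nat_lit 5) (nat_lit 109) (nat_lit 5) (nat_lit 468) (nat_lit 365) (nat_lit 307))))) (XT.nd (nat_lit 234) (nat_lit 684) (nat_lit 0) (XT.nd (nat_lit 78) (nat_lit 304) (nat_lit 0) (XT.lf (nat_lit 0) (nat_lit 1454950321) (nat_lit 380) (nat_lit 7821324149) (nat_lit 76) (nat_lit 2182161858) (nat_lit 98) (nat_lit 5) (nat_lit 103) (nat_lit 5) (nat_lit 99) (nat_lit 5) (nat_lit 469) (nat_lit 365) (nat_lit 306)) (XT.nd (nat_lit 78) (nat_lit 304) (nat_lit 0) (XT.lf (nat_lit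 0) (nat_lit 4787548188) (nat_lit 380) (nat_lit 867499638) (nat_lit 76) (nat_lit 5939950489) (nat_lit 98) (nat_lit 5) (nat_lit 103) (nat_lit 5) (nat_lit 99) (nat_lit 5) (nat_lit 470) (nat_lit 365) (nat_lit 305)) (XT.lf (nat_lit 0) (nat_lit 6254560131) (nat_lit 304) (nat_lit 1938569335) (nat_lit 380) (nat_lit 3541046932) (nat_lit 94) (nat_lit 5) (nat_lit 98) (nat_lit 5) (nat_lit 99) (nat_lit 5) (nat_lit 471) (nat_lit 365) (nat_lit 304)))) (XT.nd (nat_lit 78) (nat_lit 380) (nat_lit 0) (XT.lf (nat_lit 0) (nat_lit 1610767004) (nat_lit 304) (nat_lit 10050332604) (nat_lit 380) (nat_lit 215164148) (nat_lit 90) (nat_lit 5) (nat_lit 94) (nat_lit 5) (nat_lit 95) (nat_lit 5) (nat_lit 472) (nat_lit 365) (nat_lit 303)) (XT.nd (nat_lit 78) (nat_lit 304) (nat_lit 0) (XT.lf (nat_lit 0) (nat_lit 3151443461) (nat_lit 380) (nat_lit 3190138002) (nat_lit 76) (nat_lit 5678892102) (nat_lit 89) (nat_lit 5) (nat_lit 94) (nat_lit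 5) (nat_lit 90) (nat_lit 5) (nat_lit 473) (nat_lit 365) (nat_lit 302)) (XT.lf (nat_lit 0) (nat_lit 4025941496) (nat_lit 304) (nat_lit 2549393008) (nat_lit 380) (nat_lit 5592358587) (nat_lit 85) (nat_lit 5) (nat_lit 89) (nat_lit 5) (nat_lit 90) (nat_lit 5) (nat_lit 474) (nat_lit 365) (nat_lit 301))))))))
noncomputable def xc59 : XT := (XT.nd (nat_lit 1560) (nat_lit 1216) (nat_lit 0) (XT.nd (nat_lit 780) (nat_lit 1216) (nat_lit 0) (XT.nd (nat_lit 390) (nat_lit 912) (nat_lit 0) (XT.nd (nat_lit 156) (nat_lit 532) (nat_lit 0) (XT.nd (nat_lit 78) (nat_lit 304) (nat_lit 0) (XT.lf (nat_lit 0) (nat_lit 10064699123) (nat_lit 380) (nat_lit 948913657) (nat_lit 76) (nat_lit 1304314712) (nat_lit 85) (nat_lit 5) (nat_lit 90) (nat_lit 5) (nat_lit 86) (nat_lit 5) (nat_lit 475) (nat_lit 365) (nat_lit 300)) (XT.lf (nat_lit 0) (nat_lit 1163722612) (nat_lit 304) (nat_lit 6074772230) (nat_lit 76) (nat_lit 5232008941) (nat_lit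 81) (nat_lit 5) (nat_lit 85) (nat_lit 5) (nat_lit 82) (nat_lit 5) (nat_lit 476) (nat_lit 365) (nat_lit 299))) (XT.nd (nat_lit 78) (nat_lit 228) (nat_lit 0) (XT.lf (nat_lit 0) (nat_lit 1223771087) (nat_lit 304) (nat_lit 3377071317) (nat_lit 380) (nat_lit 8025361111) (nat_lit 77) (nat_lit 5) (nat_lit 81) (nat_lit 5) (nat_lit 82) (nat_lit 5) (nat_lit 477) (nat_lit 365) (nat_lit 298)) (XT.nd (nat_lit 78) (nat_lit 228) (nat_lit 0) (XT.lf (nat_lit 0) (nat_lit 8119182175) (nat_lit 380) (nat_lit 4089119782) (nat_lit 76) (nat_lit 576475344) (nat_lit 77) (nat_lit 5) (nat_lit 82) (nat_lit 5) (nat_lit 78) (nat_lit 5) (nat_lit 478) (nat_lit 365) (nat_lit 297)) (XT.lf (nat_lit 0) (nat_lit 3341296381) (nat_lit 228) (nat_lit 8379078964) (nat_lit 304) (nat_lit 1225906905) (nat_lit 74) (nat_lit 5) (nat_lit 77) (nat_lit 5) (nat_lit 78) (nat_lit 5) (nat_lit 479) (nat_lit 365) (nat_lit 296))))) (XT.nd (nat_lit 156) (nat_lit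 532) (nat_lit 0) (XT.nd (nat_lit 78) (nat_lit 304) (nat_lit 0) (XT.lf (nat_lit 0) (nat_lit 2248764847) (nat_lit 304) (nat_lit 2200434570) (nat_lit 76) (nat_lit 8661608015) (nat_lit 73) (nat_lit 5) (nat_lit 77) (nat_lit 5) (nat_lit 74) (nat_lit 5) (nat_lit 480) (nat_lit 365) (nat_lit 295)) (XT.lf (nat_lit 0) (nat_lit 5364728624) (nat_lit 304) (nat_lit 415755085) (nat_lit 380) (nat_lit 7497906851) (nat_lit 69) (nat_lit 5) (nat_lit 73) (nat_lit 5) (nat_lit 74) (nat_lit 5) (nat_lit 481) (nat_lit 365) (nat_lit 294))) (XT.nd (nat_lit 78) (nat_lit 532) (nat_lit 0) (XT.lf (nat_lit 0) (nat_lit 9390997555) (nat_lit 380) (nat_lit 412008791) (nat_lit 76) (nat_lit 3646164495) (nat_lit 69) (nat_lit 5) (nat_lit 74) (nat_lit 5) (nat_lit 70) (nat_lit 5) (nat_lit 482) (nat_lit 365) (nat_lit 293)) (XT.nd (nat_lit 78) (nat_lit 304) (nat_lit 0) (XT.lf (nat_lit 0) (nat_lit 7283535884) (nat_lit 228) (nat_lit 5810115498) (nat_lit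 304) (nat_lit 529325285) (nat_lit 66) (nat_lit 5) (nat_lit 69) (nat_lit 5) (nat_lit 70) (nat_lit 5) (nat_lit 483) (nat_lit 365) (nat_lit 292)) (XT.lf (nat_lit 0) (nat_lit 1286292809) (nat_lit 228) (nat_lit 1724632451) (nat_lit 304) (nat_lit 10789321080) (nat_lit 62) (nat_lit 5) (nat_lit 65) (nat_lit 5) (nat_lit 66) (nat_lit 5) (nat_lit 484) (nat_lit 365) (nat_lit 291)))))) (XT.nd (nat_lit 390) (nat_lit 684) (nat_lit 0) (XT.nd (nat_lit 156) (nat_lit 304) (nat_lit 0) (XT.nd (nat_lit 78) (nat_lit 228) (nat_lit 0) (XT.lf (nat_lit 0) (nat_lit 6643687446) (nat_lit 304) (nat_lit 4898539740) (nat_lit 76) (nat_lit 2438196397) (nat_lit 62) (nat_lit 5) (nat_lit 66) (nat_lit 5) (nat_lit 63) (nat_lit 5) (nat_lit 485) (nat_lit 365) (nat_lit 290)) (XT.lf (nat_lit 0) (nat_lit 2846905358) (nat_lit 228) (nat_lit 7502797309) (nat_lit 304) (nat_lit 3814497632) (nat_lit 59) (nat_lit 5) (nat_lit 62) (nat_lit 5) (nat_lit 63) (nat_lit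 5) (nat_lit 486) (nat_lit 365) (nat_lit 289))) (XT.nd (nat_lit 78) (nat_lit 304) (nat_lit 0) (XT.lf (nat_lit 0) (nat_lit 10765784179) (nat_lit 228) (nat_lit 3367881998) (nat_lit 304) (nat_lit 217917543) (nat_lit 59) (nat_lit 5) (nat_lit 62) (nat_lit 5) (nat_lit 63) (nat_lit 5) (nat_lit 487) (nat_lit 365) (nat_lit 288)) (XT.nd (nat_lit 78) (nat_lit 0) (nat_lit 0) (XT.lf (nat_lit 0) (nat_lit 3410230084) (nat_lit 304) (nat_lit 10261200755) (nat_lit 76) (nat_lit 870745505) (nat_lit 55) (nat_lit 5) (nat_lit 59) (nat_lit 5) (nat_lit 56) (nat_lit 5) (nat_lit 488) (nat_lit 365) (nat_lit 287)) (XT.lf (nat_lit 0) (nat_lit 7126017071) (nat_lit 304) (nat_lit 2453782557) (nat_lit 76) (nat_lit 5156399781) (nat_lit 55) (nat_lit 5) (nat_lit 59) (nat_lit 5) (nat_lit 56) (nat_lit 5) (nat_lit 489) (nat_lit 365) (nat_lit 286))))) (XT.nd (nat_lit 156) (nat_lit 456) (nat_lit 0) (XT.nd (nat_lit 78) (nat_lit 0) (nat_lit 0) (XT.lf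 (nat_lit 0) (nat_lit 5535849135) (nat_lit 228) (nat_lit 5388238345) (nat_lit 304) (nat_lit 4009863241) (nat_lit 52) (nat_lit 5) (nat_lit 55) (nat_lit 5) (nat_lit 56) (nat_lit 5) (nat_lit 490) (nat_lit 365) (nat_lit 285)) (XT.lf (nat_lit 0) (nat_lit 13672302779) (nat_lit 228) (nat_lit 1114556323) (nat_lit 304) (nat_lit 349030162) (nat_lit 52) (nat_lit 5) (nat_lit 55) (nat_lit 5) (nat_lit 56) (nat_lit 5) (nat_lit 491) (nat_lit 365) (nat_lit 284))) (XT.nd (nat_lit 78) (nat_lit 152) (nat_lit 0) (XT.lf (nat_lit 0) (nat_lit 3377804168) (nat_lit 304) (nat_lit 8713346648) (nat_lit 76) (nat_lit 3249539339) (nat_lit 48) (nat_lit 5) (nat_lit 52) (nat_lit 5) (nat_lit 49) (nat_lit 5) (nat_lit 492) (nat_lit 365) (nat_lit 283)) (XT.nd (nat_lit 78) (nat_lit 152) (nat_lit 0) (XT.lf (nat_lit 0) (nat_lit 7164527492) (nat_lit 304) (nat_lit 705043099) (nat_lit 76) (nat_lit 7680176413) (nat_lit 48) (nat_lit 5) (nat_lit 52) (nat_lit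 5) (nat_lit 49) (nat_lit 5) (nat_lit 493) (nat_lit 365) (nat_lit 282)) (XT.lf (nat_lit 0) (nat_lit 7517086823) (nat_lit 152) (nat_lit 3531992415) (nat_lit 228) (nat_lit 4713470338) (nat_lit 46) (nat_lit 5) (nat_lit 48) (nat_lit 5) (nat_lit 49) (nat_lit 5) (nat_lit 494) (nat_lit 365) (nat_lit 281))))))) (XT.nd (nat_lit 780) (nat_lit 76) (nat_lit 0) (XT.nd (nat_lit 390) (nat_lit 456) (nat_lit 0) (XT.nd (nat_lit 156) (nat_lit 380) (nat_lit 0) (XT.nd (nat_lit 78) (nat_lit 304) (nat_lit 0) (XT.lf (nat_lit 0) (nat_lit 14995282367) (nat_lit 228) (nat_lit 117172263) (nat_lit 76) (nat_lit 867480704) (nat_lit 46) (nat_lit 5) (nat_lit 49) (nat_lit 5) (nat_lit 47) (nat_lit 5) (nat_lit 495) (nat_lit 365) (nat_lit 280)) (XT.lf (nat_lit 0) (nat_lit 2832747832) (nat_lit 304) (nat_lit 8005445848) (nat_lit 76) (nat_lit 5362095690) (nat_lit 42) (nat_lit 5) (nat_lit 46) (nat_lit 5) (nat_lit 43) (nat_lit 5) (nat_lit 496) (nat_lit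 365) (nat_lit 279))) (XT.nd (nat_lit 78) (nat_lit 228) (nat_lit 0) (XT.lf (nat_lit 0) (nat_lit 201542311) (nat_lit 152) (nat_lit 6487857039) (nat_lit 228) (nat_lit 9736005197) (nat_lit 40) (nat_lit 5) (nat_lit 42) (nat_lit 5) (nat_lit 43) (nat_lit 5) (nat_lit 497) (nat_lit 365) (nat_lit 278)) (XT.nd (nat_lit 78) (nat_lit 228) (nat_lit 0) (XT.lf (nat_lit 0) (nat_lit 8637249106) (nat_lit 152) (nat_lit 2013855418) (nat_lit 228) (nat_lit 6003364948) (nat_lit 40) (nat_lit 5) (nat_lit 42) (nat_lit 5) (nat_lit 43) (nat_lit 5) (nat_lit 498) (nat_lit 365) (nat_lit 277)) (XT.lf (nat_lit 0) (nat_lit 297429595) (nat_lit 228) (nat_lit 14387689487) (nat_lit 304) (nat_lit 2203140851) (nat_lit 37) (nat_lit 5) (nat_lit 40) (nat_lit 5) (nat_lit 41) (nat_lit 5) (nat_lit 499) (nat_lit 365) (nat_lit 276))))) (XT.nd (nat_lit 156) (nat_lit 228) (nat_lit 0) (XT.nd (nat_lit 78) (nat_lit 152) (nat_lit 0) (XT.lf (nat_lit 0) (nat_lit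 1693273486) (nat_lit 304) (nat_lit 8306686315) (nat_lit 76) (nat_lit 7125712094) (nat_lit 36) (nat_lit 5) (nat_lit 40) (nat_lit 5) (nat_lit 37) (nat_lit 5) (nat_lit 500) (nat_lit 365) (nat_lit 275)) (XT.lf (nat_lit 0) (nat_lit 87016665) (nat_lit 152) (nat_lit 5526825028) (nat_lit 228) (nat_lit 11754190046) (nat_lit 34) (nat_lit 5) (nat_lit 36) (nat_lit 5) (nat_lit 37) (nat_lit 5) (nat_lit 501) (nat_lit 365) (nat_lit 274))) (XT.nd (nat_lit 78) (nat_lit 228) (nat_lit 0) (XT.lf (nat_lit 0) (nat_lit 8718798956) (nat_lit 152) (nat_lit 925109976) (nat_lit 228) (nat_lit 7970713400) (nat_lit 34) (nat_lit 5) (nat_lit 36) (nat_lit 5) (nat_lit 37) (nat_lit 5) (nat_lit 502) (nat_lit 365) (nat_lit 273)) (XT.nd (nat_lit 78) (nat_lit 228) (nat_lit 0) (XT.lf (nat_lit 0) (nat_lit 13754761957) (nat_lit 228) (nat_lit 409334870) (nat_lit 76) (nat_lit 3702049422) (nat_lit 34) (nat_lit 5) (nat_lit 37) (nat_lit 5) (nat_lit 35)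 (nat_lit 5) (nat_lit 503) (nat_lit 365) (nat_lit 272)) (XT.lf (nat_lit 0) (nat_lit 8308609563) (nat_lit 228) (nat_lit 9675486131) (nat_lit 304) (nat_lit 137884777) (nat_lit 31) (nat_lit 5) (nat_lit 34) (nat_lit 5) (nat_lit 35) (nat_lit 5) (nat_lit 504) (nat_lit 365) (nat_lit 271)))))) (XT.nd (nat_lit 52104) (nat_lit 0) (nat_lit 28880) (XT.nd (nat_lit 51870) (nat_lit 0) (nat_lit 34960) (XT.nd (nat_lit 51792) (nat_lit 0) (nat_lit 37620) (XT.lf (nat_lit 0) (nat_lit 3842735182) (nat_lit 304) (nat_lit 1243018884) (nat_lit 76) (nat_lit 13297093877) (nat_lit 30) (nat_lit 5) (nat_lit 34) (nat_lit 5) (nat_lit 31) (nat_lit 5) (nat_lit 505) (nat_lit 365) (nat_lit 270)) (XT.lf (nat_lit 0) (nat_lit 2784424412) (nat_lit 1140) (nat_lit 316271684) (nat_lit 1140) (nat_lit 316271684) (nat_lit 525) (nat_lit 4) (nat_lit 540) (nat_lit 5) (nat_lit 540) (nat_lit 4) (nat_lit 408) (nat_lit 366) (nat_lit 366))) (XT.nd (nat_lit 78)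 (nat_lit 1368) (nat_lit 0) (XT.lf (nat_lit 0) (nat_lit 2562008165) (nat_lit 1292) (nat_lit 3671263936) (nat_lit 0) (nat_lit 629557966) (nat_lit 508) (nat_lit 5) (nat_lit 525) (nat_lit 4) (nat_lit 508) (nat_lit 4) (nat_lit 409) (nat_lit 366) (nat_lit 365)) (XT.nd (nat_lit 78) (nat_lit 76) (nat_lit 0) (XT.lf (nat_lit 0) (nat_lit 804570798) (nat_lit 1292) (nat_lit 4957853325) (nat_lit 1292) (nat_lit 1130844108) (nat_lit 491) (nat_lit 4) (nat_lit 508) (nat_lit 5) (nat_lit 508) (nat_lit 4) (nat_lit 410) (nat_lit 366) (nat_lit 364)) (XT.lf (nat_lit 0) (nat_lit 2032674392) (nat_lit 1368) (nat_lit 1578417746) (nat_lit 76) (nat_lit 3313851667) (nat_lit 490) (nat_lit 5) (nat_lit 508) (nat_lit 5) (nat_lit 491) (nat_lit 4) (nat_lit 411) (nat_lit 366) (nat_lit 363))))) (XT.nd (nat_lit 234) (nat_lit 3192) (nat_lit 0) (XT.nd (nat_lit 78) (nat_lit 1520) (nat_lit 0) (XT.lf (nat_lit 0) (nat_lit 2994570188) (nat_lit 1368)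 (nat_lit 2203440301) (nat_lit 1444) (nat_lit 1760074015) (nat_lit 472) (nat_lit 5) (nat_lit 490) (nat_lit 5) (nat_lit 491) (nat_lit 4) (nat_lit 412) (nat_lit 366) (nat_lit 362)) (XT.nd (nat_lit 78) (nat_lit 0) (nat_lit 0) (XT.lf (nat_lit 0) (nat_lit 627771554) (nat_lit 1444) (nat_lit 737571480) (nat_lit 1520) (nat_lit 5627423538) (nat_lit 452) (nat_lit 5) (nat_lit 471) (nat_lit 5) (nat_lit 472) (nat_lit 5) (nat_lit 413) (nat_lit 366) (nat_lit 361)) (XT.lf (nat_lit 0) (nat_lit 4497000373) (nat_lit 1520) (nat_lit 1740545483) (nat_lit 76) (nat_lit 791069486) (nat_lit 452) (nat_lit 5) (nat_lit 472) (nat_lit 5) (nat_lit 453) (nat_lit 4) (nat_lit 414) (nat_lit 366) (nat_lit 360)))) (XT.nd (nat_lit 78) (nat_lit 1596) (nat_lit 0) (XT.lf (nat_lit 0) (nat_lit 578479037) (nat_lit 1596) (nat_lit 4119215153) (nat_lit 76) (nat_lit 2368243697) (nat_lit 431) (nat_lit 5) (nat_lit 452) (nat_lit 5) (nat_lit 432) (nat_lit 5)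 (nat_lit 415) (nat_lit 366) (nat_lit 359)) (XT.nd (nat_lit 78) (nat_lit 0) (nat_lit 0) (XT.lf (nat_lit 0) (nat_lit 578204612) (nat_lit 1596) (nat_lit 3091455301) (nat_lit 1672) (nat_lit 3435005370) (nat_lit 410) (nat_lit 5) (nat_lit 431) (nat_lit 5) (nat_lit 432) (nat_lit 5) (nat_lit 416) (nat_lit 366) (nat_lit 358)) (XT.lf (nat_lit 0) (nat_lit 5365712947) (nat_lit 1596) (nat_lit 1422676765) (nat_lit 1672) (nat_lit 356510797) (nat_lit 410) (nat_lit 5) (nat_lit 431) (nat_lit 5) (nat_lit 432) (nat_lit 5) (nat_lit 417) (nat_lit 366) (nat_lit 357))))))))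
noncomputable def xc60 : XT := (XT.nd (nat_lit 1560) (nat_lit 7676) (nat_lit 0) (XT.nd (nat_lit 780) (nat_lit 5168) (nat_lit 0) (XT.nd (nat_lit 390) (nat_lit 2584) (nat_lit 0) (XT.nd (nat_lit 156) (nat_lit 1976) (nat_lit 0) (XT.nd (nat_lit 78) (nat_lit 1748) (nat_lit 0) (XT.lf (nat_lit 0) (nat_lit 2707613590) (nat_lit 1748) (nat_lit 4163280801) (nat_lit 76) (nat_lit 315519195) (nat_lit 387) (nat_lit 5) (nat_lit 410) (nat_lit 5) (nat_lit 388) (nat_lit 5) (nat_lit 418) (nat_lit 366) (nat_lit 356)) (XT.lf (nat_lit 0) (nat_lit 653553777) (nat_lit 1748) (nat_lit 5140054560) (nat_lit 1824) (nat_lit 1435839258) (nat_lit 364) (nat_lit 5) (nat_lit 387) (nat_lit 5) (nat_lit 388) (nat_lit 5) (nat_lit 419) (nat_lit 366) (nat_lit 355))) (XT.nd (nat_lit 78) (nat_lit 1900) (nat_lit 0) (XT.lf (nat_lit 0) (nat_lit 1614257789) (nat_lit 1824) (nat_lit 1721337299) (nat_lit 76) (nat_lit 3938210830) (nat_lit 363) (nat_lit 5)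 (nat_lit 387) (nat_lit 5) (nat_lit 364) (nat_lit 5) (nat_lit 420) (nat_lit 366) (nat_lit 354)) (XT.nd (nat_lit 78) (nat_lit 988) (nat_lit 0) (XT.lf (nat_lit 0) (nat_lit 3203305042) (nat_lit 912) (nat_lit 1464847816) (nat_lit 988) (nat_lit 2651510726) (nat_lit 351) (nat_lit 5) (nat_lit 363) (nat_lit 5) (nat_lit 364) (nat_lit 5) (nat_lit 421) (nat_lit 366) (nat_lit 353)) (XT.lf (nat_lit 0) (nat_lit 372799422) (nat_lit 988) (nat_lit 6538494511) (nat_lit 76) (nat_lit 455899610) (nat_lit 338) (nat_lit 5) (nat_lit 351) (nat_lit 5) (nat_lit 339) (nat_lit 5) (nat_lit 422) (nat_lit 366) (nat_lit 352))))) (XT.nd (nat_lit 156) (nat_lit 1748) (nat_lit 0) (XT.nd (nat_lit 78) (nat_lit 836) (nat_lit 0) (XT.lf (nat_lit 0) (nat_lit 3401929265) (nat_lit 988) (nat_lit 1574831060) (nat_lit 76) (nat_lit 2439006492) (nat_lit 338) (nat_lit 5) (nat_lit 351) (nat_lit 5) (nat_lit 339) (nat_lit 5) (nat_lit 423) (nat_lit 366) (nat_lit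 351)) (XT.lf (nat_lit 0) (nat_lit 3474138322) (nat_lit 836) (nat_lit 2983488408) (nat_lit 912) (nat_lit 1008404328) (nat_lit 327) (nat_lit 5) (nat_lit 338) (nat_lit 5) (nat_lit 339) (nat_lit 5) (nat_lit 424) (nat_lit 366) (nat_lit 350))) (XT.nd (nat_lit 78) (nat_lit 836) (nat_lit 0) (XT.lf (nat_lit 0) (nat_lit 1069014242) (nat_lit 836) (nat_lit 922468382) (nat_lit 912) (nat_lit 5526362020) (nat_lit 315) (nat_lit 5) (nat_lit 326) (nat_lit 5) (nat_lit 327) (nat_lit 5) (nat_lit 425) (nat_lit 366) (nat_lit 349)) (XT.nd (nat_lit 78) (nat_lit 836) (nat_lit 0) (XT.lf (nat_lit 0) (nat_lit 5016939060) (nat_lit 912) (nat_lit 1360076090) (nat_lit 76) (nat_lit 1194001497) (nat_lit 315) (nat_lit 5) (nat_lit 327) (nat_lit 5) (nat_lit 316) (nat_lit 5) (nat_lit 426) (nat_lit 366) (nat_lit 348)) (XT.lf (nat_lit 0) (nat_lit 447600210) (nat_lit 836) (nat_lit 3813790587) (nat_lit 76) (nat_lit 3364310534) (nat_lit 304) (nat_lit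 5) (nat_lit 315) (nat_lit 5) (nat_lit 305) (nat_lit 5) (nat_lit 427) (nat_lit 366) (nat_lit 347)))))) (XT.nd (nat_lit 390) (nat_lit 2812) (nat_lit 0) (XT.nd (nat_lit 156) (nat_lit 1596) (nat_lit 0) (XT.nd (nat_lit 78) (nat_lit 0) (nat_lit 0) (XT.lf (nat_lit 0) (nat_lit 1365584562) (nat_lit 760) (nat_lit 2073432905) (nat_lit 836) (nat_lit 4242881304) (nat_lit 294) (nat_lit 5) (nat_lit 304) (nat_lit 5) (nat_lit 305) (nat_lit 5) (nat_lit 428) (nat_lit 366) (nat_lit 346)) (XT.lf (nat_lit 0) (nat_lit 6463510256) (nat_lit 836) (nat_lit 1100160243) (nat_lit 76) (nat_lit 176118846) (nat_lit 294) (nat_lit 5) (nat_lit 305) (nat_lit 5) (nat_lit 295) (nat_lit 5) (nat_lit 429) (nat_lit 366) (nat_lit 345))) (XT.nd (nat_lit 78) (nat_lit 760) (nat_lit 0) (XT.lf (nat_lit 0) (nat_lit 1715122460) (nat_lit 836) (nat_lit 3607996550) (nat_lit 76) (nat_lit 2475756039) (nat_lit 283) (nat_lit 5) (nat_lit 294) (nat_lit 5) (nat_lit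 284) (nat_lit 5) (nat_lit 430) (nat_lit 366) (nat_lit 344)) (XT.nd (nat_lit 78) (nat_lit 0) (nat_lit 0) (XT.lf (nat_lit 0) (nat_lit 1697773090) (nat_lit 760) (nat_lit 3017738468) (nat_lit 836) (nat_lit 3144169369) (nat_lit 273) (nat_lit 5) (nat_lit 283) (nat_lit 5) (nat_lit 284) (nat_lit 5) (nat_lit 431) (nat_lit 366) (nat_lit 343)) (XT.lf (nat_lit 0) (nat_lit 7099309289) (nat_lit 760) (nat_lit 649228235) (nat_lit 836) (nat_lit 173744346) (nat_lit 273) (nat_lit 5) (nat_lit 283) (nat_lit 5) (nat_lit 284) (nat_lit 5) (nat_lit 432) (nat_lit 366) (nat_lit 342))))) (XT.nd (nat_lit 156) (nat_lit 1368) (nat_lit 0) (XT.nd (nat_lit 78) (nat_lit 684) (nat_lit 0) (XT.lf (nat_lit 0) (nat_lit 2809338569) (nat_lit 760) (nat_lit 3392152813) (nat_lit 76) (nat_lit 1784488733) (nat_lit 263) (nat_lit 5) (nat_lit 273) (nat_lit 5) (nat_lit 264) (nat_lit 5) (nat_lit 433) (nat_lit 366) (nat_lit 341)) (XT.lf (nat_lit 0) (nat_lit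 2041162269) (nat_lit 684) (nat_lit 3781338317) (nat_lit 760) (nat_lit 2229003604) (nat_lit 254) (nat_lit 5) (nat_lit 263) (nat_lit 5) (nat_lit 264) (nat_lit 5) (nat_lit 434) (nat_lit 366) (nat_lit 340))) (XT.nd (nat_lit 78) (nat_lit 1292) (nat_lit 0) (XT.lf (nat_lit 0) (nat_lit 740179436) (nat_lit 760) (nat_lit 553659700) (nat_lit 76) (nat_lit 6824971384) (nat_lit 253) (nat_lit 5) (nat_lit 263) (nat_lit 5) (nat_lit 254) (nat_lit 5) (nat_lit 435) (nat_lit 366) (nat_lit 339)) (XT.nd (nat_lit 78) (nat_lit 684) (nat_lit 0) (XT.lf (nat_lit 0) (nat_lit 3730604678) (nat_lit 684) (nat_lit 3191355679) (nat_lit 76) (nat_lit 1265401848) (nat_lit 245) (nat_lit 5) (nat_lit 254) (nat_lit 5) (nat_lit 246) (nat_lit 5) (nat_lit 436) (nat_lit 366) (nat_lit 338)) (XT.lf (nat_lit 0) (nat_lit 2370372660) (nat_lit 684) (nat_lit 4389547424) (nat_lit 760) (nat_lit 1497810653) (nat_lit 236) (nat_lit 5) (nat_lit 245) (nat_lit 5)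 (nat_lit 246) (nat_lit 5) (nat_lit 437) (nat_lit 366) (nat_lit 337))))))) (XT.nd (nat_lit 780) (nat_lit 3952) (nat_lit 0) (XT.nd (nat_lit 390) (nat_lit 1824) (nat_lit 0) (XT.nd (nat_lit 156) (nat_lit 1216) (nat_lit 0) (XT.nd (nat_lit 78) (nat_lit 608) (nat_lit 0) (XT.lf (nat_lit 0) (nat_lit 1473544114) (nat_lit 760) (nat_lit 311859158) (nat_lit 76) (nat_lit 6544468970) (nat_lit 235) (nat_lit 5) (nat_lit 245) (nat_lit 5) (nat_lit 236) (nat_lit 5) (nat_lit 438) (nat_lit 366) (nat_lit 336)) (XT.lf (nat_lit 0) (nat_lit 4477644217) (nat_lit 684) (nat_lit 3031856843) (nat_lit 76) (nat_lit 893915895) (nat_lit 227) (nat_lit 5) (nat_lit 236) (nat_lit 5) (nat_lit 228) (nat_lit 5) (nat_lit 439) (nat_lit 366) (nat_lit 335))) (XT.nd (nat_lit 78) (nat_lit 608) (nat_lit 0) (XT.lf (nat_lit 0) (nat_lit 2658808860) (nat_lit 608) (nat_lit 4867253998) (nat_lit 684) (nat_lit 952710330) (nat_lit 219) (nat_lit 5) (nat_lit 227)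 (nat_lit 5) (nat_lit 228) (nat_lit 5) (nat_lit 440) (nat_lit 366) (nat_lit 334)) (XT.nd (nat_lit 78) (nat_lit 532) (nat_lit 0) (XT.lf (nat_lit 0) (nat_lit 2026269753) (nat_lit 684) (nat_lit 123450348) (nat_lit 76) (nat_lit 6406196078) (nat_lit 218) (nat_lit 5) (nat_lit 227) (nat_lit 5) (nat_lit 219) (nat_lit 5) (nat_lit 441) (nat_lit 366) (nat_lit 333)) (XT.lf (nat_lit 0) (nat_lit 5047495695) (nat_lit 608) (nat_lit 2941327078) (nat_lit 76) (nat_lit 645768744) (nat_lit 211) (nat_lit 5) (nat_lit 219) (nat_lit 5) (nat_lit 212) (nat_lit 5) (nat_lit 442) (nat_lit 366) (nat_lit 332))))) (XT.nd (nat_lit 156) (nat_lit 1140) (nat_lit 0) (XT.nd (nat_lit 78) (nat_lit 76) (nat_lit 0) (XT.lf (nat_lit 0) (nat_lit 2878389548) (nat_lit 608) (nat_lit 5239132547) (nat_lit 684) (nat_lit 597574174) (nat_lit 203) (nat_lit 5) (nat_lit 211) (nat_lit 5) (nat_lit 212) (nat_lit 5) (nat_lit 443) (nat_lit 366) (nat_lit 331)) (XT.lf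 (nat_lit 0) (nat_lit 2394262687) (nat_lit 684) (nat_lit 17016170) (nat_lit 76) (nat_lit 6386142816) (nat_lit 202) (nat_lit 5) (nat_lit 211) (nat_lit 5) (nat_lit 203) (nat_lit 5) (nat_lit 444) (nat_lit 366) (nat_lit 330))) (XT.nd (nat_lit 78) (nat_lit 608) (nat_lit 0) (XT.lf (nat_lit 0) (nat_lit 5435445684) (nat_lit 608) (nat_lit 2949137542) (nat_lit 76) (nat_lit 496803217) (nat_lit 195) (nat_lit 5) (nat_lit 203) (nat_lit 5) (nat_lit 196) (nat_lit 5) (nat_lit 445) (nat_lit 366) (nat_lit 329)) (XT.nd (nat_lit 78) (nat_lit 76) (nat_lit 0) (XT.lf (nat_lit 0) (nat_lit 2999259161) (nat_lit 532) (nat_lit 5529860254) (nat_lit 608) (nat_lit 438099395) (nat_lit 188) (nat_lit 5) (nat_lit 195) (nat_lit 5) (nat_lit 196) (nat_lit 5) (nat_lit 446) (nat_lit 366) (nat_lit 328)) (XT.lf (nat_lit 0) (nat_lit 2571618092) (nat_lit 608) (nat_lit 23008241) (nat_lit 76) (nat_lit 6460296576) (nat_lit 187) (nat_lit 5) (nat_lit 195)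 (nat_lit 5) (nat_lit 188) (nat_lit 5) (nat_lit 447) (nat_lit 366) (nat_lit 327)))))) (XT.nd (nat_lit 390) (nat_lit 1900) (nat_lit 0) (XT.nd (nat_lit 156) (nat_lit 988) (nat_lit 0) (XT.nd (nat_lit 78) (nat_lit 532) (nat_lit 0) (XT.lf (nat_lit 0) (nat_lit 5634946152) (nat_lit 608) (nat_lit 3086661340) (nat_lit 76) (nat_lit 422750429) (nat_lit 180) (nat_lit 5) (nat_lit 188) (nat_lit 5) (nat_lit 181) (nat_lit 5) (nat_lit 448) (nat_lit 366) (nat_lit 326)) (XT.lf (nat_lit 0) (nat_lit 2989478498) (nat_lit 532) (nat_lit 5764338476) (nat_lit 608) (nat_lit 481899129) (nat_lit 173) (nat_lit 5) (nat_lit 180) (nat_lit 5) (nat_lit 181) (nat_lit 5) (nat_lit 449) (nat_lit 366) (nat_lit 325))) (XT.nd (nat_lit 78) (nat_lit 912) (nat_lit 0) (XT.lf (nat_lit 0) (nat_lit 2550527590) (nat_lit 608) (nat_lit 174062086) (nat_lit 76) (nat_lit 6604421691) (nat_lit 172) (nat_lit 5) (nat_lit 180) (nat_lit 5) (nat_lit 173) (nat_lit 5)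 (nat_lit 450) (nat_lit 366) (nat_lit 324)) (XT.nd (nat_lit 78) (nat_lit 456) (nat_lit 0) (XT.lf (nat_lit 0) (nat_lit 5637515156) (nat_lit 532) (nat_lit 3387598172) (nat_lit 76) (nat_lit 399007044) (nat_lit 166) (nat_lit 5) (nat_lit 173) (nat_lit 5) (nat_lit 167) (nat_lit 5) (nat_lit 451) (nat_lit 366) (nat_lit 323)) (XT.lf (nat_lit 0) (nat_lit 2814691305) (nat_lit 456) (nat_lit 5967921267) (nat_lit 532) (nat_lit 738610055) (nat_lit 160) (nat_lit 5) (nat_lit 166) (nat_lit 5) (nat_lit 167) (nat_lit 5) (nat_lit 452) (nat_lit 366) (nat_lit 322))))) (XT.nd (nat_lit 234) (nat_lit 912) (nat_lit 0) (XT.nd (nat_lit 78) (nat_lit 912) (nat_lit 0) (XT.lf (nat_lit 0) (nat_lit 2321169525) (nat_lit 532) (nat_lit 505337191) (nat_lit 76) (nat_lit 6793831928) (nat_lit 159) (nat_lit 5) (nat_lit 166) (nat_lit 5) (nat_lit 160) (nat_lit 5) (nat_lit 453) (nat_lit 366) (nat_lit 321)) (XT.nd (nat_lit 78) (nat_lit 456) (nat_lit 0)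 (XT.lf (nat_lit 0) (nat_lit 5432619762) (nat_lit 532) (nat_lit 3888325183) (nat_lit 76) (nat_lit 400404499) (nat_lit 153) (nat_lit 5) (nat_lit 160) (nat_lit 5) (nat_lit 154) (nat_lit 5) (nat_lit 454) (nat_lit 366) (nat_lit 320)) (XT.lf (nat_lit 0) (nat_lit 2437763680) (nat_lit 456) (nat_lit 6166652904) (nat_lit 532) (nat_lit 1220018589) (nat_lit 147) (nat_lit 5) (nat_lit 153) (nat_lit 5) (nat_lit 154) (nat_lit 5) (nat_lit 455) (nat_lit 366) (nat_lit 319)))) (XT.nd (nat_lit 78) (nat_lit 836) (nat_lit 0) (XT.lf (nat_lit 0) (nat_lit 1871580658) (nat_lit 532) (nat_lit 1054885205) (nat_lit 76) (nat_lit 7003153832) (nat_lit 146) (nat_lit 5) (nat_lit 153) (nat_lit 5) (nat_lit 147) (nat_lit 5) (nat_lit 456) (nat_lit 366) (nat_lit 318)) (XT.nd (nat_lit 78) (nat_lit 456) (nat_lit 0) (XT.lf (nat_lit 0) (nat_lit 5007539893) (nat_lit 456) (nat_lit 4628277340) (nat_lit 76) (nat_lit 400968189) (nat_lit 141) (nat_lit 5)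 (nat_lit 147) (nat_lit 5) (nat_lit 142) (nat_lit 5) (nat_lit 457) (nat_lit 366) (nat_lit 317)) (XT.lf (nat_lit 0) (nat_lit 1818392838) (nat_lit 456) (nat_lit 6387516531) (nat_lit 532) (nat_lit 1940207039) (nat_lit 135) (nat_lit 5) (nat_lit 141) (nat_lit 5) (nat_lit 142) (nat_lit 5) (nat_lit 458) (nat_lit 366) (nat_lit 316))))))))
noncomputable def xc61 : XT := (XT.nd (nat_lit 1560) (nat_lit 2812) (nat_lit 0) (XT.nd (nat_lit 780) (nat_lit 1976) (nat_lit 0) (XT.nd (nat_lit 390) (nat_lit 1140) (nat_lit 0) (XT.nd (nat_lit 156) (nat_lit 836) (nat_lit 0) (XT.nd (nat_lit 78) (nat_lit 380) (nat_lit 0) (XT.lf (nat_lit 0) (nat_lit 1187507890) (nat_lit 532) (nat_lit 1864049807) (nat_lit 76) (nat_lit 7206078808) (nat_lit 134) (nat_lit 5) (nat_lit 141) (nat_lit 5) (nat_lit 135) (nat_lit 5) (nat_lit 459) (nat_lit 366) (nat_lit 315)) (XT.lf (nat_lit 0) (nat_lit 4347211618) (nat_lit 456) (nat_lit 5650361027) (nat_lit 76)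 (nat_lit 373664442) (nat_lit 129) (nat_lit 5) (nat_lit 135) (nat_lit 5) (nat_lit 130) (nat_lit 5) (nat_lit 460) (nat_lit 366) (nat_lit 314))) (XT.nd (nat_lit 78) (nat_lit 456) (nat_lit 0) (XT.lf (nat_lit 0) (nat_lit 912681441) (nat_lit 380) (nat_lit 6658696141) (nat_lit 456) (nat_lit 2915721301) (nat_lit 124) (nat_lit 5) (nat_lit 129) (nat_lit 5) (nat_lit 130) (nat_lit 5) (nat_lit 461) (nat_lit 366) (nat_lit 313)) (XT.nd (nat_lit 78) (nat_lit 380) (nat_lit 0) (XT.lf (nat_lit 0) (nat_lit 252238411) (nat_lit 456) (nat_lit 2977902103) (nat_lit 76) (nat_lit 7375101709) (nat_lit 123) (nat_lit 5) (nat_lit 129) (nat_lit 5) (nat_lit 124) (nat_lit 5) (nat_lit 462) (nat_lit 366) (nat_lit 312)) (XT.lf (nat_lit 0) (nat_lit 3434048215) (nat_lit 456) (nat_lit 7001404838) (nat_lit 76) (nat_lit 290132996) (nat_lit 118) (nat_lit 5) (nat_lit 124) (nat_lit 5) (nat_lit 119) (nat_lit 5) (nat_lit 463) (nat_lit 366) (nat_lit 311)))))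 (XT.nd (nat_lit 156) (nat_lit 760) (nat_lit 0) (XT.nd (nat_lit 78) (nat_lit 380) (nat_lit 0) (XT.lf (nat_lit 0) (nat_lit 6684652898) (nat_lit 456) (nat_lit 323033666) (nat_lit 76) (nat_lit 3840560470) (nat_lit 118) (nat_lit 5) (nat_lit 124) (nat_lit 5) (nat_lit 119) (nat_lit 5) (nat_lit 464) (nat_lit 366) (nat_lit 310)) (XT.lf (nat_lit 0) (nat_lit 6521250916) (nat_lit 380) (nat_lit 3485723157) (nat_lit 456) (nat_lit 966266270) (nat_lit 113) (nat_lit 5) (nat_lit 118) (nat_lit 5) (nat_lit 119) (nat_lit 5) (nat_lit 465) (nat_lit 366) (nat_lit 309))) (XT.nd (nat_lit 78) (nat_lit 380) (nat_lit 0) (XT.lf (nat_lit 0) (nat_lit 2247737122) (nat_lit 380) (nat_lit 8732651968) (nat_lit 76) (nat_lit 120402526) (nat_lit 108) (nat_lit 5) (nat_lit 113) (nat_lit 5) (nat_lit 109) (nat_lit 5) (nat_lit 466) (nat_lit 366) (nat_lit 308)) (XT.nd (nat_lit 78) (nat_lit 380) (nat_lit 0) (XT.lf (nat_lit 0) (nat_lit 5530962298) (nat_lit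 380) (nat_lit 1928524390) (nat_lit 76) (nat_lit 3770934316) (nat_lit 108) (nat_lit 5) (nat_lit 113) (nat_lit 5) (nat_lit 109) (nat_lit 5) (nat_lit 467) (nat_lit 366) (nat_lit 307)) (XT.lf (nat_lit 0) (nat_lit 5025074860) (nat_lit 380) (nat_lit 3852805811) (nat_lit 456) (nat_lit 2484813923) (nat_lit 103) (nat_lit 5) (nat_lit 108) (nat_lit 5) (nat_lit 109) (nat_lit 5) (nat_lit 468) (nat_lit 366) (nat_lit 306)))))) (XT.nd (nat_lit 390) (nat_lit 912) (nat_lit 0) (XT.nd (nat_lit 156) (nat_lit 684) (nat_lit 0) (XT.nd (nat_lit 78) (nat_lit 0) (nat_lit 0) (XT.lf (nat_lit 0) (nat_lit 596473807) (nat_lit 304) (nat_lit 169638263) (nat_lit 380) (nat_lit 10731762113) (nat_lit 98) (nat_lit 5) (nat_lit 102) (nat_lit 5) (nat_lit 103) (nat_lit 5) (nat_lit 469) (nat_lit 366) (nat_lit 305)) (XT.lf (nat_lit 0) (nat_lit 4080639573) (nat_lit 380) (nat_lit 3972648179) (nat_lit 76) (nat_lit 3581515509) (nat_lit 98) (nat_lit 5)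 (nat_lit 103) (nat_lit 5) (nat_lit 99) (nat_lit 5) (nat_lit 470) (nat_lit 366) (nat_lit 304))) (XT.nd (nat_lit 78) (nat_lit 380) (nat_lit 0) (XT.lf (nat_lit 0) (nat_lit 3082144277) (nat_lit 304) (nat_lit 4366842911) (nat_lit 380) (nat_lit 4325744404) (nat_lit 94) (nat_lit 5) (nat_lit 98) (nat_lit 5) (nat_lit 99) (nat_lit 5) (nat_lit 471) (nat_lit 366) (nat_lit 303)) (XT.nd (nat_lit 78) (nat_lit 380) (nat_lit 0) (XT.lf (nat_lit 0) (nat_lit 10280389662) (nat_lit 304) (nat_lit 597690055) (nat_lit 380) (nat_lit 1039522250) (nat_lit 94) (nat_lit 5) (nat_lit 98) (nat_lit 5) (nat_lit 99) (nat_lit 5) (nat_lit 472) (nat_lit 366) (nat_lit 302)) (XT.lf (nat_lit 0) (nat_lit 2306684073) (nat_lit 380) (nat_lit 6517947416) (nat_lit 76) (nat_lit 3237916842) (nat_lit 89) (nat_lit 5) (nat_lit 94) (nat_lit 5) (nat_lit 90) (nat_lit 5) (nat_lit 473) (nat_lit 366) (nat_lit 301))))) (XT.nd (nat_lit 156) (nat_lit 608) (nat_lit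 0) (XT.nd (nat_lit 78) (nat_lit 0) (nat_lit 0) (XT.lf (nat_lit 0) (nat_lit 628254141) (nat_lit 304) (nat_lit 5064094438) (nat_lit 380) (nat_lit 6518188957) (nat_lit 85) (nat_lit 5) (nat_lit 89) (nat_lit 5) (nat_lit 90) (nat_lit 5) (nat_lit 474) (nat_lit 366) (nat_lit 300)) (XT.lf (nat_lit 0) (nat_lit 7954929017) (nat_lit 304) (nat_lit 1202190367) (nat_lit 380) (nat_lit 3204149479) (nat_lit 85) (nat_lit 5) (nat_lit 89) (nat_lit 5) (nat_lit 90) (nat_lit 5) (nat_lit 475) (nat_lit 366) (nat_lit 299))) (XT.nd (nat_lit 78) (nat_lit 304) (nat_lit 0) (XT.lf (nat_lit 0) (nat_lit 178539487) (nat_lit 304) (nat_lit 9633278795) (nat_lit 76) (nat_lit 2703089876) (nat_lit 81) (nat_lit 5) (nat_lit 85) (nat_lit 5) (nat_lit 82) (nat_lit 5) (nat_lit 476) (nat_lit 366) (nat_lit 298)) (XT.nd (nat_lit 78) (nat_lit 304) (nat_lit 0) (XT.lf (nat_lit 0) (nat_lit 3591996848) (nat_lit 304) (nat_lit 2375752876) (nat_lit 76) (nat_lit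 6703336171) (nat_lit 81) (nat_lit 5) (nat_lit 85) (nat_lit 5) (nat_lit 82) (nat_lit 5) (nat_lit 477) (nat_lit 366) (nat_lit 297)) (XT.lf (nat_lit 0) (nat_lit 5043626342) (nat_lit 304) (nat_lit 2031717960) (nat_lit 380) (nat_lit 5755019890) (nat_lit 77) (nat_lit 5) (nat_lit 81) (nat_lit 5) (nat_lit 82) (nat_lit 5) (nat_lit 478) (nat_lit 366) (nat_lit 296))))))) (XT.nd (nat_lit 780) (nat_lit 1368) (nat_lit 0) (XT.nd (nat_lit 390) (nat_lit 608) (nat_lit 0) (XT.nd (nat_lit 156) (nat_lit 532) (nat_lit 0) (XT.nd (nat_lit 78) (nat_lit 304) (nat_lit 0) (XT.lf (nat_lit 0) (nat_lit 10626329053) (nat_lit 380) (nat_lit 411520042) (nat_lit 76) (nat_lit 1955028787) (nat_lit 77) (nat_lit 5) (nat_lit 82) (nat_lit 5) (nat_lit 78) (nat_lit 5) (nat_lit 479) (nat_lit 366) (nat_lit 295)) (XT.lf (nat_lit 0) (nat_lit 1105071134) (nat_lit 304) (nat_lit 6022559748) (nat_lit 76) (nat_lit 6030284924) (nat_lit 73) (nat_lit 5) (nat_lit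 77) (nat_lit 5) (nat_lit 74) (nat_lit 5) (nat_lit 480) (nat_lit 366) (nat_lit 294))) (XT.nd (nat_lit 78) (nat_lit 228) (nat_lit 0) (XT.lf (nat_lit 0) (nat_lit 1467357523) (nat_lit 304) (nat_lit 3129141668) (nat_lit 380) (nat_lit 8729809866) (nat_lit 69) (nat_lit 5) (nat_lit 73) (nat_lit 5) (nat_lit 74) (nat_lit 5) (nat_lit 481) (nat_lit 366) (nat_lit 293)) (XT.nd (nat_lit 78) (nat_lit 228) (nat_lit 0) (XT.lf (nat_lit 0) (nat_lit 8174488414) (nat_lit 380) (nat_lit 4363895675) (nat_lit 76) (nat_lit 959359967) (nat_lit 69) (nat_lit 5) (nat_lit 74) (nat_lit 5) (nat_lit 70) (nat_lit 5) (nat_lit 482) (nat_lit 366) (nat_lit 292)) (XT.lf (nat_lit 0) (nat_lit 3255075417) (nat_lit 228) (nat_lit 8581296173) (nat_lit 304) (nat_lit 1835997846) (nat_lit 66) (nat_lit 5) (nat_lit 69) (nat_lit 5) (nat_lit 70) (nat_lit 5) (nat_lit 483) (nat_lit 366) (nat_lit 291))))) (XT.nd (nat_lit 156) (nat_lit 304) (nat_lit 0) (XT.nd (nat_lit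 78) (nat_lit 228) (nat_lit 0) (XT.lf (nat_lit 0) (nat_lit 1698456806) (nat_lit 304) (nat_lit 2823727784) (nat_lit 76) (nat_lit 9328086838) (nat_lit 65) (nat_lit 5) (nat_lit 69) (nat_lit 5) (nat_lit 66) (nat_lit 5) (nat_lit 484) (nat_lit 366) (nat_lit 290)) (XT.lf (nat_lit 0) (nat_lit 4927074248) (nat_lit 228) (nat_lit 355077675) (nat_lit 304) (nat_lit 8749281992) (nat_lit 62) (nat_lit 5) (nat_lit 65) (nat_lit 5) (nat_lit 66) (nat_lit 5) (nat_lit 485) (nat_lit 366) (nat_lit 289))) (XT.nd (nat_lit 78) (nat_lit 304) (nat_lit 0) (XT.lf (nat_lit 0) (nat_lit 8953153515) (nat_lit 304) (nat_lit 1417337078) (nat_lit 76) (nat_lit 3845424139) (nat_lit 62) (nat_lit 5) (nat_lit 66) (nat_lit 5) (nat_lit 63) (nat_lit 5) (nat_lit 486) (nat_lit 366) (nat_lit 288)) (XT.nd (nat_lit 78) (nat_lit 76) (nat_lit 0) (XT.lf (nat_lit 0) (nat_lit 6459469729) (nat_lit 228) (nat_lit 6254226515) (nat_lit 304) (nat_lit 1690074074) (nat_lit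 59) (nat_lit 5) (nat_lit 62) (nat_lit 5) (nat_lit 63) (nat_lit 5) (nat_lit 487) (nat_lit 366) (nat_lit 287)) (XT.lf (nat_lit 0) (nat_lit 1909904742) (nat_lit 304) (nat_lit 141315742) (nat_lit 76) (nat_lit 12544286755) (nat_lit 58) (nat_lit 5) (nat_lit 62) (nat_lit 5) (nat_lit 59) (nat_lit 5) (nat_lit 488) (nat_lit 366) (nat_lit 286)))))) (XT.nd (nat_lit 390) (nat_lit 608) (nat_lit 0) (XT.nd (nat_lit 156) (nat_lit 304) (nat_lit 0) (XT.nd (nat_lit 78) (nat_lit 228) (nat_lit 0) (XT.lf (nat_lit 0) (nat_lit 5597589108) (nat_lit 304) (nat_lit 6941016225) (nat_lit 76) (nat_lit 2251490559) (nat_lit 55) (nat_lit 5) (nat_lit 59) (nat_lit 5) (nat_lit 56) (nat_lit 5) (nat_lit 489) (nat_lit 366) (nat_lit 285)) (XT.lf (nat_lit 0) (nat_lit 966095190) (nat_lit 228) (nat_lit 8386317127) (nat_lit 304) (nat_lit 5636303296) (nat_lit 52) (nat_lit 5) (nat_lit 55) (nat_lit 5) (nat_lit 56) (nat_lit 5) (nat_lit 490) (nat_lit 366)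 (nat_lit 284))) (XT.nd (nat_lit 78) (nat_lit 304) (nat_lit 0) (XT.lf (nat_lit 0) (nat_lit 9080110302) (nat_lit 228) (nat_lit 4121616848) (nat_lit 304) (nat_lit 1989199541) (nat_lit 52) (nat_lit 5) (nat_lit 55) (nat_lit 5) (nat_lit 56) (nat_lit 5) (nat_lit 491) (nat_lit 366) (nat_lit 283)) (XT.nd (nat_lit 78) (nat_lit 0) (nat_lit 0) (XT.lf (nat_lit 0) (nat_lit 1695357502) (nat_lit 304) (nat_lit 13470295555) (nat_lit 76) (nat_lit 231566539) (nat_lit 48) (nat_lit 5) (nat_lit 52) (nat_lit 5) (nat_lit 49) (nat_lit 5) (nat_lit 492) (nat_lit 366) (nat_lit 282)) (XT.lf (nat_lit 0) (nat_lit 5468857085) (nat_lit 304) (nat_lit 5484233413) (nat_lit 76) (nat_lit 4653453623) (nat_lit 48) (nat_lit 5) (nat_lit 52) (nat_lit 5) (nat_lit 49) (nat_lit 5) (nat_lit 493) (nat_lit 366) (nat_lit 281))))) (XT.nd (nat_lit 234) (nat_lit 152) (nat_lit 0) (XT.nd (nat_lit 78) (nat_lit 304) (nat_lit 0) (XT.lf (nat_lit 0) (nat_lit 2652288503)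 (nat_lit 152) (nat_lit 6656570379) (nat_lit 228) (nat_lit 6511381949) (nat_lit 46) (nat_lit 5) (nat_lit 48) (nat_lit 5) (nat_lit 49) (nat_lit 5) (nat_lit 494) (nat_lit 366) (nat_lit 280)) (XT.nd (nat_lit 78) (nat_lit 304) (nat_lit 0) (XT.lf (nat_lit 0) (nat_lit 10982124157) (nat_lit 152) (nat_lit 2254379853) (nat_lit 228) (nat_lit 2801496815) (nat_lit 46) (nat_lit 5) (nat_lit 48) (nat_lit 5) (nat_lit 49) (nat_lit 5) (nat_lit 495) (nat_lit 366) (nat_lit 279)) (XT.lf (nat_lit 0) (nat_lit 979504894) (nat_lit 304) (nat_lit 13063745161) (nat_lit 76) (nat_lit 2216548234) (nat_lit 42) (nat_lit 5) (nat_lit 46) (nat_lit 5) (nat_lit 43) (nat_lit 5) (nat_lit 496) (nat_lit 366) (nat_lit 278)))) (XT.nd (nat_lit 78) (nat_lit 152) (nat_lit 0) (XT.lf (nat_lit 0) (nat_lit 4822216747) (nat_lit 304) (nat_lit 4880866013) (nat_lit 76) (nat_lit 6782112400) (nat_lit 42) (nat_lit 5) (nat_lit 46) (nat_lit 5) (nat_lit 43) (nat_lit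 5) (nat_lit 497) (nat_lit 366) (nat_lit 277)) (XT.nd (nat_lit 78) (nat_lit 0) (nat_lit 0) (XT.lf (nat_lit 0) (nat_lit 3468652115) (nat_lit 152) (nat_lit 5270636941) (nat_lit 228) (nat_lit 7975866530) (nat_lit 40) (nat_lit 5) (nat_lit 42) (nat_lit 5) (nat_lit 43) (nat_lit 5) (nat_lit 498) (nat_lit 366) (nat_lit 276)) (XT.lf (nat_lit 0) (nat_lit 12009091105) (nat_lit 152) (nat_lit 733566605) (nat_lit 228) (nat_lit 4206904040) (nat_lit 40) (nat_lit 5) (nat_lit 42) (nat_lit 5) (nat_lit 43) (nat_lit 5) (nat_lit 499) (nat_lit 366) (nat_lit 275))))))))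
noncomputable def xc62 : XT := (XT.nd (nat_lit 53118) (nat_lit 0) (nat_lit 14364) (XT.nd (nat_lit 52338) (nat_lit 0) (nat_lit 25308) (XT.nd (nat_lit 390) (nat_lit 76) (nat_lit 0) (XT.nd (nat_lit 156) (nat_lit 380) (nat_lit 0) (XT.nd (nat_lit 78) (nat_lit 76) (nat_lit 0) (XT.lf (nat_lit 0) (nat_lit 3510658061) (nat_lit 228) (nat_lit 13339090217) (nat_lit 304) (nat_lit 338440191) (nat_lit 37) (nat_lit 5) (nat_lit 40) (nat_lit 5) (nat_lit 41) (nat_lit 5) (nat_lit 500) (nat_lit 366) (nat_lit 274)) (XT.lf (nat_lit 0) (nat_lit 3573932779) (nat_lit 304) (nat_lit 5303483201) (nat_lit 76) (nat_lit 8553431587) (nat_lit 36) (nat_lit 5) (nat_lit 40) (nat_lit 5) (nat_lit 37) (nat_lit 5) (nat_lit 501) (nat_lit 366) (nat_lit 273))) (XT.nd (nat_lit 78) (nat_lit 228) (nat_lit 0) (XT.lf (nat_lit 0) (nat_lit 3237242939) (nat_lit 152) (nat_lit 4319899827) (nat_lit 228) (nat_lit 10121235113) (nat_lit 34) (nat_lit 5) (nat_lit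 36) (nat_lit 5) (nat_lit 37) (nat_lit 5) (nat_lit 502) (nat_lit 366) (nat_lit 272)) (XT.nd (nat_lit 78) (nat_lit 228) (nat_lit 0) (XT.lf (nat_lit 0) (nat_lit 11634168471) (nat_lit 228) (nat_lit 5952959759) (nat_lit 76) (nat_lit 343452638) (nat_lit 34) (nat_lit 5) (nat_lit 37) (nat_lit 5) (nat_lit 35) (nat_lit 5) (nat_lit 503) (nat_lit 366) (nat_lit 271)) (XT.lf (nat_lit 0) (nat_lit 2671092177) (nat_lit 228) (nat_lit 13144252537) (nat_lit 304) (nat_lit 2372036001) (nat_lit 31) (nat_lit 5) (nat_lit 34) (nat_lit 5) (nat_lit 35) (nat_lit 5) (nat_lit 504) (nat_lit 366) (nat_lit 270))))) (XT.nd (nat_lit 51714) (nat_lit 0) (nat_lit 36328) (XT.nd (nat_lit 51636) (nat_lit 0) (nat_lit 38760) (XT.lf (nat_lit 0) (nat_lit 1626349847) (nat_lit 304) (nat_lit 6951410757) (nat_lit 76) (nat_lit 9871010780) (nat_lit 30) (nat_lit 5) (nat_lit 34) (nat_lit 5) (nat_lit 31) (nat_lit 5) (nat_lit 505) (nat_lit 366) (nat_lit 269))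 (XT.lf (nat_lit 0) (nat_lit 894957762) (nat_lit 1140) (nat_lit 1599715825) (nat_lit 0) (nat_lit 894957762) (nat_lit 540) (nat_lit 5) (nat_lit 555) (nat_lit 4) (nat_lit 540) (nat_lit 4) (nat_lit 406) (nat_lit 367) (nat_lit 367))) (XT.nd (nat_lit 78) (nat_lit 1292) (nat_lit 0) (XT.lf (nat_lit 0) (nat_lit 1134295578) (nat_lit 1140) (nat_lit 3841205676) (nat_lit 1140) (nat_lit 1830684489) (nat_lit 525) (nat_lit 4) (nat_lit 540) (nat_lit 5) (nat_lit 540) (nat_lit 4) (nat_lit 407) (nat_lit 367) (nat_lit 366)) (XT.nd (nat_lit 78) (nat_lit 1216) (nat_lit 0) (XT.lf (nat_lit 0) (nat_lit 1325971165) (nat_lit 1216) (nat_lit 1303158635) (nat_lit 76) (nat_lit 4205334926) (nat_lit 524) (nat_lit 5) (nat_lit 540) (nat_lit 5) (nat_lit 525) (nat_lit 4) (nat_lit 408) (nat_lit 367) (nat_lit 365)) (XT.lf (nat_lit 0) (nat_lit 3124117932) (nat_lit 1216) (nat_lit 1350232820) (nat_lit 1292) (nat_lit 2389712701) (nat_lit 508) (nat_lit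 5) (nat_lit 524) (nat_lit 5) (nat_lit 525) (nat_lit 4) (nat_lit 409) (nat_lit 367) (nat_lit 364)))))) (XT.nd (nat_lit 390) (nat_lit 6764) (nat_lit 0) (XT.nd (nat_lit 156) (nat_lit 2888) (nat_lit 0) (XT.nd (nat_lit 78) (nat_lit 0) (nat_lit 0) (XT.lf (nat_lit 0) (nat_lit 709389862) (nat_lit 1292) (nat_lit 18330059) (nat_lit 1368) (nat_lit 6167554333) (nat_lit 490) (nat_lit 5) (nat_lit 507) (nat_lit 5) (nat_lit 508) (nat_lit 5) (nat_lit 410) (nat_lit 367) (nat_lit 363)) (XT.lf (nat_lit 0) (nat_lit 3843729939) (nat_lit 1368) (nat_lit 1712175726) (nat_lit 76) (nat_lit 1371578041) (nat_lit 490) (nat_lit 5) (nat_lit 508) (nat_lit 5) (nat_lit 491) (nat_lit 4) (nat_lit 411) (nat_lit 367) (nat_lit 362))) (XT.nd (nat_lit 78) (nat_lit 1444) (nat_lit 0) (XT.lf (nat_lit 0) (nat_lit 14572417) (nat_lit 1444) (nat_lit 4131526829) (nat_lit 76) (nat_lit 2815209666) (nat_lit 471) (nat_lit 5) (nat_lit 490) (nat_lit 5) (nat_lit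 472) (nat_lit 5) (nat_lit 412) (nat_lit 367) (nat_lit 361)) (XT.nd (nat_lit 78) (nat_lit 0) (nat_lit 0) (XT.lf (nat_lit 0) (nat_lit 416530845) (nat_lit 1444) (nat_lit 2667289616) (nat_lit 1520) (nat_lit 3912629282) (nat_lit 452) (nat_lit 5) (nat_lit 471) (nat_lit 5) (nat_lit 472) (nat_lit 5) (nat_lit 413) (nat_lit 367) (nat_lit 360)) (XT.lf (nat_lit 0) (nat_lit 5053298462) (nat_lit 1444) (nat_lit 1125695726) (nat_lit 1520) (nat_lit 854059103) (nat_lit 452) (nat_lit 5) (nat_lit 471) (nat_lit 5) (nat_lit 472) (nat_lit 5) (nat_lit 414) (nat_lit 367) (nat_lit 359))))) (XT.nd (nat_lit 156) (nat_lit 3572) (nat_lit 0) (XT.nd (nat_lit 78) (nat_lit 1596) (nat_lit 0) (XT.lf (nat_lit 0) (nat_lit 2194071323) (nat_lit 1596) (nat_lit 4399394133) (nat_lit 76) (nat_lit 477515919) (nat_lit 431) (nat_lit 5) (nat_lit 452) (nat_lit 5) (nat_lit 432) (nat_lit 5) (nat_lit 415) (nat_lit 367) (nat_lit 358)) (XT.lf (nat_lit 0) (nat_lit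 264749295) (nat_lit 1596) (nat_lit 4988007742) (nat_lit 1672) (nat_lit 1857625295) (nat_lit 410) (nat_lit 5) (nat_lit 431) (nat_lit 5) (nat_lit 432) (nat_lit 5) (nat_lit 416) (nat_lit 367) (nat_lit 357))) (XT.nd (nat_lit 78) (nat_lit 3496) (nat_lit 0) (XT.lf (nat_lit 0) (nat_lit 1174584593) (nat_lit 1672) (nat_lit 2135685108) (nat_lit 76) (nat_lit 3840817517) (nat_lit 409) (nat_lit 5) (nat_lit 431) (nat_lit 5) (nat_lit 410) (nat_lit 5) (nat_lit 417) (nat_lit 367) (nat_lit 356)) (XT.nd (nat_lit 78) (nat_lit 1824) (nat_lit 0) (XT.lf (nat_lit 0) (nat_lit 2632464335) (nat_lit 1672) (nat_lit 1567263753) (nat_lit 1748) (nat_lit 2993534311) (nat_lit 387) (nat_lit 5) (nat_lit 409) (nat_lit 5) (nat_lit 410) (nat_lit 5) (nat_lit 418) (nat_lit 367) (nat_lit 355)) (XT.lf (nat_lit 0) (nat_lit 6281859) (nat_lit 1824) (nat_lit 7005771645) (nat_lit 76) (nat_lit 225107840) (nat_lit 363) (nat_lit 5) (nat_lit 387) (nat_lit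 5) (nat_lit 364) (nat_lit 5) (nat_lit 419) (nat_lit 367) (nat_lit 354))))))) (XT.nd (nat_lit 780) (nat_lit 5700) (nat_lit 0) (XT.nd (nat_lit 390) (nat_lit 2432) (nat_lit 0) (XT.nd (nat_lit 156) (nat_lit 1900) (nat_lit 0) (XT.nd (nat_lit 78) (nat_lit 912) (nat_lit 0) (XT.lf (nat_lit 0) (nat_lit 3008441683) (nat_lit 1824) (nat_lit 2189997131) (nat_lit 76) (nat_lit 2083497529) (nat_lit 363) (nat_lit 5) (nat_lit 387) (nat_lit 5) (nat_lit 364) (nat_lit 5) (nat_lit 420) (nat_lit 367) (nat_lit 353)) (XT.lf (nat_lit 0) (nat_lit 2699151195) (nat_lit 912) (nat_lit 3331377028) (nat_lit 988) (nat_lit 1297922553) (nat_lit 351) (nat_lit 5) (nat_lit 363) (nat_lit 5) (nat_lit 364) (nat_lit 5) (nat_lit 421) (nat_lit 367) (nat_lit 352))) (XT.nd (nat_lit 78) (nat_lit 912) (nat_lit 0) (XT.lf (nat_lit 0) (nat_lit 273620113) (nat_lit 912) (nat_lit 1400023354) (nat_lit 988) (nat_lit 5702881128) (nat_lit 338) (nat_lit 5) (nat_lit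 350) (nat_lit 5) (nat_lit 351) (nat_lit 5) (nat_lit 422) (nat_lit 367) (nat_lit 351)) (XT.nd (nat_lit 78) (nat_lit 912) (nat_lit 0) (XT.lf (nat_lit 0) (nat_lit 4665677795) (nat_lit 988) (nat_lit 2159622085) (nat_lit 76) (nat_lit 600559307) (nat_lit 338) (nat_lit 5) (nat_lit 351) (nat_lit 5) (nat_lit 339) (nat_lit 5) (nat_lit 423) (nat_lit 367) (nat_lit 350)) (XT.lf (nat_lit 0) (nat_lit 210314062) (nat_lit 912) (nat_lit 4625857294) (nat_lit 76) (nat_lit 2640573305) (nat_lit 326) (nat_lit 5) (nat_lit 338) (nat_lit 5) (nat_lit 327) (nat_lit 5) (nat_lit 424) (nat_lit 367) (nat_lit 349))))) (XT.nd (nat_lit 156) (nat_lit 1596) (nat_lit 0) (XT.nd (nat_lit 78) (nat_lit 0) (nat_lit 0) (XT.lf (nat_lit 0) (nat_lit 390519768) (nat_lit 836) (nat_lit 2774748195) (nat_lit 912) (nat_lit 4363811780) (nat_lit 315) (nat_lit 5) (nat_lit 326) (nat_lit 5) (nat_lit 327) (nat_lit 5) (nat_lit 425) (nat_lit 367) (nat_lit 348)) (XT.lf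 (nat_lit 0) (nat_lit 5511565696) (nat_lit 836) (nat_lit 644348769) (nat_lit 912) (nat_lit 1427051410) (nat_lit 315) (nat_lit 5) (nat_lit 326) (nat_lit 5) (nat_lit 327) (nat_lit 5) (nat_lit 426) (nat_lit 367) (nat_lit 347))) (XT.nd (nat_lit 78) (nat_lit 760) (nat_lit 0) (XT.lf (nat_lit 0) (nat_lit 1524128903) (nat_lit 836) (nat_lit 4579330718) (nat_lit 76) (nat_lit 1534776150) (nat_lit 304) (nat_lit 5) (nat_lit 315) (nat_lit 5) (nat_lit 305) (nat_lit 5) (nat_lit 427) (nat_lit 367) (nat_lit 346)) (XT.nd (nat_lit 78) (nat_lit 0) (nat_lit 0) (XT.lf (nat_lit 0) (nat_lit 560448431) (nat_lit 760) (nat_lit 3923574137) (nat_lit 836) (nat_lit 3211058011) (nat_lit 294) (nat_lit 5) (nat_lit 304) (nat_lit 5) (nat_lit 305) (nat_lit 5) (nat_lit 428) (nat_lit 367) (nat_lit 345)) (XT.lf (nat_lit 0) (nat_lit 5806829356) (nat_lit 760) (nat_lit 1674559534) (nat_lit 836) (nat_lit 272141355) (nat_lit 294) (nat_lit 5) (nat_lit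 304) (nat_lit 5) (nat_lit 305) (nat_lit 5) (nat_lit 429) (nat_lit 367) (nat_lit 344)))))) (XT.nd (nat_lit 390) (nat_lit 2660) (nat_lit 0) (XT.nd (nat_lit 156) (nat_lit 1444) (nat_lit 0) (XT.nd (nat_lit 78) (nat_lit 760) (nat_lit 0) (XT.lf (nat_lit 0) (nat_lit 2663759842) (nat_lit 836) (nat_lit 4504778870) (nat_lit 76) (nat_lit 644809388) (nat_lit 283) (nat_lit 5) (nat_lit 294) (nat_lit 5) (nat_lit 284) (nat_lit 5) (nat_lit 430) (nat_lit 367) (nat_lit 343)) (XT.lf (nat_lit 0) (nat_lit 759738263) (nat_lit 760) (nat_lit 4872974916) (nat_lit 836) (nat_lit 2242085121) (nat_lit 273) (nat_lit 5) (nat_lit 283) (nat_lit 5) (nat_lit 284) (nat_lit 5) (nat_lit 431) (nat_lit 367) (nat_lit 342))) (XT.nd (nat_lit 78) (nat_lit 1368) (nat_lit 0) (XT.lf (nat_lit 0) (nat_lit 693571520) (nat_lit 836) (nat_lit 1809963309) (nat_lit 76) (nat_lit 5434289162) (nat_lit 272) (nat_lit 5) (nat_lit 283) (nat_lit 5) (nat_lit 273) (nat_lit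 5) (nat_lit 432) (nat_lit 367) (nat_lit 341)) (XT.nd (nat_lit 78) (nat_lit 684) (nat_lit 0) (XT.lf (nat_lit 0) (nat_lit 3575633641) (nat_lit 684) (nat_lit 55591873) (nat_lit 760) (nat_lit 4371151874) (nat_lit 263) (nat_lit 5) (nat_lit 272) (nat_lit 5) (nat_lit 273) (nat_lit 5) (nat_lit 433) (nat_lit 367) (nat_lit 340)) (XT.lf (nat_lit 0) (nat_lit 963976336) (nat_lit 684) (nat_lit 5648609959) (nat_lit 760) (nat_lit 1455965613) (nat_lit 254) (nat_lit 5) (nat_lit 263) (nat_lit 5) (nat_lit 264) (nat_lit 5) (nat_lit 434) (nat_lit 367) (nat_lit 339))))) (XT.nd (nat_lit 234) (nat_lit 1292) (nat_lit 0) (XT.nd (nat_lit 78) (nat_lit 1292) (nat_lit 0) (XT.lf (nat_lit 0) (nat_lit 1478751897) (nat_lit 760) (nat_lit 1681888370) (nat_lit 76) (nat_lit 4975617991) (nat_lit 253) (nat_lit 5) (nat_lit 263) (nat_lit 5) (nat_lit 254) (nat_lit 5) (nat_lit 435) (nat_lit 367) (nat_lit 338)) (XT.nd (nat_lit 78) (nat_lit 684) (nat_lit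 0) (XT.lf (nat_lit 0) (nat_lit 3832490492) (nat_lit 608) (nat_lit 596902187) (nat_lit 684) (nat_lit 3776226540) (nat_lit 245) (nat_lit 5) (nat_lit 253) (nat_lit 5) (nat_lit 254) (nat_lit 5) (nat_lit 436) (nat_lit 367) (nat_lit 337)) (XT.lf (nat_lit 0) (nat_lit 1147765076) (nat_lit 684) (nat_lit 6275533741) (nat_lit 760) (nat_lit 853410442) (nat_lit 236) (nat_lit 5) (nat_lit 245) (nat_lit 5) (nat_lit 246) (nat_lit 5) (nat_lit 437) (nat_lit 367) (nat_lit 336)))) (XT.nd (nat_lit 78) (nat_lit 1216) (nat_lit 0) (XT.lf (nat_lit 0) (nat_lit 2086007490) (nat_lit 760) (nat_lit 1586440700) (nat_lit 76) (nat_lit 4676801410) (nat_lit 235) (nat_lit 5) (nat_lit 245) (nat_lit 5) (nat_lit 236) (nat_lit 5) (nat_lit 438) (nat_lit 367) (nat_lit 335)) (XT.nd (nat_lit 78) (nat_lit 608) (nat_lit 0) (XT.lf (nat_lit 0) (nat_lit 4057416685) (nat_lit 608) (nat_lit 995213732) (nat_lit 684) (nat_lit 3370925992) (nat_lit 227) (nat_lit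 5) (nat_lit 235) (nat_lit 5) (nat_lit 236) (nat_lit 5) (nat_lit 439) (nat_lit 367) (nat_lit 334)) (XT.lf (nat_lit 0) (nat_lit 1284469081) (nat_lit 608) (nat_lit 6778405188) (nat_lit 684) (nat_lit 436814177) (nat_lit 219) (nat_lit 5) (nat_lit 227) (nat_lit 5) (nat_lit 228) (nat_lit 5) (nat_lit 440) (nat_lit 367) (nat_lit 333))))))))
noncomputable def xc63 : XT := (XT.nd (nat_lit 1638) (nat_lit 4560) (nat_lit 0) (XT.nd (nat_lit 780) (nat_lit 3268) (nat_lit 0) (XT.nd (nat_lit 390) (nat_lit 1748) (nat_lit 0) (XT.nd (nat_lit 156) (nat_lit 1216) (nat_lit 0) (XT.nd (nat_lit 78) (nat_lit 532) (nat_lit 0) (XT.lf (nat_lit 0) (nat_lit 2512711745) (nat_lit 684) (nat_lit 1550674582) (nat_lit 76) (nat_lit 4513843711) (nat_lit 218) (nat_lit 5) (nat_lit 227) (nat_lit 5) (nat_lit 219) (nat_lit 5) (nat_lit 441) (nat_lit 367) (nat_lit 332)) (XT.lf (nat_lit 0) (nat_lit 4222975227) (nat_lit 532) (nat_lit 1274896528) (nat_lit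 608) (nat_lit 3158766537) (nat_lit 211) (nat_lit 5) (nat_lit 218) (nat_lit 5) (nat_lit 219) (nat_lit 5) (nat_lit 442) (nat_lit 367) (nat_lit 331))) (XT.nd (nat_lit 78) (nat_lit 608) (nat_lit 0) (XT.lf (nat_lit 0) (nat_lit 1345945953) (nat_lit 608) (nat_lit 7181698815) (nat_lit 684) (nat_lit 210314714) (nat_lit 203) (nat_lit 5) (nat_lit 211) (nat_lit 5) (nat_lit 212) (nat_lit 5) (nat_lit 443) (nat_lit 367) (nat_lit 330)) (XT.nd (nat_lit 78) (nat_lit 532) (nat_lit 0) (XT.lf (nat_lit 0) (nat_lit 2754511117) (nat_lit 684) (nat_lit 1603240427) (nat_lit 76) (nat_lit 4462932625) (nat_lit 202) (nat_lit 5) (nat_lit 211) (nat_lit 5) (nat_lit 203) (nat_lit 5) (nat_lit 444) (nat_lit 367) (nat_lit 329)) (XT.lf (nat_lit 0) (nat_lit 4300062128) (nat_lit 532) (nat_lit 1460242645) (nat_lit 608) (nat_lit 3145062667) (nat_lit 195) (nat_lit 5) (nat_lit 202) (nat_lit 5) (nat_lit 203) (nat_lit 5) (nat_lit 445) (nat_lit 367) (nat_lit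 328))))) (XT.nd (nat_lit 156) (nat_lit 1140) (nat_lit 0) (XT.nd (nat_lit 78) (nat_lit 76) (nat_lit 0) (XT.lf (nat_lit 0) (nat_lit 1302258674) (nat_lit 532) (nat_lit 7509919332) (nat_lit 608) (nat_lit 179868317) (nat_lit 188) (nat_lit 5) (nat_lit 195) (nat_lit 5) (nat_lit 196) (nat_lit 5) (nat_lit 446) (nat_lit 367) (nat_lit 327)) (XT.lf (nat_lit 0) (nat_lit 2805247886) (nat_lit 608) (nat_lit 1774677403) (nat_lit 76) (nat_lit 4500225988) (nat_lit 187) (nat_lit 5) (nat_lit 195) (nat_lit 5) (nat_lit 188) (nat_lit 5) (nat_lit 447) (nat_lit 367) (nat_lit 326))) (XT.nd (nat_lit 78) (nat_lit 608) (nat_lit 0) (XT.lf (nat_lit 0) (nat_lit 4257606276) (nat_lit 532) (nat_lit 1575684050) (nat_lit 608) (nat_lit 3337011572) (nat_lit 180) (nat_lit 5) (nat_lit 187) (nat_lit 5) (nat_lit 188) (nat_lit 5) (nat_lit 448) (nat_lit 367) (nat_lit 325)) (XT.nd (nat_lit 78) (nat_lit 76) (nat_lit 0) (XT.lf (nat_lit 0) (nat_lit 1121366802)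 (nat_lit 532) (nat_lit 7787821541) (nat_lit 608) (nat_lit 353340900) (nat_lit 173) (nat_lit 5) (nat_lit 180) (nat_lit 5) (nat_lit 181) (nat_lit 5) (nat_lit 449) (nat_lit 367) (nat_lit 324)) (XT.lf (nat_lit 0) (nat_lit 2656866771) (nat_lit 608) (nat_lit 2097728043) (nat_lit 76) (nat_lit 4601632985) (nat_lit 172) (nat_lit 5) (nat_lit 180) (nat_lit 5) (nat_lit 173) (nat_lit 5) (nat_lit 450) (nat_lit 367) (nat_lit 323)))))) (XT.nd (nat_lit 390) (nat_lit 1368) (nat_lit 0) (XT.nd (nat_lit 156) (nat_lit 988) (nat_lit 0) (XT.nd (nat_lit 78) (nat_lit 456) (nat_lit 0) (XT.lf (nat_lit 0) (nat_lit 4062246440) (nat_lit 456) (nat_lit 1646016780) (nat_lit 532) (nat_lit 3743794550) (nat_lit 166) (nat_lit 5) (nat_lit 172) (nat_lit 5) (nat_lit 173) (nat_lit 5) (nat_lit 451) (nat_lit 367) (nat_lit 322)) (XT.lf (nat_lit 0) (nat_lit 768793581) (nat_lit 456) (nat_lit 8040637386) (nat_lit 532) (nat_lit 740616618) (nat_lit 160)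 (nat_lit 5) (nat_lit 166) (nat_lit 5) (nat_lit 167) (nat_lit 5) (nat_lit 452) (nat_lit 367) (nat_lit 321))) (XT.nd (nat_lit 78) (nat_lit 912) (nat_lit 0) (XT.lf (nat_lit 0) (nat_lit 2299304259) (nat_lit 532) (nat_lit 2607677825) (nat_lit 76) (nat_lit 4742588097) (nat_lit 159) (nat_lit 5) (nat_lit 166) (nat_lit 5) (nat_lit 160) (nat_lit 5) (nat_lit 453) (nat_lit 367) (nat_lit 320)) (XT.nd (nat_lit 78) (nat_lit 456) (nat_lit 0) (XT.lf (nat_lit 0) (nat_lit 3677982353) (nat_lit 456) (nat_lit 1696633377) (nat_lit 532) (nat_lit 4376696473) (nat_lit 153) (nat_lit 5) (nat_lit 159) (nat_lit 5) (nat_lit 160) (nat_lit 5) (nat_lit 454) (nat_lit 367) (nat_lit 319)) (XT.lf (nat_lit 0) (nat_lit 207265784) (nat_lit 456) (nat_lit 8294312147) (nat_lit 532) (nat_lit 1353724977) (nat_lit 147) (nat_lit 5) (nat_lit 153) (nat_lit 5) (nat_lit 154) (nat_lit 5) (nat_lit 455) (nat_lit 367) (nat_lit 318))))) (XT.nd (nat_lit 234) (nat_lit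 912) (nat_lit 0) (XT.nd (nat_lit 78) (nat_lit 380) (nat_lit 0) (XT.lf (nat_lit 0) (nat_lit 1720359408) (nat_lit 532) (nat_lit 3342722958) (nat_lit 76) (nat_lit 4897815757) (nat_lit 146) (nat_lit 5) (nat_lit 153) (nat_lit 5) (nat_lit 147) (nat_lit 5) (nat_lit 456) (nat_lit 367) (nat_lit 317)) (XT.nd (nat_lit 78) (nat_lit 0) (nat_lit 0) (XT.lf (nat_lit 0) (nat_lit 3065796516) (nat_lit 380) (nat_lit 1753765638) (nat_lit 456) (nat_lit 5249244631) (nat_lit 141) (nat_lit 5) (nat_lit 146) (nat_lit 5) (nat_lit 147) (nat_lit 5) (nat_lit 457) (nat_lit 367) (nat_lit 316)) (XT.lf (nat_lit 0) (nat_lit 7975994177) (nat_lit 456) (nat_lit 595759832) (nat_lit 76) (nat_lit 1607230162) (nat_lit 141) (nat_lit 5) (nat_lit 147) (nat_lit 5) (nat_lit 142) (nat_lit 5) (nat_lit 458) (nat_lit 367) (nat_lit 315)))) (XT.nd (nat_lit 78) (nat_lit 380) (nat_lit 0) (XT.lf (nat_lit 0) (nat_lit 905544728) (nat_lit 532) (nat_lit 4344369915)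 (nat_lit 76) (nat_lit 5041083636) (nat_lit 134) (nat_lit 5) (nat_lit 141) (nat_lit 5) (nat_lit 135) (nat_lit 5) (nat_lit 459) (nat_lit 367) (nat_lit 314)) (XT.nd (nat_lit 78) (nat_lit 0) (nat_lit 0) (XT.lf (nat_lit 0) (nat_lit 2183243091) (nat_lit 380) (nat_lit 1844739844) (nat_lit 456) (nat_lit 6377368446) (nat_lit 129) (nat_lit 5) (nat_lit 134) (nat_lit 5) (nat_lit 135) (nat_lit 5) (nat_lit 460) (nat_lit 367) (nat_lit 313)) (XT.lf (nat_lit 0) (nat_lit 7216065849) (nat_lit 456) (nat_lit 1685706430) (nat_lit 76) (nat_lit 1620169627) (nat_lit 129) (nat_lit 5) (nat_lit 135) (nat_lit 5) (nat_lit 130) (nat_lit 5) (nat_lit 461) (nat_lit 367) (nat_lit 312))))))) (XT.nd (nat_lit 780) (nat_lit 2204) (nat_lit 0) (XT.nd (nat_lit 390) (nat_lit 1064) (nat_lit 0) (XT.nd (nat_lit 156) (nat_lit 456) (nat_lit 0) (XT.nd (nat_lit 78) (nat_lit 456) (nat_lit 0) (XT.lf (nat_lit 0) (nat_lit 4981770164) (nat_lit 380) (nat_lit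 5494698421) (nat_lit 456) (nat_lit 164238495) (nat_lit 124) (nat_lit 5) (nat_lit 129) (nat_lit 5) (nat_lit 130) (nat_lit 5) (nat_lit 462) (nat_lit 367) (nat_lit 311)) (XT.lf (nat_lit 0) (nat_lit 983999903) (nat_lit 380) (nat_lit 1998246797) (nat_lit 456) (nat_lit 7779581766) (nat_lit 118) (nat_lit 5) (nat_lit 123) (nat_lit 5) (nat_lit 124) (nat_lit 5) (nat_lit 463) (nat_lit 367) (nat_lit 310))) (XT.nd (nat_lit 78) (nat_lit 456) (nat_lit 0) (XT.lf (nat_lit 0) (nat_lit 6202235912) (nat_lit 456) (nat_lit 3112810869) (nat_lit 76) (nat_lit 1570061511) (nat_lit 118) (nat_lit 5) (nat_lit 124) (nat_lit 5) (nat_lit 119) (nat_lit 5) (nat_lit 464) (nat_lit 367) (nat_lit 309)) (XT.nd (nat_lit 78) (nat_lit 76) (nat_lit 0) (XT.lf (nat_lit 0) (nat_lit 3668244827) (nat_lit 380) (nat_lit 5820493035) (nat_lit 456) (nat_lit 1522086526) (nat_lit 113) (nat_lit 5) (nat_lit 118) (nat_lit 5) (nat_lit 119) (nat_lit 5) (nat_lit 465)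 (nat_lit 367) (nat_lit 308)) (XT.lf (nat_lit 0) (nat_lit 1665791087) (nat_lit 456) (nat_lit 574979628) (nat_lit 76) (nat_lit 8898351584) (nat_lit 112) (nat_lit 5) (nat_lit 118) (nat_lit 5) (nat_lit 113) (nat_lit 5) (nat_lit 466) (nat_lit 367) (nat_lit 307))))) (XT.nd (nat_lit 156) (nat_lit 380) (nat_lit 0) (XT.nd (nat_lit 78) (nat_lit 380) (nat_lit 0) (XT.lf (nat_lit 0) (nat_lit 4913532443) (nat_lit 380) (nat_lit 4929115402) (nat_lit 76) (nat_lit 1426819552) (nat_lit 108) (nat_lit 5) (nat_lit 113) (nat_lit 5) (nat_lit 109) (nat_lit 5) (nat_lit 467) (nat_lit 367) (nat_lit 306)) (XT.lf (nat_lit 0) (nat_lit 1958780770) (nat_lit 380) (nat_lit 6264970025) (nat_lit 456) (nat_lit 3178730107) (nat_lit 103) (nat_lit 5) (nat_lit 108) (nat_lit 5) (nat_lit 109) (nat_lit 5) (nat_lit 468) (nat_lit 367) (nat_lit 305))) (XT.nd (nat_lit 78) (nat_lit 304) (nat_lit 0) (XT.lf (nat_lit 0) (nat_lit 60681428) (nat_lit 456) (nat_lit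 2538472668) (nat_lit 76) (nat_lit 8939014494) (nat_lit 102) (nat_lit 5) (nat_lit 108) (nat_lit 5) (nat_lit 103) (nat_lit 5) (nat_lit 469) (nat_lit 367) (nat_lit 304)) (XT.nd (nat_lit 78) (nat_lit 0) (nat_lit 0) (XT.lf (nat_lit 0) (nat_lit 3325987590) (nat_lit 380) (nat_lit 7191733919) (nat_lit 76) (nat_lit 1158366161) (nat_lit 98) (nat_lit 5) (nat_lit 103) (nat_lit 5) (nat_lit 99) (nat_lit 5) (nat_lit 470) (nat_lit 367) (nat_lit 303)) (XT.lf (nat_lit 0) (nat_lit 6658013846) (nat_lit 380) (nat_lit 202521700) (nat_lit 76) (nat_lit 4956212346) (nat_lit 98) (nat_lit 5) (nat_lit 103) (nat_lit 5) (nat_lit 99) (nat_lit 5) (nat_lit 471) (nat_lit 367) (nat_lit 302)))))) (XT.nd (nat_lit 390) (nat_lit 1216) (nat_lit 0) (XT.nd (nat_lit 156) (nat_lit 304) (nat_lit 0) (XT.nd (nat_lit 78) (nat_lit 380) (nat_lit 0) (XT.lf (nat_lit 0) (nat_lit 6968040425) (nat_lit 304) (nat_lit 3101581077) (nat_lit 380) (nat_lit 1890351820)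 (nat_lit 94) (nat_lit 5) (nat_lit 98) (nat_lit 5) (nat_lit 99) (nat_lit 5) (nat_lit 472) (nat_lit 367) (nat_lit 301)) (XT.lf (nat_lit 0) (nat_lit 1412373176) (nat_lit 380) (nat_lit 9963452671) (nat_lit 76) (nat_lit 730302275) (nat_lit 89) (nat_lit 5) (nat_lit 94) (nat_lit 5) (nat_lit 90) (nat_lit 5) (nat_lit 473) (nat_lit 367) (nat_lit 300))) (XT.nd (nat_lit 78) (nat_lit 304) (nat_lit 0) (XT.lf (nat_lit 0) (nat_lit 4778109134) (nat_lit 380) (nat_lit 2850311033) (nat_lit 76) (nat_lit 4626100779) (nat_lit 89) (nat_lit 5) (nat_lit 94) (nat_lit 5) (nat_lit 90) (nat_lit 5) (nat_lit 474) (nat_lit 367) (nat_lit 299)) (XT.nd (nat_lit 78) (nat_lit 0) (nat_lit 0) (XT.lf (nat_lit 0) (nat_lit 4413827745) (nat_lit 304) (nat_lit 3794601326) (nat_lit 380) (nat_lit 4197517168) (nat_lit 85) (nat_lit 5) (nat_lit 89) (nat_lit 5) (nat_lit 90) (nat_lit 5) (nat_lit 475) (nat_lit 367) (nat_lit 298)) (XT.lf (nat_lit 0) (nat_lit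 11696156620) (nat_lit 380) (nat_lit 748357483) (nat_lit 76) (nat_lit 116119714) (nat_lit 85) (nat_lit 5) (nat_lit 90) (nat_lit 5) (nat_lit 86) (nat_lit 5) (nat_lit 476) (nat_lit 367) (nat_lit 297))))) (XT.nd (nat_lit 234) (nat_lit 608) (nat_lit 0) (XT.nd (nat_lit 78) (nat_lit 304) (nat_lit 0) (XT.lf (nat_lit 0) (nat_lit 2539953203) (nat_lit 304) (nat_lit 6080341627) (nat_lit 76) (nat_lit 4097040939) (nat_lit 81) (nat_lit 5) (nat_lit 85) (nat_lit 5) (nat_lit 82) (nat_lit 5) (nat_lit 477) (nat_lit 367) (nat_lit 296)) (XT.nd (nat_lit 78) (nat_lit 0) (nat_lit 0) (XT.lf (nat_lit 0) (nat_lit 1265488731) (nat_lit 304) (nat_lit 4718175158) (nat_lit 380) (nat_lit 6893747483) (nat_lit 77) (nat_lit 5) (nat_lit 81) (nat_lit 5) (nat_lit 82) (nat_lit 5) (nat_lit 478) (nat_lit 367) (nat_lit 295)) (XT.lf (nat_lit 0) (nat_lit 8792499477) (nat_lit 304) (nat_lit 714321962) (nat_lit 380) (nat_lit 3533664651) (nat_lit 77) (nat_lit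 5) (nat_lit 81) (nat_lit 5) (nat_lit 82) (nat_lit 5) (nat_lit 479) (nat_lit 367) (nat_lit 294)))) (XT.nd (nat_lit 78) (nat_lit 380) (nat_lit 0) (XT.lf (nat_lit 0) (nat_lit 3236092232) (nat_lit 228) (nat_lit 9877487479) (nat_lit 304) (nat_lit 92988718) (nat_lit 74) (nat_lit 5) (nat_lit 77) (nat_lit 5) (nat_lit 78) (nat_lit 5) (nat_lit 480) (nat_lit 367) (nat_lit 293)) (XT.nd (nat_lit 78) (nat_lit 304) (nat_lit 0) (XT.lf (nat_lit 0) (nat_lit 3375439212) (nat_lit 304) (nat_lit 2522857876) (nat_lit 76) (nat_lit 7477165285) (nat_lit 73) (nat_lit 5) (nat_lit 77) (nat_lit 5) (nat_lit 74) (nat_lit 5) (nat_lit 481) (nat_lit 367) (nat_lit 292)) (XT.lf (nat_lit 0) (nat_lit 5093040944) (nat_lit 304) (nat_lit 1822921028) (nat_lit 380) (nat_lit 6631688872) (nat_lit 69) (nat_lit 5) (nat_lit 73) (nat_lit 5) (nat_lit 74) (nat_lit 5) (nat_lit 482) (nat_lit 367) (nat_lit 291))))))))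
noncomputable def xc64 : XT := (XT.nd (nat_lit 1560) (nat_lit 380) (nat_lit 0) (XT.nd (nat_lit 780) (nat_lit 1216) (nat_lit 0) (XT.nd (nat_lit 390) (nat_lit 532) (nat_lit 0) (XT.nd (nat_lit 156) (nat_lit 456) (nat_lit 0) (XT.nd (nat_lit 78) (nat_lit 304) (nat_lit 0) (XT.lf (nat_lit 0) (nat_lit 10530546787) (nat_lit 380) (nat_lit 889768210) (nat_lit 76) (nat_lit 2302911254) (nat_lit 69) (nat_lit 5) (nat_lit 74) (nat_lit 5) (nat_lit 70) (nat_lit 5) (nat_lit 483) (nat_lit 367) (nat_lit 290)) (XT.lf (nat_lit 0) (nat_lit 339380048) (nat_lit 304) (nat_lit 7045837494) (nat_lit 76) (nat_lit 6516494538) (nat_lit 65) (nat_lit 5) (nat_lit 69) (nat_lit 5) (nat_lit 66) (nat_lit 5) (nat_lit 484) (nat_lit 367) (nat_lit 289))) (XT.nd (nat_lit 78) (nat_lit 228) (nat_lit 0) (XT.lf (nat_lit 0) (nat_lit 625693426) (nat_lit 228) (nat_lit 3255438873) (nat_lit 304) (nat_lit 10202584952) (nat_lit 62) (nat_lit 5) (nat_lit 65) (nat_lit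 5) (nat_lit 66) (nat_lit 5) (nat_lit 485) (nat_lit 367) (nat_lit 288)) (XT.nd (nat_lit 78) (nat_lit 228) (nat_lit 0) (XT.lf (nat_lit 0) (nat_lit 7519357494) (nat_lit 304) (nat_lit 5775101768) (nat_lit 76) (nat_lit 974398084) (nat_lit 62) (nat_lit 5) (nat_lit 66) (nat_lit 5) (nat_lit 63) (nat_lit 5) (nat_lit 486) (nat_lit 367) (nat_lit 287)) (XT.lf (nat_lit 0) (nat_lit 2021011904) (nat_lit 228) (nat_lit 9216399018) (nat_lit 304) (nat_lit 3220155474) (nat_lit 59) (nat_lit 5) (nat_lit 62) (nat_lit 5) (nat_lit 63) (nat_lit 5) (nat_lit 487) (nat_lit 367) (nat_lit 286))))) (XT.nd (nat_lit 156) (nat_lit 228) (nat_lit 0) (XT.nd (nat_lit 78) (nat_lit 228) (nat_lit 0) (XT.lf (nat_lit 0) (nat_lit 386248528) (nat_lit 304) (nat_lit 4646154227) (nat_lit 76) (nat_lit 9617375626) (nat_lit 58) (nat_lit 5) (nat_lit 62) (nat_lit 5) (nat_lit 59) (nat_lit 5) (nat_lit 488) (nat_lit 367) (nat_lit 285)) (XT.lf (nat_lit 0) (nat_lit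 3277112202) (nat_lit 228) (nat_lit 738851298) (nat_lit 304) (nat_lit 10829566387) (nat_lit 55) (nat_lit 5) (nat_lit 58) (nat_lit 5) (nat_lit 59) (nat_lit 5) (nat_lit 489) (nat_lit 367) (nat_lit 284))) (XT.nd (nat_lit 78) (nat_lit 228) (nat_lit 0) (XT.lf (nat_lit 0) (nat_lit 7746405963) (nat_lit 304) (nat_lit 3691323915) (nat_lit 76) (nat_lit 3606910742) (nat_lit 55) (nat_lit 5) (nat_lit 59) (nat_lit 5) (nat_lit 56) (nat_lit 5) (nat_lit 490) (nat_lit 367) (nat_lit 283)) (XT.nd (nat_lit 78) (nat_lit 0) (nat_lit 0) (XT.lf (nat_lit 0) (nat_lit 4351636882) (nat_lit 228) (nat_lit 7206605956) (nat_lit 304) (nat_lit 3689361749) (nat_lit 52) (nat_lit 5) (nat_lit 55) (nat_lit 5) (nat_lit 56) (nat_lit 5) (nat_lit 491) (nat_lit 367) (nat_lit 282)) (XT.lf (nat_lit 0) (nat_lit 12561927986) (nat_lit 228) (nat_lit 2883032014) (nat_lit 304) (nat_lit 9701558) (nat_lit 52) (nat_lit 5) (nat_lit 55) (nat_lit 5) (nat_lit 56)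 (nat_lit 5) (nat_lit 492) (nat_lit 367) (nat_lit 281)))))) (XT.nd (nat_lit 390) (nat_lit 456) (nat_lit 0) (XT.nd (nat_lit 156) (nat_lit 456) (nat_lit 0) (XT.nd (nat_lit 78) (nat_lit 0) (nat_lit 0) (XT.lf (nat_lit 0) (nat_lit 3713085077) (nat_lit 304) (nat_lit 10403054242) (nat_lit 76) (nat_lit 1548867965) (nat_lit 48) (nat_lit 5) (nat_lit 52) (nat_lit 5) (nat_lit 49) (nat_lit 5) (nat_lit 493) (nat_lit 367) (nat_lit 280)) (XT.lf (nat_lit 0) (nat_lit 7523156212) (nat_lit 304) (nat_lit 2322695313) (nat_lit 76) (nat_lit 6033454161) (nat_lit 48) (nat_lit 5) (nat_lit 52) (nat_lit 5) (nat_lit 49) (nat_lit 5) (nat_lit 494) (nat_lit 367) (nat_lit 279))) (XT.nd (nat_lit 78) (nat_lit 304) (nat_lit 0) (XT.lf (nat_lit 0) (nat_lit 5955035839) (nat_lit 152) (nat_lit 5467885698) (nat_lit 228) (nat_lit 4674704756) (nat_lit 46) (nat_lit 5) (nat_lit 48) (nat_lit 5) (nat_lit 49) (nat_lit 5) (nat_lit 495) (nat_lit 367) (nat_lit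 278)) (XT.nd (nat_lit 78) (nat_lit 304) (nat_lit 0) (XT.lf (nat_lit 0) (nat_lit 14387748568) (nat_lit 152) (nat_lit 1003569325) (nat_lit 228) (nat_lit 929188681) (nat_lit 46) (nat_lit 5) (nat_lit 48) (nat_lit 5) (nat_lit 49) (nat_lit 5) (nat_lit 496) (nat_lit 367) (nat_lit 277)) (XT.lf (nat_lit 0) (nat_lit 2894010637) (nat_lit 304) (nat_lit 10104736974) (nat_lit 76) (nat_lit 3547913313) (nat_lit 42) (nat_lit 5) (nat_lit 46) (nat_lit 5) (nat_lit 43) (nat_lit 5) (nat_lit 497) (nat_lit 367) (nat_lit 276))))) (XT.nd (nat_lit 156) (nat_lit 304) (nat_lit 0) (XT.nd (nat_lit 78) (nat_lit 152) (nat_lit 0) (XT.lf (nat_lit 0) (nat_lit 6776421518) (nat_lit 304) (nat_lit 1821343049) (nat_lit 76) (nat_lit 8179552799) (nat_lit 42) (nat_lit 5) (nat_lit 46) (nat_lit 5) (nat_lit 43) (nat_lit 5) (nat_lit 498) (nat_lit 367) (nat_lit 275)) (XT.lf (nat_lit 0) (nat_lit 6674394782) (nat_lit 152) (nat_lit 4081377208) (nat_lit 228)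 (nat_lit 6256434638) (nat_lit 40) (nat_lit 5) (nat_lit 42) (nat_lit 5) (nat_lit 43) (nat_lit 5) (nat_lit 499) (nat_lit 367) (nat_lit 274))) (XT.nd (nat_lit 78) (nat_lit 304) (nat_lit 0) (XT.lf (nat_lit 0) (nat_lit 14806479304) (nat_lit 228) (nat_lit 1931269236) (nat_lit 76) (nat_lit 514215150) (nat_lit 40) (nat_lit 5) (nat_lit 43) (nat_lit 5) (nat_lit 41) (nat_lit 5) (nat_lit 500) (nat_lit 367) (nat_lit 273)) (XT.nd (nat_lit 78) (nat_lit 0) (nat_lit 0) (XT.lf (nat_lit 0) (nat_lit 1469900662) (nat_lit 304) (nat_lit 10841646710) (nat_lit 76) (nat_lit 5183844041) (nat_lit 36) (nat_lit 5) (nat_lit 40) (nat_lit 5) (nat_lit 37) (nat_lit 5) (nat_lit 501) (nat_lit 367) (nat_lit 272)) (XT.lf (nat_lit 0) (nat_lit 5420492003) (nat_lit 304) (nat_lit 2363285236) (nat_lit 76) (nat_lit 9959799383) (nat_lit 36) (nat_lit 5) (nat_lit 40) (nat_lit 5) (nat_lit 37) (nat_lit 5) (nat_lit 502) (nat_lit 367) (nat_lit 271)))))))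 (XT.nd (nat_lit 52182) (nat_lit 0) (nat_lit 24244) (XT.nd (nat_lit 51792) (nat_lit 0) (nat_lit 34884) (XT.nd (nat_lit 156) (nat_lit 228) (nat_lit 0) (XT.nd (nat_lit 78) (nat_lit 0) (nat_lit 0) (XT.lf (nat_lit 0) (nat_lit 6328214192) (nat_lit 152) (nat_lit 3139994766) (nat_lit 228) (nat_lit 8528159303) (nat_lit 34) (nat_lit 5) (nat_lit 36) (nat_lit 5) (nat_lit 37) (nat_lit 5) (nat_lit 503) (nat_lit 367) (nat_lit 270)) (XT.lf (nat_lit 0) (nat_lit 13600327346) (nat_lit 228) (nat_lit 3078311217) (nat_lit 76) (nat_lit 1575513128) (nat_lit 34) (nat_lit 5) (nat_lit 37) (nat_lit 5) (nat_lit 35) (nat_lit 5) (nat_lit 504) (nat_lit 367) (nat_lit 269))) (XT.nd (nat_lit 51480) (nat_lit 0) (nat_lit 39748) (XT.lf (nat_lit 0) (nat_lit 5698526312) (nat_lit 228) (nat_lit 12151920346) (nat_lit 304) (nat_lit 665941766) (nat_lit 31) (nat_lit 5) (nat_lit 34) (nat_lit 5) (nat_lit 35) (nat_lit 5) (nat_lit 505) (nat_lit 367) (nat_lit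 268)) (XT.nd (nat_lit 78) (nat_lit 76) (nat_lit 0) (XT.lf (nat_lit 0) (nat_lit 882669815) (nat_lit 988) (nat_lit 1240894061) (nat_lit 988) (nat_lit 1240894061) (nat_lit 555) (nat_lit 4) (nat_lit 568) (nat_lit 5) (nat_lit 568) (nat_lit 4) (nat_lit 404) (nat_lit 368) (nat_lit 368)) (XT.lf (nat_lit 0) (nat_lit 671094729) (nat_lit 1064) (nat_lit 736134888) (nat_lit 76) (nat_lit 5346627128) (nat_lit 554) (nat_lit 5) (nat_lit 568) (nat_lit 5) (nat_lit 555) (nat_lit 4) (nat_lit 405) (nat_lit 368) (nat_lit 367))))) (XT.nd (nat_lit 156) (nat_lit 2584) (nat_lit 0) (XT.nd (nat_lit 78) (nat_lit 1216) (nat_lit 0) (XT.lf (nat_lit 0) (nat_lit 3550000843) (nat_lit 1064) (nat_lit 258156926) (nat_lit 1140) (nat_lit 2971785319) (nat_lit 540) (nat_lit 5) (nat_lit 554) (nat_lit 5) (nat_lit 555) (nat_lit 4) (nat_lit 406) (nat_lit 368) (nat_lit 366)) (XT.lf (nat_lit 0) (nat_lit 148614026) (nat_lit 1216) (nat_lit 5732151667) (nat_lit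 76) (nat_lit 926821840) (nat_lit 524) (nat_lit 5) (nat_lit 540) (nat_lit 5) (nat_lit 525) (nat_lit 4) (nat_lit 407) (nat_lit 368) (nat_lit 365))) (XT.nd (nat_lit 78) (nat_lit 2584) (nat_lit 0) (XT.lf (nat_lit 0) (nat_lit 3247991076) (nat_lit 1216) (nat_lit 1403860225) (nat_lit 76) (nat_lit 2184471710) (nat_lit 524) (nat_lit 5) (nat_lit 540) (nat_lit 5) (nat_lit 525) (nat_lit 4) (nat_lit 408) (nat_lit 368) (nat_lit 364)) (XT.nd (nat_lit 78) (nat_lit 1368) (nat_lit 0) (XT.lf (nat_lit 0) (nat_lit 2993711855) (nat_lit 1216) (nat_lit 3369195605) (nat_lit 1292) (nat_lit 503711814) (nat_lit 508) (nat_lit 5) (nat_lit 524) (nat_lit 5) (nat_lit 525) (nat_lit 4) (nat_lit 409) (nat_lit 368) (nat_lit 363)) (XT.lf (nat_lit 0) (nat_lit 533609664) (nat_lit 1292) (nat_lit 2021836762) (nat_lit 1368) (nat_lit 4342836705) (nat_lit 490) (nat_lit 5) (nat_lit 507) (nat_lit 5) (nat_lit 508) (nat_lit 5) (nat_lit 410) (nat_lit 368)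 (nat_lit 362)))))) (XT.nd (nat_lit 390) (nat_lit 6156) (nat_lit 0) (XT.nd (nat_lit 156) (nat_lit 3040) (nat_lit 0) (XT.nd (nat_lit 78) (nat_lit 1444) (nat_lit 0) (XT.lf (nat_lit 0) (nat_lit 5020650024) (nat_lit 1292) (nat_lit 609837947) (nat_lit 1368) (nat_lit 1300850623) (nat_lit 490) (nat_lit 5) (nat_lit 507) (nat_lit 5) (nat_lit 508) (nat_lit 5) (nat_lit 411) (nat_lit 368) (nat_lit 361)) (XT.lf (nat_lit 0) (nat_lit 1737104534) (nat_lit 1444) (nat_lit 4373196652) (nat_lit 76) (nat_lit 855396466) (nat_lit 471) (nat_lit 5) (nat_lit 490) (nat_lit 5) (nat_lit 472) (nat_lit 5) (nat_lit 412) (nat_lit 368) (nat_lit 360))) (XT.nd (nat_lit 78) (nat_lit 1596) (nat_lit 0) (XT.lf (nat_lit 0) (nat_lit 142810176) (nat_lit 1444) (nat_lit 4630673262) (nat_lit 1520) (nat_lit 2228037534) (nat_lit 452) (nat_lit 5) (nat_lit 471) (nat_lit 5) (nat_lit 472) (nat_lit 5) (nat_lit 413) (nat_lit 368) (nat_lit 359)) (XT.nd (nat_lit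 78) (nat_lit 1520) (nat_lit 0) (XT.lf (nat_lit 0) (nat_lit 788746794) (nat_lit 1520) (nat_lit 2292647489) (nat_lit 76) (nat_lit 3957264386) (nat_lit 451) (nat_lit 5) (nat_lit 471) (nat_lit 5) (nat_lit 452) (nat_lit 5) (nat_lit 414) (nat_lit 368) (nat_lit 358)) (XT.lf (nat_lit 0) (nat_lit 2323602455) (nat_lit 1520) (nat_lit 1466364406) (nat_lit 1596) (nat_lit 3287246832) (nat_lit 431) (nat_lit 5) (nat_lit 451) (nat_lit 5) (nat_lit 452) (nat_lit 5) (nat_lit 415) (nat_lit 368) (nat_lit 357))))) (XT.nd (nat_lit 234) (nat_lit 2812) (nat_lit 0) (XT.nd (nat_lit 78) (nat_lit 3344) (nat_lit 0) (XT.lf (nat_lit 0) (nat_lit 6807550290) (nat_lit 1596) (nat_lit 112012880) (nat_lit 76) (nat_lit 197896719) (nat_lit 431) (nat_lit 5) (nat_lit 452) (nat_lit 5) (nat_lit 432) (nat_lit 5) (nat_lit 416) (nat_lit 368) (nat_lit 356)) (XT.nd (nat_lit 78) (nat_lit 1672) (nat_lit 0) (XT.lf (nat_lit 0) (nat_lit 2671580731) (nat_lit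 1672) (nat_lit 2559894135) (nat_lit 76) (nat_lit 1927119648) (nat_lit 409) (nat_lit 5) (nat_lit 431) (nat_lit 5) (nat_lit 410) (nat_lit 5) (nat_lit 417) (nat_lit 368) (nat_lit 355)) (XT.lf (nat_lit 0) (nat_lit 2173985367) (nat_lit 1672) (nat_lit 3490664874) (nat_lit 1748) (nat_lit 1536782789) (nat_lit 387) (nat_lit 5) (nat_lit 409) (nat_lit 5) (nat_lit 410) (nat_lit 5) (nat_lit 418) (nat_lit 368) (nat_lit 354)))) (XT.nd (nat_lit 78) (nat_lit 2736) (nat_lit 0) (XT.lf (nat_lit 0) (nat_lit 1412014477) (nat_lit 1748) (nat_lit 274738382) (nat_lit 76) (nat_lit 5559049227) (nat_lit 386) (nat_lit 5) (nat_lit 409) (nat_lit 5) (nat_lit 387) (nat_lit 5) (nat_lit 419) (nat_lit 368) (nat_lit 353)) (XT.nd (nat_lit 78) (nat_lit 988) (nat_lit 0) (XT.lf (nat_lit 0) (nat_lit 4372868095) (nat_lit 1824) (nat_lit 2726371691) (nat_lit 76) (nat_lit 192184019) (nat_lit 363) (nat_lit 5) (nat_lit 387) (nat_lit 5) (nat_lit 364) (nat_lit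 5) (nat_lit 420) (nat_lit 368) (nat_lit 352)) (XT.lf (nat_lit 0) (nat_lit 24348036) (nat_lit 988) (nat_lit 5211795863) (nat_lit 76) (nat_lit 2102445142) (nat_lit 350) (nat_lit 5) (nat_lit 363) (nat_lit 5) (nat_lit 351) (nat_lit 5) (nat_lit 421) (nat_lit 368) (nat_lit 351))))))))
noncomputable def xc65 : XT := (XT.nd (nat_lit 1560) (nat_lit 7144) (nat_lit 0) (XT.nd (nat_lit 780) (nat_lit 4940) (nat_lit 0) (XT.nd (nat_lit 390) (nat_lit 2432) (nat_lit 0) (XT.nd (nat_lit 156) (nat_lit 1748) (nat_lit 0) (XT.nd (nat_lit 78) (nat_lit 912) (nat_lit 0) (XT.lf (nat_lit 0) (nat_lit 2949302859) (nat_lit 988) (nat_lit 349410083) (nat_lit 76) (nat_lit 4088392562) (nat_lit 350) (nat_lit 5) (nat_lit 363) (nat_lit 5) (nat_lit 351) (nat_lit 5) (nat_lit 422) (nat_lit 368) (nat_lit 350)) (XT.lf (nat_lit 0) (nat_lit 4614262755) (nat_lit 912) (nat_lit 1293373839) (nat_lit 988) (nat_lit 1529496539) (nat_lit 338) (nat_lit 5) (nat_lit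 350) (nat_lit 5) (nat_lit 351) (nat_lit 5) (nat_lit 423) (nat_lit 368) (nat_lit 349))) (XT.nd (nat_lit 78) (nat_lit 836) (nat_lit 0) (XT.lf (nat_lit 0) (nat_lit 1384766037) (nat_lit 912) (nat_lit 5337929218) (nat_lit 76) (nat_lit 765983677) (nat_lit 326) (nat_lit 5) (nat_lit 338) (nat_lit 5) (nat_lit 327) (nat_lit 5) (nat_lit 424) (nat_lit 368) (nat_lit 348)) (XT.nd (nat_lit 78) (nat_lit 836) (nat_lit 0) (XT.lf (nat_lit 0) (nat_lit 4310417356) (nat_lit 912) (nat_lit 355187725) (nat_lit 76) (nat_lit 2876012915) (nat_lit 326) (nat_lit 5) (nat_lit 338) (nat_lit 5) (nat_lit 327) (nat_lit 5) (nat_lit 425) (nat_lit 368) (nat_lit 347)) (XT.lf (nat_lit 0) (nat_lit 4732811702) (nat_lit 836) (nat_lit 2539489256) (nat_lit 912) (nat_lit 323796007) (nat_lit 315) (nat_lit 5) (nat_lit 326) (nat_lit 5) (nat_lit 327) (nat_lit 5) (nat_lit 426) (nat_lit 368) (nat_lit 346))))) (XT.nd (nat_lit 156) (nat_lit 1596) (nat_lit 0)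 (XT.nd (nat_lit 78) (nat_lit 0) (nat_lit 0) (XT.lf (nat_lit 0) (nat_lit 2231028707) (nat_lit 760) (nat_lit 340250442) (nat_lit 836) (nat_lit 5080794061) (nat_lit 304) (nat_lit 5) (nat_lit 314) (nat_lit 5) (nat_lit 315) (nat_lit 5) (nat_lit 427) (nat_lit 368) (nat_lit 345)) (XT.lf (nat_lit 0) (nat_lit 5499544374) (nat_lit 836) (nat_lit 314873755) (nat_lit 76) (nat_lit 1895149020) (nat_lit 304) (nat_lit 5) (nat_lit 315) (nat_lit 5) (nat_lit 305) (nat_lit 5) (nat_lit 428) (nat_lit 368) (nat_lit 344))) (XT.nd (nat_lit 78) (nat_lit 760) (nat_lit 0) (XT.lf (nat_lit 0) (nat_lit 691605804) (nat_lit 836) (nat_lit 2874090904) (nat_lit 76) (nat_lit 4202795951) (nat_lit 293) (nat_lit 5) (nat_lit 304) (nat_lit 5) (nat_lit 294) (nat_lit 5) (nat_lit 429) (nat_lit 368) (nat_lit 343)) (XT.nd (nat_lit 78) (nat_lit 0) (nat_lit 0) (XT.lf (nat_lit 0) (nat_lit 2342943121) (nat_lit 760) (nat_lit 1245314517) (nat_lit 836) (nat_lit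 4240746749) (nat_lit 283) (nat_lit 5) (nat_lit 293) (nat_lit 5) (nat_lit 294) (nat_lit 5) (nat_lit 430) (nat_lit 368) (nat_lit 342)) (XT.lf (nat_lit 0) (nat_lit 6519344397) (nat_lit 836) (nat_lit 251805191) (nat_lit 76) (nat_lit 1120077635) (nat_lit 283) (nat_lit 5) (nat_lit 294) (nat_lit 5) (nat_lit 284) (nat_lit 5) (nat_lit 431) (nat_lit 368) (nat_lit 341)))))) (XT.nd (nat_lit 390) (nat_lit 2052) (nat_lit 0) (XT.nd (nat_lit 156) (nat_lit 1368) (nat_lit 0) (XT.nd (nat_lit 78) (nat_lit 684) (nat_lit 0) (XT.lf (nat_lit 0) (nat_lit 1525971733) (nat_lit 836) (nat_lit 2875493021) (nat_lit 76) (nat_lit 3553217654) (nat_lit 272) (nat_lit 5) (nat_lit 283) (nat_lit 5) (nat_lit 273) (nat_lit 5) (nat_lit 432) (nat_lit 368) (nat_lit 340)) (XT.lf (nat_lit 0) (nat_lit 2467592472) (nat_lit 684) (nat_lit 1964602216) (nat_lit 760) (nat_lit 3587684157) (nat_lit 263) (nat_lit 5) (nat_lit 272) (nat_lit 5) (nat_lit 273) (nat_lit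 5) (nat_lit 433) (nat_lit 368) (nat_lit 339))) (XT.nd (nat_lit 78) (nat_lit 1368) (nat_lit 0) (XT.lf (nat_lit 0) (nat_lit 7370934985) (nat_lit 760) (nat_lit 190077638) (nat_lit 76) (nat_lit 525907289) (nat_lit 263) (nat_lit 5) (nat_lit 273) (nat_lit 5) (nat_lit 264) (nat_lit 5) (nat_lit 434) (nat_lit 368) (nat_lit 338)) (XT.nd (nat_lit 78) (nat_lit 608) (nat_lit 0) (XT.lf (nat_lit 0) (nat_lit 2183918813) (nat_lit 760) (nat_lit 2890065343) (nat_lit 76) (nat_lit 3081061782) (nat_lit 253) (nat_lit 5) (nat_lit 263) (nat_lit 5) (nat_lit 254) (nat_lit 5) (nat_lit 435) (nat_lit 368) (nat_lit 337)) (XT.lf (nat_lit 0) (nat_lit 2580036589) (nat_lit 608) (nat_lit 2523008894) (nat_lit 684) (nat_lit 3122005021) (nat_lit 245) (nat_lit 5) (nat_lit 253) (nat_lit 5) (nat_lit 254) (nat_lit 5) (nat_lit 436) (nat_lit 368) (nat_lit 336))))) (XT.nd (nat_lit 156) (nat_lit 1292) (nat_lit 0) (XT.nd (nat_lit 78) (nat_lit 760) (nat_lit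 0) (XT.lf (nat_lit 0) (nat_lit 8053860866) (nat_lit 684) (nat_lit 154780735) (nat_lit 76) (nat_lit 88373819) (nat_lit 245) (nat_lit 5) (nat_lit 254) (nat_lit 5) (nat_lit 246) (nat_lit 5) (nat_lit 437) (nat_lit 368) (nat_lit 335)) (XT.lf (nat_lit 0) (nat_lit 2664209812) (nat_lit 760) (nat_lit 2943572065) (nat_lit 76) (nat_lit 2762188192) (nat_lit 235) (nat_lit 5) (nat_lit 245) (nat_lit 5) (nat_lit 236) (nat_lit 5) (nat_lit 438) (nat_lit 368) (nat_lit 334))) (XT.nd (nat_lit 78) (nat_lit 684) (nat_lit 0) (XT.lf (nat_lit 0) (nat_lit 2654188962) (nat_lit 608) (nat_lit 2944959649) (nat_lit 684) (nat_lit 2845774258) (nat_lit 227) (nat_lit 5) (nat_lit 235) (nat_lit 5) (nat_lit 236) (nat_lit 5) (nat_lit 439) (nat_lit 368) (nat_lit 333)) (XT.nd (nat_lit 78) (nat_lit 608) (nat_lit 0) (XT.lf (nat_lit 0) (nat_lit 44971045) (nat_lit 684) (nat_lit 173966481) (nat_lit 76) (nat_lit 8302961898) (nat_lit 226) (nat_lit 5) (nat_lit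 235) (nat_lit 5) (nat_lit 227) (nat_lit 5) (nat_lit 440) (nat_lit 368) (nat_lit 332)) (XT.lf (nat_lit 0) (nat_lit 2963951264) (nat_lit 684) (nat_lit 3063121441) (nat_lit 76) (nat_lit 2572819523) (nat_lit 218) (nat_lit 5) (nat_lit 227) (nat_lit 5) (nat_lit 219) (nat_lit 5) (nat_lit 441) (nat_lit 368) (nat_lit 331))))))) (XT.nd (nat_lit 780) (nat_lit 3192) (nat_lit 0) (XT.nd (nat_lit 390) (nat_lit 2128) (nat_lit 0) (XT.nd (nat_lit 156) (nat_lit 1216) (nat_lit 0) (XT.nd (nat_lit 78) (nat_lit 76) (nat_lit 0) (XT.lf (nat_lit 0) (nat_lit 2662554854) (nat_lit 532) (nat_lit 3254618052) (nat_lit 608) (nat_lit 2762777713) (nat_lit 211) (nat_lit 5) (nat_lit 218) (nat_lit 5) (nat_lit 219) (nat_lit 5) (nat_lit 442) (nat_lit 368) (nat_lit 330)) (XT.lf (nat_lit 0) (nat_lit 142483141) (nat_lit 608) (nat_lit 273965022) (nat_lit 76) (nat_lit 8345625581) (nat_lit 210) (nat_lit 5) (nat_lit 218) (nat_lit 5) (nat_lit 211) (nat_lit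 5) (nat_lit 443) (nat_lit 368) (nat_lit 329))) (XT.nd (nat_lit 78) (nat_lit 608) (nat_lit 0) (XT.lf (nat_lit 0) (nat_lit 3078530449) (nat_lit 684) (nat_lit 3277438453) (nat_lit 76) (nat_lit 2489333337) (nat_lit 202) (nat_lit 5) (nat_lit 211) (nat_lit 5) (nat_lit 203) (nat_lit 5) (nat_lit 444) (nat_lit 368) (nat_lit 328)) (XT.nd (nat_lit 78) (nat_lit 76) (nat_lit 0) (XT.lf (nat_lit 0) (nat_lit 2575951909) (nat_lit 532) (nat_lit 3476097725) (nat_lit 608) (nat_lit 2878591871) (nat_lit 195) (nat_lit 5) (nat_lit 202) (nat_lit 5) (nat_lit 203) (nat_lit 5) (nat_lit 445) (nat_lit 368) (nat_lit 327)) (XT.lf (nat_lit 0) (nat_lit 46204788) (nat_lit 608) (nat_lit 482361466) (nat_lit 76) (nat_lit 8489538221) (nat_lit 194) (nat_lit 5) (nat_lit 202) (nat_lit 5) (nat_lit 195) (nat_lit 5) (nat_lit 446) (nat_lit 368) (nat_lit 326))))) (XT.nd (nat_lit 156) (nat_lit 1064) (nat_lit 0) (XT.nd (nat_lit 78) (nat_lit 532) (nat_lit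 0) (XT.lf (nat_lit 0) (nat_lit 3001537170) (nat_lit 608) (nat_lit 3617156810) (nat_lit 76) (nat_lit 2488050488) (nat_lit 187) (nat_lit 5) (nat_lit 195) (nat_lit 5) (nat_lit 188) (nat_lit 5) (nat_lit 447) (nat_lit 368) (nat_lit 325)) (XT.lf (nat_lit 0) (nat_lit 2363210639) (nat_lit 532) (nat_lit 3633678547) (nat_lit 608) (nat_lit 3200669417) (nat_lit 180) (nat_lit 5) (nat_lit 187) (nat_lit 5) (nat_lit 188) (nat_lit 5) (nat_lit 448) (nat_lit 368) (nat_lit 324))) (XT.nd (nat_lit 78) (nat_lit 1064) (nat_lit 0) (XT.lf (nat_lit 0) (nat_lit 8457893509) (nat_lit 532) (nat_lit 577793372) (nat_lit 608) (nat_lit 254850586) (nat_lit 180) (nat_lit 5) (nat_lit 187) (nat_lit 5) (nat_lit 188) (nat_lit 5) (nat_lit 449) (nat_lit 368) (nat_lit 323)) (XT.nd (nat_lit 78) (nat_lit 456) (nat_lit 0) (XT.lf (nat_lit 0) (nat_lit 2724669373) (nat_lit 608) (nat_lit 4115133008) (nat_lit 76) (nat_lit 2545017918) (nat_lit 172) (nat_lit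 5) (nat_lit 180) (nat_lit 5) (nat_lit 173) (nat_lit 5) (nat_lit 450) (nat_lit 368) (nat_lit 322)) (XT.lf (nat_lit 0) (nat_lit 1990851969) (nat_lit 456) (nat_lit 3752029323) (nat_lit 532) (nat_lit 3738441635) (nat_lit 166) (nat_lit 5) (nat_lit 172) (nat_lit 5) (nat_lit 173) (nat_lit 5) (nat_lit 451) (nat_lit 368) (nat_lit 321)))))) (XT.nd (nat_lit 390) (nat_lit 1672) (nat_lit 0) (XT.nd (nat_lit 156) (nat_lit 988) (nat_lit 0) (XT.nd (nat_lit 78) (nat_lit 532) (nat_lit 0) (XT.lf (nat_lit 0) (nat_lit 8220912771) (nat_lit 456) (nat_lit 588725563) (nat_lit 532) (nat_lit 770371411) (nat_lit 166) (nat_lit 5) (nat_lit 172) (nat_lit 5) (nat_lit 173) (nat_lit 5) (nat_lit 452) (nat_lit 368) (nat_lit 320)) (XT.lf (nat_lit 0) (nat_lit 2237621549) (nat_lit 532) (nat_lit 4806785450) (nat_lit 76) (nat_lit 2635784017) (nat_lit 159) (nat_lit 5) (nat_lit 166) (nat_lit 5) (nat_lit 160) (nat_lit 5) (nat_lit 453) (nat_lit 368)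 (nat_lit 319))) (XT.nd (nat_lit 78) (nat_lit 532) (nat_lit 0) (XT.lf (nat_lit 0) (nat_lit 1422738767) (nat_lit 456) (nat_lit 3856438855) (nat_lit 532) (nat_lit 4503438807) (nat_lit 153) (nat_lit 5) (nat_lit 159) (nat_lit 5) (nat_lit 160) (nat_lit 5) (nat_lit 454) (nat_lit 368) (nat_lit 318)) (XT.nd (nat_lit 78) (nat_lit 532) (nat_lit 0) (XT.lf (nat_lit 0) (nat_lit 7788716421) (nat_lit 456) (nat_lit 586907476) (nat_lit 532) (nat_lit 1511601675) (nat_lit 153) (nat_lit 5) (nat_lit 159) (nat_lit 5) (nat_lit 160) (nat_lit 5) (nat_lit 455) (nat_lit 368) (nat_lit 317)) (XT.lf (nat_lit 0) (nat_lit 1527954654) (nat_lit 532) (nat_lit 5730461848) (nat_lit 76) (nat_lit 2735164564) (nat_lit 146) (nat_lit 5) (nat_lit 153) (nat_lit 5) (nat_lit 147) (nat_lit 5) (nat_lit 456) (nat_lit 368) (nat_lit 316))))) (XT.nd (nat_lit 234) (nat_lit 760) (nat_lit 0) (XT.nd (nat_lit 78) (nat_lit 532) (nat_lit 0) (XT.lf (nat_lit 0) (nat_lit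 619698026) (nat_lit 380) (nat_lit 3973057450) (nat_lit 456) (nat_lit 5509429941) (nat_lit 141) (nat_lit 5) (nat_lit 146) (nat_lit 5) (nat_lit 147) (nat_lit 5) (nat_lit 457) (nat_lit 368) (nat_lit 315)) (XT.nd (nat_lit 78) (nat_lit 532) (nat_lit 0) (XT.lf (nat_lit 0) (nat_lit 7121805518) (nat_lit 380) (nat_lit 598481516) (nat_lit 456) (nat_lit 2492661281) (nat_lit 141) (nat_lit 5) (nat_lit 146) (nat_lit 5) (nat_lit 147) (nat_lit 5) (nat_lit 458) (nat_lit 368) (nat_lit 314)) (XT.lf (nat_lit 0) (nat_lit 580946154) (nat_lit 532) (nat_lit 6927838441) (nat_lit 76) (nat_lit 2816997182) (nat_lit 134) (nat_lit 5) (nat_lit 141) (nat_lit 5) (nat_lit 135) (nat_lit 5) (nat_lit 459) (nat_lit 368) (nat_lit 313)))) (XT.nd (nat_lit 78) (nat_lit 760) (nat_lit 0) (XT.lf (nat_lit 0) (nat_lit 3671253490) (nat_lit 532) (nat_lit 454845284) (nat_lit 76) (nat_lit 6314685791) (nat_lit 134) (nat_lit 5) (nat_lit 141) (nat_lit 5) (nat_lit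 135) (nat_lit 5) (nat_lit 460) (nat_lit 368) (nat_lit 312)) (XT.nd (nat_lit 78) (nat_lit 380) (nat_lit 0) (XT.lf (nat_lit 0) (nat_lit 6177159375) (nat_lit 380) (nat_lit 650754270) (nat_lit 456) (nat_lit 3730096831) (nat_lit 129) (nat_lit 5) (nat_lit 134) (nat_lit 5) (nat_lit 135) (nat_lit 5) (nat_lit 461) (nat_lit 368) (nat_lit 311)) (XT.lf (nat_lit 0) (nat_lit 2229136201) (nat_lit 380) (nat_lit 7819609039) (nat_lit 456) (nat_lit 628828627) (nat_lit 124) (nat_lit 5) (nat_lit 129) (nat_lit 5) (nat_lit 130) (nat_lit 5) (nat_lit 462) (nat_lit 368) (nat_lit 310))))))))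
noncomputable def xc66 : XT := (XT.nd (nat_lit 1560) (nat_lit 2660) (nat_lit 0) (XT.nd (nat_lit 780) (nat_lit 1900) (nat_lit 0) (XT.nd (nat_lit 390) (nat_lit 1064) (nat_lit 0) (XT.nd (nat_lit 156) (nat_lit 760) (nat_lit 0) (XT.nd (nat_lit 78) (nat_lit 380) (nat_lit 0) (XT.lf (nat_lit 0) (nat_lit 2499943187) (nat_lit 456) (nat_lit 1841072381) (nat_lit 76) (nat_lit 6458222676) (nat_lit 123) (nat_lit 5) (nat_lit 129) (nat_lit 5) (nat_lit 124) (nat_lit 5) (nat_lit 463) (nat_lit 368) (nat_lit 309)) (XT.lf (nat_lit 0) (nat_lit 4907780531) (nat_lit 380) (nat_lit 772468285) (nat_lit 456) (nat_lit 5243069328) (nat_lit 118) (nat_lit 5) (nat_lit 123) (nat_lit 5) (nat_lit 124) (nat_lit 5) (nat_lit 464) (nat_lit 368) (nat_lit 308))) (XT.nd (nat_lit 78) (nat_lit 380) (nat_lit 0) (XT.lf (nat_lit 0) (nat_lit 706383013) (nat_lit 380) (nat_lit 8219165519) (nat_lit 456) (nat_lit 2124316029) (nat_lit 113) (nat_lit 5) (nat_lit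 118) (nat_lit 5) (nat_lit 119) (nat_lit 5) (nat_lit 465) (nat_lit 368) (nat_lit 307)) (XT.nd (nat_lit 78) (nat_lit 304) (nat_lit 0) (XT.lf (nat_lit 0) (nat_lit 1054555462) (nat_lit 456) (nat_lit 3597340841) (nat_lit 76) (nat_lit 6526688494) (nat_lit 112) (nat_lit 5) (nat_lit 118) (nat_lit 5) (nat_lit 113) (nat_lit 5) (nat_lit 466) (nat_lit 368) (nat_lit 306)) (XT.lf (nat_lit 0) (nat_lit 3262197505) (nat_lit 304) (nat_lit 994091745) (nat_lit 380) (nat_lit 7053566711) (nat_lit 108) (nat_lit 5) (nat_lit 112) (nat_lit 5) (nat_lit 113) (nat_lit 5) (nat_lit 467) (nat_lit 368) (nat_lit 305))))) (XT.nd (nat_lit 156) (nat_lit 684) (nat_lit 0) (XT.nd (nat_lit 78) (nat_lit 380) (nat_lit 0) (XT.lf (nat_lit 0) (nat_lit 7530873238) (nat_lit 380) (nat_lit 1203986055) (nat_lit 76) (nat_lit 2708728660) (nat_lit 108) (nat_lit 5) (nat_lit 113) (nat_lit 5) (nat_lit 109) (nat_lit 5) (nat_lit 468) (nat_lit 368) (nat_lit 304))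 (XT.lf (nat_lit 0) (nat_lit 5796512043) (nat_lit 380) (nat_lit 5086053125) (nat_lit 456) (nat_lit 697208577) (nat_lit 103) (nat_lit 5) (nat_lit 108) (nat_lit 5) (nat_lit 109) (nat_lit 5) (nat_lit 469) (nat_lit 368) (nat_lit 303))) (XT.nd (nat_lit 78) (nat_lit 304) (nat_lit 0) (XT.lf (nat_lit 0) (nat_lit 1183920483) (nat_lit 304) (nat_lit 1348128761) (nat_lit 380) (nat_lit 9186643428) (nat_lit 98) (nat_lit 5) (nat_lit 102) (nat_lit 5) (nat_lit 103) (nat_lit 5) (nat_lit 470) (nat_lit 368) (nat_lit 302)) (XT.nd (nat_lit 78) (nat_lit 304) (nat_lit 0) (XT.lf (nat_lit 0) (nat_lit 5839332324) (nat_lit 380) (nat_lit 3561471104) (nat_lit 76) (nat_lit 2459049686) (nat_lit 98) (nat_lit 5) (nat_lit 103) (nat_lit 5) (nat_lit 99) (nat_lit 5) (nat_lit 471) (nat_lit 368) (nat_lit 301)) (XT.lf (nat_lit 0) (nat_lit 3539950535) (nat_lit 304) (nat_lit 5673055315) (nat_lit 380) (nat_lit 2790836629) (nat_lit 94) (nat_lit 5) (nat_lit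 98) (nat_lit 5) (nat_lit 99) (nat_lit 5) (nat_lit 472) (nat_lit 368) (nat_lit 300)))))) (XT.nd (nat_lit 390) (nat_lit 912) (nat_lit 0) (XT.nd (nat_lit 156) (nat_lit 608) (nat_lit 0) (XT.nd (nat_lit 78) (nat_lit 304) (nat_lit 0) (XT.lf (nat_lit 0) (nat_lit 489317107) (nat_lit 380) (nat_lit 1370936379) (nat_lit 76) (nat_lit 10290553399) (nat_lit 93) (nat_lit 5) (nat_lit 98) (nat_lit 5) (nat_lit 94) (nat_lit 5) (nat_lit 473) (nat_lit 368) (nat_lit 299)) (XT.lf (nat_lit 0) (nat_lit 3818357285) (nat_lit 380) (nat_lit 6439196889) (nat_lit 76) (nat_lit 2042384400) (nat_lit 89) (nat_lit 5) (nat_lit 94) (nat_lit 5) (nat_lit 90) (nat_lit 5) (nat_lit 474) (nat_lit 368) (nat_lit 298))) (XT.nd (nat_lit 78) (nat_lit 304) (nat_lit 0) (XT.lf (nat_lit 0) (nat_lit 753073991) (nat_lit 304) (nat_lit 6456601140) (nat_lit 380) (nat_lit 5242473631) (nat_lit 85) (nat_lit 5) (nat_lit 89) (nat_lit 5) (nat_lit 90) (nat_lit 5) (nat_lit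 475) (nat_lit 368) (nat_lit 297)) (XT.nd (nat_lit 78) (nat_lit 304) (nat_lit 0) (XT.lf (nat_lit 0) (nat_lit 8128602301) (nat_lit 304) (nat_lit 2552947216) (nat_lit 380) (nat_lit 1925608642) (nat_lit 85) (nat_lit 5) (nat_lit 89) (nat_lit 5) (nat_lit 90) (nat_lit 5) (nat_lit 476) (nat_lit 368) (nat_lit 296)) (XT.lf (nat_lit 0) (nat_lit 1436353369) (nat_lit 304) (nat_lit 9907497922) (nat_lit 76) (nat_lit 1421278891) (nat_lit 81) (nat_lit 5) (nat_lit 85) (nat_lit 5) (nat_lit 82) (nat_lit 5) (nat_lit 477) (nat_lit 368) (nat_lit 295))))) (XT.nd (nat_lit 156) (nat_lit 608) (nat_lit 0) (XT.nd (nat_lit 78) (nat_lit 304) (nat_lit 0) (XT.lf (nat_lit 0) (nat_lit 4857037278) (nat_lit 304) (nat_lit 2601792035) (nat_lit 76) (nat_lit 5466841490) (nat_lit 81) (nat_lit 5) (nat_lit 85) (nat_lit 5) (nat_lit 82) (nat_lit 5) (nat_lit 478) (nat_lit 368) (nat_lit 294)) (XT.lf (nat_lit 0) (nat_lit 4867269690) (nat_lit 304) (nat_lit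 3481136350) (nat_lit 380) (nat_lit 4740979652) (nat_lit 77) (nat_lit 5) (nat_lit 81) (nat_lit 5) (nat_lit 82) (nat_lit 5) (nat_lit 479) (nat_lit 368) (nat_lit 293))) (XT.nd (nat_lit 78) (nat_lit 608) (nat_lit 0) (XT.lf (nat_lit 0) (nat_lit 11901750024) (nat_lit 380) (nat_lit 785665987) (nat_lit 76) (nat_lit 569124615) (nat_lit 77) (nat_lit 5) (nat_lit 82) (nat_lit 5) (nat_lit 78) (nat_lit 5) (nat_lit 480) (nat_lit 368) (nat_lit 292)) (XT.nd (nat_lit 78) (nat_lit 304) (nat_lit 0) (XT.lf (nat_lit 0) (nat_lit 2110578458) (nat_lit 304) (nat_lit 6620100228) (nat_lit 76) (nat_lit 4695316028) (nat_lit 73) (nat_lit 5) (nat_lit 77) (nat_lit 5) (nat_lit 74) (nat_lit 5) (nat_lit 481) (nat_lit 368) (nat_lit 291)) (XT.lf (nat_lit 0) (nat_lit 918306835) (nat_lit 304) (nat_lit 4691567139) (nat_lit 380) (nat_lit 7989137814) (nat_lit 69) (nat_lit 5) (nat_lit 73) (nat_lit 5) (nat_lit 74) (nat_lit 5) (nat_lit 482) (nat_lit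 368) (nat_lit 290))))))) (XT.nd (nat_lit 780) (nat_lit 1368) (nat_lit 0) (XT.nd (nat_lit 390) (nat_lit 760) (nat_lit 0) (XT.nd (nat_lit 156) (nat_lit 304) (nat_lit 0) (XT.nd (nat_lit 78) (nat_lit 228) (nat_lit 0) (XT.lf (nat_lit 0) (nat_lit 8651587912) (nat_lit 304) (nat_lit 543728282) (nat_lit 380) (nat_lit 4579857836) (nat_lit 69) (nat_lit 5) (nat_lit 73) (nat_lit 5) (nat_lit 74) (nat_lit 5) (nat_lit 483) (nat_lit 368) (nat_lit 289)) (XT.lf (nat_lit 0) (nat_lit 2548978401) (nat_lit 228) (nat_lit 10316157473) (nat_lit 304) (nat_lit 1089478152) (nat_lit 66) (nat_lit 5) (nat_lit 69) (nat_lit 5) (nat_lit 70) (nat_lit 5) (nat_lit 484) (nat_lit 368) (nat_lit 288))) (XT.nd (nat_lit 78) (nat_lit 228) (nat_lit 0) (XT.lf (nat_lit 0) (nat_lit 2448759749) (nat_lit 304) (nat_lit 3757646709) (nat_lit 76) (nat_lit 7930714025) (nat_lit 65) (nat_lit 5) (nat_lit 69) (nat_lit 5) (nat_lit 66) (nat_lit 5) (nat_lit 485) (nat_lit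 368) (nat_lit 287)) (XT.nd (nat_lit 78) (nat_lit 0) (nat_lit 0) (XT.lf (nat_lit 0) (nat_lit 4044754912) (nat_lit 228) (nat_lit 1997482404) (nat_lit 304) (nat_lit 8280921890) (nat_lit 62) (nat_lit 5) (nat_lit 65) (nat_lit 5) (nat_lit 66) (nat_lit 5) (nat_lit 486) (nat_lit 368) (nat_lit 286)) (XT.lf (nat_lit 0) (nat_lit 9720796201) (nat_lit 304) (nat_lit 2517868715) (nat_lit 76) (nat_lit 2273996838) (nat_lit 62) (nat_lit 5) (nat_lit 66) (nat_lit 5) (nat_lit 63) (nat_lit 5) (nat_lit 487) (nat_lit 368) (nat_lit 285))))) (XT.nd (nat_lit 156) (nat_lit 456) (nat_lit 0) (XT.nd (nat_lit 78) (nat_lit 76) (nat_lit 0) (XT.lf (nat_lit 0) (nat_lit 5411978184) (nat_lit 228) (nat_lit 8082769783) (nat_lit 304) (nat_lit 1210777090) (nat_lit 59) (nat_lit 5) (nat_lit 62) (nat_lit 5) (nat_lit 63) (nat_lit 5) (nat_lit 488) (nat_lit 368) (nat_lit 284)) (XT.lf (nat_lit 0) (nat_lit 2400427887) (nat_lit 304) (nat_lit 1427043641)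 (nat_lit 76) (nat_lit 11074653446) (nat_lit 58) (nat_lit 5) (nat_lit 62) (nat_lit 5) (nat_lit 59) (nat_lit 5) (nat_lit 489) (nat_lit 368) (nat_lit 283))) (XT.nd (nat_lit 78) (nat_lit 228) (nat_lit 0) (XT.lf (nat_lit 0) (nat_lit 6088316257) (nat_lit 304) (nat_lit 8472821774) (nat_lit 76) (nat_lit 540952090) (nat_lit 55) (nat_lit 5) (nat_lit 59) (nat_lit 5) (nat_lit 56) (nat_lit 5) (nat_lit 490) (nat_lit 368) (nat_lit 282)) (XT.nd (nat_lit 78) (nat_lit 228) (nat_lit 0) (XT.lf (nat_lit 0) (nat_lit 9859105202) (nat_lit 304) (nat_lit 508217835) (nat_lit 76) (nat_lit 4938555274) (nat_lit 55) (nat_lit 5) (nat_lit 59) (nat_lit 5) (nat_lit 56) (nat_lit 5) (nat_lit 491) (nat_lit 368) (nat_lit 281)) (XT.lf (nat_lit 0) (nat_lit 7674174991) (nat_lit 228) (nat_lit 6055623202) (nat_lit 304) (nat_lit 1783460775) (nat_lit 52) (nat_lit 5) (nat_lit 55) (nat_lit 5) (nat_lit 56) (nat_lit 5) (nat_lit 492) (nat_lit 368) (nat_lit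 280)))))) (XT.nd (nat_lit 390) (nat_lit 608) (nat_lit 0) (XT.nd (nat_lit 156) (nat_lit 456) (nat_lit 0) (XT.nd (nat_lit 78) (nat_lit 0) (nat_lit 0) (XT.lf (nat_lit 0) (nat_lit 250754531) (nat_lit 228) (nat_lit 1656523649) (nat_lit 304) (nat_lit 13817666136) (nat_lit 48) (nat_lit 5) (nat_lit 51) (nat_lit 5) (nat_lit 52) (nat_lit 5) (nat_lit 493) (nat_lit 368) (nat_lit 279)) (XT.lf (nat_lit 0) (nat_lit 5694133039) (nat_lit 304) (nat_lit 7404034181) (nat_lit 76) (nat_lit 2841542840) (nat_lit 48) (nat_lit 5) (nat_lit 52) (nat_lit 5) (nat_lit 49) (nat_lit 5) (nat_lit 494) (nat_lit 368) (nat_lit 278))) (XT.nd (nat_lit 78) (nat_lit 304) (nat_lit 0) (XT.lf (nat_lit 0) (nat_lit 785347961) (nat_lit 152) (nat_lit 8762768668) (nat_lit 228) (nat_lit 6610832631) (nat_lit 46) (nat_lit 5) (nat_lit 48) (nat_lit 5) (nat_lit 49) (nat_lit 5) (nat_lit 495) (nat_lit 368) (nat_lit 277)) (XT.nd (nat_lit 78) (nat_lit 304) (nat_lit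 0) (XT.lf (nat_lit 0) (nat_lit 9197648249) (nat_lit 152) (nat_lit 4306755054) (nat_lit 228) (nat_lit 2877671330) (nat_lit 46) (nat_lit 5) (nat_lit 48) (nat_lit 5) (nat_lit 49) (nat_lit 5) (nat_lit 496) (nat_lit 368) (nat_lit 276)) (XT.lf (nat_lit 0) (nat_lit 902716317) (nat_lit 304) (nat_lit 15474762413) (nat_lit 76) (nat_lit 232373387) (nat_lit 42) (nat_lit 5) (nat_lit 46) (nat_lit 5) (nat_lit 43) (nat_lit 5) (nat_lit 497) (nat_lit 368) (nat_lit 275))))) (XT.nd (nat_lit 234) (nat_lit 456) (nat_lit 0) (XT.nd (nat_lit 78) (nat_lit 152) (nat_lit 0) (XT.lf (nat_lit 0) (nat_lit 4773224611) (nat_lit 304) (nat_lit 7211596141) (nat_lit 76) (nat_lit 4855928590) (nat_lit 42) (nat_lit 5) (nat_lit 46) (nat_lit 5) (nat_lit 43) (nat_lit 5) (nat_lit 498) (nat_lit 368) (nat_lit 274)) (XT.nd (nat_lit 78) (nat_lit 0) (nat_lit 0) (XT.lf (nat_lit 0) (nat_lit 1192413486) (nat_lit 152) (nat_lit 7512899736) (nat_lit 228) (nat_lit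 8371273298) (nat_lit 40) (nat_lit 5) (nat_lit 42) (nat_lit 5) (nat_lit 43) (nat_lit 5) (nat_lit 499) (nat_lit 368) (nat_lit 273)) (XT.lf (nat_lit 0) (nat_lit 9822463247) (nat_lit 152) (nat_lit 2918605991) (nat_lit 228) (nat_lit 4575575997) (nat_lit 40) (nat_lit 5) (nat_lit 42) (nat_lit 5) (nat_lit 43) (nat_lit 5) (nat_lit 500) (nat_lit 368) (nat_lit 272)))) (XT.nd (nat_lit 78) (nat_lit 228) (nat_lit 0) (XT.lf (nat_lit 0) (nat_lit 1026217974) (nat_lit 228) (nat_lit 15826447206) (nat_lit 304) (nat_lit 708942649) (nat_lit 37) (nat_lit 5) (nat_lit 40) (nat_lit 5) (nat_lit 41) (nat_lit 5) (nat_lit 501) (nat_lit 368) (nat_lit 271)) (XT.nd (nat_lit 78) (nat_lit 152) (nat_lit 0) (XT.lf (nat_lit 0) (nat_lit 3239573742) (nat_lit 304) (nat_lit 8071942753) (nat_lit 76) (nat_lit 6498598534) (nat_lit 36) (nat_lit 5) (nat_lit 40) (nat_lit 5) (nat_lit 37) (nat_lit 5) (nat_lit 502) (nat_lit 368) (nat_lit 270)) (XT.lf (nat_lit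 0) (nat_lit 524302727) (nat_lit 152) (nat_lit 6714155264) (nat_lit 228) (nat_lit 10825427757) (nat_lit 34) (nat_lit 5) (nat_lit 36) (nat_lit 5) (nat_lit 37) (nat_lit 5) (nat_lit 503) (nat_lit 368) (nat_lit 269))))))))
noncomputable def xc67 : XT := (XT.nd (nat_lit 52806) (nat_lit 0) (nat_lit 14592) (XT.nd (nat_lit 52026) (nat_lit 0) (nat_lit 26752) (XT.nd (nat_lit 51636) (nat_lit 0) (nat_lit 35948) (XT.nd (nat_lit 51402) (nat_lit 0) (nat_lit 39596) (XT.nd (nat_lit 78) (nat_lit 0) (nat_lit 0) (XT.lf (nat_lit 0) (nat_lit 9363492811) (nat_lit 152) (nat_lit 1985663694) (nat_lit 228) (nat_lit 6972943450) (nat_lit 34) (nat_lit 5) (nat_lit 36) (nat_lit 5) (nat_lit 37) (nat_lit 5) (nat_lit 504) (nat_lit 368) (nat_lit 268)) (XT.lf (nat_lit 0) (nat_lit 15538496432) (nat_lit 228) (nat_lit 262419025) (nat_lit 76) (nat_lit 2784639150) (nat_lit 34) (nat_lit 5) (nat_lit 37) (nat_lit 5) (nat_lit 35) (nat_lit 5) (nat_lit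 505) (nat_lit 368) (nat_lit 267))) (XT.nd (nat_lit 78) (nat_lit 988) (nat_lit 0) (XT.lf (nat_lit 0) (nat_lit 33419897) (nat_lit 988) (nat_lit 3274663103) (nat_lit 0) (nat_lit 33419897) (nat_lit 568) (nat_lit 5) (nat_lit 581) (nat_lit 4) (nat_lit 568) (nat_lit 4) (nat_lit 402) (nat_lit 369) (nat_lit 369)) (XT.nd (nat_lit 78) (nat_lit 988) (nat_lit 0) (XT.lf (nat_lit 0) (nat_lit 3204144840) (nat_lit 988) (nat_lit 2430776421) (nat_lit 0) (nat_lit 1070563672) (nat_lit 568) (nat_lit 5) (nat_lit 581) (nat_lit 4) (nat_lit 568) (nat_lit 4) (nat_lit 403) (nat_lit 369) (nat_lit 368)) (XT.lf (nat_lit 0) (nat_lit 1737566085) (nat_lit 988) (nat_lit 4608698958) (nat_lit 988) (nat_lit 383371548) (nat_lit 555) (nat_lit 4) (nat_lit 568) (nat_lit 5) (nat_lit 568) (nat_lit 4) (nat_lit 404) (nat_lit 369) (nat_lit 367))))) (XT.nd (nat_lit 156) (nat_lit 2508) (nat_lit 0) (XT.nd (nat_lit 78) (nat_lit 1064) (nat_lit 0) (XT.lf (nat_lit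 0) (nat_lit 2707967247) (nat_lit 1064) (nat_lit 805965180) (nat_lit 76) (nat_lit 3241083613) (nat_lit 554) (nat_lit 5) (nat_lit 568) (nat_lit 5) (nat_lit 555) (nat_lit 4) (nat_lit 405) (nat_lit 369) (nat_lit 366)) (XT.lf (nat_lit 0) (nat_lit 3451713141) (nat_lit 1064) (nat_lit 2359323170) (nat_lit 1140) (nat_lit 970775957) (nat_lit 540) (nat_lit 5) (nat_lit 554) (nat_lit 5) (nat_lit 555) (nat_lit 4) (nat_lit 406) (nat_lit 369) (nat_lit 365))) (XT.nd (nat_lit 78) (nat_lit 1292) (nat_lit 0) (XT.lf (nat_lit 0) (nat_lit 939179321) (nat_lit 1140) (nat_lit 1144054122) (nat_lit 1216) (nat_lit 4726795196) (nat_lit 524) (nat_lit 5) (nat_lit 539) (nat_lit 5) (nat_lit 540) (nat_lit 5) (nat_lit 407) (nat_lit 369) (nat_lit 364)) (XT.nd (nat_lit 78) (nat_lit 1292) (nat_lit 0) (XT.lf (nat_lit 0) (nat_lit 5142566016) (nat_lit 1216) (nat_lit 1563124105) (nat_lit 76) (nat_lit 133903158) (nat_lit 524) (nat_lit 5) (nat_lit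 540) (nat_lit 5) (nat_lit 525) (nat_lit 4) (nat_lit 408) (nat_lit 369) (nat_lit 363)) (XT.lf (nat_lit 0) (nat_lit 1335941739) (nat_lit 1292) (nat_lit 4074849035) (nat_lit 76) (nat_lit 1459614815) (nat_lit 507) (nat_lit 5) (nat_lit 524) (nat_lit 5) (nat_lit 508) (nat_lit 5) (nat_lit 409) (nat_lit 369) (nat_lit 362)))))) (XT.nd (nat_lit 390) (nat_lit 4940) (nat_lit 0) (XT.nd (nat_lit 156) (nat_lit 2888) (nat_lit 0) (XT.nd (nat_lit 78) (nat_lit 76) (nat_lit 0) (XT.lf (nat_lit 0) (nat_lit 297588688) (nat_lit 1292) (nat_lit 4057610008) (nat_lit 1368) (nat_lit 2547497883) (nat_lit 490) (nat_lit 5) (nat_lit 507) (nat_lit 5) (nat_lit 508) (nat_lit 5) (nat_lit 410) (nat_lit 369) (nat_lit 361)) (XT.lf (nat_lit 0) (nat_lit 456451149) (nat_lit 1368) (nat_lit 2182309601) (nat_lit 76) (nat_lit 4297583724) (nat_lit 489) (nat_lit 5) (nat_lit 507) (nat_lit 5) (nat_lit 490) (nat_lit 5) (nat_lit 411) (nat_lit 369) (nat_lit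 360))) (XT.nd (nat_lit 78) (nat_lit 1520) (nat_lit 0) (XT.lf (nat_lit 0) (nat_lit 2286660195) (nat_lit 1368) (nat_lit 1152101538) (nat_lit 1444) (nat_lit 3532569659) (nat_lit 471) (nat_lit 5) (nat_lit 489) (nat_lit 5) (nat_lit 490) (nat_lit 5) (nat_lit 412) (nat_lit 369) (nat_lit 359)) (XT.nd (nat_lit 78) (nat_lit 1520) (nat_lit 0) (XT.lf (nat_lit 0) (nat_lit 6436250895) (nat_lit 1444) (nat_lit 190960035) (nat_lit 76) (nat_lit 380746192) (nat_lit 471) (nat_lit 5) (nat_lit 490) (nat_lit 5) (nat_lit 472) (nat_lit 5) (nat_lit 413) (nat_lit 369) (nat_lit 358)) (XT.lf (nat_lit 0) (nat_lit 2391802866) (nat_lit 1520) (nat_lit 2674307900) (nat_lit 76) (nat_lit 1979423672) (nat_lit 451) (nat_lit 5) (nat_lit 471) (nat_lit 5) (nat_lit 452) (nat_lit 5) (nat_lit 414) (nat_lit 369) (nat_lit 357))))) (XT.nd (nat_lit 156) (nat_lit 3344) (nat_lit 0) (XT.nd (nat_lit 78) (nat_lit 76) (nat_lit 0) (XT.lf (nat_lit 0) (nat_lit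 1908909662) (nat_lit 1520) (nat_lit 3451727167) (nat_lit 1596) (nat_lit 1724123549) (nat_lit 431) (nat_lit 5) (nat_lit 451) (nat_lit 5) (nat_lit 452) (nat_lit 5) (nat_lit 415) (nat_lit 369) (nat_lit 356)) (XT.lf (nat_lit 0) (nat_lit 1205961183) (nat_lit 1596) (nat_lit 568904963) (nat_lit 76) (nat_lit 5350616316) (nat_lit 430) (nat_lit 5) (nat_lit 451) (nat_lit 5) (nat_lit 431) (nat_lit 5) (nat_lit 416) (nat_lit 369) (nat_lit 355))) (XT.nd (nat_lit 78) (nat_lit 1748) (nat_lit 0) (XT.lf (nat_lit 0) (nat_lit 4117658143) (nat_lit 1596) (nat_lit 22226542) (nat_lit 1672) (nat_lit 3027584062) (nat_lit 409) (nat_lit 5) (nat_lit 430) (nat_lit 5) (nat_lit 431) (nat_lit 5) (nat_lit 417) (nat_lit 369) (nat_lit 354)) (XT.nd (nat_lit 78) (nat_lit 76) (nat_lit 0) (XT.lf (nat_lit 0) (nat_lit 1649633386) (nat_lit 1672) (nat_lit 5451245357) (nat_lit 1748) (nat_lit 110091457) (nat_lit 387) (nat_lit 5) (nat_lit 409) (nat_lit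 5) (nat_lit 410) (nat_lit 5) (nat_lit 418) (nat_lit 369) (nat_lit 353)) (XT.lf (nat_lit 0) (nat_lit 2791641330) (nat_lit 1748) (nat_lit 845808548) (nat_lit 76) (nat_lit 3618291776) (nat_lit 386) (nat_lit 5) (nat_lit 409) (nat_lit 5) (nat_lit 387) (nat_lit 5) (nat_lit 419) (nat_lit 369) (nat_lit 352))))))) (XT.nd (nat_lit 780) (nat_lit 5092) (nat_lit 0) (XT.nd (nat_lit 390) (nat_lit 2508) (nat_lit 0) (XT.nd (nat_lit 156) (nat_lit 1824) (nat_lit 0) (XT.nd (nat_lit 78) (nat_lit 988) (nat_lit 0) (XT.lf (nat_lit 0) (nat_lit 3959948064) (nat_lit 1748) (nat_lit 1759548183) (nat_lit 1824) (nat_lit 1582547292) (nat_lit 363) (nat_lit 5) (nat_lit 386) (nat_lit 5) (nat_lit 387) (nat_lit 5) (nat_lit 420) (nat_lit 369) (nat_lit 351)) (XT.lf (nat_lit 0) (nat_lit 1299520481) (nat_lit 988) (nat_lit 5872144679) (nat_lit 76) (nat_lit 178255817) (nat_lit 350) (nat_lit 5) (nat_lit 363) (nat_lit 5) (nat_lit 351) (nat_lit 5) (nat_lit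 421) (nat_lit 369) (nat_lit 350))) (XT.nd (nat_lit 78) (nat_lit 1824) (nat_lit 0) (XT.lf (nat_lit 0) (nat_lit 4197208454) (nat_lit 988) (nat_lit 1037718078) (nat_lit 76) (nat_lit 2164075272) (nat_lit 350) (nat_lit 5) (nat_lit 363) (nat_lit 5) (nat_lit 351) (nat_lit 5) (nat_lit 422) (nat_lit 369) (nat_lit 349)) (XT.nd (nat_lit 78) (nat_lit 912) (nat_lit 0) (XT.lf (nat_lit 0) (nat_lit 3889032271) (nat_lit 912) (nat_lit 3235069035) (nat_lit 988) (nat_lit 325575600) (nat_lit 338) (nat_lit 5) (nat_lit 350) (nat_lit 5) (nat_lit 351) (nat_lit 5) (nat_lit 423) (nat_lit 369) (nat_lit 348)) (XT.lf (nat_lit 0) (nat_lit 1372421876) (nat_lit 836) (nat_lit 1163771672) (nat_lit 912) (nat_lit 4965624829) (nat_lit 326) (nat_lit 5) (nat_lit 337) (nat_lit 5) (nat_lit 338) (nat_lit 5) (nat_lit 424) (nat_lit 369) (nat_lit 347))))) (XT.nd (nat_lit 156) (nat_lit 1596) (nat_lit 0) (XT.nd (nat_lit 78) (nat_lit 912) (nat_lit 0) (XT.lf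 (nat_lit 0) (nat_lit 5428046664) (nat_lit 912) (nat_lit 1167053769) (nat_lit 76) (nat_lit 960350550) (nat_lit 326) (nat_lit 5) (nat_lit 338) (nat_lit 5) (nat_lit 327) (nat_lit 5) (nat_lit 425) (nat_lit 369) (nat_lit 346)) (XT.lf (nat_lit 0) (nat_lit 738297311) (nat_lit 912) (nat_lit 3733043828) (nat_lit 76) (nat_lit 3139133885) (nat_lit 314) (nat_lit 5) (nat_lit 326) (nat_lit 5) (nat_lit 315) (nat_lit 5) (nat_lit 426) (nat_lit 369) (nat_lit 345))) (XT.nd (nat_lit 78) (nat_lit 836) (nat_lit 0) (XT.lf (nat_lit 0) (nat_lit 1319631836) (nat_lit 760) (nat_lit 2277991731) (nat_lit 836) (nat_lit 4069432266) (nat_lit 304) (nat_lit 5) (nat_lit 314) (nat_lit 5) (nat_lit 315) (nat_lit 5) (nat_lit 427) (nat_lit 369) (nat_lit 344)) (XT.nd (nat_lit 78) (nat_lit 836) (nat_lit 0) (XT.lf (nat_lit 0) (nat_lit 6468612565) (nat_lit 760) (nat_lit 19547033) (nat_lit 836) (nat_lit 1237161000) (nat_lit 304) (nat_lit 5) (nat_lit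 314) (nat_lit 5) (nat_lit 315) (nat_lit 5) (nat_lit 428) (nat_lit 369) (nat_lit 343)) (XT.lf (nat_lit 0) (nat_lit 1620203663) (nat_lit 836) (nat_lit 3878542626) (nat_lit 76) (nat_lit 2286019191) (nat_lit 293) (nat_lit 5) (nat_lit 304) (nat_lit 5) (nat_lit 294) (nat_lit 5) (nat_lit 429) (nat_lit 369) (nat_lit 342)))))) (XT.nd (nat_lit 390) (nat_lit 2736) (nat_lit 0) (XT.nd (nat_lit 156) (nat_lit 1596) (nat_lit 0) (XT.nd (nat_lit 78) (nat_lit 0) (nat_lit 0) (XT.lf (nat_lit 0) (nat_lit 1297252396) (nat_lit 760) (nat_lit 3188166298) (nat_lit 836) (nat_lit 3360502552) (nat_lit 283) (nat_lit 5) (nat_lit 293) (nat_lit 5) (nat_lit 294) (nat_lit 5) (nat_lit 430) (nat_lit 369) (nat_lit 341)) (XT.lf (nat_lit 0) (nat_lit 6573904119) (nat_lit 760) (nat_lit 810890669) (nat_lit 836) (nat_lit 523998511) (nat_lit 283) (nat_lit 5) (nat_lit 293) (nat_lit 5) (nat_lit 294) (nat_lit 5) (nat_lit 431) (nat_lit 369) (nat_lit 340)))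 (XT.nd (nat_lit 78) (nat_lit 760) (nat_lit 0) (XT.lf (nat_lit 0) (nat_lit 2326061412) (nat_lit 836) (nat_lit 4018851508) (nat_lit 76) (nat_lit 1627973373) (nat_lit 272) (nat_lit 5) (nat_lit 283) (nat_lit 5) (nat_lit 273) (nat_lit 5) (nat_lit 432) (nat_lit 369) (nat_lit 339)) (XT.nd (nat_lit 78) (nat_lit 76) (nat_lit 0) (XT.lf (nat_lit 0) (nat_lit 1281244129) (nat_lit 684) (nat_lit 3919576011) (nat_lit 760) (nat_lit 2837906013) (nat_lit 263) (nat_lit 5) (nat_lit 272) (nat_lit 5) (nat_lit 273) (nat_lit 5) (nat_lit 433) (nat_lit 369) (nat_lit 338)) (XT.lf (nat_lit 0) (nat_lit 6225376) (nat_lit 760) (nat_lit 1419587861) (nat_lit 76) (nat_lit 6680505675) (nat_lit 262) (nat_lit 5) (nat_lit 272) (nat_lit 5) (nat_lit 263) (nat_lit 5) (nat_lit 434) (nat_lit 369) (nat_lit 337))))) (XT.nd (nat_lit 234) (nat_lit 1368) (nat_lit 0) (XT.nd (nat_lit 78) (nat_lit 684) (nat_lit 0) (XT.lf (nat_lit 0) (nat_lit 2855956720) (nat_lit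 760) (nat_lit 4178664414) (nat_lit 76) (nat_lit 1140559796) (nat_lit 253) (nat_lit 5) (nat_lit 263) (nat_lit 5) (nat_lit 254) (nat_lit 5) (nat_lit 435) (nat_lit 369) (nat_lit 336)) (XT.nd (nat_lit 78) (nat_lit 76) (nat_lit 0) (XT.lf (nat_lit 0) (nat_lit 1246645172) (nat_lit 608) (nat_lit 4496857084) (nat_lit 684) (nat_lit 2502327923) (nat_lit 245) (nat_lit 5) (nat_lit 253) (nat_lit 5) (nat_lit 254) (nat_lit 5) (nat_lit 436) (nat_lit 369) (nat_lit 335)) (XT.lf (nat_lit 0) (nat_lit 348185984) (nat_lit 684) (nat_lit 1538251975) (nat_lit 76) (nat_lit 6431788765) (nat_lit 244) (nat_lit 5) (nat_lit 253) (nat_lit 5) (nat_lit 245) (nat_lit 5) (nat_lit 437) (nat_lit 369) (nat_lit 334)))) (XT.nd (nat_lit 78) (nat_lit 684) (nat_lit 0) (XT.lf (nat_lit 0) (nat_lit 3208377826) (nat_lit 760) (nat_lit 4383785461) (nat_lit 76) (nat_lit 799878489) (nat_lit 235) (nat_lit 5) (nat_lit 245) (nat_lit 5) (nat_lit 236) (nat_lit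 5) (nat_lit 438) (nat_lit 369) (nat_lit 333)) (XT.nd (nat_lit 78) (nat_lit 76) (nat_lit 0) (XT.lf (nat_lit 0) (nat_lit 1167325303) (nat_lit 608) (nat_lit 4944206791) (nat_lit 684) (nat_lit 2356110240) (nat_lit 227) (nat_lit 5) (nat_lit 235) (nat_lit 5) (nat_lit 236) (nat_lit 5) (nat_lit 439) (nat_lit 369) (nat_lit 332)) (XT.lf (nat_lit 0) (nat_lit 506184506) (nat_lit 684) (nat_lit 1714004335) (nat_lit 76) (nat_lit 6324818631) (nat_lit 226) (nat_lit 5) (nat_lit 235) (nat_lit 5) (nat_lit 227) (nat_lit 5) (nat_lit 440) (nat_lit 369) (nat_lit 331))))))))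
noncomputable def xc68 : XT := (XT.nd (nat_lit 1560) (nat_lit 4636) (nat_lit 0) (XT.nd (nat_lit 780) (nat_lit 2888) (nat_lit 0) (XT.nd (nat_lit 390) (nat_lit 1748) (nat_lit 0) (XT.nd (nat_lit 156) (nat_lit 1216) (nat_lit 0) (XT.nd (nat_lit 78) (nat_lit 532) (nat_lit 0) (XT.lf (nat_lit 0) (nat_lit 3380165265) (nat_lit 684) (nat_lit 4661384043) (nat_lit 76) (nat_lit 582362328) (nat_lit 218) (nat_lit 5) (nat_lit 227) (nat_lit 5) (nat_lit 219) (nat_lit 5) (nat_lit 441) (nat_lit 369) (nat_lit 330)) (XT.lf (nat_lit 0) (nat_lit 1015724840) (nat_lit 532) (nat_lit 5285590261) (nat_lit 608) (nat_lit 2403307509) (nat_lit 211) (nat_lit 5) (nat_lit 218) (nat_lit 5) (nat_lit 219) (nat_lit 5) (nat_lit 442) (nat_lit 369) (nat_lit 329))) (XT.nd (nat_lit 78) (nat_lit 1140) (nat_lit 0) (XT.lf (nat_lit 0) (nat_lit 475953845) (nat_lit 608) (nat_lit 1974886041) (nat_lit 76) (nat_lit 6336295585) (nat_lit 210) (nat_lit 5) (nat_lit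 218) (nat_lit 5) (nat_lit 211) (nat_lit 5) (nat_lit 443) (nat_lit 369) (nat_lit 328)) (XT.nd (nat_lit 78) (nat_lit 532) (nat_lit 0) (XT.lf (nat_lit 0) (nat_lit 3366447751) (nat_lit 684) (nat_lit 5040266798) (nat_lit 76) (nat_lit 464570990) (nat_lit 202) (nat_lit 5) (nat_lit 211) (nat_lit 5) (nat_lit 203) (nat_lit 5) (nat_lit 444) (nat_lit 369) (nat_lit 327)) (XT.lf (nat_lit 0) (nat_lit 762575933) (nat_lit 532) (nat_lit 5544950300) (nat_lit 608) (nat_lit 2649757684) (nat_lit 195) (nat_lit 5) (nat_lit 202) (nat_lit 5) (nat_lit 203) (nat_lit 5) (nat_lit 445) (nat_lit 369) (nat_lit 326))))) (XT.nd (nat_lit 156) (nat_lit 1140) (nat_lit 0) (XT.nd (nat_lit 78) (nat_lit 532) (nat_lit 0) (XT.lf (nat_lit 0) (nat_lit 251458023) (nat_lit 608) (nat_lit 2350737785) (nat_lit 76) (nat_lit 6442942858) (nat_lit 194) (nat_lit 5) (nat_lit 202) (nat_lit 5) (nat_lit 195) (nat_lit 5) (nat_lit 446) (nat_lit 369) (nat_lit 325))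 (XT.lf (nat_lit 0) (nat_lit 3160562922) (nat_lit 608) (nat_lit 5551169003) (nat_lit 76) (nat_lit 422980987) (nat_lit 187) (nat_lit 5) (nat_lit 195) (nat_lit 5) (nat_lit 188) (nat_lit 5) (nat_lit 447) (nat_lit 369) (nat_lit 324))) (XT.nd (nat_lit 78) (nat_lit 608) (nat_lit 0) (XT.lf (nat_lit 0) (nat_lit 376603649) (nat_lit 532) (nat_lit 5746421986) (nat_lit 608) (nat_lit 3103168713) (nat_lit 180) (nat_lit 5) (nat_lit 187) (nat_lit 5) (nat_lit 188) (nat_lit 5) (nat_lit 448) (nat_lit 369) (nat_lit 323)) (XT.nd (nat_lit 78) (nat_lit 608) (nat_lit 0) (XT.lf (nat_lit 0) (nat_lit 6444921036) (nat_lit 532) (nat_lit 2697132158) (nat_lit 608) (nat_lit 177524748) (nat_lit 180) (nat_lit 5) (nat_lit 187) (nat_lit 5) (nat_lit 188) (nat_lit 5) (nat_lit 449) (nat_lit 369) (nat_lit 322)) (XT.lf (nat_lit 0) (nat_lit 2753961987) (nat_lit 608) (nat_lit 6227068119) (nat_lit 76) (nat_lit 433769974) (nat_lit 172) (nat_lit 5) (nat_lit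 180) (nat_lit 5) (nat_lit 173) (nat_lit 5) (nat_lit 450) (nat_lit 369) (nat_lit 321)))))) (XT.nd (nat_lit 390) (nat_lit 1444) (nat_lit 0) (XT.nd (nat_lit 156) (nat_lit 988) (nat_lit 0) (XT.nd (nat_lit 78) (nat_lit 456) (nat_lit 0) (XT.lf (nat_lit 0) (nat_lit 5739899285) (nat_lit 608) (nat_lit 173490381) (nat_lit 76) (nat_lit 3598567324) (nat_lit 172) (nat_lit 5) (nat_lit 180) (nat_lit 5) (nat_lit 173) (nat_lit 5) (nat_lit 451) (nat_lit 369) (nat_lit 320)) (XT.lf (nat_lit 0) (nat_lit 6028140971) (nat_lit 456) (nat_lit 2758235054) (nat_lit 532) (nat_lit 824682006) (nat_lit 166) (nat_lit 5) (nat_lit 172) (nat_lit 5) (nat_lit 173) (nat_lit 5) (nat_lit 452) (nat_lit 369) (nat_lit 319))) (XT.nd (nat_lit 78) (nat_lit 456) (nat_lit 0) (XT.lf (nat_lit 0) (nat_lit 2136097206) (nat_lit 532) (nat_lit 7103522460) (nat_lit 76) (nat_lit 472593491) (nat_lit 159) (nat_lit 5) (nat_lit 166) (nat_lit 5) (nat_lit 160) (nat_lit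 5) (nat_lit 453) (nat_lit 369) (nat_lit 318)) (XT.nd (nat_lit 78) (nat_lit 456) (nat_lit 0) (XT.lf (nat_lit 0) (nat_lit 5149677818) (nat_lit 532) (nat_lit 918695007) (nat_lit 76) (nat_lit 3746833376) (nat_lit 159) (nat_lit 5) (nat_lit 166) (nat_lit 5) (nat_lit 160) (nat_lit 5) (nat_lit 454) (nat_lit 369) (nat_lit 317)) (XT.lf (nat_lit 0) (nat_lit 5409207680) (nat_lit 456) (nat_lit 2812333742) (nat_lit 532) (nat_lit 1698773536) (nat_lit 153) (nat_lit 5) (nat_lit 159) (nat_lit 5) (nat_lit 160) (nat_lit 5) (nat_lit 455) (nat_lit 369) (nat_lit 316))))) (XT.nd (nat_lit 156) (nat_lit 912) (nat_lit 0) (XT.nd (nat_lit 78) (nat_lit 0) (nat_lit 0) (XT.lf (nat_lit 0) (nat_lit 1294290942) (nat_lit 532) (nat_lit 8219038242) (nat_lit 76) (nat_lit 514352157) (nat_lit 146) (nat_lit 5) (nat_lit 153) (nat_lit 5) (nat_lit 147) (nat_lit 5) (nat_lit 456) (nat_lit 369) (nat_lit 315)) (XT.lf (nat_lit 0) (nat_lit 4336911188) (nat_lit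 532) (nat_lit 1902769130) (nat_lit 76) (nat_lit 3897056488) (nat_lit 146) (nat_lit 5) (nat_lit 153) (nat_lit 5) (nat_lit 147) (nat_lit 5) (nat_lit 457) (nat_lit 369) (nat_lit 314))) (XT.nd (nat_lit 78) (nat_lit 532) (nat_lit 0) (XT.lf (nat_lit 0) (nat_lit 4548457744) (nat_lit 380) (nat_lit 2885499546) (nat_lit 456) (nat_lit 2814159479) (nat_lit 141) (nat_lit 5) (nat_lit 146) (nat_lit 5) (nat_lit 147) (nat_lit 5) (nat_lit 458) (nat_lit 369) (nat_lit 313)) (XT.nd (nat_lit 78) (nat_lit 0) (nat_lit 0) (XT.lf (nat_lit 0) (nat_lit 213584874) (nat_lit 532) (nat_lit 9615468510) (nat_lit 76) (nat_lit 532947253) (nat_lit 134) (nat_lit 5) (nat_lit 141) (nat_lit 5) (nat_lit 135) (nat_lit 5) (nat_lit 459) (nat_lit 369) (nat_lit 312)) (XT.lf (nat_lit 0) (nat_lit 3286288476) (nat_lit 532) (nat_lit 3167952044) (nat_lit 76) (nat_lit 4023121911) (nat_lit 134) (nat_lit 5) (nat_lit 141) (nat_lit 5) (nat_lit 135) (nat_lit 5)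 (nat_lit 460) (nat_lit 369) (nat_lit 311))))))) (XT.nd (nat_lit 780) (nat_lit 2204) (nat_lit 0) (XT.nd (nat_lit 390) (nat_lit 1216) (nat_lit 0) (XT.nd (nat_lit 156) (nat_lit 836) (nat_lit 0) (XT.nd (nat_lit 78) (nat_lit 0) (nat_lit 0) (XT.lf (nat_lit 0) (nat_lit 3402687774) (nat_lit 380) (nat_lit 3004988585) (nat_lit 456) (nat_lit 4187624224) (nat_lit 129) (nat_lit 5) (nat_lit 134) (nat_lit 5) (nat_lit 135) (nat_lit 5) (nat_lit 461) (nat_lit 369) (nat_lit 310)) (XT.lf (nat_lit 0) (nat_lit 9581618212) (nat_lit 456) (nat_lit 621686690) (nat_lit 76) (nat_lit 512503527) (nat_lit 129) (nat_lit 5) (nat_lit 135) (nat_lit 5) (nat_lit 130) (nat_lit 5) (nat_lit 462) (nat_lit 369) (nat_lit 309))) (XT.nd (nat_lit 78) (nat_lit 380) (nat_lit 0) (XT.lf (nat_lit 0) (nat_lit 1980016115) (nat_lit 456) (nat_lit 4760344344) (nat_lit 76) (nat_lit 4097608242) (nat_lit 123) (nat_lit 5) (nat_lit 129) (nat_lit 5) (nat_lit 124) (nat_lit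 5) (nat_lit 463) (nat_lit 369) (nat_lit 308)) (XT.nd (nat_lit 78) (nat_lit 0) (nat_lit 0) (XT.lf (nat_lit 0) (nat_lit 1924699587) (nat_lit 380) (nat_lit 3199512587) (nat_lit 456) (nat_lit 5838564895) (nat_lit 118) (nat_lit 5) (nat_lit 123) (nat_lit 5) (nat_lit 124) (nat_lit 5) (nat_lit 464) (nat_lit 369) (nat_lit 307)) (XT.lf (nat_lit 0) (nat_lit 8332543595) (nat_lit 456) (nat_lit 2334472131) (nat_lit 76) (nat_lit 423053280) (nat_lit 118) (nat_lit 5) (nat_lit 124) (nat_lit 5) (nat_lit 119) (nat_lit 5) (nat_lit 465) (nat_lit 369) (nat_lit 306))))) (XT.nd (nat_lit 156) (nat_lit 456) (nat_lit 0) (XT.nd (nat_lit 78) (nat_lit 304) (nat_lit 0) (XT.lf (nat_lit 0) (nat_lit 397617644) (nat_lit 456) (nat_lit 6730390442) (nat_lit 76) (nat_lit 4091509958) (nat_lit 112) (nat_lit 5) (nat_lit 118) (nat_lit 5) (nat_lit 113) (nat_lit 5) (nat_lit 466) (nat_lit 369) (nat_lit 305)) (XT.lf (nat_lit 0) (nat_lit 62803093) (nat_lit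 304) (nat_lit 3499527700) (nat_lit 380) (nat_lit 7789204627) (nat_lit 108) (nat_lit 5) (nat_lit 112) (nat_lit 5) (nat_lit 113) (nat_lit 5) (nat_lit 467) (nat_lit 369) (nat_lit 304))) (XT.nd (nat_lit 78) (nat_lit 456) (nat_lit 0) (XT.lf (nat_lit 0) (nat_lit 6804508260) (nat_lit 380) (nat_lit 4453291321) (nat_lit 76) (nat_lit 228121647) (nat_lit 108) (nat_lit 5) (nat_lit 113) (nat_lit 5) (nat_lit 109) (nat_lit 5) (nat_lit 468) (nat_lit 369) (nat_lit 303)) (XT.nd (nat_lit 78) (nat_lit 76) (nat_lit 0) (XT.lf (nat_lit 0) (nat_lit 2479688048) (nat_lit 380) (nat_lit 7639154015) (nat_lit 456) (nat_lit 1504017692) (nat_lit 103) (nat_lit 5) (nat_lit 108) (nat_lit 5) (nat_lit 109) (nat_lit 5) (nat_lit 469) (nat_lit 369) (nat_lit 302)) (XT.lf (nat_lit 0) (nat_lit 1712357863) (nat_lit 456) (nat_lit 2210353509) (nat_lit 76) (nat_lit 7839646709) (nat_lit 102) (nat_lit 5) (nat_lit 108) (nat_lit 5) (nat_lit 103) (nat_lit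 5) (nat_lit 470) (nat_lit 369) (nat_lit 301)))))) (XT.nd (nat_lit 390) (nat_lit 1216) (nat_lit 0) (XT.nd (nat_lit 156) (nat_lit 684) (nat_lit 0) (XT.nd (nat_lit 78) (nat_lit 0) (nat_lit 0) (XT.lf (nat_lit 0) (nat_lit 4867318491) (nat_lit 304) (nat_lit 105979846) (nat_lit 380) (nat_lit 6931152291) (nat_lit 98) (nat_lit 5) (nat_lit 102) (nat_lit 5) (nat_lit 103) (nat_lit 5) (nat_lit 471) (nat_lit 369) (nat_lit 300)) (XT.lf (nat_lit 0) (nat_lit 8307930756) (nat_lit 380) (nat_lit 5155838) (nat_lit 76) (nat_lit 3736139371) (nat_lit 98) (nat_lit 5) (nat_lit 103) (nat_lit 5) (nat_lit 99) (nat_lit 5) (nat_lit 472) (nat_lit 369) (nat_lit 299))) (XT.nd (nat_lit 78) (nat_lit 380) (nat_lit 0) (XT.lf (nat_lit 0) (nat_lit 7214428808) (nat_lit 304) (nat_lit 4511932464) (nat_lit 380) (nat_lit 470203625) (nat_lit 94) (nat_lit 5) (nat_lit 98) (nat_lit 5) (nat_lit 99) (nat_lit 5) (nat_lit 473) (nat_lit 369) (nat_lit 298))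 (XT.nd (nat_lit 78) (nat_lit 0) (nat_lit 0) (XT.lf (nat_lit 0) (nat_lit 2194747246) (nat_lit 304) (nat_lit 617902203) (nat_lit 380) (nat_lit 9534160126) (nat_lit 89) (nat_lit 5) (nat_lit 93) (nat_lit 5) (nat_lit 94) (nat_lit 5) (nat_lit 474) (nat_lit 369) (nat_lit 297)) (XT.lf (nat_lit 0) (nat_lit 6180130665) (nat_lit 380) (nat_lit 2989044999) (nat_lit 76) (nat_lit 3330325589) (nat_lit 89) (nat_lit 5) (nat_lit 94) (nat_lit 5) (nat_lit 90) (nat_lit 5) (nat_lit 475) (nat_lit 369) (nat_lit 296))))) (XT.nd (nat_lit 234) (nat_lit 608) (nat_lit 0) (XT.nd (nat_lit 78) (nat_lit 304) (nat_lit 0) (XT.lf (nat_lit 0) (nat_lit 4323525668) (nat_lit 304) (nat_lit 5294021264) (nat_lit 380) (nat_lit 3037657545) (nat_lit 85) (nat_lit 5) (nat_lit 89) (nat_lit 5) (nat_lit 90) (nat_lit 5) (nat_lit 476) (nat_lit 369) (nat_lit 295)) (XT.nd (nat_lit 78) (nat_lit 228) (nat_lit 0) (XT.lf (nat_lit 0) (nat_lit 296319256) (nat_lit 380)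 (nat_lit 1039314232) (nat_lit 76) (nat_lit 11478543297) (nat_lit 84) (nat_lit 5) (nat_lit 89) (nat_lit 5) (nat_lit 85) (nat_lit 5) (nat_lit 477) (nat_lit 369) (nat_lit 294)) (XT.lf (nat_lit 0) (nat_lit 3686928486) (nat_lit 304) (nat_lit 6576082759) (nat_lit 76) (nat_lit 2712312050) (nat_lit 81) (nat_lit 5) (nat_lit 85) (nat_lit 5) (nat_lit 82) (nat_lit 5) (nat_lit 478) (nat_lit 369) (nat_lit 293)))) (XT.nd (nat_lit 78) (nat_lit 304) (nat_lit 0) (XT.lf (nat_lit 0) (nat_lit 817248447) (nat_lit 304) (nat_lit 6320518098) (nat_lit 380) (nat_lit 6002086562) (nat_lit 77) (nat_lit 5) (nat_lit 81) (nat_lit 5) (nat_lit 82) (nat_lit 5) (nat_lit 479) (nat_lit 369) (nat_lit 292)) (XT.nd (nat_lit 78) (nat_lit 304) (nat_lit 0) (XT.lf (nat_lit 0) (nat_lit 8402207534) (nat_lit 304) (nat_lit 2271056740) (nat_lit 380) (nat_lit 2634104916) (nat_lit 77) (nat_lit 5) (nat_lit 81) (nat_lit 5) (nat_lit 82) (nat_lit 5) (nat_lit 480)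 (nat_lit 369) (nat_lit 291)) (XT.lf (nat_lit 0) (nat_lit 791893847) (nat_lit 304) (nat_lit 10845220951) (nat_lit 76) (nat_lit 1841001638) (nat_lit 73) (nat_lit 5) (nat_lit 77) (nat_lit 5) (nat_lit 74) (nat_lit 5) (nat_lit 481) (nat_lit 369) (nat_lit 290))))))))
noncomputable def xc69 : XT := (XT.nd (nat_lit 1560) (nat_lit 456) (nat_lit 0) (XT.nd (nat_lit 780) (nat_lit 1140) (nat_lit 0) (XT.nd (nat_lit 390) (nat_lit 760) (nat_lit 0) (XT.nd (nat_lit 156) (nat_lit 304) (nat_lit 0) (XT.nd (nat_lit 78) (nat_lit 304) (nat_lit 0) (XT.lf (nat_lit 0) (nat_lit 4271381911) (nat_lit 304) (nat_lit 3341151144) (nat_lit 76) (nat_lit 6039000585) (nat_lit 73) (nat_lit 5) (nat_lit 77) (nat_lit 5) (nat_lit 74) (nat_lit 5) (nat_lit 482) (nat_lit 369) (nat_lit 289)) (XT.lf (nat_lit 0) (nat_lit 4325580962) (nat_lit 304) (nat_lit 3495544397) (nat_lit 380) (nat_lit 6007288400) (nat_lit 69) (nat_lit 5) (nat_lit 73) (nat_lit 5) (nat_lit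 74) (nat_lit 5) (nat_lit 483) (nat_lit 369) (nat_lit 288))) (XT.nd (nat_lit 78) (nat_lit 304) (nat_lit 0) (XT.lf (nat_lit 0) (nat_lit 11441728035) (nat_lit 380) (nat_lit 1866465160) (nat_lit 76) (nat_lit 700648727) (nat_lit 69) (nat_lit 5) (nat_lit 74) (nat_lit 5) (nat_lit 70) (nat_lit 5) (nat_lit 484) (nat_lit 369) (nat_lit 287)) (XT.nd (nat_lit 78) (nat_lit 0) (nat_lit 0) (XT.lf (nat_lit 0) (nat_lit 964671563) (nat_lit 304) (nat_lit 8264663119) (nat_lit 76) (nat_lit 4962725888) (nat_lit 65) (nat_lit 5) (nat_lit 69) (nat_lit 5) (nat_lit 66) (nat_lit 5) (nat_lit 485) (nat_lit 369) (nat_lit 286)) (XT.lf (nat_lit 0) (nat_lit 4518680830) (nat_lit 304) (nat_lit 536848533) (nat_lit 76) (nat_lit 9323362903) (nat_lit 65) (nat_lit 5) (nat_lit 69) (nat_lit 5) (nat_lit 66) (nat_lit 5) (nat_lit 486) (nat_lit 369) (nat_lit 285))))) (XT.nd (nat_lit 156) (nat_lit 304) (nat_lit 0) (XT.nd (nat_lit 78) (nat_lit 228) (nat_lit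 0) (XT.lf (nat_lit 0) (nat_lit 7399917232) (nat_lit 228) (nat_lit 765743042) (nat_lit 304) (nat_lit 6403369662) (nat_lit 62) (nat_lit 5) (nat_lit 65) (nat_lit 5) (nat_lit 66) (nat_lit 5) (nat_lit 487) (nat_lit 369) (nat_lit 284)) (XT.lf (nat_lit 0) (nat_lit 682492597) (nat_lit 228) (nat_lit 11208557447) (nat_lit 304) (nat_lit 2871817901) (nat_lit 59) (nat_lit 5) (nat_lit 62) (nat_lit 5) (nat_lit 63) (nat_lit 5) (nat_lit 488) (nat_lit 369) (nat_lit 283))) (XT.nd (nat_lit 78) (nat_lit 228) (nat_lit 0) (XT.lf (nat_lit 0) (nat_lit 748316663) (nat_lit 304) (nat_lit 6224307586) (nat_lit 76) (nat_lit 7987319740) (nat_lit 58) (nat_lit 5) (nat_lit 62) (nat_lit 5) (nat_lit 59) (nat_lit 5) (nat_lit 489) (nat_lit 369) (nat_lit 282)) (XT.nd (nat_lit 78) (nat_lit 0) (nat_lit 0) (XT.lf (nat_lit 0) (nat_lit 1750800920) (nat_lit 228) (nat_lit 2637544205) (nat_lit 304) (nat_lit 10772524476) (nat_lit 55) (nat_lit 5) (nat_lit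 58) (nat_lit 5) (nat_lit 59) (nat_lit 5) (nat_lit 490) (nat_lit 369) (nat_lit 281)) (XT.lf (nat_lit 0) (nat_lit 8129466033) (nat_lit 304) (nat_lit 5449207074) (nat_lit 76) (nat_lit 1786581246) (nat_lit 55) (nat_lit 5) (nat_lit 59) (nat_lit 5) (nat_lit 56) (nat_lit 5) (nat_lit 491) (nat_lit 369) (nat_lit 280)))))) (XT.nd (nat_lit 390) (nat_lit 456) (nat_lit 0) (XT.nd (nat_lit 156) (nat_lit 380) (nat_lit 0) (XT.nd (nat_lit 78) (nat_lit 76) (nat_lit 0) (XT.lf (nat_lit 0) (nat_lit 2646792870) (nat_lit 228) (nat_lit 9308427652) (nat_lit 304) (nat_lit 3618316396) (nat_lit 52) (nat_lit 5) (nat_lit 55) (nat_lit 5) (nat_lit 56) (nat_lit 5) (nat_lit 492) (nat_lit 369) (nat_lit 279)) (XT.lf (nat_lit 0) (nat_lit 82586974) (nat_lit 304) (nat_lit 4848770505) (nat_lit 76) (nat_lit 10854384068) (nat_lit 51) (nat_lit 5) (nat_lit 55) (nat_lit 5) (nat_lit 52) (nat_lit 5) (nat_lit 493) (nat_lit 369) (nat_lit 278))) (XT.nd (nat_lit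 78) (nat_lit 152) (nat_lit 0) (XT.lf (nat_lit 0) (nat_lit 3370426906) (nat_lit 228) (nat_lit 436257248) (nat_lit 304) (nat_lit 12195081248) (nat_lit 48) (nat_lit 5) (nat_lit 51) (nat_lit 5) (nat_lit 52) (nat_lit 5) (nat_lit 494) (nat_lit 369) (nat_lit 277)) (XT.nd (nat_lit 78) (nat_lit 152) (nat_lit 0) (XT.lf (nat_lit 0) (nat_lit 7640759125) (nat_lit 304) (nat_lit 4469568589) (nat_lit 76) (nat_lit 4111077960) (nat_lit 48) (nat_lit 5) (nat_lit 52) (nat_lit 5) (nat_lit 49) (nat_lit 5) (nat_lit 495) (nat_lit 369) (nat_lit 276)) (XT.lf (nat_lit 0) (nat_lit 3863321287) (nat_lit 152) (nat_lit 7692447219) (nat_lit 228) (nat_lit 4889590930) (nat_lit 46) (nat_lit 5) (nat_lit 48) (nat_lit 5) (nat_lit 49) (nat_lit 5) (nat_lit 496) (nat_lit 369) (nat_lit 275))))) (XT.nd (nat_lit 156) (nat_lit 152) (nat_lit 0) (XT.nd (nat_lit 78) (nat_lit 304) (nat_lit 0) (XT.lf (nat_lit 0) (nat_lit 12383823142) (nat_lit 152) (nat_lit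 3171736408) (nat_lit 228) (nat_lit 1118108724) (nat_lit 46) (nat_lit 5) (nat_lit 48) (nat_lit 5) (nat_lit 49) (nat_lit 5) (nat_lit 497) (nat_lit 369) (nat_lit 274)) (XT.lf (nat_lit 0) (nat_lit 2706391978) (nat_lit 304) (nat_lit 12749712981) (nat_lit 76) (nat_lit 1449821845) (nat_lit 42) (nat_lit 5) (nat_lit 46) (nat_lit 5) (nat_lit 43) (nat_lit 5) (nat_lit 498) (nat_lit 369) (nat_lit 273))) (XT.nd (nat_lit 78) (nat_lit 152) (nat_lit 0) (XT.lf (nat_lit 0) (nat_lit 6619298255) (nat_lit 304) (nat_lit 4380784260) (nat_lit 76) (nat_lit 6142067741) (nat_lit 42) (nat_lit 5) (nat_lit 46) (nat_lit 5) (nat_lit 43) (nat_lit 5) (nat_lit 499) (nat_lit 369) (nat_lit 272)) (XT.nd (nat_lit 78) (nat_lit 0) (nat_lit 0) (XT.lf (nat_lit 0) (nat_lit 4171732903) (nat_lit 152) (nat_lit 6443158945) (nat_lit 228) (nat_lit 6768122946) (nat_lit 40) (nat_lit 5) (nat_lit 42) (nat_lit 5) (nat_lit 43) (nat_lit 5) (nat_lit 500) (nat_lit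 369) (nat_lit 271)) (XT.lf (nat_lit 0) (nat_lit 12916433245) (nat_lit 152) (nat_lit 1780900869) (nat_lit 228) (nat_lit 2931228872) (nat_lit 40) (nat_lit 5) (nat_lit 42) (nat_lit 5) (nat_lit 43) (nat_lit 5) (nat_lit 501) (nat_lit 369) (nat_lit 270))))))) (XT.nd (nat_lit 51870) (nat_lit 0) (nat_lit 30096) (XT.nd (nat_lit 51480) (nat_lit 0) (nat_lit 39520) (XT.nd (nat_lit 156) (nat_lit 152) (nat_lit 0) (XT.nd (nat_lit 78) (nat_lit 0) (nat_lit 0) (XT.lf (nat_lit 0) (nat_lit 992514393) (nat_lit 304) (nat_lit 13933425324) (nat_lit 76) (nat_lit 2952499844) (nat_lit 36) (nat_lit 5) (nat_lit 40) (nat_lit 5) (nat_lit 37) (nat_lit 5) (nat_lit 502) (nat_lit 369) (nat_lit 269)) (XT.lf (nat_lit 0) (nat_lit 4977063283) (nat_lit 304) (nat_lit 5362815585) (nat_lit 76) (nat_lit 7792620498) (nat_lit 36) (nat_lit 5) (nat_lit 40) (nat_lit 5) (nat_lit 37) (nat_lit 5) (nat_lit 503) (nat_lit 369) (nat_lit 268))) (XT.nd (nat_lit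 78) (nat_lit 0) (nat_lit 0) (XT.lf (nat_lit 0) (nat_lit 3386469502) (nat_lit 152) (nat_lit 5655172715) (nat_lit 228) (nat_lit 9349996078) (nat_lit 34) (nat_lit 5) (nat_lit 36) (nat_lit 5) (nat_lit 37) (nat_lit 5) (nat_lit 504) (nat_lit 369) (nat_lit 267)) (XT.nd (nat_lit 51168) (nat_lit 0) (nat_lit 42408) (XT.lf (nat_lit 0) (nat_lit 12346528080) (nat_lit 152) (nat_lit 855508680) (nat_lit 228) (nat_lit 5453637382) (nat_lit 34) (nat_lit 5) (nat_lit 36) (nat_lit 5) (nat_lit 37) (nat_lit 5) (nat_lit 505) (nat_lit 369) (nat_lit 266)) (XT.lf (nat_lit 0) (nat_lit 1327932603) (nat_lit 836) (nat_lit 664480469) (nat_lit 0) (nat_lit 1327932603) (nat_lit 592) (nat_lit 5) (nat_lit 603) (nat_lit 4) (nat_lit 592) (nat_lit 4) (nat_lit 400) (nat_lit 370) (nat_lit 370))))) (XT.nd (nat_lit 156) (nat_lit 1064) (nat_lit 0) (XT.nd (nat_lit 78) (nat_lit 988) (nat_lit 0) (XT.lf (nat_lit 0) (nat_lit 2707492659) (nat_lit 836) (nat_lit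 3086832029) (nat_lit 836) (nat_lit 867054183) (nat_lit 581) (nat_lit 4) (nat_lit 592) (nat_lit 5) (nat_lit 592) (nat_lit 4) (nat_lit 401) (nat_lit 370) (nat_lit 369)) (XT.lf (nat_lit 0) (nat_lit 92350119) (nat_lit 912) (nat_lit 2129620552) (nat_lit 988) (nat_lit 4461490040) (nat_lit 568) (nat_lit 5) (nat_lit 580) (nat_lit 5) (nat_lit 581) (nat_lit 4) (nat_lit 402) (nat_lit 370) (nat_lit 368))) (XT.nd (nat_lit 78) (nat_lit 1064) (nat_lit 0) (XT.lf (nat_lit 0) (nat_lit 4213473189) (nat_lit 912) (nat_lit 1104885718) (nat_lit 988) (nat_lit 1388431119) (nat_lit 568) (nat_lit 5) (nat_lit 580) (nat_lit 5) (nat_lit 581) (nat_lit 4) (nat_lit 403) (nat_lit 370) (nat_lit 367)) (XT.nd (nat_lit 78) (nat_lit 0) (nat_lit 0) (XT.lf (nat_lit 0) (nat_lit 1642911035) (nat_lit 988) (nat_lit 22478369) (nat_lit 1064) (nat_lit 5066187594) (nat_lit 554) (nat_lit 5) (nat_lit 567) (nat_lit 5) (nat_lit 568) (nat_lit 5) (nat_lit 404)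 (nat_lit 370) (nat_lit 366)) (XT.lf (nat_lit 0) (nat_lit 4718198442) (nat_lit 1064) (nat_lit 932072144) (nat_lit 76) (nat_lit 1107336118) (nat_lit 554) (nat_lit 5) (nat_lit 568) (nat_lit 5) (nat_lit 555) (nat_lit 4) (nat_lit 405) (nat_lit 370) (nat_lit 365)))))) (XT.nd (nat_lit 390) (nat_lit 4560) (nat_lit 0) (XT.nd (nat_lit 156) (nat_lit 2584) (nat_lit 0) (XT.nd (nat_lit 78) (nat_lit 1140) (nat_lit 0) (XT.lf (nat_lit 0) (nat_lit 989306976) (nat_lit 1140) (nat_lit 3494674410) (nat_lit 76) (nat_lit 2300994924) (nat_lit 539) (nat_lit 5) (nat_lit 554) (nat_lit 5) (nat_lit 540) (nat_lit 5) (nat_lit 406) (nat_lit 370) (nat_lit 364)) (XT.lf (nat_lit 0) (nat_lit 738752238) (nat_lit 1140) (nat_lit 3258056633) (nat_lit 1216) (nat_lit 2816961537) (nat_lit 524) (nat_lit 5) (nat_lit 539) (nat_lit 5) (nat_lit 540) (nat_lit 5) (nat_lit 407) (nat_lit 370) (nat_lit 363))) (XT.nd (nat_lit 78) (nat_lit 2508) (nat_lit 0) (XT.lf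 (nat_lit 0) (nat_lit 176878090) (nat_lit 1216) (nat_lit 1794986766) (nat_lit 76) (nat_lit 4872132481) (nat_lit 523) (nat_lit 5) (nat_lit 539) (nat_lit 5) (nat_lit 524) (nat_lit 5) (nat_lit 408) (nat_lit 370) (nat_lit 362)) (XT.nd (nat_lit 78) (nat_lit 1292) (nat_lit 0) (XT.lf (nat_lit 0) (nat_lit 2531324167) (nat_lit 1216) (nat_lit 614152820) (nat_lit 1292) (nat_lit 3729981202) (nat_lit 507) (nat_lit 5) (nat_lit 523) (nat_lit 5) (nat_lit 524) (nat_lit 5) (nat_lit 409) (nat_lit 370) (nat_lit 361)) (XT.lf (nat_lit 0) (nat_lit 1234377) (nat_lit 1292) (nat_lit 6126448141) (nat_lit 1368) (nat_lit 780833811) (nat_lit 490) (nat_lit 5) (nat_lit 507) (nat_lit 5) (nat_lit 508) (nat_lit 5) (nat_lit 410) (nat_lit 370) (nat_lit 360))))) (XT.nd (nat_lit 234) (nat_lit 3040) (nat_lit 0) (XT.nd (nat_lit 78) (nat_lit 1444) (nat_lit 0) (XT.lf (nat_lit 0) (nat_lit 2169012018) (nat_lit 1368) (nat_lit 2523381528) (nat_lit 76)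 (nat_lit 2250185039) (nat_lit 489) (nat_lit 5) (nat_lit 507) (nat_lit 5) (nat_lit 490) (nat_lit 5) (nat_lit 411) (nat_lit 370) (nat_lit 359)) (XT.nd (nat_lit 78) (nat_lit 76) (nat_lit 0) (XT.lf (nat_lit 0) (nat_lit 1913808535) (nat_lit 1368) (nat_lit 3204766712) (nat_lit 1444) (nat_lit 1859669817) (nat_lit 471) (nat_lit 5) (nat_lit 489) (nat_lit 5) (nat_lit 490) (nat_lit 5) (nat_lit 412) (nat_lit 370) (nat_lit 358)) (XT.lf (nat_lit 0) (nat_lit 1054102548) (nat_lit 1444) (nat_lit 602490390) (nat_lit 76) (nat_lit 5358811493) (nat_lit 470) (nat_lit 5) (nat_lit 489) (nat_lit 5) (nat_lit 471) (nat_lit 5) (nat_lit 413) (nat_lit 370) (nat_lit 357)))) (XT.nd (nat_lit 78) (nat_lit 1596) (nat_lit 0) (XT.lf (nat_lit 0) (nat_lit 3934235593) (nat_lit 1444) (nat_lit 32917028) (nat_lit 1520) (nat_lit 3086637304) (nat_lit 451) (nat_lit 5) (nat_lit 470) (nat_lit 5) (nat_lit 471) (nat_lit 5) (nat_lit 414) (nat_lit 370) (nat_lit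 356)) (XT.nd (nat_lit 78) (nat_lit 76) (nat_lit 0) (XT.lf (nat_lit 0) (nat_lit 1430550624) (nat_lit 1520) (nat_lit 5473005003) (nat_lit 1596) (nat_lit 190131596) (nat_lit 431) (nat_lit 5) (nat_lit 451) (nat_lit 5) (nat_lit 452) (nat_lit 5) (nat_lit 415) (nat_lit 370) (nat_lit 355)) (XT.lf (nat_lit 0) (nat_lit 2690907299) (nat_lit 1596) (nat_lit 1093431407) (nat_lit 76) (nat_lit 3350471809) (nat_lit 430) (nat_lit 5) (nat_lit 451) (nat_lit 5) (nat_lit 431) (nat_lit 5) (nat_lit 416) (nat_lit 370) (nat_lit 354))))))))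
noncomputable def xc70 : XT := (XT.nd (nat_lit 1560) (nat_lit 8132) (nat_lit 0) (XT.nd (nat_lit 780) (nat_lit 4636) (nat_lit 0) (XT.nd (nat_lit 390) (nat_lit 2736) (nat_lit 0) (XT.nd (nat_lit 156) (nat_lit 2736) (nat_lit 0) (XT.nd (nat_lit 78) (nat_lit 1748) (nat_lit 0) (XT.lf (nat_lit 0) (nat_lit 3559059631) (nat_lit 1596) (nat_lit 2033784321) (nat_lit 1672) (nat_lit 1584614012) (nat_lit 409) (nat_lit 5) (nat_lit 430) (nat_lit 5) (nat_lit 431) (nat_lit 5) (nat_lit 417) (nat_lit 370) (nat_lit 353)) (XT.lf (nat_lit 0) (nat_lit 1049205701) (nat_lit 1672) (nat_lit 222457274) (nat_lit 1748) (nat_lit 5950018652) (nat_lit 386) (nat_lit 5) (nat_lit 408) (nat_lit 5) (nat_lit 409) (nat_lit 5) (nat_lit 418) (nat_lit 370) (nat_lit 352))) (XT.nd (nat_lit 78) (nat_lit 2736) (nat_lit 0) (XT.lf (nat_lit 0) (nat_lit 4142710332) (nat_lit 1748) (nat_lit 1483588684) (nat_lit 76) (nat_lit 1640744793) (nat_lit 386) (nat_lit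 5) (nat_lit 409) (nat_lit 5) (nat_lit 387) (nat_lit 5) (nat_lit 419) (nat_lit 370) (nat_lit 351)) (XT.nd (nat_lit 78) (nat_lit 988) (nat_lit 0) (XT.lf (nat_lit 0) (nat_lit 3286501658) (nat_lit 1748) (nat_lit 3752438952) (nat_lit 1824) (nat_lit 275057372) (nat_lit 363) (nat_lit 5) (nat_lit 386) (nat_lit 5) (nat_lit 387) (nat_lit 5) (nat_lit 420) (nat_lit 370) (nat_lit 350)) (XT.lf (nat_lit 0) (nat_lit 748465441) (nat_lit 912) (nat_lit 1808393184) (nat_lit 988) (nat_lit 4805526117) (nat_lit 350) (nat_lit 5) (nat_lit 362) (nat_lit 5) (nat_lit 363) (nat_lit 5) (nat_lit 421) (nat_lit 370) (nat_lit 349))))) (XT.nd (nat_lit 156) (nat_lit 1748) (nat_lit 0) (XT.nd (nat_lit 78) (nat_lit 988) (nat_lit 0) (XT.lf (nat_lit 0) (nat_lit 5416073104) (nat_lit 988) (nat_lit 1795162374) (nat_lit 76) (nat_lit 201018215) (nat_lit 350) (nat_lit 5) (nat_lit 363) (nat_lit 5) (nat_lit 351) (nat_lit 5) (nat_lit 422) (nat_lit 370)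 (nat_lit 348)) (XT.lf (nat_lit 0) (nat_lit 836901499) (nat_lit 988) (nat_lit 4374789062) (nat_lit 76) (nat_lit 2251773765) (nat_lit 337) (nat_lit 5) (nat_lit 350) (nat_lit 5) (nat_lit 338) (nat_lit 5) (nat_lit 423) (nat_lit 370) (nat_lit 347))) (XT.nd (nat_lit 78) (nat_lit 912) (nat_lit 0) (XT.lf (nat_lit 0) (nat_lit 517895787) (nat_lit 836) (nat_lit 3144900231) (nat_lit 912) (nat_lit 3853417172) (nat_lit 326) (nat_lit 5) (nat_lit 337) (nat_lit 5) (nat_lit 338) (nat_lit 5) (nat_lit 424) (nat_lit 370) (nat_lit 346)) (XT.nd (nat_lit 78) (nat_lit 912) (nat_lit 0) (XT.lf (nat_lit 0) (nat_lit 5513433066) (nat_lit 836) (nat_lit 1009177847) (nat_lit 912) (nat_lit 1047892881) (nat_lit 326) (nat_lit 5) (nat_lit 337) (nat_lit 5) (nat_lit 338) (nat_lit 5) (nat_lit 425) (nat_lit 370) (nat_lit 345)) (XT.lf (nat_lit 0) (nat_lit 1765619494) (nat_lit 912) (nat_lit 4678059313) (nat_lit 76) (nat_lit 1182486041) (nat_lit 314)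 (nat_lit 5) (nat_lit 326) (nat_lit 5) (nat_lit 315) (nat_lit 5) (nat_lit 426) (nat_lit 370) (nat_lit 344)))))) (XT.nd (nat_lit 390) (nat_lit 2204) (nat_lit 0) (XT.nd (nat_lit 156) (nat_lit 1672) (nat_lit 0) (XT.nd (nat_lit 78) (nat_lit 0) (nat_lit 0) (XT.lf (nat_lit 0) (nat_lit 334656186) (nat_lit 760) (nat_lit 4258811248) (nat_lit 836) (nat_lit 3089924029) (nat_lit 304) (nat_lit 5) (nat_lit 314) (nat_lit 5) (nat_lit 315) (nat_lit 5) (nat_lit 427) (nat_lit 370) (nat_lit 343)) (XT.lf (nat_lit 0) (nat_lit 5456772790) (nat_lit 760) (nat_lit 2002464881) (nat_lit 836) (nat_lit 282929792) (nat_lit 304) (nat_lit 5) (nat_lit 314) (nat_lit 5) (nat_lit 315) (nat_lit 5) (nat_lit 428) (nat_lit 370) (nat_lit 342))) (XT.nd (nat_lit 78) (nat_lit 836) (nat_lit 0) (XT.lf (nat_lit 0) (nat_lit 2517585560) (nat_lit 836) (nat_lit 4958683037) (nat_lit 76) (nat_lit 326121830) (nat_lit 293) (nat_lit 5) (nat_lit 304) (nat_lit 5)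 (nat_lit 294) (nat_lit 5) (nat_lit 429) (nat_lit 370) (nat_lit 341)) (XT.nd (nat_lit 78) (nat_lit 76) (nat_lit 0) (XT.lf (nat_lit 0) (nat_lit 175413989) (nat_lit 760) (nat_lit 5175938682) (nat_lit 836) (nat_lit 2512837484) (nat_lit 283) (nat_lit 5) (nat_lit 293) (nat_lit 5) (nat_lit 294) (nat_lit 5) (nat_lit 430) (nat_lit 370) (nat_lit 340)) (XT.lf (nat_lit 0) (nat_lit 295384609) (nat_lit 836) (nat_lit 2504239164) (nat_lit 76) (nat_lit 5127891565) (nat_lit 282) (nat_lit 5) (nat_lit 293) (nat_lit 5) (nat_lit 283) (nat_lit 5) (nat_lit 431) (nat_lit 370) (nat_lit 339))))) (XT.nd (nat_lit 156) (nat_lit 760) (nat_lit 0) (XT.nd (nat_lit 78) (nat_lit 684) (nat_lit 0) (XT.lf (nat_lit 0) (nat_lit 2749659304) (nat_lit 760) (nat_lit 346746319) (nat_lit 836) (nat_lit 4895992135) (nat_lit 272) (nat_lit 5) (nat_lit 282) (nat_lit 5) (nat_lit 283) (nat_lit 5) (nat_lit 432) (nat_lit 370) (nat_lit 338)) (XT.lf (nat_lit 0)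 (nat_lit 16123377) (nat_lit 684) (nat_lit 5921279913) (nat_lit 760) (nat_lit 2121523410) (nat_lit 263) (nat_lit 5) (nat_lit 272) (nat_lit 5) (nat_lit 273) (nat_lit 5) (nat_lit 433) (nat_lit 370) (nat_lit 337))) (XT.nd (nat_lit 78) (nat_lit 684) (nat_lit 0) (XT.lf (nat_lit 0) (nat_lit 690034252) (nat_lit 760) (nat_lit 2736597642) (nat_lit 76) (nat_lit 4700271429) (nat_lit 262) (nat_lit 5) (nat_lit 272) (nat_lit 5) (nat_lit 263) (nat_lit 5) (nat_lit 434) (nat_lit 370) (nat_lit 336)) (XT.nd (nat_lit 78) (nat_lit 0) (nat_lit 0) (XT.lf (nat_lit 0) (nat_lit 2642798753) (nat_lit 684) (nat_lit 857900467) (nat_lit 760) (nat_lit 4695860507) (nat_lit 253) (nat_lit 5) (nat_lit 262) (nat_lit 5) (nat_lit 263) (nat_lit 5) (nat_lit 435) (nat_lit 370) (nat_lit 335)) (XT.lf (nat_lit 0) (nat_lit 6352106265) (nat_lit 760) (nat_lit 166000598) (nat_lit 76) (nat_lit 1749837688) (nat_lit 253) (nat_lit 5) (nat_lit 263) (nat_lit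 5) (nat_lit 254) (nat_lit 5) (nat_lit 436) (nat_lit 370) (nat_lit 334))))))) (XT.nd (nat_lit 780) (nat_lit 3648) (nat_lit 0) (XT.nd (nat_lit 390) (nat_lit 1824) (nat_lit 0) (XT.nd (nat_lit 156) (nat_lit 1292) (nat_lit 0) (XT.nd (nat_lit 78) (nat_lit 684) (nat_lit 0) (XT.lf (nat_lit 0) (nat_lit 903518540) (nat_lit 684) (nat_lit 3005943384) (nat_lit 76) (nat_lit 4431284626) (nat_lit 244) (nat_lit 5) (nat_lit 253) (nat_lit 5) (nat_lit 245) (nat_lit 5) (nat_lit 437) (nat_lit 370) (nat_lit 333)) (XT.lf (nat_lit 0) (nat_lit 2499701942) (nat_lit 684) (nat_lit 1226989418) (nat_lit 760) (nat_lit 4688622689) (nat_lit 235) (nat_lit 5) (nat_lit 244) (nat_lit 5) (nat_lit 245) (nat_lit 5) (nat_lit 438) (nat_lit 370) (nat_lit 332))) (XT.nd (nat_lit 78) (nat_lit 1292) (nat_lit 0) (XT.lf (nat_lit 0) (nat_lit 6592603261) (nat_lit 760) (nat_lit 398462025) (nat_lit 76) (nat_lit 1500605997) (nat_lit 235) (nat_lit 5) (nat_lit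 245) (nat_lit 5) (nat_lit 236) (nat_lit 5) (nat_lit 439) (nat_lit 370) (nat_lit 331)) (XT.nd (nat_lit 78) (nat_lit 608) (nat_lit 0) (XT.lf (nat_lit 0) (nat_lit 932997118) (nat_lit 684) (nat_lit 3338859146) (nat_lit 76) (nat_lit 4297616888) (nat_lit 226) (nat_lit 5) (nat_lit 235) (nat_lit 5) (nat_lit 227) (nat_lit 5) (nat_lit 440) (nat_lit 370) (nat_lit 330)) (XT.lf (nat_lit 0) (nat_lit 2293422507) (nat_lit 608) (nat_lit 1477688597) (nat_lit 684) (nat_lit 4877994694) (nat_lit 218) (nat_lit 5) (nat_lit 226) (nat_lit 5) (nat_lit 227) (nat_lit 5) (nat_lit 441) (nat_lit 370) (nat_lit 329))))) (XT.nd (nat_lit 156) (nat_lit 1216) (nat_lit 0) (XT.nd (nat_lit 78) (nat_lit 608) (nat_lit 0) (XT.lf (nat_lit 0) (nat_lit 6655111760) (nat_lit 684) (nat_lit 708741825) (nat_lit 76) (nat_lit 1366717100) (nat_lit 218) (nat_lit 5) (nat_lit 227) (nat_lit 5) (nat_lit 219) (nat_lit 5) (nat_lit 442) (nat_lit 370) (nat_lit 328))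 (XT.lf (nat_lit 0) (nat_lit 773941350) (nat_lit 608) (nat_lit 3763464588) (nat_lit 76) (nat_lit 4276156766) (nat_lit 210) (nat_lit 5) (nat_lit 218) (nat_lit 5) (nat_lit 211) (nat_lit 5) (nat_lit 443) (nat_lit 370) (nat_lit 327))) (XT.nd (nat_lit 78) (nat_lit 608) (nat_lit 0) (XT.lf (nat_lit 0) (nat_lit 1995409127) (nat_lit 608) (nat_lit 1633573044) (nat_lit 684) (nat_lit 5269449961) (nat_lit 202) (nat_lit 5) (nat_lit 210) (nat_lit 5) (nat_lit 211) (nat_lit 5) (nat_lit 444) (nat_lit 370) (nat_lit 326)) (XT.nd (nat_lit 78) (nat_lit 608) (nat_lit 0) (XT.lf (nat_lit 0) (nat_lit 6534241438) (nat_lit 684) (nat_lit 1125815432) (nat_lit 76) (nat_lit 1325100120) (nat_lit 202) (nat_lit 5) (nat_lit 211) (nat_lit 5) (nat_lit 203) (nat_lit 5) (nat_lit 445) (nat_lit 370) (nat_lit 325)) (XT.lf (nat_lit 0) (nat_lit 420060347) (nat_lit 608) (nat_lit 4309699098) (nat_lit 76) (nat_lit 4343788818) (nat_lit 194) (nat_lit 5)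 (nat_lit 202) (nat_lit 5) (nat_lit 195) (nat_lit 5) (nat_lit 446) (nat_lit 370) (nat_lit 324)))))) (XT.nd (nat_lit 390) (nat_lit 1976) (nat_lit 0) (XT.nd (nat_lit 156) (nat_lit 1140) (nat_lit 0) (XT.nd (nat_lit 78) (nat_lit 0) (nat_lit 0) (XT.lf (nat_lit 0) (nat_lit 1575215499) (nat_lit 532) (nat_lit 1718328534) (nat_lit 608) (nat_lit 5870300415) (nat_lit 187) (nat_lit 5) (nat_lit 194) (nat_lit 5) (nat_lit 195) (nat_lit 5) (nat_lit 447) (nat_lit 370) (nat_lit 323)) (XT.lf (nat_lit 0) (nat_lit 6222806103) (nat_lit 608) (nat_lit 1680658687) (nat_lit 76) (nat_lit 1352534433) (nat_lit 187) (nat_lit 5) (nat_lit 195) (nat_lit 5) (nat_lit 188) (nat_lit 5) (nat_lit 448) (nat_lit 370) (nat_lit 322))) (XT.nd (nat_lit 78) (nat_lit 608) (nat_lit 0) (XT.lf (nat_lit 0) (nat_lit 4339475118) (nat_lit 532) (nat_lit 4871919092) (nat_lit 608) (nat_lit 138606541) (nat_lit 180) (nat_lit 5) (nat_lit 187) (nat_lit 5) (nat_lit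 188) (nat_lit 5) (nat_lit 449) (nat_lit 370) (nat_lit 321)) (XT.nd (nat_lit 78) (nat_lit 0) (nat_lit 0) (XT.lf (nat_lit 0) (nat_lit 1000188382) (nat_lit 532) (nat_lit 1755968630) (nat_lit 608) (nat_lit 6689793868) (nat_lit 172) (nat_lit 5) (nat_lit 179) (nat_lit 5) (nat_lit 180) (nat_lit 5) (nat_lit 450) (nat_lit 370) (nat_lit 320)) (XT.lf (nat_lit 0) (nat_lit 5711724094) (nat_lit 608) (nat_lit 2406565082) (nat_lit 76) (nat_lit 1425434636) (nat_lit 172) (nat_lit 5) (nat_lit 180) (nat_lit 5) (nat_lit 173) (nat_lit 5) (nat_lit 451) (nat_lit 370) (nat_lit 319))))) (XT.nd (nat_lit 234) (nat_lit 988) (nat_lit 0) (XT.nd (nat_lit 78) (nat_lit 532) (nat_lit 0) (XT.lf (nat_lit 0) (nat_lit 3739778262) (nat_lit 456) (nat_lit 4984967647) (nat_lit 532) (nat_lit 918756491) (nat_lit 166) (nat_lit 5) (nat_lit 172) (nat_lit 5) (nat_lit 173) (nat_lit 5) (nat_lit 452) (nat_lit 370) (nat_lit 318)) (XT.nd (nat_lit 78) (nat_lit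 0) (nat_lit 0) (XT.lf (nat_lit 0) (nat_lit 235130757) (nat_lit 456) (nat_lit 1771059553) (nat_lit 532) (nat_lit 7739228876) (nat_lit 159) (nat_lit 5) (nat_lit 165) (nat_lit 5) (nat_lit 166) (nat_lit 5) (nat_lit 453) (nat_lit 370) (nat_lit 317)) (XT.lf (nat_lit 0) (nat_lit 4989901345) (nat_lit 532) (nat_lit 3339488839) (nat_lit 76) (nat_lit 1519627399) (nat_lit 159) (nat_lit 5) (nat_lit 166) (nat_lit 5) (nat_lit 160) (nat_lit 5) (nat_lit 454) (nat_lit 370) (nat_lit 316)))) (XT.nd (nat_lit 78) (nat_lit 532) (nat_lit 0) (XT.lf (nat_lit 0) (nat_lit 2930883957) (nat_lit 456) (nat_lit 5096779596) (nat_lit 532) (nat_lit 1927152621) (nat_lit 153) (nat_lit 5) (nat_lit 159) (nat_lit 5) (nat_lit 160) (nat_lit 5) (nat_lit 455) (nat_lit 370) (nat_lit 315)) (XT.nd (nat_lit 78) (nat_lit 456) (nat_lit 0) (XT.lf (nat_lit 0) (nat_lit 1035813571) (nat_lit 532) (nat_lit 748120980) (nat_lit 76) (nat_lit 8278947033) (nat_lit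 152) (nat_lit 5) (nat_lit 159) (nat_lit 5) (nat_lit 153) (nat_lit 5) (nat_lit 456) (nat_lit 370) (nat_lit 314)) (XT.lf (nat_lit 0) (nat_lit 4044095821) (nat_lit 532) (nat_lit 4518417091) (nat_lit 76) (nat_lit 1610118251) (nat_lit 146) (nat_lit 5) (nat_lit 153) (nat_lit 5) (nat_lit 147) (nat_lit 5) (nat_lit 457) (nat_lit 370) (nat_lit 313))))))))
noncomputable def xc71 : XT := (XT.nd (nat_lit 1560) (nat_lit 3040) (nat_lit 0) (XT.nd (nat_lit 780) (nat_lit 2052) (nat_lit 0) (XT.nd (nat_lit 390) (nat_lit 1292) (nat_lit 0) (XT.nd (nat_lit 156) (nat_lit 912) (nat_lit 0) (XT.nd (nat_lit 78) (nat_lit 0) (nat_lit 0) (XT.lf (nat_lit 0) (nat_lit 1872957222) (nat_lit 380) (nat_lit 5233361552) (nat_lit 456) (nat_lit 3178396025) (nat_lit 141) (nat_lit 5) (nat_lit 146) (nat_lit 5) (nat_lit 147) (nat_lit 5) (nat_lit 458) (nat_lit 370) (nat_lit 312)) (XT.lf (nat_lit 0) (nat_lit 8403715401) (nat_lit 380) (nat_lit 1821507256)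 (nat_lit 456) (nat_lit 173923002) (nat_lit 141) (nat_lit 5) (nat_lit 146) (nat_lit 5) (nat_lit 147) (nat_lit 5) (nat_lit 459) (nat_lit 370) (nat_lit 311))) (XT.nd (nat_lit 78) (nat_lit 380) (nat_lit 0) (XT.lf (nat_lit 0) (nat_lit 2858761865) (nat_lit 532) (nat_lit 5985774777) (nat_lit 76) (nat_lit 1670846185) (nat_lit 134) (nat_lit 5) (nat_lit 141) (nat_lit 5) (nat_lit 135) (nat_lit 5) (nat_lit 460) (nat_lit 370) (nat_lit 310)) (XT.nd (nat_lit 78) (nat_lit 0) (nat_lit 0) (XT.lf (nat_lit 0) (nat_lit 522604836) (nat_lit 380) (nat_lit 5421925343) (nat_lit 456) (nat_lit 4689509852) (nat_lit 129) (nat_lit 5) (nat_lit 134) (nat_lit 5) (nat_lit 135) (nat_lit 5) (nat_lit 461) (nat_lit 370) (nat_lit 309)) (XT.lf (nat_lit 0) (nat_lit 7193151672) (nat_lit 380) (nat_lit 1905202292) (nat_lit 456) (nat_lit 1656602806) (nat_lit 129) (nat_lit 5) (nat_lit 134) (nat_lit 5) (nat_lit 135) (nat_lit 5) (nat_lit 462) (nat_lit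 370) (nat_lit 308))))) (XT.nd (nat_lit 156) (nat_lit 836) (nat_lit 0) (XT.nd (nat_lit 78) (nat_lit 0) (nat_lit 0) (XT.lf (nat_lit 0) (nat_lit 1415872812) (nat_lit 456) (nat_lit 7787866130) (nat_lit 76) (nat_lit 1674423858) (nat_lit 123) (nat_lit 5) (nat_lit 129) (nat_lit 5) (nat_lit 124) (nat_lit 5) (nat_lit 463) (nat_lit 370) (nat_lit 307)) (XT.lf (nat_lit 0) (nat_lit 4531159278) (nat_lit 456) (nat_lit 1152266294) (nat_lit 76) (nat_lit 5320129943) (nat_lit 123) (nat_lit 5) (nat_lit 129) (nat_lit 5) (nat_lit 124) (nat_lit 5) (nat_lit 464) (nat_lit 370) (nat_lit 306))) (XT.nd (nat_lit 78) (nat_lit 456) (nat_lit 0) (XT.lf (nat_lit 0) (nat_lit 5642114798) (nat_lit 380) (nat_lit 2070764518) (nat_lit 456) (nat_lit 3418506397) (nat_lit 118) (nat_lit 5) (nat_lit 123) (nat_lit 5) (nat_lit 124) (nat_lit 5) (nat_lit 465) (nat_lit 370) (nat_lit 305)) (XT.nd (nat_lit 78) (nat_lit 76) (nat_lit 0) (XT.lf (nat_lit 0) (nat_lit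 1284532425) (nat_lit 380) (nat_lit 9668028497) (nat_lit 456) (nat_lit 309336999) (nat_lit 113) (nat_lit 5) (nat_lit 118) (nat_lit 5) (nat_lit 119) (nat_lit 5) (nat_lit 466) (nat_lit 370) (nat_lit 304)) (XT.lf (nat_lit 0) (nat_lit 2843095940) (nat_lit 456) (nat_lit 3206893272) (nat_lit 76) (nat_lit 5344298684) (nat_lit 112) (nat_lit 5) (nat_lit 118) (nat_lit 5) (nat_lit 113) (nat_lit 5) (nat_lit 467) (nat_lit 370) (nat_lit 303)))))) (XT.nd (nat_lit 390) (nat_lit 988) (nat_lit 0) (XT.nd (nat_lit 156) (nat_lit 760) (nat_lit 0) (XT.nd (nat_lit 78) (nat_lit 0) (nat_lit 0) (XT.lf (nat_lit 0) (nat_lit 3698097653) (nat_lit 304) (nat_lit 2348805661) (nat_lit 380) (nat_lit 5482543366) (nat_lit 108) (nat_lit 5) (nat_lit 112) (nat_lit 5) (nat_lit 113) (nat_lit 5) (nat_lit 468) (nat_lit 370) (nat_lit 302)) (XT.lf (nat_lit 0) (nat_lit 9314374486) (nat_lit 380) (nat_lit 939188254) (nat_lit 76) (nat_lit 1413765185) (nat_lit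 108) (nat_lit 5) (nat_lit 113) (nat_lit 5) (nat_lit 109) (nat_lit 5) (nat_lit 469) (nat_lit 370) (nat_lit 301))) (XT.nd (nat_lit 78) (nat_lit 304) (nat_lit 0) (XT.lf (nat_lit 0) (nat_lit 852868706) (nat_lit 456) (nat_lit 5704353043) (nat_lit 76) (nat_lit 5250153739) (nat_lit 102) (nat_lit 5) (nat_lit 108) (nat_lit 5) (nat_lit 103) (nat_lit 5) (nat_lit 470) (nat_lit 370) (nat_lit 300)) (XT.nd (nat_lit 78) (nat_lit 0) (nat_lit 0) (XT.lf (nat_lit 0) (nat_lit 1303437886) (nat_lit 304) (nat_lit 2772067937) (nat_lit 380) (nat_lit 7874733428) (nat_lit 98) (nat_lit 5) (nat_lit 102) (nat_lit 5) (nat_lit 103) (nat_lit 5) (nat_lit 471) (nat_lit 370) (nat_lit 299)) (XT.lf (nat_lit 0) (nat_lit 7377760280) (nat_lit 380) (nat_lit 3620756566) (nat_lit 76) (nat_lit 1097150350) (nat_lit 98) (nat_lit 5) (nat_lit 103) (nat_lit 5) (nat_lit 99) (nat_lit 5) (nat_lit 472) (nat_lit 370) (nat_lit 298))))) (XT.nd (nat_lit 156) (nat_lit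 608) (nat_lit 0) (XT.nd (nat_lit 78) (nat_lit 76) (nat_lit 0) (XT.lf (nat_lit 0) (nat_lit 3527690041) (nat_lit 304) (nat_lit 7229791501) (nat_lit 380) (nat_lit 1486303722) (nat_lit 94) (nat_lit 5) (nat_lit 98) (nat_lit 5) (nat_lit 99) (nat_lit 5) (nat_lit 473) (nat_lit 370) (nat_lit 297)) (XT.lf (nat_lit 0) (nat_lit 1780894448) (nat_lit 380) (nat_lit 1584235617) (nat_lit 76) (nat_lit 9029616202) (nat_lit 93) (nat_lit 5) (nat_lit 98) (nat_lit 5) (nat_lit 94) (nat_lit 5) (nat_lit 474) (nat_lit 370) (nat_lit 296))) (XT.nd (nat_lit 78) (nat_lit 304) (nat_lit 0) (XT.lf (nat_lit 0) (nat_lit 5105404718) (nat_lit 380) (nat_lit 6842250893) (nat_lit 76) (nat_lit 600646416) (nat_lit 89) (nat_lit 5) (nat_lit 94) (nat_lit 5) (nat_lit 90) (nat_lit 5) (nat_lit 475) (nat_lit 370) (nat_lit 295)) (XT.nd (nat_lit 78) (nat_lit 0) (nat_lit 0) (XT.lf (nat_lit 0) (nat_lit 396333472) (nat_lit 304) (nat_lit 8106634190) (nat_lit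 380) (nat_lit 4201839228) (nat_lit 85) (nat_lit 5) (nat_lit 89) (nat_lit 5) (nat_lit 90) (nat_lit 5) (nat_lit 476) (nat_lit 370) (nat_lit 294)) (XT.lf (nat_lit 0) (nat_lit 7827326244) (nat_lit 304) (nat_lit 4158348538) (nat_lit 380) (nat_lit 878432266) (nat_lit 85) (nat_lit 5) (nat_lit 89) (nat_lit 5) (nat_lit 90) (nat_lit 5) (nat_lit 477) (nat_lit 370) (nat_lit 293))))))) (XT.nd (nat_lit 780) (nat_lit 1292) (nat_lit 0) (XT.nd (nat_lit 390) (nat_lit 836) (nat_lit 0) (XT.nd (nat_lit 156) (nat_lit 608) (nat_lit 0) (XT.nd (nat_lit 78) (nat_lit 0) (nat_lit 0) (XT.lf (nat_lit 0) (nat_lit 2350250905) (nat_lit 228) (nat_lit 115159038) (nat_lit 304) (nat_lit 10561127748) (nat_lit 81) (nat_lit 5) (nat_lit 84) (nat_lit 5) (nat_lit 85) (nat_lit 5) (nat_lit 478) (nat_lit 370) (nat_lit 292)) (XT.lf (nat_lit 0) (nat_lit 5896238039) (nat_lit 304) (nat_lit 3315096607) (nat_lit 76) (nat_lit 3980137280) (nat_lit 81) (nat_lit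 5) (nat_lit 85) (nat_lit 5) (nat_lit 82) (nat_lit 5) (nat_lit 479) (nat_lit 370) (nat_lit 291))) (XT.nd (nat_lit 78) (nat_lit 304) (nat_lit 0) (XT.lf (nat_lit 0) (nat_lit 4203782092) (nat_lit 304) (nat_lit 5192318326) (nat_lit 380) (nat_lit 3963604440) (nat_lit 77) (nat_lit 5) (nat_lit 81) (nat_lit 5) (nat_lit 82) (nat_lit 5) (nat_lit 480) (nat_lit 370) (nat_lit 290)) (XT.nd (nat_lit 78) (nat_lit 304) (nat_lit 0) (XT.lf (nat_lit 0) (nat_lit 11874358230) (nat_lit 304) (nat_lit 1086467939) (nat_lit 380) (nat_lit 570587159) (nat_lit 77) (nat_lit 5) (nat_lit 81) (nat_lit 5) (nat_lit 82) (nat_lit 5) (nat_lit 481) (nat_lit 370) (nat_lit 289)) (XT.lf (nat_lit 0) (nat_lit 2884782591) (nat_lit 304) (nat_lit 7717663518) (nat_lit 76) (nat_lit 3103094452) (nat_lit 73) (nat_lit 5) (nat_lit 77) (nat_lit 5) (nat_lit 74) (nat_lit 5) (nat_lit 482) (nat_lit 370) (nat_lit 288))))) (XT.nd (nat_lit 156) (nat_lit 532) (nat_lit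 0) (XT.nd (nat_lit 78) (nat_lit 304) (nat_lit 0) (XT.lf (nat_lit 0) (nat_lit 6393133928) (nat_lit 304) (nat_lit 129089998) (nat_lit 76) (nat_lit 7361028421) (nat_lit 73) (nat_lit 5) (nat_lit 77) (nat_lit 5) (nat_lit 74) (nat_lit 5) (nat_lit 483) (nat_lit 370) (nat_lit 287)) (XT.lf (nat_lit 0) (nat_lit 7669405143) (nat_lit 304) (nat_lit 2325687807) (nat_lit 380) (nat_lit 4068964185) (nat_lit 69) (nat_lit 5) (nat_lit 73) (nat_lit 5) (nat_lit 74) (nat_lit 5) (nat_lit 484) (nat_lit 370) (nat_lit 286))) (XT.nd (nat_lit 78) (nat_lit 304) (nat_lit 0) (XT.lf (nat_lit 0) (nat_lit 1339447203) (nat_lit 228) (nat_lit 12325688909) (nat_lit 304) (nat_lit 583428435) (nat_lit 66) (nat_lit 5) (nat_lit 69) (nat_lit 5) (nat_lit 70) (nat_lit 5) (nat_lit 485) (nat_lit 370) (nat_lit 285)) (XT.nd (nat_lit 78) (nat_lit 228) (nat_lit 0) (XT.lf (nat_lit 0) (nat_lit 2965284491) (nat_lit 304) (nat_lit 5198631763) (nat_lit 76) (nat_lit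 6271818247) (nat_lit 65) (nat_lit 5) (nat_lit 69) (nat_lit 5) (nat_lit 66) (nat_lit 5) (nat_lit 486) (nat_lit 370) (nat_lit 284)) (XT.lf (nat_lit 0) (nat_lit 2655203275) (nat_lit 228) (nat_lit 3913560606) (nat_lit 304) (nat_lit 8057981757) (nat_lit 62) (nat_lit 5) (nat_lit 65) (nat_lit 5) (nat_lit 66) (nat_lit 5) (nat_lit 487) (nat_lit 370) (nat_lit 283)))))) (XT.nd (nat_lit 390) (nat_lit 760) (nat_lit 0) (XT.nd (nat_lit 156) (nat_lit 304) (nat_lit 0) (XT.nd (nat_lit 78) (nat_lit 228) (nat_lit 0) (XT.lf (nat_lit 0) (nat_lit 10256654024) (nat_lit 304) (nat_lit 4129220211) (nat_lit 76) (nat_lit 435462801) (nat_lit 62) (nat_lit 5) (nat_lit 66) (nat_lit 5) (nat_lit 63) (nat_lit 5) (nat_lit 488) (nat_lit 370) (nat_lit 282)) (XT.lf (nat_lit 0) (nat_lit 3853436817) (nat_lit 228) (nat_lit 10190788076) (nat_lit 304) (nat_lit 975083641) (nat_lit 59) (nat_lit 5) (nat_lit 62) (nat_lit 5) (nat_lit 63) (nat_lit 5) (nat_lit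 489) (nat_lit 370) (nat_lit 281))) (XT.nd (nat_lit 78) (nat_lit 228) (nat_lit 0) (XT.lf (nat_lit 0) (nat_lit 2654009780) (nat_lit 304) (nat_lit 3227790438) (nat_lit 76) (nat_lit 9339038215) (nat_lit 58) (nat_lit 5) (nat_lit 62) (nat_lit 5) (nat_lit 59) (nat_lit 5) (nat_lit 490) (nat_lit 370) (nat_lit 280)) (XT.nd (nat_lit 78) (nat_lit 0) (nat_lit 0) (XT.lf (nat_lit 0) (nat_lit 4886287322) (nat_lit 228) (nat_lit 1463608725) (nat_lit 304) (nat_lit 9076234970) (nat_lit 55) (nat_lit 5) (nat_lit 58) (nat_lit 5) (nat_lit 59) (nat_lit 5) (nat_lit 491) (nat_lit 370) (nat_lit 279)) (XT.lf (nat_lit 0) (nat_lit 10136906806) (nat_lit 304) (nat_lit 2489110923) (nat_lit 76) (nat_lit 3009173804) (nat_lit 55) (nat_lit 5) (nat_lit 59) (nat_lit 5) (nat_lit 56) (nat_lit 5) (nat_lit 492) (nat_lit 370) (nat_lit 278))))) (XT.nd (nat_lit 234) (nat_lit 228) (nat_lit 0) (XT.nd (nat_lit 78) (nat_lit 304) (nat_lit 0) (XT.lf (nat_lit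 0) (nat_lit 5748617702) (nat_lit 228) (nat_lit 8274180534) (nat_lit 304) (nat_lit 1825178309) (nat_lit 52) (nat_lit 5) (nat_lit 55) (nat_lit 5) (nat_lit 56) (nat_lit 5) (nat_lit 493) (nat_lit 370) (nat_lit 277)) (XT.nd (nat_lit 78) (nat_lit 228) (nat_lit 0) (XT.lf (nat_lit 0) (nat_lit 1889177919) (nat_lit 304) (nat_lit 1932208666) (nat_lit 76) (nat_lit 12243527290) (nat_lit 51) (nat_lit 5) (nat_lit 55) (nat_lit 5) (nat_lit 52) (nat_lit 5) (nat_lit 494) (nat_lit 370) (nat_lit 276)) (XT.lf (nat_lit 0) (nat_lit 5676735997) (nat_lit 304) (nat_lit 9858971953) (nat_lit 76) (nat_lit 749779378) (nat_lit 48) (nat_lit 5) (nat_lit 52) (nat_lit 5) (nat_lit 49) (nat_lit 5) (nat_lit 495) (nat_lit 370) (nat_lit 275)))) (XT.nd (nat_lit 78) (nat_lit 228) (nat_lit 0) (XT.lf (nat_lit 0) (nat_lit 9555150072) (nat_lit 304) (nat_lit 1596112714) (nat_lit 76) (nat_lit 5358912998) (nat_lit 48) (nat_lit 5) (nat_lit 52) (nat_lit 5)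 (nat_lit 49) (nat_lit 5) (nat_lit 496) (nat_lit 370) (nat_lit 274)) (XT.nd (nat_lit 78) (nat_lit 76) (nat_lit 0) (XT.lf (nat_lit 0) (nat_lit 6883942544) (nat_lit 152) (nat_lit 6649086608) (nat_lit 228) (nat_lit 3205896442) (nat_lit 46) (nat_lit 5) (nat_lit 48) (nat_lit 5) (nat_lit 49) (nat_lit 5) (nat_lit 497) (nat_lit 370) (nat_lit 273)) (XT.lf (nat_lit 0) (nat_lit 598135399) (nat_lit 228) (nat_lit 1459287075) (nat_lit 76) (nat_lit 14914992394) (nat_lit 45) (nat_lit 5) (nat_lit 48) (nat_lit 5) (nat_lit 46) (nat_lit 5) (nat_lit 498) (nat_lit 370) (nat_lit 272))))))))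
noncomputable def xc72 : XT := (XT.nd (nat_lit 52494) (nat_lit 0) (nat_lit 18848) (XT.nd (nat_lit 51714) (nat_lit 0) (nat_lit 35872) (XT.nd (nat_lit 390) (nat_lit 152) (nat_lit 0) (XT.nd (nat_lit 156) (nat_lit 456) (nat_lit 0) (XT.nd (nat_lit 78) (nat_lit 0) (nat_lit 0) (XT.lf (nat_lit 0) (nat_lit 4476803299) (nat_lit 304) (nat_lit 10087997630) (nat_lit 76) (nat_lit 2644524732) (nat_lit 42) (nat_lit 5) (nat_lit 46) (nat_lit 5) (nat_lit 43) (nat_lit 5) (nat_lit 499) (nat_lit 370) (nat_lit 271)) (XT.lf (nat_lit 0) (nat_lit 8434315085) (nat_lit 304) (nat_lit 1608880719) (nat_lit 76) (nat_lit 7407758556) (nat_lit 42) (nat_lit 5) (nat_lit 46) (nat_lit 5) (nat_lit 43) (nat_lit 5) (nat_lit 500) (nat_lit 370) (nat_lit 270))) (XT.nd (nat_lit 78) (nat_lit 304) (nat_lit 0) (XT.lf (nat_lit 0) (nat_lit 7095874161) (nat_lit 152) (nat_lit 5399397377) (nat_lit 228) (nat_lit 5201663204) (nat_lit 40) (nat_lit 5) (nat_lit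 42) (nat_lit 5) (nat_lit 43) (nat_lit 5) (nat_lit 501) (nat_lit 370) (nat_lit 269)) (XT.nd (nat_lit 78) (nat_lit 304) (nat_lit 0) (XT.lf (nat_lit 0) (nat_lit 15959768380) (nat_lit 152) (nat_lit 666886783) (nat_lit 228) (nat_lit 1321400311) (nat_lit 40) (nat_lit 5) (nat_lit 42) (nat_lit 5) (nat_lit 43) (nat_lit 5) (nat_lit 502) (nat_lit 370) (nat_lit 268)) (XT.lf (nat_lit 0) (nat_lit 2652264745) (nat_lit 304) (nat_lit 11397813415) (nat_lit 76) (nat_lit 4152775324) (nat_lit 36) (nat_lit 5) (nat_lit 40) (nat_lit 5) (nat_lit 37) (nat_lit 5) (nat_lit 503) (nat_lit 370) (nat_lit 267))))) (XT.nd (nat_lit 51090) (nat_lit 0) (nat_lit 42408) (XT.nd (nat_lit 78) (nat_lit 152) (nat_lit 0) (XT.lf (nat_lit 0) (nat_lit 6684349709) (nat_lit 304) (nat_lit 2710973450) (nat_lit 76) (nat_lit 9067321421) (nat_lit 36) (nat_lit 5) (nat_lit 40) (nat_lit 5) (nat_lit 37) (nat_lit 5) (nat_lit 504) (nat_lit 370) (nat_lit 266)) (XT.lf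 (nat_lit 0) (nat_lit 6195145375) (nat_lit 152) (nat_lit 4621346475) (nat_lit 228) (nat_lit 7910755866) (nat_lit 34) (nat_lit 5) (nat_lit 36) (nat_lit 5) (nat_lit 37) (nat_lit 5) (nat_lit 505) (nat_lit 370) (nat_lit 265))) (XT.nd (nat_lit 78) (nat_lit 836) (nat_lit 0) (XT.lf (nat_lit 0) (nat_lit 1998024481) (nat_lit 684) (nat_lit 651682336) (nat_lit 684) (nat_lit 651682336) (nat_lit 603) (nat_lit 4) (nat_lit 612) (nat_lit 5) (nat_lit 612) (nat_lit 4) (nat_lit 398) (nat_lit 371) (nat_lit 371)) (XT.nd (nat_lit 78) (nat_lit 0) (nat_lit 0) (XT.lf (nat_lit 0) (nat_lit 1314415475) (nat_lit 760) (nat_lit 479580736) (nat_lit 836) (nat_lit 4827462597) (nat_lit 592) (nat_lit 5) (nat_lit 602) (nat_lit 5) (nat_lit 603) (nat_lit 4) (nat_lit 399) (nat_lit 371) (nat_lit 370)) (XT.lf (nat_lit 0) (nat_lit 4884960078) (nat_lit 836) (nat_lit 1355457803) (nat_lit 0) (nat_lit 401008828) (nat_lit 592) (nat_lit 5) (nat_lit 603)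 (nat_lit 4) (nat_lit 592) (nat_lit 4) (nat_lit 400) (nat_lit 371) (nat_lit 369)))))) (XT.nd (nat_lit 390) (nat_lit 3648) (nat_lit 0) (XT.nd (nat_lit 156) (nat_lit 1976) (nat_lit 0) (XT.nd (nat_lit 78) (nat_lit 0) (nat_lit 0) (XT.lf (nat_lit 0) (nat_lit 1308452891) (nat_lit 912) (nat_lit 4017129200) (nat_lit 76) (nat_lit 1337087821) (nat_lit 580) (nat_lit 5) (nat_lit 592) (nat_lit 5) (nat_lit 581) (nat_lit 4) (nat_lit 401) (nat_lit 371) (nat_lit 368)) (XT.lf (nat_lit 0) (nat_lit 4351366187) (nat_lit 912) (nat_lit 4025511) (nat_lit 76) (nat_lit 2329974105) (nat_lit 580) (nat_lit 5) (nat_lit 592) (nat_lit 5) (nat_lit 581) (nat_lit 4) (nat_lit 402) (nat_lit 371) (nat_lit 367))) (XT.nd (nat_lit 78) (nat_lit 988) (nat_lit 0) (XT.lf (nat_lit 0) (nat_lit 695445605) (nat_lit 988) (nat_lit 2623049905) (nat_lit 76) (nat_lit 3390812659) (nat_lit 567) (nat_lit 5) (nat_lit 580) (nat_lit 5) (nat_lit 568) (nat_lit 5) (nat_lit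 403) (nat_lit 371) (nat_lit 366)) (XT.nd (nat_lit 78) (nat_lit 0) (nat_lit 0) (XT.lf (nat_lit 0) (nat_lit 1475894439) (nat_lit 988) (nat_lit 2220848231) (nat_lit 1064) (nat_lit 3037888461) (nat_lit 554) (nat_lit 5) (nat_lit 567) (nat_lit 5) (nat_lit 568) (nat_lit 5) (nat_lit 404) (nat_lit 371) (nat_lit 365)) (XT.lf (nat_lit 0) (nat_lit 5640041881) (nat_lit 988) (nat_lit 1069478522) (nat_lit 1064) (nat_lit 51970476) (nat_lit 554) (nat_lit 5) (nat_lit 567) (nat_lit 5) (nat_lit 568) (nat_lit 5) (nat_lit 405) (nat_lit 371) (nat_lit 364))))) (XT.nd (nat_lit 156) (nat_lit 1368) (nat_lit 0) (XT.nd (nat_lit 78) (nat_lit 1140) (nat_lit 0) (XT.lf (nat_lit 0) (nat_lit 2910006943) (nat_lit 1140) (nat_lit 3723349068) (nat_lit 76) (nat_lit 156088115) (nat_lit 539) (nat_lit 5) (nat_lit 554) (nat_lit 5) (nat_lit 540) (nat_lit 5) (nat_lit 406) (nat_lit 371) (nat_lit 363)) (XT.lf (nat_lit 0) (nat_lit 480295478) (nat_lit 1140)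 (nat_lit 5403697738) (nat_lit 1216) (nat_lit 934943040) (nat_lit 524) (nat_lit 5) (nat_lit 539) (nat_lit 5) (nat_lit 540) (nat_lit 5) (nat_lit 407) (nat_lit 371) (nat_lit 362))) (XT.nd (nat_lit 78) (nat_lit 1292) (nat_lit 0) (XT.lf (nat_lit 0) (nat_lit 2002595407) (nat_lit 1216) (nat_lit 2097494278) (nat_lit 76) (nat_lit 2749488120) (nat_lit 523) (nat_lit 5) (nat_lit 539) (nat_lit 5) (nat_lit 524) (nat_lit 5) (nat_lit 408) (nat_lit 371) (nat_lit 361)) (XT.nd (nat_lit 78) (nat_lit 76) (nat_lit 0) (XT.lf (nat_lit 0) (nat_lit 2198306328) (nat_lit 1216) (nat_lit 2739727597) (nat_lit 1292) (nat_lit 1943694060) (nat_lit 507) (nat_lit 5) (nat_lit 523) (nat_lit 5) (nat_lit 524) (nat_lit 5) (nat_lit 409) (nat_lit 371) (nat_lit 360)) (XT.lf (nat_lit 0) (nat_lit 956292688) (nat_lit 1292) (nat_lit 365823247) (nat_lit 76) (nat_lit 5593284214) (nat_lit 506) (nat_lit 5) (nat_lit 523) (nat_lit 5) (nat_lit 507) (nat_lit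 5) (nat_lit 410) (nat_lit 371) (nat_lit 359))))))) (XT.nd (nat_lit 780) (nat_lit 6080) (nat_lit 0) (XT.nd (nat_lit 390) (nat_lit 5168) (nat_lit 0) (XT.nd (nat_lit 156) (nat_lit 3116) (nat_lit 0) (XT.nd (nat_lit 78) (nat_lit 1368) (nat_lit 0) (XT.lf (nat_lit 0) (nat_lit 3854564464) (nat_lit 1368) (nat_lit 2925592121) (nat_lit 76) (nat_lit 170055707) (nat_lit 489) (nat_lit 5) (nat_lit 507) (nat_lit 5) (nat_lit 490) (nat_lit 5) (nat_lit 411) (nat_lit 371) (nat_lit 358)) (XT.lf (nat_lit 0) (nat_lit 1479539965) (nat_lit 1368) (nat_lit 5292036252) (nat_lit 1444) (nat_lit 214977713) (nat_lit 471) (nat_lit 5) (nat_lit 489) (nat_lit 5) (nat_lit 490) (nat_lit 5) (nat_lit 412) (nat_lit 371) (nat_lit 357))) (XT.nd (nat_lit 78) (nat_lit 3040) (nat_lit 0) (XT.lf (nat_lit 0) (nat_lit 2647687732) (nat_lit 1444) (nat_lit 1082351006) (nat_lit 76) (nat_lit 3294074914) (nat_lit 470) (nat_lit 5) (nat_lit 489) (nat_lit 5) (nat_lit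 471) (nat_lit 5) (nat_lit 413) (nat_lit 371) (nat_lit 356)) (XT.nd (nat_lit 78) (nat_lit 1596) (nat_lit 0) (XT.lf (nat_lit 0) (nat_lit 3421568165) (nat_lit 1444) (nat_lit 2106883724) (nat_lit 1520) (nat_lit 1534715715) (nat_lit 451) (nat_lit 5) (nat_lit 470) (nat_lit 5) (nat_lit 471) (nat_lit 5) (nat_lit 414) (nat_lit 371) (nat_lit 355)) (XT.lf (nat_lit 0) (nat_lit 876818910) (nat_lit 1520) (nat_lit 424013863) (nat_lit 1596) (nat_lit 5802939094) (nat_lit 430) (nat_lit 5) (nat_lit 450) (nat_lit 5) (nat_lit 451) (nat_lit 5) (nat_lit 415) (nat_lit 371) (nat_lit 354))))) (XT.nd (nat_lit 156) (nat_lit 3572) (nat_lit 0) (XT.nd (nat_lit 78) (nat_lit 1596) (nat_lit 0) (XT.lf (nat_lit 0) (nat_lit 4148265023) (nat_lit 1596) (nat_lit 1682475194) (nat_lit 76) (nat_lit 1314773940) (nat_lit 430) (nat_lit 5) (nat_lit 451) (nat_lit 5) (nat_lit 431) (nat_lit 5) (nat_lit 416) (nat_lit 371) (nat_lit 353)) (XT.lf (nat_lit 0)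 (nat_lit 2935617774) (nat_lit 1596) (nat_lit 4082732128) (nat_lit 1672) (nat_lit 170469748) (nat_lit 409) (nat_lit 5) (nat_lit 430) (nat_lit 5) (nat_lit 431) (nat_lit 5) (nat_lit 417) (nat_lit 371) (nat_lit 352))) (XT.nd (nat_lit 78) (nat_lit 1824) (nat_lit 0) (XT.lf (nat_lit 0) (nat_lit 369874659) (nat_lit 1672) (nat_lit 2265345260) (nat_lit 1748) (nat_lit 4598300767) (nat_lit 386) (nat_lit 5) (nat_lit 408) (nat_lit 5) (nat_lit 409) (nat_lit 5) (nat_lit 418) (nat_lit 371) (nat_lit 351)) (XT.nd (nat_lit 78) (nat_lit 1824) (nat_lit 0) (XT.lf (nat_lit 0) (nat_lit 5088871881) (nat_lit 1672) (nat_lit 379342374) (nat_lit 1748) (nat_lit 1811449468) (nat_lit 386) (nat_lit 5) (nat_lit 408) (nat_lit 5) (nat_lit 409) (nat_lit 5) (nat_lit 419) (nat_lit 371) (nat_lit 350)) (XT.lf (nat_lit 0) (nat_lit 989980809) (nat_lit 1824) (nat_lit 4788091689) (nat_lit 76) (nat_lit 1549114353) (nat_lit 362) (nat_lit 5) (nat_lit 386)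 (nat_lit 5) (nat_lit 363) (nat_lit 5) (nat_lit 420) (nat_lit 371) (nat_lit 349)))))) (XT.nd (nat_lit 390) (nat_lit 3268) (nat_lit 0) (XT.nd (nat_lit 156) (nat_lit 1900) (nat_lit 0) (XT.nd (nat_lit 78) (nat_lit 912) (nat_lit 0) (XT.lf (nat_lit 0) (nat_lit 3786872849) (nat_lit 1824) (nat_lit 50238286) (nat_lit 76) (nat_lit 3539073744) (nat_lit 362) (nat_lit 5) (nat_lit 386) (nat_lit 5) (nat_lit 363) (nat_lit 5) (nat_lit 421) (nat_lit 371) (nat_lit 348)) (XT.lf (nat_lit 0) (nat_lit 4792737023) (nat_lit 912) (nat_lit 1825490064) (nat_lit 988) (nat_lit 808402235) (nat_lit 350) (nat_lit 5) (nat_lit 362) (nat_lit 5) (nat_lit 363) (nat_lit 5) (nat_lit 422) (nat_lit 371) (nat_lit 347))) (XT.nd (nat_lit 78) (nat_lit 912) (nat_lit 0) (XT.lf (nat_lit 0) (nat_lit 1965638635) (nat_lit 988) (nat_lit 5262034811) (nat_lit 76) (nat_lit 250899115) (nat_lit 337) (nat_lit 5) (nat_lit 350) (nat_lit 5) (nat_lit 338) (nat_lit 5)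 (nat_lit 423) (nat_lit 371) (nat_lit 346)) (XT.nd (nat_lit 78) (nat_lit 912) (nat_lit 0) (XT.lf (nat_lit 0) (nat_lit 4762625046) (nat_lit 988) (nat_lit 402672206) (nat_lit 76) (nat_lit 2366619570) (nat_lit 337) (nat_lit 5) (nat_lit 350) (nat_lit 5) (nat_lit 338) (nat_lit 5) (nat_lit 424) (nat_lit 371) (nat_lit 345)) (XT.lf (nat_lit 0) (nat_lit 7691139) (nat_lit 912) (nat_lit 3025673860) (nat_lit 76) (nat_lit 4553415611) (nat_lit 325) (nat_lit 5) (nat_lit 337) (nat_lit 5) (nat_lit 326) (nat_lit 5) (nat_lit 425) (nat_lit 371) (nat_lit 344))))) (XT.nd (nat_lit 234) (nat_lit 1596) (nat_lit 0) (XT.nd (nat_lit 78) (nat_lit 836) (nat_lit 0) (XT.lf (nat_lit 0) (nat_lit 1941137452) (nat_lit 836) (nat_lit 827052375) (nat_lit 912) (nat_lit 4874917410) (nat_lit 314) (nat_lit 5) (nat_lit 325) (nat_lit 5) (nat_lit 326) (nat_lit 5) (nat_lit 426) (nat_lit 371) (nat_lit 343)) (XT.nd (nat_lit 78) (nat_lit 836) (nat_lit 0)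 (XT.lf (nat_lit 0) (nat_lit 5563903812) (nat_lit 912) (nat_lit 714785386) (nat_lit 76) (nat_lit 1422303255) (nat_lit 314) (nat_lit 5) (nat_lit 326) (nat_lit 5) (nat_lit 315) (nat_lit 5) (nat_lit 427) (nat_lit 371) (nat_lit 342)) (XT.lf (nat_lit 0) (nat_lit 631929595) (nat_lit 836) (nat_lit 3393026430) (nat_lit 76) (nat_lit 3735324543) (nat_lit 303) (nat_lit 5) (nat_lit 314) (nat_lit 5) (nat_lit 304) (nat_lit 5) (nat_lit 428) (nat_lit 371) (nat_lit 341)))) (XT.nd (nat_lit 78) (nat_lit 836) (nat_lit 0) (XT.lf (nat_lit 0) (nat_lit 1695180679) (nat_lit 760) (nat_lit 1699959997) (nat_lit 836) (nat_lit 4426012992) (nat_lit 293) (nat_lit 5) (nat_lit 303) (nat_lit 5) (nat_lit 304) (nat_lit 5) (nat_lit 429) (nat_lit 371) (nat_lit 340)) (XT.nd (nat_lit 78) (nat_lit 836) (nat_lit 0) (XT.lf (nat_lit 0) (nat_lit 6193041223) (nat_lit 836) (nat_lit 1009595048) (nat_lit 76) (nat_lit 681049164) (nat_lit 293) (nat_lit 5)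 (nat_lit 304) (nat_lit 5) (nat_lit 294) (nat_lit 5) (nat_lit 430) (nat_lit 371) (nat_lit 339)) (XT.lf (nat_lit 0) (nat_lit 1076542919) (nat_lit 836) (nat_lit 3754196577) (nat_lit 76) (nat_lit 3116783530) (nat_lit 282) (nat_lit 5) (nat_lit 293) (nat_lit 5) (nat_lit 283) (nat_lit 5) (nat_lit 431) (nat_lit 371) (nat_lit 338))))))))
noncomputable def xc73 : XT := (XT.nd (nat_lit 1560) (nat_lit 5624) (nat_lit 0) (XT.nd (nat_lit 780) (nat_lit 3496) (nat_lit 0) (XT.nd (nat_lit 390) (nat_lit 2660) (nat_lit 0) (XT.nd (nat_lit 156) (nat_lit 1444) (nat_lit 0) (XT.nd (nat_lit 78) (nat_lit 0) (nat_lit 0) (XT.lf (nat_lit 0) (nat_lit 1456656644) (nat_lit 760) (nat_lit 2389408641) (nat_lit 836) (nat_lit 4166983994) (nat_lit 272) (nat_lit 5) (nat_lit 282) (nat_lit 5) (nat_lit 283) (nat_lit 5) (nat_lit 432) (nat_lit 371) (nat_lit 337)) (XT.lf (nat_lit 0) (nat_lit 6650856978) (nat_lit 836) (nat_lit 1310845464) (nat_lit 76)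 (nat_lit 118613488) (nat_lit 272) (nat_lit 5) (nat_lit 283) (nat_lit 5) (nat_lit 273) (nat_lit 5) (nat_lit 433) (nat_lit 371) (nat_lit 336))) (XT.nd (nat_lit 78) (nat_lit 684) (nat_lit 0) (XT.lf (nat_lit 0) (nat_lit 1341617299) (nat_lit 760) (nat_lit 4133491975) (nat_lit 76) (nat_lit 2673734569) (nat_lit 262) (nat_lit 5) (nat_lit 272) (nat_lit 5) (nat_lit 263) (nat_lit 5) (nat_lit 434) (nat_lit 371) (nat_lit 335)) (XT.nd (nat_lit 78) (nat_lit 0) (nat_lit 0) (XT.lf (nat_lit 0) (nat_lit 1201007711) (nat_lit 684) (nat_lit 2919635292) (nat_lit 760) (nat_lit 4098502835) (nat_lit 253) (nat_lit 5) (nat_lit 262) (nat_lit 5) (nat_lit 263) (nat_lit 5) (nat_lit 435) (nat_lit 371) (nat_lit 334)) (XT.lf (nat_lit 0) (nat_lit 6646078853) (nat_lit 684) (nat_lit 292450114) (nat_lit 760) (nat_lit 1352684670) (nat_lit 253) (nat_lit 5) (nat_lit 262) (nat_lit 5) (nat_lit 263) (nat_lit 5) (nat_lit 436) (nat_lit 371) (nat_lit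 333))))) (XT.nd (nat_lit 156) (nat_lit 1292) (nat_lit 0) (XT.nd (nat_lit 78) (nat_lit 684) (nat_lit 0) (XT.lf (nat_lit 0) (nat_lit 1425664647) (nat_lit 684) (nat_lit 4556266549) (nat_lit 76) (nat_lit 2382695812) (nat_lit 244) (nat_lit 5) (nat_lit 253) (nat_lit 5) (nat_lit 245) (nat_lit 5) (nat_lit 437) (nat_lit 371) (nat_lit 332)) (XT.lf (nat_lit 0) (nat_lit 902574108) (nat_lit 684) (nat_lit 3314396416) (nat_lit 760) (nat_lit 4222873152) (nat_lit 235) (nat_lit 5) (nat_lit 244) (nat_lit 5) (nat_lit 245) (nat_lit 5) (nat_lit 438) (nat_lit 371) (nat_lit 331))) (XT.nd (nat_lit 78) (nat_lit 1292) (nat_lit 0) (XT.lf (nat_lit 0) (nat_lit 6480463348) (nat_lit 684) (nat_lit 571304071) (nat_lit 760) (nat_lit 1465067388) (nat_lit 235) (nat_lit 5) (nat_lit 244) (nat_lit 5) (nat_lit 245) (nat_lit 5) (nat_lit 439) (nat_lit 371) (nat_lit 330)) (XT.nd (nat_lit 78) (nat_lit 608) (nat_lit 0) (XT.lf (nat_lit 0) (nat_lit 1325576257)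 (nat_lit 684) (nat_lit 5049168112) (nat_lit 76) (nat_lit 2220561687) (nat_lit 226) (nat_lit 5) (nat_lit 235) (nat_lit 5) (nat_lit 227) (nat_lit 5) (nat_lit 440) (nat_lit 371) (nat_lit 329)) (XT.lf (nat_lit 0) (nat_lit 534340545) (nat_lit 608) (nat_lit 3597170600) (nat_lit 684) (nat_lit 4544082069) (nat_lit 218) (nat_lit 5) (nat_lit 226) (nat_lit 5) (nat_lit 227) (nat_lit 5) (nat_lit 441) (nat_lit 371) (nat_lit 328)))))) (XT.nd (nat_lit 390) (nat_lit 1672) (nat_lit 0) (XT.nd (nat_lit 156) (nat_lit 1216) (nat_lit 0) (XT.nd (nat_lit 78) (nat_lit 608) (nat_lit 0) (XT.lf (nat_lit 0) (nat_lit 6246385064) (nat_lit 608) (nat_lit 739618445) (nat_lit 684) (nat_lit 1771655472) (nat_lit 218) (nat_lit 5) (nat_lit 226) (nat_lit 5) (nat_lit 227) (nat_lit 5) (nat_lit 442) (nat_lit 371) (nat_lit 327)) (XT.lf (nat_lit 0) (nat_lit 1036562514) (nat_lit 608) (nat_lit 5640402066) (nat_lit 76) (nat_lit 2164401225) (nat_lit 210)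 (nat_lit 5) (nat_lit 218) (nat_lit 5) (nat_lit 211) (nat_lit 5) (nat_lit 443) (nat_lit 371) (nat_lit 326))) (XT.nd (nat_lit 78) (nat_lit 608) (nat_lit 0) (XT.lf (nat_lit 0) (nat_lit 67666062) (nat_lit 608) (nat_lit 3791363770) (nat_lit 684) (nat_lit 5067866967) (nat_lit 202) (nat_lit 5) (nat_lit 210) (nat_lit 5) (nat_lit 211) (nat_lit 5) (nat_lit 444) (nat_lit 371) (nat_lit 325)) (XT.nd (nat_lit 78) (nat_lit 608) (nat_lit 0) (XT.lf (nat_lit 0) (nat_lit 5915135638) (nat_lit 608) (nat_lit 820607042) (nat_lit 684) (nat_lit 2278459805) (nat_lit 202) (nat_lit 5) (nat_lit 210) (nat_lit 5) (nat_lit 211) (nat_lit 5) (nat_lit 445) (nat_lit 371) (nat_lit 324)) (XT.lf (nat_lit 0) (nat_lit 552077877) (nat_lit 608) (nat_lit 6360013626) (nat_lit 76) (nat_lit 2191252903) (nat_lit 194) (nat_lit 5) (nat_lit 202) (nat_lit 5) (nat_lit 195) (nat_lit 5) (nat_lit 446) (nat_lit 371) (nat_lit 323))))) (XT.nd (nat_lit 156) (nat_lit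 1140) (nat_lit 0) (XT.nd (nat_lit 78) (nat_lit 532) (nat_lit 0) (XT.lf (nat_lit 0) (nat_lit 3395941461) (nat_lit 608) (nat_lit 521080525) (nat_lit 76) (nat_lit 5277220335) (nat_lit 194) (nat_lit 5) (nat_lit 202) (nat_lit 5) (nat_lit 195) (nat_lit 5) (nat_lit 447) (nat_lit 371) (nat_lit 322)) (XT.lf (nat_lit 0) (nat_lit 5456040176) (nat_lit 532) (nat_lit 837661105) (nat_lit 608) (nat_lit 2993335006) (nat_lit 187) (nat_lit 5) (nat_lit 194) (nat_lit 5) (nat_lit 195) (nat_lit 5) (nat_lit 448) (nat_lit 371) (nat_lit 321))) (XT.nd (nat_lit 78) (nat_lit 608) (nat_lit 0) (XT.lf (nat_lit 0) (nat_lit 2140730089) (nat_lit 532) (nat_lit 7103007033) (nat_lit 608) (nat_lit 138080703) (nat_lit 180) (nat_lit 5) (nat_lit 187) (nat_lit 5) (nat_lit 188) (nat_lit 5) (nat_lit 449) (nat_lit 371) (nat_lit 320)) (XT.nd (nat_lit 78) (nat_lit 532) (nat_lit 0) (XT.lf (nat_lit 0) (nat_lit 2731420177) (nat_lit 608) (nat_lit 1268597520)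 (nat_lit 76) (nat_lit 5478263922) (nat_lit 179) (nat_lit 5) (nat_lit 187) (nat_lit 5) (nat_lit 180) (nat_lit 5) (nat_lit 450) (nat_lit 371) (nat_lit 319)) (XT.lf (nat_lit 0) (nat_lit 4836141664) (nat_lit 532) (nat_lit 814565776) (nat_lit 608) (nat_lit 3926081156) (nat_lit 172) (nat_lit 5) (nat_lit 179) (nat_lit 5) (nat_lit 180) (nat_lit 5) (nat_lit 451) (nat_lit 371) (nat_lit 318))))))) (XT.nd (nat_lit 780) (nat_lit 2736) (nat_lit 0) (XT.nd (nat_lit 390) (nat_lit 1368) (nat_lit 0) (XT.nd (nat_lit 156) (nat_lit 988) (nat_lit 0) (XT.nd (nat_lit 78) (nat_lit 76) (nat_lit 0) (XT.lf (nat_lit 0) (nat_lit 1354927246) (nat_lit 456) (nat_lit 7269796570) (nat_lit 532) (nat_lit 1052631759) (nat_lit 166) (nat_lit 5) (nat_lit 172) (nat_lit 5) (nat_lit 173) (nat_lit 5) (nat_lit 452) (nat_lit 371) (nat_lit 317)) (XT.lf (nat_lit 0) (nat_lit 1854381737) (nat_lit 532) (nat_lit 2210654428) (nat_lit 76) (nat_lit 5714655324)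 (nat_lit 165) (nat_lit 5) (nat_lit 172) (nat_lit 5) (nat_lit 166) (nat_lit 5) (nat_lit 453) (nat_lit 371) (nat_lit 316))) (XT.nd (nat_lit 78) (nat_lit 532) (nat_lit 0) (XT.lf (nat_lit 0) (nat_lit 4019859798) (nat_lit 456) (nat_lit 775724904) (nat_lit 532) (nat_lit 5088563148) (nat_lit 159) (nat_lit 5) (nat_lit 165) (nat_lit 5) (nat_lit 166) (nat_lit 5) (nat_lit 454) (nat_lit 371) (nat_lit 315)) (XT.nd (nat_lit 78) (nat_lit 76) (nat_lit 0) (XT.lf (nat_lit 0) (nat_lit 352773359) (nat_lit 456) (nat_lit 7441140899) (nat_lit 532) (nat_lit 2196828489) (nat_lit 153) (nat_lit 5) (nat_lit 159) (nat_lit 5) (nat_lit 160) (nat_lit 5) (nat_lit 455) (nat_lit 371) (nat_lit 314)) (XT.lf (nat_lit 0) (nat_lit 752082096) (nat_lit 532) (nat_lit 3385022488) (nat_lit 76) (nat_lit 5962097796) (nat_lit 152) (nat_lit 5) (nat_lit 159) (nat_lit 5) (nat_lit 153) (nat_lit 5) (nat_lit 456) (nat_lit 371) (nat_lit 313))))) (XT.nd (nat_lit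 156) (nat_lit 912) (nat_lit 0) (XT.nd (nat_lit 78) (nat_lit 0) (nat_lit 0) (XT.lf (nat_lit 0) (nat_lit 2968620964) (nat_lit 456) (nat_lit 746396191) (nat_lit 532) (nat_lit 6494848959) (nat_lit 146) (nat_lit 5) (nat_lit 152) (nat_lit 5) (nat_lit 153) (nat_lit 5) (nat_lit 457) (nat_lit 371) (nat_lit 312)) (XT.lf (nat_lit 0) (nat_lit 6743123700) (nat_lit 532) (nat_lit 893866252) (nat_lit 76) (nat_lit 2685649194) (nat_lit 146) (nat_lit 5) (nat_lit 153) (nat_lit 5) (nat_lit 147) (nat_lit 5) (nat_lit 458) (nat_lit 371) (nat_lit 311))) (XT.nd (nat_lit 78) (nat_lit 532) (nat_lit 0) (XT.lf (nat_lit 0) (nat_lit 5600895289) (nat_lit 380) (nat_lit 4238320665) (nat_lit 456) (nat_lit 598317214) (nat_lit 141) (nat_lit 5) (nat_lit 146) (nat_lit 5) (nat_lit 147) (nat_lit 5) (nat_lit 459) (nat_lit 371) (nat_lit 310)) (XT.nd (nat_lit 78) (nat_lit 0) (nat_lit 0) (XT.lf (nat_lit 0) (nat_lit 1640455800) (nat_lit 456) (nat_lit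 752938777) (nat_lit 532) (nat_lit 8161368313) (nat_lit 134) (nat_lit 5) (nat_lit 140) (nat_lit 5) (nat_lit 141) (nat_lit 5) (nat_lit 460) (nat_lit 371) (nat_lit 309)) (XT.lf (nat_lit 0) (nat_lit 5454292825) (nat_lit 532) (nat_lit 2431900208) (nat_lit 76) (nat_lit 2787730992) (nat_lit 134) (nat_lit 5) (nat_lit 141) (nat_lit 5) (nat_lit 135) (nat_lit 5) (nat_lit 461) (nat_lit 371) (nat_lit 308)))))) (XT.nd (nat_lit 390) (nat_lit 1520) (nat_lit 0) (XT.nd (nat_lit 156) (nat_lit 760) (nat_lit 0) (XT.nd (nat_lit 78) (nat_lit 76) (nat_lit 0) (XT.lf (nat_lit 0) (nat_lit 4182478641) (nat_lit 380) (nat_lit 4393220650) (nat_lit 456) (nat_lit 2219796222) (nat_lit 129) (nat_lit 5) (nat_lit 134) (nat_lit 5) (nat_lit 135) (nat_lit 5) (nat_lit 462) (nat_lit 371) (nat_lit 307)) (XT.lf (nat_lit 0) (nat_lit 812703778) (nat_lit 456) (nat_lit 10302614) (nat_lit 76) (nat_lit 10096721678) (nat_lit 128) (nat_lit 5) (nat_lit 134)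 (nat_lit 5) (nat_lit 129) (nat_lit 5) (nat_lit 463) (nat_lit 371) (nat_lit 306))) (XT.nd (nat_lit 78) (nat_lit 380) (nat_lit 0) (XT.lf (nat_lit 0) (nat_lit 3906487170) (nat_lit 456) (nat_lit 4312951946) (nat_lit 76) (nat_lit 2826117762) (nat_lit 123) (nat_lit 5) (nat_lit 129) (nat_lit 5) (nat_lit 124) (nat_lit 5) (nat_lit 464) (nat_lit 371) (nat_lit 305)) (XT.nd (nat_lit 78) (nat_lit 0) (nat_lit 0) (XT.lf (nat_lit 0) (nat_lit 2415854617) (nat_lit 380) (nat_lit 4635629748) (nat_lit 456) (nat_lit 4122643086) (nat_lit 118) (nat_lit 5) (nat_lit 123) (nat_lit 5) (nat_lit 124) (nat_lit 5) (nat_lit 465) (nat_lit 371) (nat_lit 304)) (XT.lf (nat_lit 0) (nat_lit 9291021320) (nat_lit 380) (nat_lit 965756970) (nat_lit 456) (nat_lit 1048554922) (nat_lit 118) (nat_lit 5) (nat_lit 123) (nat_lit 5) (nat_lit 124) (nat_lit 5) (nat_lit 466) (nat_lit 371) (nat_lit 303))))) (XT.nd (nat_lit 234) (nat_lit 760) (nat_lit 0) (XT.nd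 (nat_lit 78) (nat_lit 304) (nat_lit 0) (XT.lf (nat_lit 0) (nat_lit 2078345728) (nat_lit 456) (nat_lit 6588486788) (nat_lit 76) (nat_lit 2771696780) (nat_lit 112) (nat_lit 5) (nat_lit 118) (nat_lit 5) (nat_lit 113) (nat_lit 5) (nat_lit 467) (nat_lit 371) (nat_lit 302)) (XT.nd (nat_lit 78) (nat_lit 0) (nat_lit 0) (XT.lf (nat_lit 0) (nat_lit 248281421) (nat_lit 304) (nat_lit 4996162286) (nat_lit 380) (nat_lit 6330004025) (nat_lit 108) (nat_lit 5) (nat_lit 112) (nat_lit 5) (nat_lit 113) (nat_lit 5) (nat_lit 468) (nat_lit 371) (nat_lit 301)) (XT.lf (nat_lit 0) (nat_lit 7264983961) (nat_lit 304) (nat_lit 1222470940) (nat_lit 380) (nat_lit 3225368633) (nat_lit 108) (nat_lit 5) (nat_lit 112) (nat_lit 5) (nat_lit 113) (nat_lit 5) (nat_lit 469) (nat_lit 371) (nat_lit 300)))) (XT.nd (nat_lit 78) (nat_lit 380) (nat_lit 0) (XT.lf (nat_lit 0) (nat_lit 2538575305) (nat_lit 380) (nat_lit 9260168228) (nat_lit 456) (nat_lit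 55165585) (nat_lit 103) (nat_lit 5) (nat_lit 108) (nat_lit 5) (nat_lit 109) (nat_lit 5) (nat_lit 470) (nat_lit 371) (nat_lit 299)) (XT.nd (nat_lit 78) (nat_lit 304) (nat_lit 0) (XT.lf (nat_lit 0) (nat_lit 3144865315) (nat_lit 456) (nat_lit 2346965942) (nat_lit 76) (nat_lit 6505420430) (nat_lit 102) (nat_lit 5) (nat_lit 108) (nat_lit 5) (nat_lit 103) (nat_lit 5) (nat_lit 471) (nat_lit 371) (nat_lit 298)) (XT.lf (nat_lit 0) (nat_lit 4778142160) (nat_lit 304) (nat_lit 1631597193) (nat_lit 380) (nat_lit 5733692838) (nat_lit 98) (nat_lit 5) (nat_lit 102) (nat_lit 5) (nat_lit 103) (nat_lit 5) (nat_lit 472) (nat_lit 371) (nat_lit 297))))))))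
noncomputable def xc74 : XT := (XT.nd (nat_lit 1560) (nat_lit 1444) (nat_lit 0) (XT.nd (nat_lit 780) (nat_lit 1368) (nat_lit 0) (XT.nd (nat_lit 390) (nat_lit 912) (nat_lit 0) (XT.nd (nat_lit 156) (nat_lit 608) (nat_lit 0) (XT.nd (nat_lit 78) (nat_lit 380) (nat_lit 0) (XT.lf (nat_lit 0) (nat_lit 9741480257) (nat_lit 380) (nat_lit 274855318) (nat_lit 76) (nat_lit 2276179142) (nat_lit 98) (nat_lit 5) (nat_lit 103) (nat_lit 5) (nat_lit 99) (nat_lit 5) (nat_lit 473) (nat_lit 371) (nat_lit 296)) (XT.lf (nat_lit 0) (nat_lit 713864977) (nat_lit 380) (nat_lit 5454663014) (nat_lit 76) (nat_lit 6275415910) (nat_lit 93) (nat_lit 5) (nat_lit 98) (nat_lit 5) (nat_lit 94) (nat_lit 5) (nat_lit 474) (nat_lit 371) (nat_lit 295))) (XT.nd (nat_lit 78) (nat_lit 304) (nat_lit 0) (XT.lf (nat_lit 0) (nat_lit 1765977093) (nat_lit 304) (nat_lit 2228679344) (nat_lit 380) (nat_lit 8603722174) (nat_lit 89) (nat_lit 5) (nat_lit 93) (nat_lit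 5) (nat_lit 94) (nat_lit 5) (nat_lit 475) (nat_lit 371) (nat_lit 294)) (XT.nd (nat_lit 78) (nat_lit 304) (nat_lit 0) (XT.lf (nat_lit 0) (nat_lit 7361102151) (nat_lit 380) (nat_lit 3606584747) (nat_lit 76) (nat_lit 1787823404) (nat_lit 89) (nat_lit 5) (nat_lit 94) (nat_lit 5) (nat_lit 90) (nat_lit 5) (nat_lit 476) (nat_lit 371) (nat_lit 293)) (XT.lf (nat_lit 0) (nat_lit 3754583733) (nat_lit 304) (nat_lit 7051557902) (nat_lit 380) (nat_lit 2109426571) (nat_lit 85) (nat_lit 5) (nat_lit 89) (nat_lit 5) (nat_lit 90) (nat_lit 5) (nat_lit 477) (nat_lit 371) (nat_lit 292))))) (XT.nd (nat_lit 156) (nat_lit 608) (nat_lit 0) (XT.nd (nat_lit 78) (nat_lit 228) (nat_lit 0) (XT.lf (nat_lit 0) (nat_lit 1221539434) (nat_lit 380) (nat_lit 1818436773) (nat_lit 76) (nat_lit 10038767134) (nat_lit 84) (nat_lit 5) (nat_lit 89) (nat_lit 5) (nat_lit 85) (nat_lit 5) (nat_lit 478) (nat_lit 371) (nat_lit 291)) (XT.lf (nat_lit 0) (nat_lit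 4607652542) (nat_lit 304) (nat_lit 7563061834) (nat_lit 76) (nat_lit 1073861642) (nat_lit 81) (nat_lit 5) (nat_lit 85) (nat_lit 5) (nat_lit 82) (nat_lit 5) (nat_lit 479) (nat_lit 371) (nat_lit 290))) (XT.nd (nat_lit 78) (nat_lit 608) (nat_lit 0) (XT.lf (nat_lit 0) (nat_lit 8066806958) (nat_lit 304) (nat_lit 120625946) (nat_lit 76) (nat_lit 5226194265) (nat_lit 81) (nat_lit 5) (nat_lit 85) (nat_lit 5) (nat_lit 82) (nat_lit 5) (nat_lit 480) (nat_lit 371) (nat_lit 289)) (XT.nd (nat_lit 78) (nat_lit 304) (nat_lit 0) (XT.lf (nat_lit 0) (nat_lit 7527177876) (nat_lit 304) (nat_lit 4090272599) (nat_lit 380) (nat_lit 1968170789) (nat_lit 77) (nat_lit 5) (nat_lit 81) (nat_lit 5) (nat_lit 82) (nat_lit 5) (nat_lit 481) (nat_lit 371) (nat_lit 288)) (XT.lf (nat_lit 0) (nat_lit 1443569992) (nat_lit 304) (nat_lit 12224990325) (nat_lit 76) (nat_lit 92612657) (nat_lit 73) (nat_lit 5) (nat_lit 77) (nat_lit 5) (nat_lit 74)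 (nat_lit 5) (nat_lit 482) (nat_lit 371) (nat_lit 287)))))) (XT.nd (nat_lit 390) (nat_lit 760) (nat_lit 0) (XT.nd (nat_lit 156) (nat_lit 304) (nat_lit 0) (XT.nd (nat_lit 78) (nat_lit 304) (nat_lit 0) (XT.lf (nat_lit 0) (nat_lit 4938874692) (nat_lit 304) (nat_lit 4657424466) (nat_lit 76) (nat_lit 4342850287) (nat_lit 73) (nat_lit 5) (nat_lit 77) (nat_lit 5) (nat_lit 74) (nat_lit 5) (nat_lit 483) (nat_lit 371) (nat_lit 286)) (XT.lf (nat_lit 0) (nat_lit 3060022040) (nat_lit 304) (nat_lit 5438093680) (nat_lit 380) (nat_lit 5622696549) (nat_lit 69) (nat_lit 5) (nat_lit 73) (nat_lit 5) (nat_lit 74) (nat_lit 5) (nat_lit 484) (nat_lit 371) (nat_lit 285))) (XT.nd (nat_lit 78) (nat_lit 304) (nat_lit 0) (XT.lf (nat_lit 0) (nat_lit 10953620392) (nat_lit 304) (nat_lit 1180575766) (nat_lit 380) (nat_lit 2171806384) (nat_lit 69) (nat_lit 5) (nat_lit 73) (nat_lit 5) (nat_lit 74) (nat_lit 5) (nat_lit 485) (nat_lit 371) (nat_lit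 284)) (XT.nd (nat_lit 78) (nat_lit 0) (nat_lit 0) (XT.lf (nat_lit 0) (nat_lit 1355177893) (nat_lit 304) (nat_lit 9995470616) (nat_lit 76) (nat_lit 3143584918) (nat_lit 65) (nat_lit 5) (nat_lit 69) (nat_lit 5) (nat_lit 66) (nat_lit 5) (nat_lit 486) (nat_lit 371) (nat_lit 283)) (XT.lf (nat_lit 0) (nat_lit 4928972626) (nat_lit 304) (nat_lit 2196756054) (nat_lit 76) (nat_lit 7560112975) (nat_lit 65) (nat_lit 5) (nat_lit 69) (nat_lit 5) (nat_lit 66) (nat_lit 5) (nat_lit 487) (nat_lit 371) (nat_lit 282))))) (XT.nd (nat_lit 156) (nat_lit 532) (nat_lit 0) (XT.nd (nat_lit 78) (nat_lit 0) (nat_lit 0) (XT.lf (nat_lit 0) (nat_lit 5793722473) (nat_lit 228) (nat_lit 2793490861) (nat_lit 304) (nat_lit 6293816040) (nat_lit 62) (nat_lit 5) (nat_lit 65) (nat_lit 5) (nat_lit 66) (nat_lit 5) (nat_lit 488) (nat_lit 371) (nat_lit 281)) (XT.lf (nat_lit 0) (nat_lit 12319487692) (nat_lit 304) (nat_lit 1157014533) (nat_lit 76) (nat_lit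 1603607842) (nat_lit 62) (nat_lit 5) (nat_lit 66) (nat_lit 5) (nat_lit 63) (nat_lit 5) (nat_lit 489) (nat_lit 371) (nat_lit 280))) (XT.nd (nat_lit 78) (nat_lit 228) (nat_lit 0) (XT.lf (nat_lit 0) (nat_lit 872112560) (nat_lit 304) (nat_lit 8322924487) (nat_lit 76) (nat_lit 6087233438) (nat_lit 58) (nat_lit 5) (nat_lit 62) (nat_lit 5) (nat_lit 59) (nat_lit 5) (nat_lit 490) (nat_lit 371) (nat_lit 279)) (XT.nd (nat_lit 78) (nat_lit 228) (nat_lit 0) (XT.lf (nat_lit 0) (nat_lit 4524397534) (nat_lit 304) (nat_lit 292535308) (nat_lit 76) (nat_lit 10671505330) (nat_lit 58) (nat_lit 5) (nat_lit 62) (nat_lit 5) (nat_lit 59) (nat_lit 5) (nat_lit 491) (nat_lit 371) (nat_lit 278)) (XT.lf (nat_lit 0) (nat_lit 7964088409) (nat_lit 228) (nat_lit 313828262) (nat_lit 304) (nat_lit 7420254868) (nat_lit 55) (nat_lit 5) (nat_lit 58) (nat_lit 5) (nat_lit 59) (nat_lit 5) (nat_lit 492) (nat_lit 371) (nat_lit 277))))))) (XT.nd (nat_lit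 780) (nat_lit 304) (nat_lit 0) (XT.nd (nat_lit 390) (nat_lit 456) (nat_lit 0) (XT.nd (nat_lit 156) (nat_lit 456) (nat_lit 0) (XT.nd (nat_lit 78) (nat_lit 0) (nat_lit 0) (XT.lf (nat_lit 0) (nat_lit 416473142) (nat_lit 228) (nat_lit 11699089442) (nat_lit 304) (nat_lit 3796361834) (nat_lit 52) (nat_lit 5) (nat_lit 55) (nat_lit 5) (nat_lit 56) (nat_lit 5) (nat_lit 493) (nat_lit 371) (nat_lit 276)) (XT.lf (nat_lit 0) (nat_lit 8794086956) (nat_lit 228) (nat_lit 7266638702) (nat_lit 304) (nat_lit 68617270) (nat_lit 52) (nat_lit 5) (nat_lit 55) (nat_lit 5) (nat_lit 56) (nat_lit 5) (nat_lit 494) (nat_lit 371) (nat_lit 275))) (XT.nd (nat_lit 78) (nat_lit 152) (nat_lit 0) (XT.lf (nat_lit 0) (nat_lit 937966685) (nat_lit 228) (nat_lit 2729935909) (nat_lit 304) (nat_lit 12683064247) (nat_lit 48) (nat_lit 5) (nat_lit 51) (nat_lit 5) (nat_lit 52) (nat_lit 5) (nat_lit 495) (nat_lit 371) (nat_lit 274)) (XT.nd (nat_lit 78)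 (nat_lit 152) (nat_lit 0) (XT.lf (nat_lit 0) (nat_lit 7517305780) (nat_lit 304) (nat_lit 7151399189) (nat_lit 76) (nat_lit 1907533278) (nat_lit 48) (nat_lit 5) (nat_lit 52) (nat_lit 5) (nat_lit 49) (nat_lit 5) (nat_lit 496) (nat_lit 371) (nat_lit 273)) (XT.lf (nat_lit 0) (nat_lit 1235971295) (nat_lit 152) (nat_lit 10211478154) (nat_lit 228) (nat_lit 5358495995) (nat_lit 46) (nat_lit 5) (nat_lit 48) (nat_lit 5) (nat_lit 49) (nat_lit 5) (nat_lit 497) (nat_lit 371) (nat_lit 272))))) (XT.nd (nat_lit 156) (nat_lit 152) (nat_lit 0) (XT.nd (nat_lit 78) (nat_lit 304) (nat_lit 0) (XT.lf (nat_lit 0) (nat_lit 9850682170) (nat_lit 152) (nat_lit 5631347890) (nat_lit 228) (nat_lit 1557705349) (nat_lit 46) (nat_lit 5) (nat_lit 48) (nat_lit 5) (nat_lit 49) (nat_lit 5) (nat_lit 498) (nat_lit 371) (nat_lit 271)) (XT.lf (nat_lit 0) (nat_lit 1324895609) (nat_lit 228) (nat_lit 950522031) (nat_lit 304) (nat_lit 15002752850) (nat_lit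 42) (nat_lit 5) (nat_lit 45) (nat_lit 5) (nat_lit 46) (nat_lit 5) (nat_lit 499) (nat_lit 371) (nat_lit 270))) (XT.nd (nat_lit 78) (nat_lit 152) (nat_lit 0) (XT.lf (nat_lit 0) (nat_lit 6215977468) (nat_lit 304) (nat_lit 7486307360) (nat_lit 76) (nat_lit 3817855875) (nat_lit 42) (nat_lit 5) (nat_lit 46) (nat_lit 5) (nat_lit 43) (nat_lit 5) (nat_lit 500) (nat_lit 371) (nat_lit 269)) (XT.nd (nat_lit 78) (nat_lit 0) (nat_lit 0) (XT.lf (nat_lit 0) (nat_lit 1122139335) (nat_lit 152) (nat_lit 9105439981) (nat_lit 228) (nat_lit 7539531288) (nat_lit 40) (nat_lit 5) (nat_lit 42) (nat_lit 5) (nat_lit 43) (nat_lit 5) (nat_lit 501) (nat_lit 371) (nat_lit 268)) (XT.lf (nat_lit 0) (nat_lit 9968190145) (nat_lit 152) (nat_lit 4380295027) (nat_lit 228) (nat_lit 3669958098) (nat_lit 40) (nat_lit 5) (nat_lit 42) (nat_lit 5) (nat_lit 43) (nat_lit 5) (nat_lit 502) (nat_lit 371) (nat_lit 267)))))) (XT.nd (nat_lit 51246) (nat_lit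 0) (nat_lit 39368) (XT.nd (nat_lit 51012) (nat_lit 0) (nat_lit 43016) (XT.nd (nat_lit 78) (nat_lit 0) (nat_lit 0) (XT.lf (nat_lit 0) (nat_lit 259746571) (nat_lit 304) (nat_lit 17589933754) (nat_lit 76) (nat_lit 425363452) (nat_lit 36) (nat_lit 5) (nat_lit 40) (nat_lit 5) (nat_lit 37) (nat_lit 5) (nat_lit 503) (nat_lit 371) (nat_lit 266)) (XT.lf (nat_lit 0) (nat_lit 4281530786) (nat_lit 304) (nat_lit 8920771207) (nat_lit 76) (nat_lit 5332741137) (nat_lit 36) (nat_lit 5) (nat_lit 40) (nat_lit 5) (nat_lit 37) (nat_lit 5) (nat_lit 504) (nat_lit 371) (nat_lit 265))) (XT.nd (nat_lit 78) (nat_lit 760) (nat_lit 0) (XT.lf (nat_lit 0) (nat_lit 712500651) (nat_lit 684) (nat_lit 1859443814) (nat_lit 0) (nat_lit 712500651) (nat_lit 612) (nat_lit 5) (nat_lit 621) (nat_lit 4) (nat_lit 612) (nat_lit 4) (nat_lit 396) (nat_lit 372) (nat_lit 372)) (XT.nd (nat_lit 78) (nat_lit 76) (nat_lit 0) (XT.lf (nat_lit 0) (nat_lit 88238086)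 (nat_lit 684) (nat_lit 4426473114) (nat_lit 684) (nat_lit 2070827105) (nat_lit 603) (nat_lit 4) (nat_lit 612) (nat_lit 5) (nat_lit 612) (nat_lit 4) (nat_lit 397) (nat_lit 372) (nat_lit 371)) (XT.lf (nat_lit 0) (nat_lit 1002808044) (nat_lit 760) (nat_lit 2639430631) (nat_lit 76) (nat_lit 2961150907) (nat_lit 602) (nat_lit 5) (nat_lit 612) (nat_lit 5) (nat_lit 603) (nat_lit 4) (nat_lit 398) (nat_lit 372) (nat_lit 370))))) (XT.nd (nat_lit 234) (nat_lit 1976) (nat_lit 0) (XT.nd (nat_lit 78) (nat_lit 912) (nat_lit 0) (XT.lf (nat_lit 0) (nat_lit 1247005857) (nat_lit 760) (nat_lit 2800658569) (nat_lit 836) (nat_lit 2574978410) (nat_lit 592) (nat_lit 5) (nat_lit 602) (nat_lit 5) (nat_lit 603) (nat_lit 4) (nat_lit 399) (nat_lit 372) (nat_lit 369)) (XT.nd (nat_lit 78) (nat_lit 836) (nat_lit 0) (XT.lf (nat_lit 0) (nat_lit 452144854) (nat_lit 836) (nat_lit 1450305094) (nat_lit 76) (nat_lit 4740876203) (nat_lit 591)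 (nat_lit 5) (nat_lit 602) (nat_lit 5) (nat_lit 592) (nat_lit 5) (nat_lit 400) (nat_lit 372) (nat_lit 368)) (XT.lf (nat_lit 0) (nat_lit 2518638978) (nat_lit 836) (nat_lit 934334859) (nat_lit 912) (nat_lit 3212220357) (nat_lit 580) (nat_lit 5) (nat_lit 591) (nat_lit 5) (nat_lit 592) (nat_lit 5) (nat_lit 401) (nat_lit 372) (nat_lit 367)))) (XT.nd (nat_lit 78) (nat_lit 1976) (nat_lit 0) (XT.lf (nat_lit 0) (nat_lit 6456349842) (nat_lit 912) (nat_lit 153161641) (nat_lit 76) (nat_lit 79200564) (nat_lit 580) (nat_lit 5) (nat_lit 592) (nat_lit 5) (nat_lit 581) (nat_lit 4) (nat_lit 402) (nat_lit 372) (nat_lit 366)) (XT.nd (nat_lit 78) (nat_lit 988) (nat_lit 0) (XT.lf (nat_lit 0) (nat_lit 2735302453) (nat_lit 988) (nat_lit 2817251032) (nat_lit 76) (nat_lit 1160542373) (nat_lit 567) (nat_lit 5) (nat_lit 580) (nat_lit 5) (nat_lit 568) (nat_lit 5) (nat_lit 403) (nat_lit 372) (nat_lit 365)) (XT.lf (nat_lit 0) (nat_lit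 1253205589) (nat_lit 988) (nat_lit 4449370092) (nat_lit 1064) (nat_lit 1036553032) (nat_lit 554) (nat_lit 5) (nat_lit 567) (nat_lit 5) (nat_lit 568) (nat_lit 5) (nat_lit 404) (nat_lit 372) (nat_lit 364))))))))
noncomputable def xc75 : XT := (XT.nd (nat_lit 1560) (nat_lit 10260) (nat_lit 0) (XT.nd (nat_lit 780) (nat_lit 8664) (nat_lit 0) (XT.nd (nat_lit 390) (nat_lit 4256) (nat_lit 0) (XT.nd (nat_lit 156) (nat_lit 2432) (nat_lit 0) (XT.nd (nat_lit 78) (nat_lit 1064) (nat_lit 0) (XT.lf (nat_lit 0) (nat_lit 1891453493) (nat_lit 1064) (nat_lit 1387149039) (nat_lit 76) (nat_lit 3487807975) (nat_lit 553) (nat_lit 5) (nat_lit 567) (nat_lit 5) (nat_lit 554) (nat_lit 5) (nat_lit 405) (nat_lit 372) (nat_lit 363)) (XT.lf (nat_lit 0) (nat_lit 2771882602) (nat_lit 1064) (nat_lit 2046211824) (nat_lit 1140) (nat_lit 1976983396) (nat_lit 539) (nat_lit 5) (nat_lit 553) (nat_lit 5) (nat_lit 554) (nat_lit 5) (nat_lit 406)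 (nat_lit 372) (nat_lit 362))) (XT.nd (nat_lit 78) (nat_lit 1216) (nat_lit 0) (XT.lf (nat_lit 0) (nat_lit 152579959) (nat_lit 1140) (nat_lit 760288738) (nat_lit 1216) (nat_lit 5912441322) (nat_lit 523) (nat_lit 5) (nat_lit 538) (nat_lit 5) (nat_lit 539) (nat_lit 5) (nat_lit 407) (nat_lit 372) (nat_lit 361)) (XT.nd (nat_lit 78) (nat_lit 1216) (nat_lit 0) (XT.lf (nat_lit 0) (nat_lit 3802210695) (nat_lit 1216) (nat_lit 2458860270) (nat_lit 76) (nat_lit 595504009) (nat_lit 523) (nat_lit 5) (nat_lit 539) (nat_lit 5) (nat_lit 524) (nat_lit 5) (nat_lit 408) (nat_lit 372) (nat_lit 360)) (XT.lf (nat_lit 0) (nat_lit 1806167227) (nat_lit 1216) (nat_lit 4898545562) (nat_lit 1292) (nat_lit 184696702) (nat_lit 507) (nat_lit 5) (nat_lit 523) (nat_lit 5) (nat_lit 524) (nat_lit 5) (nat_lit 409) (nat_lit 372) (nat_lit 359))))) (XT.nd (nat_lit 156) (nat_lit 2888) (nat_lit 0) (XT.nd (nat_lit 78) (nat_lit 1292) (nat_lit 0) (XT.lf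 (nat_lit 0) (nat_lit 2662037473) (nat_lit 1292) (nat_lit 802951676) (nat_lit 76) (nat_lit 3458492367) (nat_lit 506) (nat_lit 5) (nat_lit 523) (nat_lit 5) (nat_lit 507) (nat_lit 5) (nat_lit 410) (nat_lit 372) (nat_lit 358)) (XT.lf (nat_lit 0) (nat_lit 3557106764) (nat_lit 1292) (nat_lit 1969449697) (nat_lit 1368) (nat_lit 1432436384) (nat_lit 489) (nat_lit 5) (nat_lit 506) (nat_lit 5) (nat_lit 507) (nat_lit 5) (nat_lit 411) (nat_lit 372) (nat_lit 357))) (XT.nd (nat_lit 78) (nat_lit 1444) (nat_lit 0) (XT.lf (nat_lit 0) (nat_lit 971651366) (nat_lit 1368) (nat_lit 414803975) (nat_lit 1444) (nat_lit 5609569971) (nat_lit 470) (nat_lit 5) (nat_lit 488) (nat_lit 5) (nat_lit 489) (nat_lit 5) (nat_lit 412) (nat_lit 372) (nat_lit 356)) (XT.nd (nat_lit 78) (nat_lit 1444) (nat_lit 0) (XT.lf (nat_lit 0) (nat_lit 4214650793) (nat_lit 1444) (nat_lit 1624496669) (nat_lit 76) (nat_lit 1195065406) (nat_lit 470) (nat_lit 5)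 (nat_lit 489) (nat_lit 5) (nat_lit 471) (nat_lit 5) (nat_lit 413) (nat_lit 372) (nat_lit 355)) (XT.lf (nat_lit 0) (nat_lit 2846306184) (nat_lit 1444) (nat_lit 4216984233) (nat_lit 1520) (nat_lit 10641186) (nat_lit 451) (nat_lit 5) (nat_lit 470) (nat_lit 5) (nat_lit 471) (nat_lit 5) (nat_lit 414) (nat_lit 372) (nat_lit 354)))))) (XT.nd (nat_lit 390) (nat_lit 3724) (nat_lit 0) (XT.nd (nat_lit 156) (nat_lit 3344) (nat_lit 0) (XT.nd (nat_lit 78) (nat_lit 0) (nat_lit 0) (XT.lf (nat_lit 0) (nat_lit 246835609) (nat_lit 1520) (nat_lit 2525788099) (nat_lit 1596) (nat_lit 4342381582) (nat_lit 430) (nat_lit 5) (nat_lit 450) (nat_lit 5) (nat_lit 451) (nat_lit 5) (nat_lit 415) (nat_lit 372) (nat_lit 353)) (XT.lf (nat_lit 0) (nat_lit 4816248550) (nat_lit 1520) (nat_lit 767339396) (nat_lit 1596) (nat_lit 1573910003) (nat_lit 430) (nat_lit 5) (nat_lit 450) (nat_lit 5) (nat_lit 451) (nat_lit 5) (nat_lit 416) (nat_lit 372)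 (nat_lit 352))) (XT.nd (nat_lit 78) (nat_lit 1672) (nat_lit 0) (XT.lf (nat_lit 0) (nat_lit 1199463061) (nat_lit 1672) (nat_lit 4962361384) (nat_lit 76) (nat_lit 1039575994) (nat_lit 408) (nat_lit 5) (nat_lit 430) (nat_lit 5) (nat_lit 409) (nat_lit 5) (nat_lit 417) (nat_lit 372) (nat_lit 351)) (XT.nd (nat_lit 78) (nat_lit 1672) (nat_lit 0) (XT.lf (nat_lit 0) (nat_lit 3973427383) (nat_lit 1672) (nat_lit 371160648) (nat_lit 76) (nat_lit 2902100894) (nat_lit 408) (nat_lit 5) (nat_lit 430) (nat_lit 5) (nat_lit 409) (nat_lit 5) (nat_lit 418) (nat_lit 372) (nat_lit 350)) (XT.lf (nat_lit 0) (nat_lit 4317156531) (nat_lit 1672) (nat_lit 2460099179) (nat_lit 1748) (nat_lit 516178981) (nat_lit 386) (nat_lit 5) (nat_lit 408) (nat_lit 5) (nat_lit 409) (nat_lit 5) (nat_lit 419) (nat_lit 372) (nat_lit 349))))) (XT.nd (nat_lit 156) (nat_lit 1900) (nat_lit 0) (XT.nd (nat_lit 78) (nat_lit 0) (nat_lit 0) (XT.lf (nat_lit 0)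 (nat_lit 1719091574) (nat_lit 1748) (nat_lit 507196525) (nat_lit 1824) (nat_lit 5115359688) (nat_lit 362) (nat_lit 5) (nat_lit 385) (nat_lit 5) (nat_lit 386) (nat_lit 5) (nat_lit 420) (nat_lit 372) (nat_lit 348)) (XT.lf (nat_lit 0) (nat_lit 4993850811) (nat_lit 1824) (nat_lit 907396274) (nat_lit 76) (nat_lit 1490003605) (nat_lit 362) (nat_lit 5) (nat_lit 386) (nat_lit 5) (nat_lit 363) (nat_lit 5) (nat_lit 421) (nat_lit 372) (nat_lit 347))) (XT.nd (nat_lit 78) (nat_lit 912) (nat_lit 0) (XT.lf (nat_lit 0) (nat_lit 346922352) (nat_lit 988) (nat_lit 3546249798) (nat_lit 76) (nat_lit 3549121917) (nat_lit 349) (nat_lit 5) (nat_lit 362) (nat_lit 5) (nat_lit 350) (nat_lit 5) (nat_lit 422) (nat_lit 372) (nat_lit 346)) (XT.nd (nat_lit 78) (nat_lit 0) (nat_lit 0) (XT.lf (nat_lit 0) (nat_lit 1262415866) (nat_lit 912) (nat_lit 1814714896) (nat_lit 988) (nat_lit 4417683406) (nat_lit 337) (nat_lit 5) (nat_lit 349) (nat_lit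 5) (nat_lit 350) (nat_lit 5) (nat_lit 423) (nat_lit 372) (nat_lit 345)) (XT.lf (nat_lit 0) (nat_lit 5837290149) (nat_lit 988) (nat_lit 1387263118) (nat_lit 76) (nat_lit 324358598) (nat_lit 337) (nat_lit 5) (nat_lit 350) (nat_lit 5) (nat_lit 338) (nat_lit 5) (nat_lit 424) (nat_lit 372) (nat_lit 344))))))) (XT.nd (nat_lit 780) (nat_lit 4560) (nat_lit 0) (XT.nd (nat_lit 390) (nat_lit 2356) (nat_lit 0) (XT.nd (nat_lit 156) (nat_lit 1596) (nat_lit 0) (XT.nd (nat_lit 78) (nat_lit 836) (nat_lit 0) (XT.lf (nat_lit 0) (nat_lit 1020067750) (nat_lit 912) (nat_lit 4073484063) (nat_lit 76) (nat_lit 2510731176) (nat_lit 325) (nat_lit 5) (nat_lit 337) (nat_lit 5) (nat_lit 326) (nat_lit 5) (nat_lit 425) (nat_lit 372) (nat_lit 343)) (XT.lf (nat_lit 0) (nat_lit 853388876) (nat_lit 836) (nat_lit 2895701995) (nat_lit 912) (nat_lit 3912164179) (nat_lit 314) (nat_lit 5) (nat_lit 325) (nat_lit 5) (nat_lit 326) (nat_lit 5) (nat_lit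 426) (nat_lit 372) (nat_lit 342))) (XT.nd (nat_lit 78) (nat_lit 1596) (nat_lit 0) (XT.lf (nat_lit 0) (nat_lit 5882499436) (nat_lit 836) (nat_lit 628848084) (nat_lit 912) (nat_lit 1208477501) (nat_lit 314) (nat_lit 5) (nat_lit 325) (nat_lit 5) (nat_lit 326) (nat_lit 5) (nat_lit 427) (nat_lit 372) (nat_lit 341)) (XT.nd (nat_lit 78) (nat_lit 760) (nat_lit 0) (XT.lf (nat_lit 0) (nat_lit 1512868041) (nat_lit 836) (nat_lit 4577516821) (nat_lit 76) (nat_lit 1689332570) (nat_lit 303) (nat_lit 5) (nat_lit 314) (nat_lit 5) (nat_lit 304) (nat_lit 5) (nat_lit 428) (nat_lit 372) (nat_lit 340)) (XT.lf (nat_lit 0) (nat_lit 468966503) (nat_lit 760) (nat_lit 3775644504) (nat_lit 836) (nat_lit 3596623594) (nat_lit 293) (nat_lit 5) (nat_lit 303) (nat_lit 5) (nat_lit 304) (nat_lit 5) (nat_lit 429) (nat_lit 372) (nat_lit 339))))) (XT.nd (nat_lit 156) (nat_lit 1520) (nat_lit 0) (XT.nd (nat_lit 78) (nat_lit 836) (nat_lit 0) (XT.lf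 (nat_lit 0) (nat_lit 5626973341) (nat_lit 760) (nat_lit 1387846437) (nat_lit 836) (nat_lit 889514847) (nat_lit 293) (nat_lit 5) (nat_lit 303) (nat_lit 5) (nat_lit 304) (nat_lit 5) (nat_lit 430) (nat_lit 372) (nat_lit 338)) (XT.lf (nat_lit 0) (nat_lit 1826655090) (nat_lit 836) (nat_lit 5081849454) (nat_lit 76) (nat_lit 1060387708) (nat_lit 282) (nat_lit 5) (nat_lit 293) (nat_lit 5) (nat_lit 283) (nat_lit 5) (nat_lit 431) (nat_lit 372) (nat_lit 337))) (XT.nd (nat_lit 78) (nat_lit 760) (nat_lit 0) (XT.lf (nat_lit 0) (nat_lit 85444302) (nat_lit 760) (nat_lit 4479179730) (nat_lit 836) (nat_lit 3470439130) (nat_lit 272) (nat_lit 5) (nat_lit 282) (nat_lit 5) (nat_lit 283) (nat_lit 5) (nat_lit 432) (nat_lit 372) (nat_lit 336)) (XT.nd (nat_lit 78) (nat_lit 760) (nat_lit 0) (XT.lf (nat_lit 0) (nat_lit 5373646576) (nat_lit 760) (nat_lit 1972617359) (nat_lit 836) (nat_lit 756542236) (nat_lit 272) (nat_lit 5) (nat_lit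 282) (nat_lit 5) (nat_lit 283) (nat_lit 5) (nat_lit 433) (nat_lit 372) (nat_lit 335)) (XT.lf (nat_lit 0) (nat_lit 1961230042) (nat_lit 760) (nat_lit 5610818662) (nat_lit 76) (nat_lit 600100375) (nat_lit 262) (nat_lit 5) (nat_lit 272) (nat_lit 5) (nat_lit 263) (nat_lit 5) (nat_lit 434) (nat_lit 372) (nat_lit 334)))))) (XT.nd (nat_lit 390) (nat_lit 2508) (nat_lit 0) (XT.nd (nat_lit 156) (nat_lit 1368) (nat_lit 0) (XT.nd (nat_lit 78) (nat_lit 684) (nat_lit 0) (XT.lf (nat_lit 0) (nat_lit 4710616634) (nat_lit 760) (nat_lit 317548212) (nat_lit 76) (nat_lit 3214891565) (nat_lit 262) (nat_lit 5) (nat_lit 272) (nat_lit 5) (nat_lit 263) (nat_lit 5) (nat_lit 435) (nat_lit 372) (nat_lit 333)) (XT.lf (nat_lit 0) (nat_lit 5097992693) (nat_lit 684) (nat_lit 2406843329) (nat_lit 760) (nat_lit 810773826) (nat_lit 253) (nat_lit 5) (nat_lit 262) (nat_lit 5) (nat_lit 263) (nat_lit 5) (nat_lit 436) (nat_lit 372) (nat_lit 332)))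 (XT.nd (nat_lit 78) (nat_lit 684) (nat_lit 0) (XT.lf (nat_lit 0) (nat_lit 1914829069) (nat_lit 684) (nat_lit 6189829440) (nat_lit 76) (nat_lit 285218954) (nat_lit 244) (nat_lit 5) (nat_lit 253) (nat_lit 5) (nat_lit 245) (nat_lit 5) (nat_lit 437) (nat_lit 372) (nat_lit 331)) (XT.nd (nat_lit 78) (nat_lit 684) (nat_lit 0) (XT.lf (nat_lit 0) (nat_lit 4679199022) (nat_lit 684) (nat_lit 768177234) (nat_lit 76) (nat_lit 3018268191) (nat_lit 244) (nat_lit 5) (nat_lit 253) (nat_lit 5) (nat_lit 245) (nat_lit 5) (nat_lit 438) (nat_lit 372) (nat_lit 330)) (XT.lf (nat_lit 0) (nat_lit 4774319087) (nat_lit 684) (nat_lit 2713796956) (nat_lit 760) (nat_lit 1055048503) (nat_lit 235) (nat_lit 5) (nat_lit 244) (nat_lit 5) (nat_lit 245) (nat_lit 5) (nat_lit 439) (nat_lit 372) (nat_lit 329))))) (XT.nd (nat_lit 234) (nat_lit 1216) (nat_lit 0) (XT.nd (nat_lit 78) (nat_lit 608) (nat_lit 0) (XT.lf (nat_lit 0) (nat_lit 1684075877)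 (nat_lit 684) (nat_lit 6845601943) (nat_lit 76) (nat_lit 92838498) (nat_lit 226) (nat_lit 5) (nat_lit 235) (nat_lit 5) (nat_lit 227) (nat_lit 5) (nat_lit 440) (nat_lit 372) (nat_lit 328)) (XT.nd (nat_lit 78) (nat_lit 608) (nat_lit 0) (XT.lf (nat_lit 0) (nat_lit 4466190519) (nat_lit 684) (nat_lit 1294299609) (nat_lit 76) (nat_lit 2942800466) (nat_lit 226) (nat_lit 5) (nat_lit 235) (nat_lit 5) (nat_lit 227) (nat_lit 5) (nat_lit 441) (nat_lit 372) (nat_lit 327)) (XT.lf (nat_lit 0) (nat_lit 4375511775) (nat_lit 608) (nat_lit 2916541537) (nat_lit 684) (nat_lit 1493886145) (nat_lit 218) (nat_lit 5) (nat_lit 226) (nat_lit 5) (nat_lit 227) (nat_lit 5) (nat_lit 442) (nat_lit 372) (nat_lit 326)))) (XT.nd (nat_lit 78) (nat_lit 608) (nat_lit 0) (XT.lf (nat_lit 0) (nat_lit 1263920325) (nat_lit 608) (nat_lit 7606434530) (nat_lit 76) (nat_lit 200825) (nat_lit 210) (nat_lit 5) (nat_lit 218) (nat_lit 5) (nat_lit 211) (nat_lit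 5) (nat_lit 443) (nat_lit 372) (nat_lit 325)) (XT.nd (nat_lit 78) (nat_lit 608) (nat_lit 0) (XT.lf (nat_lit 0) (nat_lit 4066284277) (nat_lit 608) (nat_lit 1924276294) (nat_lit 76) (nat_lit 2965938070) (nat_lit 210) (nat_lit 5) (nat_lit 218) (nat_lit 5) (nat_lit 211) (nat_lit 5) (nat_lit 444) (nat_lit 372) (nat_lit 324)) (XT.lf (nat_lit 0) (nat_lit 3872762843) (nat_lit 608) (nat_lit 3038134710) (nat_lit 684) (nat_lit 2133558468) (nat_lit 202) (nat_lit 5) (nat_lit 210) (nat_lit 5) (nat_lit 211) (nat_lit 5) (nat_lit 445) (nat_lit 372) (nat_lit 323))))))))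
noncomputable def xc76 : XT := (XT.nd (nat_lit 1560) (nat_lit 4104) (nat_lit 0) (XT.nd (nat_lit 780) (nat_lit 2736) (nat_lit 0) (XT.nd (nat_lit 390) (nat_lit 1520) (nat_lit 0) (XT.nd (nat_lit 156) (nat_lit 1140) (nat_lit 0) (XT.nd (nat_lit 78) (nat_lit 0) (nat_lit 0) (XT.lf (nat_lit 0) (nat_lit 631949294) (nat_lit 532) (nat_lit 15715124) (nat_lit 608) (nat_lit 8486872324) (nat_lit 194) (nat_lit 5) (nat_lit 201) (nat_lit 5) (nat_lit 202) (nat_lit 5) (nat_lit 446) (nat_lit 372) (nat_lit 322)) (XT.lf (nat_lit 0) (nat_lit 3472413461) (nat_lit 608) (nat_lit 2688378061) (nat_lit 76) (nat_lit 3065034570) (nat_lit 194) (nat_lit 5) (nat_lit 202) (nat_lit 5) (nat_lit 195) (nat_lit 5) (nat_lit 447) (nat_lit 372) (nat_lit 321))) (XT.nd (nat_lit 78) (nat_lit 608) (nat_lit 0) (XT.lf (nat_lit 0) (nat_lit 3235277976) (nat_lit 532) (nat_lit 3101836930) (nat_lit 608) (nat_lit 2982175285) (nat_lit 187) (nat_lit 5) (nat_lit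 194) (nat_lit 5) (nat_lit 195) (nat_lit 5) (nat_lit 448) (nat_lit 372) (nat_lit 320)) (XT.nd (nat_lit 78) (nat_lit 608) (nat_lit 0) (XT.lf (nat_lit 0) (nat_lit 9240082645) (nat_lit 608) (nat_lit 150180481) (nat_lit 76) (nat_lit 24758754) (nat_lit 187) (nat_lit 5) (nat_lit 195) (nat_lit 5) (nat_lit 188) (nat_lit 5) (nat_lit 449) (nat_lit 372) (nat_lit 319)) (XT.lf (nat_lit 0) (nat_lit 2675656466) (nat_lit 608) (nat_lit 3619092400) (nat_lit 76) (nat_lit 3217137815) (nat_lit 179) (nat_lit 5) (nat_lit 187) (nat_lit 5) (nat_lit 180) (nat_lit 5) (nat_lit 450) (nat_lit 372) (nat_lit 318))))) (XT.nd (nat_lit 156) (nat_lit 988) (nat_lit 0) (XT.nd (nat_lit 78) (nat_lit 0) (nat_lit 0) (XT.lf (nat_lit 0) (nat_lit 2429961330) (nat_lit 532) (nat_lit 3131326536) (nat_lit 608) (nat_lit 4049787192) (nat_lit 172) (nat_lit 5) (nat_lit 179) (nat_lit 5) (nat_lit 180) (nat_lit 5) (nat_lit 451) (nat_lit 372) (nat_lit 317)) (XT.lf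 (nat_lit 0) (nat_lit 8493590009) (nat_lit 608) (nat_lit 1112561948) (nat_lit 76) (nat_lit 106332484) (nat_lit 172) (nat_lit 5) (nat_lit 180) (nat_lit 5) (nat_lit 173) (nat_lit 5) (nat_lit 452) (nat_lit 372) (nat_lit 316))) (XT.nd (nat_lit 78) (nat_lit 456) (nat_lit 0) (XT.lf (nat_lit 0) (nat_lit 1665125316) (nat_lit 532) (nat_lit 4751455125) (nat_lit 76) (nat_lit 3398772796) (nat_lit 165) (nat_lit 5) (nat_lit 172) (nat_lit 5) (nat_lit 166) (nat_lit 5) (nat_lit 453) (nat_lit 372) (nat_lit 315)) (XT.nd (nat_lit 78) (nat_lit 0) (nat_lit 0) (XT.lf (nat_lit 0) (nat_lit 1421074741) (nat_lit 456) (nat_lit 3150923295) (nat_lit 532) (nat_lit 5348505819) (nat_lit 159) (nat_lit 5) (nat_lit 165) (nat_lit 5) (nat_lit 166) (nat_lit 5) (nat_lit 454) (nat_lit 372) (nat_lit 314)) (XT.lf (nat_lit 0) (nat_lit 7535304682) (nat_lit 532) (nat_lit 2295627456) (nat_lit 76) (nat_lit 196874572) (nat_lit 159) (nat_lit 5) (nat_lit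 166) (nat_lit 5) (nat_lit 160) (nat_lit 5) (nat_lit 455) (nat_lit 372) (nat_lit 313)))))) (XT.nd (nat_lit 390) (nat_lit 1292) (nat_lit 0) (XT.nd (nat_lit 156) (nat_lit 456) (nat_lit 0) (XT.nd (nat_lit 78) (nat_lit 456) (nat_lit 0) (XT.lf (nat_lit 0) (nat_lit 427836033) (nat_lit 532) (nat_lit 6123409877) (nat_lit 76) (nat_lit 3585715045) (nat_lit 152) (nat_lit 5) (nat_lit 159) (nat_lit 5) (nat_lit 153) (nat_lit 5) (nat_lit 456) (nat_lit 372) (nat_lit 312)) (XT.lf (nat_lit 0) (nat_lit 169868015) (nat_lit 456) (nat_lit 3185822399) (nat_lit 532) (nat_lit 6892642958) (nat_lit 146) (nat_lit 5) (nat_lit 152) (nat_lit 5) (nat_lit 153) (nat_lit 5) (nat_lit 457) (nat_lit 372) (nat_lit 311))) (XT.nd (nat_lit 78) (nat_lit 456) (nat_lit 0) (XT.lf (nat_lit 0) (nat_lit 6351184245) (nat_lit 532) (nat_lit 3739049404) (nat_lit 76) (nat_lit 271531941) (nat_lit 146) (nat_lit 5) (nat_lit 153) (nat_lit 5) (nat_lit 147) (nat_lit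 5) (nat_lit 458) (nat_lit 372) (nat_lit 310)) (XT.nd (nat_lit 78) (nat_lit 76) (nat_lit 0) (XT.lf (nat_lit 0) (nat_lit 2694256421) (nat_lit 380) (nat_lit 6717702817) (nat_lit 456) (nat_lit 1065413513) (nat_lit 141) (nat_lit 5) (nat_lit 146) (nat_lit 5) (nat_lit 147) (nat_lit 5) (nat_lit 459) (nat_lit 372) (nat_lit 309)) (XT.lf (nat_lit 0) (nat_lit 1905385577) (nat_lit 456) (nat_lit 1347910249) (nat_lit 76) (nat_lit 7341914607) (nat_lit 140) (nat_lit 5) (nat_lit 146) (nat_lit 5) (nat_lit 141) (nat_lit 5) (nat_lit 460) (nat_lit 372) (nat_lit 308))))) (XT.nd (nat_lit 156) (nat_lit 456) (nat_lit 0) (XT.nd (nat_lit 78) (nat_lit 380) (nat_lit 0) (XT.lf (nat_lit 0) (nat_lit 4924860161) (nat_lit 532) (nat_lit 5486047995) (nat_lit 76) (nat_lit 304298288) (nat_lit 134) (nat_lit 5) (nat_lit 141) (nat_lit 5) (nat_lit 135) (nat_lit 5) (nat_lit 461) (nat_lit 372) (nat_lit 307)) (XT.lf (nat_lit 0) (nat_lit 1064361160)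 (nat_lit 380) (nat_lit 6945716336) (nat_lit 456) (nat_lit 2827430496) (nat_lit 129) (nat_lit 5) (nat_lit 134) (nat_lit 5) (nat_lit 135) (nat_lit 5) (nat_lit 462) (nat_lit 372) (nat_lit 306))) (XT.nd (nat_lit 78) (nat_lit 380) (nat_lit 0) (XT.lf (nat_lit 0) (nat_lit 197147712) (nat_lit 456) (nat_lit 3189627841) (nat_lit 76) (nat_lit 7575367753) (nat_lit 128) (nat_lit 5) (nat_lit 134) (nat_lit 5) (nat_lit 129) (nat_lit 5) (nat_lit 463) (nat_lit 372) (nat_lit 305)) (XT.nd (nat_lit 78) (nat_lit 0) (nat_lit 0) (XT.lf (nat_lit 0) (nat_lit 3237454457) (nat_lit 456) (nat_lit 7583839636) (nat_lit 76) (nat_lit 267753470) (nat_lit 123) (nat_lit 5) (nat_lit 129) (nat_lit 5) (nat_lit 124) (nat_lit 5) (nat_lit 464) (nat_lit 372) (nat_lit 304)) (XT.lf (nat_lit 0) (nat_lit 6351299826) (nat_lit 456) (nat_lit 909522878) (nat_lit 76) (nat_lit 3957424265) (nat_lit 123) (nat_lit 5) (nat_lit 129) (nat_lit 5) (nat_lit 124) (nat_lit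 5) (nat_lit 465) (nat_lit 372) (nat_lit 303))))))) (XT.nd (nat_lit 780) (nat_lit 1824) (nat_lit 0) (XT.nd (nat_lit 390) (nat_lit 1140) (nat_lit 0) (XT.nd (nat_lit 156) (nat_lit 304) (nat_lit 0) (XT.nd (nat_lit 78) (nat_lit 456) (nat_lit 0) (XT.lf (nat_lit 0) (nat_lit 5930901342) (nat_lit 380) (nat_lit 3604398383) (nat_lit 456) (nat_lit 1814584572) (nat_lit 118) (nat_lit 5) (nat_lit 123) (nat_lit 5) (nat_lit 124) (nat_lit 5) (nat_lit 466) (nat_lit 372) (nat_lit 302)) (XT.lf (nat_lit 0) (nat_lit 1267372494) (nat_lit 456) (nat_lit 10084127242) (nat_lit 76) (nat_lit 132785386) (nat_lit 112) (nat_lit 5) (nat_lit 118) (nat_lit 5) (nat_lit 113) (nat_lit 5) (nat_lit 467) (nat_lit 372) (nat_lit 301))) (XT.nd (nat_lit 78) (nat_lit 304) (nat_lit 0) (XT.lf (nat_lit 0) (nat_lit 4416847780) (nat_lit 456) (nat_lit 3273142500) (nat_lit 76) (nat_lit 3930551089) (nat_lit 112) (nat_lit 5) (nat_lit 118) (nat_lit 5) (nat_lit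 113) (nat_lit 5) (nat_lit 468) (nat_lit 372) (nat_lit 300)) (XT.nd (nat_lit 78) (nat_lit 0) (nat_lit 0) (XT.lf (nat_lit 0) (nat_lit 3677682691) (nat_lit 304) (nat_lit 3945780792) (nat_lit 380) (nat_lit 4136186851) (nat_lit 108) (nat_lit 5) (nat_lit 112) (nat_lit 5) (nat_lit 113) (nat_lit 5) (nat_lit 469) (nat_lit 372) (nat_lit 299)) (XT.lf (nat_lit 0) (nat_lit 10767573485) (nat_lit 304) (nat_lit 119170613) (nat_lit 380) (nat_lit 1014957129) (nat_lit 108) (nat_lit 5) (nat_lit 112) (nat_lit 5) (nat_lit 113) (nat_lit 5) (nat_lit 470) (nat_lit 372) (nat_lit 298))))) (XT.nd (nat_lit 156) (nat_lit 380) (nat_lit 0) (XT.nd (nat_lit 78) (nat_lit 304) (nat_lit 0) (XT.lf (nat_lit 0) (nat_lit 2174801663) (nat_lit 456) (nat_lit 6097869114) (nat_lit 76) (nat_lit 3772959800) (nat_lit 102) (nat_lit 5) (nat_lit 108) (nat_lit 5) (nat_lit 103) (nat_lit 5) (nat_lit 471) (nat_lit 372) (nat_lit 297)) (XT.lf (nat_lit 0) (nat_lit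 955296209) (nat_lit 304) (nat_lit 4445269402) (nat_lit 380) (nat_lit 6792032524) (nat_lit 98) (nat_lit 5) (nat_lit 102) (nat_lit 5) (nat_lit 103) (nat_lit 5) (nat_lit 472) (nat_lit 372) (nat_lit 296))) (XT.nd (nat_lit 78) (nat_lit 380) (nat_lit 0) (XT.lf (nat_lit 0) (nat_lit 8188425798) (nat_lit 304) (nat_lit 514755759) (nat_lit 380) (nat_lit 3639086361) (nat_lit 98) (nat_lit 5) (nat_lit 102) (nat_lit 5) (nat_lit 103) (nat_lit 5) (nat_lit 473) (nat_lit 372) (nat_lit 295)) (XT.nd (nat_lit 78) (nat_lit 76) (nat_lit 0) (XT.lf (nat_lit 0) (nat_lit 3045164442) (nat_lit 304) (nat_lit 9041025041) (nat_lit 380) (nat_lit 408464243) (nat_lit 94) (nat_lit 5) (nat_lit 98) (nat_lit 5) (nat_lit 99) (nat_lit 5) (nat_lit 474) (nat_lit 372) (nat_lit 294)) (XT.lf (nat_lit 0) (nat_lit 2852336596) (nat_lit 380) (nat_lit 2270877533) (nat_lit 76) (nat_lit 7526438784) (nat_lit 93) (nat_lit 5) (nat_lit 98) (nat_lit 5) (nat_lit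 94) (nat_lit 5) (nat_lit 475) (nat_lit 372) (nat_lit 293)))))) (XT.nd (nat_lit 390) (nat_lit 912) (nat_lit 0) (XT.nd (nat_lit 156) (nat_lit 608) (nat_lit 0) (XT.nd (nat_lit 78) (nat_lit 0) (nat_lit 0) (XT.lf (nat_lit 0) (nat_lit 5072511700) (nat_lit 304) (nat_lit 1105820214) (nat_lit 380) (nat_lit 6629266092) (nat_lit 89) (nat_lit 5) (nat_lit 93) (nat_lit 5) (nat_lit 94) (nat_lit 5) (nat_lit 476) (nat_lit 372) (nat_lit 292)) (XT.lf (nat_lit 0) (nat_lit 9578287033) (nat_lit 380) (nat_lit 437163996) (nat_lit 76) (nat_lit 2953110878) (nat_lit 89) (nat_lit 5) (nat_lit 94) (nat_lit 5) (nat_lit 90) (nat_lit 5) (nat_lit 477) (nat_lit 372) (nat_lit 291))) (XT.nd (nat_lit 78) (nat_lit 304) (nat_lit 0) (XT.lf (nat_lit 0) (nat_lit 7049901850) (nat_lit 304) (nat_lit 6022645796) (nat_lit 380) (nat_lit 59679846) (nat_lit 85) (nat_lit 5) (nat_lit 89) (nat_lit 5) (nat_lit 90) (nat_lit 5) (nat_lit 478) (nat_lit 372) (nat_lit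 290)) (XT.nd (nat_lit 78) (nat_lit 0) (nat_lit 0) (XT.lf (nat_lit 0) (nat_lit 1347471020) (nat_lit 228) (nat_lit 1931266651) (nat_lit 304) (nat_lit 10020303874) (nat_lit 81) (nat_lit 5) (nat_lit 84) (nat_lit 5) (nat_lit 85) (nat_lit 5) (nat_lit 479) (nat_lit 372) (nat_lit 289)) (XT.lf (nat_lit 0) (nat_lit 6712201827) (nat_lit 304) (nat_lit 4517487194) (nat_lit 76) (nat_lit 2238921461) (nat_lit 81) (nat_lit 5) (nat_lit 85) (nat_lit 5) (nat_lit 82) (nat_lit 5) (nat_lit 480) (nat_lit 372) (nat_lit 288))))) (XT.nd (nat_lit 234) (nat_lit 304) (nat_lit 0) (XT.nd (nat_lit 78) (nat_lit 304) (nat_lit 0) (XT.lf (nat_lit 0) (nat_lit 3051130479) (nat_lit 304) (nat_lit 7169760065) (nat_lit 380) (nat_lit 3420557032) (nat_lit 77) (nat_lit 5) (nat_lit 81) (nat_lit 5) (nat_lit 82) (nat_lit 5) (nat_lit 481) (nat_lit 372) (nat_lit 287)) (XT.nd (nat_lit 78) (nat_lit 304) (nat_lit 0) (XT.lf (nat_lit 0) (nat_lit 10791254827)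 (nat_lit 304) (nat_lit 3013012217) (nat_lit 380) (nat_lit 13391816) (nat_lit 77) (nat_lit 5) (nat_lit 81) (nat_lit 5) (nat_lit 82) (nat_lit 5) (nat_lit 482) (nat_lit 372) (nat_lit 286)) (XT.lf (nat_lit 0) (nat_lit 3429692813) (nat_lit 304) (nat_lit 9317929031) (nat_lit 76) (nat_lit 1249066818) (nat_lit 73) (nat_lit 5) (nat_lit 77) (nat_lit 5) (nat_lit 74) (nat_lit 5) (nat_lit 483) (nat_lit 372) (nat_lit 285)))) (XT.nd (nat_lit 78) (nat_lit 304) (nat_lit 0) (XT.lf (nat_lit 0) (nat_lit 6956526129) (nat_lit 304) (nat_lit 1660807171) (nat_lit 76) (nat_lit 5561669947) (nat_lit 73) (nat_lit 5) (nat_lit 77) (nat_lit 5) (nat_lit 74) (nat_lit 5) (nat_lit 484) (nat_lit 372) (nat_lit 284)) (XT.nd (nat_lit 78) (nat_lit 0) (nat_lit 0) (XT.lf (nat_lit 0) (nat_lit 6190660859) (nat_lit 304) (nat_lit 4378594969) (nat_lit 380) (nat_lit 3795408241) (nat_lit 69) (nat_lit 5) (nat_lit 73) (nat_lit 5) (nat_lit 74) (nat_lit 5)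 (nat_lit 485) (nat_lit 372) (nat_lit 283)) (XT.lf (nat_lit 0) (nat_lit 14181946111) (nat_lit 304) (nat_lit 58833767) (nat_lit 380) (nat_lit 313534434) (nat_lit 69) (nat_lit 5) (nat_lit 73) (nat_lit 5) (nat_lit 74) (nat_lit 5) (nat_lit 486) (nat_lit 372) (nat_lit 282))))))))
noncomputable def xc77 : XT := (XT.nd (nat_lit 52260) (nat_lit 0) (nat_lit 29944) (XT.nd (nat_lit 780) (nat_lit 912) (nat_lit 0) (XT.nd (nat_lit 390) (nat_lit 760) (nat_lit 0) (XT.nd (nat_lit 156) (nat_lit 304) (nat_lit 0) (XT.nd (nat_lit 78) (nat_lit 228) (nat_lit 0) (XT.lf (nat_lit 0) (nat_lit 3249323064) (nat_lit 304) (nat_lit 7150430670) (nat_lit 76) (nat_lit 4346513835) (nat_lit 65) (nat_lit 5) (nat_lit 69) (nat_lit 5) (nat_lit 66) (nat_lit 5) (nat_lit 487) (nat_lit 372) (nat_lit 281)) (XT.lf (nat_lit 0) (nat_lit 754448014) (nat_lit 228) (nat_lit 6108435395) (nat_lit 304) (nat_lit 8079468753) (nat_lit 62) (nat_lit 5) (nat_lit 65)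 (nat_lit 5) (nat_lit 66) (nat_lit 5) (nat_lit 488) (nat_lit 372) (nat_lit 280))) (XT.nd (nat_lit 78) (nat_lit 304) (nat_lit 0) (XT.lf (nat_lit 0) (nat_lit 8875201624) (nat_lit 228) (nat_lit 1697552760) (nat_lit 304) (nat_lit 4569129739) (nat_lit 62) (nat_lit 5) (nat_lit 65) (nat_lit 5) (nat_lit 66) (nat_lit 5) (nat_lit 489) (nat_lit 372) (nat_lit 279)) (XT.nd (nat_lit 78) (nat_lit 76) (nat_lit 0) (XT.lf (nat_lit 0) (nat_lit 1779350539) (nat_lit 228) (nat_lit 12583643440) (nat_lit 304) (nat_lit 982295663) (nat_lit 59) (nat_lit 5) (nat_lit 62) (nat_lit 5) (nat_lit 63) (nat_lit 5) (nat_lit 490) (nat_lit 372) (nat_lit 278)) (XT.lf (nat_lit 0) (nat_lit 2671228888) (nat_lit 304) (nat_lit 5548391861) (nat_lit 76) (nat_lit 7332200019) (nat_lit 58) (nat_lit 5) (nat_lit 62) (nat_lit 5) (nat_lit 59) (nat_lit 5) (nat_lit 491) (nat_lit 372) (nat_lit 277))))) (XT.nd (nat_lit 156) (nat_lit 532) (nat_lit 0) (XT.nd (nat_lit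 78) (nat_lit 0) (nat_lit 0) (XT.lf (nat_lit 0) (nat_lit 2619291082) (nat_lit 228) (nat_lit 3759339869) (nat_lit 304) (nat_lit 9383848483) (nat_lit 55) (nat_lit 5) (nat_lit 58) (nat_lit 5) (nat_lit 59) (nat_lit 5) (nat_lit 492) (nat_lit 372) (nat_lit 276)) (XT.lf (nat_lit 0) (nat_lit 10179841399) (nat_lit 304) (nat_lit 4994623554) (nat_lit 76) (nat_lit 802498970) (nat_lit 55) (nat_lit 5) (nat_lit 59) (nat_lit 5) (nat_lit 56) (nat_lit 5) (nat_lit 493) (nat_lit 372) (nat_lit 275))) (XT.nd (nat_lit 78) (nat_lit 304) (nat_lit 0) (XT.lf (nat_lit 0) (nat_lit 3297838781) (nat_lit 228) (nat_lit 10783046287) (nat_lit 304) (nat_lit 2114382596) (nat_lit 52) (nat_lit 5) (nat_lit 55) (nat_lit 5) (nat_lit 56) (nat_lit 5) (nat_lit 494) (nat_lit 372) (nat_lit 274)) (XT.nd (nat_lit 78) (nat_lit 228) (nat_lit 0) (XT.lf (nat_lit 0) (nat_lit 1631762835) (nat_lit 304) (nat_lit 4641783218) (nat_lit 76) (nat_lit 10143958006) (nat_lit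 51) (nat_lit 5) (nat_lit 55) (nat_lit 5) (nat_lit 52) (nat_lit 5) (nat_lit 495) (nat_lit 372) (nat_lit 273)) (XT.lf (nat_lit 0) (nat_lit 3777767083) (nat_lit 228) (nat_lit 1649294461) (nat_lit 304) (nat_lit 11216798688) (nat_lit 48) (nat_lit 5) (nat_lit 51) (nat_lit 5) (nat_lit 52) (nat_lit 5) (nat_lit 496) (nat_lit 372) (nat_lit 272)))))) (XT.nd (nat_lit 390) (nat_lit 456) (nat_lit 0) (XT.nd (nat_lit 156) (nat_lit 304) (nat_lit 0) (XT.nd (nat_lit 78) (nat_lit 152) (nat_lit 0) (XT.lf (nat_lit 0) (nat_lit 9327624082) (nat_lit 304) (nat_lit 4502470038) (nat_lit 76) (nat_lit 3044067558) (nat_lit 48) (nat_lit 5) (nat_lit 52) (nat_lit 5) (nat_lit 49) (nat_lit 5) (nat_lit 497) (nat_lit 372) (nat_lit 271)) (XT.lf (nat_lit 0) (nat_lit 4034279716) (nat_lit 152) (nat_lit 9287550414) (nat_lit 228) (nat_lit 3786931580) (nat_lit 46) (nat_lit 5) (nat_lit 48) (nat_lit 5) (nat_lit 49) (nat_lit 5) (nat_lit 498) (nat_lit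 372) (nat_lit 270))) (XT.nd (nat_lit 78) (nat_lit 228) (nat_lit 0) (XT.lf (nat_lit 0) (nat_lit 56211498) (nat_lit 228) (nat_lit 4581349568) (nat_lit 76) (nat_lit 12710312004) (nat_lit 45) (nat_lit 5) (nat_lit 48) (nat_lit 5) (nat_lit 46) (nat_lit 5) (nat_lit 499) (nat_lit 372) (nat_lit 269)) (XT.nd (nat_lit 78) (nat_lit 0) (nat_lit 0) (XT.lf (nat_lit 0) (nat_lit 3931923403) (nat_lit 304) (nat_lit 13517564921) (nat_lit 76) (nat_lit 141654344) (nat_lit 42) (nat_lit 5) (nat_lit 46) (nat_lit 5) (nat_lit 43) (nat_lit 5) (nat_lit 500) (nat_lit 372) (nat_lit 268)) (XT.lf (nat_lit 0) (nat_lit 7925877662) (nat_lit 304) (nat_lit 4941444674) (nat_lit 76) (nat_lit 4971145565) (nat_lit 42) (nat_lit 5) (nat_lit 46) (nat_lit 5) (nat_lit 43) (nat_lit 5) (nat_lit 501) (nat_lit 372) (nat_lit 267))))) (XT.nd (nat_lit 156) (nat_lit 304) (nat_lit 0) (XT.nd (nat_lit 78) (nat_lit 0) (nat_lit 0) (XT.lf (nat_lit 0) (nat_lit 3821443397)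 (nat_lit 152) (nat_lit 8182558292) (nat_lit 228) (nat_lit 6086656844) (nat_lit 40) (nat_lit 5) (nat_lit 42) (nat_lit 5) (nat_lit 43) (nat_lit 5) (nat_lit 502) (nat_lit 372) (nat_lit 266)) (XT.lf (nat_lit 0) (nat_lit 12791927747) (nat_lit 152) (nat_lit 3384576919) (nat_lit 228) (nat_lit 2171136604) (nat_lit 40) (nat_lit 5) (nat_lit 42) (nat_lit 5) (nat_lit 43) (nat_lit 5) (nat_lit 503) (nat_lit 372) (nat_lit 265))) (XT.nd (nat_lit 50778) (nat_lit 0) (nat_lit 44384) (XT.lf (nat_lit 0) (nat_lit 1810255959) (nat_lit 304) (nat_lit 15289773138) (nat_lit 76) (nat_lit 1509272982) (nat_lit 36) (nat_lit 5) (nat_lit 40) (nat_lit 5) (nat_lit 37) (nat_lit 5) (nat_lit 504) (nat_lit 372) (nat_lit 264)) (XT.nd (nat_lit 78) (nat_lit 76) (nat_lit 0) (XT.lf (nat_lit 0) (nat_lit 938059114) (nat_lit 532) (nat_lit 1165729534) (nat_lit 532) (nat_lit 1165729534) (nat_lit 621) (nat_lit 4) (nat_lit 628) (nat_lit 5) (nat_lit 628)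 (nat_lit 4) (nat_lit 394) (nat_lit 373) (nat_lit 373)) (XT.lf (nat_lit 0) (nat_lit 745250391) (nat_lit 608) (nat_lit 945408316) (nat_lit 76) (nat_lit 4863048551) (nat_lit 620) (nat_lit 5) (nat_lit 628) (nat_lit 5) (nat_lit 621) (nat_lit 4) (nat_lit 395) (nat_lit 373) (nat_lit 372))))))) (XT.nd (nat_lit 780) (nat_lit 9348) (nat_lit 0) (XT.nd (nat_lit 390) (nat_lit 2888) (nat_lit 0) (XT.nd (nat_lit 156) (nat_lit 836) (nat_lit 0) (XT.nd (nat_lit 78) (nat_lit 760) (nat_lit 0) (XT.lf (nat_lit 0) (nat_lit 2818742423) (nat_lit 608) (nat_lit 979433547) (nat_lit 684) (nat_lit 2771341808) (nat_lit 612) (nat_lit 5) (nat_lit 620) (nat_lit 5) (nat_lit 621) (nat_lit 4) (nat_lit 396) (nat_lit 373) (nat_lit 371)) (XT.lf (nat_lit 0) (nat_lit 33817087) (nat_lit 684) (nat_lit 223151928) (nat_lit 760) (nat_lit 6330007998) (nat_lit 602) (nat_lit 5) (nat_lit 611) (nat_lit 5) (nat_lit 612) (nat_lit 5) (nat_lit 397) (nat_lit 373)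 (nat_lit 370))) (XT.nd (nat_lit 78) (nat_lit 836) (nat_lit 0) (XT.lf (nat_lit 0) (nat_lit 3267023072) (nat_lit 760) (nat_lit 2732648606) (nat_lit 76) (nat_lit 605649932) (nat_lit 602) (nat_lit 5) (nat_lit 612) (nat_lit 5) (nat_lit 603) (nat_lit 4) (nat_lit 398) (nat_lit 373) (nat_lit 369)) (XT.nd (nat_lit 78) (nat_lit 76) (nat_lit 0) (XT.lf (nat_lit 0) (nat_lit 1127353982) (nat_lit 760) (nat_lit 5149461385) (nat_lit 836) (nat_lit 348493906) (nat_lit 592) (nat_lit 5) (nat_lit 602) (nat_lit 5) (nat_lit 603) (nat_lit 4) (nat_lit 399) (nat_lit 373) (nat_lit 368)) (XT.lf (nat_lit 0) (nat_lit 2615397579) (nat_lit 836) (nat_lit 1612264377) (nat_lit 76) (nat_lit 2418753978) (nat_lit 591) (nat_lit 5) (nat_lit 602) (nat_lit 5) (nat_lit 592) (nat_lit 5) (nat_lit 400) (nat_lit 373) (nat_lit 367))))) (XT.nd (nat_lit 156) (nat_lit 1976) (nat_lit 0) (XT.nd (nat_lit 78) (nat_lit 76) (nat_lit 0) (XT.lf (nat_lit 0) (nat_lit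 2329507879) (nat_lit 836) (nat_lit 3252126961) (nat_lit 912) (nat_lit 1087372189) (nat_lit 580) (nat_lit 5) (nat_lit 591) (nat_lit 5) (nat_lit 592) (nat_lit 5) (nat_lit 401) (nat_lit 373) (nat_lit 366)) (XT.lf (nat_lit 0) (nat_lit 1834024458) (nat_lit 912) (nat_lit 382867335) (nat_lit 76) (nat_lit 4476090171) (nat_lit 579) (nat_lit 5) (nat_lit 591) (nat_lit 5) (nat_lit 580) (nat_lit 5) (nat_lit 402) (nat_lit 373) (nat_lit 365))) (XT.nd (nat_lit 78) (nat_lit 1064) (nat_lit 0) (XT.lf (nat_lit 0) (nat_lit 3643979613) (nat_lit 912) (nat_lit 1113398197) (nat_lit 988) (nat_lit 1960812483) (nat_lit 567) (nat_lit 5) (nat_lit 579) (nat_lit 5) (nat_lit 580) (nat_lit 5) (nat_lit 403) (nat_lit 373) (nat_lit 364)) (XT.nd (nat_lit 78) (nat_lit 0) (nat_lit 0) (XT.lf (nat_lit 0) (nat_lit 926293576) (nat_lit 1064) (nat_lit 5776408388) (nat_lit 76) (nat_lit 42247662) (nat_lit 553) (nat_lit 5) (nat_lit 567) (nat_lit 5) (nat_lit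 554) (nat_lit 5) (nat_lit 404) (nat_lit 373) (nat_lit 363)) (XT.lf (nat_lit 0) (nat_lit 3808994556) (nat_lit 1064) (nat_lit 1709714329) (nat_lit 76) (nat_lit 1254049873) (nat_lit 553) (nat_lit 5) (nat_lit 567) (nat_lit 5) (nat_lit 554) (nat_lit 5) (nat_lit 405) (nat_lit 373) (nat_lit 362)))))) (XT.nd (nat_lit 390) (nat_lit 5776) (nat_lit 0) (XT.nd (nat_lit 156) (nat_lit 2432) (nat_lit 0) (XT.nd (nat_lit 78) (nat_lit 76) (nat_lit 0) (XT.lf (nat_lit 0) (nat_lit 2419847328) (nat_lit 1064) (nat_lit 4282413331) (nat_lit 1140) (nat_lit 99860087) (nat_lit 539) (nat_lit 5) (nat_lit 553) (nat_lit 5) (nat_lit 554) (nat_lit 5) (nat_lit 406) (nat_lit 373) (nat_lit 361)) (XT.lf (nat_lit 0) (nat_lit 2733513448) (nat_lit 1140) (nat_lit 245812707) (nat_lit 76) (nat_lit 3853446354) (nat_lit 538) (nat_lit 5) (nat_lit 553) (nat_lit 5) (nat_lit 539) (nat_lit 5) (nat_lit 407) (nat_lit 373) (nat_lit 360))) (XT.nd (nat_lit 78)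 (nat_lit 1292) (nat_lit 0) (XT.lf (nat_lit 0) (nat_lit 3975090937) (nat_lit 1140) (nat_lit 1611803647) (nat_lit 1216) (nat_lit 1277887705) (nat_lit 523) (nat_lit 5) (nat_lit 538) (nat_lit 5) (nat_lit 539) (nat_lit 5) (nat_lit 408) (nat_lit 373) (nat_lit 359)) (XT.nd (nat_lit 78) (nat_lit 0) (nat_lit 0) (XT.lf (nat_lit 0) (nat_lit 1343276062) (nat_lit 1216) (nat_lit 185329521) (nat_lit 1292) (nat_lit 5369675094) (nat_lit 506) (nat_lit 5) (nat_lit 522) (nat_lit 5) (nat_lit 523) (nat_lit 5) (nat_lit 409) (nat_lit 373) (nat_lit 358)) (XT.lf (nat_lit 0) (nat_lit 4342122964) (nat_lit 1292) (nat_lit 1300089571) (nat_lit 76) (nat_lit 1290756205) (nat_lit 506) (nat_lit 5) (nat_lit 523) (nat_lit 5) (nat_lit 507) (nat_lit 5) (nat_lit 410) (nat_lit 373) (nat_lit 357))))) (XT.nd (nat_lit 234) (nat_lit 3040) (nat_lit 0) (XT.nd (nat_lit 78) (nat_lit 1368) (nat_lit 0) (XT.lf (nat_lit 0) (nat_lit 202354824) (nat_lit 1368)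 (nat_lit 3942334428) (nat_lit 76) (nat_lit 2824436755) (nat_lit 488) (nat_lit 5) (nat_lit 506) (nat_lit 5) (nat_lit 489) (nat_lit 5) (nat_lit 411) (nat_lit 373) (nat_lit 356)) (XT.nd (nat_lit 78) (nat_lit 0) (nat_lit 0) (XT.lf (nat_lit 0) (nat_lit 389138948) (nat_lit 1368) (nat_lit 2580723964) (nat_lit 1444) (nat_lit 4036784234) (nat_lit 470) (nat_lit 5) (nat_lit 488) (nat_lit 5) (nat_lit 489) (nat_lit 5) (nat_lit 412) (nat_lit 373) (nat_lit 355)) (XT.lf (nat_lit 0) (nat_lit 4810264600) (nat_lit 1368) (nat_lit 951519521) (nat_lit 1444) (nat_lit 1283798360) (nat_lit 470) (nat_lit 5) (nat_lit 488) (nat_lit 5) (nat_lit 489) (nat_lit 5) (nat_lit 413) (nat_lit 373) (nat_lit 354)))) (XT.nd (nat_lit 78) (nat_lit 1520) (nat_lit 0) (XT.lf (nat_lit 0) (nat_lit 1466692391) (nat_lit 1520) (nat_lit 4887511379) (nat_lit 76) (nat_lit 731689389) (nat_lit 450) (nat_lit 5) (nat_lit 470) (nat_lit 5) (nat_lit 451) (nat_lit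 5) (nat_lit 414) (nat_lit 373) (nat_lit 353)) (XT.nd (nat_lit 78) (nat_lit 1520) (nat_lit 0) (XT.lf (nat_lit 0) (nat_lit 4220563327) (nat_lit 1520) (nat_lit 441650530) (nat_lit 76) (nat_lit 2465357702) (nat_lit 450) (nat_lit 5) (nat_lit 470) (nat_lit 5) (nat_lit 451) (nat_lit 5) (nat_lit 415) (nat_lit 373) (nat_lit 352)) (XT.lf (nat_lit 0) (nat_lit 4096765715) (nat_lit 1520) (nat_lit 2904583524) (nat_lit 1596) (nat_lit 169339142) (nat_lit 430) (nat_lit 5) (nat_lit 450) (nat_lit 5) (nat_lit 451) (nat_lit 5) (nat_lit 416) (nat_lit 373) (nat_lit 351))))))))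
noncomputable def xc78 : XT := (XT.nd (nat_lit 1560) (nat_lit 7676) (nat_lit 0) (XT.nd (nat_lit 780) (nat_lit 5472) (nat_lit 0) (XT.nd (nat_lit 390) (nat_lit 2812) (nat_lit 0) (XT.nd (nat_lit 156) (nat_lit 3496) (nat_lit 0) (XT.nd (nat_lit 78) (nat_lit 0) (nat_lit 0) (XT.lf (nat_lit 0) (nat_lit 1469019604) (nat_lit 1596) (nat_lit 1077774062) (nat_lit 1672) (nat_lit 4668410993) (nat_lit 408) (nat_lit 5) (nat_lit 429) (nat_lit 5) (nat_lit 430) (nat_lit 5) (nat_lit 417) (nat_lit 373) (nat_lit 350)) (XT.lf (nat_lit 0) (nat_lit 5287203372) (nat_lit 1672) (nat_lit 1173396525) (nat_lit 76) (nat_lit 800583749) (nat_lit 408) (nat_lit 5) (nat_lit 430) (nat_lit 5) (nat_lit 409) (nat_lit 5) (nat_lit 418) (nat_lit 373) (nat_lit 349))) (XT.nd (nat_lit 78) (nat_lit 1748) (nat_lit 0) (XT.lf (nat_lit 0) (nat_lit 741126490) (nat_lit 1748) (nat_lit 3834437131) (nat_lit 76) (nat_lit 2732916862) (nat_lit 385) (nat_lit 5) (nat_lit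 408) (nat_lit 5) (nat_lit 386) (nat_lit 5) (nat_lit 419) (nat_lit 373) (nat_lit 348)) (XT.nd (nat_lit 78) (nat_lit 0) (nat_lit 0) (XT.lf (nat_lit 0) (nat_lit 820688653) (nat_lit 1748) (nat_lit 2624427160) (nat_lit 1824) (nat_lit 3912163186) (nat_lit 362) (nat_lit 5) (nat_lit 385) (nat_lit 5) (nat_lit 386) (nat_lit 5) (nat_lit 420) (nat_lit 373) (nat_lit 347)) (XT.lf (nat_lit 0) (nat_lit 5570505543) (nat_lit 1748) (nat_lit 606840773) (nat_lit 1824) (nat_lit 1230260161) (nat_lit 362) (nat_lit 5) (nat_lit 385) (nat_lit 5) (nat_lit 386) (nat_lit 5) (nat_lit 421) (nat_lit 373) (nat_lit 346))))) (XT.nd (nat_lit 156) (nat_lit 912) (nat_lit 0) (XT.nd (nat_lit 78) (nat_lit 912) (nat_lit 0) (XT.lf (nat_lit 0) (nat_lit 1463284082) (nat_lit 988) (nat_lit 4534048992) (nat_lit 76) (nat_lit 1461891870) (nat_lit 349) (nat_lit 5) (nat_lit 362) (nat_lit 5) (nat_lit 350) (nat_lit 5) (nat_lit 422) (nat_lit 373) (nat_lit 345))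 (XT.lf (nat_lit 0) (nat_lit 235994376) (nat_lit 912) (nat_lit 3925957689) (nat_lit 988) (nat_lit 3350440686) (nat_lit 337) (nat_lit 5) (nat_lit 349) (nat_lit 5) (nat_lit 350) (nat_lit 5) (nat_lit 423) (nat_lit 373) (nat_lit 344))) (XT.nd (nat_lit 78) (nat_lit 912) (nat_lit 0) (XT.lf (nat_lit 0) (nat_lit 5112408811) (nat_lit 912) (nat_lit 1783017967) (nat_lit 988) (nat_lit 671613927) (nat_lit 337) (nat_lit 5) (nat_lit 349) (nat_lit 5) (nat_lit 350) (nat_lit 5) (nat_lit 424) (nat_lit 373) (nat_lit 343)) (XT.nd (nat_lit 78) (nat_lit 0) (nat_lit 0) (XT.lf (nat_lit 0) (nat_lit 2003377266) (nat_lit 912) (nat_lit 5194108628) (nat_lit 76) (nat_lit 425667976) (nat_lit 325) (nat_lit 5) (nat_lit 337) (nat_lit 5) (nat_lit 326) (nat_lit 5) (nat_lit 425) (nat_lit 373) (nat_lit 342)) (XT.lf (nat_lit 0) (nat_lit 4702925128) (nat_lit 912) (nat_lit 303597013) (nat_lit 76) (nat_lit 2674208903) (nat_lit 325) (nat_lit 5) (nat_lit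 337) (nat_lit 5) (nat_lit 326) (nat_lit 5) (nat_lit 426) (nat_lit 373) (nat_lit 341)))))) (XT.nd (nat_lit 390) (nat_lit 2204) (nat_lit 0) (XT.nd (nat_lit 156) (nat_lit 1596) (nat_lit 0) (XT.nd (nat_lit 78) (nat_lit 836) (nat_lit 0) (XT.lf (nat_lit 0) (nat_lit 4696475510) (nat_lit 836) (nat_lit 2743081390) (nat_lit 912) (nat_lit 300271915) (nat_lit 314) (nat_lit 5) (nat_lit 325) (nat_lit 5) (nat_lit 326) (nat_lit 5) (nat_lit 427) (nat_lit 373) (nat_lit 340)) (XT.lf (nat_lit 0) (nat_lit 1960338695) (nat_lit 760) (nat_lit 406240573) (nat_lit 836) (nat_lit 5433890395) (nat_lit 303) (nat_lit 5) (nat_lit 313) (nat_lit 5) (nat_lit 314) (nat_lit 5) (nat_lit 428) (nat_lit 373) (nat_lit 339))) (XT.nd (nat_lit 78) (nat_lit 1596) (nat_lit 0) (XT.lf (nat_lit 0) (nat_lit 5069594009) (nat_lit 836) (nat_lit 822299625) (nat_lit 76) (nat_lit 1970682184) (nat_lit 303) (nat_lit 5) (nat_lit 314) (nat_lit 5) (nat_lit 304) (nat_lit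 5) (nat_lit 429) (nat_lit 373) (nat_lit 338)) (XT.nd (nat_lit 78) (nat_lit 836) (nat_lit 0) (XT.lf (nat_lit 0) (nat_lit 4299805685) (nat_lit 760) (nat_lit 3511831159) (nat_lit 836) (nat_lit 114616453) (nat_lit 293) (nat_lit 5) (nat_lit 303) (nat_lit 5) (nat_lit 304) (nat_lit 5) (nat_lit 430) (nat_lit 373) (nat_lit 337)) (XT.lf (nat_lit 0) (nat_lit 1496919899) (nat_lit 760) (nat_lit 1055951319) (nat_lit 836) (nat_lit 5438623058) (nat_lit 282) (nat_lit 5) (nat_lit 292) (nat_lit 5) (nat_lit 293) (nat_lit 5) (nat_lit 431) (nat_lit 373) (nat_lit 336))))) (XT.nd (nat_lit 156) (nat_lit 1444) (nat_lit 0) (XT.nd (nat_lit 78) (nat_lit 760) (nat_lit 0) (XT.lf (nat_lit 0) (nat_lit 5261222989) (nat_lit 836) (nat_lit 1346619585) (nat_lit 76) (nat_lit 1450428278) (nat_lit 282) (nat_lit 5) (nat_lit 293) (nat_lit 5) (nat_lit 283) (nat_lit 5) (nat_lit 432) (nat_lit 373) (nat_lit 335)) (XT.lf (nat_lit 0) (nat_lit 3898777500)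 (nat_lit 760) (nat_lit 4113293270) (nat_lit 836) (nat_lit 114571993) (nat_lit 272) (nat_lit 5) (nat_lit 282) (nat_lit 5) (nat_lit 283) (nat_lit 5) (nat_lit 433) (nat_lit 373) (nat_lit 334))) (XT.nd (nat_lit 78) (nat_lit 684) (nat_lit 0) (XT.lf (nat_lit 0) (nat_lit 1017461430) (nat_lit 684) (nat_lit 1541663536) (nat_lit 760) (nat_lit 5637503014) (nat_lit 262) (nat_lit 5) (nat_lit 271) (nat_lit 5) (nat_lit 272) (nat_lit 5) (nat_lit 434) (nat_lit 373) (nat_lit 333)) (XT.nd (nat_lit 78) (nat_lit 684) (nat_lit 0) (XT.lf (nat_lit 0) (nat_lit 5277088945) (nat_lit 760) (nat_lit 1900864837) (nat_lit 76) (nat_lit 1090222289) (nat_lit 262) (nat_lit 5) (nat_lit 272) (nat_lit 5) (nat_lit 263) (nat_lit 5) (nat_lit 435) (nat_lit 373) (nat_lit 332)) (XT.lf (nat_lit 0) (nat_lit 3468820715) (nat_lit 684) (nat_lit 4570916707) (nat_lit 760) (nat_lit 301635572) (nat_lit 253) (nat_lit 5) (nat_lit 262) (nat_lit 5) (nat_lit 263)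 (nat_lit 5) (nat_lit 436) (nat_lit 373) (nat_lit 331))))))) (XT.nd (nat_lit 780) (nat_lit 3724) (nat_lit 0) (XT.nd (nat_lit 390) (nat_lit 1900) (nat_lit 0) (XT.nd (nat_lit 156) (nat_lit 1368) (nat_lit 0) (XT.nd (nat_lit 78) (nat_lit 0) (nat_lit 0) (XT.lf (nat_lit 0) (nat_lit 496740360) (nat_lit 608) (nat_lit 1886713067) (nat_lit 684) (nat_lit 6032809395) (nat_lit 244) (nat_lit 5) (nat_lit 252) (nat_lit 5) (nat_lit 253) (nat_lit 5) (nat_lit 437) (nat_lit 373) (nat_lit 330)) (XT.lf (nat_lit 0) (nat_lit 5114911025) (nat_lit 684) (nat_lit 2510474415) (nat_lit 76) (nat_lit 867313983) (nat_lit 244) (nat_lit 5) (nat_lit 253) (nat_lit 5) (nat_lit 245) (nat_lit 5) (nat_lit 438) (nat_lit 373) (nat_lit 329))) (XT.nd (nat_lit 78) (nat_lit 684) (nat_lit 0) (XT.lf (nat_lit 0) (nat_lit 2984177255) (nat_lit 684) (nat_lit 4907770588) (nat_lit 760) (nat_lit 678920431) (nat_lit 235) (nat_lit 5) (nat_lit 244) (nat_lit 5) (nat_lit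 245) (nat_lit 5) (nat_lit 439) (nat_lit 373) (nat_lit 328)) (XT.nd (nat_lit 78) (nat_lit 608) (nat_lit 0) (XT.lf (nat_lit 0) (nat_lit 2022958506) (nat_lit 760) (nat_lit 90547935) (nat_lit 76) (nat_lit 6537321727) (nat_lit 234) (nat_lit 5) (nat_lit 244) (nat_lit 5) (nat_lit 235) (nat_lit 5) (nat_lit 440) (nat_lit 373) (nat_lit 327)) (XT.lf (nat_lit 0) (nat_lit 4770799294) (nat_lit 684) (nat_lit 3202267055) (nat_lit 76) (nat_lit 759232077) (nat_lit 226) (nat_lit 5) (nat_lit 235) (nat_lit 5) (nat_lit 227) (nat_lit 5) (nat_lit 441) (nat_lit 373) (nat_lit 326))))) (XT.nd (nat_lit 156) (nat_lit 1216) (nat_lit 0) (XT.nd (nat_lit 78) (nat_lit 76) (nat_lit 0) (XT.lf (nat_lit 0) (nat_lit 2417646707) (nat_lit 608) (nat_lit 5146742920) (nat_lit 684) (nat_lit 1251213408) (nat_lit 218) (nat_lit 5) (nat_lit 226) (nat_lit 5) (nat_lit 227) (nat_lit 5) (nat_lit 442) (nat_lit 373) (nat_lit 325)) (XT.lf (nat_lit 0) (nat_lit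 1475730149) (nat_lit 684) (nat_lit 765890125) (nat_lit 76) (nat_lit 6659130976) (nat_lit 217) (nat_lit 5) (nat_lit 226) (nat_lit 5) (nat_lit 218) (nat_lit 5) (nat_lit 443) (nat_lit 373) (nat_lit 324))) (XT.nd (nat_lit 78) (nat_lit 684) (nat_lit 0) (XT.lf (nat_lit 0) (nat_lit 4239189430) (nat_lit 608) (nat_lit 4004706540) (nat_lit 76) (nat_lit 743586037) (nat_lit 210) (nat_lit 5) (nat_lit 218) (nat_lit 5) (nat_lit 211) (nat_lit 5) (nat_lit 444) (nat_lit 373) (nat_lit 323)) (XT.nd (nat_lit 78) (nat_lit 76) (nat_lit 0) (XT.lf (nat_lit 0) (nat_lit 1740314363) (nat_lit 608) (nat_lit 5310742618) (nat_lit 684) (nat_lit 2025046837) (nat_lit 202) (nat_lit 5) (nat_lit 210) (nat_lit 5) (nat_lit 211) (nat_lit 5) (nat_lit 445) (nat_lit 373) (nat_lit 322)) (XT.lf (nat_lit 0) (nat_lit 731831935) (nat_lit 684) (nat_lit 1565291424) (nat_lit 76) (nat_lit 6869514653) (nat_lit 201) (nat_lit 5) (nat_lit 210) (nat_lit 5) (nat_lit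 202) (nat_lit 5) (nat_lit 446) (nat_lit 373) (nat_lit 321)))))) (XT.nd (nat_lit 390) (nat_lit 2052) (nat_lit 0) (XT.nd (nat_lit 156) (nat_lit 608) (nat_lit 0) (XT.nd (nat_lit 78) (nat_lit 532) (nat_lit 0) (XT.lf (nat_lit 0) (nat_lit 3512762679) (nat_lit 608) (nat_lit 4948186263) (nat_lit 76) (nat_lit 797863751) (nat_lit 194) (nat_lit 5) (nat_lit 202) (nat_lit 5) (nat_lit 195) (nat_lit 5) (nat_lit 447) (nat_lit 373) (nat_lit 320)) (XT.lf (nat_lit 0) (nat_lit 921259270) (nat_lit 532) (nat_lit 5422906480) (nat_lit 608) (nat_lit 3008785798) (nat_lit 187) (nat_lit 5) (nat_lit 194) (nat_lit 5) (nat_lit 195) (nat_lit 5) (nat_lit 448) (nat_lit 373) (nat_lit 319))) (XT.nd (nat_lit 78) (nat_lit 608) (nat_lit 0) (XT.lf (nat_lit 0) (nat_lit 6927284090) (nat_lit 532) (nat_lit 2301616694) (nat_lit 608) (nat_lit 220155726) (nat_lit 187) (nat_lit 5) (nat_lit 194) (nat_lit 5) (nat_lit 195) (nat_lit 5) (nat_lit 449) (nat_lit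 373) (nat_lit 318)) (XT.nd (nat_lit 78) (nat_lit 0) (nat_lit 0) (XT.lf (nat_lit 0) (nat_lit 2582350125) (nat_lit 608) (nat_lit 6065335669) (nat_lit 76) (nat_lit 899223328) (nat_lit 179) (nat_lit 5) (nat_lit 187) (nat_lit 5) (nat_lit 180) (nat_lit 5) (nat_lit 450) (nat_lit 373) (nat_lit 317)) (XT.lf (nat_lit 0) (nat_lit 5434524855) (nat_lit 608) (nat_lit 71806188) (nat_lit 76) (nat_lit 4140443709) (nat_lit 179) (nat_lit 5) (nat_lit 187) (nat_lit 5) (nat_lit 180) (nat_lit 5) (nat_lit 451) (nat_lit 373) (nat_lit 316))))) (XT.nd (nat_lit 234) (nat_lit 988) (nat_lit 0) (XT.nd (nat_lit 78) (nat_lit 532) (nat_lit 0) (XT.lf (nat_lit 0) (nat_lit 6074415011) (nat_lit 532) (nat_lit 2273754362) (nat_lit 608) (nat_lit 1400395877) (nat_lit 172) (nat_lit 5) (nat_lit 179) (nat_lit 5) (nat_lit 180) (nat_lit 5) (nat_lit 452) (nat_lit 373) (nat_lit 315)) (XT.nd (nat_lit 78) (nat_lit 0) (nat_lit 0) (XT.lf (nat_lit 0) (nat_lit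 1436820204) (nat_lit 532) (nat_lit 7391351507) (nat_lit 76) (nat_lit 1024277236) (nat_lit 165) (nat_lit 5) (nat_lit 172) (nat_lit 5) (nat_lit 166) (nat_lit 5) (nat_lit 453) (nat_lit 373) (nat_lit 314)) (XT.lf (nat_lit 0) (nat_lit 4317351454) (nat_lit 532) (nat_lit 1260891475) (nat_lit 76) (nat_lit 4379890968) (nat_lit 165) (nat_lit 5) (nat_lit 172) (nat_lit 5) (nat_lit 166) (nat_lit 5) (nat_lit 454) (nat_lit 373) (nat_lit 313)))) (XT.nd (nat_lit 78) (nat_lit 532) (nat_lit 0) (XT.lf (nat_lit 0) (nat_lit 5011499561) (nat_lit 456) (nat_lit 2242637512) (nat_lit 532) (nat_lit 2811837455) (nat_lit 159) (nat_lit 5) (nat_lit 165) (nat_lit 5) (nat_lit 166) (nat_lit 5) (nat_lit 455) (nat_lit 373) (nat_lit 312)) (XT.nd (nat_lit 78) (nat_lit 0) (nat_lit 0) (XT.lf (nat_lit 0) (nat_lit 62948228) (nat_lit 532) (nat_lit 8964357025) (nat_lit 76) (nat_lit 1148866866) (nat_lit 152) (nat_lit 5) (nat_lit 159) (nat_lit 5) (nat_lit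 153) (nat_lit 5) (nat_lit 456) (nat_lit 373) (nat_lit 311)) (XT.lf (nat_lit 0) (nat_lit 2973121951) (nat_lit 532) (nat_lit 2696502483) (nat_lit 76) (nat_lit 4618280645) (nat_lit 152) (nat_lit 5) (nat_lit 159) (nat_lit 5) (nat_lit 153) (nat_lit 5) (nat_lit 457) (nat_lit 373) (nat_lit 310))))))))
noncomputable def xc79 : XT := (XT.nd (nat_lit 1560) (nat_lit 3116) (nat_lit 0) (XT.nd (nat_lit 780) (nat_lit 2128) (nat_lit 0) (XT.nd (nat_lit 390) (nat_lit 1292) (nat_lit 0) (XT.nd (nat_lit 156) (nat_lit 912) (nat_lit 0) (XT.nd (nat_lit 78) (nat_lit 0) (nat_lit 0) (XT.lf (nat_lit 0) (nat_lit 3699289812) (nat_lit 456) (nat_lit 2233397108) (nat_lit 532) (nat_lit 4469375748) (nat_lit 146) (nat_lit 5) (nat_lit 152) (nat_lit 5) (nat_lit 153) (nat_lit 5) (nat_lit 458) (nat_lit 373) (nat_lit 309)) (XT.lf (nat_lit 0) (nat_lit 8945345346) (nat_lit 532) (nat_lit 313179077) (nat_lit 76) (nat_lit 1260114400) (nat_lit 146) (nat_lit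 5) (nat_lit 153) (nat_lit 5) (nat_lit 147) (nat_lit 5) (nat_lit 459) (nat_lit 373) (nat_lit 308))) (XT.nd (nat_lit 78) (nat_lit 456) (nat_lit 0) (XT.lf (nat_lit 0) (nat_lit 1386026020) (nat_lit 456) (nat_lit 4420450367) (nat_lit 76) (nat_lit 4830435280) (nat_lit 140) (nat_lit 5) (nat_lit 146) (nat_lit 5) (nat_lit 141) (nat_lit 5) (nat_lit 460) (nat_lit 373) (nat_lit 307)) (XT.nd (nat_lit 78) (nat_lit 0) (nat_lit 0) (XT.lf (nat_lit 0) (nat_lit 2095032361) (nat_lit 456) (nat_lit 2272352730) (nat_lit 532) (nat_lit 6390291176) (nat_lit 134) (nat_lit 5) (nat_lit 140) (nat_lit 5) (nat_lit 141) (nat_lit 5) (nat_lit 461) (nat_lit 373) (nat_lit 306)) (XT.lf (nat_lit 0) (nat_lit 7415306654) (nat_lit 532) (nat_lit 2134062989) (nat_lit 76) (nat_lit 1331360240) (nat_lit 134) (nat_lit 5) (nat_lit 141) (nat_lit 5) (nat_lit 135) (nat_lit 5) (nat_lit 462) (nat_lit 373) (nat_lit 305))))) (XT.nd (nat_lit 156) (nat_lit 456)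 (nat_lit 0) (XT.nd (nat_lit 78) (nat_lit 456) (nat_lit 0) (XT.lf (nat_lit 0) (nat_lit 4524579967) (nat_lit 380) (nat_lit 6013075227) (nat_lit 456) (nat_lit 468332196) (nat_lit 129) (nat_lit 5) (nat_lit 134) (nat_lit 5) (nat_lit 135) (nat_lit 5) (nat_lit 463) (nat_lit 373) (nat_lit 304)) (XT.lf (nat_lit 0) (nat_lit 152022784) (nat_lit 380) (nat_lit 2387275764) (nat_lit 456) (nat_lit 8594436078) (nat_lit 123) (nat_lit 5) (nat_lit 128) (nat_lit 5) (nat_lit 129) (nat_lit 5) (nat_lit 464) (nat_lit 373) (nat_lit 303))) (XT.nd (nat_lit 78) (nat_lit 456) (nat_lit 0) (XT.lf (nat_lit 0) (nat_lit 5622480911) (nat_lit 456) (nat_lit 4314253579) (nat_lit 76) (nat_lit 1326818488) (nat_lit 123) (nat_lit 5) (nat_lit 129) (nat_lit 5) (nat_lit 124) (nat_lit 5) (nat_lit 465) (nat_lit 373) (nat_lit 302)) (XT.nd (nat_lit 78) (nat_lit 76) (nat_lit 0) (XT.lf (nat_lit 0) (nat_lit 2458712383) (nat_lit 380) (nat_lit 6310358762) (nat_lit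 456) (nat_lit 2626872928) (nat_lit 118) (nat_lit 5) (nat_lit 123) (nat_lit 5) (nat_lit 124) (nat_lit 5) (nat_lit 466) (nat_lit 373) (nat_lit 301)) (XT.lf (nat_lit 0) (nat_lit 440948665) (nat_lit 456) (nat_lit 2152278842) (nat_lit 76) (nat_lit 8937724001) (nat_lit 117) (nat_lit 5) (nat_lit 123) (nat_lit 5) (nat_lit 118) (nat_lit 5) (nat_lit 467) (nat_lit 373) (nat_lit 300)))))) (XT.nd (nat_lit 390) (nat_lit 988) (nat_lit 0) (XT.nd (nat_lit 156) (nat_lit 760) (nat_lit 0) (XT.nd (nat_lit 78) (nat_lit 0) (nat_lit 0) (XT.lf (nat_lit 0) (nat_lit 3544617138) (nat_lit 456) (nat_lit 6906286234) (nat_lit 76) (nat_lit 1217225773) (nat_lit 112) (nat_lit 5) (nat_lit 118) (nat_lit 5) (nat_lit 113) (nat_lit 5) (nat_lit 468) (nat_lit 373) (nat_lit 299)) (XT.lf (nat_lit 0) (nat_lit 6712927083) (nat_lit 456) (nat_lit 25346966) (nat_lit 76) (nat_lit 5069735325) (nat_lit 112) (nat_lit 5) (nat_lit 118) (nat_lit 5) (nat_lit 113)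 (nat_lit 5) (nat_lit 469) (nat_lit 373) (nat_lit 298))) (XT.nd (nat_lit 78) (nat_lit 456) (nat_lit 0) (XT.lf (nat_lit 0) (nat_lit 7042696977) (nat_lit 304) (nat_lit 2919059403) (nat_lit 380) (nat_lit 1988597963) (nat_lit 108) (nat_lit 5) (nat_lit 112) (nat_lit 5) (nat_lit 113) (nat_lit 5) (nat_lit 470) (nat_lit 373) (nat_lit 297)) (XT.nd (nat_lit 78) (nat_lit 0) (nat_lit 0) (XT.lf (nat_lit 0) (nat_lit 1156471667) (nat_lit 456) (nat_lit 9967837393) (nat_lit 76) (nat_lit 971255088) (nat_lit 102) (nat_lit 5) (nat_lit 108) (nat_lit 5) (nat_lit 103) (nat_lit 5) (nat_lit 471) (nat_lit 373) (nat_lit 296)) (XT.lf (nat_lit 0) (nat_lit 4362023748) (nat_lit 456) (nat_lit 2948578860) (nat_lit 76) (nat_lit 4932338092) (nat_lit 102) (nat_lit 5) (nat_lit 108) (nat_lit 5) (nat_lit 103) (nat_lit 5) (nat_lit 472) (nat_lit 373) (nat_lit 295))))) (XT.nd (nat_lit 156) (nat_lit 684) (nat_lit 0) (XT.nd (nat_lit 78) (nat_lit 0)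 (nat_lit 0) (XT.lf (nat_lit 0) (nat_lit 4224128403) (nat_lit 304) (nat_lit 3407240105) (nat_lit 380) (nat_lit 4761912064) (nat_lit 98) (nat_lit 5) (nat_lit 102) (nat_lit 5) (nat_lit 103) (nat_lit 5) (nat_lit 473) (nat_lit 373) (nat_lit 294)) (XT.lf (nat_lit 0) (nat_lit 10962177772) (nat_lit 380) (nat_lit 1012354114) (nat_lit 76) (nat_lit 572183039) (nat_lit 98) (nat_lit 5) (nat_lit 103) (nat_lit 5) (nat_lit 99) (nat_lit 5) (nat_lit 474) (nat_lit 373) (nat_lit 293))) (XT.nd (nat_lit 78) (nat_lit 304) (nat_lit 0) (XT.lf (nat_lit 0) (nat_lit 1671374145) (nat_lit 380) (nat_lit 6407461518) (nat_lit 76) (nat_lit 4623441840) (nat_lit 93) (nat_lit 5) (nat_lit 98) (nat_lit 5) (nat_lit 94) (nat_lit 5) (nat_lit 475) (nat_lit 373) (nat_lit 292)) (XT.nd (nat_lit 78) (nat_lit 0) (nat_lit 0) (XT.lf (nat_lit 0) (nat_lit 859996166) (nat_lit 304) (nat_lit 4096680092) (nat_lit 380) (nat_lit 7904364511) (nat_lit 89) (nat_lit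 5) (nat_lit 93) (nat_lit 5) (nat_lit 94) (nat_lit 5) (nat_lit 476) (nat_lit 373) (nat_lit 291)) (XT.lf (nat_lit 0) (nat_lit 8318151732) (nat_lit 304) (nat_lit 5836737) (nat_lit 380) (nat_lit 4698673285) (nat_lit 89) (nat_lit 5) (nat_lit 93) (nat_lit 5) (nat_lit 94) (nat_lit 5) (nat_lit 477) (nat_lit 373) (nat_lit 290))))))) (XT.nd (nat_lit 780) (nat_lit 1292) (nat_lit 0) (XT.nd (nat_lit 390) (nat_lit 912) (nat_lit 0) (XT.nd (nat_lit 156) (nat_lit 532) (nat_lit 0) (XT.nd (nat_lit 78) (nat_lit 76) (nat_lit 0) (XT.lf (nat_lit 0) (nat_lit 2705251597) (nat_lit 304) (nat_lit 9071749123) (nat_lit 380) (nat_lit 1410155727) (nat_lit 85) (nat_lit 5) (nat_lit 89) (nat_lit 5) (nat_lit 90) (nat_lit 5) (nat_lit 478) (nat_lit 373) (nat_lit 289)) (XT.lf (nat_lit 0) (nat_lit 1924257054) (nat_lit 380) (nat_lit 3081415939) (nat_lit 76) (nat_lit 8348911181) (nat_lit 84) (nat_lit 5) (nat_lit 89) (nat_lit 5) (nat_lit 85) (nat_lit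 5) (nat_lit 479) (nat_lit 373) (nat_lit 288))) (XT.nd (nat_lit 78) (nat_lit 304) (nat_lit 0) (XT.lf (nat_lit 0) (nat_lit 4476040894) (nat_lit 228) (nat_lit 833832967) (nat_lit 304) (nat_lit 8215240100) (nat_lit 81) (nat_lit 5) (nat_lit 84) (nat_lit 5) (nat_lit 85) (nat_lit 5) (nat_lit 480) (nat_lit 373) (nat_lit 287)) (XT.nd (nat_lit 78) (nat_lit 304) (nat_lit 0) (XT.lf (nat_lit 0) (nat_lit 8780698299) (nat_lit 304) (nat_lit 1535138095) (nat_lit 76) (nat_lit 3382875772) (nat_lit 81) (nat_lit 5) (nat_lit 85) (nat_lit 5) (nat_lit 82) (nat_lit 5) (nat_lit 481) (nat_lit 373) (nat_lit 286)) (XT.lf (nat_lit 0) (nat_lit 6164636808) (nat_lit 304) (nat_lit 6176816213) (nat_lit 380) (nat_lit 1533926616) (nat_lit 77) (nat_lit 5) (nat_lit 81) (nat_lit 5) (nat_lit 82) (nat_lit 5) (nat_lit 482) (nat_lit 373) (nat_lit 285))))) (XT.nd (nat_lit 156) (nat_lit 608) (nat_lit 0) (XT.nd (nat_lit 78) (nat_lit 228) (nat_lit 0)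 (XT.lf (nat_lit 0) (nat_lit 1878088942) (nat_lit 380) (nat_lit 68522659) (nat_lit 76) (nat_lit 12109019113) (nat_lit 76) (nat_lit 5) (nat_lit 81) (nat_lit 5) (nat_lit 77) (nat_lit 5) (nat_lit 483) (nat_lit 373) (nat_lit 284)) (XT.lf (nat_lit 0) (nat_lit 5379535633) (nat_lit 304) (nat_lit 6475105470) (nat_lit 76) (nat_lit 2383815463) (nat_lit 73) (nat_lit 5) (nat_lit 77) (nat_lit 5) (nat_lit 74) (nat_lit 5) (nat_lit 484) (nat_lit 373) (nat_lit 283))) (XT.nd (nat_lit 78) (nat_lit 304) (nat_lit 0) (XT.lf (nat_lit 0) (nat_lit 1292717318) (nat_lit 304) (nat_lit 7655694240) (nat_lit 380) (nat_lit 5476586371) (nat_lit 69) (nat_lit 5) (nat_lit 73) (nat_lit 5) (nat_lit 74) (nat_lit 5) (nat_lit 485) (nat_lit 373) (nat_lit 282)) (XT.nd (nat_lit 78) (nat_lit 304) (nat_lit 0) (XT.lf (nat_lit 0) (nat_lit 9264722421) (nat_lit 304) (nat_lit 3343271266) (nat_lit 380) (nat_lit 2006896721) (nat_lit 69) (nat_lit 5) (nat_lit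 73) (nat_lit 5) (nat_lit 74) (nat_lit 5) (nat_lit 486) (nat_lit 373) (nat_lit 281)) (XT.lf (nat_lit 0) (nat_lit 1511917170) (nat_lit 304) (nat_lit 12242586660) (nat_lit 76) (nat_lit 1053888038) (nat_lit 65) (nat_lit 5) (nat_lit 69) (nat_lit 5) (nat_lit 66) (nat_lit 5) (nat_lit 487) (nat_lit 373) (nat_lit 280)))))) (XT.nd (nat_lit 390) (nat_lit 760) (nat_lit 0) (XT.nd (nat_lit 156) (nat_lit 304) (nat_lit 0) (XT.nd (nat_lit 78) (nat_lit 228) (nat_lit 0) (XT.lf (nat_lit 0) (nat_lit 5108851637) (nat_lit 304) (nat_lit 4366729021) (nat_lit 76) (nat_lit 5529231520) (nat_lit 65) (nat_lit 5) (nat_lit 69) (nat_lit 5) (nat_lit 66) (nat_lit 5) (nat_lit 488) (nat_lit 373) (nat_lit 279)) (XT.lf (nat_lit 0) (nat_lit 3676992564) (nat_lit 228) (nat_lit 5101380655) (nat_lit 304) (nat_lit 6426781048) (nat_lit 62) (nat_lit 5) (nat_lit 65) (nat_lit 5) (nat_lit 66) (nat_lit 5) (nat_lit 489) (nat_lit 373) (nat_lit 278))) (XT.nd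 (nat_lit 78) (nat_lit 304) (nat_lit 0) (XT.lf (nat_lit 0) (nat_lit 11903152313) (nat_lit 228) (nat_lit 624422003) (nat_lit 304) (nat_lit 2881809315) (nat_lit 62) (nat_lit 5) (nat_lit 65) (nat_lit 5) (nat_lit 66) (nat_lit 5) (nat_lit 490) (nat_lit 373) (nat_lit 277)) (XT.nd (nat_lit 78) (nat_lit 0) (nat_lit 0) (XT.lf (nat_lit 0) (nat_lit 757938358) (nat_lit 304) (nat_lit 10947427992) (nat_lit 76) (nat_lit 3911571810) (nat_lit 58) (nat_lit 5) (nat_lit 62) (nat_lit 5) (nat_lit 59) (nat_lit 5) (nat_lit 491) (nat_lit 373) (nat_lit 276)) (XT.lf (nat_lit 0) (nat_lit 4437142967) (nat_lit 304) (nat_lit 2832570851) (nat_lit 76) (nat_lit 8558449856) (nat_lit 58) (nat_lit 5) (nat_lit 62) (nat_lit 5) (nat_lit 59) (nat_lit 5) (nat_lit 492) (nat_lit 373) (nat_lit 275))))) (XT.nd (nat_lit 234) (nat_lit 304) (nat_lit 0) (XT.nd (nat_lit 78) (nat_lit 228) (nat_lit 0) (XT.lf (nat_lit 0) (nat_lit 5479868455) (nat_lit 228) (nat_lit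 2723479032) (nat_lit 304) (nat_lit 7840003638) (nat_lit 55) (nat_lit 5) (nat_lit 58) (nat_lit 5) (nat_lit 59) (nat_lit 5) (nat_lit 493) (nat_lit 373) (nat_lit 274)) (XT.nd (nat_lit 78) (nat_lit 228) (nat_lit 0) (XT.lf (nat_lit 0) (nat_lit 12054377027) (nat_lit 304) (nat_lit 2314755446) (nat_lit 76) (nat_lit 1893525463) (nat_lit 55) (nat_lit 5) (nat_lit 59) (nat_lit 5) (nat_lit 56) (nat_lit 5) (nat_lit 494) (nat_lit 373) (nat_lit 273)) (XT.lf (nat_lit 0) (nat_lit 6125268237) (nat_lit 228) (nat_lit 9893339139) (nat_lit 304) (nat_lit 467025423) (nat_lit 52) (nat_lit 5) (nat_lit 55) (nat_lit 5) (nat_lit 56) (nat_lit 5) (nat_lit 495) (nat_lit 373) (nat_lit 272)))) (XT.nd (nat_lit 78) (nat_lit 228) (nat_lit 0) (XT.lf (nat_lit 0) (nat_lit 3299187140) (nat_lit 304) (nat_lit 2005165350) (nat_lit 76) (nat_lit 11408403980) (nat_lit 51) (nat_lit 5) (nat_lit 55) (nat_lit 5) (nat_lit 52) (nat_lit 5) (nat_lit 496) (nat_lit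 373) (nat_lit 271)) (XT.nd (nat_lit 78) (nat_lit 0) (nat_lit 0) (XT.lf (nat_lit 0) (nat_lit 6564819027) (nat_lit 228) (nat_lit 591122944) (nat_lit 304) (nat_lit 9787994674) (nat_lit 48) (nat_lit 5) (nat_lit 51) (nat_lit 5) (nat_lit 52) (nat_lit 5) (nat_lit 497) (nat_lit 373) (nat_lit 270)) (XT.lf (nat_lit 0) (nat_lit 11109690008) (nat_lit 304) (nat_lit 1908977402) (nat_lit 76) (nat_lit 4160680950) (nat_lit 48) (nat_lit 5) (nat_lit 52) (nat_lit 5) (nat_lit 49) (nat_lit 5) (nat_lit 498) (nat_lit 373) (nat_lit 269))))))))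
noncomputable def xc80 : XT := (XT.nd (nat_lit 52104) (nat_lit 0) (nat_lit 21660) (XT.nd (nat_lit 51324) (nat_lit 0) (nat_lit 38988) (XT.nd (nat_lit 390) (nat_lit 0) (nat_lit 0) (XT.nd (nat_lit 156) (nat_lit 380) (nat_lit 0) (XT.nd (nat_lit 78) (nat_lit 76) (nat_lit 0) (XT.lf (nat_lit 0) (nat_lit 6780852465) (nat_lit 152) (nat_lit 8388951841) (nat_lit 228) (nat_lit 2249123176) (nat_lit 46) (nat_lit 5) (nat_lit 48) (nat_lit 5) (nat_lit 49) (nat_lit 5) (nat_lit 499) (nat_lit 373) (nat_lit 268)) (XT.lf (nat_lit 0) (nat_lit 1618497567) (nat_lit 228) (nat_lit 2038250679) (nat_lit 76) (nat_lit 14006495045) (nat_lit 45) (nat_lit 5) (nat_lit 48) (nat_lit 5) (nat_lit 46) (nat_lit 5) (nat_lit 500) (nat_lit 373) (nat_lit 267))) (XT.nd (nat_lit 78) (nat_lit 152) (nat_lit 0) (XT.lf (nat_lit 0) (nat_lit 5565052699) (nat_lit 304) (nat_lit 11146162461) (nat_lit 76) (nat_lit 1200303678) (nat_lit 42) (nat_lit 5) (nat_lit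 46) (nat_lit 5) (nat_lit 43) (nat_lit 5) (nat_lit 501) (nat_lit 373) (nat_lit 266)) (XT.nd (nat_lit 78) (nat_lit 152) (nat_lit 0) (XT.lf (nat_lit 0) (nat_lit 9608405830) (nat_lit 304) (nat_lit 2450318902) (nat_lit 76) (nat_lit 6105682444) (nat_lit 42) (nat_lit 5) (nat_lit 46) (nat_lit 5) (nat_lit 43) (nat_lit 5) (nat_lit 502) (nat_lit 373) (nat_lit 265)) (XT.lf (nat_lit 0) (nat_lit 6470787755) (nat_lit 152) (nat_lit 7284127097) (nat_lit 228) (nat_lit 4666997181) (nat_lit 40) (nat_lit 5) (nat_lit 42) (nat_lit 5) (nat_lit 43) (nat_lit 5) (nat_lit 503) (nat_lit 373) (nat_lit 264))))) (XT.nd (nat_lit 50700) (nat_lit 0) (nat_lit 44080) (XT.nd (nat_lit 50622) (nat_lit 0) (nat_lit 44688) (XT.lf (nat_lit 0) (nat_lit 15570232469) (nat_lit 152) (nat_lit 2411011241) (nat_lit 228) (nat_lit 703389924) (nat_lit 40) (nat_lit 5) (nat_lit 42) (nat_lit 5) (nat_lit 43) (nat_lit 5) (nat_lit 504) (nat_lit 373) (nat_lit 263))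 (XT.lf (nat_lit 0) (nat_lit 271471339) (nat_lit 532) (nat_lit 2713759327) (nat_lit 0) (nat_lit 271471339) (nat_lit 628) (nat_lit 5) (nat_lit 635) (nat_lit 4) (nat_lit 628) (nat_lit 4) (nat_lit 392) (nat_lit 374) (nat_lit 374))) (XT.nd (nat_lit 78) (nat_lit 608) (nat_lit 0) (XT.lf (nat_lit 0) (nat_lit 3606875945) (nat_lit 532) (nat_lit 1811908600) (nat_lit 0) (nat_lit 1107045555) (nat_lit 628) (nat_lit 5) (nat_lit 635) (nat_lit 4) (nat_lit 628) (nat_lit 4) (nat_lit 393) (nat_lit 374) (nat_lit 373)) (XT.nd (nat_lit 78) (nat_lit 0) (nat_lit 0) (XT.lf (nat_lit 0) (nat_lit 129589453) (nat_lit 608) (nat_lit 4688873801) (nat_lit 76) (nat_lit 1721319296) (nat_lit 620) (nat_lit 5) (nat_lit 628) (nat_lit 5) (nat_lit 621) (nat_lit 4) (nat_lit 394) (nat_lit 374) (nat_lit 372)) (XT.lf (nat_lit 0) (nat_lit 3139864894) (nat_lit 608) (nat_lit 1010876340) (nat_lit 76) (nat_lit 2404162448) (nat_lit 620) (nat_lit 5) (nat_lit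 628) (nat_lit 5) (nat_lit 621) (nat_lit 4) (nat_lit 395) (nat_lit 374) (nat_lit 371)))))) (XT.nd (nat_lit 390) (nat_lit 2888) (nat_lit 0) (XT.nd (nat_lit 156) (nat_lit 1520) (nat_lit 0) (XT.nd (nat_lit 78) (nat_lit 76) (nat_lit 0) (XT.lf (nat_lit 0) (nat_lit 2728189741) (nat_lit 608) (nat_lit 3428859356) (nat_lit 684) (nat_lit 414415087) (nat_lit 612) (nat_lit 5) (nat_lit 620) (nat_lit 5) (nat_lit 621) (nat_lit 4) (nat_lit 396) (nat_lit 374) (nat_lit 370)) (XT.lf (nat_lit 0) (nat_lit 2547883083) (nat_lit 684) (nat_lit 98665422) (nat_lit 76) (nat_lit 3942804672) (nat_lit 611) (nat_lit 5) (nat_lit 620) (nat_lit 5) (nat_lit 612) (nat_lit 5) (nat_lit 397) (nat_lit 374) (nat_lit 369))) (XT.nd (nat_lit 78) (nat_lit 836) (nat_lit 0) (XT.lf (nat_lit 0) (nat_lit 3718865795) (nat_lit 684) (nat_lit 1800083743) (nat_lit 760) (nat_lit 1089561115) (nat_lit 602) (nat_lit 5) (nat_lit 611) (nat_lit 5) (nat_lit 612) (nat_lit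 5) (nat_lit 398) (nat_lit 374) (nat_lit 368)) (XT.nd (nat_lit 78) (nat_lit 0) (nat_lit 0) (XT.lf (nat_lit 0) (nat_lit 937200663) (nat_lit 760) (nat_lit 897187874) (nat_lit 836) (nat_lit 4794713525) (nat_lit 591) (nat_lit 5) (nat_lit 601) (nat_lit 5) (nat_lit 602) (nat_lit 5) (nat_lit 399) (nat_lit 374) (nat_lit 367)) (XT.lf (nat_lit 0) (nat_lit 4754520565) (nat_lit 836) (nat_lit 1827339329) (nat_lit 76) (nat_lit 69118570) (nat_lit 591) (nat_lit 5) (nat_lit 602) (nat_lit 5) (nat_lit 592) (nat_lit 5) (nat_lit 400) (nat_lit 374) (nat_lit 366))))) (XT.nd (nat_lit 156) (nat_lit 1976) (nat_lit 0) (XT.nd (nat_lit 78) (nat_lit 0) (nat_lit 0) (XT.lf (nat_lit 0) (nat_lit 998913164) (nat_lit 912) (nat_lit 4593811829) (nat_lit 76) (nat_lit 1081429410) (nat_lit 579) (nat_lit 5) (nat_lit 591) (nat_lit 5) (nat_lit 580) (nat_lit 5) (nat_lit 401) (nat_lit 374) (nat_lit 365)) (XT.lf (nat_lit 0) (nat_lit 3873581375) (nat_lit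 912) (nat_lit 668748772) (nat_lit 76) (nat_lit 2156336755) (nat_lit 579) (nat_lit 5) (nat_lit 591) (nat_lit 5) (nat_lit 580) (nat_lit 5) (nat_lit 402) (nat_lit 374) (nat_lit 364))) (XT.nd (nat_lit 78) (nat_lit 988) (nat_lit 0) (XT.lf (nat_lit 0) (nat_lit 37978923) (nat_lit 988) (nat_lit 3394879939) (nat_lit 76) (nat_lit 3291717604) (nat_lit 566) (nat_lit 5) (nat_lit 579) (nat_lit 5) (nat_lit 567) (nat_lit 5) (nat_lit 403) (nat_lit 374) (nat_lit 363)) (XT.nd (nat_lit 78) (nat_lit 0) (nat_lit 0) (XT.lf (nat_lit 0) (nat_lit 606352906) (nat_lit 988) (nat_lit 2258787131) (nat_lit 1064) (nat_lit 3886653435) (nat_lit 553) (nat_lit 5) (nat_lit 566) (nat_lit 5) (nat_lit 567) (nat_lit 5) (nat_lit 404) (nat_lit 374) (nat_lit 362)) (XT.lf (nat_lit 0) (nat_lit 4684830112) (nat_lit 988) (nat_lit 1023904041) (nat_lit 1064) (nat_lit 1071677763) (nat_lit 553) (nat_lit 5) (nat_lit 566) (nat_lit 5) (nat_lit 567) (nat_lit 5)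 (nat_lit 405) (nat_lit 374) (nat_lit 361))))))) (XT.nd (nat_lit 780) (nat_lit 9500) (nat_lit 0) (XT.nd (nat_lit 390) (nat_lit 4256) (nat_lit 0) (XT.nd (nat_lit 156) (nat_lit 2432) (nat_lit 0) (XT.nd (nat_lit 78) (nat_lit 0) (nat_lit 0) (XT.lf (nat_lit 0) (nat_lit 1728648604) (nat_lit 1140) (nat_lit 4811070271) (nat_lit 76) (nat_lit 270649870) (nat_lit 538) (nat_lit 5) (nat_lit 553) (nat_lit 5) (nat_lit 539) (nat_lit 5) (nat_lit 406) (nat_lit 374) (nat_lit 360)) (XT.lf (nat_lit 0) (nat_lit 4530448635) (nat_lit 1140) (nat_lit 699891079) (nat_lit 76) (nat_lit 1611298710) (nat_lit 538) (nat_lit 5) (nat_lit 553) (nat_lit 5) (nat_lit 539) (nat_lit 5) (nat_lit 407) (nat_lit 374) (nat_lit 359))) (XT.nd (nat_lit 78) (nat_lit 1216) (nat_lit 0) (XT.lf (nat_lit 0) (nat_lit 470431683) (nat_lit 1216) (nat_lit 3386917589) (nat_lit 76) (nat_lit 3016918473) (nat_lit 522) (nat_lit 5) (nat_lit 538) (nat_lit 5) (nat_lit 523)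 (nat_lit 5) (nat_lit 408) (nat_lit 374) (nat_lit 358)) (XT.nd (nat_lit 78) (nat_lit 0) (nat_lit 0) (XT.lf (nat_lit 0) (nat_lit 806303491) (nat_lit 1216) (nat_lit 2420913001) (nat_lit 1292) (nat_lit 3681066810) (nat_lit 506) (nat_lit 5) (nat_lit 522) (nat_lit 5) (nat_lit 523) (nat_lit 5) (nat_lit 409) (nat_lit 374) (nat_lit 357)) (XT.lf (nat_lit 0) (nat_lit 5080321877) (nat_lit 1216) (nat_lit 922878077) (nat_lit 1292) (nat_lit 940545747) (nat_lit 506) (nat_lit 5) (nat_lit 522) (nat_lit 5) (nat_lit 523) (nat_lit 5) (nat_lit 410) (nat_lit 374) (nat_lit 356))))) (XT.nd (nat_lit 156) (nat_lit 2888) (nat_lit 0) (XT.nd (nat_lit 78) (nat_lit 0) (nat_lit 0) (XT.lf (nat_lit 0) (nat_lit 1792473325) (nat_lit 1368) (nat_lit 4553828532) (nat_lit 76) (nat_lit 634180305) (nat_lit 488) (nat_lit 5) (nat_lit 506) (nat_lit 5) (nat_lit 489) (nat_lit 5) (nat_lit 411) (nat_lit 374) (nat_lit 355)) (XT.lf (nat_lit 0) (nat_lit 4529204943)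 (nat_lit 1368) (nat_lit 252090144) (nat_lit 76) (nat_lit 2237346036) (nat_lit 488) (nat_lit 5) (nat_lit 506) (nat_lit 5) (nat_lit 489) (nat_lit 5) (nat_lit 412) (nat_lit 374) (nat_lit 354))) (XT.nd (nat_lit 78) (nat_lit 1444) (nat_lit 0) (XT.lf (nat_lit 0) (nat_lit 230362808) (nat_lit 1444) (nat_lit 2918488079) (nat_lit 76) (nat_lit 3909307384) (nat_lit 469) (nat_lit 5) (nat_lit 488) (nat_lit 5) (nat_lit 470) (nat_lit 5) (nat_lit 413) (nat_lit 374) (nat_lit 353)) (XT.nd (nat_lit 78) (nat_lit 0) (nat_lit 0) (XT.lf (nat_lit 0) (nat_lit 1477896510) (nat_lit 1444) (nat_lit 1449085611) (nat_lit 1520) (nat_lit 4172081814) (nat_lit 450) (nat_lit 5) (nat_lit 469) (nat_lit 5) (nat_lit 470) (nat_lit 5) (nat_lit 414) (nat_lit 374) (nat_lit 352)) (XT.lf (nat_lit 0) (nat_lit 5644335047) (nat_lit 1520) (nat_lit 1190695993) (nat_lit 76) (nat_lit 306462251) (nat_lit 450) (nat_lit 5) (nat_lit 470) (nat_lit 5) (nat_lit 451)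 (nat_lit 5) (nat_lit 415) (nat_lit 374) (nat_lit 351)))))) (XT.nd (nat_lit 390) (nat_lit 4560) (nat_lit 0) (XT.nd (nat_lit 156) (nat_lit 1748) (nat_lit 0) (XT.nd (nat_lit 78) (nat_lit 1596) (nat_lit 0) (XT.lf (nat_lit 0) (nat_lit 1192345787) (nat_lit 1596) (nat_lit 3879976869) (nat_lit 76) (nat_lit 2112784080) (nat_lit 429) (nat_lit 5) (nat_lit 450) (nat_lit 5) (nat_lit 430) (nat_lit 5) (nat_lit 416) (nat_lit 374) (nat_lit 350)) (XT.lf (nat_lit 0) (nat_lit 626291403) (nat_lit 1596) (nat_lit 3248087896) (nat_lit 1672) (nat_lit 3355878701) (nat_lit 408) (nat_lit 5) (nat_lit 429) (nat_lit 5) (nat_lit 430) (nat_lit 5) (nat_lit 417) (nat_lit 374) (nat_lit 349))) (XT.nd (nat_lit 78) (nat_lit 1748) (nat_lit 0) (XT.lf (nat_lit 0) (nat_lit 5226070584) (nat_lit 1596) (nat_lit 1357404205) (nat_lit 1672) (nat_lit 693407510) (nat_lit 408) (nat_lit 5) (nat_lit 429) (nat_lit 5) (nat_lit 430) (nat_lit 5) (nat_lit 418) (nat_lit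 374) (nat_lit 348)) (XT.nd (nat_lit 78) (nat_lit 0) (nat_lit 0) (XT.lf (nat_lit 0) (nat_lit 1964405498) (nat_lit 1748) (nat_lit 4763899598) (nat_lit 76) (nat_lit 596536018) (nat_lit 385) (nat_lit 5) (nat_lit 408) (nat_lit 5) (nat_lit 386) (nat_lit 5) (nat_lit 419) (nat_lit 374) (nat_lit 347)) (XT.lf (nat_lit 0) (nat_lit 4637698770) (nat_lit 1748) (nat_lit 144154800) (nat_lit 76) (nat_lit 2592417911) (nat_lit 385) (nat_lit 5) (nat_lit 408) (nat_lit 5) (nat_lit 386) (nat_lit 5) (nat_lit 420) (nat_lit 374) (nat_lit 346))))) (XT.nd (nat_lit 234) (nat_lit 1824) (nat_lit 0) (XT.nd (nat_lit 78) (nat_lit 988) (nat_lit 0) (XT.lf (nat_lit 0) (nat_lit 4579290796) (nat_lit 1748) (nat_lit 2764661113) (nat_lit 1824) (nat_lit 81184174) (nat_lit 362) (nat_lit 5) (nat_lit 385) (nat_lit 5) (nat_lit 386) (nat_lit 5) (nat_lit 421) (nat_lit 374) (nat_lit 345)) (XT.nd (nat_lit 78) (nat_lit 0) (nat_lit 0) (XT.lf (nat_lit 0) (nat_lit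 1880631642) (nat_lit 912) (nat_lit 675477088) (nat_lit 988) (nat_lit 4921337126) (nat_lit 349) (nat_lit 5) (nat_lit 361) (nat_lit 5) (nat_lit 362) (nat_lit 5) (nat_lit 422) (nat_lit 374) (nat_lit 344)) (XT.lf (nat_lit 0) (nat_lit 5224470386) (nat_lit 988) (nat_lit 850147557) (nat_lit 76) (nat_lit 1456618410) (nat_lit 349) (nat_lit 5) (nat_lit 362) (nat_lit 5) (nat_lit 350) (nat_lit 5) (nat_lit 423) (nat_lit 374) (nat_lit 343)))) (XT.nd (nat_lit 78) (nat_lit 836) (nat_lit 0) (XT.lf (nat_lit 0) (nat_lit 337306256) (nat_lit 988) (nat_lit 3598249017) (nat_lit 76) (nat_lit 3650894140) (nat_lit 336) (nat_lit 5) (nat_lit 349) (nat_lit 5) (nat_lit 337) (nat_lit 5) (nat_lit 424) (nat_lit 374) (nat_lit 342)) (XT.nd (nat_lit 78) (nat_lit 0) (nat_lit 0) (XT.lf (nat_lit 0) (nat_lit 1243988349) (nat_lit 836) (nat_lit 1725218208) (nat_lit 912) (nat_lit 4673970068) (nat_lit 325) (nat_lit 5) (nat_lit 336) (nat_lit 5) (nat_lit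 337) (nat_lit 5) (nat_lit 425) (nat_lit 374) (nat_lit 341)) (XT.lf (nat_lit 0) (nat_lit 5634087971) (nat_lit 912) (nat_lit 1522150869) (nat_lit 76) (nat_lit 545223593) (nat_lit 325) (nat_lit 5) (nat_lit 337) (nat_lit 5) (nat_lit 326) (nat_lit 5) (nat_lit 426) (nat_lit 374) (nat_lit 340))))))))
noncomputable def xc81 : XT := (XT.nd (nat_lit 1560) (nat_lit 6308) (nat_lit 0) (XT.nd (nat_lit 780) (nat_lit 3876) (nat_lit 0) (XT.nd (nat_lit 390) (nat_lit 2280) (nat_lit 0) (XT.nd (nat_lit 156) (nat_lit 1596) (nat_lit 0) (XT.nd (nat_lit 78) (nat_lit 760) (nat_lit 0) (XT.lf (nat_lit 0) (nat_lit 570754839) (nat_lit 912) (nat_lit 4327739206) (nat_lit 76) (nat_lit 2862629683) (nat_lit 313) (nat_lit 5) (nat_lit 325) (nat_lit 5) (nat_lit 314) (nat_lit 5) (nat_lit 427) (nat_lit 374) (nat_lit 339)) (XT.lf (nat_lit 0) (nat_lit 632234003) (nat_lit 760) (nat_lit 2569936009) (nat_lit 836) (nat_lit 4620199951) (nat_lit 303)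 (nat_lit 5) (nat_lit 313) (nat_lit 5) (nat_lit 314) (nat_lit 5) (nat_lit 428) (nat_lit 374) (nat_lit 338))) (XT.nd (nat_lit 78) (nat_lit 1596) (nat_lit 0) (XT.lf (nat_lit 0) (nat_lit 5701205124) (nat_lit 760) (nat_lit 168431126) (nat_lit 836) (nat_lit 2015564976) (nat_lit 303) (nat_lit 5) (nat_lit 313) (nat_lit 5) (nat_lit 314) (nat_lit 5) (nat_lit 429) (nat_lit 374) (nat_lit 337)) (XT.nd (nat_lit 78) (nat_lit 760) (nat_lit 0) (XT.lf (nat_lit 0) (nat_lit 621524912) (nat_lit 836) (nat_lit 5056991481) (nat_lit 76) (nat_lit 2270941488) (nat_lit 292) (nat_lit 5) (nat_lit 303) (nat_lit 5) (nat_lit 293) (nat_lit 5) (nat_lit 430) (nat_lit 374) (nat_lit 336)) (XT.lf (nat_lit 0) (nat_lit 21977794) (nat_lit 760) (nat_lit 3233924589) (nat_lit 836) (nat_lit 4759427055) (nat_lit 282) (nat_lit 5) (nat_lit 292) (nat_lit 5) (nat_lit 293) (nat_lit 5) (nat_lit 431) (nat_lit 374) (nat_lit 335))))) (XT.nd (nat_lit 156) (nat_lit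 1444) (nat_lit 0) (XT.nd (nat_lit 78) (nat_lit 836) (nat_lit 0) (XT.lf (nat_lit 0) (nat_lit 5222292293) (nat_lit 760) (nat_lit 710664062) (nat_lit 836) (nat_lit 2149788676) (nat_lit 282) (nat_lit 5) (nat_lit 292) (nat_lit 5) (nat_lit 293) (nat_lit 5) (nat_lit 432) (nat_lit 374) (nat_lit 334)) (XT.lf (nat_lit 0) (nat_lit 489403651) (nat_lit 836) (nat_lit 5809989607) (nat_lit 76) (nat_lit 1852393012) (nat_lit 271) (nat_lit 5) (nat_lit 282) (nat_lit 5) (nat_lit 272) (nat_lit 5) (nat_lit 433) (nat_lit 374) (nat_lit 333))) (XT.nd (nat_lit 78) (nat_lit 1444) (nat_lit 0) (XT.lf (nat_lit 0) (nat_lit 3133758841) (nat_lit 836) (nat_lit 602987525) (nat_lit 76) (nat_lit 4485579332) (nat_lit 271) (nat_lit 5) (nat_lit 282) (nat_lit 5) (nat_lit 272) (nat_lit 5) (nat_lit 434) (nat_lit 374) (nat_lit 332)) (XT.nd (nat_lit 78) (nat_lit 760) (nat_lit 0) (XT.lf (nat_lit 0) (nat_lit 4722087761) (nat_lit 684) (nat_lit 1097522426)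 (nat_lit 760) (nat_lit 2474917921) (nat_lit 262) (nat_lit 5) (nat_lit 271) (nat_lit 5) (nat_lit 272) (nat_lit 5) (nat_lit 435) (nat_lit 374) (nat_lit 331)) (XT.lf (nat_lit 0) (nat_lit 172635519) (nat_lit 760) (nat_lit 6611724910) (nat_lit 76) (nat_lit 1584130031) (nat_lit 252) (nat_lit 5) (nat_lit 262) (nat_lit 5) (nat_lit 253) (nat_lit 5) (nat_lit 436) (nat_lit 374) (nat_lit 330)))))) (XT.nd (nat_lit 390) (nat_lit 1900) (nat_lit 0) (XT.nd (nat_lit 156) (nat_lit 1368) (nat_lit 0) (XT.nd (nat_lit 78) (nat_lit 608) (nat_lit 0) (XT.lf (nat_lit 0) (nat_lit 2830064340) (nat_lit 760) (nat_lit 1275039408) (nat_lit 76) (nat_lit 4338722826) (nat_lit 252) (nat_lit 5) (nat_lit 262) (nat_lit 5) (nat_lit 253) (nat_lit 5) (nat_lit 437) (nat_lit 374) (nat_lit 329)) (XT.lf (nat_lit 0) (nat_lit 4175345666) (nat_lit 608) (nat_lit 1351848722) (nat_lit 684) (nat_lit 2993766486) (nat_lit 244) (nat_lit 5) (nat_lit 252) (nat_lit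 5) (nat_lit 253) (nat_lit 5) (nat_lit 438) (nat_lit 374) (nat_lit 328))) (XT.nd (nat_lit 78) (nat_lit 684) (nat_lit 0) (XT.lf (nat_lit 0) (nat_lit 1109335836) (nat_lit 684) (nat_lit 7154085348) (nat_lit 760) (nat_lit 336535670) (nat_lit 235) (nat_lit 5) (nat_lit 244) (nat_lit 5) (nat_lit 245) (nat_lit 5) (nat_lit 439) (nat_lit 374) (nat_lit 327)) (XT.nd (nat_lit 78) (nat_lit 608) (nat_lit 0) (XT.lf (nat_lit 0) (nat_lit 2341087413) (nat_lit 760) (nat_lit 2020705778) (nat_lit 76) (nat_lit 4318484910) (nat_lit 234) (nat_lit 5) (nat_lit 244) (nat_lit 5) (nat_lit 235) (nat_lit 5) (nat_lit 440) (nat_lit 374) (nat_lit 326)) (XT.lf (nat_lit 0) (nat_lit 3555470665) (nat_lit 608) (nat_lit 1496231491) (nat_lit 684) (nat_lit 3710801022) (nat_lit 226) (nat_lit 5) (nat_lit 234) (nat_lit 5) (nat_lit 235) (nat_lit 5) (nat_lit 441) (nat_lit 374) (nat_lit 325))))) (XT.nd (nat_lit 156) (nat_lit 1216) (nat_lit 0) (XT.nd (nat_lit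 78) (nat_lit 76) (nat_lit 0) (XT.lf (nat_lit 0) (nat_lit 372022071) (nat_lit 608) (nat_lit 7431097183) (nat_lit 684) (nat_lit 1043542095) (nat_lit 218) (nat_lit 5) (nat_lit 226) (nat_lit 5) (nat_lit 227) (nat_lit 5) (nat_lit 442) (nat_lit 374) (nat_lit 324)) (XT.lf (nat_lit 0) (nat_lit 1661588233) (nat_lit 684) (nat_lit 2867773563) (nat_lit 76) (nat_lit 4402812296) (nat_lit 217) (nat_lit 5) (nat_lit 226) (nat_lit 5) (nat_lit 218) (nat_lit 5) (nat_lit 443) (nat_lit 374) (nat_lit 323))) (XT.nd (nat_lit 78) (nat_lit 684) (nat_lit 0) (XT.lf (nat_lit 0) (nat_lit 2834253733) (nat_lit 532) (nat_lit 1553204466) (nat_lit 608) (nat_lit 4632207952) (nat_lit 210) (nat_lit 5) (nat_lit 217) (nat_lit 5) (nat_lit 218) (nat_lit 5) (nat_lit 444) (nat_lit 374) (nat_lit 322)) (XT.nd (nat_lit 78) (nat_lit 684) (nat_lit 0) (XT.lf (nat_lit 0) (nat_lit 7159412183) (nat_lit 608) (nat_lit 476710821) (nat_lit 76) (nat_lit 1472972556)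 (nat_lit 210) (nat_lit 5) (nat_lit 218) (nat_lit 5) (nat_lit 211) (nat_lit 5) (nat_lit 445) (nat_lit 374) (nat_lit 321)) (XT.lf (nat_lit 0) (nat_lit 784601011) (nat_lit 684) (nat_lit 3845853072) (nat_lit 76) (nat_lit 4569606970) (nat_lit 201) (nat_lit 5) (nat_lit 210) (nat_lit 5) (nat_lit 202) (nat_lit 5) (nat_lit 446) (nat_lit 374) (nat_lit 320))))))) (XT.nd (nat_lit 780) (nat_lit 3116) (nat_lit 0) (XT.nd (nat_lit 390) (nat_lit 1520) (nat_lit 0) (XT.nd (nat_lit 156) (nat_lit 1140) (nat_lit 0) (XT.nd (nat_lit 78) (nat_lit 0) (nat_lit 0) (XT.lf (nat_lit 0) (nat_lit 1981588962) (nat_lit 532) (nat_lit 1545450062) (nat_lit 608) (nat_lit 5765975354) (nat_lit 194) (nat_lit 5) (nat_lit 201) (nat_lit 5) (nat_lit 202) (nat_lit 5) (nat_lit 447) (nat_lit 374) (nat_lit 319)) (XT.lf (nat_lit 0) (nat_lit 6324510672) (nat_lit 608) (nat_lit 1467422133) (nat_lit 76) (nat_lit 1595907675) (nat_lit 194) (nat_lit 5) (nat_lit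 202) (nat_lit 5) (nat_lit 195) (nat_lit 5) (nat_lit 448) (nat_lit 374) (nat_lit 318))) (XT.nd (nat_lit 78) (nat_lit 608) (nat_lit 0) (XT.lf (nat_lit 0) (nat_lit 4495861469) (nat_lit 532) (nat_lit 4686014635) (nat_lit 608) (nat_lit 302625177) (nat_lit 187) (nat_lit 5) (nat_lit 194) (nat_lit 5) (nat_lit 195) (nat_lit 5) (nat_lit 449) (nat_lit 374) (nat_lit 317)) (XT.nd (nat_lit 78) (nat_lit 0) (nat_lit 0) (XT.lf (nat_lit 0) (nat_lit 965168693) (nat_lit 532) (nat_lit 1496008952) (nat_lit 608) (nat_lit 7121990770) (nat_lit 179) (nat_lit 5) (nat_lit 186) (nat_lit 5) (nat_lit 187) (nat_lit 5) (nat_lit 450) (nat_lit 374) (nat_lit 316)) (XT.lf (nat_lit 0) (nat_lit 5286306205) (nat_lit 608) (nat_lit 2637948206) (nat_lit 76) (nat_lit 1759328518) (nat_lit 179) (nat_lit 5) (nat_lit 187) (nat_lit 5) (nat_lit 180) (nat_lit 5) (nat_lit 451) (nat_lit 374) (nat_lit 315))))) (XT.nd (nat_lit 156) (nat_lit 912) (nat_lit 0)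 (XT.nd (nat_lit 78) (nat_lit 76) (nat_lit 0) (XT.lf (nat_lit 0) (nat_lit 3451131840) (nat_lit 532) (nat_lit 4714793565) (nat_lit 608) (nat_lit 1620136332) (nat_lit 172) (nat_lit 5) (nat_lit 179) (nat_lit 5) (nat_lit 180) (nat_lit 5) (nat_lit 452) (nat_lit 374) (nat_lit 314)) (XT.lf (nat_lit 0) (nat_lit 1180273789) (nat_lit 608) (nat_lit 246569133) (nat_lit 76) (nat_lit 8463932306) (nat_lit 171) (nat_lit 5) (nat_lit 179) (nat_lit 5) (nat_lit 172) (nat_lit 5) (nat_lit 453) (nat_lit 374) (nat_lit 313))) (XT.nd (nat_lit 78) (nat_lit 456) (nat_lit 0) (XT.lf (nat_lit 0) (nat_lit 4033128796) (nat_lit 532) (nat_lit 4023891525) (nat_lit 76) (nat_lit 1940000737) (nat_lit 165) (nat_lit 5) (nat_lit 172) (nat_lit 5) (nat_lit 166) (nat_lit 5) (nat_lit 454) (nat_lit 374) (nat_lit 312)) (XT.nd (nat_lit 78) (nat_lit 0) (nat_lit 0) (XT.lf (nat_lit 0) (nat_lit 2188959102) (nat_lit 456) (nat_lit 4746179190) (nat_lit 532) (nat_lit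 3170426130) (nat_lit 159) (nat_lit 5) (nat_lit 165) (nat_lit 5) (nat_lit 166) (nat_lit 5) (nat_lit 455) (nat_lit 374) (nat_lit 311)) (XT.lf (nat_lit 0) (nat_lit 8535415948) (nat_lit 456) (nat_lit 1353902940) (nat_lit 532) (nat_lit 327091427) (nat_lit 159) (nat_lit 5) (nat_lit 165) (nat_lit 5) (nat_lit 166) (nat_lit 5) (nat_lit 456) (nat_lit 374) (nat_lit 310)))))) (XT.nd (nat_lit 390) (nat_lit 1672) (nat_lit 0) (XT.nd (nat_lit 156) (nat_lit 456) (nat_lit 0) (XT.nd (nat_lit 78) (nat_lit 456) (nat_lit 0) (XT.lf (nat_lit 0) (nat_lit 2551196601) (nat_lit 532) (nat_lit 5663864173) (nat_lit 76) (nat_lit 2113855281) (nat_lit 152) (nat_lit 5) (nat_lit 159) (nat_lit 5) (nat_lit 153) (nat_lit 5) (nat_lit 457) (nat_lit 374) (nat_lit 309)) (XT.lf (nat_lit 0) (nat_lit 669902369) (nat_lit 456) (nat_lit 4805256382) (nat_lit 532) (nat_lit 4968633612) (nat_lit 146) (nat_lit 5) (nat_lit 152) (nat_lit 5) (nat_lit 153) (nat_lit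 5) (nat_lit 458) (nat_lit 374) (nat_lit 308))) (XT.nd (nat_lit 78) (nat_lit 456) (nat_lit 0) (XT.lf (nat_lit 0) (nat_lit 7162380219) (nat_lit 456) (nat_lit 1301381334) (nat_lit 532) (nat_lit 2097094607) (nat_lit 146) (nat_lit 5) (nat_lit 152) (nat_lit 5) (nat_lit 153) (nat_lit 5) (nat_lit 459) (nat_lit 374) (nat_lit 307)) (XT.nd (nat_lit 78) (nat_lit 0) (nat_lit 0) (XT.lf (nat_lit 0) (nat_lit 824461308) (nat_lit 456) (nat_lit 7599884346) (nat_lit 76) (nat_lit 2255750311) (nat_lit 140) (nat_lit 5) (nat_lit 146) (nat_lit 5) (nat_lit 141) (nat_lit 5) (nat_lit 460) (nat_lit 374) (nat_lit 306)) (XT.lf (nat_lit 0) (nat_lit 3776775425) (nat_lit 456) (nat_lit 1133933797) (nat_lit 76) (nat_lit 5890738396) (nat_lit 140) (nat_lit 5) (nat_lit 146) (nat_lit 5) (nat_lit 141) (nat_lit 5) (nat_lit 461) (nat_lit 374) (nat_lit 305))))) (XT.nd (nat_lit 234) (nat_lit 760) (nat_lit 0) (XT.nd (nat_lit 78) (nat_lit 456) (nat_lit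 0) (XT.lf (nat_lit 0) (nat_lit 5489655128) (nat_lit 456) (nat_lit 1303540746) (nat_lit 532) (nat_lit 4131941418) (nat_lit 134) (nat_lit 5) (nat_lit 140) (nat_lit 5) (nat_lit 141) (nat_lit 5) (nat_lit 462) (nat_lit 374) (nat_lit 304)) (XT.nd (nat_lit 78) (nat_lit 76) (nat_lit 0) (XT.lf (nat_lit 0) (nat_lit 1165829518) (nat_lit 380) (nat_lit 8704419592) (nat_lit 456) (nat_lit 1181057509) (nat_lit 129) (nat_lit 5) (nat_lit 134) (nat_lit 5) (nat_lit 135) (nat_lit 5) (nat_lit 463) (nat_lit 374) (nat_lit 303)) (XT.lf (nat_lit 0) (nat_lit 1819959256) (nat_lit 456) (nat_lit 3271218959) (nat_lit 76) (nat_lit 6088293105) (nat_lit 128) (nat_lit 5) (nat_lit 134) (nat_lit 5) (nat_lit 129) (nat_lit 5) (nat_lit 464) (nat_lit 374) (nat_lit 302)))) (XT.nd (nat_lit 78) (nat_lit 380) (nat_lit 0) (XT.lf (nat_lit 0) (nat_lit 3469826242) (nat_lit 380) (nat_lit 1388243633) (nat_lit 456) (nat_lit 6452126806) (nat_lit 123) (nat_lit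 5) (nat_lit 128) (nat_lit 5) (nat_lit 129) (nat_lit 5) (nat_lit 465) (nat_lit 374) (nat_lit 301)) (XT.nd (nat_lit 78) (nat_lit 380) (nat_lit 0) (XT.lf (nat_lit 0) (nat_lit 7965108697) (nat_lit 456) (nat_lit 1112127607) (nat_lit 76) (nat_lit 2366147965) (nat_lit 123) (nat_lit 5) (nat_lit 129) (nat_lit 5) (nat_lit 124) (nat_lit 5) (nat_lit 466) (nat_lit 374) (nat_lit 300)) (XT.lf (nat_lit 0) (nat_lit 5774663392) (nat_lit 380) (nat_lit 5377448441) (nat_lit 456) (nat_lit 426778126) (nat_lit 118) (nat_lit 5) (nat_lit 123) (nat_lit 5) (nat_lit 124) (nat_lit 5) (nat_lit 467) (nat_lit 374) (nat_lit 299))))))))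
noncomputable def xc82 : XT := (XT.nd (nat_lit 1560) (nat_lit 2204) (nat_lit 0) (XT.nd (nat_lit 780) (nat_lit 1520) (nat_lit 0) (XT.nd (nat_lit 390) (nat_lit 988) (nat_lit 0) (XT.nd (nat_lit 156) (nat_lit 760) (nat_lit 0) (XT.nd (nat_lit 78) (nat_lit 0) (nat_lit 0) (XT.lf (nat_lit 0) (nat_lit 1050933440) (nat_lit 380) (nat_lit 1585156166) (nat_lit 456) (nat_lit 9080966518) (nat_lit 112) (nat_lit 5) (nat_lit 117) (nat_lit 5) (nat_lit 118) (nat_lit 5) (nat_lit 468) (nat_lit 374) (nat_lit 298)) (XT.lf (nat_lit 0) (nat_lit 5779962762) (nat_lit 456) (nat_lit 3796119425) (nat_lit 76) (nat_lit 2281347950) (nat_lit 112) (nat_lit 5) (nat_lit 118) (nat_lit 5) (nat_lit 113) (nat_lit 5) (nat_lit 469) (nat_lit 374) (nat_lit 297))) (XT.nd (nat_lit 78) (nat_lit 456) (nat_lit 0) (XT.lf (nat_lit 0) (nat_lit 3200724698) (nat_lit 304) (nat_lit 5789255175) (nat_lit 380) (nat_lit 3010576426) (nat_lit 108) (nat_lit 5) (nat_lit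 112) (nat_lit 5) (nat_lit 113) (nat_lit 5) (nat_lit 470) (nat_lit 374) (nat_lit 296)) (XT.nd (nat_lit 78) (nat_lit 380) (nat_lit 0) (XT.lf (nat_lit 0) (nat_lit 113824279) (nat_lit 380) (nat_lit 1800148718) (nat_lit 76) (nat_lit 10232612020) (nat_lit 107) (nat_lit 5) (nat_lit 112) (nat_lit 5) (nat_lit 108) (nat_lit 5) (nat_lit 471) (nat_lit 374) (nat_lit 295)) (XT.lf (nat_lit 0) (nat_lit 3281293308) (nat_lit 456) (nat_lit 6960088615) (nat_lit 76) (nat_lit 2053345971) (nat_lit 102) (nat_lit 5) (nat_lit 108) (nat_lit 5) (nat_lit 103) (nat_lit 5) (nat_lit 472) (nat_lit 374) (nat_lit 294))))) (XT.nd (nat_lit 156) (nat_lit 684) (nat_lit 0) (XT.nd (nat_lit 78) (nat_lit 0) (nat_lit 0) (XT.lf (nat_lit 0) (nat_lit 138486947) (nat_lit 304) (nat_lit 6372158981) (nat_lit 380) (nat_lit 5935226253) (nat_lit 98) (nat_lit 5) (nat_lit 102) (nat_lit 5) (nat_lit 103) (nat_lit 5) (nat_lit 473) (nat_lit 374) (nat_lit 293)) (XT.lf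 (nat_lit 0) (nat_lit 7432146409) (nat_lit 304) (nat_lit 2392210470) (nat_lit 380) (nat_lit 2775296103) (nat_lit 98) (nat_lit 5) (nat_lit 102) (nat_lit 5) (nat_lit 103) (nat_lit 5) (nat_lit 474) (nat_lit 374) (nat_lit 292))) (XT.nd (nat_lit 78) (nat_lit 304) (nat_lit 0) (XT.lf (nat_lit 0) (nat_lit 439840069) (nat_lit 380) (nat_lit 10668558156) (nat_lit 76) (nat_lit 1648104111) (nat_lit 93) (nat_lit 5) (nat_lit 98) (nat_lit 5) (nat_lit 94) (nat_lit 5) (nat_lit 475) (nat_lit 374) (nat_lit 291)) (XT.nd (nat_lit 78) (nat_lit 304) (nat_lit 0) (XT.lf (nat_lit 0) (nat_lit 3706477379) (nat_lit 380) (nat_lit 3432657565) (nat_lit 76) (nat_lit 5776508180) (nat_lit 93) (nat_lit 5) (nat_lit 98) (nat_lit 5) (nat_lit 94) (nat_lit 5) (nat_lit 476) (nat_lit 374) (nat_lit 290)) (XT.lf (nat_lit 0) (nat_lit 3959735107) (nat_lit 304) (nat_lit 3078515770) (nat_lit 380) (nat_lit 6039728146) (nat_lit 89) (nat_lit 5) (nat_lit 93)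 (nat_lit 5) (nat_lit 94) (nat_lit 5) (nat_lit 477) (nat_lit 374) (nat_lit 289)))))) (XT.nd (nat_lit 390) (nat_lit 608) (nat_lit 0) (XT.nd (nat_lit 156) (nat_lit 532) (nat_lit 0) (XT.nd (nat_lit 78) (nat_lit 380) (nat_lit 0) (XT.lf (nat_lit 0) (nat_lit 10441001800) (nat_lit 380) (nat_lit 1743974301) (nat_lit 76) (nat_lit 1058506904) (nat_lit 89) (nat_lit 5) (nat_lit 94) (nat_lit 5) (nat_lit 90) (nat_lit 5) (nat_lit 478) (nat_lit 374) (nat_lit 288)) (XT.lf (nat_lit 0) (nat_lit 525929151) (nat_lit 380) (nat_lit 7621262025) (nat_lit 76) (nat_lit 5264389516) (nat_lit 84) (nat_lit 5) (nat_lit 89) (nat_lit 5) (nat_lit 85) (nat_lit 5) (nat_lit 479) (nat_lit 374) (nat_lit 287))) (XT.nd (nat_lit 78) (nat_lit 532) (nat_lit 0) (XT.lf (nat_lit 0) (nat_lit 3870020291) (nat_lit 380) (nat_lit 142120589) (nat_lit 76) (nat_lit 9570803938) (nat_lit 84) (nat_lit 5) (nat_lit 89) (nat_lit 5) (nat_lit 85) (nat_lit 5) (nat_lit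 480) (nat_lit 374) (nat_lit 286)) (XT.nd (nat_lit 78) (nat_lit 304) (nat_lit 0) (XT.lf (nat_lit 0) (nat_lit 7306875183) (nat_lit 304) (nat_lit 6212082610) (nat_lit 76) (nat_lit 238268372) (nat_lit 81) (nat_lit 5) (nat_lit 85) (nat_lit 5) (nat_lit 82) (nat_lit 5) (nat_lit 481) (nat_lit 374) (nat_lit 285)) (XT.lf (nat_lit 0) (nat_lit 1405981038) (nat_lit 304) (nat_lit 9418602844) (nat_lit 380) (nat_lit 3110174353) (nat_lit 77) (nat_lit 5) (nat_lit 81) (nat_lit 5) (nat_lit 82) (nat_lit 5) (nat_lit 482) (nat_lit 374) (nat_lit 284))))) (XT.nd (nat_lit 156) (nat_lit 304) (nat_lit 0) (XT.nd (nat_lit 78) (nat_lit 228) (nat_lit 0) (XT.lf (nat_lit 0) (nat_lit 310394778) (nat_lit 380) (nat_lit 4895661224) (nat_lit 76) (nat_lit 8909403909) (nat_lit 76) (nat_lit 5) (nat_lit 81) (nat_lit 5) (nat_lit 77) (nat_lit 5) (nat_lit 483) (nat_lit 374) (nat_lit 283)) (XT.lf (nat_lit 0) (nat_lit 2868848039) (nat_lit 228) (nat_lit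 883546645) (nat_lit 304) (nat_lit 10547083480) (nat_lit 73) (nat_lit 5) (nat_lit 76) (nat_lit 5) (nat_lit 77) (nat_lit 5) (nat_lit 484) (nat_lit 374) (nat_lit 282))) (XT.nd (nat_lit 78) (nat_lit 304) (nat_lit 0) (XT.lf (nat_lit 0) (nat_lit 7295324119) (nat_lit 304) (nat_lit 3693052272) (nat_lit 76) (nat_lit 3498165463) (nat_lit 73) (nat_lit 5) (nat_lit 77) (nat_lit 5) (nat_lit 74) (nat_lit 5) (nat_lit 485) (nat_lit 374) (nat_lit 281)) (XT.nd (nat_lit 78) (nat_lit 0) (nat_lit 0) (XT.lf (nat_lit 0) (nat_lit 4210972003) (nat_lit 304) (nat_lit 6707930083) (nat_lit 380) (nat_lit 3758255662) (nat_lit 69) (nat_lit 5) (nat_lit 73) (nat_lit 5) (nat_lit 74) (nat_lit 5) (nat_lit 486) (nat_lit 374) (nat_lit 280)) (XT.lf (nat_lit 0) (nat_lit 12285703476) (nat_lit 304) (nat_lit 2330844494) (nat_lit 380) (nat_lit 255012659) (nat_lit 69) (nat_lit 5) (nat_lit 73) (nat_lit 5) (nat_lit 74) (nat_lit 5) (nat_lit 487) (nat_lit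 374) (nat_lit 279))))))) (XT.nd (nat_lit 780) (nat_lit 608) (nat_lit 0) (XT.nd (nat_lit 390) (nat_lit 760) (nat_lit 0) (XT.nd (nat_lit 156) (nat_lit 532) (nat_lit 0) (XT.nd (nat_lit 78) (nat_lit 0) (nat_lit 0) (XT.lf (nat_lit 0) (nat_lit 3301510525) (nat_lit 304) (nat_lit 9618114606) (nat_lit 76) (nat_lit 2149267179) (nat_lit 65) (nat_lit 5) (nat_lit 69) (nat_lit 5) (nat_lit 66) (nat_lit 5) (nat_lit 488) (nat_lit 374) (nat_lit 278)) (XT.lf (nat_lit 0) (nat_lit 6935886525) (nat_lit 304) (nat_lit 1641001065) (nat_lit 76) (nat_lit 6693052797) (nat_lit 65) (nat_lit 5) (nat_lit 69) (nat_lit 5) (nat_lit 66) (nat_lit 5) (nat_lit 489) (nat_lit 374) (nat_lit 277))) (XT.nd (nat_lit 78) (nat_lit 304) (nat_lit 0) (XT.lf (nat_lit 0) (nat_lit 6545087961) (nat_lit 228) (nat_lit 4118033942) (nat_lit 304) (nat_lit 4811490179) (nat_lit 62) (nat_lit 5) (nat_lit 65) (nat_lit 5) (nat_lit 66) (nat_lit 5) (nat_lit 490) (nat_lit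 374) (nat_lit 276)) (XT.nd (nat_lit 78) (nat_lit 304) (nat_lit 0) (XT.lf (nat_lit 0) (nat_lit 14456567216) (nat_lit 304) (nat_lit 805403204) (nat_lit 76) (nat_lit 421579462) (nat_lit 62) (nat_lit 5) (nat_lit 66) (nat_lit 5) (nat_lit 63) (nat_lit 5) (nat_lit 491) (nat_lit 374) (nat_lit 275)) (XT.lf (nat_lit 0) (nat_lit 2452008401) (nat_lit 304) (nat_lit 8395014938) (nat_lit 76) (nat_lit 5048240342) (nat_lit 58) (nat_lit 5) (nat_lit 62) (nat_lit 5) (nat_lit 59) (nat_lit 5) (nat_lit 492) (nat_lit 374) (nat_lit 274))))) (XT.nd (nat_lit 156) (nat_lit 532) (nat_lit 0) (XT.nd (nat_lit 78) (nat_lit 228) (nat_lit 0) (XT.lf (nat_lit 0) (nat_lit 6171877273) (nat_lit 304) (nat_lit 172201078) (nat_lit 76) (nat_lit 9767302280) (nat_lit 58) (nat_lit 5) (nat_lit 62) (nat_lit 5) (nat_lit 59) (nat_lit 5) (nat_lit 493) (nat_lit 374) (nat_lit 273)) (XT.lf (nat_lit 0) (nat_lit 8288611876) (nat_lit 228) (nat_lit 1710044312) (nat_lit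 304) (nat_lit 6332518999) (nat_lit 55) (nat_lit 5) (nat_lit 58) (nat_lit 5) (nat_lit 59) (nat_lit 5) (nat_lit 494) (nat_lit 374) (nat_lit 272))) (XT.nd (nat_lit 78) (nat_lit 304) (nat_lit 0) (XT.lf (nat_lit 0) (nat_lit 314898482) (nat_lit 228) (nat_lit 13588664825) (nat_lit 304) (nat_lit 2651775886) (nat_lit 52) (nat_lit 5) (nat_lit 55) (nat_lit 5) (nat_lit 56) (nat_lit 5) (nat_lit 495) (nat_lit 374) (nat_lit 271)) (XT.nd (nat_lit 78) (nat_lit 228) (nat_lit 0) (XT.lf (nat_lit 0) (nat_lit 1132616053) (nat_lit 304) (nat_lit 7888544134) (nat_lit 76) (nat_lit 7761798429) (nat_lit 51) (nat_lit 5) (nat_lit 55) (nat_lit 5) (nat_lit 52) (nat_lit 5) (nat_lit 496) (nat_lit 374) (nat_lit 270)) (XT.lf (nat_lit 0) (nat_lit 585880800) (nat_lit 228) (nat_lit 4354402206) (nat_lit 304) (nat_lit 12074840067) (nat_lit 48) (nat_lit 5) (nat_lit 51) (nat_lit 5) (nat_lit 52) (nat_lit 5) (nat_lit 497) (nat_lit 374) (nat_lit 269))))))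 (XT.nd (nat_lit 390) (nat_lit 152) (nat_lit 0) (XT.nd (nat_lit 156) (nat_lit 304) (nat_lit 0) (XT.nd (nat_lit 78) (nat_lit 152) (nat_lit 0) (XT.lf (nat_lit 0) (nat_lit 8859374956) (nat_lit 304) (nat_lit 7951861684) (nat_lit 76) (nat_lit 439993745) (nat_lit 48) (nat_lit 5) (nat_lit 52) (nat_lit 5) (nat_lit 49) (nat_lit 5) (nat_lit 498) (nat_lit 374) (nat_lit 268)) (XT.lf (nat_lit 0) (nat_lit 640581215) (nat_lit 152) (nat_lit 12229019383) (nat_lit 228) (nat_lit 4622209109) (nat_lit 46) (nat_lit 5) (nat_lit 48) (nat_lit 5) (nat_lit 49) (nat_lit 5) (nat_lit 499) (nat_lit 374) (nat_lit 267))) (XT.nd (nat_lit 78) (nat_lit 304) (nat_lit 0) (XT.lf (nat_lit 0) (nat_lit 9478837022) (nat_lit 152) (nat_lit 7514487913) (nat_lit 228) (nat_lit 743214602) (nat_lit 46) (nat_lit 5) (nat_lit 48) (nat_lit 5) (nat_lit 49) (nat_lit 5) (nat_lit 500) (nat_lit 374) (nat_lit 266)) (XT.nd (nat_lit 78) (nat_lit 0) (nat_lit 0) (XT.lf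 (nat_lit 0) (nat_lit 459426025) (nat_lit 228) (nat_lit 2694964413) (nat_lit 304) (nat_lit 14831697391) (nat_lit 42) (nat_lit 5) (nat_lit 45) (nat_lit 5) (nat_lit 46) (nat_lit 5) (nat_lit 501) (nat_lit 374) (nat_lit 265)) (XT.lf (nat_lit 0) (nat_lit 7170481808) (nat_lit 304) (nat_lit 8829914470) (nat_lit 76) (nat_lit 2239127367) (nat_lit 42) (nat_lit 5) (nat_lit 46) (nat_lit 5) (nat_lit 43) (nat_lit 5) (nat_lit 502) (nat_lit 374) (nat_lit 264))))) (XT.nd (nat_lit 50622) (nat_lit 0) (nat_lit 44688) (XT.nd (nat_lit 78) (nat_lit 152) (nat_lit 0) (XT.lf (nat_lit 0) (nat_lit 11265405373) (nat_lit 304) (nat_lit 9941712) (nat_lit 76) (nat_lit 7222715323) (nat_lit 42) (nat_lit 5) (nat_lit 46) (nat_lit 5) (nat_lit 43) (nat_lit 5) (nat_lit 503) (nat_lit 374) (nat_lit 263)) (XT.nd (nat_lit 50466) (nat_lit 0) (nat_lit 45220) (XT.lf (nat_lit 0) (nat_lit 9073209555) (nat_lit 152) (nat_lit 6408969231) (nat_lit 228) (nat_lit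 3278798486) (nat_lit 40) (nat_lit 5) (nat_lit 42) (nat_lit 5) (nat_lit 43) (nat_lit 5) (nat_lit 504) (nat_lit 374) (nat_lit 262)) (XT.lf (nat_lit 0) (nat_lit 228266273) (nat_lit 380) (nat_lit 1508744582) (nat_lit 380) (nat_lit 1508744582) (nat_lit 635) (nat_lit 4) (nat_lit 640) (nat_lit 5) (nat_lit 640) (nat_lit 4) (nat_lit 390) (nat_lit 375) (nat_lit 375)))) (XT.nd (nat_lit 78) (nat_lit 456) (nat_lit 0) (XT.lf (nat_lit 0) (nat_lit 49043315) (nat_lit 456) (nat_lit 2501756040) (nat_lit 76) (nat_lit 3951294978) (nat_lit 634) (nat_lit 5) (nat_lit 640) (nat_lit 5) (nat_lit 635) (nat_lit 4) (nat_lit 391) (nat_lit 375) (nat_lit 374)) (XT.nd (nat_lit 78) (nat_lit 0) (nat_lit 0) (XT.lf (nat_lit 0) (nat_lit 1048780472) (nat_lit 456) (nat_lit 2020244779) (nat_lit 532) (nat_lit 3444891700) (nat_lit 628) (nat_lit 5) (nat_lit 634) (nat_lit 5) (nat_lit 635) (nat_lit 4) (nat_lit 392) (nat_lit 375) (nat_lit 373)) (XT.lf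 (nat_lit 0) (nat_lit 4657427893) (nat_lit 456) (nat_lit 1435596274) (nat_lit 532) (nat_lit 434154866) (nat_lit 628) (nat_lit 5) (nat_lit 634) (nat_lit 5) (nat_lit 635) (nat_lit 4) (nat_lit 393) (nat_lit 375) (nat_lit 372))))))))
noncomputable def xc83 : XT := (XT.nd (nat_lit 1560) (nat_lit 15048) (nat_lit 0) (XT.nd (nat_lit 780) (nat_lit 7372) (nat_lit 0) (XT.nd (nat_lit 390) (nat_lit 2660) (nat_lit 0) (XT.nd (nat_lit 156) (nat_lit 1444) (nat_lit 0) (XT.nd (nat_lit 78) (nat_lit 0) (nat_lit 0) (XT.lf (nat_lit 0) (nat_lit 1756532352) (nat_lit 532) (nat_lit 784802837) (nat_lit 608) (nat_lit 4000318793) (nat_lit 620) (nat_lit 5) (nat_lit 627) (nat_lit 5) (nat_lit 628) (nat_lit 5) (nat_lit 394) (nat_lit 375) (nat_lit 371)) (XT.lf (nat_lit 0) (nat_lit 5431154853) (nat_lit 532) (nat_lit 80731029) (nat_lit 608) (nat_lit 1045718882) (nat_lit 620) (nat_lit 5) (nat_lit 627) (nat_lit 5) (nat_lit 628) (nat_lit 5) (nat_lit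 395) (nat_lit 375) (nat_lit 370))) (XT.nd (nat_lit 78) (nat_lit 760) (nat_lit 0) (XT.lf (nat_lit 0) (nat_lit 1893094772) (nat_lit 684) (nat_lit 3999500732) (nat_lit 76) (nat_lit 682073123) (nat_lit 611) (nat_lit 5) (nat_lit 620) (nat_lit 5) (nat_lit 612) (nat_lit 5) (nat_lit 396) (nat_lit 375) (nat_lit 369)) (XT.nd (nat_lit 78) (nat_lit 760) (nat_lit 0) (XT.lf (nat_lit 0) (nat_lit 4815760195) (nat_lit 684) (nat_lit 281344302) (nat_lit 76) (nat_lit 1496116388) (nat_lit 611) (nat_lit 5) (nat_lit 620) (nat_lit 5) (nat_lit 612) (nat_lit 5) (nat_lit 397) (nat_lit 375) (nat_lit 368)) (XT.lf (nat_lit 0) (nat_lit 1123899952) (nat_lit 760) (nat_lit 3110348958) (nat_lit 76) (nat_lit 2378711691) (nat_lit 601) (nat_lit 5) (nat_lit 611) (nat_lit 5) (nat_lit 602) (nat_lit 5) (nat_lit 398) (nat_lit 375) (nat_lit 367))))) (XT.nd (nat_lit 156) (nat_lit 1824) (nat_lit 0) (XT.nd (nat_lit 78) (nat_lit 76) (nat_lit 0) (XT.lf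 (nat_lit 0) (nat_lit 682465403) (nat_lit 760) (nat_lit 3316170461) (nat_lit 836) (nat_lit 2635504358) (nat_lit 591) (nat_lit 5) (nat_lit 601) (nat_lit 5) (nat_lit 602) (nat_lit 5) (nat_lit 399) (nat_lit 375) (nat_lit 366)) (XT.lf (nat_lit 0) (nat_lit 225830266) (nat_lit 836) (nat_lit 2112290490) (nat_lit 76) (nat_lit 4318561253) (nat_lit 590) (nat_lit 5) (nat_lit 601) (nat_lit 5) (nat_lit 591) (nat_lit 5) (nat_lit 400) (nat_lit 375) (nat_lit 365))) (XT.nd (nat_lit 78) (nat_lit 988) (nat_lit 0) (XT.lf (nat_lit 0) (nat_lit 1762148911) (nat_lit 836) (nat_lit 1293040227) (nat_lit 912) (nat_lit 3625274759) (nat_lit 579) (nat_lit 5) (nat_lit 590) (nat_lit 5) (nat_lit 591) (nat_lit 5) (nat_lit 401) (nat_lit 375) (nat_lit 364)) (XT.nd (nat_lit 78) (nat_lit 988) (nat_lit 0) (XT.lf (nat_lit 0) (nat_lit 5695631686) (nat_lit 836) (nat_lit 195267453) (nat_lit 912) (nat_lit 814885260) (nat_lit 579) (nat_lit 5) (nat_lit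 590) (nat_lit 5) (nat_lit 591) (nat_lit 5) (nat_lit 402) (nat_lit 375) (nat_lit 363)) (XT.lf (nat_lit 0) (nat_lit 1986689109) (nat_lit 988) (nat_lit 3784070052) (nat_lit 76) (nat_lit 961404010) (nat_lit 566) (nat_lit 5) (nat_lit 579) (nat_lit 5) (nat_lit 567) (nat_lit 5) (nat_lit 403) (nat_lit 375) (nat_lit 362)))))) (XT.nd (nat_lit 390) (nat_lit 4028) (nat_lit 0) (XT.nd (nat_lit 156) (nat_lit 2280) (nat_lit 0) (XT.nd (nat_lit 78) (nat_lit 76) (nat_lit 0) (XT.lf (nat_lit 0) (nat_lit 187832845) (nat_lit 988) (nat_lit 4592322435) (nat_lit 1064) (nat_lit 1979925970) (nat_lit 553) (nat_lit 5) (nat_lit 566) (nat_lit 5) (nat_lit 567) (nat_lit 5) (nat_lit 404) (nat_lit 375) (nat_lit 361)) (XT.lf (nat_lit 0) (nat_lit 793345434) (nat_lit 1064) (nat_lit 2551930278) (nat_lit 76) (nat_lit 3443956720) (nat_lit 552) (nat_lit 5) (nat_lit 566) (nat_lit 5) (nat_lit 553) (nat_lit 5) (nat_lit 405) (nat_lit 375) (nat_lit 360)))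 (XT.nd (nat_lit 78) (nat_lit 1216) (nat_lit 0) (XT.lf (nat_lit 0) (nat_lit 1507690803) (nat_lit 1064) (nat_lit 2036792075) (nat_lit 1140) (nat_lit 3275295502) (nat_lit 538) (nat_lit 5) (nat_lit 552) (nat_lit 5) (nat_lit 553) (nat_lit 5) (nat_lit 406) (nat_lit 375) (nat_lit 359)) (XT.nd (nat_lit 78) (nat_lit 1216) (nat_lit 0) (XT.lf (nat_lit 0) (nat_lit 5635645683) (nat_lit 1064) (nat_lit 672106367) (nat_lit 1140) (nat_lit 544091733) (nat_lit 538) (nat_lit 5) (nat_lit 552) (nat_lit 5) (nat_lit 553) (nat_lit 5) (nat_lit 407) (nat_lit 375) (nat_lit 358)) (XT.lf (nat_lit 0) (nat_lit 2177108548) (nat_lit 1216) (nat_lit 3951853217) (nat_lit 76) (nat_lit 756050913) (nat_lit 522) (nat_lit 5) (nat_lit 538) (nat_lit 5) (nat_lit 523) (nat_lit 5) (nat_lit 408) (nat_lit 375) (nat_lit 357))))) (XT.nd (nat_lit 156) (nat_lit 2736) (nat_lit 0) (XT.nd (nat_lit 78) (nat_lit 76) (nat_lit 0) (XT.lf (nat_lit 0) (nat_lit 209613792)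 (nat_lit 1216) (nat_lit 4691520784) (nat_lit 1292) (nat_lit 2018572495) (nat_lit 506) (nat_lit 5) (nat_lit 522) (nat_lit 5) (nat_lit 523) (nat_lit 5) (nat_lit 409) (nat_lit 375) (nat_lit 356)) (XT.lf (nat_lit 0) (nat_lit 683795984) (nat_lit 1292) (nat_lit 2500399552) (nat_lit 76) (nat_lit 3771476605) (nat_lit 505) (nat_lit 5) (nat_lit 522) (nat_lit 5) (nat_lit 506) (nat_lit 5) (nat_lit 410) (nat_lit 375) (nat_lit 355))) (XT.nd (nat_lit 78) (nat_lit 1444) (nat_lit 0) (XT.lf (nat_lit 0) (nat_lit 1755264866) (nat_lit 1292) (nat_lit 1612534128) (nat_lit 1368) (nat_lit 3625243382) (nat_lit 488) (nat_lit 5) (nat_lit 505) (nat_lit 5) (nat_lit 506) (nat_lit 5) (nat_lit 411) (nat_lit 375) (nat_lit 354)) (XT.nd (nat_lit 78) (nat_lit 1444) (nat_lit 0) (XT.lf (nat_lit 0) (nat_lit 6066364970) (nat_lit 1368) (nat_lit 949717875) (nat_lit 76) (nat_lit 15903662) (nat_lit 488) (nat_lit 5) (nat_lit 506) (nat_lit 5) (nat_lit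 489) (nat_lit 5) (nat_lit 412) (nat_lit 375) (nat_lit 353)) (XT.lf (nat_lit 0) (nat_lit 1702061599) (nat_lit 1444) (nat_lit 3673063446) (nat_lit 76) (nat_lit 1696844360) (nat_lit 469) (nat_lit 5) (nat_lit 488) (nat_lit 5) (nat_lit 470) (nat_lit 5) (nat_lit 413) (nat_lit 375) (nat_lit 352))))))) (XT.nd (nat_lit 780) (nat_lit 5928) (nat_lit 0) (XT.nd (nat_lit 390) (nat_lit 4408) (nat_lit 0) (XT.nd (nat_lit 156) (nat_lit 3268) (nat_lit 0) (XT.nd (nat_lit 78) (nat_lit 0) (nat_lit 0) (XT.lf (nat_lit 0) (nat_lit 689077470) (nat_lit 1444) (nat_lit 3677510634) (nat_lit 1520) (nat_lit 2746949418) (nat_lit 450) (nat_lit 5) (nat_lit 469) (nat_lit 5) (nat_lit 470) (nat_lit 5) (nat_lit 414) (nat_lit 375) (nat_lit 351)) (XT.lf (nat_lit 0) (nat_lit 5140293837) (nat_lit 1444) (nat_lit 1915034427) (nat_lit 1520) (nat_lit 101231061) (nat_lit 450) (nat_lit 5) (nat_lit 469) (nat_lit 5) (nat_lit 470) (nat_lit 5) (nat_lit 415)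 (nat_lit 375) (nat_lit 350))) (XT.nd (nat_lit 78) (nat_lit 1672) (nat_lit 0) (XT.lf (nat_lit 0) (nat_lit 2447568489) (nat_lit 1520) (nat_lit 78599109) (nat_lit 1596) (nat_lit 4674719263) (nat_lit 429) (nat_lit 5) (nat_lit 449) (nat_lit 5) (nat_lit 450) (nat_lit 5) (nat_lit 416) (nat_lit 375) (nat_lit 349)) (XT.nd (nat_lit 78) (nat_lit 1672) (nat_lit 0) (XT.lf (nat_lit 0) (nat_lit 5177735442) (nat_lit 1596) (nat_lit 278794888) (nat_lit 76) (nat_lit 1790136136) (nat_lit 429) (nat_lit 5) (nat_lit 450) (nat_lit 5) (nat_lit 430) (nat_lit 5) (nat_lit 417) (nat_lit 375) (nat_lit 348)) (XT.lf (nat_lit 0) (nat_lit 558185442) (nat_lit 1672) (nat_lit 3004132867) (nat_lit 76) (nat_lit 3731465078) (nat_lit 407) (nat_lit 5) (nat_lit 429) (nat_lit 5) (nat_lit 408) (nat_lit 5) (nat_lit 418) (nat_lit 375) (nat_lit 347))))) (XT.nd (nat_lit 156) (nat_lit 2736) (nat_lit 0) (XT.nd (nat_lit 78) (nat_lit 0) (nat_lit 0) (XT.lf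 (nat_lit 0) (nat_lit 1570308740) (nat_lit 1672) (nat_lit 1600993511) (nat_lit 1748) (nat_lit 4171079881) (nat_lit 385) (nat_lit 5) (nat_lit 407) (nat_lit 5) (nat_lit 408) (nat_lit 5) (nat_lit 419) (nat_lit 375) (nat_lit 346)) (XT.lf (nat_lit 0) (nat_lit 5809330618) (nat_lit 1748) (nat_lit 1166068694) (nat_lit 76) (nat_lit 417136063) (nat_lit 385) (nat_lit 5) (nat_lit 408) (nat_lit 5) (nat_lit 386) (nat_lit 5) (nat_lit 420) (nat_lit 375) (nat_lit 345))) (XT.nd (nat_lit 78) (nat_lit 912) (nat_lit 0) (XT.lf (nat_lit 0) (nat_lit 1026636531) (nat_lit 1824) (nat_lit 3930976451) (nat_lit 76) (nat_lit 2486294371) (nat_lit 361) (nat_lit 5) (nat_lit 385) (nat_lit 5) (nat_lit 362) (nat_lit 5) (nat_lit 421) (nat_lit 375) (nat_lit 344)) (XT.nd (nat_lit 78) (nat_lit 0) (nat_lit 0) (XT.lf (nat_lit 0) (nat_lit 756384147) (nat_lit 912) (nat_lit 2874948121) (nat_lit 988) (nat_lit 3865521529) (nat_lit 349) (nat_lit 5) (nat_lit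 361) (nat_lit 5) (nat_lit 362) (nat_lit 5) (nat_lit 422) (nat_lit 375) (nat_lit 343)) (XT.lf (nat_lit 0) (nat_lit 5542928328) (nat_lit 912) (nat_lit 723270880) (nat_lit 988) (nat_lit 1285131220) (nat_lit 349) (nat_lit 5) (nat_lit 361) (nat_lit 5) (nat_lit 362) (nat_lit 5) (nat_lit 423) (nat_lit 375) (nat_lit 342)))))) (XT.nd (nat_lit 390) (nat_lit 3192) (nat_lit 0) (XT.nd (nat_lit 156) (nat_lit 1748) (nat_lit 0) (XT.nd (nat_lit 78) (nat_lit 0) (nat_lit 0) (XT.lf (nat_lit 0) (nat_lit 1309406180) (nat_lit 988) (nat_lit 4818385308) (nat_lit 76) (nat_lit 1479357664) (nat_lit 336) (nat_lit 5) (nat_lit 349) (nat_lit 5) (nat_lit 337) (nat_lit 5) (nat_lit 424) (nat_lit 375) (nat_lit 341)) (XT.lf (nat_lit 0) (nat_lit 3909926365) (nat_lit 988) (nat_lit 16341471) (nat_lit 76) (nat_lit 3738251435) (nat_lit 336) (nat_lit 5) (nat_lit 349) (nat_lit 5) (nat_lit 337) (nat_lit 5) (nat_lit 425) (nat_lit 375) (nat_lit 340)))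 (XT.nd (nat_lit 78) (nat_lit 912) (nat_lit 0) (XT.lf (nat_lit 0) (nat_lit 4898702008) (nat_lit 836) (nat_lit 1649410856) (nat_lit 912) (nat_lit 1175241115) (nat_lit 325) (nat_lit 5) (nat_lit 336) (nat_lit 5) (nat_lit 337) (nat_lit 5) (nat_lit 426) (nat_lit 375) (nat_lit 339)) (XT.nd (nat_lit 78) (nat_lit 0) (nat_lit 0) (XT.lf (nat_lit 0) (nat_lit 1408977838) (nat_lit 912) (nat_lit 5688990189) (nat_lit 76) (nat_lit 685790018) (nat_lit 313) (nat_lit 5) (nat_lit 325) (nat_lit 5) (nat_lit 314) (nat_lit 5) (nat_lit 427) (nat_lit 375) (nat_lit 338)) (XT.lf (nat_lit 0) (nat_lit 4013861702) (nat_lit 912) (nat_lit 761182268) (nat_lit 76) (nat_lit 3070505074) (nat_lit 313) (nat_lit 5) (nat_lit 325) (nat_lit 5) (nat_lit 314) (nat_lit 5) (nat_lit 428) (nat_lit 375) (nat_lit 337))))) (XT.nd (nat_lit 234) (nat_lit 1596) (nat_lit 0) (XT.nd (nat_lit 78) (nat_lit 836) (nat_lit 0) (XT.lf (nat_lit 0) (nat_lit 4273956776) (nat_lit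 760) (nat_lit 2380222710) (nat_lit 836) (nat_lit 1254757649) (nat_lit 303) (nat_lit 5) (nat_lit 313) (nat_lit 5) (nat_lit 314) (nat_lit 5) (nat_lit 429) (nat_lit 375) (nat_lit 336)) (XT.nd (nat_lit 78) (nat_lit 0) (nat_lit 0) (XT.lf (nat_lit 0) (nat_lit 1326353845) (nat_lit 836) (nat_lit 6566011355) (nat_lit 76) (nat_lit 81663125) (nat_lit 292) (nat_lit 5) (nat_lit 303) (nat_lit 5) (nat_lit 293) (nat_lit 5) (nat_lit 430) (nat_lit 375) (nat_lit 335)) (XT.lf (nat_lit 0) (nat_lit 3938989913) (nat_lit 836) (nat_lit 1511163596) (nat_lit 76) (nat_lit 2590194262) (nat_lit 292) (nat_lit 5) (nat_lit 303) (nat_lit 5) (nat_lit 293) (nat_lit 5) (nat_lit 431) (nat_lit 375) (nat_lit 334)))) (XT.nd (nat_lit 78) (nat_lit 836) (nat_lit 0) (XT.lf (nat_lit 0) (nat_lit 3645391856) (nat_lit 760) (nat_lit 2939381234) (nat_lit 836) (nat_lit 1523628495) (nat_lit 282) (nat_lit 5) (nat_lit 292) (nat_lit 5) (nat_lit 293) (nat_lit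 5) (nat_lit 432) (nat_lit 375) (nat_lit 333)) (XT.nd (nat_lit 78) (nat_lit 0) (nat_lit 0) (XT.lf (nat_lit 0) (nat_lit 702436792) (nat_lit 760) (nat_lit 360941937) (nat_lit 836) (nat_lit 7114874552) (nat_lit 271) (nat_lit 5) (nat_lit 281) (nat_lit 5) (nat_lit 282) (nat_lit 5) (nat_lit 433) (nat_lit 375) (nat_lit 332)) (XT.lf (nat_lit 0) (nat_lit 3684573676) (nat_lit 836) (nat_lit 2290232253) (nat_lit 76) (nat_lit 2274462052) (nat_lit 271) (nat_lit 5) (nat_lit 282) (nat_lit 5) (nat_lit 272) (nat_lit 5) (nat_lit 434) (nat_lit 375) (nat_lit 331))))))))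
noncomputable def xc84 : XT := (XT.nd (nat_lit 1560) (nat_lit 5092) (nat_lit 0) (XT.nd (nat_lit 780) (nat_lit 3420) (nat_lit 0) (XT.nd (nat_lit 390) (nat_lit 2584) (nat_lit 0) (XT.nd (nat_lit 156) (nat_lit 1292) (nat_lit 0) (XT.nd (nat_lit 78) (nat_lit 76) (nat_lit 0) (XT.lf (nat_lit 0) (nat_lit 2988815444) (nat_lit 684) (nat_lit 3349947428) (nat_lit 760) (nat_lit 1983352591) (nat_lit 262) (nat_lit 5) (nat_lit 271) (nat_lit 5) (nat_lit 272) (nat_lit 5) (nat_lit 435) (nat_lit 375) (nat_lit 330)) (XT.lf (nat_lit 0) (nat_lit 615553237) (nat_lit 760) (nat_lit 43258404) (nat_lit 76) (nat_lit 7738057725) (nat_lit 261) (nat_lit 5) (nat_lit 271) (nat_lit 5) (nat_lit 262) (nat_lit 5) (nat_lit 436) (nat_lit 375) (nat_lit 329))) (XT.nd (nat_lit 78) (nat_lit 608) (nat_lit 0) (XT.lf (nat_lit 0) (nat_lit 3248340680) (nat_lit 760) (nat_lit 3123404183) (nat_lit 76) (nat_lit 2100964592) (nat_lit 252) (nat_lit 5) (nat_lit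 262) (nat_lit 5) (nat_lit 253) (nat_lit 5) (nat_lit 437) (nat_lit 375) (nat_lit 328)) (XT.nd (nat_lit 78) (nat_lit 0) (nat_lit 0) (XT.lf (nat_lit 0) (nat_lit 2278912092) (nat_lit 608) (nat_lit 3634561950) (nat_lit 684) (nat_lit 2637020576) (nat_lit 244) (nat_lit 5) (nat_lit 252) (nat_lit 5) (nat_lit 253) (nat_lit 5) (nat_lit 438) (nat_lit 375) (nat_lit 327)) (XT.lf (nat_lit 0) (nat_lit 7785064132) (nat_lit 608) (nat_lit 828521792) (nat_lit 684) (nat_lit 16637686) (nat_lit 244) (nat_lit 5) (nat_lit 252) (nat_lit 5) (nat_lit 253) (nat_lit 5) (nat_lit 439) (nat_lit 375) (nat_lit 326))))) (XT.nd (nat_lit 156) (nat_lit 1216) (nat_lit 0) (XT.nd (nat_lit 78) (nat_lit 608) (nat_lit 0) (XT.lf (nat_lit 0) (nat_lit 2626435622) (nat_lit 760) (nat_lit 4037005804) (nat_lit 76) (nat_lit 2047679274) (nat_lit 234) (nat_lit 5) (nat_lit 244) (nat_lit 5) (nat_lit 235) (nat_lit 5) (nat_lit 440) (nat_lit 375) (nat_lit 325)) (XT.lf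 (nat_lit 0) (nat_lit 1488995731) (nat_lit 608) (nat_lit 3815639807) (nat_lit 684) (nat_lit 3489368632) (nat_lit 226) (nat_lit 5) (nat_lit 234) (nat_lit 5) (nat_lit 235) (nat_lit 5) (nat_lit 441) (nat_lit 375) (nat_lit 324))) (XT.nd (nat_lit 78) (nat_lit 1216) (nat_lit 0) (XT.lf (nat_lit 0) (nat_lit 7133939709) (nat_lit 608) (nat_lit 891626271) (nat_lit 684) (nat_lit 853215994) (nat_lit 226) (nat_lit 5) (nat_lit 234) (nat_lit 5) (nat_lit 235) (nat_lit 5) (nat_lit 442) (nat_lit 375) (nat_lit 323)) (XT.nd (nat_lit 78) (nat_lit 532) (nat_lit 0) (XT.lf (nat_lit 0) (nat_lit 1813358621) (nat_lit 684) (nat_lit 5058931276) (nat_lit 76) (nat_lit 2092710810) (nat_lit 217) (nat_lit 5) (nat_lit 226) (nat_lit 5) (nat_lit 218) (nat_lit 5) (nat_lit 443) (nat_lit 375) (nat_lit 322)) (XT.lf (nat_lit 0) (nat_lit 590746072) (nat_lit 532) (nat_lit 3915567864) (nat_lit 608) (nat_lit 4546846450) (nat_lit 210) (nat_lit 5) (nat_lit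 217) (nat_lit 5) (nat_lit 218) (nat_lit 5) (nat_lit 444) (nat_lit 375) (nat_lit 321)))))) (XT.nd (nat_lit 390) (nat_lit 1672) (nat_lit 0) (XT.nd (nat_lit 156) (nat_lit 1064) (nat_lit 0) (XT.nd (nat_lit 78) (nat_lit 684) (nat_lit 0) (XT.lf (nat_lit 0) (nat_lit 6375986388) (nat_lit 532) (nat_lit 874454513) (nat_lit 608) (nat_lit 1892714580) (nat_lit 210) (nat_lit 5) (nat_lit 217) (nat_lit 5) (nat_lit 218) (nat_lit 5) (nat_lit 445) (nat_lit 375) (nat_lit 320)) (XT.lf (nat_lit 0) (nat_lit 801889307) (nat_lit 684) (nat_lit 6218918114) (nat_lit 76) (nat_lit 2214093611) (nat_lit 201) (nat_lit 5) (nat_lit 210) (nat_lit 5) (nat_lit 202) (nat_lit 5) (nat_lit 446) (nat_lit 375) (nat_lit 319))) (XT.nd (nat_lit 78) (nat_lit 1064) (nat_lit 0) (XT.lf (nat_lit 0) (nat_lit 3513728974) (nat_lit 684) (nat_lit 440223741) (nat_lit 76) (nat_lit 5374522227) (nat_lit 201) (nat_lit 5) (nat_lit 210) (nat_lit 5) (nat_lit 202) (nat_lit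 5) (nat_lit 447) (nat_lit 375) (nat_lit 318)) (XT.nd (nat_lit 78) (nat_lit 532) (nat_lit 0) (XT.lf (nat_lit 0) (nat_lit 5480855644) (nat_lit 532) (nat_lit 799417722) (nat_lit 608) (nat_lit 3143654671) (nat_lit 194) (nat_lit 5) (nat_lit 201) (nat_lit 5) (nat_lit 202) (nat_lit 5) (nat_lit 448) (nat_lit 375) (nat_lit 317)) (XT.lf (nat_lit 0) (nat_lit 1969786183) (nat_lit 532) (nat_lit 7129041095) (nat_lit 608) (nat_lit 422546074) (nat_lit 187) (nat_lit 5) (nat_lit 194) (nat_lit 5) (nat_lit 195) (nat_lit 5) (nat_lit 449) (nat_lit 375) (nat_lit 316))))) (XT.nd (nat_lit 156) (nat_lit 1064) (nat_lit 0) (XT.nd (nat_lit 78) (nat_lit 532) (nat_lit 0) (XT.lf (nat_lit 0) (nat_lit 2319414645) (nat_lit 608) (nat_lit 1632231785) (nat_lit 76) (nat_lit 5668885887) (nat_lit 186) (nat_lit 5) (nat_lit 194) (nat_lit 5) (nat_lit 187) (nat_lit 5) (nat_lit 450) (nat_lit 375) (nat_lit 315)) (XT.lf (nat_lit 0) (nat_lit 4415923905)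 (nat_lit 532) (nat_lit 689348675) (nat_lit 608) (nat_lit 4616467468) (nat_lit 179) (nat_lit 5) (nat_lit 186) (nat_lit 5) (nat_lit 187) (nat_lit 5) (nat_lit 451) (nat_lit 375) (nat_lit 314))) (XT.nd (nat_lit 78) (nat_lit 532) (nat_lit 0) (XT.lf (nat_lit 0) (nat_lit 729757790) (nat_lit 532) (nat_lit 7216329294) (nat_lit 608) (nat_lit 1878915518) (nat_lit 172) (nat_lit 5) (nat_lit 179) (nat_lit 5) (nat_lit 180) (nat_lit 5) (nat_lit 452) (nat_lit 375) (nat_lit 313)) (XT.nd (nat_lit 78) (nat_lit 456) (nat_lit 0) (XT.lf (nat_lit 0) (nat_lit 908294887) (nat_lit 608) (nat_lit 3027575621) (nat_lit 76) (nat_lit 5994218417) (nat_lit 171) (nat_lit 5) (nat_lit 179) (nat_lit 5) (nat_lit 172) (nat_lit 5) (nat_lit 453) (nat_lit 375) (nat_lit 312)) (XT.lf (nat_lit 0) (nat_lit 3145958804) (nat_lit 456) (nat_lit 567719249) (nat_lit 532) (nat_lit 6323613349) (nat_lit 165) (nat_lit 5) (nat_lit 171) (nat_lit 5) (nat_lit 172)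 (nat_lit 5) (nat_lit 454) (nat_lit 375) (nat_lit 311))))))) (XT.nd (nat_lit 780) (nat_lit 2280) (nat_lit 0) (XT.nd (nat_lit 390) (nat_lit 1368) (nat_lit 0) (XT.nd (nat_lit 156) (nat_lit 988) (nat_lit 0) (XT.nd (nat_lit 78) (nat_lit 456) (nat_lit 0) (XT.lf (nat_lit 0) (nat_lit 6581661603) (nat_lit 532) (nat_lit 725585223) (nat_lit 76) (nat_lit 2839275528) (nat_lit 165) (nat_lit 5) (nat_lit 172) (nat_lit 5) (nat_lit 166) (nat_lit 5) (nat_lit 455) (nat_lit 375) (nat_lit 310)) (XT.lf (nat_lit 0) (nat_lit 5589293574) (nat_lit 456) (nat_lit 3925821086) (nat_lit 532) (nat_lit 742675068) (nat_lit 159) (nat_lit 5) (nat_lit 165) (nat_lit 5) (nat_lit 166) (nat_lit 5) (nat_lit 456) (nat_lit 375) (nat_lit 309))) (XT.nd (nat_lit 78) (nat_lit 456) (nat_lit 0) (XT.lf (nat_lit 0) (nat_lit 1632757004) (nat_lit 456) (nat_lit 458868281) (nat_lit 532) (nat_lit 8279719572) (nat_lit 152) (nat_lit 5) (nat_lit 158) (nat_lit 5) (nat_lit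 159) (nat_lit 5) (nat_lit 457) (nat_lit 375) (nat_lit 308)) (XT.nd (nat_lit 78) (nat_lit 456) (nat_lit 0) (XT.lf (nat_lit 0) (nat_lit 4992637112) (nat_lit 532) (nat_lit 2432485562) (nat_lit 76) (nat_lit 3061564027) (nat_lit 152) (nat_lit 5) (nat_lit 159) (nat_lit 5) (nat_lit 153) (nat_lit 5) (nat_lit 458) (nat_lit 375) (nat_lit 307)) (XT.lf (nat_lit 0) (nat_lit 4005951995) (nat_lit 456) (nat_lit 3943828454) (nat_lit 532) (nat_lit 2654605642) (nat_lit 146) (nat_lit 5) (nat_lit 152) (nat_lit 5) (nat_lit 153) (nat_lit 5) (nat_lit 459) (nat_lit 375) (nat_lit 306))))) (XT.nd (nat_lit 156) (nat_lit 912) (nat_lit 0) (XT.nd (nat_lit 78) (nat_lit 380) (nat_lit 0) (XT.lf (nat_lit 0) (nat_lit 224064857) (nat_lit 532) (nat_lit 163082613) (nat_lit 76) (nat_lit 10337560921) (nat_lit 145) (nat_lit 5) (nat_lit 152) (nat_lit 5) (nat_lit 146) (nat_lit 5) (nat_lit 460) (nat_lit 375) (nat_lit 305)) (XT.lf (nat_lit 0) (nat_lit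 3157645520) (nat_lit 456) (nat_lit 4443131467) (nat_lit 76) (nat_lit 3245663759) (nat_lit 140) (nat_lit 5) (nat_lit 146) (nat_lit 5) (nat_lit 141) (nat_lit 5) (nat_lit 461) (nat_lit 375) (nat_lit 304))) (XT.nd (nat_lit 78) (nat_lit 456) (nat_lit 0) (XT.lf (nat_lit 0) (nat_lit 2114999226) (nat_lit 456) (nat_lit 4022313279) (nat_lit 532) (nat_lit 4833558899) (nat_lit 134) (nat_lit 5) (nat_lit 140) (nat_lit 5) (nat_lit 141) (nat_lit 5) (nat_lit 462) (nat_lit 375) (nat_lit 303)) (XT.nd (nat_lit 78) (nat_lit 456) (nat_lit 0) (XT.lf (nat_lit 0) (nat_lit 8821980065) (nat_lit 456) (nat_lit 354737437) (nat_lit 532) (nat_lit 1921081994) (nat_lit 134) (nat_lit 5) (nat_lit 140) (nat_lit 5) (nat_lit 141) (nat_lit 5) (nat_lit 463) (nat_lit 375) (nat_lit 302)) (XT.lf (nat_lit 0) (nat_lit 1057584633) (nat_lit 456) (nat_lit 6804075781) (nat_lit 76) (nat_lit 3365046564) (nat_lit 128) (nat_lit 5) (nat_lit 134) (nat_lit 5)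 (nat_lit 129) (nat_lit 5) (nat_lit 464) (nat_lit 375) (nat_lit 301)))))) (XT.nd (nat_lit 390) (nat_lit 1064) (nat_lit 0) (XT.nd (nat_lit 156) (nat_lit 836) (nat_lit 0) (XT.nd (nat_lit 78) (nat_lit 380) (nat_lit 0) (XT.lf (nat_lit 0) (nat_lit 4058773849) (nat_lit 456) (nat_lit 129496976) (nat_lit 76) (nat_lit 7169905408) (nat_lit 128) (nat_lit 5) (nat_lit 134) (nat_lit 5) (nat_lit 129) (nat_lit 5) (nat_lit 465) (nat_lit 375) (nat_lit 300)) (XT.lf (nat_lit 0) (nat_lit 6725269482) (nat_lit 380) (nat_lit 409878511) (nat_lit 456) (nat_lit 4356834478) (nat_lit 123) (nat_lit 5) (nat_lit 128) (nat_lit 5) (nat_lit 129) (nat_lit 5) (nat_lit 466) (nat_lit 375) (nat_lit 299))) (XT.nd (nat_lit 78) (nat_lit 456) (nat_lit 0) (XT.lf (nat_lit 0) (nat_lit 2053276972) (nat_lit 380) (nat_lit 8228042765) (nat_lit 456) (nat_lit 1346990304) (nat_lit 118) (nat_lit 5) (nat_lit 123) (nat_lit 5) (nat_lit 124) (nat_lit 5) (nat_lit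 467) (nat_lit 375) (nat_lit 298)) (XT.nd (nat_lit 78) (nat_lit 380) (nat_lit 0) (XT.lf (nat_lit 0) (nat_lit 1707158872) (nat_lit 456) (nat_lit 2748391931) (nat_lit 76) (nat_lit 7311465691) (nat_lit 117) (nat_lit 5) (nat_lit 123) (nat_lit 5) (nat_lit 118) (nat_lit 5) (nat_lit 468) (nat_lit 375) (nat_lit 297)) (XT.lf (nat_lit 0) (nat_lit 4220195637) (nat_lit 380) (nat_lit 583922270) (nat_lit 456) (nat_lit 7104215832) (nat_lit 112) (nat_lit 5) (nat_lit 117) (nat_lit 5) (nat_lit 118) (nat_lit 5) (nat_lit 469) (nat_lit 375) (nat_lit 296))))) (XT.nd (nat_lit 234) (nat_lit 304) (nat_lit 0) (XT.nd (nat_lit 78) (nat_lit 760) (nat_lit 0) (XT.lf (nat_lit 0) (nat_lit 7975966940) (nat_lit 456) (nat_lit 749884438) (nat_lit 76) (nat_lit 3326376737) (nat_lit 112) (nat_lit 5) (nat_lit 118) (nat_lit 5) (nat_lit 113) (nat_lit 5) (nat_lit 470) (nat_lit 375) (nat_lit 295)) (XT.nd (nat_lit 78) (nat_lit 456) (nat_lit 0) (XT.lf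 (nat_lit 0) (nat_lit 6366356058) (nat_lit 304) (nat_lit 4863173835) (nat_lit 380) (nat_lit 969114556) (nat_lit 108) (nat_lit 5) (nat_lit 112) (nat_lit 5) (nat_lit 113) (nat_lit 5) (nat_lit 471) (nat_lit 375) (nat_lit 294)) (XT.lf (nat_lit 0) (nat_lit 1248749792) (nat_lit 380) (nat_lit 908899443) (nat_lit 456) (nat_lit 10190336812) (nat_lit 102) (nat_lit 5) (nat_lit 107) (nat_lit 5) (nat_lit 108) (nat_lit 5) (nat_lit 472) (nat_lit 375) (nat_lit 293)))) (XT.nd (nat_lit 78) (nat_lit 304) (nat_lit 0) (XT.lf (nat_lit 0) (nat_lit 5367000112) (nat_lit 456) (nat_lit 4016720678) (nat_lit 76) (nat_lit 3115814063) (nat_lit 102) (nat_lit 5) (nat_lit 108) (nat_lit 5) (nat_lit 103) (nat_lit 5) (nat_lit 473) (nat_lit 375) (nat_lit 292)) (XT.nd (nat_lit 78) (nat_lit 0) (nat_lit 0) (XT.lf (nat_lit 0) (nat_lit 3203546331) (nat_lit 304) (nat_lit 5437666438) (nat_lit 380) (nat_lit 4012897247) (nat_lit 98) (nat_lit 5) (nat_lit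 102) (nat_lit 5) (nat_lit 103) (nat_lit 5) (nat_lit 474) (nat_lit 375) (nat_lit 291)) (XT.lf (nat_lit 0) (nat_lit 10583034088) (nat_lit 304) (nat_lit 1398941226) (nat_lit 380) (nat_lit 829788760) (nat_lit 98) (nat_lit 5) (nat_lit 102) (nat_lit 5) (nat_lit 103) (nat_lit 5) (nat_lit 475) (nat_lit 375) (nat_lit 290))))))))
noncomputable def xc85 : XT := (XT.nd (nat_lit 1560) (nat_lit 1140) (nat_lit 0) (XT.nd (nat_lit 780) (nat_lit 1368) (nat_lit 0) (XT.nd (nat_lit 390) (nat_lit 836) (nat_lit 0) (XT.nd (nat_lit 156) (nat_lit 684) (nat_lit 0) (XT.nd (nat_lit 78) (nat_lit 0) (nat_lit 0) (XT.lf (nat_lit 0) (nat_lit 2411064077) (nat_lit 380) (nat_lit 7839818356) (nat_lit 76) (nat_lit 2720867667) (nat_lit 93) (nat_lit 5) (nat_lit 98) (nat_lit 5) (nat_lit 94) (nat_lit 5) (nat_lit 476) (nat_lit 375) (nat_lit 289)) (XT.lf (nat_lit 0) (nat_lit 5704555168) (nat_lit 380) (nat_lit 518848987) (nat_lit 76) (nat_lit 6911451553)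 (nat_lit 93) (nat_lit 5) (nat_lit 98) (nat_lit 5) (nat_lit 94) (nat_lit 5) (nat_lit 477) (nat_lit 375) (nat_lit 288))) (XT.nd (nat_lit 78) (nat_lit 380) (nat_lit 0) (XT.lf (nat_lit 0) (nat_lit 7001770080) (nat_lit 304) (nat_lit 2082706306) (nat_lit 380) (nat_lit 4216343878) (nat_lit 89) (nat_lit 5) (nat_lit 93) (nat_lit 5) (nat_lit 94) (nat_lit 5) (nat_lit 478) (nat_lit 375) (nat_lit 287)) (XT.nd (nat_lit 78) (nat_lit 76) (nat_lit 0) (XT.lf (nat_lit 0) (nat_lit 1172497652) (nat_lit 304) (nat_lit 11359765935) (nat_lit 380) (nat_lit 937843056) (nat_lit 85) (nat_lit 5) (nat_lit 89) (nat_lit 5) (nat_lit 90) (nat_lit 5) (nat_lit 479) (nat_lit 375) (nat_lit 286)) (XT.lf (nat_lit 0) (nat_lit 2406328220) (nat_lit 380) (nat_lit 4831605237) (nat_lit 76) (nat_lit 6403907241) (nat_lit 84) (nat_lit 5) (nat_lit 89) (nat_lit 5) (nat_lit 85) (nat_lit 5) (nat_lit 480) (nat_lit 375) (nat_lit 285))))) (XT.nd (nat_lit 156)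 (nat_lit 608) (nat_lit 0) (XT.nd (nat_lit 78) (nat_lit 0) (nat_lit 0) (XT.lf (nat_lit 0) (nat_lit 2775836742) (nat_lit 228) (nat_lit 3022822691) (nat_lit 304) (nat_lit 8018356764) (nat_lit 81) (nat_lit 5) (nat_lit 84) (nat_lit 5) (nat_lit 85) (nat_lit 5) (nat_lit 481) (nat_lit 375) (nat_lit 284)) (XT.lf (nat_lit 0) (nat_lit 9275701957) (nat_lit 304) (nat_lit 3440851515) (nat_lit 76) (nat_lit 1278811722) (nat_lit 81) (nat_lit 5) (nat_lit 85) (nat_lit 5) (nat_lit 82) (nat_lit 5) (nat_lit 482) (nat_lit 375) (nat_lit 283))) (XT.nd (nat_lit 78) (nat_lit 304) (nat_lit 0) (XT.lf (nat_lit 0) (nat_lit 4310524243) (nat_lit 304) (nat_lit 8536177232) (nat_lit 380) (nat_lit 1330098515) (nat_lit 77) (nat_lit 5) (nat_lit 81) (nat_lit 5) (nat_lit 82) (nat_lit 5) (nat_lit 483) (nat_lit 375) (nat_lit 282)) (XT.nd (nat_lit 78) (nat_lit 228) (nat_lit 0) (XT.lf (nat_lit 0) (nat_lit 2099070811) (nat_lit 380) (nat_lit 2149343376)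 (nat_lit 76) (nat_lit 10113185673) (nat_lit 76) (nat_lit 5) (nat_lit 81) (nat_lit 5) (nat_lit 77) (nat_lit 5) (nat_lit 484) (nat_lit 375) (nat_lit 281)) (XT.lf (nat_lit 0) (nat_lit 5594334191) (nat_lit 304) (nat_lit 8798925439) (nat_lit 76) (nat_lit 156360572) (nat_lit 73) (nat_lit 5) (nat_lit 77) (nat_lit 5) (nat_lit 74) (nat_lit 5) (nat_lit 485) (nat_lit 375) (nat_lit 280)))))) (XT.nd (nat_lit 390) (nat_lit 532) (nat_lit 0) (XT.nd (nat_lit 156) (nat_lit 532) (nat_lit 0) (XT.nd (nat_lit 78) (nat_lit 304) (nat_lit 0) (XT.lf (nat_lit 0) (nat_lit 9179213852) (nat_lit 304) (nat_lit 968417251) (nat_lit 76) (nat_lit 4593382224) (nat_lit 73) (nat_lit 5) (nat_lit 77) (nat_lit 5) (nat_lit 74) (nat_lit 5) (nat_lit 486) (nat_lit 375) (nat_lit 279)) (XT.lf (nat_lit 0) (nat_lit 7075276351) (nat_lit 304) (nat_lit 5783959079) (nat_lit 380) (nat_lit 2076536466) (nat_lit 69) (nat_lit 5) (nat_lit 73) (nat_lit 5) (nat_lit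 74) (nat_lit 5) (nat_lit 487) (nat_lit 375) (nat_lit 278))) (XT.nd (nat_lit 78) (nat_lit 228) (nat_lit 0) (XT.lf (nat_lit 0) (nat_lit 114247271) (nat_lit 228) (nat_lit 1329638557) (nat_lit 304) (nat_lit 13690657166) (nat_lit 65) (nat_lit 5) (nat_lit 68) (nat_lit 5) (nat_lit 69) (nat_lit 5) (nat_lit 488) (nat_lit 375) (nat_lit 277)) (XT.nd (nat_lit 78) (nat_lit 228) (nat_lit 0) (XT.lf (nat_lit 0) (nat_lit 5058577847) (nat_lit 304) (nat_lit 7052572450) (nat_lit 76) (nat_lit 3224837470) (nat_lit 65) (nat_lit 5) (nat_lit 69) (nat_lit 5) (nat_lit 66) (nat_lit 5) (nat_lit 489) (nat_lit 375) (nat_lit 276)) (XT.lf (nat_lit 0) (nat_lit 1043695051) (nat_lit 228) (nat_lit 7695565086) (nat_lit 304) (nat_lit 6802333347) (nat_lit 62) (nat_lit 5) (nat_lit 65) (nat_lit 5) (nat_lit 66) (nat_lit 5) (nat_lit 490) (nat_lit 375) (nat_lit 275))))) (XT.nd (nat_lit 156) (nat_lit 228) (nat_lit 0) (XT.nd (nat_lit 78) (nat_lit 304)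 (nat_lit 0) (XT.lf (nat_lit 0) (nat_lit 9362029269) (nat_lit 228) (nat_lit 3157166703) (nat_lit 304) (nat_lit 3231608401) (nat_lit 62) (nat_lit 5) (nat_lit 65) (nat_lit 5) (nat_lit 66) (nat_lit 5) (nat_lit 491) (nat_lit 375) (nat_lit 274)) (XT.lf (nat_lit 0) (nat_lit 405442593) (nat_lit 304) (nat_lit 14104575000) (nat_lit 76) (nat_lit 1454128293) (nat_lit 58) (nat_lit 5) (nat_lit 62) (nat_lit 5) (nat_lit 59) (nat_lit 5) (nat_lit 492) (nat_lit 375) (nat_lit 273))) (XT.nd (nat_lit 78) (nat_lit 228) (nat_lit 0) (XT.lf (nat_lit 0) (nat_lit 4114765673) (nat_lit 304) (nat_lit 5899168971) (nat_lit 76) (nat_lit 6166541841) (nat_lit 58) (nat_lit 5) (nat_lit 62) (nat_lit 5) (nat_lit 59) (nat_lit 5) (nat_lit 493) (nat_lit 375) (nat_lit 272)) (XT.nd (nat_lit 78) (nat_lit 0) (nat_lit 0) (XT.lf (nat_lit 0) (nat_lit 2468242287) (nat_lit 228) (nat_lit 5425173589) (nat_lit 304) (nat_lit 8507820418) (nat_lit 55) (nat_lit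 5) (nat_lit 58) (nat_lit 5) (nat_lit 59) (nat_lit 5) (nat_lit 494) (nat_lit 375) (nat_lit 271)) (XT.lf (nat_lit 0) (nat_lit 11048719033) (nat_lit 228) (nat_lit 717808924) (nat_lit 304) (nat_lit 4859510870) (nat_lit 55) (nat_lit 5) (nat_lit 58) (nat_lit 5) (nat_lit 59) (nat_lit 5) (nat_lit 495) (nat_lit 375) (nat_lit 270))))))) (XT.nd (nat_lit 51012) (nat_lit 0) (nat_lit 41876) (XT.nd (nat_lit 390) (nat_lit 456) (nat_lit 0) (XT.nd (nat_lit 156) (nat_lit 380) (nat_lit 0) (XT.nd (nat_lit 78) (nat_lit 76) (nat_lit 0) (XT.lf (nat_lit 0) (nat_lit 2923393834) (nat_lit 228) (nat_lit 12818825098) (nat_lit 304) (nat_lit 1112621348) (nat_lit 52) (nat_lit 5) (nat_lit 55) (nat_lit 5) (nat_lit 56) (nat_lit 5) (nat_lit 496) (nat_lit 375) (nat_lit 269)) (XT.lf (nat_lit 0) (nat_lit 2695766606) (nat_lit 304) (nat_lit 5474289992) (nat_lit 76) (nat_lit 8917372516) (nat_lit 51) (nat_lit 5) (nat_lit 55) (nat_lit 5) (nat_lit 52)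 (nat_lit 5) (nat_lit 497) (nat_lit 375) (nat_lit 268))) (XT.nd (nat_lit 78) (nat_lit 152) (nat_lit 0) (XT.lf (nat_lit 0) (nat_lit 3152702223) (nat_lit 228) (nat_lit 3413268255) (nat_lit 304) (nat_lit 10758546135) (nat_lit 48) (nat_lit 5) (nat_lit 51) (nat_lit 5) (nat_lit 52) (nat_lit 5) (nat_lit 498) (nat_lit 375) (nat_lit 267)) (XT.nd (nat_lit 78) (nat_lit 152) (nat_lit 0) (XT.lf (nat_lit 0) (nat_lit 10540050408) (nat_lit 304) (nat_lit 5582137321) (nat_lit 76) (nat_lit 1443633501) (nat_lit 48) (nat_lit 5) (nat_lit 52) (nat_lit 5) (nat_lit 49) (nat_lit 5) (nat_lit 499) (nat_lit 375) (nat_lit 266)) (XT.lf (nat_lit 0) (nat_lit 3165517847) (nat_lit 152) (nat_lit 11451792942) (nat_lit 228) (nat_lit 3194171882) (nat_lit 46) (nat_lit 5) (nat_lit 48) (nat_lit 5) (nat_lit 49) (nat_lit 5) (nat_lit 500) (nat_lit 375) (nat_lit 265))))) (XT.nd (nat_lit 156) (nat_lit 152) (nat_lit 0) (XT.nd (nat_lit 78) (nat_lit 228)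 (nat_lit 0) (XT.lf (nat_lit 0) (nat_lit 722981114) (nat_lit 228) (nat_lit 5935173573) (nat_lit 76) (nat_lit 11403448718) (nat_lit 45) (nat_lit 5) (nat_lit 48) (nat_lit 5) (nat_lit 46) (nat_lit 5) (nat_lit 501) (nat_lit 375) (nat_lit 264)) (XT.lf (nat_lit 0) (nat_lit 2935041634) (nat_lit 228) (nat_lit 1740722518) (nat_lit 304) (nat_lit 13640543433) (nat_lit 42) (nat_lit 5) (nat_lit 45) (nat_lit 5) (nat_lit 46) (nat_lit 5) (nat_lit 502) (nat_lit 375) (nat_lit 263))) (XT.nd (nat_lit 78) (nat_lit 152) (nat_lit 0) (XT.lf (nat_lit 0) (nat_lit 8750000685) (nat_lit 304) (nat_lit 6565940634) (nat_lit 76) (nat_lit 3259320925) (nat_lit 42) (nat_lit 5) (nat_lit 46) (nat_lit 5) (nat_lit 43) (nat_lit 5) (nat_lit 503) (nat_lit 375) (nat_lit 262)) (XT.nd (nat_lit 50310) (nat_lit 0) (nat_lit 45600) (XT.lf (nat_lit 0) (nat_lit 2414240421) (nat_lit 152) (nat_lit 10500098146) (nat_lit 228) (nat_lit 5924889363) (nat_lit 40)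 (nat_lit 5) (nat_lit 42) (nat_lit 5) (nat_lit 43) (nat_lit 5) (nat_lit 504) (nat_lit 375) (nat_lit 261)) (XT.lf (nat_lit 0) (nat_lit 5158529) (nat_lit 380) (nat_lit 3226663919) (nat_lit 0) (nat_lit 5158529) (nat_lit 640) (nat_lit 5) (nat_lit 645) (nat_lit 4) (nat_lit 640) (nat_lit 4) (nat_lit 388) (nat_lit 376) (nat_lit 376)))))) (XT.nd (nat_lit 390) (nat_lit 2736) (nat_lit 0) (XT.nd (nat_lit 156) (nat_lit 608) (nat_lit 0) (XT.nd (nat_lit 78) (nat_lit 380) (nat_lit 0) (XT.lf (nat_lit 0) (nat_lit 3055572366) (nat_lit 380) (nat_lit 3023979569) (nat_lit 0) (nat_lit 402732357) (nat_lit 640) (nat_lit 5) (nat_lit 645) (nat_lit 4) (nat_lit 640) (nat_lit 4) (nat_lit 389) (nat_lit 376) (nat_lit 375)) (XT.lf (nat_lit 0) (nat_lit 433275940) (nat_lit 380) (nat_lit 5656341480) (nat_lit 380) (nat_lit 402677933) (nat_lit 635) (nat_lit 4) (nat_lit 640) (nat_lit 5) (nat_lit 640) (nat_lit 4) (nat_lit 390) (nat_lit 376) (nat_lit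 374))) (XT.nd (nat_lit 78) (nat_lit 532) (nat_lit 0) (XT.lf (nat_lit 0) (nat_lit 2592766688) (nat_lit 456) (nat_lit 2566101833) (nat_lit 76) (nat_lit 1344444681) (nat_lit 634) (nat_lit 5) (nat_lit 640) (nat_lit 5) (nat_lit 635) (nat_lit 4) (nat_lit 391) (nat_lit 376) (nat_lit 373)) (XT.nd (nat_lit 78) (nat_lit 76) (nat_lit 0) (XT.lf (nat_lit 0) (nat_lit 960405407) (nat_lit 456) (nat_lit 4615696742) (nat_lit 532) (nat_lit 939803907) (nat_lit 628) (nat_lit 5) (nat_lit 634) (nat_lit 5) (nat_lit 635) (nat_lit 4) (nat_lit 392) (nat_lit 376) (nat_lit 372)) (XT.lf (nat_lit 0) (nat_lit 2007988098) (nat_lit 532) (nat_lit 1996792347) (nat_lit 76) (nat_lit 2524870317) (nat_lit 627) (nat_lit 5) (nat_lit 634) (nat_lit 5) (nat_lit 628) (nat_lit 5) (nat_lit 393) (nat_lit 376) (nat_lit 371))))) (XT.nd (nat_lit 234) (nat_lit 1520) (nat_lit 0) (XT.nd (nat_lit 78) (nat_lit 684) (nat_lit 0) (XT.lf (nat_lit 0) (nat_lit 1601868224)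 (nat_lit 532) (nat_lit 3339829210) (nat_lit 608) (nat_lit 1603128789) (nat_lit 620) (nat_lit 5) (nat_lit 627) (nat_lit 5) (nat_lit 628) (nat_lit 5) (nat_lit 394) (nat_lit 376) (nat_lit 370)) (XT.nd (nat_lit 78) (nat_lit 608) (nat_lit 0) (XT.lf (nat_lit 0) (nat_lit 1298942041) (nat_lit 608) (nat_lit 1316183061) (nat_lit 76) (nat_lit 3946206285) (nat_lit 619) (nat_lit 5) (nat_lit 627) (nat_lit 5) (nat_lit 620) (nat_lit 5) (nat_lit 395) (nat_lit 376) (nat_lit 369)) (XT.lf (nat_lit 0) (nat_lit 2357640618) (nat_lit 608) (nat_lit 1826349057) (nat_lit 684) (nat_lit 2395103936) (nat_lit 611) (nat_lit 5) (nat_lit 619) (nat_lit 5) (nat_lit 620) (nat_lit 5) (nat_lit 396) (nat_lit 376) (nat_lit 368)))) (XT.nd (nat_lit 78) (nat_lit 1444) (nat_lit 0) (XT.lf (nat_lit 0) (nat_lit 463088891) (nat_lit 684) (nat_lit 524211732) (nat_lit 76) (nat_lit 5611095882) (nat_lit 610) (nat_lit 5) (nat_lit 619) (nat_lit 5) (nat_lit 611)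 (nat_lit 5) (nat_lit 397) (nat_lit 376) (nat_lit 367)) (XT.nd (nat_lit 78) (nat_lit 760) (nat_lit 0) (XT.lf (nat_lit 0) (nat_lit 3227895458) (nat_lit 684) (nat_lit 72423939) (nat_lit 760) (nat_lit 3318433600) (nat_lit 601) (nat_lit 5) (nat_lit 610) (nat_lit 5) (nat_lit 611) (nat_lit 5) (nat_lit 398) (nat_lit 376) (nat_lit 366)) (XT.lf (nat_lit 0) (nat_lit 375244745) (nat_lit 760) (nat_lit 5764727973) (nat_lit 836) (nat_lit 500692155) (nat_lit 591) (nat_lit 5) (nat_lit 601) (nat_lit 5) (nat_lit 602) (nat_lit 5) (nat_lit 399) (nat_lit 376) (nat_lit 365))))))))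
noncomputable def xc86 : XT := (XT.nd (nat_lit 1560) (nat_lit 11476) (nat_lit 0) (XT.nd (nat_lit 780) (nat_lit 10412) (nat_lit 0) (XT.nd (nat_lit 390) (nat_lit 3344) (nat_lit 0) (XT.nd (nat_lit 156) (nat_lit 988) (nat_lit 0) (XT.nd (nat_lit 78) (nat_lit 836) (nat_lit 0) (XT.lf (nat_lit 0) (nat_lit 2300274187) (nat_lit 836) (nat_lit 2463356735) (nat_lit 76) (nat_lit 1899975339) (nat_lit 590) (nat_lit 5) (nat_lit 601) (nat_lit 5) (nat_lit 591) (nat_lit 5) (nat_lit 400) (nat_lit 376) (nat_lit 364)) (XT.lf (nat_lit 0) (nat_lit 1383111206) (nat_lit 836) (nat_lit 3712325756) (nat_lit 912) (nat_lit 1592663947) (nat_lit 579) (nat_lit 5) (nat_lit 590) (nat_lit 5) (nat_lit 591) (nat_lit 5) (nat_lit 401) (nat_lit 376) (nat_lit 363))) (XT.nd (nat_lit 78) (nat_lit 912) (nat_lit 0) (XT.lf (nat_lit 0) (nat_lit 1170258704) (nat_lit 912) (nat_lit 1428028994) (nat_lit 76) (nat_lit 4115633231) (nat_lit 578) (nat_lit 5) (nat_lit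 590) (nat_lit 5) (nat_lit 579) (nat_lit 5) (nat_lit 402) (nat_lit 376) (nat_lit 362)) (XT.nd (nat_lit 78) (nat_lit 0) (nat_lit 0) (XT.lf (nat_lit 0) (nat_lit 2502611900) (nat_lit 912) (nat_lit 1418395948) (nat_lit 988) (nat_lit 2820015969) (nat_lit 566) (nat_lit 5) (nat_lit 578) (nat_lit 5) (nat_lit 579) (nat_lit 5) (nat_lit 403) (nat_lit 376) (nat_lit 361)) (XT.lf (nat_lit 0) (nat_lit 6485392643) (nat_lit 912) (nat_lit 189512890) (nat_lit 988) (nat_lit 94854376) (nat_lit 566) (nat_lit 5) (nat_lit 578) (nat_lit 5) (nat_lit 579) (nat_lit 5) (nat_lit 404) (nat_lit 376) (nat_lit 360))))) (XT.nd (nat_lit 156) (nat_lit 1216) (nat_lit 0) (XT.nd (nat_lit 78) (nat_lit 1064) (nat_lit 0) (XT.lf (nat_lit 0) (nat_lit 2620430854) (nat_lit 1064) (nat_lit 3072267876) (nat_lit 76) (nat_lit 1106658447) (nat_lit 552) (nat_lit 5) (nat_lit 566) (nat_lit 5) (nat_lit 553) (nat_lit 5) (nat_lit 405) (nat_lit 376) (nat_lit 359))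 (XT.lf (nat_lit 0) (nat_lit 956947741) (nat_lit 1064) (nat_lit 4381486483) (nat_lit 1140) (nat_lit 1492156690) (nat_lit 538) (nat_lit 5) (nat_lit 552) (nat_lit 5) (nat_lit 553) (nat_lit 5) (nat_lit 406) (nat_lit 376) (nat_lit 358))) (XT.nd (nat_lit 78) (nat_lit 1140) (nat_lit 0) (XT.lf (nat_lit 0) (nat_lit 1193451324) (nat_lit 1140) (nat_lit 1809242382) (nat_lit 76) (nat_lit 3860412757) (nat_lit 537) (nat_lit 5) (nat_lit 552) (nat_lit 5) (nat_lit 538) (nat_lit 5) (nat_lit 407) (nat_lit 376) (nat_lit 357)) (XT.nd (nat_lit 78) (nat_lit 0) (nat_lit 0) (XT.lf (nat_lit 0) (nat_lit 2310438150) (nat_lit 1140) (nat_lit 1559257487) (nat_lit 1216) (nat_lit 3027289130) (nat_lit 522) (nat_lit 5) (nat_lit 537) (nat_lit 5) (nat_lit 538) (nat_lit 5) (nat_lit 408) (nat_lit 376) (nat_lit 356)) (XT.lf (nat_lit 0) (nat_lit 6490914246) (nat_lit 1140) (nat_lit 63416162) (nat_lit 1216) (nat_lit 378159770) (nat_lit 522) (nat_lit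 5) (nat_lit 537) (nat_lit 5) (nat_lit 538) (nat_lit 5) (nat_lit 409) (nat_lit 376) (nat_lit 355)))))) (XT.nd (nat_lit 390) (nat_lit 6384) (nat_lit 0) (XT.nd (nat_lit 156) (nat_lit 1444) (nat_lit 0) (XT.nd (nat_lit 78) (nat_lit 1292) (nat_lit 0) (XT.lf (nat_lit 0) (nat_lit 2271236653) (nat_lit 1292) (nat_lit 3204219341) (nat_lit 76) (nat_lit 1493437691) (nat_lit 505) (nat_lit 5) (nat_lit 522) (nat_lit 5) (nat_lit 506) (nat_lit 5) (nat_lit 410) (nat_lit 376) (nat_lit 354)) (XT.lf (nat_lit 0) (nat_lit 1018546736) (nat_lit 1292) (nat_lit 3904339404) (nat_lit 1368) (nat_lit 2084046706) (nat_lit 488) (nat_lit 5) (nat_lit 505) (nat_lit 5) (nat_lit 506) (nat_lit 5) (nat_lit 411) (nat_lit 376) (nat_lit 353))) (XT.nd (nat_lit 78) (nat_lit 1368) (nat_lit 0) (XT.lf (nat_lit 0) (nat_lit 540540362) (nat_lit 1368) (nat_lit 1727426333) (nat_lit 76) (nat_lit 4778406269) (nat_lit 487) (nat_lit 5) (nat_lit 505) (nat_lit 5)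 (nat_lit 488) (nat_lit 5) (nat_lit 412) (nat_lit 376) (nat_lit 352)) (XT.nd (nat_lit 78) (nat_lit 0) (nat_lit 0) (XT.lf (nat_lit 0) (nat_lit 2592475622) (nat_lit 1368) (nat_lit 559871833) (nat_lit 1444) (nat_lit 3934767849) (nat_lit 469) (nat_lit 5) (nat_lit 487) (nat_lit 5) (nat_lit 488) (nat_lit 5) (nat_lit 413) (nat_lit 376) (nat_lit 351)) (XT.lf (nat_lit 0) (nat_lit 5782322529) (nat_lit 1444) (nat_lit 161330659) (nat_lit 76) (nat_lit 1185741452) (nat_lit 469) (nat_lit 5) (nat_lit 488) (nat_lit 5) (nat_lit 470) (nat_lit 5) (nat_lit 414) (nat_lit 376) (nat_lit 350))))) (XT.nd (nat_lit 156) (nat_lit 3344) (nat_lit 0) (XT.nd (nat_lit 78) (nat_lit 1520) (nat_lit 0) (XT.lf (nat_lit 0) (nat_lit 1254278567) (nat_lit 1520) (nat_lit 2916764531) (nat_lit 76) (nat_lit 3001770834) (nat_lit 449) (nat_lit 5) (nat_lit 469) (nat_lit 5) (nat_lit 450) (nat_lit 5) (nat_lit 415) (nat_lit 376) (nat_lit 349)) (XT.lf (nat_lit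 0) (nat_lit 1510947924) (nat_lit 1520) (nat_lit 2337568238) (nat_lit 1596) (nat_lit 3369267856) (nat_lit 429) (nat_lit 5) (nat_lit 449) (nat_lit 5) (nat_lit 450) (nat_lit 5) (nat_lit 416) (nat_lit 376) (nat_lit 348))) (XT.nd (nat_lit 78) (nat_lit 3344) (nat_lit 0) (XT.lf (nat_lit 0) (nat_lit 6020235955) (nat_lit 1520) (nat_lit 442674035) (nat_lit 1596) (nat_lit 801415768) (nat_lit 429) (nat_lit 5) (nat_lit 449) (nat_lit 5) (nat_lit 450) (nat_lit 5) (nat_lit 417) (nat_lit 376) (nat_lit 347)) (XT.nd (nat_lit 78) (nat_lit 1672) (nat_lit 0) (XT.lf (nat_lit 0) (nat_lit 1774590573) (nat_lit 1672) (nat_lit 4029123512) (nat_lit 76) (nat_lit 1508271661) (nat_lit 407) (nat_lit 5) (nat_lit 429) (nat_lit 5) (nat_lit 408) (nat_lit 5) (nat_lit 418) (nat_lit 376) (nat_lit 346)) (XT.lf (nat_lit 0) (nat_lit 508085069) (nat_lit 1672) (nat_lit 3848000534) (nat_lit 1748) (nat_lit 3005148902) (nat_lit 385) (nat_lit 5) (nat_lit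 407) (nat_lit 5) (nat_lit 408) (nat_lit 5) (nat_lit 419) (nat_lit 376) (nat_lit 345))))))) (XT.nd (nat_lit 780) (nat_lit 5244) (nat_lit 0) (XT.nd (nat_lit 390) (nat_lit 2508) (nat_lit 0) (XT.nd (nat_lit 156) (nat_lit 1900) (nat_lit 0) (XT.nd (nat_lit 78) (nat_lit 1824) (nat_lit 0) (XT.lf (nat_lit 0) (nat_lit 5143893743) (nat_lit 1672) (nat_lit 1823085302) (nat_lit 1748) (nat_lit 444968635) (nat_lit 385) (nat_lit 5) (nat_lit 407) (nat_lit 5) (nat_lit 408) (nat_lit 5) (nat_lit 420) (nat_lit 376) (nat_lit 344)) (XT.lf (nat_lit 0) (nat_lit 2106576826) (nat_lit 1824) (nat_lit 5086513814) (nat_lit 76) (nat_lit 270965132) (nat_lit 361) (nat_lit 5) (nat_lit 385) (nat_lit 5) (nat_lit 362) (nat_lit 5) (nat_lit 421) (nat_lit 376) (nat_lit 343))) (XT.nd (nat_lit 78) (nat_lit 1900) (nat_lit 0) (XT.lf (nat_lit 0) (nat_lit 4682603712) (nat_lit 1824) (nat_lit 432450310) (nat_lit 76) (nat_lit 2402537810) (nat_lit 361) (nat_lit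 5) (nat_lit 385) (nat_lit 5) (nat_lit 362) (nat_lit 5) (nat_lit 422) (nat_lit 376) (nat_lit 342)) (XT.nd (nat_lit 78) (nat_lit 988) (nat_lit 0) (XT.lf (nat_lit 0) (nat_lit 4325123648) (nat_lit 912) (nat_lit 2966059093) (nat_lit 988) (nat_lit 281427402) (nat_lit 349) (nat_lit 5) (nat_lit 361) (nat_lit 5) (nat_lit 362) (nat_lit 5) (nat_lit 423) (nat_lit 376) (nat_lit 341)) (XT.lf (nat_lit 0) (nat_lit 1513138966) (nat_lit 912) (nat_lit 745577212) (nat_lit 988) (nat_lit 5370422260) (nat_lit 336) (nat_lit 5) (nat_lit 348) (nat_lit 5) (nat_lit 349) (nat_lit 5) (nat_lit 424) (nat_lit 376) (nat_lit 340))))) (XT.nd (nat_lit 156) (nat_lit 1672) (nat_lit 0) (XT.nd (nat_lit 78) (nat_lit 836) (nat_lit 0) (XT.lf (nat_lit 0) (nat_lit 4831549189) (nat_lit 988) (nat_lit 1332525047) (nat_lit 76) (nat_lit 1523003065) (nat_lit 336) (nat_lit 5) (nat_lit 349) (nat_lit 5) (nat_lit 337) (nat_lit 5) (nat_lit 425) (nat_lit 376) (nat_lit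 339)) (XT.lf (nat_lit 0) (nat_lit 3541770864) (nat_lit 836) (nat_lit 3896756304) (nat_lit 912) (nat_lit 308023721) (nat_lit 325) (nat_lit 5) (nat_lit 336) (nat_lit 5) (nat_lit 337) (nat_lit 5) (nat_lit 426) (nat_lit 376) (nat_lit 338))) (XT.nd (nat_lit 78) (nat_lit 760) (nat_lit 0) (XT.lf (nat_lit 0) (nat_lit 671777896) (nat_lit 836) (nat_lit 1556995064) (nat_lit 912) (nat_lit 5578804493) (nat_lit 313) (nat_lit 5) (nat_lit 324) (nat_lit 5) (nat_lit 325) (nat_lit 5) (nat_lit 427) (nat_lit 376) (nat_lit 337)) (XT.nd (nat_lit 78) (nat_lit 760) (nat_lit 0) (XT.lf (nat_lit 0) (nat_lit 4801561087) (nat_lit 912) (nat_lit 2221287912) (nat_lit 76) (nat_lit 847175228) (nat_lit 313) (nat_lit 5) (nat_lit 325) (nat_lit 5) (nat_lit 314) (nat_lit 5) (nat_lit 428) (nat_lit 376) (nat_lit 336)) (XT.lf (nat_lit 0) (nat_lit 2771195759) (nat_lit 760) (nat_lit 4639370610) (nat_lit 836) (nat_lit 523485788) (nat_lit 303) (nat_lit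 5) (nat_lit 313) (nat_lit 5) (nat_lit 314) (nat_lit 5) (nat_lit 429) (nat_lit 376) (nat_lit 335)))))) (XT.nd (nat_lit 390) (nat_lit 2812) (nat_lit 0) (XT.nd (nat_lit 156) (nat_lit 1596) (nat_lit 0) (XT.nd (nat_lit 78) (nat_lit 760) (nat_lit 0) (XT.lf (nat_lit 0) (nat_lit 2016917342) (nat_lit 836) (nat_lit 165625900) (nat_lit 76) (nat_lit 5817140559) (nat_lit 302) (nat_lit 5) (nat_lit 313) (nat_lit 5) (nat_lit 303) (nat_lit 5) (nat_lit 430) (nat_lit 376) (nat_lit 334)) (XT.lf (nat_lit 0) (nat_lit 4593110827) (nat_lit 836) (nat_lit 3121873039) (nat_lit 76) (nat_lit 351761038) (nat_lit 292) (nat_lit 5) (nat_lit 303) (nat_lit 5) (nat_lit 293) (nat_lit 5) (nat_lit 431) (nat_lit 376) (nat_lit 333))) (XT.nd (nat_lit 78) (nat_lit 836) (nat_lit 0) (XT.lf (nat_lit 0) (nat_lit 1990064700) (nat_lit 760) (nat_lit 5217321817) (nat_lit 836) (nat_lit 928054905) (nat_lit 282) (nat_lit 5) (nat_lit 292) (nat_lit 5) (nat_lit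 293) (nat_lit 5) (nat_lit 432) (nat_lit 376) (nat_lit 332)) (XT.nd (nat_lit 78) (nat_lit 760) (nat_lit 0) (XT.lf (nat_lit 0) (nat_lit 1625931966) (nat_lit 836) (nat_lit 1016053209) (nat_lit 76) (nat_lit 5563746857) (nat_lit 281) (nat_lit 5) (nat_lit 292) (nat_lit 5) (nat_lit 282) (nat_lit 5) (nat_lit 433) (nat_lit 376) (nat_lit 331)) (XT.lf (nat_lit 0) (nat_lit 4205179441) (nat_lit 836) (nat_lit 4058278606) (nat_lit 76) (nat_lit 14139463) (nat_lit 271) (nat_lit 5) (nat_lit 282) (nat_lit 5) (nat_lit 272) (nat_lit 5) (nat_lit 434) (nat_lit 376) (nat_lit 330))))) (XT.nd (nat_lit 234) (nat_lit 1368) (nat_lit 0) (XT.nd (nat_lit 78) (nat_lit 760) (nat_lit 0) (XT.lf (nat_lit 0) (nat_lit 1174130533) (nat_lit 684) (nat_lit 5653447538) (nat_lit 760) (nat_lit 1523514332) (nat_lit 262) (nat_lit 5) (nat_lit 271) (nat_lit 5) (nat_lit 272) (nat_lit 5) (nat_lit 435) (nat_lit 376) (nat_lit 329)) (XT.nd (nat_lit 78) (nat_lit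 684) (nat_lit 0) (XT.lf (nat_lit 0) (nat_lit 1049455117) (nat_lit 760) (nat_lit 1912869895) (nat_lit 76) (nat_lit 5463870840) (nat_lit 261) (nat_lit 5) (nat_lit 271) (nat_lit 5) (nat_lit 262) (nat_lit 5) (nat_lit 436) (nat_lit 376) (nat_lit 328)) (XT.lf (nat_lit 0) (nat_lit 3446133220) (nat_lit 684) (nat_lit 190323796) (nat_lit 760) (nat_lit 4866505564) (nat_lit 252) (nat_lit 5) (nat_lit 261) (nat_lit 5) (nat_lit 262) (nat_lit 5) (nat_lit 437) (nat_lit 376) (nat_lit 327)))) (XT.nd (nat_lit 78) (nat_lit 760) (nat_lit 0) (XT.lf (nat_lit 0) (nat_lit 298000720) (nat_lit 608) (nat_lit 5970194736) (nat_lit 684) (nat_lit 2313230901) (nat_lit 244) (nat_lit 5) (nat_lit 252) (nat_lit 5) (nat_lit 253) (nat_lit 5) (nat_lit 438) (nat_lit 376) (nat_lit 326)) (XT.nd (nat_lit 78) (nat_lit 684) (nat_lit 0) (XT.lf (nat_lit 0) (nat_lit 283920882) (nat_lit 684) (nat_lit 2881854592) (nat_lit 76) (nat_lit 5495734342) (nat_lit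 243) (nat_lit 5) (nat_lit 252) (nat_lit 5) (nat_lit 244) (nat_lit 5) (nat_lit 439) (nat_lit 376) (nat_lit 325)) (XT.lf (nat_lit 0) (nat_lit 2601277335) (nat_lit 684) (nat_lit 279653396) (nat_lit 760) (nat_lit 5862401018) (nat_lit 234) (nat_lit 5) (nat_lit 243) (nat_lit 5) (nat_lit 244) (nat_lit 5) (nat_lit 440) (nat_lit 376) (nat_lit 324))))))))
noncomputable def xc87 : XT := (XT.nd (nat_lit 1560) (nat_lit 4712) (nat_lit 0) (XT.nd (nat_lit 780) (nat_lit 3040) (nat_lit 0) (XT.nd (nat_lit 390) (nat_lit 1824) (nat_lit 0) (XT.nd (nat_lit 156) (nat_lit 1216) (nat_lit 0) (XT.nd (nat_lit 78) (nat_lit 608) (nat_lit 0) (XT.lf (nat_lit 0) (nat_lit 5529022011) (nat_lit 760) (nat_lit 656385941) (nat_lit 76) (nat_lit 2641419338) (nat_lit 234) (nat_lit 5) (nat_lit 244) (nat_lit 5) (nat_lit 235) (nat_lit 5) (nat_lit 441) (nat_lit 376) (nat_lit 323)) (XT.lf (nat_lit 0) (nat_lit 4957363519) (nat_lit 608) (nat_lit 3269864515)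 (nat_lit 684) (nat_lit 684841252) (nat_lit 226) (nat_lit 5) (nat_lit 234) (nat_lit 5) (nat_lit 235) (nat_lit 5) (nat_lit 442) (nat_lit 376) (nat_lit 322))) (XT.nd (nat_lit 78) (nat_lit 532) (nat_lit 0) (XT.lf (nat_lit 0) (nat_lit 1657195630) (nat_lit 608) (nat_lit 275695196) (nat_lit 684) (nat_lit 7066317343) (nat_lit 217) (nat_lit 5) (nat_lit 225) (nat_lit 5) (nat_lit 226) (nat_lit 5) (nat_lit 443) (nat_lit 376) (nat_lit 321)) (XT.nd (nat_lit 78) (nat_lit 532) (nat_lit 0) (XT.lf (nat_lit 0) (nat_lit 4602232092) (nat_lit 684) (nat_lit 1720769347) (nat_lit 76) (nat_lit 2764847835) (nat_lit 217) (nat_lit 5) (nat_lit 226) (nat_lit 5) (nat_lit 218) (nat_lit 5) (nat_lit 444) (nat_lit 376) (nat_lit 320)) (XT.lf (nat_lit 0) (nat_lit 4019274309) (nat_lit 532) (nat_lit 3297983101) (nat_lit 608) (nat_lit 1861177956) (nat_lit 210) (nat_lit 5) (nat_lit 217) (nat_lit 5) (nat_lit 218) (nat_lit 5) (nat_lit 445) (nat_lit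 376) (nat_lit 319))))) (XT.nd (nat_lit 156) (nat_lit 1140) (nat_lit 0) (XT.nd (nat_lit 78) (nat_lit 0) (nat_lit 0) (XT.lf (nat_lit 0) (nat_lit 584426107) (nat_lit 608) (nat_lit 200579793) (nat_lit 684) (nat_lit 8486139668) (nat_lit 201) (nat_lit 5) (nat_lit 209) (nat_lit 5) (nat_lit 210) (nat_lit 5) (nat_lit 446) (nat_lit 376) (nat_lit 318)) (XT.lf (nat_lit 0) (nat_lit 3478158410) (nat_lit 684) (nat_lit 2929035308) (nat_lit 76) (nat_lit 2957907952) (nat_lit 201) (nat_lit 5) (nat_lit 210) (nat_lit 5) (nat_lit 202) (nat_lit 5) (nat_lit 447) (nat_lit 376) (nat_lit 317))) (XT.nd (nat_lit 78) (nat_lit 608) (nat_lit 0) (XT.lf (nat_lit 0) (nat_lit 2936803359) (nat_lit 532) (nat_lit 3274337787) (nat_lit 608) (nat_lit 3250093134) (nat_lit 194) (nat_lit 5) (nat_lit 201) (nat_lit 5) (nat_lit 202) (nat_lit 5) (nat_lit 448) (nat_lit 376) (nat_lit 316)) (XT.nd (nat_lit 78) (nat_lit 608) (nat_lit 0) (XT.lf (nat_lit 0)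 (nat_lit 8915765820) (nat_lit 532) (nat_lit 68634313) (nat_lit 608) (nat_lit 575193480) (nat_lit 194) (nat_lit 5) (nat_lit 201) (nat_lit 5) (nat_lit 202) (nat_lit 5) (nat_lit 449) (nat_lit 376) (nat_lit 315)) (XT.lf (nat_lit 0) (nat_lit 2147247727) (nat_lit 608) (nat_lit 4313372865) (nat_lit 76) (nat_lit 3198590043) (nat_lit 186) (nat_lit 5) (nat_lit 194) (nat_lit 5) (nat_lit 187) (nat_lit 5) (nat_lit 450) (nat_lit 376) (nat_lit 314)))))) (XT.nd (nat_lit 390) (nat_lit 1444) (nat_lit 0) (XT.nd (nat_lit 156) (nat_lit 1064) (nat_lit 0) (XT.nd (nat_lit 78) (nat_lit 0) (nat_lit 0) (XT.lf (nat_lit 0) (nat_lit 1677166715) (nat_lit 532) (nat_lit 3221674639) (nat_lit 608) (nat_lit 4862269950) (nat_lit 179) (nat_lit 5) (nat_lit 186) (nat_lit 5) (nat_lit 187) (nat_lit 5) (nat_lit 451) (nat_lit 376) (nat_lit 313)) (XT.lf (nat_lit 0) (nat_lit 7702142891) (nat_lit 608) (nat_lit 2063353462) (nat_lit 76) (nat_lit 99635266)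 (nat_lit 179) (nat_lit 5) (nat_lit 187) (nat_lit 5) (nat_lit 180) (nat_lit 5) (nat_lit 452) (nat_lit 376) (nat_lit 312))) (XT.nd (nat_lit 78) (nat_lit 456) (nat_lit 0) (XT.lf (nat_lit 0) (nat_lit 598014469) (nat_lit 608) (nat_lit 5908507055) (nat_lit 76) (nat_lit 3464339175) (nat_lit 171) (nat_lit 5) (nat_lit 179) (nat_lit 5) (nat_lit 172) (nat_lit 5) (nat_lit 453) (nat_lit 376) (nat_lit 311)) (XT.nd (nat_lit 78) (nat_lit 0) (nat_lit 0) (XT.lf (nat_lit 0) (nat_lit 204952527) (nat_lit 456) (nat_lit 3163400844) (nat_lit 532) (nat_lit 6710417759) (nat_lit 165) (nat_lit 5) (nat_lit 171) (nat_lit 5) (nat_lit 172) (nat_lit 5) (nat_lit 454) (nat_lit 376) (nat_lit 310)) (XT.lf (nat_lit 0) (nat_lit 6203672502) (nat_lit 532) (nat_lit 3712866057) (nat_lit 76) (nat_lit 272123741) (nat_lit 165) (nat_lit 5) (nat_lit 172) (nat_lit 5) (nat_lit 166) (nat_lit 5) (nat_lit 455) (nat_lit 376) (nat_lit 309))))) (XT.nd (nat_lit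 156) (nat_lit 912) (nat_lit 0) (XT.nd (nat_lit 78) (nat_lit 76) (nat_lit 0) (XT.lf (nat_lit 0) (nat_lit 2540808053) (nat_lit 456) (nat_lit 6561023214) (nat_lit 532) (nat_lit 1198811087) (nat_lit 159) (nat_lit 5) (nat_lit 165) (nat_lit 5) (nat_lit 166) (nat_lit 5) (nat_lit 456) (nat_lit 376) (nat_lit 308)) (XT.lf (nat_lit 0) (nat_lit 1615428064) (nat_lit 532) (nat_lit 1498328886) (nat_lit 76) (nat_lit 7301027166) (nat_lit 158) (nat_lit 5) (nat_lit 165) (nat_lit 5) (nat_lit 159) (nat_lit 5) (nat_lit 457) (nat_lit 376) (nat_lit 307))) (XT.nd (nat_lit 78) (nat_lit 456) (nat_lit 0) (XT.lf (nat_lit 0) (nat_lit 4473964594) (nat_lit 532) (nat_lit 5631246342) (nat_lit 76) (nat_lit 425770933) (nat_lit 152) (nat_lit 5) (nat_lit 159) (nat_lit 5) (nat_lit 153) (nat_lit 5) (nat_lit 458) (nat_lit 376) (nat_lit 306)) (XT.nd (nat_lit 78) (nat_lit 0) (nat_lit 0) (XT.lf (nat_lit 0) (nat_lit 743393291) (nat_lit 456) (nat_lit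 6651516954) (nat_lit 532) (nat_lit 3254501244) (nat_lit 146) (nat_lit 5) (nat_lit 152) (nat_lit 5) (nat_lit 153) (nat_lit 5) (nat_lit 459) (nat_lit 376) (nat_lit 305)) (XT.lf (nat_lit 0) (nat_lit 7279700004) (nat_lit 456) (nat_lit 3102354143) (nat_lit 532) (nat_lit 388012401) (nat_lit 146) (nat_lit 5) (nat_lit 152) (nat_lit 5) (nat_lit 153) (nat_lit 5) (nat_lit 460) (nat_lit 376) (nat_lit 304))))))) (XT.nd (nat_lit 780) (nat_lit 2128) (nat_lit 0) (XT.nd (nat_lit 390) (nat_lit 1216) (nat_lit 0) (XT.nd (nat_lit 156) (nat_lit 912) (nat_lit 0) (XT.nd (nat_lit 78) (nat_lit 0) (nat_lit 0) (XT.lf (nat_lit 0) (nat_lit 2496150239) (nat_lit 456) (nat_lit 7861335098) (nat_lit 76) (nat_lit 535460003) (nat_lit 140) (nat_lit 5) (nat_lit 146) (nat_lit 5) (nat_lit 141) (nat_lit 5) (nat_lit 461) (nat_lit 376) (nat_lit 303)) (XT.lf (nat_lit 0) (nat_lit 5447533326) (nat_lit 456) (nat_lit 1351726347) (nat_lit 76) (nat_lit 4218687802)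 (nat_lit 140) (nat_lit 5) (nat_lit 146) (nat_lit 5) (nat_lit 141) (nat_lit 5) (nat_lit 462) (nat_lit 376) (nat_lit 302))) (XT.nd (nat_lit 78) (nat_lit 456) (nat_lit 0) (XT.lf (nat_lit 0) (nat_lit 5316644145) (nat_lit 456) (nat_lit 3147000600) (nat_lit 532) (nat_lit 2681702378) (nat_lit 134) (nat_lit 5) (nat_lit 140) (nat_lit 5) (nat_lit 141) (nat_lit 5) (nat_lit 463) (nat_lit 376) (nat_lit 301)) (XT.nd (nat_lit 78) (nat_lit 0) (nat_lit 0) (XT.lf (nat_lit 0) (nat_lit 250888676) (nat_lit 456) (nat_lit 10449926923) (nat_lit 76) (nat_lit 574664266) (nat_lit 128) (nat_lit 5) (nat_lit 134) (nat_lit 5) (nat_lit 129) (nat_lit 5) (nat_lit 464) (nat_lit 376) (nat_lit 300)) (XT.lf (nat_lit 0) (nat_lit 3237967117) (nat_lit 456) (nat_lit 3795896158) (nat_lit 76) (nat_lit 4373373417) (nat_lit 128) (nat_lit 5) (nat_lit 134) (nat_lit 5) (nat_lit 129) (nat_lit 5) (nat_lit 465) (nat_lit 376) (nat_lit 299))))) (XT.nd (nat_lit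 156) (nat_lit 836) (nat_lit 0) (XT.nd (nat_lit 78) (nat_lit 0) (nat_lit 0) (XT.lf (nat_lit 0) (nat_lit 2989732929) (nat_lit 380) (nat_lit 3286520659) (nat_lit 456) (nat_lit 5265556349) (nat_lit 123) (nat_lit 5) (nat_lit 128) (nat_lit 5) (nat_lit 129) (nat_lit 5) (nat_lit 466) (nat_lit 376) (nat_lit 298)) (XT.lf (nat_lit 0) (nat_lit 9376683223) (nat_lit 456) (nat_lit 1760589650) (nat_lit 76) (nat_lit 541784626) (nat_lit 123) (nat_lit 5) (nat_lit 129) (nat_lit 5) (nat_lit 124) (nat_lit 5) (nat_lit 467) (nat_lit 376) (nat_lit 297))) (XT.nd (nat_lit 78) (nat_lit 380) (nat_lit 0) (XT.lf (nat_lit 0) (nat_lit 738955253) (nat_lit 456) (nat_lit 6650659518) (nat_lit 76) (nat_lit 4428785183) (nat_lit 117) (nat_lit 5) (nat_lit 123) (nat_lit 5) (nat_lit 118) (nat_lit 5) (nat_lit 468) (nat_lit 376) (nat_lit 296)) (XT.nd (nat_lit 78) (nat_lit 0) (nat_lit 0) (XT.lf (nat_lit 0) (nat_lit 245898316) (nat_lit 380) (nat_lit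 3550790487) (nat_lit 456) (nat_lit 8163817759) (nat_lit 112) (nat_lit 5) (nat_lit 117) (nat_lit 5) (nat_lit 118) (nat_lit 5) (nat_lit 469) (nat_lit 376) (nat_lit 295)) (XT.lf (nat_lit 0) (nat_lit 6935945900) (nat_lit 456) (nat_lit 4777095225) (nat_lit 76) (nat_lit 392016408) (nat_lit 112) (nat_lit 5) (nat_lit 118) (nat_lit 5) (nat_lit 113) (nat_lit 5) (nat_lit 470) (nat_lit 376) (nat_lit 294)))))) (XT.nd (nat_lit 390) (nat_lit 1064) (nat_lit 0) (XT.nd (nat_lit 156) (nat_lit 684) (nat_lit 0) (XT.nd (nat_lit 78) (nat_lit 76) (nat_lit 0) (XT.lf (nat_lit 0) (nat_lit 2265753842) (nat_lit 304) (nat_lit 7884063477) (nat_lit 380) (nat_lit 2102455044) (nat_lit 108) (nat_lit 5) (nat_lit 112) (nat_lit 5) (nat_lit 113) (nat_lit 5) (nat_lit 471) (nat_lit 376) (nat_lit 293)) (XT.lf (nat_lit 0) (nat_lit 1018036838) (nat_lit 380) (nat_lit 2934159410) (nat_lit 76) (nat_lit 8449992082) (nat_lit 107) (nat_lit 5) (nat_lit 112)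 (nat_lit 5) (nat_lit 108) (nat_lit 5) (nat_lit 472) (nat_lit 376) (nat_lit 292))) (XT.nd (nat_lit 78) (nat_lit 304) (nat_lit 0) (XT.lf (nat_lit 0) (nat_lit 4175254527) (nat_lit 456) (nat_lit 8293074614) (nat_lit 76) (nat_lit 86455053) (nat_lit 102) (nat_lit 5) (nat_lit 108) (nat_lit 5) (nat_lit 103) (nat_lit 5) (nat_lit 473) (nat_lit 376) (nat_lit 291)) (XT.nd (nat_lit 78) (nat_lit 304) (nat_lit 0) (XT.lf (nat_lit 0) (nat_lit 7415978846) (nat_lit 456) (nat_lit 1134185321) (nat_lit 76) (nat_lit 4159869265) (nat_lit 102) (nat_lit 5) (nat_lit 108) (nat_lit 5) (nat_lit 103) (nat_lit 5) (nat_lit 474) (nat_lit 376) (nat_lit 290)) (XT.lf (nat_lit 0) (nat_lit 6210994464) (nat_lit 304) (nat_lit 4525720303) (nat_lit 380) (nat_lit 2131377481) (nat_lit 98) (nat_lit 5) (nat_lit 102) (nat_lit 5) (nat_lit 103) (nat_lit 5) (nat_lit 475) (nat_lit 376) (nat_lit 289))))) (XT.nd (nat_lit 234) (nat_lit 380) (nat_lit 0) (XT.nd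 (nat_lit 78) (nat_lit 304) (nat_lit 0) (XT.lf (nat_lit 0) (nat_lit 652254960) (nat_lit 304) (nat_lit 414782766) (nat_lit 380) (nat_lit 11962403786) (nat_lit 93) (nat_lit 5) (nat_lit 97) (nat_lit 5) (nat_lit 98) (nat_lit 5) (nat_lit 476) (nat_lit 376) (nat_lit 288)) (XT.nd (nat_lit 78) (nat_lit 304) (nat_lit 0) (XT.lf (nat_lit 0) (nat_lit 4345509124) (nat_lit 380) (nat_lit 5072632635) (nat_lit 76) (nat_lit 3774709736) (nat_lit 93) (nat_lit 5) (nat_lit 98) (nat_lit 5) (nat_lit 94) (nat_lit 5) (nat_lit 477) (nat_lit 376) (nat_lit 287)) (XT.lf (nat_lit 0) (nat_lit 2368486261) (nat_lit 304) (nat_lit 5314776780) (nat_lit 380) (nat_lit 5676400259) (nat_lit 89) (nat_lit 5) (nat_lit 93) (nat_lit 5) (nat_lit 94) (nat_lit 5) (nat_lit 478) (nat_lit 376) (nat_lit 286)))) (XT.nd (nat_lit 78) (nat_lit 380) (nat_lit 0) (XT.lf (nat_lit 0) (nat_lit 9989595053) (nat_lit 304) (nat_lit 1108039997) (nat_lit 380) (nat_lit 2431986758)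 (nat_lit 89) (nat_lit 5) (nat_lit 93) (nat_lit 5) (nat_lit 94) (nat_lit 5) (nat_lit 479) (nat_lit 376) (nat_lit 285)) (XT.nd (nat_lit 78) (nat_lit 0) (nat_lit 0) (XT.lf (nat_lit 0) (nat_lit 889162226) (nat_lit 380) (nat_lit 9652956144) (nat_lit 76) (nat_lit 3160287557) (nat_lit 84) (nat_lit 5) (nat_lit 89) (nat_lit 5) (nat_lit 85) (nat_lit 5) (nat_lit 480) (nat_lit 376) (nat_lit 284)) (XT.lf (nat_lit 0) (nat_lit 4251725533) (nat_lit 380) (nat_lit 2100399944) (nat_lit 76) (nat_lit 7526054912) (nat_lit 84) (nat_lit 5) (nat_lit 89) (nat_lit 5) (nat_lit 85) (nat_lit 5) (nat_lit 481) (nat_lit 376) (nat_lit 283))))))))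
noncomputable def xc88 : XT := (XT.nd (nat_lit 1560) (nat_lit 304) (nat_lit 0) (XT.nd (nat_lit 780) (nat_lit 1216) (nat_lit 0) (XT.nd (nat_lit 390) (nat_lit 836) (nat_lit 0) (XT.nd (nat_lit 156) (nat_lit 608) (nat_lit 0) (XT.nd (nat_lit 78) (nat_lit 0) (nat_lit 0) (XT.lf (nat_lit 0) (nat_lit 5640586682) (nat_lit 228) (nat_lit 2054315491) (nat_lit 304) (nat_lit 6362308067) (nat_lit 81) (nat_lit 5) (nat_lit 84) (nat_lit 5) (nat_lit 85) (nat_lit 5) (nat_lit 482) (nat_lit 376) (nat_lit 282)) (XT.lf (nat_lit 0) (nat_lit 11213128021) (nat_lit 304) (nat_lit 726630534) (nat_lit 76) (nat_lit 2299945418) (nat_lit 81) (nat_lit 5) (nat_lit 85) (nat_lit 5) (nat_lit 82) (nat_lit 5) (nat_lit 483) (nat_lit 376) (nat_lit 281))) (XT.nd (nat_lit 78) (nat_lit 228) (nat_lit 0) (XT.lf (nat_lit 0) (nat_lit 408610665) (nat_lit 380) (nat_lit 7266330827) (nat_lit 76) (nat_lit 6750110620) (nat_lit 76) (nat_lit 5) (nat_lit 81) (nat_lit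 5) (nat_lit 77) (nat_lit 5) (nat_lit 484) (nat_lit 376) (nat_lit 280)) (XT.nd (nat_lit 78) (nat_lit 0) (nat_lit 0) (XT.lf (nat_lit 0) (nat_lit 548651532) (nat_lit 228) (nat_lit 3309215630) (nat_lit 304) (nat_lit 10756128696) (nat_lit 73) (nat_lit 5) (nat_lit 76) (nat_lit 5) (nat_lit 77) (nat_lit 5) (nat_lit 485) (nat_lit 376) (nat_lit 279)) (XT.lf (nat_lit 0) (nat_lit 7410126022) (nat_lit 304) (nat_lit 6231280353) (nat_lit 76) (nat_lit 1164638227) (nat_lit 73) (nat_lit 5) (nat_lit 77) (nat_lit 5) (nat_lit 74) (nat_lit 5) (nat_lit 486) (nat_lit 376) (nat_lit 278))))) (XT.nd (nat_lit 156) (nat_lit 532) (nat_lit 0) (XT.nd (nat_lit 78) (nat_lit 0) (nat_lit 0) (XT.lf (nat_lit 0) (nat_lit 1724660691) (nat_lit 304) (nat_lit 9319830321) (nat_lit 380) (nat_lit 3957228429) (nat_lit 69) (nat_lit 5) (nat_lit 73) (nat_lit 5) (nat_lit 74) (nat_lit 5) (nat_lit 487) (nat_lit 376) (nat_lit 277)) (XT.lf (nat_lit 0) (nat_lit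 9888912700) (nat_lit 304) (nat_lit 4882597118) (nat_lit 380) (nat_lit 429404844) (nat_lit 69) (nat_lit 5) (nat_lit 73) (nat_lit 5) (nat_lit 74) (nat_lit 5) (nat_lit 488) (nat_lit 376) (nat_lit 276))) (XT.nd (nat_lit 78) (nat_lit 228) (nat_lit 0) (XT.lf (nat_lit 0) (nat_lit 2793543245) (nat_lit 228) (nat_lit 330439702) (nat_lit 304) (nat_lit 12279773926) (nat_lit 65) (nat_lit 5) (nat_lit 68) (nat_lit 5) (nat_lit 69) (nat_lit 5) (nat_lit 489) (nat_lit 376) (nat_lit 275)) (XT.nd (nat_lit 78) (nat_lit 228) (nat_lit 0) (XT.lf (nat_lit 0) (nat_lit 6785121484) (nat_lit 304) (nat_lit 4542812243) (nat_lit 76) (nat_lit 4281822636) (nat_lit 65) (nat_lit 5) (nat_lit 69) (nat_lit 5) (nat_lit 66) (nat_lit 5) (nat_lit 490) (nat_lit 376) (nat_lit 274)) (XT.lf (nat_lit 0) (nat_lit 3697941058) (nat_lit 228) (nat_lit 6826703920) (nat_lit 304) (nat_lit 5295133365) (nat_lit 62) (nat_lit 5) (nat_lit 65) (nat_lit 5) (nat_lit 66)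 (nat_lit 5) (nat_lit 491) (nat_lit 376) (nat_lit 273)))))) (XT.nd (nat_lit 390) (nat_lit 684) (nat_lit 0) (XT.nd (nat_lit 156) (nat_lit 228) (nat_lit 0) (XT.nd (nat_lit 78) (nat_lit 304) (nat_lit 0) (XT.lf (nat_lit 0) (nat_lit 12131007213) (nat_lit 228) (nat_lit 2217591931) (nat_lit 304) (nat_lit 1685214443) (nat_lit 62) (nat_lit 5) (nat_lit 65) (nat_lit 5) (nat_lit 66) (nat_lit 5) (nat_lit 492) (nat_lit 376) (nat_lit 272)) (XT.lf (nat_lit 0) (nat_lit 1995627038) (nat_lit 304) (nat_lit 11775150554) (nat_lit 76) (nat_lit 2480599773) (nat_lit 58) (nat_lit 5) (nat_lit 62) (nat_lit 5) (nat_lit 59) (nat_lit 5) (nat_lit 493) (nat_lit 376) (nat_lit 271))) (XT.nd (nat_lit 78) (nat_lit 228) (nat_lit 0) (XT.lf (nat_lit 0) (nat_lit 5748115489) (nat_lit 304) (nat_lit 3456842599) (nat_lit 76) (nat_lit 7267704947) (nat_lit 58) (nat_lit 5) (nat_lit 62) (nat_lit 5) (nat_lit 59) (nat_lit 5) (nat_lit 494) (nat_lit 376) (nat_lit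 270)) (XT.nd (nat_lit 78) (nat_lit 0) (nat_lit 0) (XT.lf (nat_lit 0) (nat_lit 5061072741) (nat_lit 228) (nat_lit 4527366988) (nat_lit 304) (nat_lit 7109684171) (nat_lit 55) (nat_lit 5) (nat_lit 58) (nat_lit 5) (nat_lit 59) (nat_lit 5) (nat_lit 495) (nat_lit 376) (nat_lit 269)) (XT.lf (nat_lit 0) (nat_lit 13510525568) (nat_lit 304) (nat_lit 3166397689) (nat_lit 76) (nat_lit 251076722) (nat_lit 55) (nat_lit 5) (nat_lit 59) (nat_lit 5) (nat_lit 56) (nat_lit 5) (nat_lit 496) (nat_lit 376) (nat_lit 268))))) (XT.nd (nat_lit 156) (nat_lit 380) (nat_lit 0) (XT.nd (nat_lit 78) (nat_lit 0) (nat_lit 0) (XT.lf (nat_lit 0) (nat_lit 390302682) (nat_lit 304) (nat_lit 11681113861) (nat_lit 76) (nat_lit 5090090779) (nat_lit 51) (nat_lit 5) (nat_lit 55) (nat_lit 5) (nat_lit 52) (nat_lit 5) (nat_lit 497) (nat_lit 376) (nat_lit 267)) (XT.lf (nat_lit 0) (nat_lit 4230360746) (nat_lit 304) (nat_lit 3111625633) (nat_lit 76) (nat_lit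 10057213736) (nat_lit 51) (nat_lit 5) (nat_lit 55) (nat_lit 5) (nat_lit 52) (nat_lit 5) (nat_lit 498) (nat_lit 376) (nat_lit 266))) (XT.nd (nat_lit 78) (nat_lit 152) (nat_lit 0) (XT.lf (nat_lit 0) (nat_lit 5671642281) (nat_lit 228) (nat_lit 2493238739) (nat_lit 304) (nat_lit 9476417237) (nat_lit 48) (nat_lit 5) (nat_lit 51) (nat_lit 5) (nat_lit 52) (nat_lit 5) (nat_lit 499) (nat_lit 376) (nat_lit 265)) (XT.nd (nat_lit 78) (nat_lit 152) (nat_lit 0) (XT.lf (nat_lit 0) (nat_lit 12195957100) (nat_lit 304) (nat_lit 3263213365) (nat_lit 76) (nat_lit 2428715207) (nat_lit 48) (nat_lit 5) (nat_lit 52) (nat_lit 5) (nat_lit 49) (nat_lit 5) (nat_lit 500) (nat_lit 376) (nat_lit 264)) (XT.lf (nat_lit 0) (nat_lit 5643404335) (nat_lit 152) (nat_lit 10698699977) (nat_lit 228) (nat_lit 1796616057) (nat_lit 46) (nat_lit 5) (nat_lit 48) (nat_lit 5) (nat_lit 49) (nat_lit 5) (nat_lit 501) (nat_lit 376) (nat_lit 263))))))) (XT.nd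 (nat_lit 50856) (nat_lit 0) (nat_lit 39824) (XT.nd (nat_lit 50466) (nat_lit 0) (nat_lit 44460) (XT.nd (nat_lit 156) (nat_lit 0) (nat_lit 0) (XT.nd (nat_lit 78) (nat_lit 228) (nat_lit 0) (XT.lf (nat_lit 0) (nat_lit 2151433113) (nat_lit 228) (nat_lit 3667524638) (nat_lit 76) (nat_lit 12575268184) (nat_lit 45) (nat_lit 5) (nat_lit 48) (nat_lit 5) (nat_lit 46) (nat_lit 5) (nat_lit 502) (nat_lit 376) (nat_lit 262)) (XT.lf (nat_lit 0) (nat_lit 5364395186) (nat_lit 228) (nat_lit 806543135) (nat_lit 304) (nat_lit 12483339013) (nat_lit 42) (nat_lit 5) (nat_lit 45) (nat_lit 5) (nat_lit 46) (nat_lit 5) (nat_lit 503) (nat_lit 376) (nat_lit 261))) (XT.nd (nat_lit 50154) (nat_lit 0) (nat_lit 45828) (XT.lf (nat_lit 0) (nat_lit 10305344068) (nat_lit 304) (nat_lit 4351457710) (nat_lit 76) (nat_lit 4262041956) (nat_lit 42) (nat_lit 5) (nat_lit 46) (nat_lit 5) (nat_lit 43) (nat_lit 5) (nat_lit 504) (nat_lit 376) (nat_lit 260))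 (XT.nd (nat_lit 78) (nat_lit 228) (nat_lit 0) (XT.lf (nat_lit 0) (nat_lit 1550676071) (nat_lit 228) (nat_lit 128612939) (nat_lit 0) (nat_lit 1550676071) (nat_lit 648) (nat_lit 5) (nat_lit 651) (nat_lit 4) (nat_lit 648) (nat_lit 4) (nat_lit 386) (nat_lit 377) (nat_lit 377)) (XT.lf (nat_lit 0) (nat_lit 3094413656) (nat_lit 228) (nat_lit 3066048961) (nat_lit 228) (nat_lit 306034216) (nat_lit 645) (nat_lit 4) (nat_lit 648) (nat_lit 5) (nat_lit 648) (nat_lit 4) (nat_lit 387) (nat_lit 377) (nat_lit 376))))) (XT.nd (nat_lit 156) (nat_lit 988) (nat_lit 0) (XT.nd (nat_lit 78) (nat_lit 304) (nat_lit 0) (XT.lf (nat_lit 0) (nat_lit 2696142266) (nat_lit 304) (nat_lit 19704175) (nat_lit 76) (nat_lit 3758557328) (nat_lit 644) (nat_lit 5) (nat_lit 648) (nat_lit 5) (nat_lit 645) (nat_lit 4) (nat_lit 388) (nat_lit 377) (nat_lit 375)) (XT.lf (nat_lit 0) (nat_lit 3398267890) (nat_lit 304) (nat_lit 2303226888) (nat_lit 380)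 (nat_lit 782068973) (nat_lit 640) (nat_lit 5) (nat_lit 644) (nat_lit 5) (nat_lit 645) (nat_lit 4) (nat_lit 389) (nat_lit 377) (nat_lit 374))) (XT.nd (nat_lit 78) (nat_lit 532) (nat_lit 0) (XT.lf (nat_lit 0) (nat_lit 336844035) (nat_lit 380) (nat_lit 1835480079) (nat_lit 456) (nat_lit 4321802367) (nat_lit 634) (nat_lit 5) (nat_lit 639) (nat_lit 5) (nat_lit 640) (nat_lit 5) (nat_lit 390) (nat_lit 377) (nat_lit 373)) (XT.nd (nat_lit 78) (nat_lit 532) (nat_lit 0) (XT.lf (nat_lit 0) (nat_lit 3819524738) (nat_lit 380) (nat_lit 1303435734) (nat_lit 456) (nat_lit 1382959416) (nat_lit 634) (nat_lit 5) (nat_lit 639) (nat_lit 5) (nat_lit 640) (nat_lit 5) (nat_lit 391) (nat_lit 377) (nat_lit 372)) (XT.lf (nat_lit 0) (nat_lit 809406641) (nat_lit 456) (nat_lit 717165215) (nat_lit 532) (nat_lit 4992578310) (nat_lit 627) (nat_lit 5) (nat_lit 633) (nat_lit 5) (nat_lit 634) (nat_lit 5) (nat_lit 392) (nat_lit 377) (nat_lit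 371)))))) (XT.nd (nat_lit 390) (nat_lit 3344) (nat_lit 0) (XT.nd (nat_lit 156) (nat_lit 684) (nat_lit 0) (XT.nd (nat_lit 78) (nat_lit 608) (nat_lit 0) (XT.lf (nat_lit 0) (nat_lit 4357917215) (nat_lit 456) (nat_lit 64802861) (nat_lit 532) (nat_lit 2110874276) (nat_lit 627) (nat_lit 5) (nat_lit 633) (nat_lit 5) (nat_lit 634) (nat_lit 5) (nat_lit 393) (nat_lit 377) (nat_lit 370)) (XT.lf (nat_lit 0) (nat_lit 760657294) (nat_lit 608) (nat_lit 5156124660) (nat_lit 76) (nat_lit 632644965) (nat_lit 619) (nat_lit 5) (nat_lit 627) (nat_lit 5) (nat_lit 620) (nat_lit 5) (nat_lit 394) (nat_lit 377) (nat_lit 369))) (XT.nd (nat_lit 78) (nat_lit 684) (nat_lit 0) (XT.lf (nat_lit 0) (nat_lit 3607580946) (nat_lit 608) (nat_lit 1562427055) (nat_lit 76) (nat_lit 1396431475) (nat_lit 619) (nat_lit 5) (nat_lit 627) (nat_lit 5) (nat_lit 620) (nat_lit 5) (nat_lit 395) (nat_lit 377) (nat_lit 368)) (XT.nd (nat_lit 78) (nat_lit 76)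 (nat_lit 0) (XT.lf (nat_lit 0) (nat_lit 2085604549) (nat_lit 608) (nat_lit 4371804992) (nat_lit 684) (nat_lit 127529017) (nat_lit 611) (nat_lit 5) (nat_lit 619) (nat_lit 5) (nat_lit 620) (nat_lit 5) (nat_lit 396) (nat_lit 377) (nat_lit 367)) (XT.lf (nat_lit 0) (nat_lit 2667734378) (nat_lit 684) (nat_lit 839365699) (nat_lit 76) (nat_lit 3097541935) (nat_lit 610) (nat_lit 5) (nat_lit 619) (nat_lit 5) (nat_lit 611) (nat_lit 5) (nat_lit 397) (nat_lit 377) (nat_lit 366))))) (XT.nd (nat_lit 234) (nat_lit 1824) (nat_lit 0) (XT.nd (nat_lit 78) (nat_lit 836) (nat_lit 0) (XT.lf (nat_lit 0) (nat_lit 2886151267) (nat_lit 684) (nat_lit 2584055789) (nat_lit 760) (nat_lit 1155517209) (nat_lit 601) (nat_lit 5) (nat_lit 610) (nat_lit 5) (nat_lit 611) (nat_lit 5) (nat_lit 398) (nat_lit 377) (nat_lit 365)) (XT.nd (nat_lit 78) (nat_lit 760) (nat_lit 0) (XT.lf (nat_lit 0) (nat_lit 1599901225) (nat_lit 760) (nat_lit 5804681)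 (nat_lit 76) (nat_lit 5042554258) (nat_lit 600) (nat_lit 5) (nat_lit 610) (nat_lit 5) (nat_lit 601) (nat_lit 5) (nat_lit 399) (nat_lit 377) (nat_lit 364)) (XT.lf (nat_lit 0) (nat_lit 3800427065) (nat_lit 760) (nat_lit 555280201) (nat_lit 836) (nat_lit 2316229981) (nat_lit 590) (nat_lit 5) (nat_lit 600) (nat_lit 5) (nat_lit 601) (nat_lit 5) (nat_lit 400) (nat_lit 377) (nat_lit 363)))) (XT.nd (nat_lit 78) (nat_lit 912) (nat_lit 0) (XT.lf (nat_lit 0) (nat_lit 410673699) (nat_lit 912) (nat_lit 5749574751) (nat_lit 76) (nat_lit 536908243) (nat_lit 578) (nat_lit 5) (nat_lit 590) (nat_lit 5) (nat_lit 579) (nat_lit 5) (nat_lit 401) (nat_lit 377) (nat_lit 362)) (XT.nd (nat_lit 78) (nat_lit 912) (nat_lit 0) (XT.lf (nat_lit 0) (nat_lit 3121829693) (nat_lit 912) (nat_lit 1905793182) (nat_lit 76) (nat_lit 1695791772) (nat_lit 578) (nat_lit 5) (nat_lit 590) (nat_lit 5) (nat_lit 579) (nat_lit 5) (nat_lit 402) (nat_lit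 377) (nat_lit 361)) (XT.lf (nat_lit 0) (nat_lit 1995810221) (nat_lit 912) (nat_lit 3843205001) (nat_lit 988) (nat_lit 912200228) (nat_lit 566) (nat_lit 5) (nat_lit 578) (nat_lit 5) (nat_lit 579) (nat_lit 5) (nat_lit 403) (nat_lit 377) (nat_lit 360))))))))
noncomputable def xc89 : XT := (XT.nd (nat_lit 1560) (nat_lit 9956) (nat_lit 0) (XT.nd (nat_lit 780) (nat_lit 9196) (nat_lit 0) (XT.nd (nat_lit 390) (nat_lit 4028) (nat_lit 0) (XT.nd (nat_lit 156) (nat_lit 2280) (nat_lit 0) (XT.nd (nat_lit 78) (nat_lit 988) (nat_lit 0) (XT.lf (nat_lit 0) (nat_lit 1759136811) (nat_lit 988) (nat_lit 835799837) (nat_lit 76) (nat_lit 4185406029) (nat_lit 565) (nat_lit 5) (nat_lit 578) (nat_lit 5) (nat_lit 566) (nat_lit 5) (nat_lit 404) (nat_lit 377) (nat_lit 359)) (XT.lf (nat_lit 0) (nat_lit 3152611527) (nat_lit 988) (nat_lit 1280049652) (nat_lit 1064) (nat_lit 2378101892) (nat_lit 552) (nat_lit 5) (nat_lit 565) (nat_lit 5)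 (nat_lit 566) (nat_lit 5) (nat_lit 405) (nat_lit 377) (nat_lit 358))) (XT.nd (nat_lit 78) (nat_lit 1140) (nat_lit 0) (XT.lf (nat_lit 0) (nat_lit 263083124) (nat_lit 1140) (nat_lit 6495907497) (nat_lit 76) (nat_lit 83820964) (nat_lit 537) (nat_lit 5) (nat_lit 552) (nat_lit 5) (nat_lit 538) (nat_lit 5) (nat_lit 406) (nat_lit 377) (nat_lit 357)) (XT.nd (nat_lit 78) (nat_lit 1140) (nat_lit 0) (XT.lf (nat_lit 0) (nat_lit 2900351207) (nat_lit 1140) (nat_lit 2464179060) (nat_lit 76) (nat_lit 1511202163) (nat_lit 537) (nat_lit 5) (nat_lit 552) (nat_lit 5) (nat_lit 538) (nat_lit 5) (nat_lit 407) (nat_lit 377) (nat_lit 356)) (XT.lf (nat_lit 0) (nat_lit 1623964637) (nat_lit 1140) (nat_lit 3919967932) (nat_lit 1216) (nat_lit 1366354618) (nat_lit 522) (nat_lit 5) (nat_lit 537) (nat_lit 5) (nat_lit 538) (nat_lit 5) (nat_lit 408) (nat_lit 377) (nat_lit 355))))) (XT.nd (nat_lit 156) (nat_lit 2736) (nat_lit 0) (XT.nd (nat_lit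 78) (nat_lit 1216) (nat_lit 0) (XT.lf (nat_lit 0) (nat_lit 1237946191) (nat_lit 1216) (nat_lit 1172460315) (nat_lit 76) (nat_lit 4535801906) (nat_lit 521) (nat_lit 5) (nat_lit 537) (nat_lit 5) (nat_lit 522) (nat_lit 5) (nat_lit 409) (nat_lit 377) (nat_lit 354)) (XT.lf (nat_lit 0) (nat_lit 3008980794) (nat_lit 1216) (nat_lit 831149791) (nat_lit 1292) (nat_lit 3143299134) (nat_lit 505) (nat_lit 5) (nat_lit 521) (nat_lit 5) (nat_lit 522) (nat_lit 5) (nat_lit 410) (nat_lit 377) (nat_lit 353))) (XT.nd (nat_lit 78) (nat_lit 1444) (nat_lit 0) (XT.lf (nat_lit 0) (nat_lit 220466014) (nat_lit 1292) (nat_lit 6233706347) (nat_lit 1368) (nat_lit 568070101) (nat_lit 488) (nat_lit 5) (nat_lit 505) (nat_lit 5) (nat_lit 506) (nat_lit 5) (nat_lit 411) (nat_lit 377) (nat_lit 352)) (XT.nd (nat_lit 78) (nat_lit 1368) (nat_lit 0) (XT.lf (nat_lit 0) (nat_lit 2009790855) (nat_lit 1368) (nat_lit 2573667401) (nat_lit 76) (nat_lit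 2478584942) (nat_lit 487) (nat_lit 5) (nat_lit 505) (nat_lit 5) (nat_lit 488) (nat_lit 5) (nat_lit 412) (nat_lit 377) (nat_lit 351)) (XT.lf (nat_lit 0) (nat_lit 1712131819) (nat_lit 1368) (nat_lit 2877432895) (nat_lit 1444) (nat_lit 2513881678) (nat_lit 469) (nat_lit 5) (nat_lit 487) (nat_lit 5) (nat_lit 488) (nat_lit 5) (nat_lit 413) (nat_lit 377) (nat_lit 350)))))) (XT.nd (nat_lit 390) (nat_lit 4484) (nat_lit 0) (XT.nd (nat_lit 156) (nat_lit 3192) (nat_lit 0) (XT.nd (nat_lit 78) (nat_lit 1444) (nat_lit 0) (XT.lf (nat_lit 0) (nat_lit 38855091) (nat_lit 1444) (nat_lit 1073407447) (nat_lit 76) (nat_lit 6034152832) (nat_lit 468) (nat_lit 5) (nat_lit 487) (nat_lit 5) (nat_lit 469) (nat_lit 5) (nat_lit 414) (nat_lit 377) (nat_lit 349)) (XT.lf (nat_lit 0) (nat_lit 2583524649) (nat_lit 1520) (nat_lit 3882768197) (nat_lit 76) (nat_lit 724166202) (nat_lit 449) (nat_lit 5) (nat_lit 469) (nat_lit 5) (nat_lit 450)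 (nat_lit 5) (nat_lit 415) (nat_lit 377) (nat_lit 348))) (XT.nd (nat_lit 78) (nat_lit 1672) (nat_lit 0) (XT.lf (nat_lit 0) (nat_lit 509078764) (nat_lit 1520) (nat_lit 4636931389) (nat_lit 1596) (nat_lit 2090072678) (nat_lit 429) (nat_lit 5) (nat_lit 449) (nat_lit 5) (nat_lit 450) (nat_lit 5) (nat_lit 416) (nat_lit 377) (nat_lit 347)) (XT.nd (nat_lit 78) (nat_lit 1596) (nat_lit 0) (XT.lf (nat_lit 0) (nat_lit 446431477) (nat_lit 1596) (nat_lit 2290287378) (nat_lit 76) (nat_lit 4546363239) (nat_lit 428) (nat_lit 5) (nat_lit 449) (nat_lit 5) (nat_lit 429) (nat_lit 5) (nat_lit 417) (nat_lit 377) (nat_lit 346)) (XT.lf (nat_lit 0) (nat_lit 2204833366) (nat_lit 1596) (nat_lit 765515938) (nat_lit 1672) (nat_lit 4361137847) (nat_lit 407) (nat_lit 5) (nat_lit 428) (nat_lit 5) (nat_lit 429) (nat_lit 5) (nat_lit 418) (nat_lit 377) (nat_lit 345))))) (XT.nd (nat_lit 156) (nat_lit 2736) (nat_lit 0) (XT.nd (nat_lit 78) (nat_lit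 1748) (nat_lit 0) (XT.lf (nat_lit 0) (nat_lit 5519334959) (nat_lit 1672) (nat_lit 613983466) (nat_lit 76) (nat_lit 1248084905) (nat_lit 407) (nat_lit 5) (nat_lit 429) (nat_lit 5) (nat_lit 408) (nat_lit 5) (nat_lit 419) (nat_lit 377) (nat_lit 344)) (XT.lf (nat_lit 0) (nat_lit 660802522) (nat_lit 1748) (nat_lit 3446068709) (nat_lit 76) (nat_lit 3325734257) (nat_lit 384) (nat_lit 5) (nat_lit 407) (nat_lit 5) (nat_lit 385) (nat_lit 5) (nat_lit 420) (nat_lit 377) (nat_lit 343))) (XT.nd (nat_lit 78) (nat_lit 988) (nat_lit 0) (XT.lf (nat_lit 0) (nat_lit 1159883154) (nat_lit 1748) (nat_lit 2013313574) (nat_lit 1824) (nat_lit 4312141620) (nat_lit 361) (nat_lit 5) (nat_lit 384) (nat_lit 5) (nat_lit 385) (nat_lit 5) (nat_lit 421) (nat_lit 377) (nat_lit 342)) (XT.nd (nat_lit 78) (nat_lit 988) (nat_lit 0) (XT.lf (nat_lit 0) (nat_lit 5712859784) (nat_lit 1824) (nat_lit 1681238532) (nat_lit 76) (nat_lit 145519289) (nat_lit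 361) (nat_lit 5) (nat_lit 385) (nat_lit 5) (nat_lit 362) (nat_lit 5) (nat_lit 422) (nat_lit 377) (nat_lit 341)) (XT.lf (nat_lit 0) (nat_lit 685849835) (nat_lit 988) (nat_lit 4562815814) (nat_lit 76) (nat_lit 2346519610) (nat_lit 348) (nat_lit 5) (nat_lit 361) (nat_lit 5) (nat_lit 349) (nat_lit 5) (nat_lit 423) (nat_lit 377) (nat_lit 340))))))) (XT.nd (nat_lit 780) (nat_lit 4864) (nat_lit 0) (XT.nd (nat_lit 390) (nat_lit 2432) (nat_lit 0) (XT.nd (nat_lit 156) (nat_lit 1748) (nat_lit 0) (XT.nd (nat_lit 78) (nat_lit 0) (nat_lit 0) (XT.lf (nat_lit 0) (nat_lit 155539237) (nat_lit 912) (nat_lit 3035251917) (nat_lit 988) (nat_lit 4461531084) (nat_lit 336) (nat_lit 5) (nat_lit 348) (nat_lit 5) (nat_lit 349) (nat_lit 5) (nat_lit 424) (nat_lit 377) (nat_lit 339)) (XT.lf (nat_lit 0) (nat_lit 4984683580) (nat_lit 912) (nat_lit 746522997) (nat_lit 988) (nat_lit 1979717586) (nat_lit 336) (nat_lit 5) (nat_lit 348) (nat_lit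 5) (nat_lit 349) (nat_lit 5) (nat_lit 425) (nat_lit 377) (nat_lit 338))) (XT.nd (nat_lit 78) (nat_lit 836) (nat_lit 0) (XT.lf (nat_lit 0) (nat_lit 523995443) (nat_lit 912) (nat_lit 5662936598) (nat_lit 76) (nat_lit 1584133012) (nat_lit 324) (nat_lit 5) (nat_lit 336) (nat_lit 5) (nat_lit 325) (nat_lit 5) (nat_lit 426) (nat_lit 377) (nat_lit 337)) (XT.nd (nat_lit 78) (nat_lit 836) (nat_lit 0) (XT.lf (nat_lit 0) (nat_lit 3030559427) (nat_lit 912) (nat_lit 819846159) (nat_lit 76) (nat_lit 3982183752) (nat_lit 324) (nat_lit 5) (nat_lit 336) (nat_lit 5) (nat_lit 325) (nat_lit 5) (nat_lit 427) (nat_lit 377) (nat_lit 336)) (XT.lf (nat_lit 0) (nat_lit 4129393886) (nat_lit 836) (nat_lit 1441437065) (nat_lit 912) (nat_lit 2324869081) (nat_lit 313) (nat_lit 5) (nat_lit 324) (nat_lit 5) (nat_lit 325) (nat_lit 5) (nat_lit 428) (nat_lit 377) (nat_lit 335))))) (XT.nd (nat_lit 156) (nat_lit 1596) (nat_lit 0) (XT.nd (nat_lit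 78) (nat_lit 0) (nat_lit 0) (XT.lf (nat_lit 0) (nat_lit 176195830) (nat_lit 836) (nat_lit 6769382568) (nat_lit 76) (nat_lit 1014954557) (nat_lit 302) (nat_lit 5) (nat_lit 313) (nat_lit 5) (nat_lit 303) (nat_lit 5) (nat_lit 429) (nat_lit 377) (nat_lit 334)) (XT.lf (nat_lit 0) (nat_lit 2688718639) (nat_lit 836) (nat_lit 1798191425) (nat_lit 76) (nat_lit 3539619658) (nat_lit 302) (nat_lit 5) (nat_lit 313) (nat_lit 5) (nat_lit 303) (nat_lit 5) (nat_lit 430) (nat_lit 377) (nat_lit 333))) (XT.nd (nat_lit 78) (nat_lit 836) (nat_lit 0) (XT.lf (nat_lit 0) (nat_lit 3270479317) (nat_lit 760) (nat_lit 1960629337) (nat_lit 836) (nat_lit 2863170794) (nat_lit 292) (nat_lit 5) (nat_lit 302) (nat_lit 5) (nat_lit 303) (nat_lit 5) (nat_lit 431) (nat_lit 377) (nat_lit 332)) (XT.nd (nat_lit 78) (nat_lit 76) (nat_lit 0) (XT.lf (nat_lit 0) (nat_lit 255661679) (nat_lit 760) (nat_lit 7545379119) (nat_lit 836) (nat_lit 362834347)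 (nat_lit 282) (nat_lit 5) (nat_lit 292) (nat_lit 5) (nat_lit 293) (nat_lit 5) (nat_lit 432) (nat_lit 377) (nat_lit 331)) (XT.lf (nat_lit 0) (nat_lit 2163495817) (nat_lit 836) (nat_lit 2805151471) (nat_lit 76) (nat_lit 3265861775) (nat_lit 281) (nat_lit 5) (nat_lit 292) (nat_lit 5) (nat_lit 282) (nat_lit 5) (nat_lit 433) (nat_lit 377) (nat_lit 330)))))) (XT.nd (nat_lit 390) (nat_lit 2660) (nat_lit 0) (XT.nd (nat_lit 156) (nat_lit 1444) (nat_lit 0) (XT.nd (nat_lit 78) (nat_lit 0) (nat_lit 0) (XT.lf (nat_lit 0) (nat_lit 2384096250) (nat_lit 760) (nat_lit 2326791118) (nat_lit 836) (nat_lit 3596135890) (nat_lit 271) (nat_lit 5) (nat_lit 281) (nat_lit 5) (nat_lit 282) (nat_lit 5) (nat_lit 434) (nat_lit 377) (nat_lit 329)) (XT.lf (nat_lit 0) (nat_lit 7290939587) (nat_lit 836) (nat_lit 713200552) (nat_lit 76) (nat_lit 377236309) (nat_lit 271) (nat_lit 5) (nat_lit 282) (nat_lit 5) (nat_lit 272) (nat_lit 5) (nat_lit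 435) (nat_lit 377) (nat_lit 328))) (XT.nd (nat_lit 78) (nat_lit 684) (nat_lit 0) (XT.lf (nat_lit 0) (nat_lit 1452614301) (nat_lit 760) (nat_lit 3865351472) (nat_lit 76) (nat_lit 3138953586) (nat_lit 261) (nat_lit 5) (nat_lit 271) (nat_lit 5) (nat_lit 262) (nat_lit 5) (nat_lit 436) (nat_lit 377) (nat_lit 327)) (XT.nd (nat_lit 78) (nat_lit 0) (nat_lit 0) (XT.lf (nat_lit 0) (nat_lit 1445338518) (nat_lit 684) (nat_lit 2562154632) (nat_lit 760) (nat_lit 4526846111) (nat_lit 252) (nat_lit 5) (nat_lit 261) (nat_lit 5) (nat_lit 262) (nat_lit 5) (nat_lit 437) (nat_lit 377) (nat_lit 326)) (XT.lf (nat_lit 0) (nat_lit 6602977836) (nat_lit 760) (nat_lit 1744975472) (nat_lit 76) (nat_lit 265585308) (nat_lit 252) (nat_lit 5) (nat_lit 262) (nat_lit 5) (nat_lit 253) (nat_lit 5) (nat_lit 438) (nat_lit 377) (nat_lit 325))))) (XT.nd (nat_lit 234) (nat_lit 1292) (nat_lit 0) (XT.nd (nat_lit 78) (nat_lit 684) (nat_lit 0) (XT.lf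 (nat_lit 0) (nat_lit 552239072) (nat_lit 684) (nat_lit 5004661140) (nat_lit 76) (nat_lit 3137300307) (nat_lit 243) (nat_lit 5) (nat_lit 252) (nat_lit 5) (nat_lit 244) (nat_lit 5) (nat_lit 439) (nat_lit 377) (nat_lit 324)) (XT.nd (nat_lit 78) (nat_lit 0) (nat_lit 0) (XT.lf (nat_lit 0) (nat_lit 427997659) (nat_lit 684) (nat_lit 2688683802) (nat_lit 760) (nat_lit 5660002237) (nat_lit 234) (nat_lit 5) (nat_lit 243) (nat_lit 5) (nat_lit 244) (nat_lit 5) (nat_lit 440) (nat_lit 377) (nat_lit 323)) (XT.lf (nat_lit 0) (nat_lit 5730871529) (nat_lit 760) (nat_lit 2869553318) (nat_lit 76) (nat_lit 260442121) (nat_lit 234) (nat_lit 5) (nat_lit 244) (nat_lit 5) (nat_lit 235) (nat_lit 5) (nat_lit 441) (nat_lit 377) (nat_lit 322)))) (XT.nd (nat_lit 78) (nat_lit 684) (nat_lit 0) (XT.lf (nat_lit 0) (nat_lit 2692753437) (nat_lit 608) (nat_lit 5703718618) (nat_lit 684) (nat_lit 550298534) (nat_lit 226) (nat_lit 5) (nat_lit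 234) (nat_lit 5) (nat_lit 235) (nat_lit 5) (nat_lit 442) (nat_lit 377) (nat_lit 321)) (XT.nd (nat_lit 78) (nat_lit 608) (nat_lit 0) (XT.lf (nat_lit 0) (nat_lit 2037091654) (nat_lit 684) (nat_lit 686568544) (nat_lit 76) (nat_lit 6310812493) (nat_lit 225) (nat_lit 5) (nat_lit 234) (nat_lit 5) (nat_lit 226) (nat_lit 5) (nat_lit 443) (nat_lit 377) (nat_lit 320)) (XT.lf (nat_lit 0) (nat_lit 4668356472) (nat_lit 684) (nat_lit 4115124489) (nat_lit 76) (nat_lit 340403329) (nat_lit 217) (nat_lit 5) (nat_lit 226) (nat_lit 5) (nat_lit 218) (nat_lit 5) (nat_lit 444) (nat_lit 377) (nat_lit 319))))))))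
noncomputable def xc90 : XT := (XT.nd (nat_lit 1560) (nat_lit 4408) (nat_lit 0) (XT.nd (nat_lit 780) (nat_lit 2812) (nat_lit 0) (XT.nd (nat_lit 390) (nat_lit 1748) (nat_lit 0) (XT.nd (nat_lit 156) (nat_lit 1140) (nat_lit 0) (XT.nd (nat_lit 78) (nat_lit 76) (nat_lit 0) (XT.lf (nat_lit 0) (nat_lit 1571208720) (nat_lit 532) (nat_lit 5778988583) (nat_lit 608) (nat_lit 1864945560) (nat_lit 210) (nat_lit 5) (nat_lit 217) (nat_lit 5) (nat_lit 218) (nat_lit 5) (nat_lit 445) (nat_lit 377) (nat_lit 318)) (XT.lf (nat_lit 0) (nat_lit 760281197) (nat_lit 608) (nat_lit 1929686053) (nat_lit 76) (nat_lit 6618314882) (nat_lit 209) (nat_lit 5) (nat_lit 217) (nat_lit 5) (nat_lit 210) (nat_lit 5) (nat_lit 446) (nat_lit 377) (nat_lit 317))) (XT.nd (nat_lit 78) (nat_lit 532) (nat_lit 0) (XT.lf (nat_lit 0) (nat_lit 3407447594) (nat_lit 684) (nat_lit 5511810637) (nat_lit 76) (nat_lit 483908008) (nat_lit 201) (nat_lit 5) (nat_lit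 210) (nat_lit 5) (nat_lit 202) (nat_lit 5) (nat_lit 447) (nat_lit 377) (nat_lit 316)) (XT.nd (nat_lit 78) (nat_lit 0) (nat_lit 0) (XT.lf (nat_lit 0) (nat_lit 297973204) (nat_lit 532) (nat_lit 5808614305) (nat_lit 608) (nat_lit 3393396316) (nat_lit 194) (nat_lit 5) (nat_lit 201) (nat_lit 5) (nat_lit 202) (nat_lit 5) (nat_lit 448) (nat_lit 377) (nat_lit 315)) (XT.lf (nat_lit 0) (nat_lit 6255630664) (nat_lit 532) (nat_lit 2607695364) (nat_lit 608) (nat_lit 735355502) (nat_lit 194) (nat_lit 5) (nat_lit 201) (nat_lit 5) (nat_lit 202) (nat_lit 5) (nat_lit 449) (nat_lit 377) (nat_lit 314))))) (XT.nd (nat_lit 156) (nat_lit 1140) (nat_lit 0) (XT.nd (nat_lit 78) (nat_lit 0) (nat_lit 0) (XT.lf (nat_lit 0) (nat_lit 1938342861) (nat_lit 608) (nat_lit 7091964335) (nat_lit 76) (nat_lit 669036673) (nat_lit 186) (nat_lit 5) (nat_lit 194) (nat_lit 5) (nat_lit 187) (nat_lit 5) (nat_lit 450) (nat_lit 377) (nat_lit 313)) (XT.lf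 (nat_lit 0) (nat_lit 4662887915) (nat_lit 608) (nat_lit 1144692485) (nat_lit 76) (nat_lit 3994212611) (nat_lit 186) (nat_lit 5) (nat_lit 194) (nat_lit 5) (nat_lit 187) (nat_lit 5) (nat_lit 451) (nat_lit 377) (nat_lit 312))) (XT.nd (nat_lit 78) (nat_lit 608) (nat_lit 0) (XT.lf (nat_lit 0) (nat_lit 4944243756) (nat_lit 532) (nat_lit 2497779684) (nat_lit 608) (nat_lit 2464280562) (nat_lit 179) (nat_lit 5) (nat_lit 186) (nat_lit 5) (nat_lit 187) (nat_lit 5) (nat_lit 452) (nat_lit 377) (nat_lit 311)) (XT.nd (nat_lit 78) (nat_lit 0) (nat_lit 0) (XT.lf (nat_lit 0) (nat_lit 249310856) (nat_lit 608) (nat_lit 8890493211) (nat_lit 76) (nat_lit 873302472) (nat_lit 171) (nat_lit 5) (nat_lit 179) (nat_lit 5) (nat_lit 172) (nat_lit 5) (nat_lit 453) (nat_lit 377) (nat_lit 310)) (XT.lf (nat_lit 0) (nat_lit 3002682502) (nat_lit 608) (nat_lit 2800803008) (nat_lit 76) (nat_lit 4317877737) (nat_lit 171) (nat_lit 5) (nat_lit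 179) (nat_lit 5) (nat_lit 172) (nat_lit 5) (nat_lit 454) (nat_lit 377) (nat_lit 309)))))) (XT.nd (nat_lit 390) (nat_lit 1368) (nat_lit 0) (XT.nd (nat_lit 156) (nat_lit 988) (nat_lit 0) (XT.nd (nat_lit 78) (nat_lit 0) (nat_lit 0) (XT.lf (nat_lit 0) (nat_lit 3413702909) (nat_lit 456) (nat_lit 2388616157) (nat_lit 532) (nat_lit 4429655797) (nat_lit 165) (nat_lit 5) (nat_lit 171) (nat_lit 5) (nat_lit 172) (nat_lit 5) (nat_lit 455) (nat_lit 377) (nat_lit 308)) (XT.lf (nat_lit 0) (nat_lit 8653275190) (nat_lit 532) (nat_lit 603219626) (nat_lit 76) (nat_lit 1088410816) (nat_lit 165) (nat_lit 5) (nat_lit 172) (nat_lit 5) (nat_lit 166) (nat_lit 5) (nat_lit 456) (nat_lit 377) (nat_lit 307))) (XT.nd (nat_lit 78) (nat_lit 456) (nat_lit 0) (XT.lf (nat_lit 0) (nat_lit 1109937520) (nat_lit 532) (nat_lit 4712367516) (nat_lit 76) (nat_lit 4637195445) (nat_lit 158) (nat_lit 5) (nat_lit 165) (nat_lit 5) (nat_lit 159) (nat_lit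 5) (nat_lit 457) (nat_lit 377) (nat_lit 306)) (XT.nd (nat_lit 78) (nat_lit 0) (nat_lit 0) (XT.lf (nat_lit 0) (nat_lit 1625100696) (nat_lit 456) (nat_lit 2304449665) (nat_lit 532) (nat_lit 6646932625) (nat_lit 152) (nat_lit 5) (nat_lit 158) (nat_lit 5) (nat_lit 159) (nat_lit 5) (nat_lit 458) (nat_lit 377) (nat_lit 305)) (XT.lf (nat_lit 0) (nat_lit 6815986817) (nat_lit 532) (nat_lit 2592127319) (nat_lit 76) (nat_lit 1287494809) (nat_lit 152) (nat_lit 5) (nat_lit 159) (nat_lit 5) (nat_lit 153) (nat_lit 5) (nat_lit 459) (nat_lit 377) (nat_lit 304))))) (XT.nd (nat_lit 156) (nat_lit 836) (nat_lit 0) (XT.nd (nat_lit 78) (nat_lit 76) (nat_lit 0) (XT.lf (nat_lit 0) (nat_lit 3889269950) (nat_lit 456) (nat_lit 5882242509) (nat_lit 532) (nat_lit 1045389941) (nat_lit 146) (nat_lit 5) (nat_lit 152) (nat_lit 5) (nat_lit 153) (nat_lit 5) (nat_lit 460) (nat_lit 377) (nat_lit 303)) (XT.lf (nat_lit 0) (nat_lit 1809785400)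 (nat_lit 532) (nat_lit 457858680) (nat_lit 76) (nat_lit 8672980455) (nat_lit 145) (nat_lit 5) (nat_lit 152) (nat_lit 5) (nat_lit 146) (nat_lit 5) (nat_lit 461) (nat_lit 377) (nat_lit 302))) (XT.nd (nat_lit 78) (nat_lit 456) (nat_lit 0) (XT.lf (nat_lit 0) (nat_lit 4729146671) (nat_lit 456) (nat_lit 4900652242) (nat_lit 76) (nat_lit 1436473877) (nat_lit 140) (nat_lit 5) (nat_lit 146) (nat_lit 5) (nat_lit 141) (nat_lit 5) (nat_lit 462) (nat_lit 377) (nat_lit 301)) (XT.nd (nat_lit 78) (nat_lit 0) (nat_lit 0) (XT.lf (nat_lit 0) (nat_lit 1700313114) (nat_lit 456) (nat_lit 6007478505) (nat_lit 532) (nat_lit 3486635723) (nat_lit 134) (nat_lit 5) (nat_lit 140) (nat_lit 5) (nat_lit 141) (nat_lit 5) (nat_lit 463) (nat_lit 377) (nat_lit 300)) (XT.lf (nat_lit 0) (nat_lit 8459640749) (nat_lit 456) (nat_lit 2291294952) (nat_lit 532) (nat_lit 574121798) (nat_lit 134) (nat_lit 5) (nat_lit 140) (nat_lit 5) (nat_lit 141) (nat_lit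 5) (nat_lit 464) (nat_lit 377) (nat_lit 299))))))) (XT.nd (nat_lit 780) (nat_lit 1976) (nat_lit 0) (XT.nd (nat_lit 390) (nat_lit 1140) (nat_lit 0) (XT.nd (nat_lit 156) (nat_lit 836) (nat_lit 0) (XT.nd (nat_lit 78) (nat_lit 0) (nat_lit 0) (XT.lf (nat_lit 0) (nat_lit 2372799383) (nat_lit 456) (nat_lit 7576316501) (nat_lit 76) (nat_lit 1508731985) (nat_lit 128) (nat_lit 5) (nat_lit 134) (nat_lit 5) (nat_lit 129) (nat_lit 5) (nat_lit 465) (nat_lit 377) (nat_lit 298)) (XT.lf (nat_lit 0) (nat_lit 5378111688) (nat_lit 456) (nat_lit 849648434) (nat_lit 76) (nat_lit 5365325624) (nat_lit 128) (nat_lit 5) (nat_lit 134) (nat_lit 5) (nat_lit 129) (nat_lit 5) (nat_lit 466) (nat_lit 377) (nat_lit 297))) (XT.nd (nat_lit 78) (nat_lit 456) (nat_lit 0) (XT.lf (nat_lit 0) (nat_lit 6051810566) (nat_lit 380) (nat_lit 2404152306) (nat_lit 456) (nat_lit 3274827054) (nat_lit 123) (nat_lit 5) (nat_lit 128) (nat_lit 5) (nat_lit 129)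 (nat_lit 5) (nat_lit 467) (nat_lit 377) (nat_lit 296)) (XT.nd (nat_lit 78) (nat_lit 76) (nat_lit 0) (XT.lf (nat_lit 0) (nat_lit 1198330068) (nat_lit 380) (nat_lit 10393608250) (nat_lit 456) (nat_lit 279388525) (nat_lit 118) (nat_lit 5) (nat_lit 123) (nat_lit 5) (nat_lit 124) (nat_lit 5) (nat_lit 468) (nat_lit 377) (nat_lit 295)) (XT.lf (nat_lit 0) (nat_lit 2767254180) (nat_lit 456) (nat_lit 3797365761) (nat_lit 76) (nat_lit 5449149648) (nat_lit 117) (nat_lit 5) (nat_lit 123) (nat_lit 5) (nat_lit 118) (nat_lit 5) (nat_lit 469) (nat_lit 377) (nat_lit 294))))) (XT.nd (nat_lit 156) (nat_lit 760) (nat_lit 0) (XT.nd (nat_lit 78) (nat_lit 0) (nat_lit 0) (XT.lf (nat_lit 0) (nat_lit 3217476473) (nat_lit 380) (nat_lit 2648446673) (nat_lit 456) (nat_lit 6293213841) (nat_lit 112) (nat_lit 5) (nat_lit 117) (nat_lit 5) (nat_lit 118) (nat_lit 5) (nat_lit 470) (nat_lit 377) (nat_lit 293)) (XT.lf (nat_lit 0) (nat_lit 9035076841)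 (nat_lit 456) (nat_lit 1930558502) (nat_lit 76) (nat_lit 1341615400) (nat_lit 112) (nat_lit 5) (nat_lit 118) (nat_lit 5) (nat_lit 113) (nat_lit 5) (nat_lit 471) (nat_lit 377) (nat_lit 292))) (XT.nd (nat_lit 78) (nat_lit 456) (nat_lit 0) (XT.lf (nat_lit 0) (nat_lit 5233791765) (nat_lit 304) (nat_lit 7059970727) (nat_lit 380) (nat_lit 164050361) (nat_lit 108) (nat_lit 5) (nat_lit 112) (nat_lit 5) (nat_lit 113) (nat_lit 5) (nat_lit 472) (nat_lit 377) (nat_lit 291)) (XT.nd (nat_lit 78) (nat_lit 380) (nat_lit 0) (XT.lf (nat_lit 0) (nat_lit 2954554219) (nat_lit 380) (nat_lit 101303986) (nat_lit 76) (nat_lit 9555391416) (nat_lit 107) (nat_lit 5) (nat_lit 112) (nat_lit 5) (nat_lit 108) (nat_lit 5) (nat_lit 473) (nat_lit 377) (nat_lit 290)) (XT.lf (nat_lit 0) (nat_lit 6162327002) (nat_lit 456) (nat_lit 5554161821) (nat_lit 76) (nat_lit 1050673292) (nat_lit 102) (nat_lit 5) (nat_lit 108) (nat_lit 5) (nat_lit 103)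 (nat_lit 5) (nat_lit 474) (nat_lit 377) (nat_lit 289)))))) (XT.nd (nat_lit 390) (nat_lit 988) (nat_lit 0) (XT.nd (nat_lit 156) (nat_lit 684) (nat_lit 0) (XT.nd (nat_lit 78) (nat_lit 0) (nat_lit 0) (XT.lf (nat_lit 0) (nat_lit 1713420719) (nat_lit 304) (nat_lit 7728244902) (nat_lit 380) (nat_lit 3484387397) (nat_lit 98) (nat_lit 5) (nat_lit 102) (nat_lit 5) (nat_lit 103) (nat_lit 5) (nat_lit 475) (nat_lit 377) (nat_lit 288)) (XT.lf (nat_lit 0) (nat_lit 9164296635) (nat_lit 304) (nat_lit 3635170249) (nat_lit 380) (nat_lit 288405538) (nat_lit 98) (nat_lit 5) (nat_lit 102) (nat_lit 5) (nat_lit 103) (nat_lit 5) (nat_lit 476) (nat_lit 377) (nat_lit 287))) (XT.nd (nat_lit 78) (nat_lit 304) (nat_lit 0) (XT.lf (nat_lit 0) (nat_lit 2934870562) (nat_lit 380) (nat_lit 9755334273) (nat_lit 76) (nat_lit 562298480) (nat_lit 93) (nat_lit 5) (nat_lit 98) (nat_lit 5) (nat_lit 94) (nat_lit 5) (nat_lit 477) (nat_lit 377) (nat_lit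 286)) (XT.nd (nat_lit 78) (nat_lit 304) (nat_lit 0) (XT.lf (nat_lit 0) (nat_lit 6245398705) (nat_lit 380) (nat_lit 2363644989) (nat_lit 76) (nat_lit 4810819766) (nat_lit 93) (nat_lit 5) (nat_lit 98) (nat_lit 5) (nat_lit 94) (nat_lit 5) (nat_lit 478) (nat_lit 377) (nat_lit 285)) (XT.lf (nat_lit 0) (nat_lit 5207806547) (nat_lit 304) (nat_lit 4424679732) (nat_lit 380) (nat_lit 3957885130) (nat_lit 89) (nat_lit 5) (nat_lit 93) (nat_lit 5) (nat_lit 94) (nat_lit 5) (nat_lit 479) (nat_lit 377) (nat_lit 284))))) (XT.nd (nat_lit 234) (nat_lit 380) (nat_lit 0) (XT.nd (nat_lit 78) (nat_lit 608) (nat_lit 0) (XT.lf (nat_lit 0) (nat_lit 12926593386) (nat_lit 304) (nat_lit 153345324) (nat_lit 380) (nat_lit 684505773) (nat_lit 89) (nat_lit 5) (nat_lit 93) (nat_lit 5) (nat_lit 94) (nat_lit 5) (nat_lit 480) (nat_lit 377) (nat_lit 283)) (XT.nd (nat_lit 78) (nat_lit 228) (nat_lit 0) (XT.lf (nat_lit 0) (nat_lit 2668975616) (nat_lit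 380) (nat_lit 7073625661) (nat_lit 76) (nat_lit 4198071275) (nat_lit 84) (nat_lit 5) (nat_lit 89) (nat_lit 5) (nat_lit 85) (nat_lit 5) (nat_lit 481) (nat_lit 377) (nat_lit 282)) (XT.lf (nat_lit 0) (nat_lit 583270783) (nat_lit 228) (nat_lit 5484756776) (nat_lit 304) (nat_lit 8052560802) (nat_lit 81) (nat_lit 5) (nat_lit 84) (nat_lit 5) (nat_lit 85) (nat_lit 5) (nat_lit 482) (nat_lit 377) (nat_lit 281)))) (XT.nd (nat_lit 78) (nat_lit 380) (nat_lit 0) (XT.lf (nat_lit 0) (nat_lit 8453545671) (nat_lit 228) (nat_lit 1106394060) (nat_lit 304) (nat_lit 4743672036) (nat_lit 81) (nat_lit 5) (nat_lit 84) (nat_lit 5) (nat_lit 85) (nat_lit 5) (nat_lit 483) (nat_lit 377) (nat_lit 280)) (XT.nd (nat_lit 78) (nat_lit 76) (nat_lit 0) (XT.lf (nat_lit 0) (nat_lit 1959505373) (nat_lit 304) (nat_lit 11174490762) (nat_lit 380) (nat_lit 1356060113) (nat_lit 77) (nat_lit 5) (nat_lit 81) (nat_lit 5) (nat_lit 82) (nat_lit 5) (nat_lit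 484) (nat_lit 377) (nat_lit 279)) (XT.lf (nat_lit 0) (nat_lit 2096442414) (nat_lit 380) (nat_lit 4731474980) (nat_lit 76) (nat_lit 7851552669) (nat_lit 76) (nat_lit 5) (nat_lit 81) (nat_lit 5) (nat_lit 77) (nat_lit 5) (nat_lit 485) (nat_lit 377) (nat_lit 278))))))))
noncomputable def xc91 : XT := (XT.nd (nat_lit 51480) (nat_lit 0) (nat_lit 38760) (XT.nd (nat_lit 780) (nat_lit 1216) (nat_lit 0) (XT.nd (nat_lit 390) (nat_lit 532) (nat_lit 0) (XT.nd (nat_lit 156) (nat_lit 608) (nat_lit 0) (XT.nd (nat_lit 78) (nat_lit 0) (nat_lit 0) (XT.lf (nat_lit 0) (nat_lit 3222174248) (nat_lit 228) (nat_lit 2376862332) (nat_lit 304) (nat_lit 9273478659) (nat_lit 73) (nat_lit 5) (nat_lit 76) (nat_lit 5) (nat_lit 77) (nat_lit 5) (nat_lit 486) (nat_lit 377) (nat_lit 277)) (XT.lf (nat_lit 0) (nat_lit 9196068976) (nat_lit 304) (nat_lit 3718820614) (nat_lit 76) (nat_lit 2154050217) (nat_lit 73) (nat_lit 5) (nat_lit 77) (nat_lit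 5) (nat_lit 74) (nat_lit 5) (nat_lit 487) (nat_lit 377) (nat_lit 276))) (XT.nd (nat_lit 78) (nat_lit 304) (nat_lit 0) (XT.lf (nat_lit 0) (nat_lit 4378890005) (nat_lit 304) (nat_lit 8509127767) (nat_lit 380) (nat_lit 2380821673) (nat_lit 69) (nat_lit 5) (nat_lit 73) (nat_lit 5) (nat_lit 74) (nat_lit 5) (nat_lit 488) (nat_lit 377) (nat_lit 275)) (XT.nd (nat_lit 78) (nat_lit 228) (nat_lit 0) (XT.lf (nat_lit 0) (nat_lit 1169553836) (nat_lit 380) (nat_lit 2825298705) (nat_lit 76) (nat_lit 11477657521) (nat_lit 68) (nat_lit 5) (nat_lit 73) (nat_lit 5) (nat_lit 69) (nat_lit 5) (nat_lit 489) (nat_lit 377) (nat_lit 274)) (XT.lf (nat_lit 0) (nat_lit 4777776303) (nat_lit 304) (nat_lit 10261394601) (nat_lit 76) (nat_lit 640399814) (nat_lit 65) (nat_lit 5) (nat_lit 69) (nat_lit 5) (nat_lit 66) (nat_lit 5) (nat_lit 490) (nat_lit 377) (nat_lit 273))))) (XT.nd (nat_lit 156) (nat_lit 304) (nat_lit 0) (XT.nd (nat_lit 78)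 (nat_lit 228) (nat_lit 0) (XT.lf (nat_lit 0) (nat_lit 8483080815) (nat_lit 304) (nat_lit 2085791078) (nat_lit 76) (nat_lit 5321407970) (nat_lit 65) (nat_lit 5) (nat_lit 69) (nat_lit 5) (nat_lit 66) (nat_lit 5) (nat_lit 491) (nat_lit 377) (nat_lit 272)) (XT.lf (nat_lit 0) (nat_lit 6303014937) (nat_lit 228) (nat_lit 5980181031) (nat_lit 304) (nat_lit 3821598653) (nat_lit 62) (nat_lit 5) (nat_lit 65) (nat_lit 5) (nat_lit 66) (nat_lit 5) (nat_lit 492) (nat_lit 377) (nat_lit 271))) (XT.nd (nat_lit 78) (nat_lit 304) (nat_lit 0) (XT.lf (nat_lit 0) (nat_lit 14855112708) (nat_lit 228) (nat_lit 1298162430) (nat_lit 304) (nat_lit 170450713) (nat_lit 62) (nat_lit 5) (nat_lit 65) (nat_lit 5) (nat_lit 66) (nat_lit 5) (nat_lit 493) (nat_lit 377) (nat_lit 270)) (XT.nd (nat_lit 78) (nat_lit 0) (nat_lit 0) (XT.lf (nat_lit 0) (nat_lit 3556181248) (nat_lit 304) (nat_lit 9500545966) (nat_lit 76) (nat_lit 3488870856) (nat_lit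 58) (nat_lit 5) (nat_lit 62) (nat_lit 5) (nat_lit 59) (nat_lit 5) (nat_lit 494) (nat_lit 377) (nat_lit 269)) (XT.lf (nat_lit 0) (nat_lit 7353902965) (nat_lit 304) (nat_lit 1065089648) (nat_lit 76) (nat_lit 8352920896) (nat_lit 58) (nat_lit 5) (nat_lit 62) (nat_lit 5) (nat_lit 59) (nat_lit 5) (nat_lit 495) (nat_lit 377) (nat_lit 268)))))) (XT.nd (nat_lit 390) (nat_lit 456) (nat_lit 0) (XT.nd (nat_lit 156) (nat_lit 532) (nat_lit 0) (XT.nd (nat_lit 78) (nat_lit 0) (nat_lit 0) (XT.lf (nat_lit 0) (nat_lit 7606993935) (nat_lit 228) (nat_lit 3650680501) (nat_lit 304) (nat_lit 5744483915) (nat_lit 55) (nat_lit 5) (nat_lit 58) (nat_lit 5) (nat_lit 59) (nat_lit 5) (nat_lit 496) (nat_lit 377) (nat_lit 267)) (XT.lf (nat_lit 0) (nat_lit 15235388859) (nat_lit 304) (nat_lit 809776777) (nat_lit 76) (nat_lit 1191930003) (nat_lit 55) (nat_lit 5) (nat_lit 59) (nat_lit 5) (nat_lit 56) (nat_lit 5) (nat_lit 497) (nat_lit 377)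 (nat_lit 266))) (XT.nd (nat_lit 78) (nat_lit 228) (nat_lit 0) (XT.lf (nat_lit 0) (nat_lit 1849754626) (nat_lit 304) (nat_lit 9491059512) (nat_lit 76) (nat_lit 6134533545) (nat_lit 51) (nat_lit 5) (nat_lit 55) (nat_lit 5) (nat_lit 52) (nat_lit 5) (nat_lit 498) (nat_lit 377) (nat_lit 265)) (XT.nd (nat_lit 78) (nat_lit 228) (nat_lit 0) (XT.lf (nat_lit 0) (nat_lit 5738150207) (nat_lit 304) (nat_lit 797704591) (nat_lit 76) (nat_lit 11182515806) (nat_lit 51) (nat_lit 5) (nat_lit 55) (nat_lit 5) (nat_lit 52) (nat_lit 5) (nat_lit 499) (nat_lit 377) (nat_lit 264)) (XT.lf (nat_lit 0) (nat_lit 8145596092) (nat_lit 228) (nat_lit 1593185327) (nat_lit 304) (nat_lit 8226787739) (nat_lit 48) (nat_lit 5) (nat_lit 51) (nat_lit 5) (nat_lit 52) (nat_lit 5) (nat_lit 500) (nat_lit 377) (nat_lit 263))))) (XT.nd (nat_lit 156) (nat_lit 304) (nat_lit 0) (XT.nd (nat_lit 78) (nat_lit 152) (nat_lit 0) (XT.lf (nat_lit 0) (nat_lit 13828866710)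 (nat_lit 304) (nat_lit 992292798) (nat_lit 76) (nat_lit 3396367784) (nat_lit 48) (nat_lit 5) (nat_lit 52) (nat_lit 5) (nat_lit 49) (nat_lit 5) (nat_lit 501) (nat_lit 377) (nat_lit 262)) (XT.lf (nat_lit 0) (nat_lit 8077087620) (nat_lit 152) (nat_lit 9968682412) (nat_lit 228) (nat_lit 427858583) (nat_lit 46) (nat_lit 5) (nat_lit 48) (nat_lit 5) (nat_lit 49) (nat_lit 5) (nat_lit 502) (nat_lit 377) (nat_lit 261))) (XT.nd (nat_lit 78) (nat_lit 228) (nat_lit 0) (XT.lf (nat_lit 0) (nat_lit 3553547105) (nat_lit 228) (nat_lit 1447187698) (nat_lit 76) (nat_lit 13733877058) (nat_lit 45) (nat_lit 5) (nat_lit 48) (nat_lit 5) (nat_lit 46) (nat_lit 5) (nat_lit 503) (nat_lit 377) (nat_lit 260)) (XT.nd (nat_lit 49998) (nat_lit 0) (nat_lit 46284) (XT.lf (nat_lit 0) (nat_lit 7642293556) (nat_lit 304) (nat_lit 11250532822) (nat_lit 76) (nat_lit 107267099) (nat_lit 42) (nat_lit 5) (nat_lit 46) (nat_lit 5) (nat_lit 43) (nat_lit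 5) (nat_lit 504) (nat_lit 377) (nat_lit 259)) (XT.lf (nat_lit 0) (nat_lit 3054828983) (nat_lit 76) (nat_lit 85152767) (nat_lit 76) (nat_lit 85152767) (nat_lit 651) (nat_lit 4) (nat_lit 652) (nat_lit 5) (nat_lit 652) (nat_lit 4) (nat_lit 384) (nat_lit 378) (nat_lit 378))))))) (XT.nd (nat_lit 780) (nat_lit 5092) (nat_lit 0) (XT.nd (nat_lit 390) (nat_lit 1520) (nat_lit 0) (XT.nd (nat_lit 156) (nat_lit 684) (nat_lit 0) (XT.nd (nat_lit 78) (nat_lit 0) (nat_lit 0) (XT.lf (nat_lit 0) (nat_lit 2861670242) (nat_lit 228) (nat_lit 3546565387) (nat_lit 0) (nat_lit 46455202) (nat_lit 648) (nat_lit 5) (nat_lit 651) (nat_lit 4) (nat_lit 648) (nat_lit 4) (nat_lit 385) (nat_lit 378) (nat_lit 377)) (XT.lf (nat_lit 0) (nat_lit 5878460554) (nat_lit 228) (nat_lit 279042985) (nat_lit 0) (nat_lit 303230769) (nat_lit 648) (nat_lit 5) (nat_lit 651) (nat_lit 4) (nat_lit 648) (nat_lit 4) (nat_lit 386) (nat_lit 378) (nat_lit 376)))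 (XT.nd (nat_lit 78) (nat_lit 380) (nat_lit 0) (XT.lf (nat_lit 0) (nat_lit 2399938376) (nat_lit 304) (nat_lit 3433251073) (nat_lit 76) (nat_lit 634589812) (nat_lit 644) (nat_lit 5) (nat_lit 648) (nat_lit 5) (nat_lit 645) (nat_lit 4) (nat_lit 387) (nat_lit 378) (nat_lit 375)) (XT.nd (nat_lit 78) (nat_lit 380) (nat_lit 0) (XT.lf (nat_lit 0) (nat_lit 5361052976) (nat_lit 304) (nat_lit 104639589) (nat_lit 76) (nat_lit 1010734445) (nat_lit 644) (nat_lit 5) (nat_lit 648) (nat_lit 5) (nat_lit 645) (nat_lit 4) (nat_lit 388) (nat_lit 378) (nat_lit 374)) (XT.lf (nat_lit 0) (nat_lit 1818846722) (nat_lit 380) (nat_lit 3207765843) (nat_lit 76) (nat_lit 1459514339) (nat_lit 639) (nat_lit 5) (nat_lit 644) (nat_lit 5) (nat_lit 640) (nat_lit 5) (nat_lit 389) (nat_lit 378) (nat_lit 373))))) (XT.nd (nat_lit 156) (nat_lit 1064) (nat_lit 0) (XT.nd (nat_lit 78) (nat_lit 76) (nat_lit 0) (XT.lf (nat_lit 0) (nat_lit 185583531) (nat_lit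 380) (nat_lit 4540395639) (nat_lit 456) (nat_lit 1771386290) (nat_lit 634) (nat_lit 5) (nat_lit 639) (nat_lit 5) (nat_lit 640) (nat_lit 5) (nat_lit 390) (nat_lit 378) (nat_lit 372)) (XT.lf (nat_lit 0) (nat_lit 1116418930) (nat_lit 456) (nat_lit 2870571227) (nat_lit 76) (nat_lit 2522767495) (nat_lit 633) (nat_lit 5) (nat_lit 639) (nat_lit 5) (nat_lit 634) (nat_lit 5) (nat_lit 391) (nat_lit 378) (nat_lit 371))) (XT.nd (nat_lit 78) (nat_lit 608) (nat_lit 0) (XT.lf (nat_lit 0) (nat_lit 591733226) (nat_lit 456) (nat_lit 3379640124) (nat_lit 532) (nat_lit 2552198935) (nat_lit 627) (nat_lit 5) (nat_lit 633) (nat_lit 5) (nat_lit 634) (nat_lit 5) (nat_lit 392) (nat_lit 378) (nat_lit 370)) (XT.nd (nat_lit 78) (nat_lit 532) (nat_lit 0) (XT.lf (nat_lit 0) (nat_lit 290442473) (nat_lit 532) (nat_lit 2421928418) (nat_lit 76) (nat_lit 3826331405) (nat_lit 626) (nat_lit 5) (nat_lit 633) (nat_lit 5) (nat_lit 627) (nat_lit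 5) (nat_lit 393) (nat_lit 378) (nat_lit 369)) (XT.lf (nat_lit 0) (nat_lit 1112264944) (nat_lit 532) (nat_lit 1981950313) (nat_lit 608) (nat_lit 3460880115) (nat_lit 619) (nat_lit 5) (nat_lit 626) (nat_lit 5) (nat_lit 627) (nat_lit 5) (nat_lit 394) (nat_lit 378) (nat_lit 368)))))) (XT.nd (nat_lit 390) (nat_lit 3648) (nat_lit 0) (XT.nd (nat_lit 156) (nat_lit 760) (nat_lit 0) (XT.nd (nat_lit 78) (nat_lit 684) (nat_lit 0) (XT.lf (nat_lit 0) (nat_lit 4706657832) (nat_lit 532) (nat_lit 1195924876) (nat_lit 608) (nat_lit 670328820) (nat_lit 619) (nat_lit 5) (nat_lit 626) (nat_lit 5) (nat_lit 627) (nat_lit 5) (nat_lit 395) (nat_lit 378) (nat_lit 367)) (XT.lf (nat_lit 0) (nat_lit 1747224323) (nat_lit 608) (nat_lit 344705902) (nat_lit 684) (nat_lit 4500045560) (nat_lit 610) (nat_lit 5) (nat_lit 618) (nat_lit 5) (nat_lit 619) (nat_lit 5) (nat_lit 396) (nat_lit 378) (nat_lit 366))) (XT.nd (nat_lit 78) (nat_lit 760)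 (nat_lit 0) (XT.lf (nat_lit 0) (nat_lit 4850743998) (nat_lit 684) (nat_lit 1205481285) (nat_lit 76) (nat_lit 556163543) (nat_lit 610) (nat_lit 5) (nat_lit 619) (nat_lit 5) (nat_lit 611) (nat_lit 5) (nat_lit 397) (nat_lit 378) (nat_lit 365)) (XT.nd (nat_lit 78) (nat_lit 0) (nat_lit 0) (XT.lf (nat_lit 0) (nat_lit 971661448) (nat_lit 760) (nat_lit 4147375177) (nat_lit 76) (nat_lit 1515025650) (nat_lit 600) (nat_lit 5) (nat_lit 610) (nat_lit 5) (nat_lit 601) (nat_lit 5) (nat_lit 398) (nat_lit 378) (nat_lit 364)) (XT.lf (nat_lit 0) (nat_lit 3680272719) (nat_lit 760) (nat_lit 443090823) (nat_lit 76) (nat_lit 2533746473) (nat_lit 600) (nat_lit 5) (nat_lit 610) (nat_lit 5) (nat_lit 601) (nat_lit 5) (nat_lit 399) (nat_lit 378) (nat_lit 363))))) (XT.nd (nat_lit 234) (nat_lit 1976) (nat_lit 0) (XT.nd (nat_lit 78) (nat_lit 912) (nat_lit 0) (XT.lf (nat_lit 0) (nat_lit 3335492657) (nat_lit 760) (nat_lit 3066535725) (nat_lit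 836) (nat_lit 279467995) (nat_lit 590) (nat_lit 5) (nat_lit 600) (nat_lit 5) (nat_lit 601) (nat_lit 5) (nat_lit 400) (nat_lit 378) (nat_lit 362)) (XT.nd (nat_lit 78) (nat_lit 0) (nat_lit 0) (XT.lf (nat_lit 0) (nat_lit 434850339) (nat_lit 836) (nat_lit 1948196165) (nat_lit 912) (nat_lit 4324185549) (nat_lit 578) (nat_lit 5) (nat_lit 589) (nat_lit 5) (nat_lit 590) (nat_lit 5) (nat_lit 401) (nat_lit 378) (nat_lit 361)) (XT.lf (nat_lit 0) (nat_lit 4290965125) (nat_lit 836) (nat_lit 765283999) (nat_lit 912) (nat_lit 1678026592) (nat_lit 578) (nat_lit 5) (nat_lit 589) (nat_lit 5) (nat_lit 590) (nat_lit 5) (nat_lit 402) (nat_lit 378) (nat_lit 360)))) (XT.nd (nat_lit 78) (nat_lit 988) (nat_lit 0) (XT.lf (nat_lit 0) (nat_lit 959518302) (nat_lit 988) (nat_lit 5335240325) (nat_lit 76) (nat_lit 467983686) (nat_lit 565) (nat_lit 5) (nat_lit 578) (nat_lit 5) (nat_lit 566) (nat_lit 5) (nat_lit 403) (nat_lit 378) (nat_lit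 359)) (XT.nd (nat_lit 78) (nat_lit 988) (nat_lit 0) (XT.lf (nat_lit 0) (nat_lit 3589433595) (nat_lit 988) (nat_lit 1443781374) (nat_lit 76) (nat_lit 1759150385) (nat_lit 565) (nat_lit 5) (nat_lit 578) (nat_lit 5) (nat_lit 566) (nat_lit 5) (nat_lit 404) (nat_lit 378) (nat_lit 358)) (XT.lf (nat_lit 0) (nat_lit 2514472611) (nat_lit 988) (nat_lit 3715461663) (nat_lit 1064) (nat_lit 593536562) (nat_lit 552) (nat_lit 5) (nat_lit 565) (nat_lit 5) (nat_lit 566) (nat_lit 5) (nat_lit 405) (nat_lit 378) (nat_lit 357))))))))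
noncomputable def xc92 : XT := (XT.nd (nat_lit 1560) (nat_lit 9652) (nat_lit 0) (XT.nd (nat_lit 780) (nat_lit 8588) (nat_lit 0) (XT.nd (nat_lit 390) (nat_lit 4256) (nat_lit 0) (XT.nd (nat_lit 156) (nat_lit 2432) (nat_lit 0) (XT.nd (nat_lit 78) (nat_lit 1064) (nat_lit 0) (XT.lf (nat_lit 0) (nat_lit 1992769149) (nat_lit 1064) (nat_lit 341573135) (nat_lit 76) (nat_lit 4521598482) (nat_lit 551) (nat_lit 5) (nat_lit 565) (nat_lit 5) (nat_lit 552) (nat_lit 5) (nat_lit 406) (nat_lit 378) (nat_lit 356)) (XT.lf (nat_lit 0) (nat_lit 3706211005) (nat_lit 1064) (nat_lit 883941278) (nat_lit 1140) (nat_lit 2299530222) (nat_lit 537) (nat_lit 5) (nat_lit 551) (nat_lit 5) (nat_lit 552) (nat_lit 5) (nat_lit 407) (nat_lit 378) (nat_lit 355))) (XT.nd (nat_lit 78) (nat_lit 1216) (nat_lit 0) (XT.lf (nat_lit 0) (nat_lit 266929894) (nat_lit 1216) (nat_lit 6048237536) (nat_lit 76) (nat_lit 609822083) (nat_lit 521) (nat_lit 5) (nat_lit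 537) (nat_lit 5) (nat_lit 522) (nat_lit 5) (nat_lit 408) (nat_lit 378) (nat_lit 354)) (XT.nd (nat_lit 78) (nat_lit 1216) (nat_lit 0) (XT.lf (nat_lit 0) (nat_lit 2825855101) (nat_lit 1216) (nat_lit 1965579744) (nat_lit 76) (nat_lit 2169869436) (nat_lit 521) (nat_lit 5) (nat_lit 537) (nat_lit 5) (nat_lit 522) (nat_lit 5) (nat_lit 409) (nat_lit 378) (nat_lit 353)) (XT.lf (nat_lit 0) (nat_lit 2183134991) (nat_lit 1216) (nat_lit 3212625294) (nat_lit 1292) (nat_lit 1603432315) (nat_lit 505) (nat_lit 5) (nat_lit 521) (nat_lit 5) (nat_lit 522) (nat_lit 5) (nat_lit 410) (nat_lit 378) (nat_lit 352))))) (XT.nd (nat_lit 156) (nat_lit 2888) (nat_lit 0) (XT.nd (nat_lit 78) (nat_lit 1292) (nat_lit 0) (XT.lf (nat_lit 0) (nat_lit 925670786) (nat_lit 1292) (nat_lit 647248571) (nat_lit 76) (nat_lit 5465648004) (nat_lit 504) (nat_lit 5) (nat_lit 521) (nat_lit 5) (nat_lit 505) (nat_lit 5) (nat_lit 411) (nat_lit 378) (nat_lit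 351)) (XT.lf (nat_lit 0) (nat_lit 3455265095) (nat_lit 1368) (nat_lit 3482398161) (nat_lit 76) (nat_lit 141467593) (nat_lit 487) (nat_lit 5) (nat_lit 505) (nat_lit 5) (nat_lit 488) (nat_lit 5) (nat_lit 412) (nat_lit 378) (nat_lit 350))) (XT.nd (nat_lit 78) (nat_lit 1520) (nat_lit 0) (XT.lf (nat_lit 0) (nat_lit 768916039) (nat_lit 1368) (nat_lit 5234197505) (nat_lit 1444) (nat_lit 1118078805) (nat_lit 469) (nat_lit 5) (nat_lit 487) (nat_lit 5) (nat_lit 488) (nat_lit 5) (nat_lit 413) (nat_lit 378) (nat_lit 349)) (XT.nd (nat_lit 78) (nat_lit 1444) (nat_lit 0) (XT.lf (nat_lit 0) (nat_lit 1390725986) (nat_lit 1444) (nat_lit 2065760326) (nat_lit 76) (nat_lit 3708025307) (nat_lit 468) (nat_lit 5) (nat_lit 487) (nat_lit 5) (nat_lit 469) (nat_lit 5) (nat_lit 414) (nat_lit 378) (nat_lit 348)) (XT.lf (nat_lit 0) (nat_lit 2284827897) (nat_lit 1444) (nat_lit 1614007432) (nat_lit 1520) (nat_lit 3310469827) (nat_lit 449)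 (nat_lit 5) (nat_lit 468) (nat_lit 5) (nat_lit 469) (nat_lit 5) (nat_lit 415) (nat_lit 378) (nat_lit 347)))))) (XT.nd (nat_lit 390) (nat_lit 3648) (nat_lit 0) (XT.nd (nat_lit 156) (nat_lit 3344) (nat_lit 0) (XT.nd (nat_lit 78) (nat_lit 1596) (nat_lit 0) (XT.lf (nat_lit 0) (nat_lit 6422784101) (nat_lit 1520) (nat_lit 551107947) (nat_lit 76) (nat_lit 281825913) (nat_lit 449) (nat_lit 5) (nat_lit 469) (nat_lit 5) (nat_lit 450) (nat_lit 5) (nat_lit 416) (nat_lit 378) (nat_lit 346)) (XT.lf (nat_lit 0) (nat_lit 1658843002) (nat_lit 1596) (nat_lit 3408121818) (nat_lit 76) (nat_lit 2236171533) (nat_lit 428) (nat_lit 5) (nat_lit 449) (nat_lit 5) (nat_lit 429) (nat_lit 5) (nat_lit 417) (nat_lit 378) (nat_lit 345))) (XT.nd (nat_lit 78) (nat_lit 1748) (nat_lit 0) (XT.lf (nat_lit 0) (nat_lit 1049813394) (nat_lit 1596) (nat_lit 3101340464) (nat_lit 1672) (nat_lit 3201036923) (nat_lit 407) (nat_lit 5) (nat_lit 428) (nat_lit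 5) (nat_lit 429) (nat_lit 5) (nat_lit 418) (nat_lit 378) (nat_lit 344)) (XT.nd (nat_lit 78) (nat_lit 1748) (nat_lit 0) (XT.lf (nat_lit 0) (nat_lit 5598882944) (nat_lit 1596) (nat_lit 1069268234) (nat_lit 1672) (nat_lit 734612445) (nat_lit 407) (nat_lit 5) (nat_lit 428) (nat_lit 5) (nat_lit 429) (nat_lit 5) (nat_lit 419) (nat_lit 378) (nat_lit 343)) (XT.lf (nat_lit 0) (nat_lit 1735034056) (nat_lit 1748) (nat_lit 4696201498) (nat_lit 76) (nat_lit 1023368815) (nat_lit 384) (nat_lit 5) (nat_lit 407) (nat_lit 5) (nat_lit 385) (nat_lit 5) (nat_lit 420) (nat_lit 378) (nat_lit 342))))) (XT.nd (nat_lit 156) (nat_lit 1900) (nat_lit 0) (XT.nd (nat_lit 78) (nat_lit 1748) (nat_lit 0) (XT.lf (nat_lit 0) (nat_lit 4216745480) (nat_lit 1748) (nat_lit 127598630) (nat_lit 76) (nat_lit 3163622696) (nat_lit 384) (nat_lit 5) (nat_lit 407) (nat_lit 5) (nat_lit 385) (nat_lit 5) (nat_lit 421) (nat_lit 378) (nat_lit 341)) (XT.lf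 (nat_lit 0) (nat_lit 4548186800) (nat_lit 1748) (nat_lit 2183584036) (nat_lit 1824) (nat_lit 830983591) (nat_lit 361) (nat_lit 5) (nat_lit 384) (nat_lit 5) (nat_lit 385) (nat_lit 5) (nat_lit 422) (nat_lit 378) (nat_lit 340))) (XT.nd (nat_lit 78) (nat_lit 912) (nat_lit 0) (XT.lf (nat_lit 0) (nat_lit 1622860184) (nat_lit 988) (nat_lit 5952044302) (nat_lit 76) (nat_lit 44217375) (nat_lit 348) (nat_lit 5) (nat_lit 361) (nat_lit 5) (nat_lit 349) (nat_lit 5) (nat_lit 423) (nat_lit 378) (nat_lit 339)) (XT.nd (nat_lit 78) (nat_lit 912) (nat_lit 0) (XT.lf (nat_lit 0) (nat_lit 4104539823) (nat_lit 988) (nat_lit 1257923325) (nat_lit 76) (nat_lit 2314275634) (nat_lit 348) (nat_lit 5) (nat_lit 361) (nat_lit 5) (nat_lit 349) (nat_lit 5) (nat_lit 424) (nat_lit 378) (nat_lit 338)) (XT.lf (nat_lit 0) (nat_lit 3532455742) (nat_lit 912) (nat_lit 3082265035) (nat_lit 988) (nat_lit 1121239040) (nat_lit 336) (nat_lit 5) (nat_lit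 348) (nat_lit 5) (nat_lit 349) (nat_lit 5) (nat_lit 425) (nat_lit 378) (nat_lit 337))))))) (XT.nd (nat_lit 780) (nat_lit 4712) (nat_lit 0) (XT.nd (nat_lit 390) (nat_lit 2356) (nat_lit 0) (XT.nd (nat_lit 156) (nat_lit 1672) (nat_lit 0) (XT.nd (nat_lit 78) (nat_lit 0) (nat_lit 0) (XT.lf (nat_lit 0) (nat_lit 594006257) (nat_lit 836) (nat_lit 735202380) (nat_lit 912) (nat_lit 6467634579) (nat_lit 324) (nat_lit 5) (nat_lit 335) (nat_lit 5) (nat_lit 336) (nat_lit 5) (nat_lit 426) (nat_lit 378) (nat_lit 336)) (XT.lf (nat_lit 0) (nat_lit 3809595980) (nat_lit 912) (nat_lit 2377185943) (nat_lit 76) (nat_lit 1672122699) (nat_lit 324) (nat_lit 5) (nat_lit 336) (nat_lit 5) (nat_lit 325) (nat_lit 5) (nat_lit 427) (nat_lit 378) (nat_lit 335))) (XT.nd (nat_lit 78) (nat_lit 836) (nat_lit 0) (XT.lf (nat_lit 0) (nat_lit 2529291169) (nat_lit 836) (nat_lit 3789203859) (nat_lit 912) (nat_lit 1604161060) (nat_lit 313) (nat_lit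 5) (nat_lit 324) (nat_lit 5) (nat_lit 325) (nat_lit 5) (nat_lit 428) (nat_lit 378) (nat_lit 334)) (XT.nd (nat_lit 78) (nat_lit 760) (nat_lit 0) (XT.lf (nat_lit 0) (nat_lit 852133716) (nat_lit 912) (nat_lit 471412382) (nat_lit 76) (nat_lit 6664568490) (nat_lit 312) (nat_lit 5) (nat_lit 324) (nat_lit 5) (nat_lit 313) (nat_lit 5) (nat_lit 429) (nat_lit 378) (nat_lit 333)) (XT.lf (nat_lit 0) (nat_lit 3332338591) (nat_lit 836) (nat_lit 3508245408) (nat_lit 76) (nat_lit 1214186269) (nat_lit 302) (nat_lit 5) (nat_lit 313) (nat_lit 5) (nat_lit 303) (nat_lit 5) (nat_lit 430) (nat_lit 378) (nat_lit 332))))) (XT.nd (nat_lit 156) (nat_lit 1520) (nat_lit 0) (XT.nd (nat_lit 78) (nat_lit 76) (nat_lit 0) (XT.lf (nat_lit 0) (nat_lit 1515649041) (nat_lit 760) (nat_lit 4327487358) (nat_lit 836) (nat_lit 2280027747) (nat_lit 292) (nat_lit 5) (nat_lit 302) (nat_lit 5) (nat_lit 303) (nat_lit 5) (nat_lit 431) (nat_lit 378) (nat_lit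 331)) (XT.lf (nat_lit 0) (nat_lit 191576413) (nat_lit 836) (nat_lit 1550637720) (nat_lit 76) (nat_lit 6451045787) (nat_lit 291) (nat_lit 5) (nat_lit 302) (nat_lit 5) (nat_lit 292) (nat_lit 5) (nat_lit 432) (nat_lit 378) (nat_lit 330))) (XT.nd (nat_lit 78) (nat_lit 760) (nat_lit 0) (XT.lf (nat_lit 0) (nat_lit 2671720404) (nat_lit 836) (nat_lit 4674772186) (nat_lit 76) (nat_lit 918194283) (nat_lit 281) (nat_lit 5) (nat_lit 292) (nat_lit 5) (nat_lit 282) (nat_lit 5) (nat_lit 433) (nat_lit 378) (nat_lit 329)) (XT.nd (nat_lit 78) (nat_lit 0) (nat_lit 0) (XT.lf (nat_lit 0) (nat_lit 467626219) (nat_lit 760) (nat_lit 4719585093) (nat_lit 836) (nat_lit 3150639139) (nat_lit 271) (nat_lit 5) (nat_lit 281) (nat_lit 5) (nat_lit 282) (nat_lit 5) (nat_lit 434) (nat_lit 378) (nat_lit 328)) (XT.lf (nat_lit 0) (nat_lit 5732665711) (nat_lit 760) (nat_lit 2012899818) (nat_lit 836) (nat_lit 667083220) (nat_lit 271) (nat_lit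 5) (nat_lit 281) (nat_lit 5) (nat_lit 282) (nat_lit 5) (nat_lit 435) (nat_lit 378) (nat_lit 327)))))) (XT.nd (nat_lit 390) (nat_lit 2584) (nat_lit 0) (XT.nd (nat_lit 156) (nat_lit 1368) (nat_lit 0) (XT.nd (nat_lit 78) (nat_lit 0) (nat_lit 0) (XT.lf (nat_lit 0) (nat_lit 1825188890) (nat_lit 760) (nat_lit 5901468814) (nat_lit 76) (nat_lit 762394230) (nat_lit 261) (nat_lit 5) (nat_lit 271) (nat_lit 5) (nat_lit 262) (nat_lit 5) (nat_lit 436) (nat_lit 378) (nat_lit 326)) (XT.lf (nat_lit 0) (nat_lit 4351926229) (nat_lit 760) (nat_lit 631374249) (nat_lit 76) (nat_lit 3583744693) (nat_lit 261) (nat_lit 5) (nat_lit 271) (nat_lit 5) (nat_lit 262) (nat_lit 5) (nat_lit 437) (nat_lit 378) (nat_lit 325))) (XT.nd (nat_lit 78) (nat_lit 684) (nat_lit 0) (XT.lf (nat_lit 0) (nat_lit 4763744776) (nat_lit 684) (nat_lit 2159235891) (nat_lit 760) (nat_lit 1723762762) (nat_lit 252) (nat_lit 5) (nat_lit 261) (nat_lit 5) (nat_lit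 262) (nat_lit 5) (nat_lit 438) (nat_lit 378) (nat_lit 324)) (XT.nd (nat_lit 78) (nat_lit 0) (nat_lit 0) (XT.lf (nat_lit 0) (nat_lit 788640312) (nat_lit 684) (nat_lit 7214303570) (nat_lit 76) (nat_lit 725366814) (nat_lit 243) (nat_lit 5) (nat_lit 252) (nat_lit 5) (nat_lit 244) (nat_lit 5) (nat_lit 439) (nat_lit 378) (nat_lit 323)) (XT.lf (nat_lit 0) (nat_lit 3332208674) (nat_lit 684) (nat_lit 1808797423) (nat_lit 76) (nat_lit 3670214964) (nat_lit 243) (nat_lit 5) (nat_lit 252) (nat_lit 5) (nat_lit 244) (nat_lit 5) (nat_lit 440) (nat_lit 378) (nat_lit 322))))) (XT.nd (nat_lit 234) (nat_lit 1216) (nat_lit 0) (XT.nd (nat_lit 78) (nat_lit 684) (nat_lit 0) (XT.lf (nat_lit 0) (nat_lit 3710830625) (nat_lit 684) (nat_lit 2204075395) (nat_lit 760) (nat_lit 2981137679) (nat_lit 234) (nat_lit 5) (nat_lit 243) (nat_lit 5) (nat_lit 244) (nat_lit 5) (nat_lit 441) (nat_lit 378) (nat_lit 321)) (XT.nd (nat_lit 78) (nat_lit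 76) (nat_lit 0) (XT.lf (nat_lit 0) (nat_lit 339221380) (nat_lit 608) (nat_lit 8194143032) (nat_lit 684) (nat_lit 449535078) (nat_lit 226) (nat_lit 5) (nat_lit 234) (nat_lit 5) (nat_lit 235) (nat_lit 5) (nat_lit 442) (nat_lit 378) (nat_lit 320)) (XT.lf (nat_lit 0) (nat_lit 2119065221) (nat_lit 684) (nat_lit 3098300226) (nat_lit 76) (nat_lit 3853581393) (nat_lit 225) (nat_lit 5) (nat_lit 234) (nat_lit 5) (nat_lit 226) (nat_lit 5) (nat_lit 443) (nat_lit 378) (nat_lit 319)))) (XT.nd (nat_lit 78) (nat_lit 608) (nat_lit 0) (XT.lf (nat_lit 0) (nat_lit 2545986158) (nat_lit 608) (nat_lit 2168973753) (nat_lit 684) (nat_lit 4446114721) (nat_lit 217) (nat_lit 5) (nat_lit 225) (nat_lit 5) (nat_lit 226) (nat_lit 5) (nat_lit 444) (nat_lit 378) (nat_lit 318)) (XT.nd (nat_lit 78) (nat_lit 608) (nat_lit 0) (XT.lf (nat_lit 0) (nat_lit 7355565995) (nat_lit 684) (nat_lit 956459558) (nat_lit 76) (nat_lit 941140964) (nat_lit 217)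 (nat_lit 5) (nat_lit 226) (nat_lit 5) (nat_lit 218) (nat_lit 5) (nat_lit 445) (nat_lit 378) (nat_lit 317)) (XT.lf (nat_lit 0) (nat_lit 704845802) (nat_lit 608) (nat_lit 4529234209) (nat_lit 76) (nat_lit 4112702472) (nat_lit 209) (nat_lit 5) (nat_lit 217) (nat_lit 5) (nat_lit 210) (nat_lit 5) (nat_lit 446) (nat_lit 378) (nat_lit 316))))))))
noncomputable def xc93 : XT := (XT.nd (nat_lit 1560) (nat_lit 4180) (nat_lit 0) (XT.nd (nat_lit 780) (nat_lit 2812) (nat_lit 0) (XT.nd (nat_lit 390) (nat_lit 1596) (nat_lit 0) (XT.nd (nat_lit 156) (nat_lit 1140) (nat_lit 0) (XT.nd (nat_lit 78) (nat_lit 0) (nat_lit 0) (XT.lf (nat_lit 0) (nat_lit 1239374834) (nat_lit 608) (nat_lit 2075670592) (nat_lit 684) (nat_lit 6127368620) (nat_lit 201) (nat_lit 5) (nat_lit 209) (nat_lit 5) (nat_lit 210) (nat_lit 5) (nat_lit 447) (nat_lit 378) (nat_lit 315)) (XT.lf (nat_lit 0) (nat_lit 5982391930) (nat_lit 684) (nat_lit 2404712294) (nat_lit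 76) (nat_lit 1152771238) (nat_lit 201) (nat_lit 5) (nat_lit 210) (nat_lit 5) (nat_lit 202) (nat_lit 5) (nat_lit 448) (nat_lit 378) (nat_lit 314))) (XT.nd (nat_lit 78) (nat_lit 608) (nat_lit 0) (XT.lf (nat_lit 0) (nat_lit 3500100549) (nat_lit 532) (nat_lit 5207012887) (nat_lit 608) (nat_lit 932107876) (nat_lit 194) (nat_lit 5) (nat_lit 201) (nat_lit 5) (nat_lit 202) (nat_lit 5) (nat_lit 449) (nat_lit 378) (nat_lit 313)) (XT.nd (nat_lit 78) (nat_lit 532) (nat_lit 0) (XT.lf (nat_lit 0) (nat_lit 1706819718) (nat_lit 608) (nat_lit 237876184) (nat_lit 76) (nat_lit 7795967823) (nat_lit 193) (nat_lit 5) (nat_lit 201) (nat_lit 5) (nat_lit 194) (nat_lit 5) (nat_lit 450) (nat_lit 378) (nat_lit 312)) (XT.lf (nat_lit 0) (nat_lit 4401320731) (nat_lit 608) (nat_lit 4042678292) (nat_lit 76) (nat_lit 1399722080) (nat_lit 186) (nat_lit 5) (nat_lit 194) (nat_lit 5) (nat_lit 187) (nat_lit 5) (nat_lit 451) (nat_lit 378) (nat_lit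 311))))) (XT.nd (nat_lit 156) (nat_lit 1064) (nat_lit 0) (XT.nd (nat_lit 78) (nat_lit 0) (nat_lit 0) (XT.lf (nat_lit 0) (nat_lit 1987028141) (nat_lit 532) (nat_lit 5158696101) (nat_lit 608) (nat_lit 2803209703) (nat_lit 179) (nat_lit 5) (nat_lit 186) (nat_lit 5) (nat_lit 187) (nat_lit 5) (nat_lit 452) (nat_lit 378) (nat_lit 310)) (XT.lf (nat_lit 0) (nat_lit 8151100282) (nat_lit 532) (nat_lit 1790018584) (nat_lit 608) (nat_lit 115224395) (nat_lit 179) (nat_lit 5) (nat_lit 186) (nat_lit 5) (nat_lit 187) (nat_lit 5) (nat_lit 453) (nat_lit 378) (nat_lit 309))) (XT.nd (nat_lit 78) (nat_lit 456) (nat_lit 0) (XT.lf (nat_lit 0) (nat_lit 2600088979) (nat_lit 608) (nat_lit 5905681323) (nat_lit 76) (nat_lit 1659642813) (nat_lit 171) (nat_lit 5) (nat_lit 179) (nat_lit 5) (nat_lit 172) (nat_lit 5) (nat_lit 454) (nat_lit 378) (nat_lit 308)) (XT.nd (nat_lit 78) (nat_lit 0) (nat_lit 0) (XT.lf (nat_lit 0) (nat_lit 247030340)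 (nat_lit 456) (nat_lit 5117105682) (nat_lit 532) (nat_lit 4912607161) (nat_lit 165) (nat_lit 5) (nat_lit 171) (nat_lit 5) (nat_lit 172) (nat_lit 5) (nat_lit 455) (nat_lit 378) (nat_lit 307)) (XT.lf (nat_lit 0) (nat_lit 6562187781) (nat_lit 456) (nat_lit 1630878385) (nat_lit 532) (nat_lit 2197054836) (nat_lit 165) (nat_lit 5) (nat_lit 171) (nat_lit 5) (nat_lit 172) (nat_lit 5) (nat_lit 456) (nat_lit 378) (nat_lit 306)))))) (XT.nd (nat_lit 390) (nat_lit 1292) (nat_lit 0) (XT.nd (nat_lit 156) (nat_lit 988) (nat_lit 0) (XT.nd (nat_lit 78) (nat_lit 0) (nat_lit 0) (XT.lf (nat_lit 0) (nat_lit 564354482) (nat_lit 532) (nat_lit 8032033193) (nat_lit 76) (nat_lit 1909335833) (nat_lit 158) (nat_lit 5) (nat_lit 165) (nat_lit 5) (nat_lit 159) (nat_lit 5) (nat_lit 457) (nat_lit 378) (nat_lit 305)) (XT.lf (nat_lit 0) (nat_lit 3358864217) (nat_lit 532) (nat_lit 1735945579) (nat_lit 76) (nat_lit 5528404433) (nat_lit 158)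 (nat_lit 5) (nat_lit 165) (nat_lit 5) (nat_lit 159) (nat_lit 5) (nat_lit 458) (nat_lit 378) (nat_lit 304))) (XT.nd (nat_lit 78) (nat_lit 532) (nat_lit 0) (XT.lf (nat_lit 0) (nat_lit 4708070225) (nat_lit 456) (nat_lit 1502943415) (nat_lit 532) (nat_lit 4532018321) (nat_lit 152) (nat_lit 5) (nat_lit 158) (nat_lit 5) (nat_lit 159) (nat_lit 5) (nat_lit 459) (nat_lit 378) (nat_lit 303)) (XT.nd (nat_lit 78) (nat_lit 76) (nat_lit 0) (XT.lf (nat_lit 0) (nat_lit 390509630) (nat_lit 456) (nat_lit 8729406315) (nat_lit 532) (nat_lit 1745347855) (nat_lit 146) (nat_lit 5) (nat_lit 152) (nat_lit 5) (nat_lit 153) (nat_lit 5) (nat_lit 460) (nat_lit 378) (nat_lit 302)) (XT.lf (nat_lit 0) (nat_lit 1104909906) (nat_lit 532) (nat_lit 4020295736) (nat_lit 76) (nat_lit 5864158821) (nat_lit 145) (nat_lit 5) (nat_lit 152) (nat_lit 5) (nat_lit 146) (nat_lit 5) (nat_lit 461) (nat_lit 378) (nat_lit 301))))) (XT.nd (nat_lit 156) (nat_lit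 912) (nat_lit 0) (XT.nd (nat_lit 78) (nat_lit 0) (nat_lit 0) (XT.lf (nat_lit 0) (nat_lit 2545750804) (nat_lit 380) (nat_lit 1431683477) (nat_lit 456) (nat_lit 7138520750) (nat_lit 140) (nat_lit 5) (nat_lit 145) (nat_lit 5) (nat_lit 146) (nat_lit 5) (nat_lit 462) (nat_lit 378) (nat_lit 300)) (XT.lf (nat_lit 0) (nat_lit 6922031630) (nat_lit 456) (nat_lit 2001827956) (nat_lit 76) (nat_lit 2320936413) (nat_lit 140) (nat_lit 5) (nat_lit 146) (nat_lit 5) (nat_lit 141) (nat_lit 5) (nat_lit 463) (nat_lit 378) (nat_lit 299))) (XT.nd (nat_lit 78) (nat_lit 456) (nat_lit 0) (XT.lf (nat_lit 0) (nat_lit 4711440672) (nat_lit 456) (nat_lit 5226995074) (nat_lit 532) (nat_lit 1437530567) (nat_lit 134) (nat_lit 5) (nat_lit 140) (nat_lit 5) (nat_lit 141) (nat_lit 5) (nat_lit 464) (nat_lit 378) (nat_lit 298)) (XT.nd (nat_lit 78) (nat_lit 0) (nat_lit 0) (XT.lf (nat_lit 0) (nat_lit 28225631) (nat_lit 380) (nat_lit 1444081669)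 (nat_lit 456) (nat_lit 10037534790) (nat_lit 128) (nat_lit 5) (nat_lit 133) (nat_lit 5) (nat_lit 134) (nat_lit 5) (nat_lit 465) (nat_lit 378) (nat_lit 297)) (XT.lf (nat_lit 0) (nat_lit 4454946771) (nat_lit 456) (nat_lit 4764935334) (nat_lit 76) (nat_lit 2425656368) (nat_lit 128) (nat_lit 5) (nat_lit 134) (nat_lit 5) (nat_lit 129) (nat_lit 5) (nat_lit 466) (nat_lit 378) (nat_lit 296))))))) (XT.nd (nat_lit 780) (nat_lit 1900) (nat_lit 0) (XT.nd (nat_lit 390) (nat_lit 1064) (nat_lit 0) (XT.nd (nat_lit 156) (nat_lit 836) (nat_lit 0) (XT.nd (nat_lit 78) (nat_lit 0) (nat_lit 0) (XT.lf (nat_lit 0) (nat_lit 2065256074) (nat_lit 380) (nat_lit 5428622351) (nat_lit 456) (nat_lit 4290147569) (nat_lit 123) (nat_lit 5) (nat_lit 128) (nat_lit 5) (nat_lit 129) (nat_lit 5) (nat_lit 467) (nat_lit 378) (nat_lit 295)) (XT.lf (nat_lit 0) (nat_lit 9058547449) (nat_lit 380) (nat_lit 1540952418) (nat_lit 456) (nat_lit 1325674977)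 (nat_lit 123) (nat_lit 5) (nat_lit 128) (nat_lit 5) (nat_lit 129) (nat_lit 5) (nat_lit 468) (nat_lit 378) (nat_lit 294))) (XT.nd (nat_lit 78) (nat_lit 380) (nat_lit 0) (XT.lf (nat_lit 0) (nat_lit 1692800261) (nat_lit 456) (nat_lit 7956854547) (nat_lit 76) (nat_lit 2418941103) (nat_lit 117) (nat_lit 5) (nat_lit 123) (nat_lit 5) (nat_lit 118) (nat_lit 5) (nat_lit 469) (nat_lit 378) (nat_lit 293)) (XT.nd (nat_lit 78) (nat_lit 380) (nat_lit 0) (XT.lf (nat_lit 0) (nat_lit 4757931658) (nat_lit 456) (nat_lit 1002968067) (nat_lit 76) (nat_lit 6453738908) (nat_lit 117) (nat_lit 5) (nat_lit 123) (nat_lit 5) (nat_lit 118) (nat_lit 5) (nat_lit 470) (nat_lit 378) (nat_lit 292)) (XT.lf (nat_lit 0) (nat_lit 6133287163) (nat_lit 380) (nat_lit 1765852723) (nat_lit 456) (nat_lit 4464175895) (nat_lit 112) (nat_lit 5) (nat_lit 117) (nat_lit 5) (nat_lit 118) (nat_lit 5) (nat_lit 471) (nat_lit 378) (nat_lit 291))))) (XT.nd (nat_lit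 156) (nat_lit 684) (nat_lit 0) (XT.nd (nat_lit 78) (nat_lit 76) (nat_lit 0) (XT.lf (nat_lit 0) (nat_lit 870075654) (nat_lit 304) (nat_lit 10235638667) (nat_lit 380) (nat_lit 1409210189) (nat_lit 108) (nat_lit 5) (nat_lit 112) (nat_lit 5) (nat_lit 113) (nat_lit 5) (nat_lit 472) (nat_lit 378) (nat_lit 290)) (XT.lf (nat_lit 0) (nat_lit 1713448157) (nat_lit 380) (nat_lit 4532573307) (nat_lit 76) (nat_lit 6422751261) (nat_lit 107) (nat_lit 5) (nat_lit 112) (nat_lit 5) (nat_lit 108) (nat_lit 5) (nat_lit 473) (nat_lit 378) (nat_lit 289))) (XT.nd (nat_lit 78) (nat_lit 304) (nat_lit 0) (XT.lf (nat_lit 0) (nat_lit 2711488232) (nat_lit 380) (nat_lit 2161511796) (nat_lit 456) (nat_lit 7952653751) (nat_lit 102) (nat_lit 5) (nat_lit 107) (nat_lit 5) (nat_lit 108) (nat_lit 5) (nat_lit 474) (nat_lit 378) (nat_lit 288)) (XT.nd (nat_lit 78) (nat_lit 304) (nat_lit 0) (XT.lf (nat_lit 0) (nat_lit 8115223085) (nat_lit 456) (nat_lit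 2873266698) (nat_lit 76) (nat_lit 1996801269) (nat_lit 102) (nat_lit 5) (nat_lit 108) (nat_lit 5) (nat_lit 103) (nat_lit 5) (nat_lit 475) (nat_lit 378) (nat_lit 287)) (XT.lf (nat_lit 0) (nat_lit 4521299214) (nat_lit 304) (nat_lit 6920981898) (nat_lit 380) (nat_lit 1705448192) (nat_lit 98) (nat_lit 5) (nat_lit 102) (nat_lit 5) (nat_lit 103) (nat_lit 5) (nat_lit 476) (nat_lit 378) (nat_lit 286)))))) (XT.nd (nat_lit 390) (nat_lit 836) (nat_lit 0) (XT.nd (nat_lit 156) (nat_lit 684) (nat_lit 0) (XT.nd (nat_lit 78) (nat_lit 304) (nat_lit 0) (XT.lf (nat_lit 0) (nat_lit 1498294174) (nat_lit 380) (nat_lit 1256556605) (nat_lit 76) (nat_lit 10558459620) (nat_lit 97) (nat_lit 5) (nat_lit 102) (nat_lit 5) (nat_lit 98) (nat_lit 5) (nat_lit 477) (nat_lit 378) (nat_lit 285)) (XT.lf (nat_lit 0) (nat_lit 4770998756) (nat_lit 380) (nat_lit 7195107331) (nat_lit 76) (nat_lit 1515324680) (nat_lit 93) (nat_lit 5) (nat_lit 98)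 (nat_lit 5) (nat_lit 94) (nat_lit 5) (nat_lit 478) (nat_lit 378) (nat_lit 284))) (XT.nd (nat_lit 78) (nat_lit 380) (nat_lit 0) (XT.lf (nat_lit 0) (nat_lit 294248713) (nat_lit 304) (nat_lit 7820547623) (nat_lit 380) (nat_lit 5538011858) (nat_lit 89) (nat_lit 5) (nat_lit 93) (nat_lit 5) (nat_lit 94) (nat_lit 5) (nat_lit 479) (nat_lit 378) (nat_lit 283)) (XT.nd (nat_lit 78) (nat_lit 380) (nat_lit 0) (XT.lf (nat_lit 0) (nat_lit 7995498395) (nat_lit 304) (nat_lit 3555471883) (nat_lit 380) (nat_lit 2276140165) (nat_lit 89) (nat_lit 5) (nat_lit 93) (nat_lit 5) (nat_lit 94) (nat_lit 5) (nat_lit 480) (nat_lit 378) (nat_lit 282)) (XT.lf (nat_lit 0) (nat_lit 1031766421) (nat_lit 380) (nat_lit 12182196291) (nat_lit 76) (nat_lit 790914931) (nat_lit 84) (nat_lit 5) (nat_lit 89) (nat_lit 5) (nat_lit 85) (nat_lit 5) (nat_lit 481) (nat_lit 378) (nat_lit 281))))) (XT.nd (nat_lit 234) (nat_lit 608) (nat_lit 0) (XT.nd (nat_lit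 78) (nat_lit 228) (nat_lit 0) (XT.lf (nat_lit 0) (nat_lit 4415963496) (nat_lit 380) (nat_lit 4550363836) (nat_lit 76) (nat_lit 5218766617) (nat_lit 84) (nat_lit 5) (nat_lit 89) (nat_lit 5) (nat_lit 85) (nat_lit 5) (nat_lit 482) (nat_lit 378) (nat_lit 280)) (XT.nd (nat_lit 78) (nat_lit 0) (nat_lit 0) (XT.lf (nat_lit 0) (nat_lit 3242139390) (nat_lit 228) (nat_lit 4624836479) (nat_lit 304) (nat_lit 6501962811) (nat_lit 81) (nat_lit 5) (nat_lit 84) (nat_lit 5) (nat_lit 85) (nat_lit 5) (nat_lit 483) (nat_lit 378) (nat_lit 279)) (XT.lf (nat_lit 0) (nat_lit 11217913831) (nat_lit 228) (nat_lit 177918576) (nat_lit 304) (nat_lit 3160458018) (nat_lit 81) (nat_lit 5) (nat_lit 84) (nat_lit 5) (nat_lit 85) (nat_lit 5) (nat_lit 484) (nat_lit 378) (nat_lit 278)))) (XT.nd (nat_lit 78) (nat_lit 228) (nat_lit 0) (XT.lf (nat_lit 0) (nat_lit 281684391) (nat_lit 380) (nat_lit 10144551496) (nat_lit 76) (nat_lit 4320386301) (nat_lit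 76) (nat_lit 5) (nat_lit 81) (nat_lit 5) (nat_lit 77) (nat_lit 5) (nat_lit 485) (nat_lit 378) (nat_lit 277)) (XT.nd (nat_lit 78) (nat_lit 228) (nat_lit 0) (XT.lf (nat_lit 0) (nat_lit 3752807572) (nat_lit 380) (nat_lit 2249996767) (nat_lit 76) (nat_lit 8937495522) (nat_lit 76) (nat_lit 5) (nat_lit 81) (nat_lit 5) (nat_lit 77) (nat_lit 5) (nat_lit 486) (nat_lit 378) (nat_lit 276)) (XT.lf (nat_lit 0) (nat_lit 5845777368) (nat_lit 228) (nat_lit 1464636400) (nat_lit 304) (nat_lit 7827102201) (nat_lit 73) (nat_lit 5) (nat_lit 76) (nat_lit 5) (nat_lit 77) (nat_lit 5) (nat_lit 487) (nat_lit 378) (nat_lit 275))))))))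
noncomputable def xc94 : XT := (XT.nd (nat_lit 51324) (nat_lit 0) (nat_lit 38684) (XT.nd (nat_lit 780) (nat_lit 988) (nat_lit 0) (XT.nd (nat_lit 390) (nat_lit 532) (nat_lit 0) (XT.nd (nat_lit 156) (nat_lit 532) (nat_lit 0) (XT.nd (nat_lit 78) (nat_lit 304) (nat_lit 0) (XT.lf (nat_lit 0) (nat_lit 10954135332) (nat_lit 304) (nat_lit 1258512918) (nat_lit 76) (nat_lit 3125734861) (nat_lit 73) (nat_lit 5) (nat_lit 77) (nat_lit 5) (nat_lit 74) (nat_lit 5) (nat_lit 488) (nat_lit 378) (nat_lit 274)) (XT.lf (nat_lit 0) (nat_lit 6984476361) (nat_lit 304) (nat_lit 7720929738) (nat_lit 380) (nat_lit 837173858) (nat_lit 69) (nat_lit 5) (nat_lit 73) (nat_lit 5) (nat_lit 74) (nat_lit 5) (nat_lit 489) (nat_lit 378) (nat_lit 273))) (XT.nd (nat_lit 78) (nat_lit 456) (nat_lit 0) (XT.lf (nat_lit 0) (nat_lit 2732547395) (nat_lit 380) (nat_lit 392281846) (nat_lit 76) (nat_lit 12625912485) (nat_lit 68) (nat_lit 5) (nat_lit 73)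 (nat_lit 5) (nat_lit 69) (nat_lit 5) (nat_lit 490) (nat_lit 378) (nat_lit 272)) (XT.nd (nat_lit 78) (nat_lit 228) (nat_lit 0) (XT.lf (nat_lit 0) (nat_lit 6404956242) (nat_lit 304) (nat_lit 7968703464) (nat_lit 76) (nat_lit 1588451811) (nat_lit 65) (nat_lit 5) (nat_lit 69) (nat_lit 5) (nat_lit 66) (nat_lit 5) (nat_lit 491) (nat_lit 378) (nat_lit 271)) (XT.lf (nat_lit 0) (nat_lit 325705003) (nat_lit 228) (nat_lit 9830744683) (nat_lit 304) (nat_lit 6021151702) (nat_lit 62) (nat_lit 5) (nat_lit 65) (nat_lit 5) (nat_lit 66) (nat_lit 5) (nat_lit 492) (nat_lit 378) (nat_lit 270))))) (XT.nd (nat_lit 156) (nat_lit 228) (nat_lit 0) (XT.nd (nat_lit 78) (nat_lit 304) (nat_lit 0) (XT.lf (nat_lit 0) (nat_lit 8861904011) (nat_lit 228) (nat_lit 5154900985) (nat_lit 304) (nat_lit 2379924726) (nat_lit 62) (nat_lit 5) (nat_lit 65) (nat_lit 5) (nat_lit 66) (nat_lit 5) (nat_lit 493) (nat_lit 378) (nat_lit 269)) (XT.lf (nat_lit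 0) (nat_lit 920244953) (nat_lit 228) (nat_lit 382969643) (nat_lit 304) (nat_lit 15317126181) (nat_lit 58) (nat_lit 5) (nat_lit 61) (nat_lit 5) (nat_lit 62) (nat_lit 5) (nat_lit 494) (nat_lit 378) (nat_lit 268))) (XT.nd (nat_lit 78) (nat_lit 228) (nat_lit 0) (XT.lf (nat_lit 0) (nat_lit 5088898172) (nat_lit 304) (nat_lit 7277919823) (nat_lit 76) (nat_lit 4480081460) (nat_lit 58) (nat_lit 5) (nat_lit 62) (nat_lit 5) (nat_lit 59) (nat_lit 5) (nat_lit 495) (nat_lit 378) (nat_lit 267)) (XT.nd (nat_lit 78) (nat_lit 0) (nat_lit 0) (XT.lf (nat_lit 0) (nat_lit 1295935437) (nat_lit 228) (nat_lit 7646394267) (nat_lit 304) (nat_lit 8135823818) (nat_lit 55) (nat_lit 5) (nat_lit 58) (nat_lit 5) (nat_lit 59) (nat_lit 5) (nat_lit 496) (nat_lit 378) (nat_lit 266)) (XT.lf (nat_lit 0) (nat_lit 10108902882) (nat_lit 228) (nat_lit 2794019153) (nat_lit 304) (nat_lit 4410513597) (nat_lit 55) (nat_lit 5) (nat_lit 58) (nat_lit 5)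 (nat_lit 59) (nat_lit 5) (nat_lit 497) (nat_lit 378) (nat_lit 265)))))) (XT.nd (nat_lit 390) (nat_lit 304) (nat_lit 0) (XT.nd (nat_lit 156) (nat_lit 380) (nat_lit 0) (XT.nd (nat_lit 78) (nat_lit 76) (nat_lit 0) (XT.lf (nat_lit 0) (nat_lit 1519941291) (nat_lit 228) (nat_lit 15428190652) (nat_lit 304) (nat_lit 605188037) (nat_lit 52) (nat_lit 5) (nat_lit 55) (nat_lit 5) (nat_lit 56) (nat_lit 5) (nat_lit 498) (nat_lit 378) (nat_lit 264)) (XT.lf (nat_lit 0) (nat_lit 3282026429) (nat_lit 304) (nat_lit 7351318393) (nat_lit 76) (nat_lit 7163261271) (nat_lit 51) (nat_lit 5) (nat_lit 55) (nat_lit 5) (nat_lit 52) (nat_lit 5) (nat_lit 499) (nat_lit 378) (nat_lit 263))) (XT.nd (nat_lit 78) (nat_lit 152) (nat_lit 0) (XT.lf (nat_lit 0) (nat_lit 1489764461) (nat_lit 228) (nat_lit 5740739632) (nat_lit 304) (nat_lit 10814345822) (nat_lit 48) (nat_lit 5) (nat_lit 51) (nat_lit 5) (nat_lit 52) (nat_lit 5) (nat_lit 500) (nat_lit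 378) (nat_lit 262)) (XT.nd (nat_lit 78) (nat_lit 152) (nat_lit 0) (XT.lf (nat_lit 0) (nat_lit 10577367074) (nat_lit 228) (nat_lit 712017328) (nat_lit 304) (nat_lit 7008049903) (nat_lit 48) (nat_lit 5) (nat_lit 51) (nat_lit 5) (nat_lit 52) (nat_lit 5) (nat_lit 501) (nat_lit 378) (nat_lit 261)) (XT.lf (nat_lit 0) (nat_lit 1249719573) (nat_lit 152) (nat_lit 14198892756) (nat_lit 228) (nat_lit 3106078919) (nat_lit 46) (nat_lit 5) (nat_lit 48) (nat_lit 5) (nat_lit 49) (nat_lit 5) (nat_lit 502) (nat_lit 378) (nat_lit 260))))) (XT.nd (nat_lit 49920) (nat_lit 0) (nat_lit 46208) (XT.nd (nat_lit 78) (nat_lit 228) (nat_lit 0) (XT.lf (nat_lit 0) (nat_lit 901744513) (nat_lit 228) (nat_lit 8352925145) (nat_lit 76) (nat_lit 9561528793) (nat_lit 45) (nat_lit 5) (nat_lit 48) (nat_lit 5) (nat_lit 46) (nat_lit 5) (nat_lit 503) (nat_lit 378) (nat_lit 259)) (XT.lf (nat_lit 0) (nat_lit 738170541) (nat_lit 228) (nat_lit 4197550588)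 (nat_lit 304) (nat_lit 14147056325) (nat_lit 42) (nat_lit 5) (nat_lit 45) (nat_lit 5) (nat_lit 46) (nat_lit 5) (nat_lit 504) (nat_lit 378) (nat_lit 258))) (XT.nd (nat_lit 78) (nat_lit 152) (nat_lit 0) (XT.lf (nat_lit 0) (nat_lit 1544022112) (nat_lit 76) (nat_lit 134049228) (nat_lit 0) (nat_lit 1544022112) (nat_lit 652) (nat_lit 5) (nat_lit 653) (nat_lit 0) (nat_lit 652) (nat_lit 4) (nat_lit 382) (nat_lit 379) (nat_lit 379)) (XT.nd (nat_lit 78) (nat_lit 76) (nat_lit 0) (XT.lf (nat_lit 0) (nat_lit 2897747780) (nat_lit 76) (nat_lit 3239003133) (nat_lit 76) (nat_lit 310053405) (nat_lit 651) (nat_lit 4) (nat_lit 652) (nat_lit 5) (nat_lit 652) (nat_lit 4) (nat_lit 383) (nat_lit 379) (nat_lit 378)) (XT.lf (nat_lit 0) (nat_lit 2683619008) (nat_lit 152) (nat_lit 379558670) (nat_lit 76) (nat_lit 3387552892) (nat_lit 650) (nat_lit 5) (nat_lit 652) (nat_lit 5) (nat_lit 651) (nat_lit 4) (nat_lit 384) (nat_lit 379) (nat_lit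 377))))))) (XT.nd (nat_lit 780) (nat_lit 5168) (nat_lit 0) (XT.nd (nat_lit 390) (nat_lit 1520) (nat_lit 0) (XT.nd (nat_lit 156) (nat_lit 608) (nat_lit 0) (XT.nd (nat_lit 78) (nat_lit 76) (nat_lit 0) (XT.lf (nat_lit 0) (nat_lit 2846953304) (nat_lit 152) (nat_lit 2827619671) (nat_lit 228) (nat_lit 781375054) (nat_lit 648) (nat_lit 5) (nat_lit 650) (nat_lit 5) (nat_lit 651) (nat_lit 4) (nat_lit 385) (nat_lit 379) (nat_lit 376)) (XT.lf (nat_lit 0) (nat_lit 2160674183) (nat_lit 228) (nat_lit 375277040) (nat_lit 76) (nat_lit 3926580354) (nat_lit 647) (nat_lit 5) (nat_lit 650) (nat_lit 5) (nat_lit 648) (nat_lit 5) (nat_lit 386) (nat_lit 379) (nat_lit 375))) (XT.nd (nat_lit 78) (nat_lit 380) (nat_lit 0) (XT.lf (nat_lit 0) (nat_lit 2914515782) (nat_lit 228) (nat_lit 2180742153) (nat_lit 304) (nat_lit 1375082409) (nat_lit 644) (nat_lit 5) (nat_lit 647) (nat_lit 5) (nat_lit 648) (nat_lit 5) (nat_lit 387) (nat_lit 379)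 (nat_lit 374)) (XT.nd (nat_lit 78) (nat_lit 304) (nat_lit 0) (XT.lf (nat_lit 0) (nat_lit 1517500941) (nat_lit 304) (nat_lit 255971964) (nat_lit 76) (nat_lit 4706132329) (nat_lit 643) (nat_lit 5) (nat_lit 647) (nat_lit 5) (nat_lit 644) (nat_lit 5) (nat_lit 388) (nat_lit 379) (nat_lit 373)) (XT.lf (nat_lit 0) (nat_lit 3099820852) (nat_lit 304) (nat_lit 1297156168) (nat_lit 380) (nat_lit 2093022906) (nat_lit 639) (nat_lit 5) (nat_lit 643) (nat_lit 5) (nat_lit 644) (nat_lit 5) (nat_lit 389) (nat_lit 379) (nat_lit 372))))) (XT.nd (nat_lit 156) (nat_lit 1064) (nat_lit 0) (XT.nd (nat_lit 78) (nat_lit 380) (nat_lit 0) (XT.lf (nat_lit 0) (nat_lit 752158886) (nat_lit 380) (nat_lit 22153139) (nat_lit 76) (nat_lit 5727661704) (nat_lit 638) (nat_lit 5) (nat_lit 643) (nat_lit 5) (nat_lit 639) (nat_lit 5) (nat_lit 390) (nat_lit 379) (nat_lit 371)) (XT.lf (nat_lit 0) (nat_lit 3402465148) (nat_lit 380) (nat_lit 175204585)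 (nat_lit 456) (nat_lit 2937282570) (nat_lit 633) (nat_lit 5) (nat_lit 638) (nat_lit 5) (nat_lit 639) (nat_lit 5) (nat_lit 391) (nat_lit 379) (nat_lit 370))) (XT.nd (nat_lit 78) (nat_lit 608) (nat_lit 0) (XT.lf (nat_lit 0) (nat_lit 326234125) (nat_lit 456) (nat_lit 6069189659) (nat_lit 532) (nat_lit 134121624) (nat_lit 627) (nat_lit 5) (nat_lit 633) (nat_lit 5) (nat_lit 634) (nat_lit 5) (nat_lit 392) (nat_lit 379) (nat_lit 369)) (XT.nd (nat_lit 78) (nat_lit 532) (nat_lit 0) (XT.lf (nat_lit 0) (nat_lit 2642746356) (nat_lit 532) (nat_lit 2730685091) (nat_lit 76) (nat_lit 1171644301) (nat_lit 626) (nat_lit 5) (nat_lit 633) (nat_lit 5) (nat_lit 627) (nat_lit 5) (nat_lit 393) (nat_lit 379) (nat_lit 368)) (XT.lf (nat_lit 0) (nat_lit 777962375) (nat_lit 532) (nat_lit 4632994183) (nat_lit 608) (nat_lit 1151255996) (nat_lit 619) (nat_lit 5) (nat_lit 626) (nat_lit 5) (nat_lit 627) (nat_lit 5) (nat_lit 394) (nat_lit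 379) (nat_lit 367)))))) (XT.nd (nat_lit 390) (nat_lit 3724) (nat_lit 0) (XT.nd (nat_lit 156) (nat_lit 760) (nat_lit 0) (XT.nd (nat_lit 78) (nat_lit 608) (nat_lit 0) (XT.lf (nat_lit 0) (nat_lit 1584672704) (nat_lit 608) (nat_lit 2239810480) (nat_lit 76) (nat_lit 2756026334) (nat_lit 618) (nat_lit 5) (nat_lit 626) (nat_lit 5) (nat_lit 619) (nat_lit 5) (nat_lit 395) (nat_lit 379) (nat_lit 366)) (XT.lf (nat_lit 0) (nat_lit 1342940874) (nat_lit 608) (nat_lit 2960101045) (nat_lit 684) (nat_lit 2297177383) (nat_lit 610) (nat_lit 5) (nat_lit 618) (nat_lit 5) (nat_lit 619) (nat_lit 5) (nat_lit 396) (nat_lit 379) (nat_lit 365))) (XT.nd (nat_lit 78) (nat_lit 684) (nat_lit 0) (XT.lf (nat_lit 0) (nat_lit 399539421) (nat_lit 684) (nat_lit 1638580848) (nat_lit 76) (nat_lit 4583202137) (nat_lit 609) (nat_lit 5) (nat_lit 618) (nat_lit 5) (nat_lit 610) (nat_lit 5) (nat_lit 397) (nat_lit 379) (nat_lit 364)) (XT.nd (nat_lit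 78) (nat_lit 0) (nat_lit 0) (XT.lf (nat_lit 0) (nat_lit 2021426216) (nat_lit 684) (nat_lit 1047361975) (nat_lit 760) (nat_lit 3574826813) (nat_lit 600) (nat_lit 5) (nat_lit 609) (nat_lit 5) (nat_lit 610) (nat_lit 5) (nat_lit 398) (nat_lit 379) (nat_lit 363)) (XT.lf (nat_lit 0) (nat_lit 5734760780) (nat_lit 684) (nat_lit 4838212) (nat_lit 760) (nat_lit 927848035) (nat_lit 600) (nat_lit 5) (nat_lit 609) (nat_lit 5) (nat_lit 610) (nat_lit 5) (nat_lit 399) (nat_lit 379) (nat_lit 362))))) (XT.nd (nat_lit 234) (nat_lit 1976) (nat_lit 0) (XT.nd (nat_lit 78) (nat_lit 912) (nat_lit 0) (XT.lf (nat_lit 0) (nat_lit 1712247906) (nat_lit 836) (nat_lit 3885788377) (nat_lit 76) (nat_lit 1094275820) (nat_lit 589) (nat_lit 5) (nat_lit 600) (nat_lit 5) (nat_lit 590) (nat_lit 5) (nat_lit 400) (nat_lit 379) (nat_lit 361)) (XT.nd (nat_lit 78) (nat_lit 912) (nat_lit 0) (XT.lf (nat_lit 0) (nat_lit 4338085557) (nat_lit 836) (nat_lit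 133868784) (nat_lit 76) (nat_lit 2246744021) (nat_lit 589) (nat_lit 5) (nat_lit 600) (nat_lit 5) (nat_lit 590) (nat_lit 5) (nat_lit 401) (nat_lit 379) (nat_lit 360)) (XT.lf (nat_lit 0) (nat_lit 231219771) (nat_lit 912) (nat_lit 3048710613) (nat_lit 76) (nat_lit 3466419642) (nat_lit 577) (nat_lit 5) (nat_lit 589) (nat_lit 5) (nat_lit 578) (nat_lit 5) (nat_lit 402) (nat_lit 379) (nat_lit 359)))) (XT.nd (nat_lit 78) (nat_lit 1064) (nat_lit 0) (XT.lf (nat_lit 0) (nat_lit 784600390) (nat_lit 912) (nat_lit 2025513532) (nat_lit 988) (nat_lit 3965242772) (nat_lit 565) (nat_lit 5) (nat_lit 577) (nat_lit 5) (nat_lit 578) (nat_lit 5) (nat_lit 403) (nat_lit 379) (nat_lit 358)) (XT.nd (nat_lit 78) (nat_lit 1064) (nat_lit 0) (XT.lf (nat_lit 0) (nat_lit 4693212578) (nat_lit 912) (nat_lit 709391030) (nat_lit 988) (nat_lit 1403149254) (nat_lit 565) (nat_lit 5) (nat_lit 577) (nat_lit 5) (nat_lit 578) (nat_lit 5) (nat_lit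 404) (nat_lit 379) (nat_lit 357)) (XT.lf (nat_lit 0) (nat_lit 1152724135) (nat_lit 1064) (nat_lit 5025366221) (nat_lit 76) (nat_lit 659389043) (nat_lit 551) (nat_lit 5) (nat_lit 565) (nat_lit 5) (nat_lit 552) (nat_lit 5) (nat_lit 405) (nat_lit 379) (nat_lit 356))))))))
noncomputable def xc95 : XT := (XT.nd (nat_lit 1638) (nat_lit 9576) (nat_lit 0) (XT.nd (nat_lit 780) (nat_lit 8664) (nat_lit 0) (XT.nd (nat_lit 390) (nat_lit 4256) (nat_lit 0) (XT.nd (nat_lit 156) (nat_lit 2432) (nat_lit 0) (XT.nd (nat_lit 78) (nat_lit 1064) (nat_lit 0) (XT.lf (nat_lit 0) (nat_lit 3703140634) (nat_lit 1064) (nat_lit 1083411778) (nat_lit 76) (nat_lit 2083905136) (nat_lit 551) (nat_lit 5) (nat_lit 565) (nat_lit 5) (nat_lit 552) (nat_lit 5) (nat_lit 406) (nat_lit 379) (nat_lit 355)) (XT.lf (nat_lit 0) (nat_lit 2933038918) (nat_lit 1064) (nat_lit 3334911105) (nat_lit 1140) (nat_lit 636923478) (nat_lit 537) (nat_lit 5) (nat_lit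 551) (nat_lit 5) (nat_lit 552) (nat_lit 5) (nat_lit 407) (nat_lit 379) (nat_lit 354))) (XT.nd (nat_lit 78) (nat_lit 1216) (nat_lit 0) (XT.lf (nat_lit 0) (nat_lit 49342001) (nat_lit 1140) (nat_lit 1821626573) (nat_lit 1216) (nat_lit 5069753150) (nat_lit 521) (nat_lit 5) (nat_lit 536) (nat_lit 5) (nat_lit 537) (nat_lit 5) (nat_lit 408) (nat_lit 379) (nat_lit 353)) (XT.nd (nat_lit 78) (nat_lit 1216) (nat_lit 0) (XT.lf (nat_lit 0) (nat_lit 4157485273) (nat_lit 1140) (nat_lit 235191045) (nat_lit 1216) (nat_lit 2585125952) (nat_lit 521) (nat_lit 5) (nat_lit 536) (nat_lit 5) (nat_lit 537) (nat_lit 5) (nat_lit 409) (nat_lit 379) (nat_lit 352)) (XT.lf (nat_lit 0) (nat_lit 1296834829) (nat_lit 1216) (nat_lit 5632075727) (nat_lit 1292) (nat_lit 87474459) (nat_lit 505) (nat_lit 5) (nat_lit 521) (nat_lit 5) (nat_lit 522) (nat_lit 5) (nat_lit 410) (nat_lit 379) (nat_lit 351))))) (XT.nd (nat_lit 156) (nat_lit 2888) (nat_lit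 0) (XT.nd (nat_lit 78) (nat_lit 1292) (nat_lit 0) (XT.lf (nat_lit 0) (nat_lit 2395543507) (nat_lit 1292) (nat_lit 1582276884) (nat_lit 76) (nat_lit 3078286786) (nat_lit 504) (nat_lit 5) (nat_lit 521) (nat_lit 5) (nat_lit 505) (nat_lit 5) (nat_lit 411) (nat_lit 379) (nat_lit 350)) (XT.lf (nat_lit 0) (nat_lit 2628677248) (nat_lit 1292) (nat_lit 2263549148) (nat_lit 1368) (nat_lit 2205122293) (nat_lit 487) (nat_lit 5) (nat_lit 504) (nat_lit 5) (nat_lit 505) (nat_lit 5) (nat_lit 412) (nat_lit 379) (nat_lit 349))) (XT.nd (nat_lit 78) (nat_lit 2812) (nat_lit 0) (XT.lf (nat_lit 0) (nat_lit 254659681) (nat_lit 1368) (nat_lit 239319937) (nat_lit 76) (nat_lit 6646251789) (nat_lit 486) (nat_lit 5) (nat_lit 504) (nat_lit 5) (nat_lit 487) (nat_lit 5) (nat_lit 413) (nat_lit 379) (nat_lit 348)) (XT.nd (nat_lit 78) (nat_lit 1444) (nat_lit 0) (XT.lf (nat_lit 0) (nat_lit 2718885217) (nat_lit 1444) (nat_lit 3122179775) (nat_lit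 76) (nat_lit 1342957463) (nat_lit 468) (nat_lit 5) (nat_lit 487) (nat_lit 5) (nat_lit 469) (nat_lit 5) (nat_lit 414) (nat_lit 379) (nat_lit 347)) (XT.lf (nat_lit 0) (nat_lit 1192622360) (nat_lit 1444) (nat_lit 4002650183) (nat_lit 1520) (nat_lit 2034196177) (nat_lit 449) (nat_lit 5) (nat_lit 468) (nat_lit 5) (nat_lit 469) (nat_lit 5) (nat_lit 415) (nat_lit 379) (nat_lit 346)))))) (XT.nd (nat_lit 390) (nat_lit 3724) (nat_lit 0) (XT.nd (nat_lit 156) (nat_lit 3344) (nat_lit 0) (XT.nd (nat_lit 78) (nat_lit 1520) (nat_lit 0) (XT.lf (nat_lit 0) (nat_lit 411194216) (nat_lit 1520) (nat_lit 1686152230) (nat_lit 76) (nat_lit 5179021711) (nat_lit 448) (nat_lit 5) (nat_lit 468) (nat_lit 5) (nat_lit 449) (nat_lit 5) (nat_lit 416) (nat_lit 379) (nat_lit 345)) (XT.lf (nat_lit 0) (nat_lit 2731000369) (nat_lit 1520) (nat_lit 116561397) (nat_lit 1596) (nat_lit 4477023561) (nat_lit 428) (nat_lit 5) (nat_lit 448) (nat_lit 5)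 (nat_lit 449) (nat_lit 5) (nat_lit 417) (nat_lit 379) (nat_lit 344))) (XT.nd (nat_lit 78) (nat_lit 3344) (nat_lit 0) (XT.lf (nat_lit 0) (nat_lit 5308664634) (nat_lit 1596) (nat_lit 170266578) (nat_lit 76) (nat_lit 1895349600) (nat_lit 428) (nat_lit 5) (nat_lit 449) (nat_lit 5) (nat_lit 429) (nat_lit 5) (nat_lit 418) (nat_lit 379) (nat_lit 343)) (XT.nd (nat_lit 78) (nat_lit 1672) (nat_lit 0) (XT.lf (nat_lit 0) (nat_lit 370942277) (nat_lit 1672) (nat_lit 3072722031) (nat_lit 76) (nat_lit 3981645727) (nat_lit 406) (nat_lit 5) (nat_lit 428) (nat_lit 5) (nat_lit 407) (nat_lit 5) (nat_lit 419) (nat_lit 379) (nat_lit 342)) (XT.lf (nat_lit 0) (nat_lit 1453085723) (nat_lit 1672) (nat_lit 1339594892) (nat_lit 1748) (nat_lit 4685156166) (nat_lit 384) (nat_lit 5) (nat_lit 406) (nat_lit 5) (nat_lit 407) (nat_lit 5) (nat_lit 420) (nat_lit 379) (nat_lit 341))))) (XT.nd (nat_lit 234) (nat_lit 988) (nat_lit 0) (XT.nd (nat_lit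 78) (nat_lit 2736) (nat_lit 0) (XT.lf (nat_lit 0) (nat_lit 5242996411) (nat_lit 1748) (nat_lit 1469153515) (nat_lit 76) (nat_lit 819692814) (nat_lit 384) (nat_lit 5) (nat_lit 407) (nat_lit 5) (nat_lit 385) (nat_lit 5) (nat_lit 421) (nat_lit 379) (nat_lit 340)) (XT.nd (nat_lit 78) (nat_lit 912) (nat_lit 0) (XT.lf (nat_lit 0) (nat_lit 137702695) (nat_lit 1824) (nat_lit 4420932707) (nat_lit 76) (nat_lit 3028616523) (nat_lit 360) (nat_lit 5) (nat_lit 384) (nat_lit 5) (nat_lit 361) (nat_lit 5) (nat_lit 422) (nat_lit 379) (nat_lit 339)) (XT.lf (nat_lit 0) (nat_lit 215121420) (nat_lit 912) (nat_lit 2333692530) (nat_lit 988) (nat_lit 5095348892) (nat_lit 348) (nat_lit 5) (nat_lit 360) (nat_lit 5) (nat_lit 361) (nat_lit 5) (nat_lit 423) (nat_lit 379) (nat_lit 338)))) (XT.nd (nat_lit 78) (nat_lit 988) (nat_lit 0) (XT.lf (nat_lit 0) (nat_lit 4960787768) (nat_lit 912) (nat_lit 32952383) (nat_lit 988) (nat_lit 2708789101)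 (nat_lit 348) (nat_lit 5) (nat_lit 360) (nat_lit 5) (nat_lit 361) (nat_lit 5) (nat_lit 424) (nat_lit 379) (nat_lit 337)) (XT.nd (nat_lit 78) (nat_lit 76) (nat_lit 0) (XT.lf (nat_lit 0) (nat_lit 2007519392) (nat_lit 912) (nat_lit 5464899115) (nat_lit 988) (nat_lit 289975970) (nat_lit 336) (nat_lit 5) (nat_lit 348) (nat_lit 5) (nat_lit 349) (nat_lit 5) (nat_lit 425) (nat_lit 379) (nat_lit 336)) (XT.lf (nat_lit 0) (nat_lit 2124453431) (nat_lit 988) (nat_lit 992040457) (nat_lit 76) (nat_lit 4707191957) (nat_lit 335) (nat_lit 5) (nat_lit 348) (nat_lit 5) (nat_lit 336) (nat_lit 5) (nat_lit 426) (nat_lit 379) (nat_lit 335))))))) (XT.nd (nat_lit 780) (nat_lit 3952) (nat_lit 0) (XT.nd (nat_lit 390) (nat_lit 3116) (nat_lit 0) (XT.nd (nat_lit 156) (nat_lit 836) (nat_lit 0) (XT.nd (nat_lit 78) (nat_lit 836) (nat_lit 0) (XT.lf (nat_lit 0) (nat_lit 3872362367) (nat_lit 836) (nat_lit 693969842) (nat_lit 912) (nat_lit 3320198535)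 (nat_lit 324) (nat_lit 5) (nat_lit 335) (nat_lit 5) (nat_lit 336) (nat_lit 5) (nat_lit 427) (nat_lit 379) (nat_lit 334)) (XT.lf (nat_lit 0) (nat_lit 853485664) (nat_lit 836) (nat_lit 6185787333) (nat_lit 912) (nat_lit 911741438) (nat_lit 313) (nat_lit 5) (nat_lit 324) (nat_lit 5) (nat_lit 325) (nat_lit 5) (nat_lit 428) (nat_lit 379) (nat_lit 333))) (XT.nd (nat_lit 78) (nat_lit 760) (nat_lit 0) (XT.lf (nat_lit 0) (nat_lit 1515018574) (nat_lit 912) (nat_lit 2201566082) (nat_lit 76) (nat_lit 4300219992) (nat_lit 312) (nat_lit 5) (nat_lit 324) (nat_lit 5) (nat_lit 313) (nat_lit 5) (nat_lit 429) (nat_lit 379) (nat_lit 332)) (XT.nd (nat_lit 78) (nat_lit 0) (nat_lit 0) (XT.lf (nat_lit 0) (nat_lit 2780173366) (nat_lit 760) (nat_lit 1175488282) (nat_lit 836) (nat_lit 4128602224) (nat_lit 302) (nat_lit 5) (nat_lit 312) (nat_lit 5) (nat_lit 313) (nat_lit 5) (nat_lit 430) (nat_lit 379) (nat_lit 331)) (XT.lf (nat_lit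 0) (nat_lit 6429184175) (nat_lit 836) (nat_lit 313776702) (nat_lit 76) (nat_lit 1410454443) (nat_lit 302) (nat_lit 5) (nat_lit 313) (nat_lit 5) (nat_lit 303) (nat_lit 5) (nat_lit 431) (nat_lit 379) (nat_lit 330))))) (XT.nd (nat_lit 156) (nat_lit 1520) (nat_lit 0) (XT.nd (nat_lit 78) (nat_lit 760) (nat_lit 0) (XT.lf (nat_lit 0) (nat_lit 718312539) (nat_lit 836) (nat_lit 3439588417) (nat_lit 76) (nat_lit 4065984987) (nat_lit 291) (nat_lit 5) (nat_lit 302) (nat_lit 5) (nat_lit 292) (nat_lit 5) (nat_lit 432) (nat_lit 379) (nat_lit 329)) (XT.lf (nat_lit 0) (nat_lit 1660695997) (nat_lit 760) (nat_lit 1499847038) (nat_lit 836) (nat_lit 5135539502) (nat_lit 281) (nat_lit 5) (nat_lit 291) (nat_lit 5) (nat_lit 292) (nat_lit 5) (nat_lit 433) (nat_lit 379) (nat_lit 328))) (XT.nd (nat_lit 78) (nat_lit 1520) (nat_lit 0) (XT.lf (nat_lit 0) (nat_lit 5644183675) (nat_lit 836) (nat_lit 1510671827) (nat_lit 76) (nat_lit 1215038765)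 (nat_lit 281) (nat_lit 5) (nat_lit 292) (nat_lit 5) (nat_lit 282) (nat_lit 5) (nat_lit 434) (nat_lit 379) (nat_lit 327)) (XT.nd (nat_lit 78) (nat_lit 760) (nat_lit 0) (XT.lf (nat_lit 0) (nat_lit 3713142995) (nat_lit 760) (nat_lit 4460616871) (nat_lit 836) (nat_lit 271519188) (nat_lit 271) (nat_lit 5) (nat_lit 281) (nat_lit 5) (nat_lit 282) (nat_lit 5) (nat_lit 435) (nat_lit 379) (nat_lit 326)) (XT.lf (nat_lit 0) (nat_lit 489401085) (nat_lit 684) (nat_lit 1688889298) (nat_lit 760) (nat_lit 6344096489) (nat_lit 261) (nat_lit 5) (nat_lit 270) (nat_lit 5) (nat_lit 271) (nat_lit 5) (nat_lit 436) (nat_lit 379) (nat_lit 325)))))) (XT.nd (nat_lit 390) (nat_lit 1900) (nat_lit 0) (XT.nd (nat_lit 156) (nat_lit 1368) (nat_lit 0) (XT.nd (nat_lit 78) (nat_lit 684) (nat_lit 0) (XT.lf (nat_lit 0) (nat_lit 4675672710) (nat_lit 760) (nat_lit 2773141079) (nat_lit 76) (nat_lit 1152163718) (nat_lit 261) (nat_lit 5) (nat_lit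 271) (nat_lit 5) (nat_lit 262) (nat_lit 5) (nat_lit 437) (nat_lit 379) (nat_lit 324)) (XT.lf (nat_lit 0) (nat_lit 2572439319) (nat_lit 684) (nat_lit 4642031379) (nat_lit 760) (nat_lit 1466860293) (nat_lit 252) (nat_lit 5) (nat_lit 261) (nat_lit 5) (nat_lit 262) (nat_lit 5) (nat_lit 438) (nat_lit 379) (nat_lit 323))) (XT.nd (nat_lit 78) (nat_lit 1292) (nat_lit 0) (XT.lf (nat_lit 0) (nat_lit 1009602367) (nat_lit 760) (nat_lit 749517102) (nat_lit 76) (nat_lit 7004406554) (nat_lit 251) (nat_lit 5) (nat_lit 261) (nat_lit 5) (nat_lit 252) (nat_lit 5) (nat_lit 439) (nat_lit 379) (nat_lit 322)) (XT.nd (nat_lit 78) (nat_lit 684) (nat_lit 0) (XT.lf (nat_lit 0) (nat_lit 3519045295) (nat_lit 684) (nat_lit 4127259308) (nat_lit 76) (nat_lit 1200823808) (nat_lit 243) (nat_lit 5) (nat_lit 252) (nat_lit 5) (nat_lit 244) (nat_lit 5) (nat_lit 440) (nat_lit 379) (nat_lit 321)) (XT.lf (nat_lit 0) (nat_lit 1340579483) (nat_lit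 684) (nat_lit 4728381390) (nat_lit 760) (nat_lit 2863655139) (nat_lit 234) (nat_lit 5) (nat_lit 243) (nat_lit 5) (nat_lit 244) (nat_lit 5) (nat_lit 441) (nat_lit 379) (nat_lit 320))))) (XT.nd (nat_lit 234) (nat_lit 1216) (nat_lit 0) (XT.nd (nat_lit 78) (nat_lit 684) (nat_lit 0) (XT.lf (nat_lit 0) (nat_lit 6932176238) (nat_lit 684) (nat_lit 1730680852) (nat_lit 760) (nat_lit 357115101) (nat_lit 234) (nat_lit 5) (nat_lit 243) (nat_lit 5) (nat_lit 244) (nat_lit 5) (nat_lit 442) (nat_lit 379) (nat_lit 319)) (XT.nd (nat_lit 78) (nat_lit 0) (nat_lit 0) (XT.lf (nat_lit 0) (nat_lit 2168084061) (nat_lit 684) (nat_lit 5600679611) (nat_lit 76) (nat_lit 1340096440) (nat_lit 225) (nat_lit 5) (nat_lit 234) (nat_lit 5) (nat_lit 226) (nat_lit 5) (nat_lit 443) (nat_lit 379) (nat_lit 318)) (XT.lf (nat_lit 0) (nat_lit 4730658480) (nat_lit 684) (nat_lit 10369164) (nat_lit 76) (nat_lit 4458635282) (nat_lit 225) (nat_lit 5) (nat_lit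 234) (nat_lit 5) (nat_lit 226) (nat_lit 5) (nat_lit 444) (nat_lit 379) (nat_lit 317)))) (XT.nd (nat_lit 78) (nat_lit 608) (nat_lit 0) (XT.lf (nat_lit 0) (nat_lit 5726079941) (nat_lit 608) (nat_lit 1622331091) (nat_lit 684) (nat_lit 1943809296) (nat_lit 217) (nat_lit 5) (nat_lit 225) (nat_lit 5) (nat_lit 226) (nat_lit 5) (nat_lit 445) (nat_lit 379) (nat_lit 316)) (XT.nd (nat_lit 78) (nat_lit 0) (nat_lit 0) (XT.lf (nat_lit 0) (nat_lit 614883494) (nat_lit 608) (nat_lit 7222902644) (nat_lit 76) (nat_lit 1548951470) (nat_lit 209) (nat_lit 5) (nat_lit 217) (nat_lit 5) (nat_lit 210) (nat_lit 5) (nat_lit 446) (nat_lit 379) (nat_lit 315)) (XT.lf (nat_lit 0) (nat_lit 3200816994) (nat_lit 608) (nat_lit 1490995378) (nat_lit 76) (nat_lit 4791050081) (nat_lit 209) (nat_lit 5) (nat_lit 217) (nat_lit 5) (nat_lit 210) (nat_lit 5) (nat_lit 447) (nat_lit 379) (nat_lit 314))))))))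
noncomputable def xc96 : XT := (XT.nd (nat_lit 1560) (nat_lit 4180) (nat_lit 0) (XT.nd (nat_lit 780) (nat_lit 2812) (nat_lit 0) (XT.nd (nat_lit 390) (nat_lit 1596) (nat_lit 0) (XT.nd (nat_lit 156) (nat_lit 608) (nat_lit 0) (XT.nd (nat_lit 78) (nat_lit 532) (nat_lit 0) (XT.lf (nat_lit 0) (nat_lit 4372401480) (nat_lit 608) (nat_lit 1462335678) (nat_lit 684) (nat_lit 3746263044) (nat_lit 201) (nat_lit 5) (nat_lit 209) (nat_lit 5) (nat_lit 210) (nat_lit 5) (nat_lit 448) (nat_lit 379) (nat_lit 313)) (XT.lf (nat_lit 0) (nat_lit 648094873) (nat_lit 532) (nat_lit 7867606221) (nat_lit 608) (nat_lit 1165527760) (nat_lit 194) (nat_lit 5) (nat_lit 201) (nat_lit 5) (nat_lit 202) (nat_lit 5) (nat_lit 449) (nat_lit 379) (nat_lit 312))) (XT.nd (nat_lit 78) (nat_lit 532) (nat_lit 0) (XT.lf (nat_lit 0) (nat_lit 1460783071) (nat_lit 608) (nat_lit 3150665772) (nat_lit 76) (nat_lit 5171573652) (nat_lit 193) (nat_lit 5) (nat_lit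 201) (nat_lit 5) (nat_lit 194) (nat_lit 5) (nat_lit 450) (nat_lit 379) (nat_lit 311)) (XT.nd (nat_lit 78) (nat_lit 0) (nat_lit 0) (XT.lf (nat_lit 0) (nat_lit 2838778267) (nat_lit 532) (nat_lit 1272632456) (nat_lit 608) (nat_lit 5775553828) (nat_lit 186) (nat_lit 5) (nat_lit 193) (nat_lit 5) (nat_lit 194) (nat_lit 5) (nat_lit 451) (nat_lit 379) (nat_lit 310)) (XT.lf (nat_lit 0) (nat_lit 6819423091) (nat_lit 608) (nat_lit 1056321813) (nat_lit 76) (nat_lit 2117167381) (nat_lit 186) (nat_lit 5) (nat_lit 194) (nat_lit 5) (nat_lit 187) (nat_lit 5) (nat_lit 452) (nat_lit 379) (nat_lit 309))))) (XT.nd (nat_lit 156) (nat_lit 456) (nat_lit 0) (XT.nd (nat_lit 78) (nat_lit 608) (nat_lit 0) (XT.lf (nat_lit 0) (nat_lit 5073799734) (nat_lit 532) (nat_lit 4519010519) (nat_lit 608) (nat_lit 507958428) (nat_lit 179) (nat_lit 5) (nat_lit 186) (nat_lit 5) (nat_lit 187) (nat_lit 5) (nat_lit 453) (nat_lit 379) (nat_lit 308))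 (XT.lf (nat_lit 0) (nat_lit 1090252001) (nat_lit 532) (nat_lit 1075817151) (nat_lit 608) (nat_lit 8044755773) (nat_lit 171) (nat_lit 5) (nat_lit 178) (nat_lit 5) (nat_lit 179) (nat_lit 5) (nat_lit 454) (nat_lit 379) (nat_lit 307))) (XT.nd (nat_lit 78) (nat_lit 456) (nat_lit 0) (XT.lf (nat_lit 0) (nat_lit 4906792705) (nat_lit 608) (nat_lit 2983981653) (nat_lit 76) (nat_lit 2431853636) (nat_lit 171) (nat_lit 5) (nat_lit 179) (nat_lit 5) (nat_lit 172) (nat_lit 5) (nat_lit 455) (nat_lit 379) (nat_lit 306)) (XT.nd (nat_lit 78) (nat_lit 0) (nat_lit 0) (XT.lf (nat_lit 0) (nat_lit 3271785471) (nat_lit 456) (nat_lit 4429732016) (nat_lit 532) (nat_lit 2735178837) (nat_lit 165) (nat_lit 5) (nat_lit 171) (nat_lit 5) (nat_lit 172) (nat_lit 5) (nat_lit 456) (nat_lit 379) (nat_lit 305)) (XT.lf (nat_lit 0) (nat_lit 9654034012) (nat_lit 456) (nat_lit 889264796) (nat_lit 532) (nat_lit 9936651) (nat_lit 165) (nat_lit 5) (nat_lit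 171) (nat_lit 5) (nat_lit 172) (nat_lit 5) (nat_lit 457) (nat_lit 379) (nat_lit 304)))))) (XT.nd (nat_lit 390) (nat_lit 1292) (nat_lit 0) (XT.nd (nat_lit 156) (nat_lit 532) (nat_lit 0) (XT.nd (nat_lit 78) (nat_lit 456) (nat_lit 0) (XT.lf (nat_lit 0) (nat_lit 2758708186) (nat_lit 532) (nat_lit 5182213771) (nat_lit 76) (nat_lit 2730331450) (nat_lit 158) (nat_lit 5) (nat_lit 165) (nat_lit 5) (nat_lit 159) (nat_lit 5) (nat_lit 458) (nat_lit 379) (nat_lit 303)) (XT.lf (nat_lit 0) (nat_lit 1196458736) (nat_lit 456) (nat_lit 4377612354) (nat_lit 532) (nat_lit 5217741695) (nat_lit 152) (nat_lit 5) (nat_lit 158) (nat_lit 5) (nat_lit 159) (nat_lit 5) (nat_lit 459) (nat_lit 379) (nat_lit 302))) (XT.nd (nat_lit 78) (nat_lit 532) (nat_lit 0) (XT.lf (nat_lit 0) (nat_lit 7734245774) (nat_lit 456) (nat_lit 718320197) (nat_lit 532) (nat_lit 2462092600) (nat_lit 152) (nat_lit 5) (nat_lit 158) (nat_lit 5) (nat_lit 159) (nat_lit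 5) (nat_lit 460) (nat_lit 379) (nat_lit 301)) (XT.nd (nat_lit 78) (nat_lit 0) (nat_lit 0) (XT.lf (nat_lit 0) (nat_lit 358018020) (nat_lit 532) (nat_lit 7693311980) (nat_lit 76) (nat_lit 2988318827) (nat_lit 145) (nat_lit 5) (nat_lit 152) (nat_lit 5) (nat_lit 146) (nat_lit 5) (nat_lit 461) (nat_lit 379) (nat_lit 300)) (XT.lf (nat_lit 0) (nat_lit 3200463468) (nat_lit 532) (nat_lit 1179742162) (nat_lit 76) (nat_lit 6786640808) (nat_lit 145) (nat_lit 5) (nat_lit 152) (nat_lit 5) (nat_lit 146) (nat_lit 5) (nat_lit 462) (nat_lit 379) (nat_lit 299))))) (XT.nd (nat_lit 156) (nat_lit 456) (nat_lit 0) (XT.nd (nat_lit 78) (nat_lit 456) (nat_lit 0) (XT.lf (nat_lit 0) (nat_lit 5498408470) (nat_lit 380) (nat_lit 610213912) (nat_lit 456) (nat_lit 5187799152) (nat_lit 140) (nat_lit 5) (nat_lit 145) (nat_lit 5) (nat_lit 146) (nat_lit 5) (nat_lit 463) (nat_lit 379) (nat_lit 298)) (XT.lf (nat_lit 0) (nat_lit 849746546) (nat_lit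 456) (nat_lit 8233065235) (nat_lit 532) (nat_lit 2345629613) (nat_lit 134) (nat_lit 5) (nat_lit 140) (nat_lit 5) (nat_lit 141) (nat_lit 5) (nat_lit 464) (nat_lit 379) (nat_lit 297))) (XT.nd (nat_lit 78) (nat_lit 380) (nat_lit 0) (XT.lf (nat_lit 0) (nat_lit 562800314) (nat_lit 532) (nat_lit 3899297652) (nat_lit 76) (nat_lit 7100608531) (nat_lit 133) (nat_lit 5) (nat_lit 140) (nat_lit 5) (nat_lit 134) (nat_lit 5) (nat_lit 465) (nat_lit 379) (nat_lit 296)) (XT.nd (nat_lit 78) (nat_lit 0) (nat_lit 0) (XT.lf (nat_lit 0) (nat_lit 2898782008) (nat_lit 380) (nat_lit 592047439) (nat_lit 456) (nat_lit 8208670588) (nat_lit 128) (nat_lit 5) (nat_lit 133) (nat_lit 5) (nat_lit 134) (nat_lit 5) (nat_lit 466) (nat_lit 379) (nat_lit 295)) (XT.lf (nat_lit 0) (nat_lit 6499727561) (nat_lit 456) (nat_lit 2012379852) (nat_lit 76) (nat_lit 3326485666) (nat_lit 128) (nat_lit 5) (nat_lit 134) (nat_lit 5) (nat_lit 129) (nat_lit 5)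 (nat_lit 467) (nat_lit 379) (nat_lit 294))))))) (XT.nd (nat_lit 780) (nat_lit 1824) (nat_lit 0) (XT.nd (nat_lit 390) (nat_lit 1140) (nat_lit 0) (XT.nd (nat_lit 156) (nat_lit 760) (nat_lit 0) (XT.nd (nat_lit 78) (nat_lit 76) (nat_lit 0) (XT.lf (nat_lit 0) (nat_lit 4935679500) (nat_lit 380) (nat_lit 4643780156) (nat_lit 456) (nat_lit 2400804816) (nat_lit 123) (nat_lit 5) (nat_lit 128) (nat_lit 5) (nat_lit 129) (nat_lit 5) (nat_lit 468) (nat_lit 379) (nat_lit 293)) (XT.lf (nat_lit 0) (nat_lit 576566613) (nat_lit 456) (nat_lit 115439079) (nat_lit 76) (nat_lit 11432928116) (nat_lit 122) (nat_lit 5) (nat_lit 128) (nat_lit 5) (nat_lit 123) (nat_lit 5) (nat_lit 469) (nat_lit 379) (nat_lit 292))) (XT.nd (nat_lit 78) (nat_lit 380) (nat_lit 0) (XT.lf (nat_lit 0) (nat_lit 3624040966) (nat_lit 456) (nat_lit 5301927903) (nat_lit 76) (nat_lit 3345365285) (nat_lit 117) (nat_lit 5) (nat_lit 123) (nat_lit 5) (nat_lit 118)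 (nat_lit 5) (nat_lit 470) (nat_lit 379) (nat_lit 291)) (XT.nd (nat_lit 78) (nat_lit 0) (nat_lit 0) (XT.lf (nat_lit 0) (nat_lit 1758927232) (nat_lit 380) (nat_lit 4965764260) (nat_lit 456) (nat_lit 5696135361) (nat_lit 112) (nat_lit 5) (nat_lit 117) (nat_lit 5) (nat_lit 118) (nat_lit 5) (nat_lit 471) (nat_lit 379) (nat_lit 290)) (XT.lf (nat_lit 0) (nat_lit 8996688354) (nat_lit 380) (nat_lit 901935942) (nat_lit 456) (nat_lit 2674468426) (nat_lit 112) (nat_lit 5) (nat_lit 117) (nat_lit 5) (nat_lit 118) (nat_lit 5) (nat_lit 472) (nat_lit 379) (nat_lit 289))))) (XT.nd (nat_lit 156) (nat_lit 760) (nat_lit 0) (XT.nd (nat_lit 78) (nat_lit 0) (nat_lit 0) (XT.lf (nat_lit 0) (nat_lit 423207238) (nat_lit 380) (nat_lit 9089156673) (nat_lit 76) (nat_lit 3215577002) (nat_lit 107) (nat_lit 5) (nat_lit 112) (nat_lit 5) (nat_lit 108) (nat_lit 5) (nat_lit 473) (nat_lit 379) (nat_lit 288)) (XT.lf (nat_lit 0) (nat_lit 3553354322)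 (nat_lit 380) (nat_lit 1898463358) (nat_lit 76) (nat_lit 7433596442) (nat_lit 107) (nat_lit 5) (nat_lit 112) (nat_lit 5) (nat_lit 108) (nat_lit 5) (nat_lit 474) (nat_lit 379) (nat_lit 287))) (XT.nd (nat_lit 78) (nat_lit 380) (nat_lit 0) (XT.lf (nat_lit 0) (nat_lit 5472553350) (nat_lit 380) (nat_lit 1285713800) (nat_lit 456) (nat_lit 6287534431) (nat_lit 102) (nat_lit 5) (nat_lit 107) (nat_lit 5) (nat_lit 108) (nat_lit 5) (nat_lit 475) (nat_lit 379) (nat_lit 286)) (XT.nd (nat_lit 78) (nat_lit 380) (nat_lit 0) (XT.lf (nat_lit 0) (nat_lit 10036129569) (nat_lit 456) (nat_lit 247169596) (nat_lit 76) (nat_lit 2925928482) (nat_lit 102) (nat_lit 5) (nat_lit 108) (nat_lit 5) (nat_lit 103) (nat_lit 5) (nat_lit 476) (nat_lit 379) (nat_lit 285)) (XT.lf (nat_lit 0) (nat_lit 36796354) (nat_lit 380) (nat_lit 6097879306) (nat_lit 76) (nat_lit 7240589341) (nat_lit 97) (nat_lit 5) (nat_lit 102) (nat_lit 5) (nat_lit 98) (nat_lit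 5) (nat_lit 477) (nat_lit 379) (nat_lit 284)))))) (XT.nd (nat_lit 390) (nat_lit 836) (nat_lit 0) (XT.nd (nat_lit 156) (nat_lit 684) (nat_lit 0) (XT.nd (nat_lit 78) (nat_lit 0) (nat_lit 0) (XT.lf (nat_lit 0) (nat_lit 1373368380) (nat_lit 304) (nat_lit 1882964286) (nat_lit 380) (nat_lit 10288119746) (nat_lit 93) (nat_lit 5) (nat_lit 97) (nat_lit 5) (nat_lit 98) (nat_lit 5) (nat_lit 478) (nat_lit 379) (nat_lit 283)) (XT.lf (nat_lit 0) (nat_lit 6574829710) (nat_lit 380) (nat_lit 4690668814) (nat_lit 76) (nat_lit 2450840931) (nat_lit 93) (nat_lit 5) (nat_lit 98) (nat_lit 5) (nat_lit 94) (nat_lit 5) (nat_lit 479) (nat_lit 379) (nat_lit 282))) (XT.nd (nat_lit 78) (nat_lit 380) (nat_lit 0) (XT.lf (nat_lit 0) (nat_lit 2931051057) (nat_lit 304) (nat_lit 7038035590) (nat_lit 380) (nat_lit 3922396932) (nat_lit 89) (nat_lit 5) (nat_lit 93) (nat_lit 5) (nat_lit 94) (nat_lit 5) (nat_lit 480) (nat_lit 379) (nat_lit 281))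 (XT.nd (nat_lit 78) (nat_lit 380) (nat_lit 0) (XT.lf (nat_lit 0) (nat_lit 10734739118) (nat_lit 304) (nat_lit 2706068590) (nat_lit 380) (nat_lit 629138298) (nat_lit 89) (nat_lit 5) (nat_lit 93) (nat_lit 5) (nat_lit 94) (nat_lit 5) (nat_lit 481) (nat_lit 379) (nat_lit 280)) (XT.lf (nat_lit 0) (nat_lit 2712802110) (nat_lit 380) (nat_lit 9813355572) (nat_lit 76) (nat_lit 1725099814) (nat_lit 84) (nat_lit 5) (nat_lit 89) (nat_lit 5) (nat_lit 85) (nat_lit 5) (nat_lit 482) (nat_lit 379) (nat_lit 279))))) (XT.nd (nat_lit 234) (nat_lit 608) (nat_lit 0) (XT.nd (nat_lit 78) (nat_lit 228) (nat_lit 0) (XT.lf (nat_lit 0) (nat_lit 6132126256) (nat_lit 380) (nat_lit 2080111656) (nat_lit 76) (nat_lit 6223501346) (nat_lit 84) (nat_lit 5) (nat_lit 89) (nat_lit 5) (nat_lit 85) (nat_lit 5) (nat_lit 483) (nat_lit 379) (nat_lit 278)) (XT.nd (nat_lit 78) (nat_lit 0) (nat_lit 0) (XT.lf (nat_lit 0) (nat_lit 5851391243) (nat_lit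 228) (nat_lit 3785369126) (nat_lit 304) (nat_lit 4986818284) (nat_lit 81) (nat_lit 5) (nat_lit 84) (nat_lit 5) (nat_lit 85) (nat_lit 5) (nat_lit 484) (nat_lit 379) (nat_lit 277)) (XT.lf (nat_lit 0) (nat_lit 13209331484) (nat_lit 304) (nat_lit 883282586) (nat_lit 76) (nat_lit 722610220) (nat_lit 81) (nat_lit 5) (nat_lit 85) (nat_lit 5) (nat_lit 82) (nat_lit 5) (nat_lit 485) (nat_lit 379) (nat_lit 276)))) (XT.nd (nat_lit 78) (nat_lit 228) (nat_lit 0) (XT.lf (nat_lit 0) (nat_lit 1870098774) (nat_lit 380) (nat_lit 7821846729) (nat_lit 76) (nat_lit 5317491870) (nat_lit 76) (nat_lit 5) (nat_lit 81) (nat_lit 5) (nat_lit 77) (nat_lit 5) (nat_lit 486) (nat_lit 379) (nat_lit 275)) (XT.nd (nat_lit 78) (nat_lit 0) (nat_lit 0) (XT.lf (nat_lit 0) (nat_lit 183484033) (nat_lit 228) (nat_lit 5197316769) (nat_lit 304) (nat_lit 9826793721) (nat_lit 73) (nat_lit 5) (nat_lit 76) (nat_lit 5) (nat_lit 77) (nat_lit 5) (nat_lit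 487) (nat_lit 379) (nat_lit 274)) (XT.lf (nat_lit 0) (nat_lit 8422477264) (nat_lit 228) (nat_lit 571434723) (nat_lit 304) (nat_lit 6415164785) (nat_lit 73) (nat_lit 5) (nat_lit 76) (nat_lit 5) (nat_lit 77) (nat_lit 5) (nat_lit 488) (nat_lit 379) (nat_lit 273))))))))
noncomputable def xc97 : XT := (XT.nd (nat_lit 51168) (nat_lit 0) (nat_lit 39444) (XT.nd (nat_lit 780) (nat_lit 760) (nat_lit 0) (XT.nd (nat_lit 390) (nat_lit 532) (nat_lit 0) (XT.nd (nat_lit 156) (nat_lit 456) (nat_lit 0) (XT.nd (nat_lit 78) (nat_lit 76) (nat_lit 0) (XT.lf (nat_lit 0) (nat_lit 1167893187) (nat_lit 304) (nat_lit 11525926597) (nat_lit 380) (nat_lit 2920483936) (nat_lit 69) (nat_lit 5) (nat_lit 73) (nat_lit 5) (nat_lit 74) (nat_lit 5) (nat_lit 489) (nat_lit 379) (nat_lit 272)) (XT.lf (nat_lit 0) (nat_lit 666696141) (nat_lit 380) (nat_lit 6283012810) (nat_lit 76) (nat_lit 8873227078) (nat_lit 68) (nat_lit 5) (nat_lit 73) (nat_lit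 5) (nat_lit 69) (nat_lit 5) (nat_lit 490) (nat_lit 379) (nat_lit 271))) (XT.nd (nat_lit 78) (nat_lit 228) (nat_lit 0) (XT.lf (nat_lit 0) (nat_lit 2019206399) (nat_lit 228) (nat_lit 2260919812) (nat_lit 304) (nat_lit 11755361864) (nat_lit 65) (nat_lit 5) (nat_lit 68) (nat_lit 5) (nat_lit 69) (nat_lit 5) (nat_lit 491) (nat_lit 379) (nat_lit 270)) (XT.nd (nat_lit 78) (nat_lit 228) (nat_lit 0) (XT.lf (nat_lit 0) (nat_lit 8005204937) (nat_lit 304) (nat_lit 5727155745) (nat_lit 76) (nat_lit 2519148184) (nat_lit 65) (nat_lit 5) (nat_lit 69) (nat_lit 5) (nat_lit 66) (nat_lit 5) (nat_lit 492) (nat_lit 379) (nat_lit 269)) (XT.lf (nat_lit 0) (nat_lit 2717345353) (nat_lit 228) (nat_lit 9101003041) (nat_lit 304) (nat_lit 4653235618) (nat_lit 62) (nat_lit 5) (nat_lit 65) (nat_lit 5) (nat_lit 66) (nat_lit 5) (nat_lit 493) (nat_lit 379) (nat_lit 268))))) (XT.nd (nat_lit 156) (nat_lit 228) (nat_lit 0) (XT.nd (nat_lit 78)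 (nat_lit 304) (nat_lit 0) (XT.lf (nat_lit 0) (nat_lit 11377501160) (nat_lit 228) (nat_lit 4349806322) (nat_lit 304) (nat_lit 968367222) (nat_lit 62) (nat_lit 5) (nat_lit 65) (nat_lit 5) (nat_lit 66) (nat_lit 5) (nat_lit 494) (nat_lit 379) (nat_lit 267)) (XT.lf (nat_lit 0) (nat_lit 2759677274) (nat_lit 304) (nat_lit 13646231066) (nat_lit 76) (nat_lit 517860002) (nat_lit 58) (nat_lit 5) (nat_lit 62) (nat_lit 5) (nat_lit 59) (nat_lit 5) (nat_lit 495) (nat_lit 379) (nat_lit 266))) (XT.nd (nat_lit 78) (nat_lit 228) (nat_lit 0) (XT.lf (nat_lit 0) (nat_lit 6595513987) (nat_lit 304) (nat_lit 5104526795) (nat_lit 76) (nat_lit 5455335902) (nat_lit 58) (nat_lit 5) (nat_lit 62) (nat_lit 5) (nat_lit 59) (nat_lit 5) (nat_lit 496) (nat_lit 379) (nat_lit 265)) (XT.nd (nat_lit 78) (nat_lit 0) (nat_lit 0) (XT.lf (nat_lit 0) (nat_lit 3625549311) (nat_lit 228) (nat_lit 6887876114) (nat_lit 304) (nat_lit 6878089318) (nat_lit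 55) (nat_lit 5) (nat_lit 58) (nat_lit 5) (nat_lit 59) (nat_lit 5) (nat_lit 497) (nat_lit 379) (nat_lit 264)) (XT.lf (nat_lit 0) (nat_lit 12569605611) (nat_lit 228) (nat_lit 1956324989) (nat_lit 304) (nat_lit 3106124872) (nat_lit 55) (nat_lit 5) (nat_lit 58) (nat_lit 5) (nat_lit 59) (nat_lit 5) (nat_lit 498) (nat_lit 379) (nat_lit 263)))))) (XT.nd (nat_lit 390) (nat_lit 76) (nat_lit 0) (XT.nd (nat_lit 156) (nat_lit 380) (nat_lit 0) (XT.nd (nat_lit 78) (nat_lit 0) (nat_lit 0) (XT.lf (nat_lit 0) (nat_lit 758722439) (nat_lit 304) (nat_lit 14066153778) (nat_lit 76) (nat_lit 3051895669) (nat_lit 51) (nat_lit 5) (nat_lit 55) (nat_lit 5) (nat_lit 52) (nat_lit 5) (nat_lit 499) (nat_lit 379) (nat_lit 262)) (XT.lf (nat_lit 0) (nat_lit 4688763374) (nat_lit 304) (nat_lit 5259242196) (nat_lit 76) (nat_lit 8177381027) (nat_lit 51) (nat_lit 5) (nat_lit 55) (nat_lit 5) (nat_lit 52) (nat_lit 5) (nat_lit 500) (nat_lit 379)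 (nat_lit 261))) (XT.nd (nat_lit 78) (nat_lit 152) (nat_lit 0) (XT.lf (nat_lit 0) (nat_lit 3743931378) (nat_lit 228) (nat_lit 4960425302) (nat_lit 304) (nat_lit 9674482159) (nat_lit 48) (nat_lit 5) (nat_lit 51) (nat_lit 5) (nat_lit 52) (nat_lit 5) (nat_lit 501) (nat_lit 379) (nat_lit 260)) (XT.nd (nat_lit 78) (nat_lit 152) (nat_lit 0) (XT.lf (nat_lit 0) (nat_lit 12819333484) (nat_lit 304) (nat_lit 5668314082) (nat_lit 76) (nat_lit 149335309) (nat_lit 48) (nat_lit 5) (nat_lit 52) (nat_lit 5) (nat_lit 49) (nat_lit 5) (nat_lit 502) (nat_lit 379) (nat_lit 259)) (XT.lf (nat_lit 0) (nat_lit 3461669959) (nat_lit 152) (nat_lit 13593326276) (nat_lit 228) (nat_lit 1844529930) (nat_lit 46) (nat_lit 5) (nat_lit 48) (nat_lit 5) (nat_lit 49) (nat_lit 5) (nat_lit 503) (nat_lit 379) (nat_lit 258))))) (XT.nd (nat_lit 49764) (nat_lit 0) (nat_lit 45980) (XT.nd (nat_lit 49686) (nat_lit 0) (nat_lit 46208) (XT.lf (nat_lit 0) (nat_lit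 2200475864) (nat_lit 228) (nat_lit 6358590751) (nat_lit 76) (nat_lit 10607543267) (nat_lit 45) (nat_lit 5) (nat_lit 48) (nat_lit 5) (nat_lit 46) (nat_lit 5) (nat_lit 504) (nat_lit 379) (nat_lit 257)) (XT.lf (nat_lit 0) (nat_lit 0) (nat_lit 0) (nat_lit 0) (nat_lit 0) (nat_lit 1073741823) (nat_lit 1) (nat_lit 0) (nat_lit 1) (nat_lit 0) (nat_lit 653) (nat_lit 0) (nat_lit 380) (nat_lit 380) (nat_lit 380))) (XT.nd (nat_lit 78) (nat_lit 152) (nat_lit 0) (XT.lf (nat_lit 0) (nat_lit 3027494338) (nat_lit 76) (nat_lit 3375432165) (nat_lit 0) (nat_lit 39965616) (nat_lit 652) (nat_lit 5) (nat_lit 653) (nat_lit 0) (nat_lit 652) (nat_lit 4) (nat_lit 381) (nat_lit 380) (nat_lit 379)) (XT.nd (nat_lit 78) (nat_lit 152) (nat_lit 0) (XT.lf (nat_lit 0) (nat_lit 6036390970) (nat_lit 76) (nat_lit 288711639) (nat_lit 0) (nat_lit 119912520) (nat_lit 652) (nat_lit 5) (nat_lit 653) (nat_lit 0) (nat_lit 652) (nat_lit 4) (nat_lit 382)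 (nat_lit 380) (nat_lit 378)) (XT.lf (nat_lit 0) (nat_lit 2563892705) (nat_lit 152) (nat_lit 3608934524) (nat_lit 76) (nat_lit 275285315) (nat_lit 650) (nat_lit 5) (nat_lit 652) (nat_lit 5) (nat_lit 651) (nat_lit 4) (nat_lit 383) (nat_lit 380) (nat_lit 377))))))) (XT.nd (nat_lit 780) (nat_lit 4712) (nat_lit 0) (XT.nd (nat_lit 390) (nat_lit 1292) (nat_lit 0) (XT.nd (nat_lit 156) (nat_lit 304) (nat_lit 0) (XT.nd (nat_lit 78) (nat_lit 228) (nat_lit 0) (XT.lf (nat_lit 0) (nat_lit 5515415313) (nat_lit 152) (nat_lit 462073896) (nat_lit 76) (nat_lit 475313006) (nat_lit 650) (nat_lit 5) (nat_lit 652) (nat_lit 5) (nat_lit 651) (nat_lit 4) (nat_lit 384) (nat_lit 380) (nat_lit 376)) (XT.lf (nat_lit 0) (nat_lit 1983180188) (nat_lit 228) (nat_lit 3729015344) (nat_lit 76) (nat_lit 746364638) (nat_lit 647) (nat_lit 5) (nat_lit 650) (nat_lit 5) (nat_lit 648) (nat_lit 5) (nat_lit 385) (nat_lit 380) (nat_lit 375))) (XT.nd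 (nat_lit 78) (nat_lit 304) (nat_lit 0) (XT.lf (nat_lit 0) (nat_lit 4877963428) (nat_lit 228) (nat_lit 520989153) (nat_lit 76) (nat_lit 1066869623) (nat_lit 647) (nat_lit 5) (nat_lit 650) (nat_lit 5) (nat_lit 648) (nat_lit 5) (nat_lit 386) (nat_lit 380) (nat_lit 374)) (XT.nd (nat_lit 78) (nat_lit 0) (nat_lit 0) (XT.lf (nat_lit 0) (nat_lit 1283686304) (nat_lit 304) (nat_lit 3736478181) (nat_lit 76) (nat_lit 1454084072) (nat_lit 643) (nat_lit 5) (nat_lit 647) (nat_lit 5) (nat_lit 644) (nat_lit 5) (nat_lit 387) (nat_lit 380) (nat_lit 373)) (XT.lf (nat_lit 0) (nat_lit 4122250108) (nat_lit 304) (nat_lit 466150082) (nat_lit 76) (nat_lit 1895691706) (nat_lit 643) (nat_lit 5) (nat_lit 647) (nat_lit 5) (nat_lit 644) (nat_lit 5) (nat_lit 388) (nat_lit 380) (nat_lit 372))))) (XT.nd (nat_lit 156) (nat_lit 912) (nat_lit 0) (XT.nd (nat_lit 78) (nat_lit 0) (nat_lit 0) (XT.lf (nat_lit 0) (nat_lit 463512187) (nat_lit 380)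 (nat_lit 3631919960) (nat_lit 76) (nat_lit 2399765929) (nat_lit 638) (nat_lit 5) (nat_lit 643) (nat_lit 5) (nat_lit 639) (nat_lit 5) (nat_lit 389) (nat_lit 380) (nat_lit 371)) (XT.lf (nat_lit 0) (nat_lit 3246260310) (nat_lit 380) (nat_lit 298043234) (nat_lit 76) (nat_lit 2963331371) (nat_lit 638) (nat_lit 5) (nat_lit 643) (nat_lit 5) (nat_lit 639) (nat_lit 5) (nat_lit 390) (nat_lit 380) (nat_lit 370))) (XT.nd (nat_lit 78) (nat_lit 532) (nat_lit 0) (XT.lf (nat_lit 0) (nat_lit 3102483966) (nat_lit 380) (nat_lit 2933042163) (nat_lit 456) (nat_lit 485846726) (nat_lit 633) (nat_lit 5) (nat_lit 638) (nat_lit 5) (nat_lit 639) (nat_lit 5) (nat_lit 391) (nat_lit 380) (nat_lit 369)) (XT.nd (nat_lit 78) (nat_lit 456) (nat_lit 0) (XT.lf (nat_lit 0) (nat_lit 2247743631) (nat_lit 456) (nat_lit 16952350) (nat_lit 76) (nat_lit 4271785766) (nat_lit 632) (nat_lit 5) (nat_lit 638) (nat_lit 5) (nat_lit 633) (nat_lit 5) (nat_lit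 392) (nat_lit 380) (nat_lit 368)) (XT.lf (nat_lit 0) (nat_lit 3454495270) (nat_lit 456) (nat_lit 1530083385) (nat_lit 532) (nat_lit 1568213972) (nat_lit 626) (nat_lit 5) (nat_lit 632) (nat_lit 5) (nat_lit 633) (nat_lit 5) (nat_lit 393) (nat_lit 380) (nat_lit 367)))))) (XT.nd (nat_lit 390) (nat_lit 2736) (nat_lit 0) (XT.nd (nat_lit 156) (nat_lit 1368) (nat_lit 0) (XT.nd (nat_lit 78) (nat_lit 0) (nat_lit 0) (XT.lf (nat_lit 0) (nat_lit 382049214) (nat_lit 532) (nat_lit 744639715) (nat_lit 608) (nat_lit 5443931264) (nat_lit 618) (nat_lit 5) (nat_lit 625) (nat_lit 5) (nat_lit 626) (nat_lit 5) (nat_lit 394) (nat_lit 380) (nat_lit 366)) (XT.lf (nat_lit 0) (nat_lit 3810210533) (nat_lit 608) (nat_lit 2667843499) (nat_lit 76) (nat_lit 111490398) (nat_lit 618) (nat_lit 5) (nat_lit 626) (nat_lit 5) (nat_lit 619) (nat_lit 5) (nat_lit 395) (nat_lit 380) (nat_lit 365))) (XT.nd (nat_lit 78) (nat_lit 760) (nat_lit 0) (XT.lf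 (nat_lit 0) (nat_lit 888285958) (nat_lit 608) (nat_lit 5605505130) (nat_lit 684) (nat_lit 116188902) (nat_lit 610) (nat_lit 5) (nat_lit 618) (nat_lit 5) (nat_lit 619) (nat_lit 5) (nat_lit 396) (nat_lit 380) (nat_lit 364)) (XT.nd (nat_lit 78) (nat_lit 684) (nat_lit 0) (XT.lf (nat_lit 0) (nat_lit 2520341490) (nat_lit 684) (nat_lit 2138128530) (nat_lit 76) (nat_lit 1972990353) (nat_lit 609) (nat_lit 5) (nat_lit 618) (nat_lit 5) (nat_lit 610) (nat_lit 5) (nat_lit 397) (nat_lit 380) (nat_lit 363)) (XT.lf (nat_lit 0) (nat_lit 1494406126) (nat_lit 684) (nat_lit 3660799277) (nat_lit 760) (nat_lit 1499263539) (nat_lit 600) (nat_lit 5) (nat_lit 609) (nat_lit 5) (nat_lit 610) (nat_lit 5) (nat_lit 398) (nat_lit 380) (nat_lit 362))))) (XT.nd (nat_lit 234) (nat_lit 1900) (nat_lit 0) (XT.nd (nat_lit 78) (nat_lit 760) (nat_lit 0) (XT.lf (nat_lit 0) (nat_lit 1101944893) (nat_lit 760) (nat_lit 1498872580) (nat_lit 76) (nat_lit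 4077975988) (nat_lit 599) (nat_lit 5) (nat_lit 609) (nat_lit 5) (nat_lit 600) (nat_lit 5) (nat_lit 399) (nat_lit 380) (nat_lit 361)) (XT.nd (nat_lit 78) (nat_lit 0) (nat_lit 0) (XT.lf (nat_lit 0) (nat_lit 2213328640) (nat_lit 760) (nat_lit 1475329481) (nat_lit 836) (nat_lit 3015730851) (nat_lit 589) (nat_lit 5) (nat_lit 599) (nat_lit 5) (nat_lit 600) (nat_lit 5) (nat_lit 400) (nat_lit 380) (nat_lit 360)) (XT.lf (nat_lit 0) (nat_lit 5979051163) (nat_lit 760) (nat_lit 298205628) (nat_lit 836) (nat_lit 454289342) (nat_lit 589) (nat_lit 5) (nat_lit 599) (nat_lit 5) (nat_lit 600) (nat_lit 5) (nat_lit 401) (nat_lit 380) (nat_lit 359)))) (XT.nd (nat_lit 78) (nat_lit 988) (nat_lit 0) (XT.lf (nat_lit 0) (nat_lit 2096876395) (nat_lit 912) (nat_lit 3720305227) (nat_lit 76) (nat_lit 942499196) (nat_lit 577) (nat_lit 5) (nat_lit 589) (nat_lit 5) (nat_lit 578) (nat_lit 5) (nat_lit 402) (nat_lit 380) (nat_lit 358)) (XT.nd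 (nat_lit 78) (nat_lit 76) (nat_lit 0) (XT.lf (nat_lit 0) (nat_lit 82946424) (nat_lit 912) (nat_lit 4559474647) (nat_lit 988) (nat_lit 2146958019) (nat_lit 565) (nat_lit 5) (nat_lit 577) (nat_lit 5) (nat_lit 578) (nat_lit 5) (nat_lit 403) (nat_lit 380) (nat_lit 357)) (XT.lf (nat_lit 0) (nat_lit 381115454) (nat_lit 988) (nat_lit 2852035209) (nat_lit 76) (nat_lit 3587165855) (nat_lit 564) (nat_lit 5) (nat_lit 577) (nat_lit 5) (nat_lit 565) (nat_lit 5) (nat_lit 404) (nat_lit 380) (nat_lit 356))))))))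
noncomputable def xc98 : XT := (XT.nd (nat_lit 1560) (nat_lit 9956) (nat_lit 0) (XT.nd (nat_lit 780) (nat_lit 9120) (nat_lit 0) (XT.nd (nat_lit 390) (nat_lit 4028) (nat_lit 0) (XT.nd (nat_lit 156) (nat_lit 2280) (nat_lit 0) (XT.nd (nat_lit 78) (nat_lit 0) (nat_lit 0) (XT.lf (nat_lit 0) (nat_lit 1037000099) (nat_lit 988) (nat_lit 1844171661) (nat_lit 1064) (nat_lit 3971460577) (nat_lit 551) (nat_lit 5) (nat_lit 564) (nat_lit 5) (nat_lit 565) (nat_lit 5) (nat_lit 405) (nat_lit 380) (nat_lit 355)) (XT.lf (nat_lit 0) (nat_lit 5000919139) (nat_lit 988) (nat_lit 393697883) (nat_lit 1064) (nat_lit 1491755626) (nat_lit 551) (nat_lit 5) (nat_lit 564) (nat_lit 5) (nat_lit 565) (nat_lit 5) (nat_lit 406) (nat_lit 380) (nat_lit 354))) (XT.nd (nat_lit 78) (nat_lit 1140) (nat_lit 0) (XT.lf (nat_lit 0) (nat_lit 989796178) (nat_lit 1140) (nat_lit 4826147169) (nat_lit 76) (nat_lit 1105436635) (nat_lit 536) (nat_lit 5) (nat_lit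 551) (nat_lit 5) (nat_lit 537) (nat_lit 5) (nat_lit 407) (nat_lit 380) (nat_lit 353)) (XT.nd (nat_lit 78) (nat_lit 1140) (nat_lit 0) (XT.lf (nat_lit 0) (nat_lit 3462198792) (nat_lit 1140) (nat_lit 830771743) (nat_lit 76) (nat_lit 2664739113) (nat_lit 536) (nat_lit 5) (nat_lit 551) (nat_lit 5) (nat_lit 537) (nat_lit 5) (nat_lit 408) (nat_lit 380) (nat_lit 352)) (XT.lf (nat_lit 0) (nat_lit 3245450590) (nat_lit 1140) (nat_lit 2706564859) (nat_lit 1216) (nat_lit 1043433575) (nat_lit 521) (nat_lit 5) (nat_lit 536) (nat_lit 5) (nat_lit 537) (nat_lit 5) (nat_lit 409) (nat_lit 380) (nat_lit 351))))) (XT.nd (nat_lit 156) (nat_lit 2736) (nat_lit 0) (XT.nd (nat_lit 78) (nat_lit 0) (nat_lit 0) (XT.lf (nat_lit 0) (nat_lit 333405673) (nat_lit 1216) (nat_lit 1060217847) (nat_lit 1292) (nat_lit 5641070046) (nat_lit 504) (nat_lit 5) (nat_lit 520) (nat_lit 5) (nat_lit 521) (nat_lit 5) (nat_lit 410) (nat_lit 380) (nat_lit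 350)) (XT.lf (nat_lit 0) (nat_lit 3842921318) (nat_lit 1292) (nat_lit 2578966673) (nat_lit 76) (nat_lit 653187634) (nat_lit 504) (nat_lit 5) (nat_lit 521) (nat_lit 5) (nat_lit 505) (nat_lit 5) (nat_lit 411) (nat_lit 380) (nat_lit 349))) (XT.nd (nat_lit 78) (nat_lit 1444) (nat_lit 0) (XT.lf (nat_lit 0) (nat_lit 1597614119) (nat_lit 1292) (nat_lit 4710110164) (nat_lit 1368) (nat_lit 809249859) (nat_lit 487) (nat_lit 5) (nat_lit 504) (nat_lit 5) (nat_lit 505) (nat_lit 5) (nat_lit 412) (nat_lit 380) (nat_lit 348)) (XT.nd (nat_lit 78) (nat_lit 1368) (nat_lit 0) (XT.lf (nat_lit 0) (nat_lit 1607215577) (nat_lit 1368) (nat_lit 1320136051) (nat_lit 76) (nat_lit 4232842817) (nat_lit 486) (nat_lit 5) (nat_lit 504) (nat_lit 5) (nat_lit 487) (nat_lit 5) (nat_lit 413) (nat_lit 380) (nat_lit 347)) (XT.lf (nat_lit 0) (nat_lit 2954749022) (nat_lit 1368) (nat_lit 1076091308) (nat_lit 1444) (nat_lit 3173975467) (nat_lit 468)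 (nat_lit 5) (nat_lit 486) (nat_lit 5) (nat_lit 487) (nat_lit 5) (nat_lit 414) (nat_lit 380) (nat_lit 346)))))) (XT.nd (nat_lit 390) (nat_lit 4408) (nat_lit 0) (XT.nd (nat_lit 156) (nat_lit 3192) (nat_lit 0) (XT.nd (nat_lit 78) (nat_lit 76) (nat_lit 0) (XT.lf (nat_lit 0) (nat_lit 35505462) (nat_lit 1444) (nat_lit 6433074987) (nat_lit 1520) (nat_lit 782472488) (nat_lit 449) (nat_lit 5) (nat_lit 468) (nat_lit 5) (nat_lit 469) (nat_lit 5) (nat_lit 415) (nat_lit 380) (nat_lit 345)) (XT.lf (nat_lit 0) (nat_lit 1622516329) (nat_lit 1520) (nat_lit 2894218719) (nat_lit 76) (nat_lit 2781551718) (nat_lit 448) (nat_lit 5) (nat_lit 468) (nat_lit 5) (nat_lit 449) (nat_lit 5) (nat_lit 416) (nat_lit 380) (nat_lit 344))) (XT.nd (nat_lit 78) (nat_lit 1672) (nat_lit 0) (XT.lf (nat_lit 0) (nat_lit 1485780684) (nat_lit 1520) (nat_lit 2541503702) (nat_lit 1596) (nat_lit 3319868436) (nat_lit 428) (nat_lit 5) (nat_lit 448) (nat_lit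 5) (nat_lit 449) (nat_lit 5) (nat_lit 417) (nat_lit 380) (nat_lit 343)) (XT.nd (nat_lit 78) (nat_lit 1672) (nat_lit 0) (XT.lf (nat_lit 0) (nat_lit 5950828412) (nat_lit 1520) (nat_lit 501901506) (nat_lit 1596) (nat_lit 944848099) (nat_lit 428) (nat_lit 5) (nat_lit 448) (nat_lit 5) (nat_lit 449) (nat_lit 5) (nat_lit 418) (nat_lit 380) (nat_lit 342)) (XT.lf (nat_lit 0) (nat_lit 1442277746) (nat_lit 1672) (nat_lit 4414960501) (nat_lit 76) (nat_lit 1591934049) (nat_lit 406) (nat_lit 5) (nat_lit 428) (nat_lit 5) (nat_lit 407) (nat_lit 5) (nat_lit 419) (nat_lit 380) (nat_lit 341))))) (XT.nd (nat_lit 156) (nat_lit 2736) (nat_lit 0) (XT.nd (nat_lit 78) (nat_lit 0) (nat_lit 0) (XT.lf (nat_lit 0) (nat_lit 71786147) (nat_lit 1672) (nat_lit 3760691694) (nat_lit 1748) (nat_lit 3669867576) (nat_lit 384) (nat_lit 5) (nat_lit 406) (nat_lit 5) (nat_lit 407) (nat_lit 5) (nat_lit 420) (nat_lit 380) (nat_lit 340)) (XT.lf (nat_lit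 0) (nat_lit 4666082903) (nat_lit 1672) (nat_lit 1589055540) (nat_lit 1748) (nat_lit 1301781338) (nat_lit 384) (nat_lit 5) (nat_lit 406) (nat_lit 5) (nat_lit 407) (nat_lit 5) (nat_lit 421) (nat_lit 380) (nat_lit 339))) (XT.nd (nat_lit 78) (nat_lit 912) (nat_lit 0) (XT.lf (nat_lit 0) (nat_lit 1069975698) (nat_lit 1824) (nat_lit 5904249064) (nat_lit 76) (nat_lit 638827669) (nat_lit 360) (nat_lit 5) (nat_lit 384) (nat_lit 5) (nat_lit 361) (nat_lit 5) (nat_lit 422) (nat_lit 380) (nat_lit 338)) (XT.nd (nat_lit 78) (nat_lit 912) (nat_lit 0) (XT.lf (nat_lit 0) (nat_lit 3458009724) (nat_lit 1824) (nat_lit 1292041712) (nat_lit 76) (nat_lit 2920387878) (nat_lit 360) (nat_lit 5) (nat_lit 384) (nat_lit 5) (nat_lit 361) (nat_lit 5) (nat_lit 423) (nat_lit 380) (nat_lit 337)) (XT.lf (nat_lit 0) (nat_lit 3415566987) (nat_lit 912) (nat_lit 2457477640) (nat_lit 988) (nat_lit 1856373061) (nat_lit 348) (nat_lit 5) (nat_lit 360)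 (nat_lit 5) (nat_lit 361) (nat_lit 5) (nat_lit 424) (nat_lit 380) (nat_lit 336))))))) (XT.nd (nat_lit 780) (nat_lit 4864) (nat_lit 0) (XT.nd (nat_lit 390) (nat_lit 2356) (nat_lit 0) (XT.nd (nat_lit 156) (nat_lit 1748) (nat_lit 0) (XT.nd (nat_lit 78) (nat_lit 0) (nat_lit 0) (XT.lf (nat_lit 0) (nat_lit 405186904) (nat_lit 912) (nat_lit 103133902) (nat_lit 988) (nat_lit 7281837515) (nat_lit 335) (nat_lit 5) (nat_lit 347) (nat_lit 5) (nat_lit 348) (nat_lit 5) (nat_lit 425) (nat_lit 380) (nat_lit 335)) (XT.lf (nat_lit 0) (nat_lit 2897434929) (nat_lit 988) (nat_lit 2644416651) (nat_lit 76) (nat_lit 2310004020) (nat_lit 335) (nat_lit 5) (nat_lit 348) (nat_lit 5) (nat_lit 336) (nat_lit 5) (nat_lit 426) (nat_lit 380) (nat_lit 334))) (XT.nd (nat_lit 78) (nat_lit 912) (nat_lit 0) (XT.lf (nat_lit 0) (nat_lit 2177098800) (nat_lit 836) (nat_lit 3130774232) (nat_lit 912) (nat_lit 2607469342) (nat_lit 324) (nat_lit 5) (nat_lit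 335) (nat_lit 5) (nat_lit 336) (nat_lit 5) (nat_lit 427) (nat_lit 380) (nat_lit 333)) (XT.nd (nat_lit 78) (nat_lit 912) (nat_lit 0) (XT.lf (nat_lit 0) (nat_lit 7089444356) (nat_lit 836) (nat_lit 654084740) (nat_lit 912) (nat_lit 237055470) (nat_lit 324) (nat_lit 5) (nat_lit 335) (nat_lit 5) (nat_lit 336) (nat_lit 5) (nat_lit 428) (nat_lit 380) (nat_lit 332)) (XT.lf (nat_lit 0) (nat_lit 2150655065) (nat_lit 912) (nat_lit 4008889802) (nat_lit 76) (nat_lit 1887358623) (nat_lit 312) (nat_lit 5) (nat_lit 324) (nat_lit 5) (nat_lit 313) (nat_lit 5) (nat_lit 429) (nat_lit 380) (nat_lit 331))))) (XT.nd (nat_lit 156) (nat_lit 1596) (nat_lit 0) (XT.nd (nat_lit 78) (nat_lit 0) (nat_lit 0) (XT.lf (nat_lit 0) (nat_lit 927897155) (nat_lit 760) (nat_lit 3631715458) (nat_lit 836) (nat_lit 3555395878) (nat_lit 302) (nat_lit 5) (nat_lit 312) (nat_lit 5) (nat_lit 313) (nat_lit 5) (nat_lit 430) (nat_lit 380) (nat_lit 330)) (XT.lf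 (nat_lit 0) (nat_lit 5976303664) (nat_lit 760) (nat_lit 1028145075) (nat_lit 836) (nat_lit 1180296760) (nat_lit 302) (nat_lit 5) (nat_lit 312) (nat_lit 5) (nat_lit 313) (nat_lit 5) (nat_lit 431) (nat_lit 380) (nat_lit 329))) (XT.nd (nat_lit 78) (nat_lit 760) (nat_lit 0) (XT.lf (nat_lit 0) (nat_lit 1216583306) (nat_lit 836) (nat_lit 5408832463) (nat_lit 76) (nat_lit 1630511687) (nat_lit 291) (nat_lit 5) (nat_lit 302) (nat_lit 5) (nat_lit 292) (nat_lit 5) (nat_lit 432) (nat_lit 380) (nat_lit 328)) (XT.nd (nat_lit 78) (nat_lit 760) (nat_lit 0) (XT.lf (nat_lit 0) (nat_lit 3629103058) (nat_lit 836) (nat_lit 350962395) (nat_lit 76) (nat_lit 4348663958) (nat_lit 291) (nat_lit 5) (nat_lit 302) (nat_lit 5) (nat_lit 292) (nat_lit 5) (nat_lit 433) (nat_lit 380) (nat_lit 327)) (XT.lf (nat_lit 0) (nat_lit 4830555221) (nat_lit 760) (nat_lit 1253195491) (nat_lit 836) (nat_lit 2319381219) (nat_lit 281) (nat_lit 5) (nat_lit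 291) (nat_lit 5) (nat_lit 292) (nat_lit 5) (nat_lit 434) (nat_lit 380) (nat_lit 326)))))) (XT.nd (nat_lit 390) (nat_lit 2584) (nat_lit 0) (XT.nd (nat_lit 156) (nat_lit 1444) (nat_lit 0) (XT.nd (nat_lit 78) (nat_lit 0) (nat_lit 0) (XT.lf (nat_lit 0) (nat_lit 92647661) (nat_lit 836) (nat_lit 6868592090) (nat_lit 76) (nat_lit 1518077855) (nat_lit 270) (nat_lit 5) (nat_lit 281) (nat_lit 5) (nat_lit 271) (nat_lit 5) (nat_lit 435) (nat_lit 380) (nat_lit 325)) (XT.lf (nat_lit 0) (nat_lit 2517480569) (nat_lit 836) (nat_lit 1675816492) (nat_lit 76) (nat_lit 4363531715) (nat_lit 270) (nat_lit 5) (nat_lit 281) (nat_lit 5) (nat_lit 271) (nat_lit 5) (nat_lit 436) (nat_lit 380) (nat_lit 324))) (XT.nd (nat_lit 78) (nat_lit 760) (nat_lit 0) (XT.lf (nat_lit 0) (nat_lit 3627635070) (nat_lit 684) (nat_lit 1350609438) (nat_lit 760) (nat_lit 3657917370) (nat_lit 261) (nat_lit 5) (nat_lit 270) (nat_lit 5) (nat_lit 271) (nat_lit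 5) (nat_lit 437) (nat_lit 380) (nat_lit 323)) (XT.nd (nat_lit 78) (nat_lit 76) (nat_lit 0) (XT.lf (nat_lit 0) (nat_lit 295569654) (nat_lit 684) (nat_lit 7180245310) (nat_lit 760) (nat_lit 1241534845) (nat_lit 252) (nat_lit 5) (nat_lit 261) (nat_lit 5) (nat_lit 262) (nat_lit 5) (nat_lit 438) (nat_lit 380) (nat_lit 322)) (XT.lf (nat_lit 0) (nat_lit 1214386946) (nat_lit 760) (nat_lit 3084369045) (nat_lit 76) (nat_lit 4501120820) (nat_lit 251) (nat_lit 5) (nat_lit 261) (nat_lit 5) (nat_lit 252) (nat_lit 5) (nat_lit 439) (nat_lit 380) (nat_lit 321))))) (XT.nd (nat_lit 234) (nat_lit 1292) (nat_lit 0) (XT.nd (nat_lit 78) (nat_lit 684) (nat_lit 0) (XT.lf (nat_lit 0) (nat_lit 2341680741) (nat_lit 608) (nat_lit 1341515013) (nat_lit 684) (nat_lit 5201105455) (nat_lit 243) (nat_lit 5) (nat_lit 251) (nat_lit 5) (nat_lit 252) (nat_lit 5) (nat_lit 440) (nat_lit 380) (nat_lit 320)) (XT.nd (nat_lit 78) (nat_lit 684) (nat_lit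 0) (XT.lf (nat_lit 0) (nat_lit 6198645902) (nat_lit 684) (nat_lit 1103950657) (nat_lit 76) (nat_lit 1667890705) (nat_lit 243) (nat_lit 5) (nat_lit 252) (nat_lit 5) (nat_lit 244) (nat_lit 5) (nat_lit 441) (nat_lit 380) (nat_lit 319)) (XT.lf (nat_lit 0) (nat_lit 4452811662) (nat_lit 684) (nat_lit 4315619557) (nat_lit 760) (nat_lit 289903407) (nat_lit 234) (nat_lit 5) (nat_lit 243) (nat_lit 5) (nat_lit 244) (nat_lit 5) (nat_lit 442) (nat_lit 380) (nat_lit 318)))) (XT.nd (nat_lit 78) (nat_lit 608) (nat_lit 0) (XT.lf (nat_lit 0) (nat_lit 945281186) (nat_lit 608) (nat_lit 1246982446) (nat_lit 684) (nat_lit 6955801816) (nat_lit 225) (nat_lit 5) (nat_lit 233) (nat_lit 5) (nat_lit 234) (nat_lit 5) (nat_lit 443) (nat_lit 380) (nat_lit 317)) (XT.nd (nat_lit 78) (nat_lit 608) (nat_lit 0) (XT.lf (nat_lit 0) (nat_lit 4730280992) (nat_lit 684) (nat_lit 2624558825) (nat_lit 76) (nat_lit 1884528036) (nat_lit 225) (nat_lit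 5) (nat_lit 234) (nat_lit 5) (nat_lit 226) (nat_lit 5) (nat_lit 444) (nat_lit 380) (nat_lit 316)) (XT.lf (nat_lit 0) (nat_lit 3057100601) (nat_lit 608) (nat_lit 4257466097) (nat_lit 684) (nat_lit 2018036177) (nat_lit 217) (nat_lit 5) (nat_lit 225) (nat_lit 5) (nat_lit 226) (nat_lit 5) (nat_lit 445) (nat_lit 380) (nat_lit 315))))))))
noncomputable def xc99 : XT := (XT.nd (nat_lit 1560) (nat_lit 4332) (nat_lit 0) (XT.nd (nat_lit 780) (nat_lit 2812) (nat_lit 0) (XT.nd (nat_lit 390) (nat_lit 1672) (nat_lit 0) (XT.nd (nat_lit 156) (nat_lit 1216) (nat_lit 0) (XT.nd (nat_lit 78) (nat_lit 532) (nat_lit 0) (XT.lf (nat_lit 0) (nat_lit 501260220) (nat_lit 684) (nat_lit 583042914) (nat_lit 76) (nat_lit 8343642016) (nat_lit 216) (nat_lit 5) (nat_lit 225) (nat_lit 5) (nat_lit 217) (nat_lit 5) (nat_lit 446) (nat_lit 380) (nat_lit 314)) (XT.lf (nat_lit 0) (nat_lit 3060391238) (nat_lit 608) (nat_lit 4299886663) (nat_lit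 76) (nat_lit 2164335950) (nat_lit 209) (nat_lit 5) (nat_lit 217) (nat_lit 5) (nat_lit 210) (nat_lit 5) (nat_lit 447) (nat_lit 380) (nat_lit 313))) (XT.nd (nat_lit 78) (nat_lit 608) (nat_lit 0) (XT.lf (nat_lit 0) (nat_lit 1506267162) (nat_lit 608) (nat_lit 4153845929) (nat_lit 684) (nat_lit 3963330126) (nat_lit 201) (nat_lit 5) (nat_lit 209) (nat_lit 5) (nat_lit 210) (nat_lit 5) (nat_lit 448) (nat_lit 380) (nat_lit 312)) (XT.nd (nat_lit 78) (nat_lit 608) (nat_lit 0) (XT.lf (nat_lit 0) (nat_lit 7447391944) (nat_lit 608) (nat_lit 862162625) (nat_lit 684) (nat_lit 1414755251) (nat_lit 201) (nat_lit 5) (nat_lit 209) (nat_lit 5) (nat_lit 210) (nat_lit 5) (nat_lit 449) (nat_lit 380) (nat_lit 311)) (XT.lf (nat_lit 0) (nat_lit 1178776892) (nat_lit 608) (nat_lit 6161897046) (nat_lit 76) (nat_lit 2486190044) (nat_lit 193) (nat_lit 5) (nat_lit 201) (nat_lit 5) (nat_lit 194) (nat_lit 5) (nat_lit 450) (nat_lit 380) (nat_lit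 310))))) (XT.nd (nat_lit 156) (nat_lit 1140) (nat_lit 0) (XT.nd (nat_lit 78) (nat_lit 532) (nat_lit 0) (XT.lf (nat_lit 0) (nat_lit 3795904006) (nat_lit 608) (nat_lit 229188021) (nat_lit 76) (nat_lit 5906391090) (nat_lit 193) (nat_lit 5) (nat_lit 201) (nat_lit 5) (nat_lit 194) (nat_lit 5) (nat_lit 451) (nat_lit 380) (nat_lit 309)) (XT.lf (nat_lit 0) (nat_lit 5860410089) (nat_lit 532) (nat_lit 613170107) (nat_lit 608) (nat_lit 3564464310) (nat_lit 186) (nat_lit 5) (nat_lit 193) (nat_lit 5) (nat_lit 194) (nat_lit 5) (nat_lit 452) (nat_lit 380) (nat_lit 308))) (XT.nd (nat_lit 78) (nat_lit 608) (nat_lit 0) (XT.lf (nat_lit 0) (nat_lit 1895518354) (nat_lit 532) (nat_lit 7312196417) (nat_lit 608) (nat_lit 938977978) (nat_lit 179) (nat_lit 5) (nat_lit 186) (nat_lit 5) (nat_lit 187) (nat_lit 5) (nat_lit 453) (nat_lit 380) (nat_lit 307)) (XT.nd (nat_lit 78) (nat_lit 532) (nat_lit 0) (XT.lf (nat_lit 0) (nat_lit 1719048181)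 (nat_lit 608) (nat_lit 2164793466) (nat_lit 76) (nat_lit 6373402931) (nat_lit 178) (nat_lit 5) (nat_lit 186) (nat_lit 5) (nat_lit 179) (nat_lit 5) (nat_lit 454) (nat_lit 380) (nat_lit 306)) (XT.lf (nat_lit 0) (nat_lit 4051938525) (nat_lit 532) (nat_lit 363177488) (nat_lit 608) (nat_lit 5954831153) (nat_lit 171) (nat_lit 5) (nat_lit 178) (nat_lit 5) (nat_lit 179) (nat_lit 5) (nat_lit 455) (nat_lit 380) (nat_lit 305)))))) (XT.nd (nat_lit 390) (nat_lit 1368) (nat_lit 0) (XT.nd (nat_lit 156) (nat_lit 988) (nat_lit 0) (XT.nd (nat_lit 78) (nat_lit 456) (nat_lit 0) (XT.lf (nat_lit 0) (nat_lit 7172077682) (nat_lit 608) (nat_lit 121887646) (nat_lit 76) (nat_lit 3190811706) (nat_lit 171) (nat_lit 5) (nat_lit 179) (nat_lit 5) (nat_lit 172) (nat_lit 5) (nat_lit 456) (nat_lit 380) (nat_lit 304)) (XT.lf (nat_lit 0) (nat_lit 6239772626) (nat_lit 456) (nat_lit 3759276502) (nat_lit 532) (nat_lit 602569392) (nat_lit 165)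 (nat_lit 5) (nat_lit 171) (nat_lit 5) (nat_lit 172) (nat_lit 5) (nat_lit 457) (nat_lit 380) (nat_lit 303))) (XT.nd (nat_lit 78) (nat_lit 456) (nat_lit 0) (XT.lf (nat_lit 0) (nat_lit 1983563442) (nat_lit 456) (nat_lit 135612727) (nat_lit 532) (nat_lit 8601636606) (nat_lit 158) (nat_lit 5) (nat_lit 164) (nat_lit 5) (nat_lit 165) (nat_lit 5) (nat_lit 458) (nat_lit 380) (nat_lit 302)) (XT.nd (nat_lit 78) (nat_lit 456) (nat_lit 0) (XT.lf (nat_lit 0) (nat_lit 4912177826) (nat_lit 532) (nat_lit 2392297795) (nat_lit 76) (nat_lit 3537349556) (nat_lit 158) (nat_lit 5) (nat_lit 165) (nat_lit 5) (nat_lit 159) (nat_lit 5) (nat_lit 459) (nat_lit 380) (nat_lit 301)) (XT.lf (nat_lit 0) (nat_lit 4094911582) (nat_lit 456) (nat_lit 3666456673) (nat_lit 532) (nat_lit 3203894483) (nat_lit 152) (nat_lit 5) (nat_lit 158) (nat_lit 5) (nat_lit 159) (nat_lit 5) (nat_lit 460) (nat_lit 380) (nat_lit 300))))) (XT.nd (nat_lit 156) (nat_lit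 836) (nat_lit 0) (XT.nd (nat_lit 78) (nat_lit 532) (nat_lit 0) (XT.lf (nat_lit 0) (nat_lit 10657057736) (nat_lit 532) (nat_lit 384632366) (nat_lit 76) (nat_lit 49699901) (nat_lit 152) (nat_lit 5) (nat_lit 159) (nat_lit 5) (nat_lit 153) (nat_lit 5) (nat_lit 461) (nat_lit 380) (nat_lit 299)) (XT.lf (nat_lit 0) (nat_lit 2397977757) (nat_lit 532) (nat_lit 4983492447) (nat_lit 76) (nat_lit 3837495803) (nat_lit 145) (nat_lit 5) (nat_lit 152) (nat_lit 5) (nat_lit 146) (nat_lit 5) (nat_lit 462) (nat_lit 380) (nat_lit 298))) (XT.nd (nat_lit 78) (nat_lit 456) (nat_lit 0) (XT.lf (nat_lit 0) (nat_lit 1625517013) (nat_lit 380) (nat_lit 3642450224) (nat_lit 456) (nat_lit 6081342506) (nat_lit 140) (nat_lit 5) (nat_lit 145) (nat_lit 5) (nat_lit 146) (nat_lit 5) (nat_lit 463) (nat_lit 380) (nat_lit 297)) (XT.nd (nat_lit 78) (nat_lit 456) (nat_lit 0) (XT.lf (nat_lit 0) (nat_lit 8204030541) (nat_lit 456) (nat_lit 3085945425)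 (nat_lit 76) (nat_lit 192121309) (nat_lit 140) (nat_lit 5) (nat_lit 146) (nat_lit 5) (nat_lit 141) (nat_lit 5) (nat_lit 464) (nat_lit 380) (nat_lit 296)) (XT.lf (nat_lit 0) (nat_lit 3672149366) (nat_lit 456) (nat_lit 7549039948) (nat_lit 532) (nat_lit 395913957) (nat_lit 134) (nat_lit 5) (nat_lit 140) (nat_lit 5) (nat_lit 141) (nat_lit 5) (nat_lit 465) (nat_lit 380) (nat_lit 295))))))) (XT.nd (nat_lit 780) (nat_lit 1900) (nat_lit 0) (XT.nd (nat_lit 390) (nat_lit 1140) (nat_lit 0) (XT.nd (nat_lit 156) (nat_lit 836) (nat_lit 0) (XT.nd (nat_lit 78) (nat_lit 380) (nat_lit 0) (XT.lf (nat_lit 0) (nat_lit 2505862310) (nat_lit 532) (nat_lit 1200468502) (nat_lit 76) (nat_lit 8048251167) (nat_lit 133) (nat_lit 5) (nat_lit 140) (nat_lit 5) (nat_lit 134) (nat_lit 5) (nat_lit 466) (nat_lit 380) (nat_lit 294)) (XT.lf (nat_lit 0) (nat_lit 5474060343) (nat_lit 456) (nat_lit 6180797634) (nat_lit 76) (nat_lit 239635805) (nat_lit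 128) (nat_lit 5) (nat_lit 134) (nat_lit 5) (nat_lit 129) (nat_lit 5) (nat_lit 467) (nat_lit 380) (nat_lit 293))) (XT.nd (nat_lit 78) (nat_lit 456) (nat_lit 0) (XT.lf (nat_lit 0) (nat_lit 693739608) (nat_lit 380) (nat_lit 7820227064) (nat_lit 456) (nat_lit 3522999682) (nat_lit 123) (nat_lit 5) (nat_lit 128) (nat_lit 5) (nat_lit 129) (nat_lit 5) (nat_lit 468) (nat_lit 380) (nat_lit 292)) (XT.nd (nat_lit 78) (nat_lit 456) (nat_lit 0) (XT.lf (nat_lit 0) (nat_lit 7753653284) (nat_lit 380) (nat_lit 3877933497) (nat_lit 456) (nat_lit 550372523) (nat_lit 123) (nat_lit 5) (nat_lit 128) (nat_lit 5) (nat_lit 129) (nat_lit 5) (nat_lit 469) (nat_lit 380) (nat_lit 291)) (XT.lf (nat_lit 0) (nat_lit 2442916417) (nat_lit 456) (nat_lit 9723286684) (nat_lit 76) (nat_lit 163460484) (nat_lit 117) (nat_lit 5) (nat_lit 123) (nat_lit 5) (nat_lit 118) (nat_lit 5) (nat_lit 470) (nat_lit 380) (nat_lit 290))))) (XT.nd (nat_lit 156)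 (nat_lit 760) (nat_lit 0) (XT.nd (nat_lit 78) (nat_lit 380) (nat_lit 0) (XT.lf (nat_lit 0) (nat_lit 5520228725) (nat_lit 456) (nat_lit 2703176252) (nat_lit 76) (nat_lit 4256222379) (nat_lit 117) (nat_lit 5) (nat_lit 123) (nat_lit 5) (nat_lit 118) (nat_lit 5) (nat_lit 471) (nat_lit 380) (nat_lit 289)) (XT.lf (nat_lit 0) (nat_lit 4481101314) (nat_lit 380) (nat_lit 4183477745) (nat_lit 456) (nat_lit 3967910042) (nat_lit 112) (nat_lit 5) (nat_lit 117) (nat_lit 5) (nat_lit 118) (nat_lit 5) (nat_lit 472) (nat_lit 380) (nat_lit 288))) (XT.nd (nat_lit 78) (nat_lit 760) (nat_lit 0) (XT.lf (nat_lit 0) (nat_lit 11810931472) (nat_lit 380) (nat_lit 55659170) (nat_lit 456) (nat_lit 921930318) (nat_lit 112) (nat_lit 5) (nat_lit 117) (nat_lit 5) (nat_lit 118) (nat_lit 5) (nat_lit 473) (nat_lit 380) (nat_lit 287)) (XT.nd (nat_lit 78) (nat_lit 380) (nat_lit 0) (XT.lf (nat_lit 0) (nat_lit 2201903933) (nat_lit 380) (nat_lit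 6599605085) (nat_lit 76) (nat_lit 4144976930) (nat_lit 107) (nat_lit 5) (nat_lit 112) (nat_lit 5) (nat_lit 108) (nat_lit 5) (nat_lit 474) (nat_lit 380) (nat_lit 286)) (XT.lf (nat_lit 0) (nat_lit 691593353) (nat_lit 380) (nat_lit 4672840446) (nat_lit 456) (nat_lit 7743291171) (nat_lit 102) (nat_lit 5) (nat_lit 107) (nat_lit 5) (nat_lit 108) (nat_lit 5) (nat_lit 475) (nat_lit 380) (nat_lit 285)))))) (XT.nd (nat_lit 390) (nat_lit 1216) (nat_lit 0) (XT.nd (nat_lit 156) (nat_lit 380) (nat_lit 0) (XT.nd (nat_lit 78) (nat_lit 304) (nat_lit 0) (XT.lf (nat_lit 0) (nat_lit 8183730055) (nat_lit 380) (nat_lit 428086830) (nat_lit 456) (nat_lit 4659947563) (nat_lit 102) (nat_lit 5) (nat_lit 107) (nat_lit 5) (nat_lit 108) (nat_lit 5) (nat_lit 476) (nat_lit 380) (nat_lit 284)) (XT.lf (nat_lit 0) (nat_lit 2358171289) (nat_lit 304) (nat_lit 9584305045) (nat_lit 380) (nat_lit 1496249385) (nat_lit 98) (nat_lit 5) (nat_lit 102)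 (nat_lit 5) (nat_lit 103) (nat_lit 5) (nat_lit 477) (nat_lit 380) (nat_lit 283))) (XT.nd (nat_lit 78) (nat_lit 304) (nat_lit 0) (XT.lf (nat_lit 0) (nat_lit 1722979135) (nat_lit 380) (nat_lit 3634499496) (nat_lit 76) (nat_lit 8251031026) (nat_lit 97) (nat_lit 5) (nat_lit 102) (nat_lit 5) (nat_lit 98) (nat_lit 5) (nat_lit 478) (nat_lit 380) (nat_lit 282)) (XT.nd (nat_lit 78) (nat_lit 0) (nat_lit 0) (XT.lf (nat_lit 0) (nat_lit 3969164345) (nat_lit 304) (nat_lit 1021369143) (nat_lit 380) (nat_lit 8790885599) (nat_lit 93) (nat_lit 5) (nat_lit 97) (nat_lit 5) (nat_lit 98) (nat_lit 5) (nat_lit 479) (nat_lit 380) (nat_lit 281)) (XT.lf (nat_lit 0) (nat_lit 8348397603) (nat_lit 380) (nat_lit 2238979822) (nat_lit 76) (nat_lit 3369917108) (nat_lit 93) (nat_lit 5) (nat_lit 98) (nat_lit 5) (nat_lit 94) (nat_lit 5) (nat_lit 480) (nat_lit 380) (nat_lit 280))))) (XT.nd (nat_lit 234) (nat_lit 532) (nat_lit 0) (XT.nd (nat_lit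 78) (nat_lit 380) (nat_lit 0) (XT.lf (nat_lit 0) (nat_lit 5518427720) (nat_lit 304) (nat_lit 6276332841) (nat_lit 380) (nat_lit 2341506958) (nat_lit 89) (nat_lit 5) (nat_lit 93) (nat_lit 5) (nat_lit 94) (nat_lit 5) (nat_lit 481) (nat_lit 380) (nat_lit 279)) (XT.nd (nat_lit 78) (nat_lit 304) (nat_lit 0) (XT.lf (nat_lit 0) (nat_lit 972161297) (nat_lit 380) (nat_lit 896736851) (nat_lit 76) (nat_lit 12449921087) (nat_lit 88) (nat_lit 5) (nat_lit 93) (nat_lit 5) (nat_lit 89) (nat_lit 5) (nat_lit 482) (nat_lit 380) (nat_lit 278)) (XT.lf (nat_lit 0) (nat_lit 4362983143) (nat_lit 380) (nat_lit 7498584000) (nat_lit 76) (nat_lit 2642307101) (nat_lit 84) (nat_lit 5) (nat_lit 89) (nat_lit 5) (nat_lit 85) (nat_lit 5) (nat_lit 483) (nat_lit 380) (nat_lit 277)))) (XT.nd (nat_lit 78) (nat_lit 304) (nat_lit 0) (XT.lf (nat_lit 0) (nat_lit 344608341) (nat_lit 228) (nat_lit 7477030210) (nat_lit 304) (nat_lit 6870997802) (nat_lit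 81) (nat_lit 5) (nat_lit 84) (nat_lit 5) (nat_lit 85) (nat_lit 5) (nat_lit 484) (nat_lit 380) (nat_lit 276)) (XT.nd (nat_lit 78) (nat_lit 304) (nat_lit 0) (XT.lf (nat_lit 0) (nat_lit 8414025629) (nat_lit 228) (nat_lit 2965301726) (nat_lit 304) (nat_lit 3505255358) (nat_lit 81) (nat_lit 5) (nat_lit 84) (nat_lit 5) (nat_lit 85) (nat_lit 5) (nat_lit 485) (nat_lit 380) (nat_lit 275)) (XT.lf (nat_lit 0) (nat_lit 1542078466) (nat_lit 304) (nat_lit 13466596689) (nat_lit 380) (nat_lit 71688835) (nat_lit 77) (nat_lit 5) (nat_lit 81) (nat_lit 5) (nat_lit 82) (nat_lit 5) (nat_lit 486) (nat_lit 380) (nat_lit 274))))))))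
noncomputable def xc100 : XT := (XT.nd (nat_lit 51324) (nat_lit 0) (nat_lit 39216) (XT.nd (nat_lit 780) (nat_lit 760) (nat_lit 0) (XT.nd (nat_lit 390) (nat_lit 760) (nat_lit 0) (XT.nd (nat_lit 156) (nat_lit 380) (nat_lit 0) (XT.nd (nat_lit 78) (nat_lit 228) (nat_lit 0) (XT.lf (nat_lit 0) (nat_lit 3428820141) (nat_lit 380) (nat_lit 5550759830) (nat_lit 76) (nat_lit 6299176043) (nat_lit 76) (nat_lit 5) (nat_lit 81) (nat_lit 5) (nat_lit 77) (nat_lit 5) (nat_lit 487) (nat_lit 380) (nat_lit 273)) (XT.lf (nat_lit 0) (nat_lit 2598706996) (nat_lit 228) (nat_lit 4396856825) (nat_lit 304) (nat_lit 8485604634) (nat_lit 73) (nat_lit 5) (nat_lit 76) (nat_lit 5) (nat_lit 77) (nat_lit 5) (nat_lit 488) (nat_lit 380) (nat_lit 272))) (XT.nd (nat_lit 78) (nat_lit 380) (nat_lit 0) (XT.lf (nat_lit 0) (nat_lit 10653357860) (nat_lit 304) (nat_lit 4734057716) (nat_lit 76) (nat_lit 299824889) (nat_lit 73) (nat_lit 5) (nat_lit 77)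 (nat_lit 5) (nat_lit 74) (nat_lit 5) (nat_lit 489) (nat_lit 380) (nat_lit 271)) (XT.nd (nat_lit 78) (nat_lit 76) (nat_lit 0) (XT.lf (nat_lit 0) (nat_lit 3564026751) (nat_lit 304) (nat_lit 10853341699) (nat_lit 380) (nat_lit 1479409773) (nat_lit 69) (nat_lit 5) (nat_lit 73) (nat_lit 5) (nat_lit 74) (nat_lit 5) (nat_lit 490) (nat_lit 380) (nat_lit 270)) (XT.lf (nat_lit 0) (nat_lit 2130831869) (nat_lit 380) (nat_lit 4062740098) (nat_lit 76) (nat_lit 9916404857) (nat_lit 68) (nat_lit 5) (nat_lit 73) (nat_lit 5) (nat_lit 69) (nat_lit 5) (nat_lit 491) (nat_lit 380) (nat_lit 269))))) (XT.nd (nat_lit 156) (nat_lit 532) (nat_lit 0) (XT.nd (nat_lit 78) (nat_lit 0) (nat_lit 0) (XT.lf (nat_lit 0) (nat_lit 4390089726) (nat_lit 228) (nat_lit 1413124867) (nat_lit 304) (nat_lit 10523839517) (nat_lit 65) (nat_lit 5) (nat_lit 68) (nat_lit 5) (nat_lit 69) (nat_lit 5) (nat_lit 492) (nat_lit 380) (nat_lit 268)) (XT.lf (nat_lit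 0) (nat_lit 9580293245) (nat_lit 304) (nat_lit 3534007791) (nat_lit 76) (nat_lit 3433552041) (nat_lit 65) (nat_lit 5) (nat_lit 69) (nat_lit 5) (nat_lit 66) (nat_lit 5) (nat_lit 493) (nat_lit 380) (nat_lit 267))) (XT.nd (nat_lit 78) (nat_lit 304) (nat_lit 0) (XT.lf (nat_lit 0) (nat_lit 5064201151) (nat_lit 228) (nat_lit 8392638119) (nat_lit 304) (nat_lit 3315755234) (nat_lit 62) (nat_lit 5) (nat_lit 65) (nat_lit 5) (nat_lit 66) (nat_lit 5) (nat_lit 494) (nat_lit 380) (nat_lit 266)) (XT.nd (nat_lit 78) (nat_lit 228) (nat_lit 0) (XT.lf (nat_lit 0) (nat_lit 409320964) (nat_lit 304) (nat_lit 3151808271) (nat_lit 76) (nat_lit 13440541196) (nat_lit 61) (nat_lit 5) (nat_lit 65) (nat_lit 5) (nat_lit 62) (nat_lit 5) (nat_lit 495) (nat_lit 380) (nat_lit 265)) (XT.lf (nat_lit 0) (nat_lit 4192162830) (nat_lit 304) (nat_lit 11645673899) (nat_lit 76) (nat_lit 1396504274) (nat_lit 58) (nat_lit 5) (nat_lit 62) (nat_lit 5)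 (nat_lit 59) (nat_lit 5) (nat_lit 496) (nat_lit 380) (nat_lit 264)))))) (XT.nd (nat_lit 390) (nat_lit 228) (nat_lit 0) (XT.nd (nat_lit 156) (nat_lit 304) (nat_lit 0) (XT.nd (nat_lit 78) (nat_lit 228) (nat_lit 0) (XT.lf (nat_lit 0) (nat_lit 8077710551) (nat_lit 304) (nat_lit 2977713617) (nat_lit 76) (nat_lit 6415704454) (nat_lit 58) (nat_lit 5) (nat_lit 62) (nat_lit 5) (nat_lit 59) (nat_lit 5) (nat_lit 497) (nat_lit 380) (nat_lit 263)) (XT.lf (nat_lit 0) (nat_lit 5912300171) (nat_lit 228) (nat_lit 6149580160) (nat_lit 304) (nat_lit 5650357970) (nat_lit 55) (nat_lit 5) (nat_lit 58) (nat_lit 5) (nat_lit 59) (nat_lit 5) (nat_lit 498) (nat_lit 380) (nat_lit 262))) (XT.nd (nat_lit 78) (nat_lit 304) (nat_lit 0) (XT.lf (nat_lit 0) (nat_lit 14991821130) (nat_lit 228) (nat_lit 1136575531) (nat_lit 304) (nat_lit 1829724689) (nat_lit 55) (nat_lit 5) (nat_lit 58) (nat_lit 5) (nat_lit 59) (nat_lit 5) (nat_lit 499) (nat_lit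 380) (nat_lit 261)) (XT.nd (nat_lit 78) (nat_lit 0) (nat_lit 0) (XT.lf (nat_lit 0) (nat_lit 2088697295) (nat_lit 304) (nat_lit 12152278261) (nat_lit 76) (nat_lit 3966712535) (nat_lit 51) (nat_lit 5) (nat_lit 55) (nat_lit 5) (nat_lit 52) (nat_lit 5) (nat_lit 500) (nat_lit 380) (nat_lit 260)) (XT.lf (nat_lit 0) (nat_lit 6071558649) (nat_lit 304) (nat_lit 3212271556) (nat_lit 76) (nat_lit 9177966836) (nat_lit 51) (nat_lit 5) (nat_lit 55) (nat_lit 5) (nat_lit 52) (nat_lit 5) (nat_lit 501) (nat_lit 380) (nat_lit 259))))) (XT.nd (nat_lit 49920) (nat_lit 0) (nat_lit 45676) (XT.nd (nat_lit 78) (nat_lit 0) (nat_lit 0) (XT.lf (nat_lit 0) (nat_lit 5956806571) (nat_lit 228) (nat_lit 4199263639) (nat_lit 304) (nat_lit 8564482203) (nat_lit 48) (nat_lit 5) (nat_lit 51) (nat_lit 5) (nat_lit 52) (nat_lit 5) (nat_lit 502) (nat_lit 380) (nat_lit 258)) (XT.lf (nat_lit 0) (nat_lit 14333771616) (nat_lit 304) (nat_lit 3665725781)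 (nat_lit 76) (nat_lit 984759524) (nat_lit 48) (nat_lit 5) (nat_lit 52) (nat_lit 5) (nat_lit 49) (nat_lit 5) (nat_lit 503) (nat_lit 380) (nat_lit 257))) (XT.nd (nat_lit 78) (nat_lit 228) (nat_lit 0) (XT.lf (nat_lit 0) (nat_lit 1503788306) (nat_lit 0) (nat_lit 1503788306) (nat_lit 76) (nat_lit 214510681) (nat_lit 652) (nat_lit 5) (nat_lit 652) (nat_lit 3) (nat_lit 653) (nat_lit 0) (nat_lit 381) (nat_lit 381) (nat_lit 378)) (XT.nd (nat_lit 78) (nat_lit 0) (nat_lit 0) (XT.lf (nat_lit 0) (nat_lit 2504577950) (nat_lit 228) (nat_lit 385912862) (nat_lit 228) (nat_lit 3556302242) (nat_lit 649) (nat_lit 3) (nat_lit 652) (nat_lit 3) (nat_lit 652) (nat_lit 5) (nat_lit 382) (nat_lit 381) (nat_lit 377)) (XT.lf (nat_lit 76) (nat_lit 2719341425) (nat_lit 0) (nat_lit 2712511533) (nat_lit 228) (nat_lit 1018824115) (nat_lit 650) (nat_lit 5) (nat_lit 649) (nat_lit 3) (nat_lit 652) (nat_lit 5) (nat_lit 383) (nat_lit 381) (nat_lit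 376))))))) (XT.nd (nat_lit 780) (nat_lit 4636) (nat_lit 0) (XT.nd (nat_lit 390) (nat_lit 912) (nat_lit 0) (XT.nd (nat_lit 156) (nat_lit 684) (nat_lit 0) (XT.nd (nat_lit 78) (nat_lit 0) (nat_lit 0) (XT.lf (nat_lit 0) (nat_lit 1863654796) (nat_lit 228) (nat_lit 615521916) (nat_lit 304) (nat_lit 3976761413) (nat_lit 646) (nat_lit 5) (nat_lit 649) (nat_lit 3) (nat_lit 650) (nat_lit 5) (nat_lit 384) (nat_lit 381) (nat_lit 375)) (XT.lf (nat_lit 76) (nat_lit 2549986391) (nat_lit 0) (nat_lit 2181977549) (nat_lit 304) (nat_lit 1730449286) (nat_lit 647) (nat_lit 5) (nat_lit 646) (nat_lit 5) (nat_lit 650) (nat_lit 5) (nat_lit 385) (nat_lit 381) (nat_lit 374))) (XT.nd (nat_lit 78) (nat_lit 380) (nat_lit 0) (XT.lf (nat_lit 0) (nat_lit 1103091693) (nat_lit 304) (nat_lit 729652443) (nat_lit 380) (nat_lit 4637595027) (nat_lit 642) (nat_lit 5) (nat_lit 646) (nat_lit 5) (nat_lit 647) (nat_lit 5) (nat_lit 386) (nat_lit 381)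 (nat_lit 373)) (XT.nd (nat_lit 78) (nat_lit 380) (nat_lit 0) (XT.lf (nat_lit 76) (nat_lit 2498754836) (nat_lit 0) (nat_lit 1414977497) (nat_lit 380) (nat_lit 2565665889) (nat_lit 643) (nat_lit 5) (nat_lit 642) (nat_lit 5) (nat_lit 647) (nat_lit 5) (nat_lit 387) (nat_lit 381) (nat_lit 372)) (XT.lf (nat_lit 0) (nat_lit 221025947) (nat_lit 380) (nat_lit 728952654) (nat_lit 456) (nat_lit 5540036231) (nat_lit 637) (nat_lit 5) (nat_lit 642) (nat_lit 5) (nat_lit 643) (nat_lit 5) (nat_lit 388) (nat_lit 381) (nat_lit 371))))) (XT.nd (nat_lit 156) (nat_lit 912) (nat_lit 0) (XT.nd (nat_lit 78) (nat_lit 0) (nat_lit 76) (XT.lf (nat_lit 76) (nat_lit 2565103832) (nat_lit 0) (nat_lit 410070961) (nat_lit 456) (nat_lit 3526479265) (nat_lit 638) (nat_lit 5) (nat_lit 637) (nat_lit 5) (nat_lit 643) (nat_lit 5) (nat_lit 389) (nat_lit 381) (nat_lit 370)) (XT.lf (nat_lit 0) (nat_lit 5720963112) (nat_lit 380) (nat_lit 620167827)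 (nat_lit 76) (nat_lit 173733618) (nat_lit 638) (nat_lit 5) (nat_lit 643) (nat_lit 5) (nat_lit 639) (nat_lit 5) (nat_lit 390) (nat_lit 381) (nat_lit 369))) (XT.nd (nat_lit 78) (nat_lit 532) (nat_lit 0) (XT.lf (nat_lit 0) (nat_lit 1919492018) (nat_lit 456) (nat_lit 3785927669) (nat_lit 76) (nat_lit 823681515) (nat_lit 632) (nat_lit 5) (nat_lit 638) (nat_lit 5) (nat_lit 633) (nat_lit 5) (nat_lit 391) (nat_lit 381) (nat_lit 368)) (XT.nd (nat_lit 78) (nat_lit 532) (nat_lit 0) (XT.lf (nat_lit 0) (nat_lit 4613365554) (nat_lit 456) (nat_lit 407252722) (nat_lit 76) (nat_lit 1524228107) (nat_lit 632) (nat_lit 5) (nat_lit 638) (nat_lit 5) (nat_lit 633) (nat_lit 5) (nat_lit 392) (nat_lit 381) (nat_lit 367)) (XT.lf (nat_lit 0) (nat_lit 743040595) (nat_lit 532) (nat_lit 3527752154) (nat_lit 76) (nat_lit 2291006355) (nat_lit 625) (nat_lit 5) (nat_lit 632) (nat_lit 5) (nat_lit 626) (nat_lit 5) (nat_lit 393) (nat_lit 381)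 (nat_lit 366)))))) (XT.nd (nat_lit 390) (nat_lit 2660) (nat_lit 0) (XT.nd (nat_lit 156) (nat_lit 1444) (nat_lit 0) (XT.nd (nat_lit 78) (nat_lit 532) (nat_lit 0) (XT.lf (nat_lit 0) (nat_lit 3382474490) (nat_lit 532) (nat_lit 82642778) (nat_lit 76) (nat_lit 3115034399) (nat_lit 625) (nat_lit 5) (nat_lit 632) (nat_lit 5) (nat_lit 626) (nat_lit 5) (nat_lit 394) (nat_lit 381) (nat_lit 365)) (XT.lf (nat_lit 0) (nat_lit 3436746024) (nat_lit 532) (nat_lit 2596058215) (nat_lit 608) (nat_lit 566965507) (nat_lit 618) (nat_lit 5) (nat_lit 625) (nat_lit 5) (nat_lit 626) (nat_lit 5) (nat_lit 395) (nat_lit 381) (nat_lit 364))) (XT.nd (nat_lit 78) (nat_lit 760) (nat_lit 0) (XT.lf (nat_lit 0) (nat_lit 358491260) (nat_lit 608) (nat_lit 1669317749) (nat_lit 684) (nat_lit 4592970515) (nat_lit 609) (nat_lit 5) (nat_lit 617) (nat_lit 5) (nat_lit 618) (nat_lit 5) (nat_lit 396) (nat_lit 381) (nat_lit 363)) (XT.nd (nat_lit 78) (nat_lit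 760) (nat_lit 0) (XT.lf (nat_lit 0) (nat_lit 3949433237) (nat_lit 608) (nat_lit 675969759) (nat_lit 684) (nat_lit 2017618348) (nat_lit 609) (nat_lit 5) (nat_lit 617) (nat_lit 5) (nat_lit 618) (nat_lit 5) (nat_lit 397) (nat_lit 381) (nat_lit 362)) (XT.lf (nat_lit 0) (nat_lit 547658233) (nat_lit 760) (nat_lit 5754843930) (nat_lit 76) (nat_lit 364253467) (nat_lit 599) (nat_lit 5) (nat_lit 609) (nat_lit 5) (nat_lit 600) (nat_lit 5) (nat_lit 398) (nat_lit 381) (nat_lit 361))))) (XT.nd (nat_lit 234) (nat_lit 1824) (nat_lit 0) (XT.nd (nat_lit 78) (nat_lit 836) (nat_lit 0) (XT.lf (nat_lit 0) (nat_lit 3099088011) (nat_lit 760) (nat_lit 2123839455) (nat_lit 76) (nat_lit 1468586953) (nat_lit 599) (nat_lit 5) (nat_lit 609) (nat_lit 5) (nat_lit 600) (nat_lit 5) (nat_lit 399) (nat_lit 381) (nat_lit 360)) (XT.nd (nat_lit 78) (nat_lit 76) (nat_lit 0) (XT.lf (nat_lit 0) (nat_lit 1559739287) (nat_lit 760) (nat_lit 4092293374)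 (nat_lit 836) (nat_lit 1065778760) (nat_lit 589) (nat_lit 5) (nat_lit 599) (nat_lit 5) (nat_lit 600) (nat_lit 5) (nat_lit 400) (nat_lit 381) (nat_lit 359)) (XT.lf (nat_lit 0) (nat_lit 1446753592) (nat_lit 836) (nat_lit 1449550629) (nat_lit 76) (nat_lit 3849081115) (nat_lit 588) (nat_lit 5) (nat_lit 599) (nat_lit 5) (nat_lit 589) (nat_lit 5) (nat_lit 401) (nat_lit 381) (nat_lit 358)))) (XT.nd (nat_lit 78) (nat_lit 988) (nat_lit 0) (XT.lf (nat_lit 0) (nat_lit 2316193097) (nat_lit 836) (nat_lit 1636112157) (nat_lit 912) (nat_lit 2821973510) (nat_lit 577) (nat_lit 5) (nat_lit 588) (nat_lit 5) (nat_lit 589) (nat_lit 5) (nat_lit 402) (nat_lit 381) (nat_lit 357)) (XT.nd (nat_lit 78) (nat_lit 988) (nat_lit 0) (XT.lf (nat_lit 0) (nat_lit 6136898297) (nat_lit 836) (nat_lit 323662510) (nat_lit 912) (nat_lit 344186142) (nat_lit 577) (nat_lit 5) (nat_lit 588) (nat_lit 5) (nat_lit 589) (nat_lit 5) (nat_lit 403) (nat_lit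 381) (nat_lit 356)) (XT.lf (nat_lit 0) (nat_lit 2125704217) (nat_lit 988) (nat_lit 3657444686) (nat_lit 76) (nat_lit 1053015361) (nat_lit 564) (nat_lit 5) (nat_lit 577) (nat_lit 5) (nat_lit 565) (nat_lit 5) (nat_lit 404) (nat_lit 381) (nat_lit 355))))))))
noncomputable def xc101 : XT := (XT.nd (nat_lit 1560) (nat_lit 9956) (nat_lit 0) (XT.nd (nat_lit 780) (nat_lit 9120) (nat_lit 0) (XT.nd (nat_lit 390) (nat_lit 3952) (nat_lit 0) (XT.nd (nat_lit 156) (nat_lit 2280) (nat_lit 0) (XT.nd (nat_lit 78) (nat_lit 76) (nat_lit 0) (XT.lf (nat_lit 0) (nat_lit 200314350) (nat_lit 988) (nat_lit 4392548007) (nat_lit 1064) (nat_lit 2276298429) (nat_lit 551) (nat_lit 5) (nat_lit 564) (nat_lit 5) (nat_lit 565) (nat_lit 5) (nat_lit 405) (nat_lit 381) (nat_lit 354)) (XT.lf (nat_lit 0) (nat_lit 173479358) (nat_lit 1064) (nat_lit 2760541893) (nat_lit 76) (nat_lit 3969420480) (nat_lit 550) (nat_lit 5) (nat_lit 564) (nat_lit 5)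 (nat_lit 551) (nat_lit 5) (nat_lit 406) (nat_lit 381) (nat_lit 353))) (XT.nd (nat_lit 78) (nat_lit 1216) (nat_lit 0) (XT.lf (nat_lit 0) (nat_lit 1185700532) (nat_lit 1064) (nat_lit 1409814977) (nat_lit 1140) (nat_lit 4343560293) (nat_lit 536) (nat_lit 5) (nat_lit 550) (nat_lit 5) (nat_lit 551) (nat_lit 5) (nat_lit 407) (nat_lit 381) (nat_lit 352)) (XT.nd (nat_lit 78) (nat_lit 1216) (nat_lit 0) (XT.lf (nat_lit 0) (nat_lit 5032474756) (nat_lit 1140) (nat_lit 1769452960) (nat_lit 76) (nat_lit 174207628) (nat_lit 536) (nat_lit 5) (nat_lit 551) (nat_lit 5) (nat_lit 537) (nat_lit 5) (nat_lit 408) (nat_lit 381) (nat_lit 351)) (XT.lf (nat_lit 0) (nat_lit 469433050) (nat_lit 1216) (nat_lit 4743801553) (nat_lit 76) (nat_lit 1801240601) (nat_lit 520) (nat_lit 5) (nat_lit 536) (nat_lit 5) (nat_lit 521) (nat_lit 5) (nat_lit 409) (nat_lit 381) (nat_lit 350))))) (XT.nd (nat_lit 156) (nat_lit 2736) (nat_lit 0) (XT.nd (nat_lit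 78) (nat_lit 1216) (nat_lit 0) (XT.lf (nat_lit 0) (nat_lit 2865053153) (nat_lit 1216) (nat_lit 691974230) (nat_lit 76) (nat_lit 3497131711) (nat_lit 520) (nat_lit 5) (nat_lit 536) (nat_lit 5) (nat_lit 521) (nat_lit 5) (nat_lit 410) (nat_lit 381) (nat_lit 349)) (XT.lf (nat_lit 0) (nat_lit 3445621264) (nat_lit 1216) (nat_lit 1834662398) (nat_lit 1292) (nat_lit 1814958243) (nat_lit 504) (nat_lit 5) (nat_lit 520) (nat_lit 5) (nat_lit 521) (nat_lit 5) (nat_lit 411) (nat_lit 381) (nat_lit 348))) (XT.nd (nat_lit 78) (nat_lit 1368) (nat_lit 0) (XT.lf (nat_lit 0) (nat_lit 499984363) (nat_lit 1292) (nat_lit 56342643) (nat_lit 1368) (nat_lit 6581626046) (nat_lit 486) (nat_lit 5) (nat_lit 503) (nat_lit 5) (nat_lit 504) (nat_lit 5) (nat_lit 412) (nat_lit 381) (nat_lit 347)) (XT.nd (nat_lit 78) (nat_lit 1368) (nat_lit 0) (XT.lf (nat_lit 0) (nat_lit 2937294134) (nat_lit 1368) (nat_lit 2464284660) (nat_lit 76) (nat_lit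 1780005462) (nat_lit 486) (nat_lit 5) (nat_lit 504) (nat_lit 5) (nat_lit 487) (nat_lit 5) (nat_lit 413) (nat_lit 381) (nat_lit 346)) (XT.lf (nat_lit 0) (nat_lit 1774879576) (nat_lit 1368) (nat_lit 3554340542) (nat_lit 1444) (nat_lit 1897637394) (nat_lit 468) (nat_lit 5) (nat_lit 486) (nat_lit 5) (nat_lit 487) (nat_lit 5) (nat_lit 414) (nat_lit 381) (nat_lit 345)))))) (XT.nd (nat_lit 390) (nat_lit 4408) (nat_lit 0) (XT.nd (nat_lit 156) (nat_lit 3192) (nat_lit 0) (XT.nd (nat_lit 78) (nat_lit 1444) (nat_lit 0) (XT.lf (nat_lit 0) (nat_lit 457869042) (nat_lit 1444) (nat_lit 1185108702) (nat_lit 76) (nat_lit 5630660399) (nat_lit 467) (nat_lit 5) (nat_lit 486) (nat_lit 5) (nat_lit 468) (nat_lit 5) (nat_lit 415) (nat_lit 381) (nat_lit 344)) (XT.lf (nat_lit 0) (nat_lit 2810565187) (nat_lit 1520) (nat_lit 4168506809) (nat_lit 76) (nat_lit 342555874) (nat_lit 448) (nat_lit 5) (nat_lit 468) (nat_lit 5) (nat_lit 449)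 (nat_lit 5) (nat_lit 416) (nat_lit 381) (nat_lit 343))) (XT.nd (nat_lit 78) (nat_lit 1672) (nat_lit 0) (XT.lf (nat_lit 0) (nat_lit 173873045) (nat_lit 1520) (nat_lit 5009888796) (nat_lit 1596) (nat_lit 2187380078) (nat_lit 428) (nat_lit 5) (nat_lit 448) (nat_lit 5) (nat_lit 449) (nat_lit 5) (nat_lit 417) (nat_lit 381) (nat_lit 342)) (XT.nd (nat_lit 78) (nat_lit 1596) (nat_lit 0) (XT.lf (nat_lit 0) (nat_lit 162279481) (nat_lit 1596) (nat_lit 2804464217) (nat_lit 76) (nat_lit 4455272968) (nat_lit 427) (nat_lit 5) (nat_lit 448) (nat_lit 5) (nat_lit 428) (nat_lit 5) (nat_lit 418) (nat_lit 381) (nat_lit 341)) (XT.lf (nat_lit 0) (nat_lit 1642456413) (nat_lit 1596) (nat_lit 852527427) (nat_lit 1672) (nat_lit 4979360615) (nat_lit 406) (nat_lit 5) (nat_lit 427) (nat_lit 5) (nat_lit 428) (nat_lit 5) (nat_lit 419) (nat_lit 381) (nat_lit 340))))) (XT.nd (nat_lit 156) (nat_lit 2736) (nat_lit 0) (XT.nd (nat_lit 78) (nat_lit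 1672) (nat_lit 0) (XT.lf (nat_lit 0) (nat_lit 4857055297) (nat_lit 1672) (nat_lit 1361082132) (nat_lit 76) (nat_lit 1309958022) (nat_lit 406) (nat_lit 5) (nat_lit 428) (nat_lit 5) (nat_lit 407) (nat_lit 5) (nat_lit 420) (nat_lit 381) (nat_lit 339)) (XT.lf (nat_lit 0) (nat_lit 3194727229) (nat_lit 1672) (nat_lit 4054208225) (nat_lit 1748) (nat_lit 334364974) (nat_lit 384) (nat_lit 5) (nat_lit 406) (nat_lit 5) (nat_lit 407) (nat_lit 5) (nat_lit 421) (nat_lit 381) (nat_lit 338))) (XT.nd (nat_lit 78) (nat_lit 912) (nat_lit 0) (XT.lf (nat_lit 0) (nat_lit 168515222) (nat_lit 1748) (nat_lit 1820403558) (nat_lit 1824) (nat_lit 5651118804) (nat_lit 360) (nat_lit 5) (nat_lit 383) (nat_lit 5) (nat_lit 384) (nat_lit 5) (nat_lit 422) (nat_lit 381) (nat_lit 337)) (XT.nd (nat_lit 78) (nat_lit 912) (nat_lit 0) (XT.lf (nat_lit 0) (nat_lit 4343878129) (nat_lit 1824) (nat_lit 2868108899) (nat_lit 76) (nat_lit 486113070) (nat_lit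 360) (nat_lit 5) (nat_lit 384) (nat_lit 5) (nat_lit 361) (nat_lit 5) (nat_lit 423) (nat_lit 381) (nat_lit 336)) (XT.lf (nat_lit 0) (nat_lit 1798077153) (nat_lit 912) (nat_lit 4929495424) (nat_lit 988) (nat_lit 1030146564) (nat_lit 348) (nat_lit 5) (nat_lit 360) (nat_lit 5) (nat_lit 361) (nat_lit 5) (nat_lit 424) (nat_lit 381) (nat_lit 335))))))) (XT.nd (nat_lit 780) (nat_lit 4864) (nat_lit 0) (XT.nd (nat_lit 390) (nat_lit 2356) (nat_lit 0) (XT.nd (nat_lit 156) (nat_lit 1748) (nat_lit 0) (XT.nd (nat_lit 78) (nat_lit 912) (nat_lit 0) (XT.lf (nat_lit 0) (nat_lit 1300370496) (nat_lit 988) (nat_lit 1271647461) (nat_lit 76) (nat_lit 5246814665) (nat_lit 347) (nat_lit 5) (nat_lit 360) (nat_lit 5) (nat_lit 348) (nat_lit 5) (nat_lit 425) (nat_lit 381) (nat_lit 334)) (XT.lf (nat_lit 0) (nat_lit 3508975808) (nat_lit 912) (nat_lit 136510085) (nat_lit 988) (nat_lit 4235937043) (nat_lit 335) (nat_lit 5) (nat_lit 347)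 (nat_lit 5) (nat_lit 348) (nat_lit 5) (nat_lit 426) (nat_lit 381) (nat_lit 333))) (XT.nd (nat_lit 78) (nat_lit 912) (nat_lit 0) (XT.lf (nat_lit 0) (nat_lit 406483993) (nat_lit 836) (nat_lit 5617024449) (nat_lit 912) (nat_lit 1922062385) (nat_lit 324) (nat_lit 5) (nat_lit 335) (nat_lit 5) (nat_lit 336) (nat_lit 5) (nat_lit 427) (nat_lit 381) (nat_lit 332)) (XT.nd (nat_lit 78) (nat_lit 836) (nat_lit 0) (XT.lf (nat_lit 0) (nat_lit 422556923) (nat_lit 912) (nat_lit 2715286921) (nat_lit 76) (nat_lit 4873321549) (nat_lit 323) (nat_lit 5) (nat_lit 335) (nat_lit 5) (nat_lit 324) (nat_lit 5) (nat_lit 428) (nat_lit 381) (nat_lit 331)) (XT.lf (nat_lit 0) (nat_lit 2180472329) (nat_lit 836) (nat_lit 582602775) (nat_lit 912) (nat_lit 5315272165) (nat_lit 312) (nat_lit 5) (nat_lit 323) (nat_lit 5) (nat_lit 324) (nat_lit 5) (nat_lit 429) (nat_lit 381) (nat_lit 330))))) (XT.nd (nat_lit 156) (nat_lit 1596) (nat_lit 0) (XT.nd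 (nat_lit 78) (nat_lit 760) (nat_lit 0) (XT.lf (nat_lit 0) (nat_lit 5142951642) (nat_lit 912) (nat_lit 989729342) (nat_lit 76) (nat_lit 2014364735) (nat_lit 312) (nat_lit 5) (nat_lit 324) (nat_lit 5) (nat_lit 313) (nat_lit 5) (nat_lit 430) (nat_lit 381) (nat_lit 329)) (XT.lf (nat_lit 0) (nat_lit 4025402972) (nat_lit 760) (nat_lit 3536846853) (nat_lit 836) (nat_lit 655055258) (nat_lit 302) (nat_lit 5) (nat_lit 312) (nat_lit 5) (nat_lit 313) (nat_lit 5) (nat_lit 431) (nat_lit 381) (nat_lit 328))) (XT.nd (nat_lit 78) (nat_lit 760) (nat_lit 0) (XT.lf (nat_lit 0) (nat_lit 824508494) (nat_lit 760) (nat_lit 867709363) (nat_lit 836) (nat_lit 6597066493) (nat_lit 291) (nat_lit 5) (nat_lit 301) (nat_lit 5) (nat_lit 302) (nat_lit 5) (nat_lit 432) (nat_lit 381) (nat_lit 327)) (XT.nd (nat_lit 78) (nat_lit 760) (nat_lit 0) (XT.lf (nat_lit 0) (nat_lit 4080546607) (nat_lit 836) (nat_lit 2421501475) (nat_lit 76) (nat_lit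 1860532971) (nat_lit 291) (nat_lit 5) (nat_lit 302) (nat_lit 5) (nat_lit 292) (nat_lit 5) (nat_lit 433) (nat_lit 381) (nat_lit 326)) (XT.lf (nat_lit 0) (nat_lit 2712403423) (nat_lit 760) (nat_lit 3790845001) (nat_lit 836) (nat_lit 1934384780) (nat_lit 281) (nat_lit 5) (nat_lit 291) (nat_lit 5) (nat_lit 292) (nat_lit 5) (nat_lit 434) (nat_lit 381) (nat_lit 325)))))) (XT.nd (nat_lit 390) (nat_lit 2584) (nat_lit 0) (XT.nd (nat_lit 156) (nat_lit 1444) (nat_lit 0) (XT.nd (nat_lit 78) (nat_lit 760) (nat_lit 0) (XT.lf (nat_lit 0) (nat_lit 433989494) (nat_lit 836) (nat_lit 575451719) (nat_lit 76) (nat_lit 7505110078) (nat_lit 280) (nat_lit 5) (nat_lit 291) (nat_lit 5) (nat_lit 281) (nat_lit 5) (nat_lit 435) (nat_lit 381) (nat_lit 324)) (XT.lf (nat_lit 0) (nat_lit 2830576986) (nat_lit 836) (nat_lit 3918548099) (nat_lit 76) (nat_lit 1843512381) (nat_lit 270) (nat_lit 5) (nat_lit 281) (nat_lit 5) (nat_lit 271) (nat_lit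 5) (nat_lit 436) (nat_lit 381) (nat_lit 323))) (XT.nd (nat_lit 78) (nat_lit 760) (nat_lit 0) (XT.lf (nat_lit 0) (nat_lit 1335054929) (nat_lit 684) (nat_lit 3923871128) (nat_lit 760) (nat_lit 3413702706) (nat_lit 261) (nat_lit 5) (nat_lit 270) (nat_lit 5) (nat_lit 271) (nat_lit 5) (nat_lit 437) (nat_lit 381) (nat_lit 322)) (XT.nd (nat_lit 78) (nat_lit 760) (nat_lit 0) (XT.lf (nat_lit 0) (nat_lit 6707152365) (nat_lit 684) (nat_lit 1020011432) (nat_lit 760) (nat_lit 1027249258) (nat_lit 261) (nat_lit 5) (nat_lit 270) (nat_lit 5) (nat_lit 271) (nat_lit 5) (nat_lit 438) (nat_lit 381) (nat_lit 321)) (XT.lf (nat_lit 0) (nat_lit 1388440663) (nat_lit 760) (nat_lit 5506517052) (nat_lit 76) (nat_lit 1942712272) (nat_lit 251) (nat_lit 5) (nat_lit 261) (nat_lit 5) (nat_lit 252) (nat_lit 5) (nat_lit 439) (nat_lit 381) (nat_lit 320))))) (XT.nd (nat_lit 234) (nat_lit 1292) (nat_lit 0) (XT.nd (nat_lit 78) (nat_lit 1292)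 (nat_lit 0) (XT.lf (nat_lit 0) (nat_lit 3825142915) (nat_lit 760) (nat_lit 130883267) (nat_lit 76) (nat_lit 4966719478) (nat_lit 251) (nat_lit 5) (nat_lit 261) (nat_lit 5) (nat_lit 252) (nat_lit 5) (nat_lit 440) (nat_lit 381) (nat_lit 319)) (XT.nd (nat_lit 78) (nat_lit 684) (nat_lit 0) (XT.lf (nat_lit 0) (nat_lit 5383850849) (nat_lit 608) (nat_lit 928209698) (nat_lit 684) (nat_lit 2697450784) (nat_lit 243) (nat_lit 5) (nat_lit 251) (nat_lit 5) (nat_lit 252) (nat_lit 5) (nat_lit 441) (nat_lit 381) (nat_lit 318)) (XT.lf (nat_lit 0) (nat_lit 1883928134) (nat_lit 684) (nat_lit 6958822917) (nat_lit 760) (nat_lit 255398328) (nat_lit 234) (nat_lit 5) (nat_lit 243) (nat_lit 5) (nat_lit 244) (nat_lit 5) (nat_lit 442) (nat_lit 381) (nat_lit 317)))) (XT.nd (nat_lit 78) (nat_lit 1216) (nat_lit 0) (XT.lf (nat_lit 0) (nat_lit 2203869196) (nat_lit 760) (nat_lit 1695644389) (nat_lit 76) (nat_lit 5288819524) (nat_lit 233)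 (nat_lit 5) (nat_lit 243) (nat_lit 5) (nat_lit 234) (nat_lit 5) (nat_lit 443) (nat_lit 381) (nat_lit 316)) (XT.nd (nat_lit 78) (nat_lit 608) (nat_lit 0) (XT.lf (nat_lit 0) (nat_lit 3944518657) (nat_lit 608) (nat_lit 757697886) (nat_lit 684) (nat_lit 4578220652) (nat_lit 225) (nat_lit 5) (nat_lit 233) (nat_lit 5) (nat_lit 234) (nat_lit 5) (nat_lit 444) (nat_lit 381) (nat_lit 315)) (XT.lf (nat_lit 0) (nat_lit 295037830) (nat_lit 608) (nat_lit 6952790169) (nat_lit 684) (nat_lit 2126625824) (nat_lit 217) (nat_lit 5) (nat_lit 225) (nat_lit 5) (nat_lit 226) (nat_lit 5) (nat_lit 445) (nat_lit 381) (nat_lit 314))))))))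
noncomputable def xc102 : XT := (XT.nd (nat_lit 1560) (nat_lit 4484) (nat_lit 0) (XT.nd (nat_lit 780) (nat_lit 2356) (nat_lit 0) (XT.nd (nat_lit 390) (nat_lit 1672) (nat_lit 0) (XT.nd (nat_lit 156) (nat_lit 1216) (nat_lit 0) (XT.nd (nat_lit 78) (nat_lit 532) (nat_lit 0) (XT.lf (nat_lit 0) (nat_lit 378346821) (nat_lit 684) (nat_lit 3405738653) (nat_lit 76) (nat_lit 5686047489) (nat_lit 216) (nat_lit 5) (nat_lit 225) (nat_lit 5) (nat_lit 217) (nat_lit 5) (nat_lit 446) (nat_lit 381) (nat_lit 313)) (XT.lf (nat_lit 0) (nat_lit 2359684292) (nat_lit 532) (nat_lit 529419295) (nat_lit 608) (nat_lit 6678673213) (nat_lit 209) (nat_lit 5) (nat_lit 216) (nat_lit 5) (nat_lit 217) (nat_lit 5) (nat_lit 447) (nat_lit 381) (nat_lit 312))) (XT.nd (nat_lit 78) (nat_lit 1216) (nat_lit 0) (XT.lf (nat_lit 0) (nat_lit 5460324624) (nat_lit 608) (nat_lit 1437524117) (nat_lit 76) (nat_lit 2769334944) (nat_lit 209) (nat_lit 5) (nat_lit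 217) (nat_lit 5) (nat_lit 210) (nat_lit 5) (nat_lit 448) (nat_lit 381) (nat_lit 311)) (XT.nd (nat_lit 78) (nat_lit 608) (nat_lit 0) (XT.lf (nat_lit 0) (nat_lit 4465355677) (nat_lit 608) (nat_lit 3619844645) (nat_lit 684) (nat_lit 1683348637) (nat_lit 201) (nat_lit 5) (nat_lit 209) (nat_lit 5) (nat_lit 210) (nat_lit 5) (nat_lit 449) (nat_lit 381) (nat_lit 310)) (XT.lf (nat_lit 0) (nat_lit 597701467) (nat_lit 532) (nat_lit 264707781) (nat_lit 608) (nat_lit 9009761757) (nat_lit 193) (nat_lit 5) (nat_lit 200) (nat_lit 5) (nat_lit 201) (nat_lit 5) (nat_lit 450) (nat_lit 381) (nat_lit 309))))) (XT.nd (nat_lit 156) (nat_lit 1140) (nat_lit 0) (XT.nd (nat_lit 78) (nat_lit 532) (nat_lit 0) (XT.lf (nat_lit 0) (nat_lit 3463043875) (nat_lit 608) (nat_lit 3359163353) (nat_lit 76) (nat_lit 3154919693) (nat_lit 193) (nat_lit 5) (nat_lit 201) (nat_lit 5) (nat_lit 194) (nat_lit 5) (nat_lit 451) (nat_lit 381) (nat_lit 308))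 (XT.lf (nat_lit 0) (nat_lit 2669843334) (nat_lit 532) (nat_lit 3435677308) (nat_lit 608) (nat_lit 3978878450) (nat_lit 186) (nat_lit 5) (nat_lit 193) (nat_lit 5) (nat_lit 194) (nat_lit 5) (nat_lit 452) (nat_lit 381) (nat_lit 307))) (XT.nd (nat_lit 78) (nat_lit 1140) (nat_lit 0) (XT.lf (nat_lit 0) (nat_lit 8794673675) (nat_lit 608) (nat_lit 1366825847) (nat_lit 76) (nat_lit 32454106) (nat_lit 186) (nat_lit 5) (nat_lit 194) (nat_lit 5) (nat_lit 187) (nat_lit 5) (nat_lit 453) (nat_lit 381) (nat_lit 306)) (XT.nd (nat_lit 78) (nat_lit 532) (nat_lit 0) (XT.lf (nat_lit 0) (nat_lit 1241441440) (nat_lit 608) (nat_lit 5508655077) (nat_lit 76) (nat_lit 3554941949) (nat_lit 178) (nat_lit 5) (nat_lit 186) (nat_lit 5) (nat_lit 179) (nat_lit 5) (nat_lit 454) (nat_lit 381) (nat_lit 305)) (XT.lf (nat_lit 0) (nat_lit 644803066) (nat_lit 532) (nat_lit 3256575133) (nat_lit 608) (nat_lit 6517091753) (nat_lit 171) (nat_lit 5)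 (nat_lit 178) (nat_lit 5) (nat_lit 179) (nat_lit 5) (nat_lit 455) (nat_lit 381) (nat_lit 304)))))) (XT.nd (nat_lit 390) (nat_lit 912) (nat_lit 0) (XT.nd (nat_lit 156) (nat_lit 988) (nat_lit 0) (XT.nd (nat_lit 78) (nat_lit 456) (nat_lit 0) (XT.lf (nat_lit 0) (nat_lit 6625669187) (nat_lit 608) (nat_lit 3577479704) (nat_lit 76) (nat_lit 330810497) (nat_lit 171) (nat_lit 5) (nat_lit 179) (nat_lit 5) (nat_lit 172) (nat_lit 5) (nat_lit 456) (nat_lit 381) (nat_lit 303)) (XT.lf (nat_lit 0) (nat_lit 2719661053) (nat_lit 456) (nat_lit 6696512106) (nat_lit 532) (nat_lit 1235363097) (nat_lit 165) (nat_lit 5) (nat_lit 171) (nat_lit 5) (nat_lit 172) (nat_lit 5) (nat_lit 457) (nat_lit 381) (nat_lit 302))) (XT.nd (nat_lit 78) (nat_lit 912) (nat_lit 0) (XT.lf (nat_lit 0) (nat_lit 1468244020) (nat_lit 532) (nat_lit 1626790011) (nat_lit 76) (nat_lit 7676313204) (nat_lit 164) (nat_lit 5) (nat_lit 171) (nat_lit 5) (nat_lit 165)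 (nat_lit 5) (nat_lit 458) (nat_lit 381) (nat_lit 301)) (XT.nd (nat_lit 78) (nat_lit 456) (nat_lit 0) (XT.lf (nat_lit 0) (nat_lit 4217814023) (nat_lit 532) (nat_lit 6074272447) (nat_lit 76) (nat_lit 601147485) (nat_lit 158) (nat_lit 5) (nat_lit 165) (nat_lit 5) (nat_lit 159) (nat_lit 5) (nat_lit 459) (nat_lit 381) (nat_lit 300)) (XT.lf (nat_lit 0) (nat_lit 345588483) (nat_lit 456) (nat_lit 6683892795) (nat_lit 532) (nat_lit 3987946275) (nat_lit 152) (nat_lit 5) (nat_lit 158) (nat_lit 5) (nat_lit 159) (nat_lit 5) (nat_lit 460) (nat_lit 381) (nat_lit 299))))) (XT.nd (nat_lit 156) (nat_lit 380) (nat_lit 0) (XT.nd (nat_lit 78) (nat_lit 532) (nat_lit 0) (XT.lf (nat_lit 0) (nat_lit 6939712226) (nat_lit 456) (nat_lit 2972092680) (nat_lit 532) (nat_lit 1232022694) (nat_lit 152) (nat_lit 5) (nat_lit 158) (nat_lit 5) (nat_lit 159) (nat_lit 5) (nat_lit 461) (nat_lit 381) (nat_lit 298)) (XT.lf (nat_lit 0) (nat_lit 1553133745)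 (nat_lit 532) (nat_lit 8900379695) (nat_lit 76) (nat_lit 819151308) (nat_lit 145) (nat_lit 5) (nat_lit 152) (nat_lit 5) (nat_lit 146) (nat_lit 5) (nat_lit 462) (nat_lit 381) (nat_lit 297))) (XT.nd (nat_lit 78) (nat_lit 380) (nat_lit 0) (XT.lf (nat_lit 0) (nat_lit 4399800611) (nat_lit 532) (nat_lit 2330676931) (nat_lit 76) (nat_lit 4673002543) (nat_lit 145) (nat_lit 5) (nat_lit 152) (nat_lit 5) (nat_lit 146) (nat_lit 5) (nat_lit 463) (nat_lit 381) (nat_lit 296)) (XT.nd (nat_lit 78) (nat_lit 0) (nat_lit 0) (XT.lf (nat_lit 0) (nat_lit 4392404261) (nat_lit 380) (nat_lit 2914227963) (nat_lit 456) (nat_lit 4230225075) (nat_lit 140) (nat_lit 5) (nat_lit 145) (nat_lit 5) (nat_lit 146) (nat_lit 5) (nat_lit 464) (nat_lit 381) (nat_lit 295)) (XT.lf (nat_lit 0) (nat_lit 10268607944) (nat_lit 456) (nat_lit 433336432) (nat_lit 76) (nat_lit 971027531) (nat_lit 140) (nat_lit 5) (nat_lit 146) (nat_lit 5) (nat_lit 141) (nat_lit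 5) (nat_lit 465) (nat_lit 381) (nat_lit 294))))))) (XT.nd (nat_lit 780) (nat_lit 1976) (nat_lit 0) (XT.nd (nat_lit 390) (nat_lit 1140) (nat_lit 0) (XT.nd (nat_lit 156) (nat_lit 456) (nat_lit 0) (XT.nd (nat_lit 78) (nat_lit 380) (nat_lit 0) (XT.lf (nat_lit 0) (nat_lit 1495391537) (nat_lit 532) (nat_lit 5378863288) (nat_lit 76) (nat_lit 4936636433) (nat_lit 133) (nat_lit 5) (nat_lit 140) (nat_lit 5) (nat_lit 134) (nat_lit 5) (nat_lit 466) (nat_lit 381) (nat_lit 293)) (XT.lf (nat_lit 0) (nat_lit 1463706895) (nat_lit 380) (nat_lit 2958567627) (nat_lit 456) (nat_lit 7529359505) (nat_lit 128) (nat_lit 5) (nat_lit 133) (nat_lit 5) (nat_lit 134) (nat_lit 5) (nat_lit 467) (nat_lit 381) (nat_lit 292))) (XT.nd (nat_lit 78) (nat_lit 456) (nat_lit 0) (XT.lf (nat_lit 0) (nat_lit 7426424240) (nat_lit 456) (nat_lit 3620816980) (nat_lit 76) (nat_lit 1047585084) (nat_lit 128) (nat_lit 5) (nat_lit 134) (nat_lit 5) (nat_lit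 129) (nat_lit 5) (nat_lit 468) (nat_lit 381) (nat_lit 291)) (XT.nd (nat_lit 78) (nat_lit 76) (nat_lit 0) (XT.lf (nat_lit 0) (nat_lit 3373555767) (nat_lit 380) (nat_lit 7134747035) (nat_lit 456) (nat_lit 1732235765) (nat_lit 123) (nat_lit 5) (nat_lit 128) (nat_lit 5) (nat_lit 129) (nat_lit 5) (nat_lit 469) (nat_lit 381) (nat_lit 290)) (XT.lf (nat_lit 0) (nat_lit 1246780296) (nat_lit 456) (nat_lit 1874968288) (nat_lit 76) (nat_lit 9267247507) (nat_lit 122) (nat_lit 5) (nat_lit 128) (nat_lit 5) (nat_lit 123) (nat_lit 5) (nat_lit 470) (nat_lit 381) (nat_lit 289))))) (XT.nd (nat_lit 156) (nat_lit 760) (nat_lit 0) (XT.nd (nat_lit 78) (nat_lit 0) (nat_lit 0) (XT.lf (nat_lit 0) (nat_lit 4279722726) (nat_lit 456) (nat_lit 7265997310) (nat_lit 76) (nat_lit 994131448) (nat_lit 117) (nat_lit 5) (nat_lit 123) (nat_lit 5) (nat_lit 118) (nat_lit 5) (nat_lit 471) (nat_lit 381) (nat_lit 288)) (XT.lf (nat_lit 0) (nat_lit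 7383523476) (nat_lit 456) (nat_lit 157479867) (nat_lit 76) (nat_lit 5152525017) (nat_lit 117) (nat_lit 5) (nat_lit 123) (nat_lit 5) (nat_lit 118) (nat_lit 5) (nat_lit 472) (nat_lit 381) (nat_lit 287))) (XT.nd (nat_lit 78) (nat_lit 380) (nat_lit 0) (XT.lf (nat_lit 0) (nat_lit 7153379566) (nat_lit 380) (nat_lit 3419779172) (nat_lit 456) (nat_lit 2276653069) (nat_lit 112) (nat_lit 5) (nat_lit 117) (nat_lit 5) (nat_lit 118) (nat_lit 5) (nat_lit 473) (nat_lit 381) (nat_lit 286)) (XT.nd (nat_lit 78) (nat_lit 0) (nat_lit 0) (XT.lf (nat_lit 0) (nat_lit 800514103) (nat_lit 380) (nat_lit 11429342189) (nat_lit 76) (nat_lit 779389012) (nat_lit 107) (nat_lit 5) (nat_lit 112) (nat_lit 5) (nat_lit 108) (nat_lit 5) (nat_lit 474) (nat_lit 381) (nat_lit 285)) (XT.lf (nat_lit 0) (nat_lit 3947434275) (nat_lit 380) (nat_lit 4163993649) (nat_lit 76) (nat_lit 5059372420) (nat_lit 107) (nat_lit 5) (nat_lit 112) (nat_lit 5) (nat_lit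 108) (nat_lit 5) (nat_lit 475) (nat_lit 381) (nat_lit 284)))))) (XT.nd (nat_lit 390) (nat_lit 912) (nat_lit 0) (XT.nd (nat_lit 156) (nat_lit 684) (nat_lit 0) (XT.nd (nat_lit 78) (nat_lit 0) (nat_lit 0) (XT.lf (nat_lit 0) (nat_lit 3256136630) (nat_lit 380) (nat_lit 3900276426) (nat_lit 456) (nat_lit 6179198605) (nat_lit 102) (nat_lit 5) (nat_lit 107) (nat_lit 5) (nat_lit 108) (nat_lit 5) (nat_lit 476) (nat_lit 381) (nat_lit 283)) (XT.lf (nat_lit 0) (nat_lit 10438388174) (nat_lit 456) (nat_lit 2658179249) (nat_lit 76) (nat_lit 406982872) (nat_lit 102) (nat_lit 5) (nat_lit 108) (nat_lit 5) (nat_lit 103) (nat_lit 5) (nat_lit 477) (nat_lit 381) (nat_lit 282))) (XT.nd (nat_lit 78) (nat_lit 304) (nat_lit 0) (XT.lf (nat_lit 0) (nat_lit 146240553) (nat_lit 380) (nat_lit 8757612077) (nat_lit 76) (nat_lit 4770256914) (nat_lit 97) (nat_lit 5) (nat_lit 102) (nat_lit 5) (nat_lit 98) (nat_lit 5) (nat_lit 478) (nat_lit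 381) (nat_lit 281)) (XT.nd (nat_lit 78) (nat_lit 304) (nat_lit 0) (XT.lf (nat_lit 0) (nat_lit 3377437615) (nat_lit 380) (nat_lit 1222243891) (nat_lit 76) (nat_lit 9248068080) (nat_lit 97) (nat_lit 5) (nat_lit 102) (nat_lit 5) (nat_lit 98) (nat_lit 5) (nat_lit 479) (nat_lit 381) (nat_lit 280)) (XT.lf (nat_lit 0) (nat_lit 6517144900) (nat_lit 304) (nat_lit 177461242) (nat_lit 380) (nat_lit 7329836200) (nat_lit 93) (nat_lit 5) (nat_lit 97) (nat_lit 5) (nat_lit 98) (nat_lit 5) (nat_lit 480) (nat_lit 381) (nat_lit 279))))) (XT.nd (nat_lit 234) (nat_lit 228) (nat_lit 0) (XT.nd (nat_lit 78) (nat_lit 380) (nat_lit 0) (XT.lf (nat_lit 0) (nat_lit 165062818) (nat_lit 304) (nat_lit 9929682103) (nat_lit 380) (nat_lit 4109598222) (nat_lit 89) (nat_lit 5) (nat_lit 93) (nat_lit 5) (nat_lit 94) (nat_lit 5) (nat_lit 481) (nat_lit 381) (nat_lit 278)) (XT.nd (nat_lit 78) (nat_lit 380) (nat_lit 0) (XT.lf (nat_lit 0) (nat_lit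 8059357253) (nat_lit 304) (nat_lit 5534439793) (nat_lit 380) (nat_lit 793433299) (nat_lit 89) (nat_lit 5) (nat_lit 93) (nat_lit 5) (nat_lit 94) (nat_lit 5) (nat_lit 482) (nat_lit 381) (nat_lit 277)) (XT.lf (nat_lit 0) (nat_lit 1509009867) (nat_lit 304) (nat_lit 1035516020) (nat_lit 380) (nat_lit 12029131011) (nat_lit 84) (nat_lit 5) (nat_lit 88) (nat_lit 5) (nat_lit 89) (nat_lit 5) (nat_lit 483) (nat_lit 381) (nat_lit 276)))) (XT.nd (nat_lit 78) (nat_lit 228) (nat_lit 0) (XT.lf (nat_lit 0) (nat_lit 5984196084) (nat_lit 380) (nat_lit 5235023690) (nat_lit 76) (nat_lit 3543582012) (nat_lit 84) (nat_lit 5) (nat_lit 89) (nat_lit 5) (nat_lit 85) (nat_lit 5) (nat_lit 484) (nat_lit 381) (nat_lit 275)) (XT.nd (nat_lit 78) (nat_lit 0) (nat_lit 0) (XT.lf (nat_lit 0) (nat_lit 2749153998) (nat_lit 228) (nat_lit 6748360243) (nat_lit 304) (nat_lit 5458124335) (nat_lit 81) (nat_lit 5) (nat_lit 84) (nat_lit 5) (nat_lit 85)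 (nat_lit 5) (nat_lit 485) (nat_lit 381) (nat_lit 274)) (XT.lf (nat_lit 0) (nat_lit 10932946818) (nat_lit 228) (nat_lit 2163617005) (nat_lit 304) (nat_lit 2055464952) (nat_lit 81) (nat_lit 5) (nat_lit 84) (nat_lit 5) (nat_lit 85) (nat_lit 5) (nat_lit 486) (nat_lit 381) (nat_lit 273))))))))
noncomputable def xc103 : XT := (XT.nd (nat_lit 51402) (nat_lit 0) (nat_lit 39216) (XT.nd (nat_lit 780) (nat_lit 988) (nat_lit 0) (XT.nd (nat_lit 390) (nat_lit 608) (nat_lit 0) (XT.nd (nat_lit 156) (nat_lit 532) (nat_lit 0) (XT.nd (nat_lit 78) (nat_lit 0) (nat_lit 0) (XT.lf (nat_lit 0) (nat_lit 1419326003) (nat_lit 380) (nat_lit 11428651147) (nat_lit 76) (nat_lit 2503738804) (nat_lit 76) (nat_lit 5) (nat_lit 81) (nat_lit 5) (nat_lit 77) (nat_lit 5) (nat_lit 487) (nat_lit 381) (nat_lit 272)) (XT.lf (nat_lit 0) (nat_lit 4959641249) (nat_lit 380) (nat_lit 3328514902) (nat_lit 76) (nat_lit 7266503600) (nat_lit 76) (nat_lit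 5) (nat_lit 81) (nat_lit 5) (nat_lit 77) (nat_lit 5) (nat_lit 488) (nat_lit 381) (nat_lit 271))) (XT.nd (nat_lit 78) (nat_lit 304) (nat_lit 0) (XT.lf (nat_lit 0) (nat_lit 4968590865) (nat_lit 228) (nat_lit 3615506881) (nat_lit 304) (nat_lit 7177303499) (nat_lit 73) (nat_lit 5) (nat_lit 76) (nat_lit 5) (nat_lit 77) (nat_lit 5) (nat_lit 489) (nat_lit 381) (nat_lit 270)) (XT.nd (nat_lit 78) (nat_lit 304) (nat_lit 0) (XT.lf (nat_lit 0) (nat_lit 12292176622) (nat_lit 304) (nat_lit 2532997380) (nat_lit 76) (nat_lit 1146886313) (nat_lit 73) (nat_lit 5) (nat_lit 77) (nat_lit 5) (nat_lit 74) (nat_lit 5) (nat_lit 490) (nat_lit 381) (nat_lit 269)) (XT.lf (nat_lit 0) (nat_lit 5915945214) (nat_lit 304) (nat_lit 10202373710) (nat_lit 380) (nat_lit 67740912) (nat_lit 69) (nat_lit 5) (nat_lit 73) (nat_lit 5) (nat_lit 74) (nat_lit 5) (nat_lit 491) (nat_lit 381) (nat_lit 268))))) (XT.nd (nat_lit 156) (nat_lit 304) (nat_lit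 0) (XT.nd (nat_lit 78) (nat_lit 228) (nat_lit 0) (XT.lf (nat_lit 0) (nat_lit 3567913910) (nat_lit 380) (nat_lit 1889157368) (nat_lit 76) (nat_lit 10946829491) (nat_lit 68) (nat_lit 5) (nat_lit 73) (nat_lit 5) (nat_lit 69) (nat_lit 5) (nat_lit 492) (nat_lit 381) (nat_lit 267)) (XT.lf (nat_lit 0) (nat_lit 6717894595) (nat_lit 228) (nat_lit 583050820) (nat_lit 304) (nat_lit 9324637737) (nat_lit 65) (nat_lit 5) (nat_lit 68) (nat_lit 5) (nat_lit 69) (nat_lit 5) (nat_lit 493) (nat_lit 381) (nat_lit 266))) (XT.nd (nat_lit 78) (nat_lit 304) (nat_lit 0) (XT.lf (nat_lit 0) (nat_lit 11131937757) (nat_lit 304) (nat_lit 1386607334) (nat_lit 76) (nat_lit 4332692990) (nat_lit 65) (nat_lit 5) (nat_lit 69) (nat_lit 5) (nat_lit 66) (nat_lit 5) (nat_lit 494) (nat_lit 381) (nat_lit 265)) (XT.nd (nat_lit 78) (nat_lit 76) (nat_lit 0) (XT.lf (nat_lit 0) (nat_lit 7368973151) (nat_lit 228) (nat_lit 7704680633) (nat_lit 304) (nat_lit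 2007075053) (nat_lit 62) (nat_lit 5) (nat_lit 65) (nat_lit 5) (nat_lit 66) (nat_lit 5) (nat_lit 495) (nat_lit 381) (nat_lit 264)) (XT.lf (nat_lit 0) (nat_lit 1747862262) (nat_lit 304) (nat_lit 1036532521) (nat_lit 76) (nat_lit 14530352090) (nat_lit 61) (nat_lit 5) (nat_lit 65) (nat_lit 5) (nat_lit 62) (nat_lit 5) (nat_lit 496) (nat_lit 381) (nat_lit 263)))))) (XT.nd (nat_lit 390) (nat_lit 228) (nat_lit 0) (XT.nd (nat_lit 156) (nat_lit 532) (nat_lit 0) (XT.nd (nat_lit 78) (nat_lit 0) (nat_lit 0) (XT.lf (nat_lit 0) (nat_lit 5599816169) (nat_lit 304) (nat_lit 9693387656) (nat_lit 76) (nat_lit 2259004785) (nat_lit 58) (nat_lit 5) (nat_lit 62) (nat_lit 5) (nat_lit 59) (nat_lit 5) (nat_lit 497) (nat_lit 381) (nat_lit 262)) (XT.lf (nat_lit 0) (nat_lit 9537117785) (nat_lit 304) (nat_lit 894915222) (nat_lit 76) (nat_lit 7362224844) (nat_lit 58) (nat_lit 5) (nat_lit 62) (nat_lit 5) (nat_lit 59) (nat_lit 5) (nat_lit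 498) (nat_lit 381) (nat_lit 261))) (XT.nd (nat_lit 78) (nat_lit 304) (nat_lit 0) (XT.lf (nat_lit 0) (nat_lit 8158804416) (nat_lit 228) (nat_lit 5430536510) (nat_lit 304) (nat_lit 4451087992) (nat_lit 55) (nat_lit 5) (nat_lit 58) (nat_lit 5) (nat_lit 59) (nat_lit 5) (nat_lit 499) (nat_lit 381) (nat_lit 260)) (XT.nd (nat_lit 78) (nat_lit 304) (nat_lit 0) (XT.lf (nat_lit 0) (nat_lit 17378185240) (nat_lit 228) (nat_lit 333782284) (nat_lit 304) (nat_lit 579772969) (nat_lit 55) (nat_lit 5) (nat_lit 58) (nat_lit 5) (nat_lit 59) (nat_lit 5) (nat_lit 500) (nat_lit 381) (nat_lit 259)) (XT.lf (nat_lit 0) (nat_lit 3394216347) (nat_lit 304) (nat_lit 10285367469) (nat_lit 76) (nat_lit 4866672460) (nat_lit 51) (nat_lit 5) (nat_lit 55) (nat_lit 5) (nat_lit 52) (nat_lit 5) (nat_lit 501) (nat_lit 381) (nat_lit 258))))) (XT.nd (nat_lit 49998) (nat_lit 0) (nat_lit 45448) (XT.nd (nat_lit 78) (nat_lit 228) (nat_lit 0) (XT.lf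 (nat_lit 0) (nat_lit 7431955612) (nat_lit 304) (nat_lit 1207932324) (nat_lit 76) (nat_lit 10166061148) (nat_lit 51) (nat_lit 5) (nat_lit 55) (nat_lit 5) (nat_lit 52) (nat_lit 5) (nat_lit 502) (nat_lit 381) (nat_lit 257)) (XT.lf (nat_lit 0) (nat_lit 8130918256) (nat_lit 228) (nat_lit 3456287966) (nat_lit 304) (nat_lit 7482898338) (nat_lit 48) (nat_lit 5) (nat_lit 51) (nat_lit 5) (nat_lit 52) (nat_lit 5) (nat_lit 503) (nat_lit 381) (nat_lit 256))) (XT.nd (nat_lit 78) (nat_lit 228) (nat_lit 0) (XT.lf (nat_lit 0) (nat_lit 2697237455) (nat_lit 228) (nat_lit 263921106) (nat_lit 228) (nat_lit 263921106) (nat_lit 649) (nat_lit 3) (nat_lit 652) (nat_lit 3) (nat_lit 652) (nat_lit 5) (nat_lit 382) (nat_lit 382) (nat_lit 376)) (XT.nd (nat_lit 78) (nat_lit 0) (nat_lit 0) (XT.lf (nat_lit 0) (nat_lit 1804528170) (nat_lit 228) (nat_lit 3910510000) (nat_lit 304) (nat_lit 739576703) (nat_lit 646) (nat_lit 5) (nat_lit 649)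 (nat_lit 3) (nat_lit 650) (nat_lit 5) (nat_lit 383) (nat_lit 382) (nat_lit 375)) (XT.lf (nat_lit 0) (nat_lit 4636641929) (nat_lit 228) (nat_lit 820775530) (nat_lit 304) (nat_lit 1003105819) (nat_lit 646) (nat_lit 5) (nat_lit 649) (nat_lit 3) (nat_lit 650) (nat_lit 5) (nat_lit 384) (nat_lit 382) (nat_lit 374))))))) (XT.nd (nat_lit 780) (nat_lit 4560) (nat_lit 0) (XT.nd (nat_lit 390) (nat_lit 988) (nat_lit 0) (XT.nd (nat_lit 156) (nat_lit 380) (nat_lit 0) (XT.nd (nat_lit 78) (nat_lit 0) (nat_lit 0) (XT.lf (nat_lit 0) (nat_lit 986297991) (nat_lit 304) (nat_lit 4151612327) (nat_lit 380) (nat_lit 1329752168) (nat_lit 642) (nat_lit 5) (nat_lit 646) (nat_lit 5) (nat_lit 647) (nat_lit 5) (nat_lit 385) (nat_lit 382) (nat_lit 373)) (XT.lf (nat_lit 0) (nat_lit 3761180611) (nat_lit 304) (nat_lit 999545580) (nat_lit 380) (nat_lit 1715394098) (nat_lit 642) (nat_lit 5) (nat_lit 646) (nat_lit 5) (nat_lit 647) (nat_lit 5)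 (nat_lit 386) (nat_lit 382) (nat_lit 372))) (XT.nd (nat_lit 78) (nat_lit 0) (nat_lit 0) (XT.lf (nat_lit 0) (nat_lit 48064141) (nat_lit 380) (nat_lit 4280344671) (nat_lit 456) (nat_lit 2157543971) (nat_lit 637) (nat_lit 5) (nat_lit 642) (nat_lit 5) (nat_lit 643) (nat_lit 5) (nat_lit 387) (nat_lit 382) (nat_lit 371)) (XT.nd (nat_lit 78) (nat_lit 0) (nat_lit 0) (XT.lf (nat_lit 0) (nat_lit 2766151843) (nat_lit 380) (nat_lit 1064776642) (nat_lit 456) (nat_lit 2666042001) (nat_lit 637) (nat_lit 5) (nat_lit 642) (nat_lit 5) (nat_lit 643) (nat_lit 5) (nat_lit 388) (nat_lit 382) (nat_lit 370)) (XT.lf (nat_lit 76) (nat_lit 2205480276) (nat_lit 0) (nat_lit 3278215923) (nat_lit 456) (nat_lit 1025680067) (nat_lit 638) (nat_lit 5) (nat_lit 637) (nat_lit 5) (nat_lit 643) (nat_lit 5) (nat_lit 389) (nat_lit 382) (nat_lit 369))))) (XT.nd (nat_lit 156) (nat_lit 532) (nat_lit 0) (XT.nd (nat_lit 78) (nat_lit 0) (nat_lit 0) (XT.lf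 (nat_lit 0) (nat_lit 1649383558) (nat_lit 456) (nat_lit 1016887512) (nat_lit 532) (nat_lit 3856829735) (nat_lit 631) (nat_lit 5) (nat_lit 637) (nat_lit 5) (nat_lit 638) (nat_lit 5) (nat_lit 390) (nat_lit 382) (nat_lit 368)) (XT.lf (nat_lit 76) (nat_lit 2321005858) (nat_lit 0) (nat_lit 1991002575) (nat_lit 532) (nat_lit 2226065535) (nat_lit 632) (nat_lit 5) (nat_lit 631) (nat_lit 5) (nat_lit 638) (nat_lit 5) (nat_lit 391) (nat_lit 382) (nat_lit 367))) (XT.nd (nat_lit 78) (nat_lit 0) (nat_lit 0) (XT.lf (nat_lit 0) (nat_lit 408465110) (nat_lit 532) (nat_lit 856094574) (nat_lit 608) (nat_lit 5289985352) (nat_lit 624) (nat_lit 5) (nat_lit 631) (nat_lit 5) (nat_lit 632) (nat_lit 5) (nat_lit 392) (nat_lit 382) (nat_lit 366)) (XT.nd (nat_lit 78) (nat_lit 0) (nat_lit 76) (XT.lf (nat_lit 76) (nat_lit 2552400568) (nat_lit 0) (nat_lit 464667272) (nat_lit 608) (nat_lit 3555021453) (nat_lit 625) (nat_lit 5) (nat_lit 624)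 (nat_lit 5) (nat_lit 632) (nat_lit 5) (nat_lit 393) (nat_lit 382) (nat_lit 365)) (XT.lf (nat_lit 0) (nat_lit 5621699432) (nat_lit 532) (nat_lit 591214056) (nat_lit 76) (nat_lit 378254418) (nat_lit 625) (nat_lit 5) (nat_lit 632) (nat_lit 5) (nat_lit 626) (nat_lit 5) (nat_lit 394) (nat_lit 382) (nat_lit 364)))))) (XT.nd (nat_lit 390) (nat_lit 2660) (nat_lit 0) (XT.nd (nat_lit 156) (nat_lit 1368) (nat_lit 0) (XT.nd (nat_lit 78) (nat_lit 0) (nat_lit 0) (XT.lf (nat_lit 0) (nat_lit 1604562545) (nat_lit 608) (nat_lit 3720170675) (nat_lit 76) (nat_lit 1286563749) (nat_lit 617) (nat_lit 5) (nat_lit 625) (nat_lit 5) (nat_lit 618) (nat_lit 5) (nat_lit 395) (nat_lit 382) (nat_lit 363)) (XT.lf (nat_lit 0) (nat_lit 4158666659) (nat_lit 608) (nat_lit 226617053) (nat_lit 76) (nat_lit 2247642377) (nat_lit 617) (nat_lit 5) (nat_lit 625) (nat_lit 5) (nat_lit 618) (nat_lit 5) (nat_lit 396) (nat_lit 382) (nat_lit 362))) (XT.nd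 (nat_lit 78) (nat_lit 684) (nat_lit 0) (XT.lf (nat_lit 0) (nat_lit 67610004) (nat_lit 684) (nat_lit 3314415254) (nat_lit 76) (nat_lit 3273799837) (nat_lit 608) (nat_lit 5) (nat_lit 617) (nat_lit 5) (nat_lit 609) (nat_lit 5) (nat_lit 397) (nat_lit 382) (nat_lit 361)) (XT.nd (nat_lit 78) (nat_lit 0) (nat_lit 0) (XT.lf (nat_lit 0) (nat_lit 252251093) (nat_lit 684) (nat_lit 2317423829) (nat_lit 760) (nat_lit 4110384113) (nat_lit 599) (nat_lit 5) (nat_lit 608) (nat_lit 5) (nat_lit 609) (nat_lit 5) (nat_lit 398) (nat_lit 382) (nat_lit 360)) (XT.lf (nat_lit 0) (nat_lit 3896058818) (nat_lit 684) (nat_lit 1188189099) (nat_lit 760) (nat_lit 1621333163) (nat_lit 599) (nat_lit 5) (nat_lit 608) (nat_lit 5) (nat_lit 609) (nat_lit 5) (nat_lit 399) (nat_lit 382) (nat_lit 359))))) (XT.nd (nat_lit 234) (nat_lit 988) (nat_lit 0) (XT.nd (nat_lit 78) (nat_lit 836) (nat_lit 0) (XT.lf (nat_lit 0) (nat_lit 847093893) (nat_lit 760)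 (nat_lit 4829859) (nat_lit 836) (nat_lit 5880692224) (nat_lit 588) (nat_lit 5) (nat_lit 598) (nat_lit 5) (nat_lit 599) (nat_lit 5) (nat_lit 400) (nat_lit 382) (nat_lit 358)) (XT.nd (nat_lit 78) (nat_lit 836) (nat_lit 0) (XT.lf (nat_lit 0) (nat_lit 3321727976) (nat_lit 836) (nat_lit 2203823299) (nat_lit 76) (nat_lit 1235099841) (nat_lit 588) (nat_lit 5) (nat_lit 599) (nat_lit 5) (nat_lit 589) (nat_lit 5) (nat_lit 401) (nat_lit 382) (nat_lit 357)) (XT.lf (nat_lit 0) (nat_lit 1532093351) (nat_lit 836) (nat_lit 4261939615) (nat_lit 912) (nat_lit 996200643) (nat_lit 577) (nat_lit 5) (nat_lit 588) (nat_lit 5) (nat_lit 589) (nat_lit 5) (nat_lit 402) (nat_lit 382) (nat_lit 356)))) (XT.nd (nat_lit 78) (nat_lit 912) (nat_lit 0) (XT.lf (nat_lit 0) (nat_lit 1434218702) (nat_lit 912) (nat_lit 1497332037) (nat_lit 76) (nat_lit 3889540595) (nat_lit 576) (nat_lit 5) (nat_lit 588) (nat_lit 5) (nat_lit 577) (nat_lit 5) (nat_lit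 403) (nat_lit 382) (nat_lit 355)) (XT.nd (nat_lit 78) (nat_lit 0) (nat_lit 0) (XT.lf (nat_lit 0) (nat_lit 2323335676) (nat_lit 912) (nat_lit 1536343026) (nat_lit 988) (nat_lit 2993606319) (nat_lit 564) (nat_lit 5) (nat_lit 576) (nat_lit 5) (nat_lit 577) (nat_lit 5) (nat_lit 404) (nat_lit 382) (nat_lit 354)) (XT.lf (nat_lit 0) (nat_lit 6201741286) (nat_lit 912) (nat_lit 87460575) (nat_lit 988) (nat_lit 597854674) (nat_lit 564) (nat_lit 5) (nat_lit 576) (nat_lit 5) (nat_lit 577) (nat_lit 5) (nat_lit 405) (nat_lit 382) (nat_lit 353))))))))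
noncomputable def xc104 : XT := (XT.nd (nat_lit 1560) (nat_lit 9956) (nat_lit 0) (XT.nd (nat_lit 780) (nat_lit 9120) (nat_lit 0) (XT.nd (nat_lit 390) (nat_lit 4028) (nat_lit 0) (XT.nd (nat_lit 156) (nat_lit 1216) (nat_lit 0) (XT.nd (nat_lit 78) (nat_lit 1064) (nat_lit 0) (XT.lf (nat_lit 0) (nat_lit 1798078706) (nat_lit 1064) (nat_lit 3703715280) (nat_lit 76) (nat_lit 1419983597) (nat_lit 550) (nat_lit 5) (nat_lit 564) (nat_lit 5) (nat_lit 551) (nat_lit 5) (nat_lit 406) (nat_lit 382) (nat_lit 352)) (XT.lf (nat_lit 0) (nat_lit 209974912) (nat_lit 1064) (nat_lit 3977603955) (nat_lit 1140) (nat_lit 2770504514) (nat_lit 536) (nat_lit 5) (nat_lit 550) (nat_lit 5) (nat_lit 551) (nat_lit 5) (nat_lit 407) (nat_lit 382) (nat_lit 351))) (XT.nd (nat_lit 78) (nat_lit 1216) (nat_lit 0) (XT.lf (nat_lit 0) (nat_lit 4212500343) (nat_lit 1064) (nat_lit 2385077058) (nat_lit 1140) (nat_lit 398125332) (nat_lit 536) (nat_lit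 5) (nat_lit 550) (nat_lit 5) (nat_lit 551) (nat_lit 5) (nat_lit 408) (nat_lit 382) (nat_lit 350)) (XT.nd (nat_lit 78) (nat_lit 0) (nat_lit 0) (XT.lf (nat_lit 0) (nat_lit 1224342556) (nat_lit 1140) (nat_lit 727291276) (nat_lit 1216) (nat_lit 5083089155) (nat_lit 520) (nat_lit 5) (nat_lit 535) (nat_lit 5) (nat_lit 536) (nat_lit 5) (nat_lit 409) (nat_lit 382) (nat_lit 349)) (XT.lf (nat_lit 0) (nat_lit 4317446108) (nat_lit 1216) (nat_lit 1773859920) (nat_lit 76) (nat_lit 983716412) (nat_lit 520) (nat_lit 5) (nat_lit 536) (nat_lit 5) (nat_lit 521) (nat_lit 5) (nat_lit 410) (nat_lit 382) (nat_lit 348))))) (XT.nd (nat_lit 156) (nat_lit 2736) (nat_lit 0) (XT.nd (nat_lit 78) (nat_lit 76) (nat_lit 0) (XT.lf (nat_lit 0) (nat_lit 2329460781) (nat_lit 1216) (nat_lit 4371375090) (nat_lit 1292) (nat_lit 415925222) (nat_lit 504) (nat_lit 5) (nat_lit 520) (nat_lit 5) (nat_lit 521) (nat_lit 5) (nat_lit 411) (nat_lit 382)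 (nat_lit 347)) (XT.lf (nat_lit 0) (nat_lit 1909347988) (nat_lit 1292) (nat_lit 673185886) (nat_lit 76) (nat_lit 4577328254) (nat_lit 503) (nat_lit 5) (nat_lit 520) (nat_lit 5) (nat_lit 504) (nat_lit 5) (nat_lit 412) (nat_lit 382) (nat_lit 346))) (XT.nd (nat_lit 78) (nat_lit 1444) (nat_lit 0) (XT.lf (nat_lit 0) (nat_lit 3527408682) (nat_lit 1292) (nat_lit 722700518) (nat_lit 1368) (nat_lit 2954206181) (nat_lit 486) (nat_lit 5) (nat_lit 503) (nat_lit 5) (nat_lit 504) (nat_lit 5) (nat_lit 413) (nat_lit 382) (nat_lit 345)) (XT.nd (nat_lit 78) (nat_lit 76) (nat_lit 0) (XT.lf (nat_lit 0) (nat_lit 530783600) (nat_lit 1368) (nat_lit 6074914903) (nat_lit 1444) (nat_lit 644634447) (nat_lit 468) (nat_lit 5) (nat_lit 486) (nat_lit 5) (nat_lit 487) (nat_lit 5) (nat_lit 414) (nat_lit 382) (nat_lit 344)) (XT.lf (nat_lit 0) (nat_lit 1671034896) (nat_lit 1444) (nat_lit 2480862416) (nat_lit 76) (nat_lit 3145538532) (nat_lit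 467) (nat_lit 5) (nat_lit 486) (nat_lit 5) (nat_lit 468) (nat_lit 5) (nat_lit 415) (nat_lit 382) (nat_lit 343)))))) (XT.nd (nat_lit 390) (nat_lit 4484) (nat_lit 0) (XT.nd (nat_lit 156) (nat_lit 3192) (nat_lit 0) (XT.nd (nat_lit 78) (nat_lit 0) (nat_lit 0) (XT.lf (nat_lit 0) (nat_lit 1822531107) (nat_lit 1444) (nat_lit 2167347442) (nat_lit 1520) (nat_lit 3356240636) (nat_lit 448) (nat_lit 5) (nat_lit 467) (nat_lit 5) (nat_lit 468) (nat_lit 5) (nat_lit 416) (nat_lit 382) (nat_lit 342)) (XT.lf (nat_lit 0) (nat_lit 6206181565) (nat_lit 1444) (nat_lit 119869558) (nat_lit 1520) (nat_lit 1070338833) (nat_lit 448) (nat_lit 5) (nat_lit 467) (nat_lit 5) (nat_lit 468) (nat_lit 5) (nat_lit 417) (nat_lit 382) (nat_lit 341))) (XT.nd (nat_lit 78) (nat_lit 1596) (nat_lit 0) (XT.lf (nat_lit 0) (nat_lit 1233559256) (nat_lit 1596) (nat_lit 4236385662) (nat_lit 76) (nat_lit 1977812567) (nat_lit 427) (nat_lit 5) (nat_lit 448)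 (nat_lit 5) (nat_lit 428) (nat_lit 5) (nat_lit 418) (nat_lit 382) (nat_lit 340)) (XT.nd (nat_lit 78) (nat_lit 0) (nat_lit 0) (XT.lf (nat_lit 0) (nat_lit 171442674) (nat_lit 1596) (nat_lit 3363259531) (nat_lit 1672) (nat_lit 3966029601) (nat_lit 406) (nat_lit 5) (nat_lit 427) (nat_lit 5) (nat_lit 428) (nat_lit 5) (nat_lit 419) (nat_lit 382) (nat_lit 339)) (XT.lf (nat_lit 0) (nat_lit 4685120665) (nat_lit 1596) (nat_lit 1181328112) (nat_lit 1672) (nat_lit 1688655525) (nat_lit 406) (nat_lit 5) (nat_lit 427) (nat_lit 5) (nat_lit 428) (nat_lit 5) (nat_lit 420) (nat_lit 382) (nat_lit 338))))) (XT.nd (nat_lit 156) (nat_lit 2736) (nat_lit 0) (XT.nd (nat_lit 78) (nat_lit 0) (nat_lit 0) (XT.lf (nat_lit 0) (nat_lit 600303847) (nat_lit 1748) (nat_lit 5961506476) (nat_lit 76) (nat_lit 1049213567) (nat_lit 383) (nat_lit 5) (nat_lit 406) (nat_lit 5) (nat_lit 384) (nat_lit 5) (nat_lit 421) (nat_lit 382) (nat_lit 337)) (XT.lf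 (nat_lit 0) (nat_lit 2896976644) (nat_lit 1748) (nat_lit 1428701244) (nat_lit 76) (nat_lit 3342498393) (nat_lit 383) (nat_lit 5) (nat_lit 406) (nat_lit 5) (nat_lit 384) (nat_lit 5) (nat_lit 422) (nat_lit 382) (nat_lit 336))) (XT.nd (nat_lit 78) (nat_lit 988) (nat_lit 0) (XT.lf (nat_lit 0) (nat_lit 3197278891) (nat_lit 1748) (nat_lit 2021214024) (nat_lit 1824) (nat_lit 2508428600) (nat_lit 360) (nat_lit 5) (nat_lit 383) (nat_lit 5) (nat_lit 384) (nat_lit 5) (nat_lit 423) (nat_lit 382) (nat_lit 335)) (XT.nd (nat_lit 78) (nat_lit 76) (nat_lit 0) (XT.lf (nat_lit 0) (nat_lit 107683956) (nat_lit 912) (nat_lit 7449975155) (nat_lit 988) (nat_lit 229785601) (nat_lit 348) (nat_lit 5) (nat_lit 360) (nat_lit 5) (nat_lit 361) (nat_lit 5) (nat_lit 424) (nat_lit 382) (nat_lit 334)) (XT.lf (nat_lit 0) (nat_lit 2069930702) (nat_lit 988) (nat_lit 3016927968) (nat_lit 76) (nat_lit 2762014732) (nat_lit 347) (nat_lit 5) (nat_lit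 360) (nat_lit 5) (nat_lit 348) (nat_lit 5) (nat_lit 425) (nat_lit 382) (nat_lit 333))))))) (XT.nd (nat_lit 780) (nat_lit 4864) (nat_lit 0) (XT.nd (nat_lit 390) (nat_lit 2432) (nat_lit 0) (XT.nd (nat_lit 156) (nat_lit 1748) (nat_lit 0) (XT.nd (nat_lit 78) (nat_lit 0) (nat_lit 0) (XT.lf (nat_lit 0) (nat_lit 1720667529) (nat_lit 912) (nat_lit 2662861924) (nat_lit 988) (nat_lit 3528577401) (nat_lit 335) (nat_lit 5) (nat_lit 347) (nat_lit 5) (nat_lit 348) (nat_lit 5) (nat_lit 426) (nat_lit 382) (nat_lit 332)) (XT.lf (nat_lit 0) (nat_lit 6554631263) (nat_lit 912) (nat_lit 169337851) (nat_lit 988) (nat_lit 1253049843) (nat_lit 335) (nat_lit 5) (nat_lit 347) (nat_lit 5) (nat_lit 348) (nat_lit 5) (nat_lit 427) (nat_lit 382) (nat_lit 331))) (XT.nd (nat_lit 78) (nat_lit 836) (nat_lit 0) (XT.lf (nat_lit 0) (nat_lit 1052752130) (nat_lit 912) (nat_lit 4617871528) (nat_lit 76) (nat_lit 2372515919) (nat_lit 323) (nat_lit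 5) (nat_lit 335) (nat_lit 5) (nat_lit 324) (nat_lit 5) (nat_lit 428) (nat_lit 382) (nat_lit 330)) (XT.nd (nat_lit 78) (nat_lit 0) (nat_lit 0) (XT.lf (nat_lit 0) (nat_lit 232742300) (nat_lit 836) (nat_lit 3128741001) (nat_lit 912) (nat_lit 4749485722) (nat_lit 312) (nat_lit 5) (nat_lit 323) (nat_lit 5) (nat_lit 324) (nat_lit 5) (nat_lit 429) (nat_lit 382) (nat_lit 329)) (XT.lf (nat_lit 0) (nat_lit 5203632157) (nat_lit 836) (nat_lit 505583121) (nat_lit 912) (nat_lit 2471106685) (nat_lit 312) (nat_lit 5) (nat_lit 323) (nat_lit 5) (nat_lit 324) (nat_lit 5) (nat_lit 430) (nat_lit 382) (nat_lit 328))))) (XT.nd (nat_lit 156) (nat_lit 1596) (nat_lit 0) (XT.nd (nat_lit 78) (nat_lit 76) (nat_lit 0) (XT.lf (nat_lit 0) (nat_lit 1995636375) (nat_lit 760) (nat_lit 6097890498) (nat_lit 836) (nat_lit 157765555) (nat_lit 302) (nat_lit 5) (nat_lit 312) (nat_lit 5) (nat_lit 313) (nat_lit 5) (nat_lit 431) (nat_lit 382) (nat_lit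 327)) (XT.lf (nat_lit 0) (nat_lit 2159212408) (nat_lit 836) (nat_lit 1272883358) (nat_lit 76) (nat_lit 4891597745) (nat_lit 301) (nat_lit 5) (nat_lit 312) (nat_lit 5) (nat_lit 302) (nat_lit 5) (nat_lit 432) (nat_lit 382) (nat_lit 326))) (XT.nd (nat_lit 78) (nat_lit 836) (nat_lit 0) (XT.lf (nat_lit 0) (nat_lit 3819790250) (nat_lit 760) (nat_lit 688951257) (nat_lit 836) (nat_lit 3889035415) (nat_lit 291) (nat_lit 5) (nat_lit 301) (nat_lit 5) (nat_lit 302) (nat_lit 5) (nat_lit 433) (nat_lit 382) (nat_lit 325)) (XT.nd (nat_lit 78) (nat_lit 76) (nat_lit 0) (XT.lf (nat_lit 0) (nat_lit 512089949) (nat_lit 760) (nat_lit 6382757696) (nat_lit 836) (nat_lit 1578723847) (nat_lit 281) (nat_lit 5) (nat_lit 291) (nat_lit 5) (nat_lit 292) (nat_lit 5) (nat_lit 434) (nat_lit 382) (nat_lit 324)) (XT.lf (nat_lit 0) (nat_lit 767246738) (nat_lit 836) (nat_lit 2833574485) (nat_lit 76) (nat_lit 4949987051) (nat_lit 280) (nat_lit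 5) (nat_lit 291) (nat_lit 5) (nat_lit 281) (nat_lit 5) (nat_lit 435) (nat_lit 382) (nat_lit 323)))))) (XT.nd (nat_lit 390) (nat_lit 2660) (nat_lit 0) (XT.nd (nat_lit 156) (nat_lit 1444) (nat_lit 0) (XT.nd (nat_lit 78) (nat_lit 0) (nat_lit 0) (XT.lf (nat_lit 0) (nat_lit 2378895154) (nat_lit 760) (nat_lit 740437154) (nat_lit 836) (nat_lit 5510462077) (nat_lit 270) (nat_lit 5) (nat_lit 280) (nat_lit 5) (nat_lit 281) (nat_lit 5) (nat_lit 436) (nat_lit 382) (nat_lit 322)) (XT.lf (nat_lit 0) (nat_lit 5517019717) (nat_lit 836) (nat_lit 1029391349) (nat_lit 76) (nat_lit 2163997554) (nat_lit 270) (nat_lit 5) (nat_lit 281) (nat_lit 5) (nat_lit 271) (nat_lit 5) (nat_lit 437) (nat_lit 382) (nat_lit 321))) (XT.nd (nat_lit 78) (nat_lit 760) (nat_lit 0) (XT.lf (nat_lit 0) (nat_lit 4309760531) (nat_lit 684) (nat_lit 3651750321) (nat_lit 760) (nat_lit 831166506) (nat_lit 261) (nat_lit 5) (nat_lit 270) (nat_lit 5) (nat_lit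 271) (nat_lit 5) (nat_lit 438) (nat_lit 382) (nat_lit 320)) (XT.nd (nat_lit 78) (nat_lit 0) (nat_lit 0) (XT.lf (nat_lit 0) (nat_lit 855501107) (nat_lit 684) (nat_lit 680750553) (nat_lit 760) (nat_lit 7340580316) (nat_lit 251) (nat_lit 5) (nat_lit 260) (nat_lit 5) (nat_lit 261) (nat_lit 5) (nat_lit 439) (nat_lit 382) (nat_lit 319)) (XT.lf (nat_lit 0) (nat_lit 3951962644) (nat_lit 760) (nat_lit 2660595277) (nat_lit 76) (nat_lit 2349778519) (nat_lit 251) (nat_lit 5) (nat_lit 261) (nat_lit 5) (nat_lit 252) (nat_lit 5) (nat_lit 440) (nat_lit 382) (nat_lit 318))))) (XT.nd (nat_lit 234) (nat_lit 1292) (nat_lit 0) (XT.nd (nat_lit 78) (nat_lit 760) (nat_lit 0) (XT.lf (nat_lit 0) (nat_lit 2801329314) (nat_lit 608) (nat_lit 3604537064) (nat_lit 684) (nat_lit 2643904799) (nat_lit 243) (nat_lit 5) (nat_lit 251) (nat_lit 5) (nat_lit 252) (nat_lit 5) (nat_lit 441) (nat_lit 382) (nat_lit 317)) (XT.nd (nat_lit 78) (nat_lit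 760) (nat_lit 0) (XT.lf (nat_lit 0) (nat_lit 8370551792) (nat_lit 608) (nat_lit 523729279) (nat_lit 684) (nat_lit 244982287) (nat_lit 243) (nat_lit 5) (nat_lit 251) (nat_lit 5) (nat_lit 252) (nat_lit 5) (nat_lit 442) (nat_lit 382) (nat_lit 316)) (XT.lf (nat_lit 0) (nat_lit 2189667638) (nat_lit 760) (nat_lit 4415570033) (nat_lit 76) (nat_lit 2624705968) (nat_lit 233) (nat_lit 5) (nat_lit 243) (nat_lit 5) (nat_lit 234) (nat_lit 5) (nat_lit 443) (nat_lit 382) (nat_lit 315)))) (XT.nd (nat_lit 78) (nat_lit 684) (nat_lit 0) (XT.lf (nat_lit 0) (nat_lit 1169351784) (nat_lit 608) (nat_lit 3484968716) (nat_lit 684) (nat_lit 4668409235) (nat_lit 225) (nat_lit 5) (nat_lit 233) (nat_lit 5) (nat_lit 234) (nat_lit 5) (nat_lit 444) (nat_lit 382) (nat_lit 314)) (XT.nd (nat_lit 78) (nat_lit 684) (nat_lit 0) (XT.lf (nat_lit 0) (nat_lit 6888010960) (nat_lit 608) (nat_lit 278595588) (nat_lit 684) (nat_lit 2250814284) (nat_lit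 225) (nat_lit 5) (nat_lit 233) (nat_lit 5) (nat_lit 234) (nat_lit 5) (nat_lit 445) (nat_lit 382) (nat_lit 313)) (XT.lf (nat_lit 0) (nat_lit 221788087) (nat_lit 684) (nat_lit 6323480318) (nat_lit 76) (nat_lit 2968535326) (nat_lit 216) (nat_lit 5) (nat_lit 225) (nat_lit 5) (nat_lit 217) (nat_lit 5) (nat_lit 446) (nat_lit 382) (nat_lit 312))))))))
noncomputable def xc105 : XT := (XT.nd (nat_lit 1560) (nat_lit 3952) (nat_lit 0) (XT.nd (nat_lit 780) (nat_lit 2888) (nat_lit 0) (XT.nd (nat_lit 390) (nat_lit 1672) (nat_lit 0) (XT.nd (nat_lit 156) (nat_lit 1216) (nat_lit 0) (XT.nd (nat_lit 78) (nat_lit 532) (nat_lit 0) (XT.lf (nat_lit 0) (nat_lit 2702087804) (nat_lit 684) (nat_lit 607735405) (nat_lit 76) (nat_lit 6302241001) (nat_lit 216) (nat_lit 5) (nat_lit 225) (nat_lit 5) (nat_lit 217) (nat_lit 5) (nat_lit 447) (nat_lit 382) (nat_lit 311)) (XT.lf (nat_lit 0) (nat_lit 5236247769) (nat_lit 608) (nat_lit 4458198979)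 (nat_lit 76) (nat_lit 17772924) (nat_lit 209) (nat_lit 5) (nat_lit 217) (nat_lit 5) (nat_lit 210) (nat_lit 5) (nat_lit 448) (nat_lit 382) (nat_lit 310))) (XT.nd (nat_lit 78) (nat_lit 608) (nat_lit 0) (XT.lf (nat_lit 0) (nat_lit 1385771903) (nat_lit 608) (nat_lit 6440666561) (nat_lit 684) (nat_lit 1987847392) (nat_lit 201) (nat_lit 5) (nat_lit 209) (nat_lit 5) (nat_lit 210) (nat_lit 5) (nat_lit 449) (nat_lit 382) (nat_lit 309)) (XT.nd (nat_lit 78) (nat_lit 532) (nat_lit 0) (XT.lf (nat_lit 0) (nat_lit 543398522) (nat_lit 684) (nat_lit 2552080222) (nat_lit 76) (nat_lit 6822845740) (nat_lit 200) (nat_lit 5) (nat_lit 209) (nat_lit 5) (nat_lit 201) (nat_lit 5) (nat_lit 450) (nat_lit 382) (nat_lit 308)) (XT.lf (nat_lit 0) (nat_lit 3094268565) (nat_lit 608) (nat_lit 6589606257) (nat_lit 76) (nat_lit 340407665) (nat_lit 193) (nat_lit 5) (nat_lit 201) (nat_lit 5) (nat_lit 194) (nat_lit 5) (nat_lit 451) (nat_lit 382)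 (nat_lit 307))))) (XT.nd (nat_lit 156) (nat_lit 1140) (nat_lit 0) (XT.nd (nat_lit 78) (nat_lit 532) (nat_lit 0) (XT.lf (nat_lit 0) (nat_lit 5705210794) (nat_lit 608) (nat_lit 613994031) (nat_lit 76) (nat_lit 3812987184) (nat_lit 193) (nat_lit 5) (nat_lit 201) (nat_lit 5) (nat_lit 194) (nat_lit 5) (nat_lit 452) (nat_lit 382) (nat_lit 306)) (XT.lf (nat_lit 0) (nat_lit 5517090470) (nat_lit 532) (nat_lit 2858980154) (nat_lit 608) (nat_lit 1866048315) (nat_lit 186) (nat_lit 5) (nat_lit 193) (nat_lit 5) (nat_lit 194) (nat_lit 5) (nat_lit 453) (nat_lit 382) (nat_lit 305))) (XT.nd (nat_lit 78) (nat_lit 532) (nat_lit 0) (XT.lf (nat_lit 0) (nat_lit 725982993) (nat_lit 608) (nat_lit 8956943000) (nat_lit 76) (nat_lit 671440911) (nat_lit 178) (nat_lit 5) (nat_lit 186) (nat_lit 5) (nat_lit 179) (nat_lit 5) (nat_lit 454) (nat_lit 382) (nat_lit 304)) (XT.nd (nat_lit 78) (nat_lit 532) (nat_lit 0) (XT.lf (nat_lit 0) (nat_lit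 3367998274) (nat_lit 608) (nat_lit 2830165733) (nat_lit 76) (nat_lit 4269998965) (nat_lit 178) (nat_lit 5) (nat_lit 186) (nat_lit 5) (nat_lit 179) (nat_lit 5) (nat_lit 455) (nat_lit 382) (nat_lit 303)) (XT.lf (nat_lit 0) (nat_lit 3428015110) (nat_lit 532) (nat_lit 2629895034) (nat_lit 608) (nat_lit 4526435880) (nat_lit 171) (nat_lit 5) (nat_lit 178) (nat_lit 5) (nat_lit 179) (nat_lit 5) (nat_lit 456) (nat_lit 382) (nat_lit 302)))))) (XT.nd (nat_lit 390) (nat_lit 1444) (nat_lit 0) (XT.nd (nat_lit 156) (nat_lit 912) (nat_lit 0) (XT.nd (nat_lit 78) (nat_lit 532) (nat_lit 0) (XT.lf (nat_lit 0) (nat_lit 8800335591) (nat_lit 608) (nat_lit 895776740) (nat_lit 76) (nat_lit 1006778048) (nat_lit 171) (nat_lit 5) (nat_lit 179) (nat_lit 5) (nat_lit 172) (nat_lit 5) (nat_lit 457) (nat_lit 382) (nat_lit 301)) (XT.lf (nat_lit 0) (nat_lit 790577197) (nat_lit 532) (nat_lit 5319290049) (nat_lit 76) (nat_lit 4713310942) (nat_lit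 164) (nat_lit 5) (nat_lit 171) (nat_lit 5) (nat_lit 165) (nat_lit 5) (nat_lit 458) (nat_lit 382) (nat_lit 300))) (XT.nd (nat_lit 78) (nat_lit 456) (nat_lit 0) (XT.lf (nat_lit 0) (nat_lit 1063486165) (nat_lit 456) (nat_lit 2435264366) (nat_lit 532) (nat_lit 7447147886) (nat_lit 158) (nat_lit 5) (nat_lit 164) (nat_lit 5) (nat_lit 165) (nat_lit 5) (nat_lit 459) (nat_lit 382) (nat_lit 299)) (XT.nd (nat_lit 78) (nat_lit 456) (nat_lit 0) (XT.lf (nat_lit 0) (nat_lit 6279440996) (nat_lit 532) (nat_lit 3469091445) (nat_lit 76) (nat_lit 1322184574) (nat_lit 158) (nat_lit 5) (nat_lit 165) (nat_lit 5) (nat_lit 159) (nat_lit 5) (nat_lit 460) (nat_lit 382) (nat_lit 298)) (XT.lf (nat_lit 0) (nat_lit 3061228109) (nat_lit 456) (nat_lit 6064930331) (nat_lit 532) (nat_lit 2071676104) (nat_lit 152) (nat_lit 5) (nat_lit 158) (nat_lit 5) (nat_lit 159) (nat_lit 5) (nat_lit 461) (nat_lit 382) (nat_lit 297))))) (XT.nd (nat_lit 156)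 (nat_lit 912) (nat_lit 0) (XT.nd (nat_lit 78) (nat_lit 456) (nat_lit 0) (XT.lf (nat_lit 0) (nat_lit 691044505) (nat_lit 532) (nat_lit 1597970090) (nat_lit 76) (nat_lit 9038440238) (nat_lit 151) (nat_lit 5) (nat_lit 158) (nat_lit 5) (nat_lit 152) (nat_lit 5) (nat_lit 462) (nat_lit 382) (nat_lit 296)) (XT.lf (nat_lit 0) (nat_lit 3499748674) (nat_lit 532) (nat_lit 6379872226) (nat_lit 76) (nat_lit 1579413573) (nat_lit 145) (nat_lit 5) (nat_lit 152) (nat_lit 5) (nat_lit 146) (nat_lit 5) (nat_lit 463) (nat_lit 382) (nat_lit 295))) (XT.nd (nat_lit 78) (nat_lit 532) (nat_lit 0) (XT.lf (nat_lit 0) (nat_lit 271878264) (nat_lit 380) (nat_lit 6095675979) (nat_lit 456) (nat_lit 5225642914) (nat_lit 140) (nat_lit 5) (nat_lit 145) (nat_lit 5) (nat_lit 146) (nat_lit 5) (nat_lit 464) (nat_lit 382) (nat_lit 294)) (XT.nd (nat_lit 78) (nat_lit 532) (nat_lit 0) (XT.lf (nat_lit 0) (nat_lit 7108450067) (nat_lit 380) (nat_lit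 2202547830) (nat_lit 456) (nat_lit 2418689361) (nat_lit 140) (nat_lit 5) (nat_lit 145) (nat_lit 5) (nat_lit 146) (nat_lit 5) (nat_lit 465) (nat_lit 382) (nat_lit 293)) (XT.lf (nat_lit 0) (nat_lit 440200049) (nat_lit 532) (nat_lit 9676058985) (nat_lit 76) (nat_lit 1752567338) (nat_lit 133) (nat_lit 5) (nat_lit 140) (nat_lit 5) (nat_lit 134) (nat_lit 5) (nat_lit 466) (nat_lit 382) (nat_lit 292))))))) (XT.nd (nat_lit 780) (nat_lit 1976) (nat_lit 0) (XT.nd (nat_lit 390) (nat_lit 760) (nat_lit 0) (XT.nd (nat_lit 156) (nat_lit 836) (nat_lit 0) (XT.nd (nat_lit 78) (nat_lit 380) (nat_lit 0) (XT.lf (nat_lit 0) (nat_lit 3345683298) (nat_lit 532) (nat_lit 2869785664) (nat_lit 76) (nat_lit 5794532743) (nat_lit 133) (nat_lit 5) (nat_lit 140) (nat_lit 5) (nat_lit 134) (nat_lit 5) (nat_lit 467) (nat_lit 382) (nat_lit 291)) (XT.lf (nat_lit 0) (nat_lit 4092421088) (nat_lit 380) (nat_lit 2219866341) (nat_lit 456) (nat_lit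 5841661950) (nat_lit 128) (nat_lit 5) (nat_lit 133) (nat_lit 5) (nat_lit 134) (nat_lit 5) (nat_lit 468) (nat_lit 382) (nat_lit 290))) (XT.nd (nat_lit 78) (nat_lit 836) (nat_lit 0) (XT.lf (nat_lit 0) (nat_lit 9346274034) (nat_lit 456) (nat_lit 1113844039) (nat_lit 76) (nat_lit 1840505801) (nat_lit 128) (nat_lit 5) (nat_lit 134) (nat_lit 5) (nat_lit 129) (nat_lit 5) (nat_lit 469) (nat_lit 382) (nat_lit 289)) (XT.nd (nat_lit 78) (nat_lit 380) (nat_lit 0) (XT.lf (nat_lit 0) (nat_lit 21780387) (nat_lit 456) (nat_lit 6446322263) (nat_lit 76) (nat_lit 5981519951) (nat_lit 122) (nat_lit 5) (nat_lit 128) (nat_lit 5) (nat_lit 123) (nat_lit 5) (nat_lit 470) (nat_lit 382) (nat_lit 288)) (XT.lf (nat_lit 0) (nat_lit 631628456) (nat_lit 380) (nat_lit 2375058899) (nat_lit 456) (nat_lit 9594755488) (nat_lit 117) (nat_lit 5) (nat_lit 122) (nat_lit 5) (nat_lit 123) (nat_lit 5) (nat_lit 471) (nat_lit 382) (nat_lit 287)))))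 (XT.nd (nat_lit 156) (nat_lit 380) (nat_lit 0) (XT.nd (nat_lit 78) (nat_lit 380) (nat_lit 0) (XT.lf (nat_lit 0) (nat_lit 6083836961) (nat_lit 456) (nat_lit 4862533031) (nat_lit 76) (nat_lit 1809286812) (nat_lit 117) (nat_lit 5) (nat_lit 123) (nat_lit 5) (nat_lit 118) (nat_lit 5) (nat_lit 472) (nat_lit 382) (nat_lit 286)) (XT.lf (nat_lit 0) (nat_lit 2369251761) (nat_lit 380) (nat_lit 6862148253) (nat_lit 456) (nat_lit 3681385661) (nat_lit 112) (nat_lit 5) (nat_lit 117) (nat_lit 5) (nat_lit 118) (nat_lit 5) (nat_lit 473) (nat_lit 382) (nat_lit 285))) (XT.nd (nat_lit 78) (nat_lit 380) (nat_lit 0) (XT.lf (nat_lit 0) (nat_lit 9778815694) (nat_lit 380) (nat_lit 2673710965) (nat_lit 456) (nat_lit 620326102) (nat_lit 112) (nat_lit 5) (nat_lit 117) (nat_lit 5) (nat_lit 118) (nat_lit 5) (nat_lit 474) (nat_lit 382) (nat_lit 284)) (XT.nd (nat_lit 78) (nat_lit 0) (nat_lit 0) (XT.lf (nat_lit 0) (nat_lit 2484654055) (nat_lit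 380) (nat_lit 9140670662) (nat_lit 76) (nat_lit 1610168902) (nat_lit 107) (nat_lit 5) (nat_lit 112) (nat_lit 5) (nat_lit 108) (nat_lit 5) (nat_lit 475) (nat_lit 382) (nat_lit 283)) (XT.lf (nat_lit 0) (nat_lit 5661804206) (nat_lit 380) (nat_lit 1779373159) (nat_lit 76) (nat_lit 5959767819) (nat_lit 107) (nat_lit 5) (nat_lit 112) (nat_lit 5) (nat_lit 108) (nat_lit 5) (nat_lit 476) (nat_lit 382) (nat_lit 282)))))) (XT.nd (nat_lit 390) (nat_lit 912) (nat_lit 0) (XT.nd (nat_lit 156) (nat_lit 684) (nat_lit 0) (XT.nd (nat_lit 78) (nat_lit 0) (nat_lit 0) (XT.lf (nat_lit 0) (nat_lit 5772923539) (nat_lit 380) (nat_lit 3145889770) (nat_lit 456) (nat_lit 4650573437) (nat_lit 102) (nat_lit 5) (nat_lit 107) (nat_lit 5) (nat_lit 108) (nat_lit 5) (nat_lit 477) (nat_lit 382) (nat_lit 281)) (XT.lf (nat_lit 0) (nat_lit 12239975971) (nat_lit 456) (nat_lit 280757655) (nat_lit 76) (nat_lit 1220490384) (nat_lit 102) (nat_lit 5)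 (nat_lit 108) (nat_lit 5) (nat_lit 103) (nat_lit 5) (nat_lit 478) (nat_lit 382) (nat_lit 280))) (XT.nd (nat_lit 78) (nat_lit 304) (nat_lit 0) (XT.lf (nat_lit 0) (nat_lit 1737399578) (nat_lit 380) (nat_lit 6496543147) (nat_lit 76) (nat_lit 5681364438) (nat_lit 97) (nat_lit 5) (nat_lit 102) (nat_lit 5) (nat_lit 98) (nat_lit 5) (nat_lit 479) (nat_lit 382) (nat_lit 279)) (XT.nd (nat_lit 78) (nat_lit 0) (nat_lit 0) (XT.lf (nat_lit 0) (nat_lit 1156936793) (nat_lit 304) (nat_lit 3852653541) (nat_lit 380) (nat_lit 9083312471) (nat_lit 93) (nat_lit 5) (nat_lit 97) (nat_lit 5) (nat_lit 98) (nat_lit 5) (nat_lit 480) (nat_lit 382) (nat_lit 278)) (XT.lf (nat_lit 0) (nat_lit 8374683485) (nat_lit 380) (nat_lit 5257584416) (nat_lit 76) (nat_lit 641239883) (nat_lit 93) (nat_lit 5) (nat_lit 98) (nat_lit 5) (nat_lit 94) (nat_lit 5) (nat_lit 481) (nat_lit 382) (nat_lit 277))))) (XT.nd (nat_lit 234) (nat_lit 228) (nat_lit 0)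 (XT.nd (nat_lit 78) (nat_lit 380) (nat_lit 0) (XT.lf (nat_lit 0) (nat_lit 2551266995) (nat_lit 304) (nat_lit 9277864269) (nat_lit 380) (nat_lit 2628159012) (nat_lit 89) (nat_lit 5) (nat_lit 93) (nat_lit 5) (nat_lit 94) (nat_lit 5) (nat_lit 482) (nat_lit 382) (nat_lit 276)) (XT.nd (nat_lit 78) (nat_lit 304) (nat_lit 0) (XT.lf (nat_lit 0) (nat_lit 714178715) (nat_lit 380) (nat_lit 4092420618) (nat_lit 76) (nat_lit 9837752501) (nat_lit 88) (nat_lit 5) (nat_lit 93) (nat_lit 5) (nat_lit 89) (nat_lit 5) (nat_lit 483) (nat_lit 382) (nat_lit 275)) (XT.lf (nat_lit 0) (nat_lit 3880440506) (nat_lit 304) (nat_lit 213379340) (nat_lit 380) (nat_lit 10740880476) (nat_lit 84) (nat_lit 5) (nat_lit 88) (nat_lit 5) (nat_lit 89) (nat_lit 5) (nat_lit 484) (nat_lit 382) (nat_lit 274)))) (XT.nd (nat_lit 78) (nat_lit 228) (nat_lit 0) (XT.lf (nat_lit 0) (nat_lit 7578268009) (nat_lit 380) (nat_lit 3019912562) (nat_lit 76) (nat_lit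 4429936898) (nat_lit 84) (nat_lit 5) (nat_lit 89) (nat_lit 5) (nat_lit 85) (nat_lit 5) (nat_lit 485) (nat_lit 382) (nat_lit 273)) (XT.nd (nat_lit 78) (nat_lit 0) (nat_lit 0) (XT.lf (nat_lit 0) (nat_lit 5108686761) (nat_lit 228) (nat_lit 6039218864) (nat_lit 304) (nat_lit 4077193182) (nat_lit 81) (nat_lit 5) (nat_lit 84) (nat_lit 5) (nat_lit 85) (nat_lit 5) (nat_lit 486) (nat_lit 382) (nat_lit 272)) (XT.lf (nat_lit 0) (nat_lit 13410968189) (nat_lit 228) (nat_lit 1379331910) (nat_lit 304) (nat_lit 635698134) (nat_lit 81) (nat_lit 5) (nat_lit 84) (nat_lit 5) (nat_lit 85) (nat_lit 5) (nat_lit 487) (nat_lit 382) (nat_lit 271))))))))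
noncomputable def xc106 : XT := (XT.nd (nat_lit 51480) (nat_lit 0) (nat_lit 38152) (XT.nd (nat_lit 780) (nat_lit 760) (nat_lit 0) (XT.nd (nat_lit 390) (nat_lit 760) (nat_lit 0) (XT.nd (nat_lit 156) (nat_lit 608) (nat_lit 0) (XT.nd (nat_lit 78) (nat_lit 0) (nat_lit 0) (XT.lf (nat_lit 0) (nat_lit 2881285764) (nat_lit 380) (nat_lit 9369714244) (nat_lit 76) (nat_lit 3378660675) (nat_lit 76) (nat_lit 5) (nat_lit 81) (nat_lit 5) (nat_lit 77) (nat_lit 5) (nat_lit 488) (nat_lit 382) (nat_lit 270)) (XT.lf (nat_lit 0) (nat_lit 6464298036) (nat_lit 380) (nat_lit 1152428410) (nat_lit 76) (nat_lit 8220507294) (nat_lit 76) (nat_lit 5) (nat_lit 81) (nat_lit 5) (nat_lit 77) (nat_lit 5) (nat_lit 489) (nat_lit 382) (nat_lit 269))) (XT.nd (nat_lit 78) (nat_lit 380) (nat_lit 0) (XT.lf (nat_lit 0) (nat_lit 7295865152) (nat_lit 228) (nat_lit 2852285414) (nat_lit 304) (nat_lit 5900229397) (nat_lit 73) (nat_lit 5) (nat_lit 76)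 (nat_lit 5) (nat_lit 77) (nat_lit 5) (nat_lit 490) (nat_lit 382) (nat_lit 268)) (XT.nd (nat_lit 78) (nat_lit 380) (nat_lit 0) (XT.lf (nat_lit 0) (nat_lit 13908408086) (nat_lit 304) (nat_lit 377062278) (nat_lit 76) (nat_lit 1978229389) (nat_lit 73) (nat_lit 5) (nat_lit 77) (nat_lit 5) (nat_lit 74) (nat_lit 5) (nat_lit 491) (nat_lit 382) (nat_lit 267)) (XT.lf (nat_lit 0) (nat_lit 1298933416) (nat_lit 380) (nat_lit 8264443268) (nat_lit 76) (nat_lit 6918692152) (nat_lit 68) (nat_lit 5) (nat_lit 73) (nat_lit 5) (nat_lit 69) (nat_lit 5) (nat_lit 492) (nat_lit 382) (nat_lit 266))))) (XT.nd (nat_lit 156) (nat_lit 532) (nat_lit 0) (XT.nd (nat_lit 78) (nat_lit 0) (nat_lit 0) (XT.lf (nat_lit 0) (nat_lit 243532904) (nat_lit 228) (nat_lit 4737637073) (nat_lit 304) (nat_lit 11723599568) (nat_lit 65) (nat_lit 5) (nat_lit 68) (nat_lit 5) (nat_lit 69) (nat_lit 5) (nat_lit 493) (nat_lit 382) (nat_lit 265)) (XT.lf (nat_lit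 0) (nat_lit 8776474283) (nat_lit 304) (nat_lit 7927392229) (nat_lit 76) (nat_lit 227274100) (nat_lit 65) (nat_lit 5) (nat_lit 69) (nat_lit 5) (nat_lit 66) (nat_lit 5) (nat_lit 494) (nat_lit 382) (nat_lit 264))) (XT.nd (nat_lit 78) (nat_lit 304) (nat_lit 0) (XT.lf (nat_lit 0) (nat_lit 727147021) (nat_lit 228) (nat_lit 11939377300) (nat_lit 304) (nat_lit 4495142699) (nat_lit 62) (nat_lit 5) (nat_lit 65) (nat_lit 5) (nat_lit 66) (nat_lit 5) (nat_lit 495) (nat_lit 382) (nat_lit 263)) (XT.nd (nat_lit 78) (nat_lit 304) (nat_lit 0) (XT.lf (nat_lit 0) (nat_lit 9634276467) (nat_lit 228) (nat_lit 7036196151) (nat_lit 304) (nat_lit 725614010) (nat_lit 62) (nat_lit 5) (nat_lit 65) (nat_lit 5) (nat_lit 66) (nat_lit 5) (nat_lit 496) (nat_lit 382) (nat_lit 262)) (XT.lf (nat_lit 0) (nat_lit 1050236274) (nat_lit 228) (nat_lit 2018097640) (nat_lit 304) (nat_lit 14566661324) (nat_lit 58) (nat_lit 5) (nat_lit 61) (nat_lit 5)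 (nat_lit 62) (nat_lit 5) (nat_lit 497) (nat_lit 382) (nat_lit 261)))))) (XT.nd (nat_lit 390) (nat_lit 228) (nat_lit 0) (XT.nd (nat_lit 156) (nat_lit 304) (nat_lit 0) (XT.nd (nat_lit 78) (nat_lit 228) (nat_lit 0) (XT.lf (nat_lit 0) (nat_lit 6984217417) (nat_lit 304) (nat_lit 7786909658) (nat_lit 76) (nat_lit 3106347920) (nat_lit 58) (nat_lit 5) (nat_lit 62) (nat_lit 5) (nat_lit 59) (nat_lit 5) (nat_lit 498) (nat_lit 382) (nat_lit 260)) (XT.lf (nat_lit 0) (nat_lit 1161583348) (nat_lit 228) (nat_lit 9821274369) (nat_lit 304) (nat_lit 7141862114) (nat_lit 55) (nat_lit 5) (nat_lit 58) (nat_lit 5) (nat_lit 59) (nat_lit 5) (nat_lit 499) (nat_lit 382) (nat_lit 259))) (XT.nd (nat_lit 78) (nat_lit 304) (nat_lit 0) (XT.lf (nat_lit 0) (nat_lit 10367595884) (nat_lit 228) (nat_lit 4729809242) (nat_lit 304) (nat_lit 3278789934) (nat_lit 55) (nat_lit 5) (nat_lit 58) (nat_lit 5) (nat_lit 59) (nat_lit 5) (nat_lit 500) (nat_lit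 382) (nat_lit 258)) (XT.nd (nat_lit 78) (nat_lit 0) (nat_lit 0) (XT.lf (nat_lit 0) (nat_lit 646971749) (nat_lit 304) (nat_lit 17527232457) (nat_lit 76) (nat_lit 458531620) (nat_lit 51) (nat_lit 5) (nat_lit 55) (nat_lit 5) (nat_lit 52) (nat_lit 5) (nat_lit 501) (nat_lit 382) (nat_lit 257)) (XT.lf (nat_lit 0) (nat_lit 4676773017) (nat_lit 304) (nat_lit 8463050639) (nat_lit 76) (nat_lit 5752765690) (nat_lit 51) (nat_lit 5) (nat_lit 55) (nat_lit 5) (nat_lit 52) (nat_lit 5) (nat_lit 502) (nat_lit 382) (nat_lit 256))))) (XT.nd (nat_lit 50076) (nat_lit 0) (nat_lit 45068) (XT.nd (nat_lit 49998) (nat_lit 0) (nat_lit 45448) (XT.lf (nat_lit 0) (nat_lit 766217103) (nat_lit 228) (nat_lit 8010207649) (nat_lit 304) (nat_lit 10381433959) (nat_lit 48) (nat_lit 5) (nat_lit 51) (nat_lit 5) (nat_lit 52) (nat_lit 5) (nat_lit 503) (nat_lit 382) (nat_lit 255)) (XT.lf (nat_lit 0) (nat_lit 1152735148) (nat_lit 0) (nat_lit 1152735148)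 (nat_lit 228) (nat_lit 924415706) (nat_lit 646) (nat_lit 5) (nat_lit 646) (nat_lit 3) (nat_lit 649) (nat_lit 3) (nat_lit 383) (nat_lit 383) (nat_lit 374))) (XT.nd (nat_lit 78) (nat_lit 0) (nat_lit 0) (XT.lf (nat_lit 0) (nat_lit 926135249) (nat_lit 380) (nat_lit 1087891066) (nat_lit 380) (nat_lit 4452333639) (nat_lit 641) (nat_lit 3) (nat_lit 646) (nat_lit 3) (nat_lit 646) (nat_lit 5) (nat_lit 384) (nat_lit 383) (nat_lit 373)) (XT.nd (nat_lit 78) (nat_lit 0) (nat_lit 0) (XT.lf (nat_lit 76) (nat_lit 2016977436) (nat_lit 0) (nat_lit 1655355712) (nat_lit 380) (nat_lit 2801767702) (nat_lit 642) (nat_lit 5) (nat_lit 641) (nat_lit 3) (nat_lit 646) (nat_lit 5) (nat_lit 385) (nat_lit 383) (nat_lit 372)) (XT.lf (nat_lit 76) (nat_lit 5161854443) (nat_lit 0) (nat_lit 1247454917) (nat_lit 380) (nat_lit 74043996) (nat_lit 642) (nat_lit 5) (nat_lit 641) (nat_lit 3) (nat_lit 646) (nat_lit 5) (nat_lit 386) (nat_lit 383)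 (nat_lit 371))))))) (XT.nd (nat_lit 780) (nat_lit 5016) (nat_lit 0) (XT.nd (nat_lit 390) (nat_lit 608) (nat_lit 0) (XT.nd (nat_lit 156) (nat_lit 912) (nat_lit 0) (XT.nd (nat_lit 78) (nat_lit 0) (nat_lit 0) (XT.lf (nat_lit 76) (nat_lit 1846347362) (nat_lit 0) (nat_lit 767775132) (nat_lit 456) (nat_lit 3879559612) (nat_lit 637) (nat_lit 5) (nat_lit 636) (nat_lit 5) (nat_lit 642) (nat_lit 5) (nat_lit 387) (nat_lit 383) (nat_lit 370)) (XT.lf (nat_lit 76) (nat_lit 5058088941) (nat_lit 0) (nat_lit 236401652) (nat_lit 456) (nat_lit 1210998074) (nat_lit 637) (nat_lit 5) (nat_lit 636) (nat_lit 5) (nat_lit 642) (nat_lit 5) (nat_lit 388) (nat_lit 383) (nat_lit 369))) (XT.nd (nat_lit 78) (nat_lit 532) (nat_lit 0) (XT.lf (nat_lit 0) (nat_lit 1436498407) (nat_lit 456) (nat_lit 4727764026) (nat_lit 532) (nat_lit 354232046) (nat_lit 631) (nat_lit 5) (nat_lit 637) (nat_lit 5) (nat_lit 638) (nat_lit 5) (nat_lit 389) (nat_lit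 383) (nat_lit 368)) (XT.nd (nat_lit 78) (nat_lit 532) (nat_lit 0) (XT.lf (nat_lit 0) (nat_lit 4064798908) (nat_lit 456) (nat_lit 1466475885) (nat_lit 532) (nat_lit 1001509736) (nat_lit 631) (nat_lit 5) (nat_lit 637) (nat_lit 5) (nat_lit 638) (nat_lit 5) (nat_lit 390) (nat_lit 383) (nat_lit 367)) (XT.lf (nat_lit 0) (nat_lit 141302888) (nat_lit 532) (nat_lit 4702926781) (nat_lit 608) (nat_lit 1704256045) (nat_lit 624) (nat_lit 5) (nat_lit 631) (nat_lit 5) (nat_lit 632) (nat_lit 5) (nat_lit 391) (nat_lit 383) (nat_lit 366))))) (XT.nd (nat_lit 156) (nat_lit 608) (nat_lit 0) (XT.nd (nat_lit 78) (nat_lit 0) (nat_lit 0) (XT.lf (nat_lit 0) (nat_lit 2714256476) (nat_lit 532) (nat_lit 1375431538) (nat_lit 608) (nat_lit 2475657948) (nat_lit 624) (nat_lit 5) (nat_lit 631) (nat_lit 5) (nat_lit 632) (nat_lit 5) (nat_lit 392) (nat_lit 383) (nat_lit 365)) (XT.lf (nat_lit 76) (nat_lit 2007261858) (nat_lit 0) (nat_lit 3280311076)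 (nat_lit 608) (nat_lit 1296053014) (nat_lit 625) (nat_lit 5) (nat_lit 624) (nat_lit 5) (nat_lit 632) (nat_lit 5) (nat_lit 393) (nat_lit 383) (nat_lit 364))) (XT.nd (nat_lit 78) (nat_lit 0) (nat_lit 0) (XT.lf (nat_lit 0) (nat_lit 1238602307) (nat_lit 608) (nat_lit 1172733358) (nat_lit 684) (nat_lit 4191910002) (nat_lit 616) (nat_lit 5) (nat_lit 624) (nat_lit 5) (nat_lit 625) (nat_lit 5) (nat_lit 394) (nat_lit 383) (nat_lit 363)) (XT.nd (nat_lit 78) (nat_lit 0) (nat_lit 0) (XT.lf (nat_lit 76) (nat_lit 2282744262) (nat_lit 0) (nat_lit 1476345630) (nat_lit 684) (nat_lit 2865003796) (nat_lit 617) (nat_lit 5) (nat_lit 616) (nat_lit 5) (nat_lit 625) (nat_lit 5) (nat_lit 395) (nat_lit 383) (nat_lit 362)) (XT.lf (nat_lit 76) (nat_lit 5785894194) (nat_lit 0) (nat_lit 490598723) (nat_lit 684) (nat_lit 369991632) (nat_lit 617) (nat_lit 5) (nat_lit 616) (nat_lit 5) (nat_lit 625) (nat_lit 5) (nat_lit 396) (nat_lit 383)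 (nat_lit 361)))))) (XT.nd (nat_lit 390) (nat_lit 2888) (nat_lit 0) (XT.nd (nat_lit 156) (nat_lit 1520) (nat_lit 0) (XT.nd (nat_lit 78) (nat_lit 0) (nat_lit 0) (XT.lf (nat_lit 0) (nat_lit 2106841154) (nat_lit 684) (nat_lit 4000399445) (nat_lit 76) (nat_lit 562645129) (nat_lit 608) (nat_lit 5) (nat_lit 617) (nat_lit 5) (nat_lit 609) (nat_lit 5) (nat_lit 397) (nat_lit 383) (nat_lit 360)) (XT.lf (nat_lit 0) (nat_lit 4577802597) (nat_lit 684) (nat_lit 456153623) (nat_lit 76) (nat_lit 1660811637) (nat_lit 608) (nat_lit 5) (nat_lit 617) (nat_lit 5) (nat_lit 609) (nat_lit 5) (nat_lit 398) (nat_lit 383) (nat_lit 359))) (XT.nd (nat_lit 78) (nat_lit 760) (nat_lit 0) (XT.lf (nat_lit 0) (nat_lit 334956226) (nat_lit 760) (nat_lit 3560553824) (nat_lit 76) (nat_lit 2825401631) (nat_lit 598) (nat_lit 5) (nat_lit 608) (nat_lit 5) (nat_lit 599) (nat_lit 5) (nat_lit 399) (nat_lit 383) (nat_lit 358)) (XT.nd (nat_lit 78) (nat_lit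 0) (nat_lit 0) (XT.lf (nat_lit 0) (nat_lit 56142475) (nat_lit 760) (nat_lit 2697015713) (nat_lit 836) (nat_lit 3995278287) (nat_lit 588) (nat_lit 5) (nat_lit 598) (nat_lit 5) (nat_lit 599) (nat_lit 5) (nat_lit 400) (nat_lit 383) (nat_lit 357)) (XT.lf (nat_lit 0) (nat_lit 3755270083) (nat_lit 760) (nat_lit 1431350371) (nat_lit 836) (nat_lit 1590602130) (nat_lit 588) (nat_lit 5) (nat_lit 598) (nat_lit 5) (nat_lit 599) (nat_lit 5) (nat_lit 401) (nat_lit 383) (nat_lit 356))))) (XT.nd (nat_lit 234) (nat_lit 1064) (nat_lit 0) (XT.nd (nat_lit 78) (nat_lit 912) (nat_lit 0) (XT.lf (nat_lit 0) (nat_lit 686994623) (nat_lit 836) (nat_lit 112029304) (nat_lit 912) (nat_lit 6008532108) (nat_lit 576) (nat_lit 5) (nat_lit 587) (nat_lit 5) (nat_lit 588) (nat_lit 5) (nat_lit 402) (nat_lit 383) (nat_lit 355)) (XT.nd (nat_lit 78) (nat_lit 912) (nat_lit 0) (XT.lf (nat_lit 0) (nat_lit 3188261588) (nat_lit 912) (nat_lit 2384914749)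 (nat_lit 76) (nat_lit 1265693128) (nat_lit 576) (nat_lit 5) (nat_lit 588) (nat_lit 5) (nat_lit 577) (nat_lit 5) (nat_lit 403) (nat_lit 383) (nat_lit 354)) (XT.lf (nat_lit 0) (nat_lit 1404664294) (nat_lit 912) (nat_lit 4176240743) (nat_lit 988) (nat_lit 1290836741) (nat_lit 564) (nat_lit 5) (nat_lit 576) (nat_lit 5) (nat_lit 577) (nat_lit 5) (nat_lit 404) (nat_lit 383) (nat_lit 353)))) (XT.nd (nat_lit 78) (nat_lit 988) (nat_lit 0) (XT.lf (nat_lit 0) (nat_lit 1063778795) (nat_lit 988) (nat_lit 1648907620) (nat_lit 76) (nat_lit 4193237728) (nat_lit 563) (nat_lit 5) (nat_lit 576) (nat_lit 5) (nat_lit 564) (nat_lit 5) (nat_lit 405) (nat_lit 383) (nat_lit 352)) (XT.nd (nat_lit 78) (nat_lit 0) (nat_lit 0) (XT.lf (nat_lit 0) (nat_lit 2228096401) (nat_lit 988) (nat_lit 1181820922) (nat_lit 1064) (nat_lit 3531510318) (nat_lit 550) (nat_lit 5) (nat_lit 563) (nat_lit 5) (nat_lit 564) (nat_lit 5) (nat_lit 406) (nat_lit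 383) (nat_lit 351)) (XT.lf (nat_lit 0) (nat_lit 5764693836) (nat_lit 1064) (nat_lit 814089795) (nat_lit 76) (nat_lit 399664877) (nat_lit 550) (nat_lit 5) (nat_lit 564) (nat_lit 5) (nat_lit 551) (nat_lit 5) (nat_lit 407) (nat_lit 383) (nat_lit 350))))))))
noncomputable def xc107 : XT := (XT.nd (nat_lit 1560) (nat_lit 9576) (nat_lit 0) (XT.nd (nat_lit 780) (nat_lit 8512) (nat_lit 0) (XT.nd (nat_lit 390) (nat_lit 4256) (nat_lit 0) (XT.nd (nat_lit 156) (nat_lit 1292) (nat_lit 0) (XT.nd (nat_lit 78) (nat_lit 1140) (nat_lit 0) (XT.lf (nat_lit 0) (nat_lit 1112541642) (nat_lit 1140) (nat_lit 3865644515) (nat_lit 76) (nat_lit 2038368793) (nat_lit 535) (nat_lit 5) (nat_lit 550) (nat_lit 5) (nat_lit 536) (nat_lit 5) (nat_lit 408) (nat_lit 383) (nat_lit 349)) (XT.lf (nat_lit 0) (nat_lit 105425784) (nat_lit 1140) (nat_lit 3319392735) (nat_lit 1216) (nat_lit 3631369612) (nat_lit 520) (nat_lit 5) (nat_lit 535) (nat_lit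 5) (nat_lit 536) (nat_lit 5) (nat_lit 409) (nat_lit 383) (nat_lit 348))) (XT.nd (nat_lit 78) (nat_lit 1292) (nat_lit 0) (XT.lf (nat_lit 0) (nat_lit 4169758459) (nat_lit 1140) (nat_lit 1589770648) (nat_lit 1216) (nat_lit 1337599538) (nat_lit 520) (nat_lit 5) (nat_lit 535) (nat_lit 5) (nat_lit 536) (nat_lit 5) (nat_lit 410) (nat_lit 383) (nat_lit 347)) (XT.nd (nat_lit 78) (nat_lit 0) (nat_lit 0) (XT.lf (nat_lit 0) (nat_lit 948505030) (nat_lit 1292) (nat_lit 5994394715) (nat_lit 76) (nat_lit 196703028) (nat_lit 503) (nat_lit 5) (nat_lit 520) (nat_lit 5) (nat_lit 504) (nat_lit 5) (nat_lit 411) (nat_lit 383) (nat_lit 346)) (XT.lf (nat_lit 0) (nat_lit 3244384838) (nat_lit 1292) (nat_lit 1902441282) (nat_lit 76) (nat_lit 2036320377) (nat_lit 503) (nat_lit 5) (nat_lit 520) (nat_lit 5) (nat_lit 504) (nat_lit 5) (nat_lit 412) (nat_lit 383) (nat_lit 345))))) (XT.nd (nat_lit 156) (nat_lit 2888) (nat_lit 0) (XT.nd (nat_lit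 78) (nat_lit 76) (nat_lit 0) (XT.lf (nat_lit 0) (nat_lit 2262484627) (nat_lit 1292) (nat_lit 3290979609) (nat_lit 1368) (nat_lit 1674786727) (nat_lit 486) (nat_lit 5) (nat_lit 503) (nat_lit 5) (nat_lit 504) (nat_lit 5) (nat_lit 413) (nat_lit 383) (nat_lit 344)) (XT.lf (nat_lit 0) (nat_lit 591927095) (nat_lit 1368) (nat_lit 780654581) (nat_lit 76) (nat_lit 5902311975) (nat_lit 485) (nat_lit 5) (nat_lit 503) (nat_lit 5) (nat_lit 486) (nat_lit 5) (nat_lit 414) (nat_lit 383) (nat_lit 343))) (XT.nd (nat_lit 78) (nat_lit 1520) (nat_lit 0) (XT.lf (nat_lit 0) (nat_lit 2862115496) (nat_lit 1444) (nat_lit 3842232073) (nat_lit 76) (nat_lit 618322362) (nat_lit 467) (nat_lit 5) (nat_lit 486) (nat_lit 5) (nat_lit 468) (nat_lit 5) (nat_lit 415) (nat_lit 383) (nat_lit 342)) (XT.nd (nat_lit 78) (nat_lit 76) (nat_lit 0) (XT.lf (nat_lit 0) (nat_lit 423544969) (nat_lit 1444) (nat_lit 4725836094) (nat_lit 1520) (nat_lit 2222620009)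 (nat_lit 448) (nat_lit 5) (nat_lit 467) (nat_lit 5) (nat_lit 468) (nat_lit 5) (nat_lit 416) (nat_lit 383) (nat_lit 341)) (XT.lf (nat_lit 0) (nat_lit 40111111) (nat_lit 1520) (nat_lit 2634941549) (nat_lit 76) (nat_lit 4747673390) (nat_lit 447) (nat_lit 5) (nat_lit 467) (nat_lit 5) (nat_lit 448) (nat_lit 5) (nat_lit 417) (nat_lit 383) (nat_lit 340)))))) (XT.nd (nat_lit 390) (nat_lit 3648) (nat_lit 0) (XT.nd (nat_lit 156) (nat_lit 3344) (nat_lit 0) (XT.nd (nat_lit 78) (nat_lit 0) (nat_lit 0) (XT.lf (nat_lit 0) (nat_lit 1734343108) (nat_lit 1520) (nat_lit 551037783) (nat_lit 1596) (nat_lit 5189480818) (nat_lit 427) (nat_lit 5) (nat_lit 447) (nat_lit 5) (nat_lit 448) (nat_lit 5) (nat_lit 418) (nat_lit 383) (nat_lit 339)) (XT.lf (nat_lit 0) (nat_lit 4560253986) (nat_lit 1596) (nat_lit 1350772518) (nat_lit 76) (nat_lit 1617349924) (nat_lit 427) (nat_lit 5) (nat_lit 448) (nat_lit 5) (nat_lit 428) (nat_lit 5) (nat_lit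 419) (nat_lit 383) (nat_lit 338))) (XT.nd (nat_lit 78) (nat_lit 1748) (nat_lit 0) (XT.lf (nat_lit 0) (nat_lit 3125670669) (nat_lit 1596) (nat_lit 3736162111) (nat_lit 1672) (nat_lit 721534210) (nat_lit 406) (nat_lit 5) (nat_lit 427) (nat_lit 5) (nat_lit 428) (nat_lit 5) (nat_lit 420) (nat_lit 383) (nat_lit 337)) (XT.nd (nat_lit 78) (nat_lit 0) (nat_lit 0) (XT.lf (nat_lit 0) (nat_lit 21928787) (nat_lit 1672) (nat_lit 1494280344) (nat_lit 1748) (nat_lit 6123736641) (nat_lit 383) (nat_lit 5) (nat_lit 405) (nat_lit 5) (nat_lit 406) (nat_lit 5) (nat_lit 421) (nat_lit 383) (nat_lit 336)) (XT.lf (nat_lit 0) (nat_lit 3782462823) (nat_lit 1748) (nat_lit 3095021819) (nat_lit 76) (nat_lit 820235762) (nat_lit 383) (nat_lit 5) (nat_lit 406) (nat_lit 5) (nat_lit 384) (nat_lit 5) (nat_lit 422) (nat_lit 383) (nat_lit 335))))) (XT.nd (nat_lit 156) (nat_lit 1824) (nat_lit 0) (XT.nd (nat_lit 78) (nat_lit 76) (nat_lit 0) (XT.lf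 (nat_lit 0) (nat_lit 1489430235) (nat_lit 1748) (nat_lit 4583149348) (nat_lit 1824) (nat_lit 1684527635) (nat_lit 360) (nat_lit 5) (nat_lit 383) (nat_lit 5) (nat_lit 384) (nat_lit 5) (nat_lit 423) (nat_lit 383) (nat_lit 334)) (XT.lf (nat_lit 0) (nat_lit 563207389) (nat_lit 1824) (nat_lit 1652669946) (nat_lit 76) (nat_lit 5602151314) (nat_lit 359) (nat_lit 5) (nat_lit 383) (nat_lit 5) (nat_lit 360) (nat_lit 5) (nat_lit 424) (nat_lit 383) (nat_lit 333))) (XT.nd (nat_lit 78) (nat_lit 912) (nat_lit 0) (XT.lf (nat_lit 0) (nat_lit 2814672472) (nat_lit 988) (nat_lit 4836653136) (nat_lit 76) (nat_lit 229019448) (nat_lit 347) (nat_lit 5) (nat_lit 360) (nat_lit 5) (nat_lit 348) (nat_lit 5) (nat_lit 425) (nat_lit 383) (nat_lit 332)) (XT.nd (nat_lit 78) (nat_lit 912) (nat_lit 0) (XT.lf (nat_lit 0) (nat_lit 5097584055) (nat_lit 988) (nat_lit 140814491) (nat_lit 76) (nat_lit 2705806260) (nat_lit 347) (nat_lit 5) (nat_lit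 360) (nat_lit 5) (nat_lit 348) (nat_lit 5) (nat_lit 426) (nat_lit 383) (nat_lit 331)) (XT.lf (nat_lit 0) (nat_lit 4672214153) (nat_lit 912) (nat_lit 2745626578) (nat_lit 988) (nat_lit 591692143) (nat_lit 335) (nat_lit 5) (nat_lit 347) (nat_lit 5) (nat_lit 348) (nat_lit 5) (nat_lit 427) (nat_lit 383) (nat_lit 330))))))) (XT.nd (nat_lit 780) (nat_lit 4636) (nat_lit 0) (XT.nd (nat_lit 390) (nat_lit 2356) (nat_lit 0) (XT.nd (nat_lit 156) (nat_lit 1672) (nat_lit 0) (XT.nd (nat_lit 78) (nat_lit 0) (nat_lit 0) (XT.lf (nat_lit 0) (nat_lit 1477252013) (nat_lit 836) (nat_lit 180808226) (nat_lit 912) (nat_lit 6418466722) (nat_lit 323) (nat_lit 5) (nat_lit 334) (nat_lit 5) (nat_lit 335) (nat_lit 5) (nat_lit 428) (nat_lit 383) (nat_lit 329)) (XT.lf (nat_lit 0) (nat_lit 3945340627) (nat_lit 912) (nat_lit 1769755916) (nat_lit 76) (nat_lit 2429700477) (nat_lit 323) (nat_lit 5) (nat_lit 335) (nat_lit 5) (nat_lit 324) (nat_lit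 5) (nat_lit 429) (nat_lit 383) (nat_lit 328))) (XT.nd (nat_lit 78) (nat_lit 836) (nat_lit 0) (XT.lf (nat_lit 0) (nat_lit 3158524971) (nat_lit 836) (nat_lit 3104382773) (nat_lit 912) (nat_lit 1951856883) (nat_lit 312) (nat_lit 5) (nat_lit 323) (nat_lit 5) (nat_lit 324) (nat_lit 5) (nat_lit 430) (nat_lit 383) (nat_lit 327)) (XT.nd (nat_lit 78) (nat_lit 760) (nat_lit 0) (XT.lf (nat_lit 0) (nat_lit 311235566) (nat_lit 912) (nat_lit 117142183) (nat_lit 76) (nat_lit 7858231488) (nat_lit 311) (nat_lit 5) (nat_lit 323) (nat_lit 5) (nat_lit 312) (nat_lit 5) (nat_lit 431) (nat_lit 383) (nat_lit 326)) (XT.lf (nat_lit 0) (nat_lit 2604528640) (nat_lit 836) (nat_lit 3440000172) (nat_lit 76) (nat_lit 2314904052) (nat_lit 301) (nat_lit 5) (nat_lit 312) (nat_lit 5) (nat_lit 302) (nat_lit 5) (nat_lit 432) (nat_lit 383) (nat_lit 325))))) (XT.nd (nat_lit 156) (nat_lit 1596) (nat_lit 0) (XT.nd (nat_lit 78) (nat_lit 0) (nat_lit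 0) (XT.lf (nat_lit 0) (nat_lit 1604788612) (nat_lit 760) (nat_lit 3317183280) (nat_lit 836) (nat_lit 3512196604) (nat_lit 291) (nat_lit 5) (nat_lit 301) (nat_lit 5) (nat_lit 302) (nat_lit 5) (nat_lit 433) (nat_lit 383) (nat_lit 324)) (XT.lf (nat_lit 0) (nat_lit 6759307532) (nat_lit 760) (nat_lit 514233269) (nat_lit 836) (nat_lit 1237123306) (nat_lit 291) (nat_lit 5) (nat_lit 301) (nat_lit 5) (nat_lit 302) (nat_lit 5) (nat_lit 434) (nat_lit 383) (nat_lit 323))) (XT.nd (nat_lit 78) (nat_lit 760) (nat_lit 0) (XT.lf (nat_lit 0) (nat_lit 1072038688) (nat_lit 836) (nat_lit 5175599778) (nat_lit 76) (nat_lit 2340874533) (nat_lit 280) (nat_lit 5) (nat_lit 291) (nat_lit 5) (nat_lit 281) (nat_lit 5) (nat_lit 435) (nat_lit 383) (nat_lit 322)) (XT.nd (nat_lit 78) (nat_lit 760) (nat_lit 0) (XT.lf (nat_lit 0) (nat_lit 3391628594) (nat_lit 836) (nat_lit 13131984) (nat_lit 76) (nat_lit 5263398151) (nat_lit 280) (nat_lit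 5) (nat_lit 291) (nat_lit 5) (nat_lit 281) (nat_lit 5) (nat_lit 436) (nat_lit 383) (nat_lit 321)) (XT.lf (nat_lit 0) (nat_lit 5284658667) (nat_lit 760) (nat_lit 473496860) (nat_lit 836) (nat_lit 2991250160) (nat_lit 270) (nat_lit 5) (nat_lit 280) (nat_lit 5) (nat_lit 281) (nat_lit 5) (nat_lit 437) (nat_lit 383) (nat_lit 320)))))) (XT.nd (nat_lit 390) (nat_lit 2584) (nat_lit 0) (XT.nd (nat_lit 156) (nat_lit 1292) (nat_lit 0) (XT.nd (nat_lit 78) (nat_lit 76) (nat_lit 0) (XT.lf (nat_lit 0) (nat_lit 1826267646) (nat_lit 684) (nat_lit 6340661446) (nat_lit 760) (nat_lit 665469012) (nat_lit 261) (nat_lit 5) (nat_lit 270) (nat_lit 5) (nat_lit 271) (nat_lit 5) (nat_lit 438) (nat_lit 383) (nat_lit 319)) (XT.lf (nat_lit 0) (nat_lit 1677789288) (nat_lit 760) (nat_lit 1698753116) (nat_lit 76) (nat_lit 5540437500) (nat_lit 260) (nat_lit 5) (nat_lit 270) (nat_lit 5) (nat_lit 261) (nat_lit 5) (nat_lit 439) (nat_lit 383)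 (nat_lit 318))) (XT.nd (nat_lit 78) (nat_lit 608) (nat_lit 0) (XT.lf (nat_lit 0) (nat_lit 3722058251) (nat_lit 684) (nat_lit 328576009) (nat_lit 760) (nat_lit 4952716218) (nat_lit 251) (nat_lit 5) (nat_lit 260) (nat_lit 5) (nat_lit 261) (nat_lit 5) (nat_lit 440) (nat_lit 383) (nat_lit 317)) (XT.nd (nat_lit 78) (nat_lit 0) (nat_lit 0) (XT.lf (nat_lit 0) (nat_lit 129151674) (nat_lit 608) (nat_lit 6339975541) (nat_lit 684) (nat_lit 2622374834) (nat_lit 243) (nat_lit 5) (nat_lit 251) (nat_lit 5) (nat_lit 252) (nat_lit 5) (nat_lit 441) (nat_lit 383) (nat_lit 316)) (XT.lf (nat_lit 0) (nat_lit 5679928378) (nat_lit 608) (nat_lit 3261878185) (nat_lit 684) (nat_lit 239510824) (nat_lit 243) (nat_lit 5) (nat_lit 251) (nat_lit 5) (nat_lit 252) (nat_lit 5) (nat_lit 442) (nat_lit 383) (nat_lit 315))))) (XT.nd (nat_lit 234) (nat_lit 1216) (nat_lit 0) (XT.nd (nat_lit 78) (nat_lit 608) (nat_lit 0) (XT.lf (nat_lit 0) (nat_lit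 2044415607) (nat_lit 684) (nat_lit 99748021) (nat_lit 760) (nat_lit 7128859521) (nat_lit 233) (nat_lit 5) (nat_lit 242) (nat_lit 5) (nat_lit 243) (nat_lit 5) (nat_lit 443) (nat_lit 383) (nat_lit 314)) (XT.nd (nat_lit 78) (nat_lit 608) (nat_lit 0) (XT.lf (nat_lit 0) (nat_lit 4585207768) (nat_lit 760) (nat_lit 1676849273) (nat_lit 76) (nat_lit 3104232340) (nat_lit 233) (nat_lit 5) (nat_lit 243) (nat_lit 5) (nat_lit 234) (nat_lit 5) (nat_lit 444) (nat_lit 383) (nat_lit 313)) (XT.lf (nat_lit 0) (nat_lit 4001172083) (nat_lit 608) (nat_lit 3070103133) (nat_lit 684) (nat_lit 2390237439) (nat_lit 225) (nat_lit 5) (nat_lit 233) (nat_lit 5) (nat_lit 234) (nat_lit 5) (nat_lit 445) (nat_lit 383) (nat_lit 312)))) (XT.nd (nat_lit 78) (nat_lit 532) (nat_lit 0) (XT.lf (nat_lit 0) (nat_lit 31522623) (nat_lit 684) (nat_lit 9337412121) (nat_lit 76) (nat_lit 190039834) (nat_lit 216) (nat_lit 5) (nat_lit 225) (nat_lit 5) (nat_lit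 217) (nat_lit 5) (nat_lit 446) (nat_lit 383) (nat_lit 311)) (XT.nd (nat_lit 78) (nat_lit 532) (nat_lit 0) (XT.lf (nat_lit 0) (nat_lit 2496982718) (nat_lit 684) (nat_lit 3640030296) (nat_lit 76) (nat_lit 3520526191) (nat_lit 216) (nat_lit 5) (nat_lit 225) (nat_lit 5) (nat_lit 217) (nat_lit 5) (nat_lit 447) (nat_lit 383) (nat_lit 310)) (XT.lf (nat_lit 0) (nat_lit 2163305187) (nat_lit 532) (nat_lit 2833104170) (nat_lit 608) (nat_lit 4761987186) (nat_lit 209) (nat_lit 5) (nat_lit 216) (nat_lit 5) (nat_lit 217) (nat_lit 5) (nat_lit 448) (nat_lit 383) (nat_lit 309))))))))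
noncomputable def xc108 : XT := (XT.nd (nat_lit 1560) (nat_lit 4332) (nat_lit 0) (XT.nd (nat_lit 780) (nat_lit 2356) (nat_lit 0) (XT.nd (nat_lit 390) (nat_lit 1672) (nat_lit 0) (XT.nd (nat_lit 156) (nat_lit 1064) (nat_lit 0) (XT.nd (nat_lit 78) (nat_lit 684) (nat_lit 0) (XT.lf (nat_lit 0) (nat_lit 7544806055) (nat_lit 608) (nat_lit 1769057218) (nat_lit 76) (nat_lit 547442404) (nat_lit 209) (nat_lit 5) (nat_lit 217) (nat_lit 5) (nat_lit 210) (nat_lit 5) (nat_lit 449) (nat_lit 383) (nat_lit 308)) (XT.lf (nat_lit 0) (nat_lit 193002922) (nat_lit 684) (nat_lit 5793695247) (nat_lit 76) (nat_lit 3979216681) (nat_lit 200) (nat_lit 5) (nat_lit 209) (nat_lit 5) (nat_lit 201) (nat_lit 5) (nat_lit 450) (nat_lit 383) (nat_lit 307))) (XT.nd (nat_lit 78) (nat_lit 532) (nat_lit 0) (XT.lf (nat_lit 0) (nat_lit 134151747) (nat_lit 532) (nat_lit 2571980714) (nat_lit 608) (nat_lit 7366501862) (nat_lit 193) (nat_lit 5) (nat_lit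 200) (nat_lit 5) (nat_lit 201) (nat_lit 5) (nat_lit 451) (nat_lit 383) (nat_lit 306)) (XT.nd (nat_lit 78) (nat_lit 532) (nat_lit 0) (XT.lf (nat_lit 0) (nat_lit 5286453976) (nat_lit 608) (nat_lit 3964189961) (nat_lit 76) (nat_lit 930518854) (nat_lit 193) (nat_lit 5) (nat_lit 201) (nat_lit 5) (nat_lit 194) (nat_lit 5) (nat_lit 452) (nat_lit 383) (nat_lit 305)) (XT.lf (nat_lit 0) (nat_lit 2104472128) (nat_lit 532) (nat_lit 5817035962) (nat_lit 608) (nat_lit 2370304149) (nat_lit 186) (nat_lit 5) (nat_lit 193) (nat_lit 5) (nat_lit 194) (nat_lit 5) (nat_lit 453) (nat_lit 383) (nat_lit 304))))) (XT.nd (nat_lit 156) (nat_lit 1064) (nat_lit 0) (XT.nd (nat_lit 78) (nat_lit 532) (nat_lit 0) (XT.lf (nat_lit 0) (nat_lit 201230314) (nat_lit 608) (nat_lit 2093230466) (nat_lit 76) (nat_lit 8110213262) (nat_lit 185) (nat_lit 5) (nat_lit 193) (nat_lit 5) (nat_lit 186) (nat_lit 5) (nat_lit 454) (nat_lit 383) (nat_lit 303))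 (XT.lf (nat_lit 0) (nat_lit 2801020305) (nat_lit 608) (nat_lit 6402099070) (nat_lit 76) (nat_lit 1316201275) (nat_lit 178) (nat_lit 5) (nat_lit 186) (nat_lit 5) (nat_lit 179) (nat_lit 5) (nat_lit 455) (nat_lit 383) (nat_lit 302))) (XT.nd (nat_lit 78) (nat_lit 1064) (nat_lit 0) (XT.lf (nat_lit 0) (nat_lit 5455473585) (nat_lit 608) (nat_lit 206393763) (nat_lit 76) (nat_lit 4974351440) (nat_lit 178) (nat_lit 5) (nat_lit 186) (nat_lit 5) (nat_lit 179) (nat_lit 5) (nat_lit 456) (nat_lit 383) (nat_lit 301)) (XT.nd (nat_lit 78) (nat_lit 532) (nat_lit 0) (XT.lf (nat_lit 0) (nat_lit 6159316649) (nat_lit 532) (nat_lit 2017545222) (nat_lit 608) (nat_lit 2578327816) (nat_lit 171) (nat_lit 5) (nat_lit 178) (nat_lit 5) (nat_lit 179) (nat_lit 5) (nat_lit 457) (nat_lit 383) (nat_lit 300)) (XT.lf (nat_lit 0) (nat_lit 73031341) (nat_lit 532) (nat_lit 9121399502) (nat_lit 76) (nat_lit 1682152692) (nat_lit 164) (nat_lit 5)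 (nat_lit 171) (nat_lit 5) (nat_lit 165) (nat_lit 5) (nat_lit 458) (nat_lit 383) (nat_lit 299)))))) (XT.nd (nat_lit 390) (nat_lit 912) (nat_lit 0) (XT.nd (nat_lit 156) (nat_lit 988) (nat_lit 0) (XT.nd (nat_lit 78) (nat_lit 456) (nat_lit 0) (XT.lf (nat_lit 0) (nat_lit 2761522833) (nat_lit 532) (nat_lit 2769926669) (nat_lit 76) (nat_lit 5468253362) (nat_lit 164) (nat_lit 5) (nat_lit 171) (nat_lit 5) (nat_lit 165) (nat_lit 5) (nat_lit 459) (nat_lit 383) (nat_lit 298)) (XT.lf (nat_lit 0) (nat_lit 3723033034) (nat_lit 456) (nat_lit 1779620081) (nat_lit 532) (nat_lit 5622664908) (nat_lit 158) (nat_lit 5) (nat_lit 164) (nat_lit 5) (nat_lit 165) (nat_lit 5) (nat_lit 460) (nat_lit 383) (nat_lit 297))) (XT.nd (nat_lit 78) (nat_lit 988) (nat_lit 0) (XT.lf (nat_lit 0) (nat_lit 8305520677) (nat_lit 532) (nat_lit 917686604) (nat_lit 76) (nat_lit 2030110521) (nat_lit 158) (nat_lit 5) (nat_lit 165) (nat_lit 5) (nat_lit 159)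 (nat_lit 5) (nat_lit 461) (nat_lit 383) (nat_lit 296)) (XT.nd (nat_lit 78) (nat_lit 532) (nat_lit 0) (XT.lf (nat_lit 0) (nat_lit 5725997323) (nat_lit 456) (nat_lit 5462814559) (nat_lit 532) (nat_lit 194588772) (nat_lit 152) (nat_lit 5) (nat_lit 158) (nat_lit 5) (nat_lit 159) (nat_lit 5) (nat_lit 462) (nat_lit 383) (nat_lit 295)) (XT.lf (nat_lit 0) (nat_lit 960589322) (nat_lit 456) (nat_lit 1606747275) (nat_lit 532) (nat_lit 8948660530) (nat_lit 145) (nat_lit 5) (nat_lit 151) (nat_lit 5) (nat_lit 152) (nat_lit 5) (nat_lit 463) (nat_lit 383) (nat_lit 294))))) (XT.nd (nat_lit 156) (nat_lit 532) (nat_lit 0) (XT.nd (nat_lit 78) (nat_lit 380) (nat_lit 0) (XT.lf (nat_lit 0) (nat_lit 5410912673) (nat_lit 532) (nat_lit 3913741236) (nat_lit 76) (nat_lit 2325995346) (nat_lit 145) (nat_lit 5) (nat_lit 152) (nat_lit 5) (nat_lit 146) (nat_lit 5) (nat_lit 464) (nat_lit 383) (nat_lit 293)) (XT.lf (nat_lit 0) (nat_lit 2853980261)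 (nat_lit 380) (nat_lit 5462722153) (nat_lit 456) (nat_lit 3471194777) (nat_lit 140) (nat_lit 5) (nat_lit 145) (nat_lit 5) (nat_lit 146) (nat_lit 5) (nat_lit 465) (nat_lit 383) (nat_lit 292))) (XT.nd (nat_lit 78) (nat_lit 532) (nat_lit 0) (XT.lf (nat_lit 0) (nat_lit 9776760668) (nat_lit 380) (nat_lit 1506532763) (nat_lit 456) (nat_lit 644552368) (nat_lit 140) (nat_lit 5) (nat_lit 145) (nat_lit 5) (nat_lit 146) (nat_lit 5) (nat_lit 466) (nat_lit 383) (nat_lit 291)) (XT.nd (nat_lit 78) (nat_lit 0) (nat_lit 0) (XT.lf (nat_lit 0) (nat_lit 2233694177) (nat_lit 532) (nat_lit 7304232233) (nat_lit 76) (nat_lit 2531896706) (nat_lit 133) (nat_lit 5) (nat_lit 140) (nat_lit 5) (nat_lit 134) (nat_lit 5) (nat_lit 467) (nat_lit 383) (nat_lit 290)) (XT.lf (nat_lit 0) (nat_lit 5162293168) (nat_lit 532) (nat_lit 412134385) (nat_lit 76) (nat_lit 6640107733) (nat_lit 133) (nat_lit 5) (nat_lit 140) (nat_lit 5) (nat_lit 134) (nat_lit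 5) (nat_lit 468) (nat_lit 383) (nat_lit 289))))))) (XT.nd (nat_lit 780) (nat_lit 1976) (nat_lit 0) (XT.nd (nat_lit 390) (nat_lit 1140) (nat_lit 0) (XT.nd (nat_lit 156) (nat_lit 456) (nat_lit 0) (XT.nd (nat_lit 78) (nat_lit 380) (nat_lit 0) (XT.lf (nat_lit 0) (nat_lit 6672770140) (nat_lit 380) (nat_lit 1497373396) (nat_lit 456) (nat_lit 4191593280) (nat_lit 128) (nat_lit 5) (nat_lit 133) (nat_lit 5) (nat_lit 134) (nat_lit 5) (nat_lit 469) (nat_lit 383) (nat_lit 288)) (XT.lf (nat_lit 0) (nat_lit 1360956722) (nat_lit 380) (nat_lit 9883617770) (nat_lit 456) (nat_lit 1267187946) (nat_lit 123) (nat_lit 5) (nat_lit 128) (nat_lit 5) (nat_lit 129) (nat_lit 5) (nat_lit 470) (nat_lit 383) (nat_lit 287))) (XT.nd (nat_lit 78) (nat_lit 380) (nat_lit 0) (XT.lf (nat_lit 0) (nat_lit 1719147860) (nat_lit 456) (nat_lit 4089158326) (nat_lit 76) (nat_lit 6855748915) (nat_lit 122) (nat_lit 5) (nat_lit 128) (nat_lit 5) (nat_lit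 123) (nat_lit 5) (nat_lit 471) (nat_lit 383) (nat_lit 286)) (XT.nd (nat_lit 78) (nat_lit 0) (nat_lit 0) (XT.lf (nat_lit 0) (nat_lit 3113995549) (nat_lit 380) (nat_lit 1632519400) (nat_lit 456) (nat_lit 8072753744) (nat_lit 117) (nat_lit 5) (nat_lit 122) (nat_lit 5) (nat_lit 123) (nat_lit 5) (nat_lit 472) (nat_lit 383) (nat_lit 285)) (XT.lf (nat_lit 0) (nat_lit 7857301264) (nat_lit 456) (nat_lit 2509971864) (nat_lit 76) (nat_lit 2609863874) (nat_lit 117) (nat_lit 5) (nat_lit 123) (nat_lit 5) (nat_lit 118) (nat_lit 5) (nat_lit 473) (nat_lit 383) (nat_lit 284))))) (XT.nd (nat_lit 156) (nat_lit 684) (nat_lit 0) (XT.nd (nat_lit 78) (nat_lit 76) (nat_lit 0) (XT.lf (nat_lit 0) (nat_lit 4850331440) (nat_lit 380) (nat_lit 6200897306) (nat_lit 456) (nat_lit 2086523151) (nat_lit 112) (nat_lit 5) (nat_lit 117) (nat_lit 5) (nat_lit 118) (nat_lit 5) (nat_lit 474) (nat_lit 383) (nat_lit 283)) (XT.lf (nat_lit 0) (nat_lit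 989887027) (nat_lit 456) (nat_lit 947818325) (nat_lit 76) (nat_lit 11363837459) (nat_lit 111) (nat_lit 5) (nat_lit 117) (nat_lit 5) (nat_lit 112) (nat_lit 5) (nat_lit 475) (nat_lit 383) (nat_lit 282))) (XT.nd (nat_lit 78) (nat_lit 380) (nat_lit 0) (XT.lf (nat_lit 0) (nat_lit 4137701297) (nat_lit 380) (nat_lit 6903973916) (nat_lit 76) (nat_lit 2425909487) (nat_lit 107) (nat_lit 5) (nat_lit 112) (nat_lit 5) (nat_lit 108) (nat_lit 5) (nat_lit 476) (nat_lit 383) (nat_lit 281)) (XT.nd (nat_lit 78) (nat_lit 0) (nat_lit 0) (XT.lf (nat_lit 0) (nat_lit 564511835) (nat_lit 380) (nat_lit 6786109485) (nat_lit 456) (nat_lit 6286290257) (nat_lit 102) (nat_lit 5) (nat_lit 107) (nat_lit 5) (nat_lit 108) (nat_lit 5) (nat_lit 477) (nat_lit 383) (nat_lit 280)) (XT.lf (nat_lit 0) (nat_lit 8244845078) (nat_lit 380) (nat_lit 2408738183) (nat_lit 456) (nat_lit 3155533060) (nat_lit 102) (nat_lit 5) (nat_lit 107) (nat_lit 5) (nat_lit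 108) (nat_lit 5) (nat_lit 478) (nat_lit 383) (nat_lit 279)))))) (XT.nd (nat_lit 390) (nat_lit 988) (nat_lit 0) (XT.nd (nat_lit 156) (nat_lit 608) (nat_lit 0) (XT.nd (nat_lit 78) (nat_lit 0) (nat_lit 0) (XT.lf (nat_lit 0) (nat_lit 44005777) (nat_lit 380) (nat_lit 11907858079) (nat_lit 76) (nat_lit 2032769865) (nat_lit 97) (nat_lit 5) (nat_lit 102) (nat_lit 5) (nat_lit 98) (nat_lit 5) (nat_lit 479) (nat_lit 383) (nat_lit 278)) (XT.lf (nat_lit 0) (nat_lit 3298708713) (nat_lit 380) (nat_lit 4284854276) (nat_lit 76) (nat_lit 6579019396) (nat_lit 97) (nat_lit 5) (nat_lit 102) (nat_lit 5) (nat_lit 98) (nat_lit 5) (nat_lit 480) (nat_lit 383) (nat_lit 277))) (XT.nd (nat_lit 78) (nat_lit 304) (nat_lit 0) (XT.lf (nat_lit 0) (nat_lit 3506289870) (nat_lit 304) (nat_lit 3115224169) (nat_lit 380) (nat_lit 7722522283) (nat_lit 93) (nat_lit 5) (nat_lit 97) (nat_lit 5) (nat_lit 98) (nat_lit 5) (nat_lit 481) (nat_lit 383)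 (nat_lit 276)) (XT.nd (nat_lit 78) (nat_lit 304) (nat_lit 0) (XT.lf (nat_lit 0) (nat_lit 10029451722) (nat_lit 380) (nat_lit 3057196183) (nat_lit 76) (nat_lit 1442104249) (nat_lit 93) (nat_lit 5) (nat_lit 98) (nat_lit 5) (nat_lit 94) (nat_lit 5) (nat_lit 482) (nat_lit 383) (nat_lit 275)) (XT.lf (nat_lit 0) (nat_lit 4892664230) (nat_lit 304) (nat_lit 8646032593) (nat_lit 380) (nat_lit 1177808721) (nat_lit 89) (nat_lit 5) (nat_lit 93) (nat_lit 5) (nat_lit 94) (nat_lit 5) (nat_lit 483) (nat_lit 383) (nat_lit 274))))) (XT.nd (nat_lit 234) (nat_lit 608) (nat_lit 0) (XT.nd (nat_lit 78) (nat_lit 304) (nat_lit 0) (XT.lf (nat_lit 0) (nat_lit 2182582378) (nat_lit 380) (nat_lit 1909029303) (nat_lit 76) (nat_lit 10816092195) (nat_lit 88) (nat_lit 5) (nat_lit 93) (nat_lit 5) (nat_lit 89) (nat_lit 5) (nat_lit 484) (nat_lit 383) (nat_lit 273)) (XT.nd (nat_lit 78) (nat_lit 0) (nat_lit 0) (XT.lf (nat_lit 0) (nat_lit 5619761569)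 (nat_lit 380) (nat_lit 8897606805) (nat_lit 76) (nat_lit 584700929) (nat_lit 84) (nat_lit 5) (nat_lit 89) (nat_lit 5) (nat_lit 85) (nat_lit 5) (nat_lit 485) (nat_lit 383) (nat_lit 272)) (XT.lf (nat_lit 0) (nat_lit 9146969089) (nat_lit 380) (nat_lit 850580323) (nat_lit 76) (nat_lit 5302352674) (nat_lit 84) (nat_lit 5) (nat_lit 89) (nat_lit 5) (nat_lit 85) (nat_lit 5) (nat_lit 486) (nat_lit 383) (nat_lit 271)))) (XT.nd (nat_lit 78) (nat_lit 380) (nat_lit 0) (XT.lf (nat_lit 0) (nat_lit 7425921707) (nat_lit 228) (nat_lit 5348672423) (nat_lit 304) (nat_lit 2726505558) (nat_lit 81) (nat_lit 5) (nat_lit 84) (nat_lit 5) (nat_lit 85) (nat_lit 5) (nat_lit 487) (nat_lit 383) (nat_lit 270)) (XT.nd (nat_lit 78) (nat_lit 0) (nat_lit 0) (XT.lf (nat_lit 0) (nat_lit 141185170) (nat_lit 304) (nat_lit 605556298) (nat_lit 380) (nat_lit 14959718009) (nat_lit 76) (nat_lit 5) (nat_lit 80) (nat_lit 5) (nat_lit 81) (nat_lit 5) (nat_lit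 488) (nat_lit 383) (nat_lit 269)) (XT.lf (nat_lit 0) (nat_lit 4316817324) (nat_lit 380) (nat_lit 7358425401) (nat_lit 76) (nat_lit 4239051165) (nat_lit 76) (nat_lit 5) (nat_lit 81) (nat_lit 5) (nat_lit 77) (nat_lit 5) (nat_lit 489) (nat_lit 383) (nat_lit 268))))))))
noncomputable def xc109 : XT := (XT.nd (nat_lit 51558) (nat_lit 0) (nat_lit 35568) (XT.nd (nat_lit 780) (nat_lit 532) (nat_lit 0) (XT.nd (nat_lit 390) (nat_lit 532) (nat_lit 0) (XT.nd (nat_lit 156) (nat_lit 608) (nat_lit 0) (XT.nd (nat_lit 78) (nat_lit 0) (nat_lit 0) (XT.lf (nat_lit 0) (nat_lit 993119658) (nat_lit 228) (nat_lit 6957800412) (nat_lit 304) (nat_lit 8175517613) (nat_lit 73) (nat_lit 5) (nat_lit 76) (nat_lit 5) (nat_lit 77) (nat_lit 5) (nat_lit 490) (nat_lit 383) (nat_lit 267)) (XT.lf (nat_lit 0) (nat_lit 9583172756) (nat_lit 228) (nat_lit 2106244229) (nat_lit 304) (nat_lit 4652778225) (nat_lit 73) (nat_lit 5) (nat_lit 76) (nat_lit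 5) (nat_lit 77) (nat_lit 5) (nat_lit 491) (nat_lit 383) (nat_lit 266))) (XT.nd (nat_lit 78) (nat_lit 304) (nat_lit 0) (XT.lf (nat_lit 0) (nat_lit 1759381353) (nat_lit 304) (nat_lit 13755792063) (nat_lit 380) (nat_lit 1046849679) (nat_lit 69) (nat_lit 5) (nat_lit 73) (nat_lit 5) (nat_lit 74) (nat_lit 5) (nat_lit 492) (nat_lit 383) (nat_lit 265)) (XT.nd (nat_lit 78) (nat_lit 228) (nat_lit 0) (XT.lf (nat_lit 0) (nat_lit 2638947978) (nat_lit 380) (nat_lit 6304948366) (nat_lit 76) (nat_lit 7841169146) (nat_lit 68) (nat_lit 5) (nat_lit 73) (nat_lit 5) (nat_lit 69) (nat_lit 5) (nat_lit 493) (nat_lit 383) (nat_lit 264)) (XT.lf (nat_lit 0) (nat_lit 2359208489) (nat_lit 228) (nat_lit 4023560117) (nat_lit 304) (nat_lit 10629699958) (nat_lit 65) (nat_lit 5) (nat_lit 68) (nat_lit 5) (nat_lit 69) (nat_lit 5) (nat_lit 494) (nat_lit 383) (nat_lit 263))))) (XT.nd (nat_lit 156) (nat_lit 304) (nat_lit 0) (XT.nd (nat_lit 78)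 (nat_lit 228) (nat_lit 0) (XT.lf (nat_lit 0) (nat_lit 10233598561) (nat_lit 304) (nat_lit 5995793173) (nat_lit 76) (nat_lit 1014389925) (nat_lit 65) (nat_lit 5) (nat_lit 69) (nat_lit 5) (nat_lit 66) (nat_lit 5) (nat_lit 495) (nat_lit 383) (nat_lit 262)) (XT.lf (nat_lit 0) (nat_lit 2818085896) (nat_lit 228) (nat_lit 11371715735) (nat_lit 304) (nat_lit 3289356785) (nat_lit 62) (nat_lit 5) (nat_lit 65) (nat_lit 5) (nat_lit 66) (nat_lit 5) (nat_lit 496) (nat_lit 383) (nat_lit 261))) (XT.nd (nat_lit 78) (nat_lit 228) (nat_lit 0) (XT.lf (nat_lit 0) (nat_lit 523203713) (nat_lit 304) (nat_lit 5859569005) (nat_lit 76) (nat_lit 11335929599) (nat_lit 61) (nat_lit 5) (nat_lit 65) (nat_lit 5) (nat_lit 62) (nat_lit 5) (nat_lit 497) (nat_lit 383) (nat_lit 260)) (XT.nd (nat_lit 78) (nat_lit 0) (nat_lit 0) (XT.lf (nat_lit 0) (nat_lit 3110408549) (nat_lit 228) (nat_lit 1261573942) (nat_lit 304) (nat_lit 13590543790) (nat_lit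 58) (nat_lit 5) (nat_lit 61) (nat_lit 5) (nat_lit 62) (nat_lit 5) (nat_lit 498) (nat_lit 383) (nat_lit 259)) (XT.lf (nat_lit 0) (nat_lit 8346897656) (nat_lit 304) (nat_lit 5923861085) (nat_lit 76) (nat_lit 3939488950) (nat_lit 58) (nat_lit 5) (nat_lit 62) (nat_lit 5) (nat_lit 59) (nat_lit 5) (nat_lit 499) (nat_lit 383) (nat_lit 258)))))) (XT.nd (nat_lit 50388) (nat_lit 0) (nat_lit 44004) (XT.nd (nat_lit 156) (nat_lit 304) (nat_lit 0) (XT.nd (nat_lit 78) (nat_lit 0) (nat_lit 0) (XT.lf (nat_lit 0) (nat_lit 3190320290) (nat_lit 228) (nat_lit 9224231231) (nat_lit 304) (nat_lit 6048111300) (nat_lit 55) (nat_lit 5) (nat_lit 58) (nat_lit 5) (nat_lit 59) (nat_lit 5) (nat_lit 500) (nat_lit 383) (nat_lit 257)) (XT.lf (nat_lit 0) (nat_lit 12541129444) (nat_lit 228) (nat_lit 4046495010) (nat_lit 304) (nat_lit 2132024502) (nat_lit 55) (nat_lit 5) (nat_lit 58) (nat_lit 5) (nat_lit 59) (nat_lit 5) (nat_lit 501) (nat_lit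 383) (nat_lit 256))) (XT.nd (nat_lit 78) (nat_lit 0) (nat_lit 0) (XT.lf (nat_lit 0) (nat_lit 1850766422) (nat_lit 304) (nat_lit 15889518106) (nat_lit 76) (nat_lit 1240996155) (nat_lit 51) (nat_lit 5) (nat_lit 55) (nat_lit 5) (nat_lit 52) (nat_lit 5) (nat_lit 502) (nat_lit 383) (nat_lit 255)) (XT.nd (nat_lit 50076) (nat_lit 0) (nat_lit 44840) (XT.lf (nat_lit 0) (nat_lit 5937813613) (nat_lit 304) (nat_lit 6683038123) (nat_lit 76) (nat_lit 6625952280) (nat_lit 51) (nat_lit 5) (nat_lit 55) (nat_lit 5) (nat_lit 52) (nat_lit 5) (nat_lit 503) (nat_lit 383) (nat_lit 254)) (XT.lf (nat_lit 0) (nat_lit 1820449122) (nat_lit 380) (nat_lit 708141501) (nat_lit 380) (nat_lit 708141501) (nat_lit 641) (nat_lit 3) (nat_lit 646) (nat_lit 3) (nat_lit 646) (nat_lit 5) (nat_lit 384) (nat_lit 384) (nat_lit 372))))) (XT.nd (nat_lit 156) (nat_lit 456) (nat_lit 0) (XT.nd (nat_lit 78) (nat_lit 380) (nat_lit 0) (XT.lf (nat_lit 76) (nat_lit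 1665985939) (nat_lit 0) (nat_lit 4683580440) (nat_lit 380) (nat_lit 132425936) (nat_lit 642) (nat_lit 5) (nat_lit 641) (nat_lit 3) (nat_lit 646) (nat_lit 5) (nat_lit 385) (nat_lit 384) (nat_lit 371)) (XT.lf (nat_lit 0) (nat_lit 2526319169) (nat_lit 380) (nat_lit 1715609617) (nat_lit 456) (nat_lit 2249712999) (nat_lit 636) (nat_lit 5) (nat_lit 641) (nat_lit 3) (nat_lit 642) (nat_lit 5) (nat_lit 386) (nat_lit 384) (nat_lit 370))) (XT.nd (nat_lit 78) (nat_lit 456) (nat_lit 0) (XT.lf (nat_lit 76) (nat_lit 1428255561) (nat_lit 0) (nat_lit 3748288781) (nat_lit 456) (nat_lit 1326190447) (nat_lit 637) (nat_lit 5) (nat_lit 636) (nat_lit 5) (nat_lit 642) (nat_lit 5) (nat_lit 387) (nat_lit 384) (nat_lit 369)) (XT.nd (nat_lit 78) (nat_lit 0) (nat_lit 0) (XT.lf (nat_lit 0) (nat_lit 1290808907) (nat_lit 456) (nat_lit 1901642641) (nat_lit 532) (nat_lit 3322627752) (nat_lit 630) (nat_lit 5) (nat_lit 636) (nat_lit 5) (nat_lit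 637) (nat_lit 5) (nat_lit 388) (nat_lit 384) (nat_lit 368)) (XT.lf (nat_lit 76) (nat_lit 1306598953) (nat_lit 0) (nat_lit 2577043843) (nat_lit 532) (nat_lit 2645093144) (nat_lit 631) (nat_lit 5) (nat_lit 630) (nat_lit 5) (nat_lit 637) (nat_lit 5) (nat_lit 389) (nat_lit 384) (nat_lit 367))))))) (XT.nd (nat_lit 780) (nat_lit 6004) (nat_lit 0) (XT.nd (nat_lit 390) (nat_lit 1368) (nat_lit 0) (XT.nd (nat_lit 156) (nat_lit 532) (nat_lit 0) (XT.nd (nat_lit 78) (nat_lit 532) (nat_lit 0) (XT.lf (nat_lit 76) (nat_lit 4568616868) (nat_lit 0) (nat_lit 1906313617) (nat_lit 532) (nat_lit 68867602) (nat_lit 631) (nat_lit 5) (nat_lit 630) (nat_lit 5) (nat_lit 637) (nat_lit 5) (nat_lit 390) (nat_lit 384) (nat_lit 366)) (XT.lf (nat_lit 76) (nat_lit 1300772523) (nat_lit 0) (nat_lit 1167636823) (nat_lit 608) (nat_lit 4091619931) (nat_lit 624) (nat_lit 5) (nat_lit 623) (nat_lit 5) (nat_lit 631) (nat_lit 5) (nat_lit 391) (nat_lit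 384) (nat_lit 365))) (XT.nd (nat_lit 78) (nat_lit 532) (nat_lit 0) (XT.lf (nat_lit 76) (nat_lit 4632409649) (nat_lit 0) (nat_lit 372040879) (nat_lit 608) (nat_lit 1573207249) (nat_lit 624) (nat_lit 5) (nat_lit 623) (nat_lit 5) (nat_lit 631) (nat_lit 5) (nat_lit 392) (nat_lit 384) (nat_lit 364)) (XT.nd (nat_lit 78) (nat_lit 0) (nat_lit 0) (XT.lf (nat_lit 0) (nat_lit 931282563) (nat_lit 608) (nat_lit 5189051003) (nat_lit 684) (nat_lit 476258938) (nat_lit 616) (nat_lit 5) (nat_lit 624) (nat_lit 5) (nat_lit 625) (nat_lit 5) (nat_lit 393) (nat_lit 384) (nat_lit 363)) (XT.lf (nat_lit 0) (nat_lit 3418076548) (nat_lit 608) (nat_lit 1812439658) (nat_lit 684) (nat_lit 1386173261) (nat_lit 616) (nat_lit 5) (nat_lit 624) (nat_lit 5) (nat_lit 625) (nat_lit 5) (nat_lit 394) (nat_lit 384) (nat_lit 362))))) (XT.nd (nat_lit 156) (nat_lit 684) (nat_lit 0) (XT.nd (nat_lit 78) (nat_lit 684) (nat_lit 0) (XT.lf (nat_lit 76) (nat_lit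 1616054448) (nat_lit 0) (nat_lit 4287922888) (nat_lit 684) (nat_lit 734279608) (nat_lit 617) (nat_lit 5) (nat_lit 616) (nat_lit 5) (nat_lit 625) (nat_lit 5) (nat_lit 395) (nat_lit 384) (nat_lit 361)) (XT.lf (nat_lit 0) (nat_lit 1707633624) (nat_lit 684) (nat_lit 1571420442) (nat_lit 760) (nat_lit 3381991876) (nat_lit 607) (nat_lit 5) (nat_lit 616) (nat_lit 5) (nat_lit 617) (nat_lit 5) (nat_lit 396) (nat_lit 384) (nat_lit 360))) (XT.nd (nat_lit 78) (nat_lit 684) (nat_lit 0) (XT.lf (nat_lit 76) (nat_lit 1932127963) (nat_lit 0) (nat_lit 2209554154) (nat_lit 760) (nat_lit 2543501716) (nat_lit 608) (nat_lit 5) (nat_lit 607) (nat_lit 5) (nat_lit 617) (nat_lit 5) (nat_lit 397) (nat_lit 384) (nat_lit 359)) (XT.nd (nat_lit 78) (nat_lit 684) (nat_lit 0) (XT.lf (nat_lit 76) (nat_lit 5490563262) (nat_lit 0) (nat_lit 1085896834) (nat_lit 760) (nat_lit 134355143) (nat_lit 608) (nat_lit 5) (nat_lit 607) (nat_lit 5) (nat_lit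 617) (nat_lit 5) (nat_lit 398) (nat_lit 384) (nat_lit 358)) (XT.lf (nat_lit 0) (nat_lit 2250797942) (nat_lit 760) (nat_lit 4375762946) (nat_lit 76) (nat_lit 110980662) (nat_lit 598) (nat_lit 5) (nat_lit 608) (nat_lit 5) (nat_lit 599) (nat_lit 5) (nat_lit 399) (nat_lit 384) (nat_lit 357)))))) (XT.nd (nat_lit 390) (nat_lit 3344) (nat_lit 0) (XT.nd (nat_lit 156) (nat_lit 1824) (nat_lit 0) (XT.nd (nat_lit 78) (nat_lit 836) (nat_lit 0) (XT.lf (nat_lit 0) (nat_lit 4640541766) (nat_lit 760) (nat_lit 778449647) (nat_lit 76) (nat_lit 1346668226) (nat_lit 598) (nat_lit 5) (nat_lit 608) (nat_lit 5) (nat_lit 599) (nat_lit 5) (nat_lit 400) (nat_lit 384) (nat_lit 356)) (XT.lf (nat_lit 0) (nat_lit 242866944) (nat_lit 836) (nat_lit 3904914136) (nat_lit 76) (nat_lit 2647312058) (nat_lit 587) (nat_lit 5) (nat_lit 598) (nat_lit 5) (nat_lit 588) (nat_lit 5) (nat_lit 401) (nat_lit 384) (nat_lit 355))) (XT.nd (nat_lit 78) (nat_lit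 1824) (nat_lit 0) (XT.lf (nat_lit 0) (nat_lit 2579848421) (nat_lit 836) (nat_lit 233850952) (nat_lit 76) (nat_lit 4012179081) (nat_lit 587) (nat_lit 5) (nat_lit 598) (nat_lit 5) (nat_lit 588) (nat_lit 5) (nat_lit 402) (nat_lit 384) (nat_lit 354)) (XT.nd (nat_lit 78) (nat_lit 988) (nat_lit 0) (XT.lf (nat_lit 0) (nat_lit 3520070230) (nat_lit 836) (nat_lit 1412243430) (nat_lit 912) (nat_lit 1925635968) (nat_lit 576) (nat_lit 5) (nat_lit 587) (nat_lit 5) (nat_lit 588) (nat_lit 5) (nat_lit 403) (nat_lit 384) (nat_lit 353)) (XT.lf (nat_lit 0) (nat_lit 386316212) (nat_lit 988) (nat_lit 6464810425) (nat_lit 76) (nat_lit 40502859) (nat_lit 563) (nat_lit 5) (nat_lit 576) (nat_lit 5) (nat_lit 564) (nat_lit 5) (nat_lit 404) (nat_lit 384) (nat_lit 352))))) (XT.nd (nat_lit 234) (nat_lit 2280) (nat_lit 0) (XT.nd (nat_lit 78) (nat_lit 1064) (nat_lit 0) (XT.lf (nat_lit 0) (nat_lit 2697879692) (nat_lit 988) (nat_lit 2673933676)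 (nat_lit 76) (nat_lit 1554374331) (nat_lit 563) (nat_lit 5) (nat_lit 576) (nat_lit 5) (nat_lit 564) (nat_lit 5) (nat_lit 405) (nat_lit 384) (nat_lit 351)) (XT.nd (nat_lit 78) (nat_lit 76) (nat_lit 0) (XT.lf (nat_lit 0) (nat_lit 1170660563) (nat_lit 988) (nat_lit 3840881788) (nat_lit 1064) (nat_lit 1950818960) (nat_lit 550) (nat_lit 5) (nat_lit 563) (nat_lit 5) (nat_lit 564) (nat_lit 5) (nat_lit 406) (nat_lit 384) (nat_lit 350)) (XT.lf (nat_lit 0) (nat_lit 334062735) (nat_lit 1064) (nat_lit 1910971796) (nat_lit 76) (nat_lit 4754881026) (nat_lit 549) (nat_lit 5) (nat_lit 563) (nat_lit 5) (nat_lit 550) (nat_lit 5) (nat_lit 407) (nat_lit 384) (nat_lit 349)))) (XT.nd (nat_lit 78) (nat_lit 1216) (nat_lit 0) (XT.lf (nat_lit 0) (nat_lit 2023809438) (nat_lit 1064) (nat_lit 577544378) (nat_lit 1140) (nat_lit 4437391713) (nat_lit 535) (nat_lit 5) (nat_lit 549) (nat_lit 5) (nat_lit 550) (nat_lit 5) (nat_lit 408) (nat_lit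 384) (nat_lit 348)) (XT.nd (nat_lit 78) (nat_lit 1216) (nat_lit 0) (XT.lf (nat_lit 0) (nat_lit 4884690465) (nat_lit 1140) (nat_lit 1060336864) (nat_lit 76) (nat_lit 1133949212) (nat_lit 535) (nat_lit 5) (nat_lit 550) (nat_lit 5) (nat_lit 536) (nat_lit 5) (nat_lit 409) (nat_lit 384) (nat_lit 347)) (XT.lf (nat_lit 0) (nat_lit 66831893) (nat_lit 1216) (nat_lit 4149807618) (nat_lit 76) (nat_lit 2903909862) (nat_lit 519) (nat_lit 5) (nat_lit 535) (nat_lit 5) (nat_lit 520) (nat_lit 5) (nat_lit 410) (nat_lit 384) (nat_lit 346))))))))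
noncomputable def xc110 : XT := (XT.nd (nat_lit 1560) (nat_lit 8512) (nat_lit 0) (XT.nd (nat_lit 780) (nat_lit 7068) (nat_lit 0) (XT.nd (nat_lit 390) (nat_lit 4712) (nat_lit 0) (XT.nd (nat_lit 156) (nat_lit 2736) (nat_lit 0) (XT.nd (nat_lit 78) (nat_lit 1216) (nat_lit 0) (XT.lf (nat_lit 0) (nat_lit 2302807196) (nat_lit 1216) (nat_lit 118313070) (nat_lit 76) (nat_lit 4742399199) (nat_lit 519) (nat_lit 5) (nat_lit 535) (nat_lit 5) (nat_lit 520) (nat_lit 5) (nat_lit 411) (nat_lit 384) (nat_lit 345)) (XT.lf (nat_lit 0) (nat_lit 4009397304) (nat_lit 1216) (nat_lit 552907406) (nat_lit 1292) (nat_lit 2645503705) (nat_lit 503) (nat_lit 5) (nat_lit 519) (nat_lit 5) (nat_lit 520) (nat_lit 5) (nat_lit 412) (nat_lit 384) (nat_lit 344))) (XT.nd (nat_lit 78) (nat_lit 1444) (nat_lit 0) (XT.lf (nat_lit 0) (nat_lit 933976156) (nat_lit 1292) (nat_lit 5902183643) (nat_lit 1368) (nat_lit 417474802) (nat_lit 486) (nat_lit 5)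 (nat_lit 503) (nat_lit 5) (nat_lit 504) (nat_lit 5) (nat_lit 413) (nat_lit 384) (nat_lit 343)) (XT.nd (nat_lit 78) (nat_lit 1368) (nat_lit 0) (XT.lf (nat_lit 0) (nat_lit 1809903886) (nat_lit 1368) (nat_lit 2161611957) (nat_lit 76) (nat_lit 3329071649) (nat_lit 485) (nat_lit 5) (nat_lit 503) (nat_lit 5) (nat_lit 486) (nat_lit 5) (nat_lit 414) (nat_lit 384) (nat_lit 342)) (XT.lf (nat_lit 0) (nat_lit 2066499947) (nat_lit 1368) (nat_lit 1977919952) (nat_lit 1444) (nat_lit 3304673561) (nat_lit 467) (nat_lit 5) (nat_lit 485) (nat_lit 5) (nat_lit 486) (nat_lit 5) (nat_lit 415) (nat_lit 384) (nat_lit 341))))) (XT.nd (nat_lit 156) (nat_lit 3192) (nat_lit 0) (XT.nd (nat_lit 78) (nat_lit 1520) (nat_lit 0) (XT.lf (nat_lit 0) (nat_lit 6294039703) (nat_lit 1444) (nat_lit 1028420081) (nat_lit 76) (nat_lit 76733654) (nat_lit 467) (nat_lit 5) (nat_lit 486) (nat_lit 5) (nat_lit 468) (nat_lit 5) (nat_lit 416) (nat_lit 384)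 (nat_lit 340)) (XT.lf (nat_lit 0) (nat_lit 1114208208) (nat_lit 1520) (nat_lit 4154184779) (nat_lit 76) (nat_lit 2181969892) (nat_lit 447) (nat_lit 5) (nat_lit 467) (nat_lit 5) (nat_lit 448) (nat_lit 5) (nat_lit 417) (nat_lit 384) (nat_lit 339))) (XT.nd (nat_lit 78) (nat_lit 1672) (nat_lit 0) (XT.lf (nat_lit 0) (nat_lit 175962606) (nat_lit 1520) (nat_lit 3151924130) (nat_lit 1596) (nat_lit 4175258630) (nat_lit 427) (nat_lit 5) (nat_lit 447) (nat_lit 5) (nat_lit 448) (nat_lit 5) (nat_lit 418) (nat_lit 384) (nat_lit 338)) (XT.nd (nat_lit 78) (nat_lit 1672) (nat_lit 0) (XT.lf (nat_lit 0) (nat_lit 4611500865) (nat_lit 1520) (nat_lit 959445730) (nat_lit 1596) (nat_lit 1986364464) (nat_lit 427) (nat_lit 5) (nat_lit 447) (nat_lit 5) (nat_lit 448) (nat_lit 5) (nat_lit 419) (nat_lit 384) (nat_lit 337)) (XT.lf (nat_lit 0) (nat_lit 219002122) (nat_lit 1672) (nat_lit 6117665474) (nat_lit 76) (nat_lit 1276370546) (nat_lit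 405) (nat_lit 5) (nat_lit 427) (nat_lit 5) (nat_lit 406) (nat_lit 5) (nat_lit 420) (nat_lit 384) (nat_lit 336)))))) (XT.nd (nat_lit 390) (nat_lit 2660) (nat_lit 0) (XT.nd (nat_lit 156) (nat_lit 2736) (nat_lit 0) (XT.nd (nat_lit 78) (nat_lit 1672) (nat_lit 0) (XT.lf (nat_lit 0) (nat_lit 2426535878) (nat_lit 1672) (nat_lit 1661835259) (nat_lit 76) (nat_lit 3581580886) (nat_lit 405) (nat_lit 5) (nat_lit 427) (nat_lit 5) (nat_lit 406) (nat_lit 5) (nat_lit 421) (nat_lit 384) (nat_lit 335)) (XT.lf (nat_lit 0) (nat_lit 2883655054) (nat_lit 1672) (nat_lit 1772483539) (nat_lit 1748) (nat_lit 3072334669) (nat_lit 383) (nat_lit 5) (nat_lit 405) (nat_lit 5) (nat_lit 406) (nat_lit 5) (nat_lit 422) (nat_lit 384) (nat_lit 334))) (XT.nd (nat_lit 78) (nat_lit 2736) (nat_lit 0) (XT.lf (nat_lit 0) (nat_lit 6905164077) (nat_lit 1748) (nat_lit 287146414) (nat_lit 76) (nat_lit 596384734) (nat_lit 383) (nat_lit 5) (nat_lit 406)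 (nat_lit 5) (nat_lit 384) (nat_lit 5) (nat_lit 423) (nat_lit 384) (nat_lit 333)) (XT.nd (nat_lit 78) (nat_lit 912) (nat_lit 0) (XT.lf (nat_lit 0) (nat_lit 1332010767) (nat_lit 1824) (nat_lit 3488783122) (nat_lit 76) (nat_lit 3029165316) (nat_lit 359) (nat_lit 5) (nat_lit 383) (nat_lit 5) (nat_lit 360) (nat_lit 5) (nat_lit 424) (nat_lit 384) (nat_lit 332)) (XT.lf (nat_lit 0) (nat_lit 1165932370) (nat_lit 912) (nat_lit 2384436836) (nat_lit 988) (nat_lit 4362581094) (nat_lit 347) (nat_lit 5) (nat_lit 359) (nat_lit 5) (nat_lit 360) (nat_lit 5) (nat_lit 425) (nat_lit 384) (nat_lit 331))))) (XT.nd (nat_lit 156) (nat_lit 1672) (nat_lit 0) (XT.nd (nat_lit 78) (nat_lit 988) (nat_lit 0) (XT.lf (nat_lit 0) (nat_lit 5798666646) (nat_lit 988) (nat_lit 2054511653) (nat_lit 76) (nat_lit 124336340) (nat_lit 347) (nat_lit 5) (nat_lit 360) (nat_lit 5) (nat_lit 348) (nat_lit 5) (nat_lit 426) (nat_lit 384) (nat_lit 330)) (XT.lf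 (nat_lit 0) (nat_lit 43393384) (nat_lit 988) (nat_lit 5329374617) (nat_lit 76) (nat_lit 2670710446) (nat_lit 334) (nat_lit 5) (nat_lit 347) (nat_lit 5) (nat_lit 335) (nat_lit 5) (nat_lit 427) (nat_lit 384) (nat_lit 329))) (XT.nd (nat_lit 78) (nat_lit 1672) (nat_lit 0) (XT.lf (nat_lit 0) (nat_lit 2257151253) (nat_lit 988) (nat_lit 556602790) (nat_lit 76) (nat_lit 5297217942) (nat_lit 334) (nat_lit 5) (nat_lit 347) (nat_lit 5) (nat_lit 335) (nat_lit 5) (nat_lit 428) (nat_lit 384) (nat_lit 328)) (XT.nd (nat_lit 78) (nat_lit 836) (nat_lit 0) (XT.lf (nat_lit 0) (nat_lit 4331633343) (nat_lit 836) (nat_lit 174754192) (nat_lit 912) (nat_lit 3673626762) (nat_lit 323) (nat_lit 5) (nat_lit 334) (nat_lit 5) (nat_lit 335) (nat_lit 5) (nat_lit 429) (nat_lit 384) (nat_lit 327)) (XT.lf (nat_lit 0) (nat_lit 1034710266) (nat_lit 836) (nat_lit 5756283509) (nat_lit 912) (nat_lit 1459658493) (nat_lit 312) (nat_lit 5) (nat_lit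 323) (nat_lit 5) (nat_lit 324) (nat_lit 5) (nat_lit 430) (nat_lit 384) (nat_lit 326))))))) (XT.nd (nat_lit 780) (nat_lit 3876) (nat_lit 0) (XT.nd (nat_lit 390) (nat_lit 2204) (nat_lit 0) (XT.nd (nat_lit 156) (nat_lit 1596) (nat_lit 0) (XT.nd (nat_lit 78) (nat_lit 760) (nat_lit 0) (XT.lf (nat_lit 0) (nat_lit 779047497) (nat_lit 912) (nat_lit 2298637780) (nat_lit 76) (nat_lit 5245117026) (nat_lit 311) (nat_lit 5) (nat_lit 323) (nat_lit 5) (nat_lit 312) (nat_lit 5) (nat_lit 431) (nat_lit 384) (nat_lit 325)) (XT.lf (nat_lit 0) (nat_lit 2706005173) (nat_lit 760) (nat_lit 319054270) (nat_lit 836) (nat_lit 5371522614) (nat_lit 301) (nat_lit 5) (nat_lit 311) (nat_lit 5) (nat_lit 312) (nat_lit 5) (nat_lit 432) (nat_lit 384) (nat_lit 324))) (XT.nd (nat_lit 78) (nat_lit 1596) (nat_lit 0) (XT.lf (nat_lit 0) (nat_lit 5312654394) (nat_lit 836) (nat_lit 683229051) (nat_lit 76) (nat_lit 2476041509) (nat_lit 301) (nat_lit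 5) (nat_lit 312) (nat_lit 5) (nat_lit 302) (nat_lit 5) (nat_lit 433) (nat_lit 384) (nat_lit 323)) (XT.nd (nat_lit 78) (nat_lit 836) (nat_lit 0) (XT.lf (nat_lit 0) (nat_lit 4443866225) (nat_lit 760) (nat_lit 3198725952) (nat_lit 836) (nat_lit 906271107) (nat_lit 291) (nat_lit 5) (nat_lit 301) (nat_lit 5) (nat_lit 302) (nat_lit 5) (nat_lit 434) (nat_lit 384) (nat_lit 322)) (XT.lf (nat_lit 0) (nat_lit 1023065035) (nat_lit 760) (nat_lit 327546485) (nat_lit 836) (nat_lit 7277026202) (nat_lit 280) (nat_lit 5) (nat_lit 290) (nat_lit 5) (nat_lit 291) (nat_lit 5) (nat_lit 435) (nat_lit 384) (nat_lit 321))))) (XT.nd (nat_lit 156) (nat_lit 1444) (nat_lit 0) (XT.nd (nat_lit 78) (nat_lit 760) (nat_lit 0) (XT.lf (nat_lit 0) (nat_lit 3651358797) (nat_lit 836) (nat_lit 2458411782) (nat_lit 76) (nat_lit 2597899239) (nat_lit 280) (nat_lit 5) (nat_lit 291) (nat_lit 5) (nat_lit 281) (nat_lit 5) (nat_lit 436) (nat_lit 384) (nat_lit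 320)) (XT.lf (nat_lit 0) (nat_lit 2788570123) (nat_lit 760) (nat_lit 3196721128) (nat_lit 836) (nat_lit 2804286742) (nat_lit 270) (nat_lit 5) (nat_lit 280) (nat_lit 5) (nat_lit 281) (nat_lit 5) (nat_lit 437) (nat_lit 384) (nat_lit 319))) (XT.nd (nat_lit 78) (nat_lit 1444) (nat_lit 0) (XT.lf (nat_lit 0) (nat_lit 8137550620) (nat_lit 760) (nat_lit 212158417) (nat_lit 836) (nat_lit 523757633) (nat_lit 270) (nat_lit 5) (nat_lit 280) (nat_lit 5) (nat_lit 281) (nat_lit 5) (nat_lit 438) (nat_lit 384) (nat_lit 318)) (XT.nd (nat_lit 78) (nat_lit 684) (nat_lit 0) (XT.lf (nat_lit 0) (nat_lit 1795280975) (nat_lit 760) (nat_lit 4329769877) (nat_lit 76) (nat_lit 2833435229) (nat_lit 260) (nat_lit 5) (nat_lit 270) (nat_lit 5) (nat_lit 261) (nat_lit 5) (nat_lit 439) (nat_lit 384) (nat_lit 317)) (XT.lf (nat_lit 0) (nat_lit 1037820385) (nat_lit 684) (nat_lit 3097083561) (nat_lit 760) (nat_lit 4910625766) (nat_lit 251) (nat_lit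 5) (nat_lit 260) (nat_lit 5) (nat_lit 261) (nat_lit 5) (nat_lit 440) (nat_lit 384) (nat_lit 316)))))) (XT.nd (nat_lit 390) (nat_lit 1900) (nat_lit 0) (XT.nd (nat_lit 156) (nat_lit 1368) (nat_lit 0) (XT.nd (nat_lit 78) (nat_lit 608) (nat_lit 0) (XT.lf (nat_lit 0) (nat_lit 6518967791) (nat_lit 760) (nat_lit 2599188141) (nat_lit 76) (nat_lit 16222383) (nat_lit 251) (nat_lit 5) (nat_lit 261) (nat_lit 5) (nat_lit 252) (nat_lit 5) (nat_lit 441) (nat_lit 384) (nat_lit 315)) (XT.lf (nat_lit 0) (nat_lit 2898962626) (nat_lit 608) (nat_lit 6060157777) (nat_lit 684) (nat_lit 265732064) (nat_lit 243) (nat_lit 5) (nat_lit 251) (nat_lit 5) (nat_lit 252) (nat_lit 5) (nat_lit 442) (nat_lit 384) (nat_lit 314))) (XT.nd (nat_lit 78) (nat_lit 1292) (nat_lit 0) (XT.lf (nat_lit 0) (nat_lit 2089780083) (nat_lit 684) (nat_lit 824667753) (nat_lit 76) (nat_lit 6402691885) (nat_lit 242) (nat_lit 5) (nat_lit 251) (nat_lit 5) (nat_lit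 243) (nat_lit 5) (nat_lit 443) (nat_lit 384) (nat_lit 313)) (XT.nd (nat_lit 78) (nat_lit 608) (nat_lit 0) (XT.lf (nat_lit 0) (nat_lit 4492020414) (nat_lit 760) (nat_lit 4600918954) (nat_lit 76) (nat_lit 318250466) (nat_lit 233) (nat_lit 5) (nat_lit 243) (nat_lit 5) (nat_lit 234) (nat_lit 5) (nat_lit 444) (nat_lit 384) (nat_lit 312)) (XT.lf (nat_lit 0) (nat_lit 1020249552) (nat_lit 608) (nat_lit 5923712092) (nat_lit 684) (nat_lit 2563141641) (nat_lit 225) (nat_lit 5) (nat_lit 233) (nat_lit 5) (nat_lit 234) (nat_lit 5) (nat_lit 445) (nat_lit 384) (nat_lit 311))))) (XT.nd (nat_lit 234) (nat_lit 1216) (nat_lit 0) (XT.nd (nat_lit 78) (nat_lit 684) (nat_lit 0) (XT.lf (nat_lit 0) (nat_lit 6780573903) (nat_lit 608) (nat_lit 2665756486) (nat_lit 684) (nat_lit 158591994) (nat_lit 225) (nat_lit 5) (nat_lit 233) (nat_lit 5) (nat_lit 234) (nat_lit 5) (nat_lit 446) (nat_lit 384) (nat_lit 310)) (XT.nd (nat_lit 78) (nat_lit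 0) (nat_lit 0) (XT.lf (nat_lit 0) (nat_lit 2258387260) (nat_lit 684) (nat_lit 6769337199) (nat_lit 76) (nat_lit 676801571) (nat_lit 216) (nat_lit 5) (nat_lit 225) (nat_lit 5) (nat_lit 217) (nat_lit 5) (nat_lit 447) (nat_lit 384) (nat_lit 309)) (XT.lf (nat_lit 0) (nat_lit 4729504907) (nat_lit 684) (nat_lit 1012023878) (nat_lit 76) (nat_lit 4064427833) (nat_lit 216) (nat_lit 5) (nat_lit 225) (nat_lit 5) (nat_lit 217) (nat_lit 5) (nat_lit 448) (nat_lit 384) (nat_lit 308)))) (XT.nd (nat_lit 78) (nat_lit 684) (nat_lit 0) (XT.lf (nat_lit 0) (nat_lit 4889609848) (nat_lit 532) (nat_lit 2363934561) (nat_lit 608) (nat_lit 2655815417) (nat_lit 209) (nat_lit 5) (nat_lit 216) (nat_lit 5) (nat_lit 217) (nat_lit 5) (nat_lit 449) (nat_lit 384) (nat_lit 307)) (XT.nd (nat_lit 78) (nat_lit 76) (nat_lit 0) (XT.lf (nat_lit 0) (nat_lit 877490830) (nat_lit 608) (nat_lit 8942164395) (nat_lit 684) (nat_lit 195357788) (nat_lit 201)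 (nat_lit 5) (nat_lit 209) (nat_lit 5) (nat_lit 210) (nat_lit 5) (nat_lit 450) (nat_lit 384) (nat_lit 306)) (XT.lf (nat_lit 0) (nat_lit 2305681575) (nat_lit 684) (nat_lit 3227692534) (nat_lit 76) (nat_lit 4588683322) (nat_lit 200) (nat_lit 5) (nat_lit 209) (nat_lit 5) (nat_lit 201) (nat_lit 5) (nat_lit 451) (nat_lit 384) (nat_lit 305))))))))
noncomputable def xc111 : XT := (XT.nd (nat_lit 1638) (nat_lit 4104) (nat_lit 0) (XT.nd (nat_lit 780) (nat_lit 2736) (nat_lit 0) (XT.nd (nat_lit 390) (nat_lit 1520) (nat_lit 0) (XT.nd (nat_lit 156) (nat_lit 1140) (nat_lit 0) (XT.nd (nat_lit 78) (nat_lit 0) (nat_lit 0) (XT.lf (nat_lit 0) (nat_lit 2801067475) (nat_lit 532) (nat_lit 2043954812) (nat_lit 608) (nat_lit 5386389631) (nat_lit 193) (nat_lit 5) (nat_lit 200) (nat_lit 5) (nat_lit 201) (nat_lit 5) (nat_lit 452) (nat_lit 384) (nat_lit 304)) (XT.lf (nat_lit 0) (nat_lit 7439760949) (nat_lit 608) (nat_lit 1393331103)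 (nat_lit 76) (nat_lit 1509781899) (nat_lit 193) (nat_lit 5) (nat_lit 201) (nat_lit 5) (nat_lit 194) (nat_lit 5) (nat_lit 453) (nat_lit 384) (nat_lit 303))) (XT.nd (nat_lit 78) (nat_lit 608) (nat_lit 0) (XT.lf (nat_lit 0) (nat_lit 4779269079) (nat_lit 532) (nat_lit 5325191763) (nat_lit 608) (nat_lit 351755486) (nat_lit 186) (nat_lit 5) (nat_lit 193) (nat_lit 5) (nat_lit 194) (nat_lit 5) (nat_lit 454) (nat_lit 384) (nat_lit 302)) (XT.nd (nat_lit 78) (nat_lit 0) (nat_lit 0) (XT.lf (nat_lit 0) (nat_lit 479751972) (nat_lit 532) (nat_lit 1727499559) (nat_lit 608) (nat_lit 8364570923) (nat_lit 178) (nat_lit 5) (nat_lit 185) (nat_lit 5) (nat_lit 186) (nat_lit 5) (nat_lit 455) (nat_lit 384) (nat_lit 301)) (XT.lf (nat_lit 0) (nat_lit 4837545952) (nat_lit 608) (nat_lit 3902322145) (nat_lit 76) (nat_lit 1949341473) (nat_lit 178) (nat_lit 5) (nat_lit 186) (nat_lit 5) (nat_lit 179) (nat_lit 5) (nat_lit 456) (nat_lit 384)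 (nat_lit 300))))) (XT.nd (nat_lit 156) (nat_lit 988) (nat_lit 0) (XT.nd (nat_lit 78) (nat_lit 0) (nat_lit 0) (XT.lf (nat_lit 0) (nat_lit 2397211263) (nat_lit 532) (nat_lit 5124607884) (nat_lit 608) (nat_lit 3287109307) (nat_lit 171) (nat_lit 5) (nat_lit 178) (nat_lit 5) (nat_lit 179) (nat_lit 5) (nat_lit 457) (nat_lit 384) (nat_lit 299)) (XT.lf (nat_lit 0) (nat_lit 8841846731) (nat_lit 532) (nat_lit 1418769142) (nat_lit 608) (nat_lit 670420341) (nat_lit 171) (nat_lit 5) (nat_lit 178) (nat_lit 5) (nat_lit 179) (nat_lit 5) (nat_lit 458) (nat_lit 384) (nat_lit 298))) (XT.nd (nat_lit 78) (nat_lit 456) (nat_lit 0) (XT.lf (nat_lit 0) (nat_lit 1991290096) (nat_lit 532) (nat_lit 6700151825) (nat_lit 76) (nat_lit 2363517512) (nat_lit 164) (nat_lit 5) (nat_lit 171) (nat_lit 5) (nat_lit 165) (nat_lit 5) (nat_lit 459) (nat_lit 384) (nat_lit 297)) (XT.nd (nat_lit 78) (nat_lit 456) (nat_lit 0) (XT.lf (nat_lit 0) (nat_lit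 4695967141) (nat_lit 532) (nat_lit 272701999) (nat_lit 76) (nat_lit 6212639769) (nat_lit 164) (nat_lit 5) (nat_lit 171) (nat_lit 5) (nat_lit 165) (nat_lit 5) (nat_lit 460) (nat_lit 384) (nat_lit 296)) (XT.lf (nat_lit 0) (nat_lit 6333323324) (nat_lit 456) (nat_lit 1138213662) (nat_lit 532) (nat_lit 3838322806) (nat_lit 158) (nat_lit 5) (nat_lit 164) (nat_lit 5) (nat_lit 165) (nat_lit 5) (nat_lit 461) (nat_lit 384) (nat_lit 295)))))) (XT.nd (nat_lit 390) (nat_lit 1368) (nat_lit 0) (XT.nd (nat_lit 156) (nat_lit 836) (nat_lit 0) (XT.nd (nat_lit 78) (nat_lit 76) (nat_lit 0) (XT.lf (nat_lit 0) (nat_lit 1604014936) (nat_lit 456) (nat_lit 8704722967) (nat_lit 532) (nat_lit 1132131593) (nat_lit 152) (nat_lit 5) (nat_lit 158) (nat_lit 5) (nat_lit 159) (nat_lit 5) (nat_lit 462) (nat_lit 384) (nat_lit 294)) (XT.lf (nat_lit 0) (nat_lit 1623960227) (nat_lit 532) (nat_lit 3241889678) (nat_lit 76) (nat_lit 6708105255) (nat_lit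 151) (nat_lit 5) (nat_lit 158) (nat_lit 5) (nat_lit 152) (nat_lit 5) (nat_lit 463) (nat_lit 384) (nat_lit 293))) (XT.nd (nat_lit 78) (nat_lit 380) (nat_lit 0) (XT.lf (nat_lit 0) (nat_lit 3490546706) (nat_lit 456) (nat_lit 928592624) (nat_lit 532) (nat_lit 7290440653) (nat_lit 145) (nat_lit 5) (nat_lit 151) (nat_lit 5) (nat_lit 152) (nat_lit 5) (nat_lit 464) (nat_lit 384) (nat_lit 292)) (XT.nd (nat_lit 78) (nat_lit 380) (nat_lit 0) (XT.lf (nat_lit 0) (nat_lit 7288805115) (nat_lit 532) (nat_lit 1499005263) (nat_lit 76) (nat_lit 3059744685) (nat_lit 145) (nat_lit 5) (nat_lit 152) (nat_lit 5) (nat_lit 146) (nat_lit 5) (nat_lit 465) (nat_lit 384) (nat_lit 291)) (XT.lf (nat_lit 0) (nat_lit 5387669278) (nat_lit 380) (nat_lit 4846421671) (nat_lit 456) (nat_lit 1753843397) (nat_lit 140) (nat_lit 5) (nat_lit 145) (nat_lit 5) (nat_lit 146) (nat_lit 5) (nat_lit 466) (nat_lit 384) (nat_lit 290))))) (XT.nd (nat_lit 234)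 (nat_lit 456) (nat_lit 0) (XT.nd (nat_lit 78) (nat_lit 380) (nat_lit 0) (XT.lf (nat_lit 0) (nat_lit 265337030) (nat_lit 456) (nat_lit 816330860) (nat_lit 532) (nat_lit 11049537889) (nat_lit 133) (nat_lit 5) (nat_lit 139) (nat_lit 5) (nat_lit 140) (nat_lit 5) (nat_lit 467) (nat_lit 384) (nat_lit 289)) (XT.nd (nat_lit 78) (nat_lit 380) (nat_lit 0) (XT.lf (nat_lit 0) (nat_lit 3993756496) (nat_lit 532) (nat_lit 4984584532) (nat_lit 76) (nat_lit 3297911438) (nat_lit 133) (nat_lit 5) (nat_lit 140) (nat_lit 5) (nat_lit 134) (nat_lit 5) (nat_lit 468) (nat_lit 384) (nat_lit 288)) (XT.lf (nat_lit 0) (nat_lit 2023546758) (nat_lit 380) (nat_lit 4936883849) (nat_lit 456) (nat_lit 5463851139) (nat_lit 128) (nat_lit 5) (nat_lit 133) (nat_lit 5) (nat_lit 134) (nat_lit 5) (nat_lit 469) (nat_lit 384) (nat_lit 287)))) (XT.nd (nat_lit 78) (nat_lit 456) (nat_lit 0) (XT.lf (nat_lit 0) (nat_lit 9207706348) (nat_lit 380) (nat_lit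 790209876) (nat_lit 456) (nat_lit 2577134192) (nat_lit 128) (nat_lit 5) (nat_lit 133) (nat_lit 5) (nat_lit 134) (nat_lit 5) (nat_lit 470) (nat_lit 384) (nat_lit 286)) (XT.nd (nat_lit 78) (nat_lit 0) (nat_lit 0) (XT.lf (nat_lit 0) (nat_lit 388078771) (nat_lit 456) (nat_lit 8928086346) (nat_lit 76) (nat_lit 3412118104) (nat_lit 122) (nat_lit 5) (nat_lit 128) (nat_lit 5) (nat_lit 123) (nat_lit 5) (nat_lit 471) (nat_lit 384) (nat_lit 285)) (XT.lf (nat_lit 0) (nat_lit 3384568751) (nat_lit 456) (nat_lit 1781389030) (nat_lit 76) (nat_lit 7718160477) (nat_lit 122) (nat_lit 5) (nat_lit 128) (nat_lit 5) (nat_lit 123) (nat_lit 5) (nat_lit 472) (nat_lit 384) (nat_lit 284))))))) (XT.nd (nat_lit 780) (nat_lit 1900) (nat_lit 0) (XT.nd (nat_lit 390) (nat_lit 1064) (nat_lit 0) (XT.nd (nat_lit 156) (nat_lit 760) (nat_lit 0) (XT.nd (nat_lit 78) (nat_lit 0) (nat_lit 0) (XT.lf (nat_lit 0) (nat_lit 5550107183) (nat_lit 380) (nat_lit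 905807352) (nat_lit 456) (nat_lit 6586864669) (nat_lit 117) (nat_lit 5) (nat_lit 122) (nat_lit 5) (nat_lit 123) (nat_lit 5) (nat_lit 473) (nat_lit 384) (nat_lit 283)) (XT.lf (nat_lit 0) (nat_lit 9602093928) (nat_lit 456) (nat_lit 205488654) (nat_lit 76) (nat_lit 3396770230) (nat_lit 117) (nat_lit 5) (nat_lit 123) (nat_lit 5) (nat_lit 118) (nat_lit 5) (nat_lit 474) (nat_lit 384) (nat_lit 282))) (XT.nd (nat_lit 78) (nat_lit 380) (nat_lit 0) (XT.lf (nat_lit 0) (nat_lit 7286529384) (nat_lit 380) (nat_lit 5557427831) (nat_lit 456) (nat_lit 524552899) (nat_lit 112) (nat_lit 5) (nat_lit 117) (nat_lit 5) (nat_lit 118) (nat_lit 5) (nat_lit 475) (nat_lit 384) (nat_lit 281)) (XT.nd (nat_lit 78) (nat_lit 0) (nat_lit 0) (XT.lf (nat_lit 0) (nat_lit 1365621807) (nat_lit 304) (nat_lit 1204564670) (nat_lit 380) (nat_lit 10965636265) (nat_lit 107) (nat_lit 5) (nat_lit 111) (nat_lit 5) (nat_lit 112) (nat_lit 5) (nat_lit 476)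 (nat_lit 384) (nat_lit 280)) (XT.lf (nat_lit 0) (nat_lit 5761549289) (nat_lit 380) (nat_lit 4716495762) (nat_lit 76) (nat_lit 3227539178) (nat_lit 107) (nat_lit 5) (nat_lit 112) (nat_lit 5) (nat_lit 108) (nat_lit 5) (nat_lit 477) (nat_lit 384) (nat_lit 279))))) (XT.nd (nat_lit 156) (nat_lit 684) (nat_lit 0) (XT.nd (nat_lit 78) (nat_lit 0) (nat_lit 0) (XT.lf (nat_lit 0) (nat_lit 2886059982) (nat_lit 380) (nat_lit 6137449927) (nat_lit 456) (nat_lit 4855102488) (nat_lit 102) (nat_lit 5) (nat_lit 107) (nat_lit 5) (nat_lit 108) (nat_lit 5) (nat_lit 478) (nat_lit 384) (nat_lit 278)) (XT.lf (nat_lit 0) (nat_lit 10674700715) (nat_lit 380) (nat_lit 1687911234) (nat_lit 456) (nat_lit 1692257865) (nat_lit 102) (nat_lit 5) (nat_lit 107) (nat_lit 5) (nat_lit 108) (nat_lit 5) (nat_lit 479) (nat_lit 384) (nat_lit 277))) (XT.nd (nat_lit 78) (nat_lit 304) (nat_lit 0) (XT.lf (nat_lit 0) (nat_lit 1541514464) (nat_lit 380)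 (nat_lit 9850309619) (nat_lit 76) (nat_lit 2842079839) (nat_lit 97) (nat_lit 5) (nat_lit 102) (nat_lit 5) (nat_lit 98) (nat_lit 5) (nat_lit 480) (nat_lit 384) (nat_lit 276)) (XT.nd (nat_lit 78) (nat_lit 304) (nat_lit 0) (XT.lf (nat_lit 0) (nat_lit 4831965800) (nat_lit 380) (nat_lit 2119859576) (nat_lit 76) (nat_lit 7464182702) (nat_lit 97) (nat_lit 5) (nat_lit 102) (nat_lit 5) (nat_lit 98) (nat_lit 5) (nat_lit 481) (nat_lit 384) (nat_lit 275)) (XT.lf (nat_lit 0) (nat_lit 5812300270) (nat_lit 304) (nat_lit 2394673556) (nat_lit 380) (nat_lit 6394411754) (nat_lit 93) (nat_lit 5) (nat_lit 97) (nat_lit 5) (nat_lit 98) (nat_lit 5) (nat_lit 482) (nat_lit 384) (nat_lit 274)))))) (XT.nd (nat_lit 390) (nat_lit 988) (nat_lit 0) (XT.nd (nat_lit 156) (nat_lit 532) (nat_lit 0) (XT.nd (nat_lit 78) (nat_lit 380) (nat_lit 0) (XT.lf (nat_lit 0) (nat_lit 11659562639) (nat_lit 380) (nat_lit 902327111) (nat_lit 76) (nat_lit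 2228385364) (nat_lit 93) (nat_lit 5) (nat_lit 98) (nat_lit 5) (nat_lit 94) (nat_lit 5) (nat_lit 483) (nat_lit 384) (nat_lit 273)) (XT.lf (nat_lit 0) (nat_lit 239999150) (nat_lit 380) (nat_lit 7791694822) (nat_lit 76) (nat_lit 6950341807) (nat_lit 88) (nat_lit 5) (nat_lit 93) (nat_lit 5) (nat_lit 89) (nat_lit 5) (nat_lit 484) (nat_lit 384) (nat_lit 272))) (XT.nd (nat_lit 78) (nat_lit 228) (nat_lit 0) (XT.lf (nat_lit 0) (nat_lit 233125297) (nat_lit 304) (nat_lit 3392277166) (nat_lit 380) (nat_lit 11552037104) (nat_lit 84) (nat_lit 5) (nat_lit 88) (nat_lit 5) (nat_lit 89) (nat_lit 5) (nat_lit 485) (nat_lit 384) (nat_lit 271)) (XT.nd (nat_lit 78) (nat_lit 228) (nat_lit 0) (XT.lf (nat_lit 0) (nat_lit 7121505545) (nat_lit 380) (nat_lit 6889548657) (nat_lit 76) (nat_lit 1364843023) (nat_lit 84) (nat_lit 5) (nat_lit 89) (nat_lit 5) (nat_lit 85) (nat_lit 5) (nat_lit 486) (nat_lit 384) (nat_lit 270)) (XT.lf (nat_lit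 0) (nat_lit 1292506867) (nat_lit 228) (nat_lit 9407900028) (nat_lit 304) (nat_lit 4877665138) (nat_lit 81) (nat_lit 5) (nat_lit 84) (nat_lit 5) (nat_lit 85) (nat_lit 5) (nat_lit 487) (nat_lit 384) (nat_lit 269))))) (XT.nd (nat_lit 234) (nat_lit 608) (nat_lit 0) (XT.nd (nat_lit 78) (nat_lit 380) (nat_lit 0) (XT.lf (nat_lit 0) (nat_lit 9703487825) (nat_lit 228) (nat_lit 4675820017) (nat_lit 304) (nat_lit 1404419475) (nat_lit 81) (nat_lit 5) (nat_lit 84) (nat_lit 5) (nat_lit 85) (nat_lit 5) (nat_lit 488) (nat_lit 384) (nat_lit 268)) (XT.nd (nat_lit 78) (nat_lit 0) (nat_lit 0) (XT.lf (nat_lit 0) (nat_lit 2108554075) (nat_lit 380) (nat_lit 13716997794) (nat_lit 76) (nat_lit 167705234) (nat_lit 76) (nat_lit 5) (nat_lit 81) (nat_lit 5) (nat_lit 77) (nat_lit 5) (nat_lit 489) (nat_lit 384) (nat_lit 267)) (XT.lf (nat_lit 0) (nat_lit 5727553752) (nat_lit 380) (nat_lit 5392288326) (nat_lit 76) (nat_lit 5085863404) (nat_lit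 76) (nat_lit 5) (nat_lit 81) (nat_lit 5) (nat_lit 77) (nat_lit 5) (nat_lit 490) (nat_lit 384) (nat_lit 266)))) (XT.nd (nat_lit 78) (nat_lit 380) (nat_lit 0) (XT.lf (nat_lit 0) (nat_lit 3112384307) (nat_lit 228) (nat_lit 6309616329) (nat_lit 304) (nat_lit 7000345848) (nat_lit 73) (nat_lit 5) (nat_lit 76) (nat_lit 5) (nat_lit 77) (nat_lit 5) (nat_lit 491) (nat_lit 384) (nat_lit 265)) (XT.nd (nat_lit 78) (nat_lit 380) (nat_lit 0) (XT.lf (nat_lit 0) (nat_lit 11833073718) (nat_lit 228) (nat_lit 1376467062) (nat_lit 304) (nat_lit 3433400342) (nat_lit 73) (nat_lit 5) (nat_lit 76) (nat_lit 5) (nat_lit 77) (nat_lit 5) (nat_lit 492) (nat_lit 384) (nat_lit 264)) (XT.lf (nat_lit 0) (nat_lit 234488025) (nat_lit 380) (nat_lit 13008640458) (nat_lit 76) (nat_lit 3624151454) (nat_lit 68) (nat_lit 5) (nat_lit 73) (nat_lit 5) (nat_lit 69) (nat_lit 5) (nat_lit 493) (nat_lit 384) (nat_lit 263))))))))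
noncomputable def xc112 : XT := (XT.nd (nat_lit 51636) (nat_lit 0) (nat_lit 31616) (XT.nd (nat_lit 50856) (nat_lit 0) (nat_lit 42864) (XT.nd (nat_lit 390) (nat_lit 760) (nat_lit 0) (XT.nd (nat_lit 156) (nat_lit 304) (nat_lit 0) (XT.nd (nat_lit 78) (nat_lit 228) (nat_lit 0) (XT.lf (nat_lit 0) (nat_lit 3954737217) (nat_lit 380) (nat_lit 4388771509) (nat_lit 76) (nat_lit 8751648000) (nat_lit 68) (nat_lit 5) (nat_lit 73) (nat_lit 5) (nat_lit 69) (nat_lit 5) (nat_lit 494) (nat_lit 384) (nat_lit 262)) (XT.lf (nat_lit 0) (nat_lit 4435232457) (nat_lit 228) (nat_lit 3326609466) (nat_lit 304) (nat_lit 9565504644) (nat_lit 65) (nat_lit 5) (nat_lit 68) (nat_lit 5) (nat_lit 69) (nat_lit 5) (nat_lit 495) (nat_lit 384) (nat_lit 261))) (XT.nd (nat_lit 78) (nat_lit 304) (nat_lit 0) (XT.lf (nat_lit 0) (nat_lit 11670099438) (nat_lit 304) (nat_lit 4106725087) (nat_lit 76) (nat_lit 1786859906) (nat_lit 65) (nat_lit 5) (nat_lit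 69) (nat_lit 5) (nat_lit 66) (nat_lit 5) (nat_lit 496) (nat_lit 384) (nat_lit 260)) (XT.nd (nat_lit 78) (nat_lit 76) (nat_lit 0) (XT.lf (nat_lit 0) (nat_lit 4870214563) (nat_lit 228) (nat_lit 10824016340) (nat_lit 304) (nat_lit 2109768326) (nat_lit 62) (nat_lit 5) (nat_lit 65) (nat_lit 5) (nat_lit 66) (nat_lit 5) (nat_lit 497) (nat_lit 384) (nat_lit 259)) (XT.lf (nat_lit 0) (nat_lit 1738611189) (nat_lit 304) (nat_lit 4003796169) (nat_lit 76) (nat_lit 12306253250) (nat_lit 61) (nat_lit 5) (nat_lit 65) (nat_lit 5) (nat_lit 62) (nat_lit 5) (nat_lit 498) (nat_lit 384) (nat_lit 258))))) (XT.nd (nat_lit 156) (nat_lit 532) (nat_lit 0) (XT.nd (nat_lit 78) (nat_lit 0) (nat_lit 0) (XT.lf (nat_lit 0) (nat_lit 5132600907) (nat_lit 228) (nat_lit 520863811) (nat_lit 304) (nat_lit 12644120563) (nat_lit 58) (nat_lit 5) (nat_lit 61) (nat_lit 5) (nat_lit 62) (nat_lit 5) (nat_lit 499) (nat_lit 384) (nat_lit 257)) (XT.lf (nat_lit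 0) (nat_lit 9689341078) (nat_lit 304) (nat_lit 4101943491) (nat_lit 76) (nat_lit 4759353384) (nat_lit 58) (nat_lit 5) (nat_lit 62) (nat_lit 5) (nat_lit 59) (nat_lit 5) (nat_lit 500) (nat_lit 384) (nat_lit 256))) (XT.nd (nat_lit 78) (nat_lit 304) (nat_lit 0) (XT.lf (nat_lit 0) (nat_lit 5181755756) (nat_lit 228) (nat_lit 8646058585) (nat_lit 304) (nat_lit 4980503691) (nat_lit 55) (nat_lit 5) (nat_lit 58) (nat_lit 5) (nat_lit 59) (nat_lit 5) (nat_lit 501) (nat_lit 384) (nat_lit 255)) (XT.nd (nat_lit 78) (nat_lit 304) (nat_lit 0) (XT.lf (nat_lit 0) (nat_lit 14681784445) (nat_lit 228) (nat_lit 3379721703) (nat_lit 304) (nat_lit 1009400448) (nat_lit 55) (nat_lit 5) (nat_lit 58) (nat_lit 5) (nat_lit 59) (nat_lit 5) (nat_lit 502) (nat_lit 384) (nat_lit 254)) (XT.lf (nat_lit 0) (nat_lit 3032394629) (nat_lit 304) (nat_lit 14296255989) (nat_lit 76) (nat_lit 2009082035) (nat_lit 51) (nat_lit 5) (nat_lit 55) (nat_lit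 5) (nat_lit 52) (nat_lit 5) (nat_lit 503) (nat_lit 384) (nat_lit 253)))))) (XT.nd (nat_lit 390) (nat_lit 1064) (nat_lit 0) (XT.nd (nat_lit 156) (nat_lit 532) (nat_lit 0) (XT.nd (nat_lit 78) (nat_lit 0) (nat_lit 0) (XT.lf (nat_lit 0) (nat_lit 623461452) (nat_lit 0) (nat_lit 623461452) (nat_lit 380) (nat_lit 1998590073) (nat_lit 636) (nat_lit 5) (nat_lit 636) (nat_lit 3) (nat_lit 641) (nat_lit 3) (nat_lit 385) (nat_lit 385) (nat_lit 370)) (XT.lf (nat_lit 0) (nat_lit 4341942749) (nat_lit 0) (nat_lit 771569375) (nat_lit 380) (nat_lit 1387927408) (nat_lit 636) (nat_lit 5) (nat_lit 636) (nat_lit 3) (nat_lit 641) (nat_lit 3) (nat_lit 386) (nat_lit 385) (nat_lit 369))) (XT.nd (nat_lit 78) (nat_lit 0) (nat_lit 76) (XT.lf (nat_lit 76) (nat_lit 956063464) (nat_lit 0) (nat_lit 238373263) (nat_lit 532) (nat_lit 5318773628) (nat_lit 630) (nat_lit 5) (nat_lit 629) (nat_lit 3) (nat_lit 636) (nat_lit 5) (nat_lit 387) (nat_lit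 385) (nat_lit 368)) (XT.nd (nat_lit 78) (nat_lit 0) (nat_lit 0) (XT.lf (nat_lit 0) (nat_lit 3759204254) (nat_lit 456) (nat_lit 2409395554) (nat_lit 532) (nat_lit 357512099) (nat_lit 630) (nat_lit 5) (nat_lit 636) (nat_lit 5) (nat_lit 637) (nat_lit 5) (nat_lit 388) (nat_lit 385) (nat_lit 367)) (XT.lf (nat_lit 76) (nat_lit 774194420) (nat_lit 0) (nat_lit 5541748836) (nat_lit 532) (nat_lit 224579028) (nat_lit 631) (nat_lit 5) (nat_lit 630) (nat_lit 5) (nat_lit 637) (nat_lit 5) (nat_lit 389) (nat_lit 385) (nat_lit 366))))) (XT.nd (nat_lit 156) (nat_lit 608) (nat_lit 0) (XT.nd (nat_lit 78) (nat_lit 0) (nat_lit 0) (XT.lf (nat_lit 0) (nat_lit 2288448613) (nat_lit 532) (nat_lit 2552653934) (nat_lit 608) (nat_lit 1714854232) (nat_lit 623) (nat_lit 5) (nat_lit 630) (nat_lit 5) (nat_lit 631) (nat_lit 5) (nat_lit 390) (nat_lit 385) (nat_lit 365)) (XT.lf (nat_lit 76) (nat_lit 697277545) (nat_lit 0) (nat_lit 4091905308)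 (nat_lit 608) (nat_lit 1783738968) (nat_lit 624) (nat_lit 5) (nat_lit 623) (nat_lit 5) (nat_lit 631) (nat_lit 5) (nat_lit 391) (nat_lit 385) (nat_lit 364))) (XT.nd (nat_lit 78) (nat_lit 0) (nat_lit 0) (XT.lf (nat_lit 0) (nat_lit 693589464) (nat_lit 608) (nat_lit 2584396417) (nat_lit 684) (nat_lit 3313126857) (nat_lit 615) (nat_lit 5) (nat_lit 623) (nat_lit 5) (nat_lit 624) (nat_lit 5) (nat_lit 392) (nat_lit 385) (nat_lit 363)) (XT.nd (nat_lit 78) (nat_lit 0) (nat_lit 0) (XT.lf (nat_lit 76) (nat_lit 734872754) (nat_lit 0) (nat_lit 2404219957) (nat_lit 684) (nat_lit 3471545815) (nat_lit 616) (nat_lit 5) (nat_lit 615) (nat_lit 5) (nat_lit 624) (nat_lit 5) (nat_lit 393) (nat_lit 385) (nat_lit 362)) (XT.lf (nat_lit 76) (nat_lit 4120165089) (nat_lit 0) (nat_lit 1469393891) (nat_lit 684) (nat_lit 1041930782) (nat_lit 616) (nat_lit 5) (nat_lit 615) (nat_lit 5) (nat_lit 624) (nat_lit 5) (nat_lit 394) (nat_lit 385)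 (nat_lit 361))))))) (XT.nd (nat_lit 780) (nat_lit 8208) (nat_lit 0) (XT.nd (nat_lit 390) (nat_lit 1672) (nat_lit 0) (XT.nd (nat_lit 156) (nat_lit 684) (nat_lit 0) (XT.nd (nat_lit 78) (nat_lit 0) (nat_lit 76) (XT.lf (nat_lit 76) (nat_lit 887156453) (nat_lit 0) (nat_lit 475503027) (nat_lit 760) (nat_lit 5291061457) (nat_lit 607) (nat_lit 5) (nat_lit 606) (nat_lit 5) (nat_lit 616) (nat_lit 5) (nat_lit 395) (nat_lit 385) (nat_lit 360)) (XT.lf (nat_lit 0) (nat_lit 3762436982) (nat_lit 684) (nat_lit 2335644122) (nat_lit 760) (nat_lit 579009714) (nat_lit 607) (nat_lit 5) (nat_lit 616) (nat_lit 5) (nat_lit 617) (nat_lit 5) (nat_lit 396) (nat_lit 385) (nat_lit 359))) (XT.nd (nat_lit 78) (nat_lit 760) (nat_lit 0) (XT.lf (nat_lit 76) (nat_lit 1139686225) (nat_lit 0) (nat_lit 5022812778) (nat_lit 760) (nat_lit 539435043) (nat_lit 608) (nat_lit 5) (nat_lit 607) (nat_lit 5) (nat_lit 617) (nat_lit 5) (nat_lit 397) (nat_lit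 385) (nat_lit 358)) (XT.nd (nat_lit 78) (nat_lit 0) (nat_lit 0) (XT.lf (nat_lit 0) (nat_lit 1816586264) (nat_lit 760) (nat_lit 2059695849) (nat_lit 836) (nat_lit 2851637237) (nat_lit 597) (nat_lit 5) (nat_lit 607) (nat_lit 5) (nat_lit 608) (nat_lit 5) (nat_lit 398) (nat_lit 385) (nat_lit 357)) (XT.lf (nat_lit 76) (nat_lit 1493046438) (nat_lit 0) (nat_lit 2672512657) (nat_lit 836) (nat_lit 2589781616) (nat_lit 598) (nat_lit 5) (nat_lit 597) (nat_lit 5) (nat_lit 608) (nat_lit 5) (nat_lit 399) (nat_lit 385) (nat_lit 356))))) (XT.nd (nat_lit 156) (nat_lit 836) (nat_lit 0) (XT.nd (nat_lit 78) (nat_lit 836) (nat_lit 0) (XT.lf (nat_lit 76) (nat_lit 5109129398) (nat_lit 0) (nat_lit 1410436517) (nat_lit 836) (nat_lit 264631282) (nat_lit 598) (nat_lit 5) (nat_lit 597) (nat_lit 5) (nat_lit 608) (nat_lit 5) (nat_lit 400) (nat_lit 385) (nat_lit 355)) (XT.lf (nat_lit 76) (nat_lit 1960218504) (nat_lit 0) (nat_lit 76814664)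 (nat_lit 912) (nat_lit 4777217071) (nat_lit 587) (nat_lit 5) (nat_lit 586) (nat_lit 5) (nat_lit 598) (nat_lit 5) (nat_lit 401) (nat_lit 385) (nat_lit 354))) (XT.nd (nat_lit 78) (nat_lit 912) (nat_lit 0) (XT.lf (nat_lit 0) (nat_lit 4346728539) (nat_lit 836) (nat_lit 1200652800) (nat_lit 76) (nat_lit 1298222233) (nat_lit 587) (nat_lit 5) (nat_lit 598) (nat_lit 5) (nat_lit 588) (nat_lit 5) (nat_lit 402) (nat_lit 385) (nat_lit 353)) (XT.nd (nat_lit 78) (nat_lit 76) (nat_lit 0) (XT.lf (nat_lit 0) (nat_lit 2522356738) (nat_lit 836) (nat_lit 4144097088) (nat_lit 912) (nat_lit 211897574) (nat_lit 576) (nat_lit 5) (nat_lit 587) (nat_lit 5) (nat_lit 588) (nat_lit 5) (nat_lit 403) (nat_lit 385) (nat_lit 352)) (XT.lf (nat_lit 0) (nat_lit 2048484606) (nat_lit 912) (nat_lit 625828927) (nat_lit 76) (nat_lit 4238098090) (nat_lit 575) (nat_lit 5) (nat_lit 587) (nat_lit 5) (nat_lit 576) (nat_lit 5) (nat_lit 404) (nat_lit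 385) (nat_lit 351)))))) (XT.nd (nat_lit 390) (nat_lit 5168) (nat_lit 0) (XT.nd (nat_lit 156) (nat_lit 1140) (nat_lit 0) (XT.nd (nat_lit 78) (nat_lit 988) (nat_lit 0) (XT.lf (nat_lit 0) (nat_lit 3183490454) (nat_lit 912) (nat_lit 1136820350) (nat_lit 988) (nat_lit 2627474364) (nat_lit 563) (nat_lit 5) (nat_lit 575) (nat_lit 5) (nat_lit 576) (nat_lit 5) (nat_lit 405) (nat_lit 385) (nat_lit 350)) (XT.lf (nat_lit 0) (nat_lit 54868944) (nat_lit 988) (nat_lit 6539370936) (nat_lit 1064) (nat_lit 390533763) (nat_lit 550) (nat_lit 5) (nat_lit 563) (nat_lit 5) (nat_lit 564) (nat_lit 5) (nat_lit 406) (nat_lit 385) (nat_lit 349))) (XT.nd (nat_lit 78) (nat_lit 1064) (nat_lit 0) (XT.lf (nat_lit 0) (nat_lit 1848968119) (nat_lit 1064) (nat_lit 3077714861) (nat_lit 76) (nat_lit 2095960036) (nat_lit 549) (nat_lit 5) (nat_lit 563) (nat_lit 5) (nat_lit 550) (nat_lit 5) (nat_lit 407) (nat_lit 385) (nat_lit 348)) (XT.nd (nat_lit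 78) (nat_lit 0) (nat_lit 0) (XT.lf (nat_lit 0) (nat_lit 823273373) (nat_lit 1064) (nat_lit 3260763315) (nat_lit 1140) (nat_lit 2978099778) (nat_lit 535) (nat_lit 5) (nat_lit 549) (nat_lit 5) (nat_lit 550) (nat_lit 5) (nat_lit 408) (nat_lit 385) (nat_lit 347)) (XT.lf (nat_lit 0) (nat_lit 4807783990) (nat_lit 1064) (nat_lit 1528063887) (nat_lit 1140) (nat_lit 767168763) (nat_lit 535) (nat_lit 5) (nat_lit 549) (nat_lit 5) (nat_lit 550) (nat_lit 5) (nat_lit 409) (nat_lit 385) (nat_lit 346))))) (XT.nd (nat_lit 234) (nat_lit 2736) (nat_lit 0) (XT.nd (nat_lit 78) (nat_lit 1216) (nat_lit 0) (XT.lf (nat_lit 0) (nat_lit 1433284697) (nat_lit 1216) (nat_lit 5443290065) (nat_lit 76) (nat_lit 268686277) (nat_lit 519) (nat_lit 5) (nat_lit 535) (nat_lit 5) (nat_lit 520) (nat_lit 5) (nat_lit 410) (nat_lit 385) (nat_lit 345)) (XT.nd (nat_lit 78) (nat_lit 1216) (nat_lit 0) (XT.lf (nat_lit 0) (nat_lit 3645879325) (nat_lit 1216)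 (nat_lit 1430111373) (nat_lit 76) (nat_lit 2112725625) (nat_lit 519) (nat_lit 5) (nat_lit 535) (nat_lit 5) (nat_lit 520) (nat_lit 5) (nat_lit 411) (nat_lit 385) (nat_lit 344)) (XT.lf (nat_lit 0) (nat_lit 2661970534) (nat_lit 1216) (nat_lit 3211735686) (nat_lit 1292) (nat_lit 1359949698) (nat_lit 503) (nat_lit 5) (nat_lit 519) (nat_lit 5) (nat_lit 520) (nat_lit 5) (nat_lit 412) (nat_lit 385) (nat_lit 343)))) (XT.nd (nat_lit 78) (nat_lit 2660) (nat_lit 0) (XT.lf (nat_lit 0) (nat_lit 818925329) (nat_lit 1292) (nat_lit 466391071) (nat_lit 76) (nat_lit 5994824924) (nat_lit 502) (nat_lit 5) (nat_lit 519) (nat_lit 5) (nat_lit 503) (nat_lit 5) (nat_lit 413) (nat_lit 385) (nat_lit 342)) (XT.nd (nat_lit 78) (nat_lit 1368) (nat_lit 0) (XT.lf (nat_lit 0) (nat_lit 3006997637) (nat_lit 1368) (nat_lit 3607621779) (nat_lit 76) (nat_lit 713113450) (nat_lit 485) (nat_lit 5) (nat_lit 503) (nat_lit 5) (nat_lit 486) (nat_lit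 5) (nat_lit 414) (nat_lit 385) (nat_lit 341)) (XT.lf (nat_lit 0) (nat_lit 582863995) (nat_lit 1368) (nat_lit 4627058753) (nat_lit 1444) (nat_lit 2166963824) (nat_lit 467) (nat_lit 5) (nat_lit 485) (nat_lit 5) (nat_lit 486) (nat_lit 5) (nat_lit 415) (nat_lit 385) (nat_lit 340))))))))
noncomputable def xc113 : XT := (XT.nd (nat_lit 1560) (nat_lit 8512) (nat_lit 0) (XT.nd (nat_lit 780) (nat_lit 5244) (nat_lit 0) (XT.nd (nat_lit 390) (nat_lit 5092) (nat_lit 0) (XT.nd (nat_lit 156) (nat_lit 1596) (nat_lit 0) (XT.nd (nat_lit 78) (nat_lit 1444) (nat_lit 0) (XT.lf (nat_lit 0) (nat_lit 9817323) (nat_lit 1444) (nat_lit 2557905862) (nat_lit 76) (nat_lit 4859720675) (nat_lit 466) (nat_lit 5) (nat_lit 485) (nat_lit 5) (nat_lit 467) (nat_lit 5) (nat_lit 416) (nat_lit 385) (nat_lit 339)) (XT.lf (nat_lit 0) (nat_lit 1734989990) (nat_lit 1444) (nat_lit 434240747) (nat_lit 1520) (nat_lit 5310163144) (nat_lit 447) (nat_lit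 5) (nat_lit 466) (nat_lit 5) (nat_lit 467) (nat_lit 5) (nat_lit 417) (nat_lit 385) (nat_lit 338))) (XT.nd (nat_lit 78) (nat_lit 1596) (nat_lit 0) (XT.lf (nat_lit 0) (nat_lit 4357895252) (nat_lit 1520) (nat_lit 1432077096) (nat_lit 76) (nat_lit 1742719009) (nat_lit 447) (nat_lit 5) (nat_lit 467) (nat_lit 5) (nat_lit 448) (nat_lit 5) (nat_lit 418) (nat_lit 385) (nat_lit 337)) (XT.nd (nat_lit 78) (nat_lit 76) (nat_lit 0) (XT.lf (nat_lit 0) (nat_lit 2966218030) (nat_lit 1520) (nat_lit 3604557898) (nat_lit 1596) (nat_lit 1016699126) (nat_lit 427) (nat_lit 5) (nat_lit 447) (nat_lit 5) (nat_lit 448) (nat_lit 5) (nat_lit 419) (nat_lit 385) (nat_lit 336)) (XT.lf (nat_lit 0) (nat_lit 1137289054) (nat_lit 1596) (nat_lit 215669945) (nat_lit 76) (nat_lit 6290904306) (nat_lit 426) (nat_lit 5) (nat_lit 447) (nat_lit 5) (nat_lit 427) (nat_lit 5) (nat_lit 420) (nat_lit 385) (nat_lit 335))))) (XT.nd (nat_lit 156) (nat_lit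 1824) (nat_lit 0) (XT.nd (nat_lit 78) (nat_lit 1672) (nat_lit 0) (XT.lf (nat_lit 0) (nat_lit 3314410068) (nat_lit 1672) (nat_lit 3416257394) (nat_lit 76) (nat_lit 970731566) (nat_lit 405) (nat_lit 5) (nat_lit 427) (nat_lit 5) (nat_lit 406) (nat_lit 5) (nat_lit 421) (nat_lit 385) (nat_lit 334)) (XT.lf (nat_lit 0) (nat_lit 1087585432) (nat_lit 1672) (nat_lit 4424962001) (nat_lit 1748) (nat_lit 2248015464) (nat_lit 383) (nat_lit 5) (nat_lit 405) (nat_lit 5) (nat_lit 406) (nat_lit 5) (nat_lit 422) (nat_lit 385) (nat_lit 333))) (XT.nd (nat_lit 78) (nat_lit 1824) (nat_lit 0) (XT.lf (nat_lit 0) (nat_lit 5691508559) (nat_lit 1672) (nat_lit 2046608324) (nat_lit 1748) (nat_lit 83150158) (nat_lit 383) (nat_lit 5) (nat_lit 405) (nat_lit 5) (nat_lit 406) (nat_lit 5) (nat_lit 423) (nat_lit 385) (nat_lit 332)) (XT.nd (nat_lit 78) (nat_lit 0) (nat_lit 0) (XT.lf (nat_lit 0) (nat_lit 2077005650) (nat_lit 1824) (nat_lit 5399061091)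 (nat_lit 76) (nat_lit 407270682) (nat_lit 359) (nat_lit 5) (nat_lit 383) (nat_lit 5) (nat_lit 360) (nat_lit 5) (nat_lit 424) (nat_lit 385) (nat_lit 331)) (XT.lf (nat_lit 0) (nat_lit 4268776142) (nat_lit 1824) (nat_lit 777809468) (nat_lit 76) (nat_lit 2900286973) (nat_lit 359) (nat_lit 5) (nat_lit 383) (nat_lit 5) (nat_lit 360) (nat_lit 5) (nat_lit 425) (nat_lit 385) (nat_lit 330)))))) (XT.nd (nat_lit 390) (nat_lit 2508) (nat_lit 0) (XT.nd (nat_lit 156) (nat_lit 836) (nat_lit 0) (XT.nd (nat_lit 78) (nat_lit 988) (nat_lit 0) (XT.lf (nat_lit 0) (nat_lit 3951705931) (nat_lit 912) (nat_lit 2540670231) (nat_lit 988) (nat_lit 1519566777) (nat_lit 347) (nat_lit 5) (nat_lit 359) (nat_lit 5) (nat_lit 360) (nat_lit 5) (nat_lit 426) (nat_lit 385) (nat_lit 329)) (XT.lf (nat_lit 0) (nat_lit 645606278) (nat_lit 988) (nat_lit 7402727427) (nat_lit 76) (nat_lit 30467462) (nat_lit 334) (nat_lit 5) (nat_lit 347) (nat_lit 5)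 (nat_lit 335) (nat_lit 5) (nat_lit 427) (nat_lit 385) (nat_lit 328))) (XT.nd (nat_lit 78) (nat_lit 836) (nat_lit 0) (XT.lf (nat_lit 0) (nat_lit 2841086632) (nat_lit 988) (nat_lit 2648174055) (nat_lit 76) (nat_lit 2657410939) (nat_lit 334) (nat_lit 5) (nat_lit 347) (nat_lit 5) (nat_lit 335) (nat_lit 5) (nat_lit 428) (nat_lit 385) (nat_lit 327)) (XT.nd (nat_lit 78) (nat_lit 0) (nat_lit 0) (XT.lf (nat_lit 0) (nat_lit 2194167600) (nat_lit 836) (nat_lit 2864358337) (nat_lit 912) (nat_lit 3157835089) (nat_lit 323) (nat_lit 5) (nat_lit 334) (nat_lit 5) (nat_lit 335) (nat_lit 5) (nat_lit 429) (nat_lit 385) (nat_lit 326)) (XT.lf (nat_lit 0) (nat_lit 7133410465) (nat_lit 836) (nat_lit 168954583) (nat_lit 912) (nat_lit 985460221) (nat_lit 323) (nat_lit 5) (nat_lit 334) (nat_lit 5) (nat_lit 335) (nat_lit 5) (nat_lit 430) (nat_lit 385) (nat_lit 325))))) (XT.nd (nat_lit 156) (nat_lit 836) (nat_lit 0) (XT.nd (nat_lit 78)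 (nat_lit 760) (nat_lit 0) (XT.lf (nat_lit 0) (nat_lit 1220704879) (nat_lit 912) (nat_lit 4560593774) (nat_lit 76) (nat_lit 2579152012) (nat_lit 311) (nat_lit 5) (nat_lit 323) (nat_lit 5) (nat_lit 312) (nat_lit 5) (nat_lit 431) (nat_lit 385) (nat_lit 324)) (XT.lf (nat_lit 0) (nat_lit 395876013) (nat_lit 760) (nat_lit 3038607022) (nat_lit 836) (nat_lit 5000402358) (nat_lit 301) (nat_lit 5) (nat_lit 311) (nat_lit 5) (nat_lit 312) (nat_lit 5) (nat_lit 432) (nat_lit 385) (nat_lit 323))) (XT.nd (nat_lit 78) (nat_lit 836) (nat_lit 0) (XT.lf (nat_lit 0) (nat_lit 5477424481) (nat_lit 760) (nat_lit 211351502) (nat_lit 836) (nat_lit 2822128443) (nat_lit 301) (nat_lit 5) (nat_lit 311) (nat_lit 5) (nat_lit 312) (nat_lit 5) (nat_lit 433) (nat_lit 385) (nat_lit 322)) (XT.nd (nat_lit 78) (nat_lit 76) (nat_lit 0) (XT.lf (nat_lit 0) (nat_lit 2045787999) (nat_lit 760) (nat_lit 5939300192) (nat_lit 836) (nat_lit 603436976)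 (nat_lit 291) (nat_lit 5) (nat_lit 301) (nat_lit 5) (nat_lit 302) (nat_lit 5) (nat_lit 434) (nat_lit 385) (nat_lit 321)) (XT.lf (nat_lit 0) (nat_lit 1626242077) (nat_lit 836) (nat_lit 1447920507) (nat_lit 76) (nat_lit 5593571847) (nat_lit 290) (nat_lit 5) (nat_lit 301) (nat_lit 5) (nat_lit 291) (nat_lit 5) (nat_lit 435) (nat_lit 385) (nat_lit 320))))))) (XT.nd (nat_lit 780) (nat_lit 4180) (nat_lit 0) (XT.nd (nat_lit 390) (nat_lit 2052) (nat_lit 0) (XT.nd (nat_lit 156) (nat_lit 760) (nat_lit 0) (XT.nd (nat_lit 78) (nat_lit 760) (nat_lit 0) (XT.lf (nat_lit 0) (nat_lit 3758719621) (nat_lit 760) (nat_lit 125273142) (nat_lit 836) (nat_lit 4864643024) (nat_lit 280) (nat_lit 5) (nat_lit 290) (nat_lit 5) (nat_lit 291) (nat_lit 5) (nat_lit 436) (nat_lit 385) (nat_lit 319)) (XT.lf (nat_lit 0) (nat_lit 206294342) (nat_lit 760) (nat_lit 5977984793) (nat_lit 836) (nat_lit 2646946893) (nat_lit 270) (nat_lit 5) (nat_lit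 280) (nat_lit 5) (nat_lit 281) (nat_lit 5) (nat_lit 437) (nat_lit 385) (nat_lit 318))) (XT.nd (nat_lit 78) (nat_lit 760) (nat_lit 0) (XT.lf (nat_lit 0) (nat_lit 5537673662) (nat_lit 760) (nat_lit 2995157140) (nat_lit 836) (nat_lit 382610193) (nat_lit 270) (nat_lit 5) (nat_lit 280) (nat_lit 5) (nat_lit 281) (nat_lit 5) (nat_lit 438) (nat_lit 385) (nat_lit 317)) (XT.nd (nat_lit 78) (nat_lit 0) (nat_lit 0) (XT.lf (nat_lit 0) (nat_lit 1883218316) (nat_lit 760) (nat_lit 7049800996) (nat_lit 76) (nat_lit 68458560) (nat_lit 260) (nat_lit 5) (nat_lit 270) (nat_lit 5) (nat_lit 261) (nat_lit 5) (nat_lit 439) (nat_lit 385) (nat_lit 316)) (XT.lf (nat_lit 0) (nat_lit 4200618609) (nat_lit 760) (nat_lit 1713485506) (nat_lit 76) (nat_lit 3174870290) (nat_lit 260) (nat_lit 5) (nat_lit 270) (nat_lit 5) (nat_lit 261) (nat_lit 5) (nat_lit 440) (nat_lit 385) (nat_lit 315))))) (XT.nd (nat_lit 156) (nat_lit 760) (nat_lit 0) (XT.nd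 (nat_lit 78) (nat_lit 608) (nat_lit 0) (XT.lf (nat_lit 0) (nat_lit 3743674458) (nat_lit 684) (nat_lit 2814333566) (nat_lit 760) (nat_lit 2620356754) (nat_lit 251) (nat_lit 5) (nat_lit 260) (nat_lit 5) (nat_lit 261) (nat_lit 5) (nat_lit 441) (nat_lit 385) (nat_lit 314)) (XT.lf (nat_lit 0) (nat_lit 26563964) (nat_lit 608) (nat_lit 8919665422) (nat_lit 684) (nat_lit 323656291) (nat_lit 243) (nat_lit 5) (nat_lit 251) (nat_lit 5) (nat_lit 252) (nat_lit 5) (nat_lit 442) (nat_lit 385) (nat_lit 313))) (XT.nd (nat_lit 78) (nat_lit 684) (nat_lit 0) (XT.lf (nat_lit 0) (nat_lit 2017681720) (nat_lit 684) (nat_lit 3759311675) (nat_lit 76) (nat_lit 3585493538) (nat_lit 242) (nat_lit 5) (nat_lit 251) (nat_lit 5) (nat_lit 243) (nat_lit 5) (nat_lit 443) (nat_lit 385) (nat_lit 312)) (XT.nd (nat_lit 78) (nat_lit 0) (nat_lit 0) (XT.lf (nat_lit 0) (nat_lit 1821290292) (nat_lit 684) (nat_lit 2562476692) (nat_lit 760) (nat_lit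 5073500816) (nat_lit 233) (nat_lit 5) (nat_lit 242) (nat_lit 5) (nat_lit 243) (nat_lit 5) (nat_lit 444) (nat_lit 385) (nat_lit 311)) (XT.lf (nat_lit 0) (nat_lit 6797964336) (nat_lit 760) (nat_lit 2028961789) (nat_lit 76) (nat_lit 727017505) (nat_lit 233) (nat_lit 5) (nat_lit 243) (nat_lit 5) (nat_lit 234) (nat_lit 5) (nat_lit 445) (nat_lit 385) (nat_lit 310)))))) (XT.nd (nat_lit 390) (nat_lit 2356) (nat_lit 0) (XT.nd (nat_lit 156) (nat_lit 1140) (nat_lit 0) (XT.nd (nat_lit 78) (nat_lit 76) (nat_lit 0) (XT.lf (nat_lit 0) (nat_lit 3687103933) (nat_lit 608) (nat_lit 5585569952) (nat_lit 684) (nat_lit 379649382) (nat_lit 225) (nat_lit 5) (nat_lit 233) (nat_lit 5) (nat_lit 234) (nat_lit 5) (nat_lit 446) (nat_lit 385) (nat_lit 309)) (XT.lf (nat_lit 0) (nat_lit 2002559566) (nat_lit 684) (nat_lit 255410701) (nat_lit 76) (nat_lit 7494745811) (nat_lit 224) (nat_lit 5) (nat_lit 233) (nat_lit 5) (nat_lit 225) (nat_lit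 5) (nat_lit 447) (nat_lit 385) (nat_lit 308))) (XT.nd (nat_lit 78) (nat_lit 532) (nat_lit 0) (XT.lf (nat_lit 0) (nat_lit 4443341804) (nat_lit 684) (nat_lit 4256873919) (nat_lit 76) (nat_lit 1154544581) (nat_lit 216) (nat_lit 5) (nat_lit 225) (nat_lit 5) (nat_lit 217) (nat_lit 5) (nat_lit 448) (nat_lit 385) (nat_lit 307)) (XT.nd (nat_lit 78) (nat_lit 0) (nat_lit 0) (XT.lf (nat_lit 0) (nat_lit 1584447352) (nat_lit 532) (nat_lit 5347765130) (nat_lit 608) (nat_lit 3026661201) (nat_lit 209) (nat_lit 5) (nat_lit 216) (nat_lit 5) (nat_lit 217) (nat_lit 5) (nat_lit 449) (nat_lit 385) (nat_lit 306)) (XT.lf (nat_lit 0) (nat_lit 7566254945) (nat_lit 532) (nat_lit 1905800244) (nat_lit 608) (nat_lit 593003704) (nat_lit 209) (nat_lit 5) (nat_lit 216) (nat_lit 5) (nat_lit 217) (nat_lit 5) (nat_lit 450) (nat_lit 385) (nat_lit 305))))) (XT.nd (nat_lit 234) (nat_lit 1140) (nat_lit 0) (XT.nd (nat_lit 78) (nat_lit 532) (nat_lit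 0) (XT.lf (nat_lit 0) (nat_lit 1870817662) (nat_lit 684) (nat_lit 6689688064) (nat_lit 76) (nat_lit 1612504288) (nat_lit 200) (nat_lit 5) (nat_lit 209) (nat_lit 5) (nat_lit 201) (nat_lit 5) (nat_lit 451) (nat_lit 385) (nat_lit 304)) (XT.nd (nat_lit 78) (nat_lit 532) (nat_lit 0) (XT.lf (nat_lit 0) (nat_lit 4378725806) (nat_lit 684) (nat_lit 714510304) (nat_lit 76) (nat_lit 5189763320) (nat_lit 200) (nat_lit 5) (nat_lit 209) (nat_lit 5) (nat_lit 201) (nat_lit 5) (nat_lit 452) (nat_lit 385) (nat_lit 303)) (XT.lf (nat_lit 0) (nat_lit 5417866115) (nat_lit 532) (nat_lit 1527869744) (nat_lit 608) (nat_lit 3449286330) (nat_lit 193) (nat_lit 5) (nat_lit 200) (nat_lit 5) (nat_lit 201) (nat_lit 5) (nat_lit 453) (nat_lit 385) (nat_lit 302)))) (XT.nd (nat_lit 78) (nat_lit 608) (nat_lit 0) (XT.lf (nat_lit 0) (nat_lit 1141001097) (nat_lit 532) (nat_lit 8423031155) (nat_lit 608) (nat_lit 945266418) (nat_lit 186) (nat_lit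 5) (nat_lit 193) (nat_lit 5) (nat_lit 194) (nat_lit 5) (nat_lit 454) (nat_lit 385) (nat_lit 301)) (XT.nd (nat_lit 78) (nat_lit 532) (nat_lit 0) (XT.lf (nat_lit 0) (nat_lit 1605602990) (nat_lit 608) (nat_lit 3230749810) (nat_lit 76) (nat_lit 5788953296) (nat_lit 185) (nat_lit 5) (nat_lit 193) (nat_lit 5) (nat_lit 186) (nat_lit 5) (nat_lit 455) (nat_lit 385) (nat_lit 300)) (XT.lf (nat_lit 0) (nat_lit 3029928844) (nat_lit 532) (nat_lit 1159225589) (nat_lit 608) (nat_lit 6554479324) (nat_lit 178) (nat_lit 5) (nat_lit 185) (nat_lit 5) (nat_lit 186) (nat_lit 5) (nat_lit 456) (nat_lit 385) (nat_lit 299))))))))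
noncomputable def xc114 : XT := (XT.nd (nat_lit 1560) (nat_lit 3496) (nat_lit 0) (XT.nd (nat_lit 780) (nat_lit 2204) (nat_lit 0) (XT.nd (nat_lit 390) (nat_lit 1368) (nat_lit 0) (XT.nd (nat_lit 156) (nat_lit 988) (nat_lit 0) (XT.nd (nat_lit 78) (nat_lit 532) (nat_lit 0) (XT.lf (nat_lit 0) (nat_lit 6837896679) (nat_lit 608) (nat_lit 1454591092) (nat_lit 76) (nat_lit 2571581063) (nat_lit 178) (nat_lit 5) (nat_lit 186) (nat_lit 5) (nat_lit 179) (nat_lit 5) (nat_lit 457) (nat_lit 385) (nat_lit 298)) (XT.lf (nat_lit 0) (nat_lit 4954316026) (nat_lit 532) (nat_lit 4600504960) (nat_lit 608) (nat_lit 1431798522) (nat_lit 171) (nat_lit 5) (nat_lit 178) (nat_lit 5) (nat_lit 179) (nat_lit 5) (nat_lit 458) (nat_lit 385) (nat_lit 297))) (XT.nd (nat_lit 78) (nat_lit 456) (nat_lit 0) (XT.lf (nat_lit 0) (nat_lit 363702604) (nat_lit 456) (nat_lit 822482912) (nat_lit 532) (nat_lit 9925535571) (nat_lit 164) (nat_lit 5) (nat_lit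 170) (nat_lit 5) (nat_lit 171) (nat_lit 5) (nat_lit 459) (nat_lit 385) (nat_lit 296)) (XT.nd (nat_lit 78) (nat_lit 456) (nat_lit 0) (XT.lf (nat_lit 0) (nat_lit 3873482419) (nat_lit 532) (nat_lit 4331583094) (nat_lit 76) (nat_lit 3033357803) (nat_lit 164) (nat_lit 5) (nat_lit 171) (nat_lit 5) (nat_lit 165) (nat_lit 5) (nat_lit 460) (nat_lit 385) (nat_lit 295)) (XT.lf (nat_lit 0) (nat_lit 2204254892) (nat_lit 456) (nat_lit 4406184763) (nat_lit 532) (nat_lit 4757311844) (nat_lit 158) (nat_lit 5) (nat_lit 164) (nat_lit 5) (nat_lit 165) (nat_lit 5) (nat_lit 461) (nat_lit 385) (nat_lit 294))))) (XT.nd (nat_lit 156) (nat_lit 836) (nat_lit 0) (XT.nd (nat_lit 78) (nat_lit 532) (nat_lit 0) (XT.lf (nat_lit 0) (nat_lit 8897350065) (nat_lit 456) (nat_lit 510267804) (nat_lit 532) (nat_lit 2091948738) (nat_lit 158) (nat_lit 5) (nat_lit 164) (nat_lit 5) (nat_lit 165) (nat_lit 5) (nat_lit 462) (nat_lit 385) (nat_lit 293))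 (XT.lf (nat_lit 0) (nat_lit 644525420) (nat_lit 532) (nat_lit 7548277375) (nat_lit 76) (nat_lit 3440622984) (nat_lit 151) (nat_lit 5) (nat_lit 158) (nat_lit 5) (nat_lit 152) (nat_lit 5) (nat_lit 463) (nat_lit 385) (nat_lit 292))) (XT.nd (nat_lit 78) (nat_lit 836) (nat_lit 0) (XT.lf (nat_lit 0) (nat_lit 3405610583) (nat_lit 532) (nat_lit 877495396) (nat_lit 76) (nat_lit 7486631167) (nat_lit 151) (nat_lit 5) (nat_lit 158) (nat_lit 5) (nat_lit 152) (nat_lit 5) (nat_lit 464) (nat_lit 385) (nat_lit 291)) (XT.nd (nat_lit 78) (nat_lit 380) (nat_lit 0) (XT.lf (nat_lit 0) (nat_lit 5973607926) (nat_lit 456) (nat_lit 264456290) (nat_lit 532) (nat_lit 5670396824) (nat_lit 145) (nat_lit 5) (nat_lit 151) (nat_lit 5) (nat_lit 152) (nat_lit 5) (nat_lit 465) (nat_lit 385) (nat_lit 290)) (XT.lf (nat_lit 0) (nat_lit 878743663) (nat_lit 380) (nat_lit 8262498523) (nat_lit 456) (nat_lit 2908444778) (nat_lit 140) (nat_lit 5) (nat_lit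 145) (nat_lit 5) (nat_lit 146) (nat_lit 5) (nat_lit 466) (nat_lit 385) (nat_lit 289)))))) (XT.nd (nat_lit 390) (nat_lit 1292) (nat_lit 0) (XT.nd (nat_lit 156) (nat_lit 380) (nat_lit 0) (XT.nd (nat_lit 78) (nat_lit 532) (nat_lit 0) (XT.lf (nat_lit 0) (nat_lit 7875862313) (nat_lit 380) (nat_lit 4245969360) (nat_lit 456) (nat_lit 71527652) (nat_lit 140) (nat_lit 5) (nat_lit 145) (nat_lit 5) (nat_lit 146) (nat_lit 5) (nat_lit 467) (nat_lit 385) (nat_lit 288)) (XT.lf (nat_lit 0) (nat_lit 2658453367) (nat_lit 456) (nat_lit 121987105) (nat_lit 532) (nat_lit 9559200224) (nat_lit 133) (nat_lit 5) (nat_lit 139) (nat_lit 5) (nat_lit 140) (nat_lit 5) (nat_lit 468) (nat_lit 385) (nat_lit 287))) (XT.nd (nat_lit 78) (nat_lit 380) (nat_lit 0) (XT.lf (nat_lit 0) (nat_lit 5722409438) (nat_lit 532) (nat_lit 2714291270) (nat_lit 76) (nat_lit 4051467512) (nat_lit 133) (nat_lit 5) (nat_lit 140) (nat_lit 5) (nat_lit 134) (nat_lit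 5) (nat_lit 469) (nat_lit 385) (nat_lit 286)) (XT.nd (nat_lit 78) (nat_lit 0) (nat_lit 0) (XT.lf (nat_lit 0) (nat_lit 4418410640) (nat_lit 380) (nat_lit 4312963695) (nat_lit 456) (nat_lit 3908137031) (nat_lit 128) (nat_lit 5) (nat_lit 133) (nat_lit 5) (nat_lit 134) (nat_lit 5) (nat_lit 470) (nat_lit 385) (nat_lit 285)) (XT.lf (nat_lit 0) (nat_lit 11700088855) (nat_lit 380) (nat_lit 97526004) (nat_lit 456) (nat_lit 996332630) (nat_lit 128) (nat_lit 5) (nat_lit 133) (nat_lit 5) (nat_lit 134) (nat_lit 5) (nat_lit 471) (nat_lit 385) (nat_lit 284))))) (XT.nd (nat_lit 156) (nat_lit 456) (nat_lit 0) (XT.nd (nat_lit 78) (nat_lit 380) (nat_lit 0) (XT.lf (nat_lit 0) (nat_lit 1994897144) (nat_lit 456) (nat_lit 6763949581) (nat_lit 76) (nat_lit 4191435548) (nat_lit 122) (nat_lit 5) (nat_lit 128) (nat_lit 5) (nat_lit 123) (nat_lit 5) (nat_lit 472) (nat_lit 385) (nat_lit 283)) (XT.lf (nat_lit 0) (nat_lit 486121994) (nat_lit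 380) (nat_lit 4536997100) (nat_lit 456) (nat_lit 8086690352) (nat_lit 117) (nat_lit 5) (nat_lit 122) (nat_lit 5) (nat_lit 123) (nat_lit 5) (nat_lit 473) (nat_lit 385) (nat_lit 282))) (XT.nd (nat_lit 78) (nat_lit 456) (nat_lit 0) (XT.lf (nat_lit 0) (nat_lit 7942762270) (nat_lit 380) (nat_lit 194048033) (nat_lit 456) (nat_lit 5135226193) (nat_lit 117) (nat_lit 5) (nat_lit 122) (nat_lit 5) (nat_lit 123) (nat_lit 5) (nat_lit 474) (nat_lit 385) (nat_lit 281)) (XT.nd (nat_lit 78) (nat_lit 76) (nat_lit 0) (XT.lf (nat_lit 0) (nat_lit 2080940938) (nat_lit 380) (nat_lit 9252702102) (nat_lit 456) (nat_lit 2103454975) (nat_lit 112) (nat_lit 5) (nat_lit 117) (nat_lit 5) (nat_lit 118) (nat_lit 5) (nat_lit 475) (nat_lit 385) (nat_lit 280)) (XT.lf (nat_lit 0) (nat_lit 993184208) (nat_lit 456) (nat_lit 3931042442) (nat_lit 76) (nat_lit 8680768640) (nat_lit 111) (nat_lit 5) (nat_lit 117) (nat_lit 5) (nat_lit 112) (nat_lit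 5) (nat_lit 476) (nat_lit 385) (nat_lit 279))))))) (XT.nd (nat_lit 780) (nat_lit 1444) (nat_lit 0) (XT.nd (nat_lit 390) (nat_lit 988) (nat_lit 0) (XT.nd (nat_lit 156) (nat_lit 760) (nat_lit 0) (XT.nd (nat_lit 78) (nat_lit 0) (nat_lit 0) (XT.lf (nat_lit 0) (nat_lit 3647109970) (nat_lit 304) (nat_lit 480499143) (nat_lit 380) (nat_lit 9648289819) (nat_lit 107) (nat_lit 5) (nat_lit 111) (nat_lit 5) (nat_lit 112) (nat_lit 5) (nat_lit 477) (nat_lit 385) (nat_lit 278)) (XT.lf (nat_lit 0) (nat_lit 7358031683) (nat_lit 380) (nat_lit 2575572283) (nat_lit 76) (nat_lit 4015957226) (nat_lit 107) (nat_lit 5) (nat_lit 112) (nat_lit 5) (nat_lit 108) (nat_lit 5) (nat_lit 478) (nat_lit 385) (nat_lit 277))) (XT.nd (nat_lit 78) (nat_lit 380) (nat_lit 0) (XT.lf (nat_lit 0) (nat_lit 5164328962) (nat_lit 380) (nat_lit 5506275678) (nat_lit 456) (nat_lit 3455747816) (nat_lit 102) (nat_lit 5) (nat_lit 107) (nat_lit 5) (nat_lit 108)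 (nat_lit 5) (nat_lit 479) (nat_lit 385) (nat_lit 276)) (XT.nd (nat_lit 78) (nat_lit 380) (nat_lit 0) (XT.lf (nat_lit 0) (nat_lit 13065202357) (nat_lit 380) (nat_lit 982529020) (nat_lit 456) (nat_lit 258988588) (nat_lit 102) (nat_lit 5) (nat_lit 107) (nat_lit 5) (nat_lit 108) (nat_lit 5) (nat_lit 480) (nat_lit 385) (nat_lit 275)) (XT.lf (nat_lit 0) (nat_lit 3010857414) (nat_lit 380) (nat_lit 7840755237) (nat_lit 76) (nat_lit 3637728219) (nat_lit 97) (nat_lit 5) (nat_lit 102) (nat_lit 5) (nat_lit 98) (nat_lit 5) (nat_lit 481) (nat_lit 385) (nat_lit 274))))) (XT.nd (nat_lit 156) (nat_lit 684) (nat_lit 0) (XT.nd (nat_lit 78) (nat_lit 0) (nat_lit 0) (XT.lf (nat_lit 0) (nat_lit 1051705) (nat_lit 304) (nat_lit 6337866768) (nat_lit 380) (nat_lit 8336741854) (nat_lit 93) (nat_lit 5) (nat_lit 97) (nat_lit 5) (nat_lit 98) (nat_lit 5) (nat_lit 482) (nat_lit 385) (nat_lit 273)) (XT.lf (nat_lit 0) (nat_lit 8077608754)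 (nat_lit 304) (nat_lit 1690111148) (nat_lit 380) (nat_lit 5097308665) (nat_lit 93) (nat_lit 5) (nat_lit 97) (nat_lit 5) (nat_lit 98) (nat_lit 5) (nat_lit 483) (nat_lit 385) (nat_lit 272))) (XT.nd (nat_lit 78) (nat_lit 380) (nat_lit 0) (XT.lf (nat_lit 0) (nat_lit 1225663657) (nat_lit 304) (nat_lit 12049059863) (nat_lit 380) (nat_lit 1783273986) (nat_lit 89) (nat_lit 5) (nat_lit 93) (nat_lit 5) (nat_lit 94) (nat_lit 5) (nat_lit 484) (nat_lit 385) (nat_lit 271)) (XT.nd (nat_lit 78) (nat_lit 304) (nat_lit 0) (XT.lf (nat_lit 0) (nat_lit 1615048970) (nat_lit 380) (nat_lit 5812942731) (nat_lit 76) (nat_lit 7825853309) (nat_lit 88) (nat_lit 5) (nat_lit 93) (nat_lit 5) (nat_lit 89) (nat_lit 5) (nat_lit 485) (nat_lit 385) (nat_lit 270)) (XT.lf (nat_lit 0) (nat_lit 2358330461) (nat_lit 304) (nat_lit 2696730212) (nat_lit 380) (nat_lit 10398366554) (nat_lit 84) (nat_lit 5) (nat_lit 88) (nat_lit 5) (nat_lit 89) (nat_lit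 5) (nat_lit 486) (nat_lit 385) (nat_lit 269)))))) (XT.nd (nat_lit 390) (nat_lit 836) (nat_lit 0) (XT.nd (nat_lit 156) (nat_lit 380) (nat_lit 0) (XT.nd (nat_lit 78) (nat_lit 228) (nat_lit 0) (XT.lf (nat_lit 0) (nat_lit 8599334296) (nat_lit 380) (nat_lit 4926214789) (nat_lit 76) (nat_lit 2130748184) (nat_lit 84) (nat_lit 5) (nat_lit 89) (nat_lit 5) (nat_lit 85) (nat_lit 5) (nat_lit 487) (nat_lit 385) (nat_lit 268)) (XT.lf (nat_lit 0) (nat_lit 3405658655) (nat_lit 228) (nat_lit 8831522877) (nat_lit 304) (nat_lit 3625594722) (nat_lit 81) (nat_lit 5) (nat_lit 84) (nat_lit 5) (nat_lit 85) (nat_lit 5) (nat_lit 488) (nat_lit 385) (nat_lit 267))) (XT.nd (nat_lit 78) (nat_lit 380) (nat_lit 0) (XT.lf (nat_lit 0) (nat_lit 11943931749) (nat_lit 228) (nat_lit 4019792151) (nat_lit 304) (nat_lit 109347355) (nat_lit 81) (nat_lit 5) (nat_lit 84) (nat_lit 5) (nat_lit 85) (nat_lit 5) (nat_lit 489) (nat_lit 385) (nat_lit 266))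 (XT.nd (nat_lit 78) (nat_lit 0) (nat_lit 0) (XT.lf (nat_lit 0) (nat_lit 3449156608) (nat_lit 380) (nat_lit 11919469532) (nat_lit 76) (nat_lit 918148765) (nat_lit 76) (nat_lit 5) (nat_lit 81) (nat_lit 5) (nat_lit 77) (nat_lit 5) (nat_lit 490) (nat_lit 385) (nat_lit 265)) (XT.lf (nat_lit 0) (nat_lit 7115076839) (nat_lit 380) (nat_lit 3468890742) (nat_lit 76) (nat_lit 5920021286) (nat_lit 76) (nat_lit 5) (nat_lit 81) (nat_lit 5) (nat_lit 77) (nat_lit 5) (nat_lit 491) (nat_lit 385) (nat_lit 264))))) (XT.nd (nat_lit 234) (nat_lit 228) (nat_lit 0) (XT.nd (nat_lit 78) (nat_lit 380) (nat_lit 0) (XT.lf (nat_lit 0) (nat_lit 5192511901) (nat_lit 228) (nat_lit 5679041939) (nat_lit 304) (nat_lit 5853653306) (nat_lit 73) (nat_lit 5) (nat_lit 76) (nat_lit 5) (nat_lit 77) (nat_lit 5) (nat_lit 492) (nat_lit 385) (nat_lit 263)) (XT.nd (nat_lit 78) (nat_lit 380) (nat_lit 0) (XT.lf (nat_lit 0) (nat_lit 14048048827) (nat_lit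 228) (nat_lit 662068250) (nat_lit 304) (nat_lit 2240598290) (nat_lit 73) (nat_lit 5) (nat_lit 76) (nat_lit 5) (nat_lit 77) (nat_lit 5) (nat_lit 493) (nat_lit 385) (nat_lit 262)) (XT.lf (nat_lit 0) (nat_lit 1477423157) (nat_lit 380) (nat_lit 11266582067) (nat_lit 76) (nat_lit 4435512395) (nat_lit 68) (nat_lit 5) (nat_lit 73) (nat_lit 5) (nat_lit 69) (nat_lit 5) (nat_lit 494) (nat_lit 385) (nat_lit 261)))) (XT.nd (nat_lit 78) (nat_lit 228) (nat_lit 0) (XT.lf (nat_lit 0) (nat_lit 5247798011) (nat_lit 380) (nat_lit 2513575175) (nat_lit 76) (nat_lit 9651071070) (nat_lit 68) (nat_lit 5) (nat_lit 73) (nat_lit 5) (nat_lit 69) (nat_lit 5) (nat_lit 495) (nat_lit 385) (nat_lit 260)) (XT.nd (nat_lit 78) (nat_lit 0) (nat_lit 0) (XT.lf (nat_lit 0) (nat_lit 6473994583) (nat_lit 228) (nat_lit 2645908039) (nat_lit 304) (nat_lit 8529604709) (nat_lit 65) (nat_lit 5) (nat_lit 68) (nat_lit 5) (nat_lit 69) (nat_lit 5) (nat_lit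 496) (nat_lit 385) (nat_lit 259)) (XT.lf (nat_lit 0) (nat_lit 13087496914) (nat_lit 304) (nat_lit 2257886935) (nat_lit 76) (nat_lit 2545571136) (nat_lit 65) (nat_lit 5) (nat_lit 69) (nat_lit 5) (nat_lit 66) (nat_lit 5) (nat_lit 497) (nat_lit 385) (nat_lit 258))))))))
noncomputable def xc115 : XT := (XT.nd (nat_lit 51714) (nat_lit 0) (nat_lit 28272) (XT.nd (nat_lit 50934) (nat_lit 0) (nat_lit 41192) (XT.nd (nat_lit 390) (nat_lit 76) (nat_lit 0) (XT.nd (nat_lit 156) (nat_lit 456) (nat_lit 0) (XT.nd (nat_lit 78) (nat_lit 76) (nat_lit 0) (XT.lf (nat_lit 0) (nat_lit 6885887741) (nat_lit 228) (nat_lit 10295462343) (nat_lit 304) (nat_lit 954947550) (nat_lit 62) (nat_lit 5) (nat_lit 65) (nat_lit 5) (nat_lit 66) (nat_lit 5) (nat_lit 498) (nat_lit 385) (nat_lit 257)) (XT.lf (nat_lit 0) (nat_lit 2931537394) (nat_lit 304) (nat_lit 2187520482) (nat_lit 76) (nat_lit 13267108283) (nat_lit 61) (nat_lit 5) (nat_lit 65) (nat_lit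 5) (nat_lit 62) (nat_lit 5) (nat_lit 499) (nat_lit 385) (nat_lit 256))) (XT.nd (nat_lit 78) (nat_lit 228) (nat_lit 0) (XT.lf (nat_lit 0) (nat_lit 6915540926) (nat_lit 304) (nat_lit 11522486774) (nat_lit 76) (nat_lit 202230538) (nat_lit 58) (nat_lit 5) (nat_lit 62) (nat_lit 5) (nat_lit 59) (nat_lit 5) (nat_lit 500) (nat_lit 385) (nat_lit 255)) (XT.nd (nat_lit 78) (nat_lit 228) (nat_lit 0) (XT.lf (nat_lit 0) (nat_lit 11012987059) (nat_lit 304) (nat_lit 2318935441) (nat_lit 76) (nat_lit 5566838274) (nat_lit 58) (nat_lit 5) (nat_lit 62) (nat_lit 5) (nat_lit 59) (nat_lit 5) (nat_lit 501) (nat_lit 385) (nat_lit 254)) (XT.lf (nat_lit 0) (nat_lit 7138167746) (nat_lit 228) (nat_lit 8085937396) (nat_lit 304) (nat_lit 3937697546) (nat_lit 55) (nat_lit 5) (nat_lit 58) (nat_lit 5) (nat_lit 59) (nat_lit 5) (nat_lit 502) (nat_lit 385) (nat_lit 253))))) (XT.nd (nat_lit 50310) (nat_lit 0) (nat_lit 43168) (XT.nd (nat_lit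 50232) (nat_lit 0) (nat_lit 43700) (XT.lf (nat_lit 0) (nat_lit 89241471) (nat_lit 304) (nat_lit 2638806828) (nat_lit 76) (nat_lit 16702027721) (nat_lit 54) (nat_lit 5) (nat_lit 58) (nat_lit 5) (nat_lit 55) (nat_lit 5) (nat_lit 503) (nat_lit 385) (nat_lit 252)) (XT.lf (nat_lit 0) (nat_lit 585678779) (nat_lit 532) (nat_lit 1335262271) (nat_lit 532) (nat_lit 1335262271) (nat_lit 629) (nat_lit 3) (nat_lit 636) (nat_lit 3) (nat_lit 636) (nat_lit 5) (nat_lit 386) (nat_lit 386) (nat_lit 368))) (XT.nd (nat_lit 78) (nat_lit 532) (nat_lit 0) (XT.lf (nat_lit 76) (nat_lit 411896337) (nat_lit 0) (nat_lit 3286805160) (nat_lit 532) (nat_lit 2826064564) (nat_lit 630) (nat_lit 5) (nat_lit 629) (nat_lit 3) (nat_lit 636) (nat_lit 5) (nat_lit 387) (nat_lit 386) (nat_lit 367)) (XT.nd (nat_lit 78) (nat_lit 532) (nat_lit 0) (XT.lf (nat_lit 76) (nat_lit 3558068931) (nat_lit 0) (nat_lit 2670306891) (nat_lit 532) (nat_lit 310025495)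 (nat_lit 630) (nat_lit 5) (nat_lit 629) (nat_lit 3) (nat_lit 636) (nat_lit 5) (nat_lit 388) (nat_lit 386) (nat_lit 366)) (XT.lf (nat_lit 76) (nat_lit 168052255) (nat_lit 0) (nat_lit 1994449029) (nat_lit 608) (nat_lit 4390861639) (nat_lit 623) (nat_lit 5) (nat_lit 622) (nat_lit 5) (nat_lit 630) (nat_lit 5) (nat_lit 389) (nat_lit 386) (nat_lit 365)))))) (XT.nd (nat_lit 390) (nat_lit 760) (nat_lit 0) (XT.nd (nat_lit 156) (nat_lit 608) (nat_lit 0) (XT.nd (nat_lit 78) (nat_lit 608) (nat_lit 0) (XT.lf (nat_lit 76) (nat_lit 3383591526) (nat_lit 0) (nat_lit 1252453268) (nat_lit 608) (nat_lit 1933484240) (nat_lit 623) (nat_lit 5) (nat_lit 622) (nat_lit 5) (nat_lit 630) (nat_lit 5) (nat_lit 390) (nat_lit 386) (nat_lit 364)) (XT.lf (nat_lit 76) (nat_lit 39860785) (nat_lit 0) (nat_lit 462434961) (nat_lit 684) (nat_lit 6084971154) (nat_lit 615) (nat_lit 5) (nat_lit 614) (nat_lit 5) (nat_lit 623) (nat_lit 5) (nat_lit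 391) (nat_lit 386) (nat_lit 363))) (XT.nd (nat_lit 78) (nat_lit 684) (nat_lit 0) (XT.lf (nat_lit 0) (nat_lit 2922395462) (nat_lit 608) (nat_lit 3282375054) (nat_lit 684) (nat_lit 401160644) (nat_lit 615) (nat_lit 5) (nat_lit 623) (nat_lit 5) (nat_lit 624) (nat_lit 5) (nat_lit 392) (nat_lit 386) (nat_lit 362)) (XT.nd (nat_lit 78) (nat_lit 684) (nat_lit 0) (XT.lf (nat_lit 76) (nat_lit 10096371) (nat_lit 0) (nat_lit 5322868936) (nat_lit 684) (nat_lit 1293218028) (nat_lit 616) (nat_lit 5) (nat_lit 615) (nat_lit 5) (nat_lit 624) (nat_lit 5) (nat_lit 393) (nat_lit 386) (nat_lit 361)) (XT.lf (nat_lit 0) (nat_lit 1091522629) (nat_lit 684) (nat_lit 3276627450) (nat_lit 760) (nat_lit 2279362976) (nat_lit 606) (nat_lit 5) (nat_lit 615) (nat_lit 5) (nat_lit 616) (nat_lit 5) (nat_lit 394) (nat_lit 386) (nat_lit 360))))) (XT.nd (nat_lit 156) (nat_lit 760) (nat_lit 0) (XT.nd (nat_lit 78) (nat_lit 0) (nat_lit 0) (XT.lf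 (nat_lit 76) (nat_lit 87340868) (nat_lit 0) (nat_lit 3360531312) (nat_lit 760) (nat_lit 3222454385) (nat_lit 607) (nat_lit 5) (nat_lit 606) (nat_lit 5) (nat_lit 616) (nat_lit 5) (nat_lit 395) (nat_lit 386) (nat_lit 359)) (XT.lf (nat_lit 76) (nat_lit 3528371934) (nat_lit 0) (nat_lit 2286550620) (nat_lit 760) (nat_lit 879454043) (nat_lit 607) (nat_lit 5) (nat_lit 606) (nat_lit 5) (nat_lit 616) (nat_lit 5) (nat_lit 396) (nat_lit 386) (nat_lit 358))) (XT.nd (nat_lit 78) (nat_lit 0) (nat_lit 76) (XT.lf (nat_lit 76) (nat_lit 278390979) (nat_lit 0) (nat_lit 1156315573) (nat_lit 836) (nat_lit 5285172476) (nat_lit 597) (nat_lit 5) (nat_lit 596) (nat_lit 5) (nat_lit 607) (nat_lit 5) (nat_lit 397) (nat_lit 386) (nat_lit 357)) (XT.nd (nat_lit 78) (nat_lit 0) (nat_lit 0) (XT.lf (nat_lit 0) (nat_lit 3748102699) (nat_lit 760) (nat_lit 2952688246) (nat_lit 836) (nat_lit 45738479) (nat_lit 597) (nat_lit 5) (nat_lit 607)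 (nat_lit 5) (nat_lit 608) (nat_lit 5) (nat_lit 398) (nat_lit 386) (nat_lit 356)) (XT.lf (nat_lit 76) (nat_lit 570546101) (nat_lit 0) (nat_lit 5493046998) (nat_lit 836) (nat_lit 711050992) (nat_lit 598) (nat_lit 5) (nat_lit 597) (nat_lit 5) (nat_lit 608) (nat_lit 5) (nat_lit 399) (nat_lit 386) (nat_lit 355))))))) (XT.nd (nat_lit 780) (nat_lit 8208) (nat_lit 0) (XT.nd (nat_lit 390) (nat_lit 3040) (nat_lit 0) (XT.nd (nat_lit 156) (nat_lit 912) (nat_lit 0) (XT.nd (nat_lit 78) (nat_lit 0) (nat_lit 0) (XT.lf (nat_lit 0) (nat_lit 1565661844) (nat_lit 836) (nat_lit 2645031088) (nat_lit 912) (nat_lit 2593166154) (nat_lit 586) (nat_lit 5) (nat_lit 597) (nat_lit 5) (nat_lit 598) (nat_lit 5) (nat_lit 400) (nat_lit 386) (nat_lit 354)) (XT.lf (nat_lit 76) (nat_lit 958060464) (nat_lit 0) (nat_lit 2872554848) (nat_lit 912) (nat_lit 3003949553) (nat_lit 587) (nat_lit 5) (nat_lit 586) (nat_lit 5) (nat_lit 598) (nat_lit 5)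 (nat_lit 401) (nat_lit 386) (nat_lit 353))) (XT.nd (nat_lit 78) (nat_lit 912) (nat_lit 0) (XT.lf (nat_lit 76) (nat_lit 4634285414) (nat_lit 0) (nat_lit 1471163102) (nat_lit 912) (nat_lit 761188781) (nat_lit 587) (nat_lit 5) (nat_lit 586) (nat_lit 5) (nat_lit 598) (nat_lit 5) (nat_lit 402) (nat_lit 386) (nat_lit 352)) (XT.nd (nat_lit 78) (nat_lit 0) (nat_lit 76) (XT.lf (nat_lit 76) (nat_lit 1459068209) (nat_lit 0) (nat_lit 4298585) (nat_lit 988) (nat_lit 5436689428) (nat_lit 575) (nat_lit 5) (nat_lit 574) (nat_lit 5) (nat_lit 587) (nat_lit 5) (nat_lit 403) (nat_lit 386) (nat_lit 351)) (XT.lf (nat_lit 0) (nat_lit 3695398278) (nat_lit 912) (nat_lit 1729892140) (nat_lit 76) (nat_lit 1509330539) (nat_lit 575) (nat_lit 5) (nat_lit 587) (nat_lit 5) (nat_lit 576) (nat_lit 5) (nat_lit 404) (nat_lit 386) (nat_lit 350))))) (XT.nd (nat_lit 156) (nat_lit 2128) (nat_lit 0) (XT.nd (nat_lit 78) (nat_lit 76) (nat_lit 0)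 (XT.lf (nat_lit 0) (nat_lit 2047149422) (nat_lit 912) (nat_lit 3887654316) (nat_lit 988) (nat_lit 1035859370) (nat_lit 563) (nat_lit 5) (nat_lit 575) (nat_lit 5) (nat_lit 576) (nat_lit 5) (nat_lit 405) (nat_lit 386) (nat_lit 349)) (XT.lf (nat_lit 0) (nat_lit 1157176143) (nat_lit 988) (nat_lit 1127527976) (nat_lit 76) (nat_lit 4723373961) (nat_lit 562) (nat_lit 5) (nat_lit 575) (nat_lit 5) (nat_lit 563) (nat_lit 5) (nat_lit 406) (nat_lit 386) (nat_lit 348))) (XT.nd (nat_lit 78) (nat_lit 1140) (nat_lit 0) (XT.lf (nat_lit 0) (nat_lit 2738559839) (nat_lit 988) (nat_lit 610229558) (nat_lit 1064) (nat_lit 3697981707) (nat_lit 549) (nat_lit 5) (nat_lit 562) (nat_lit 5) (nat_lit 563) (nat_lit 5) (nat_lit 407) (nat_lit 386) (nat_lit 347)) (XT.nd (nat_lit 78) (nat_lit 1140) (nat_lit 0) (XT.lf (nat_lit 0) (nat_lit 5550601856) (nat_lit 1064) (nat_lit 431752269) (nat_lit 76) (nat_lit 1104594204) (nat_lit 549) (nat_lit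 5) (nat_lit 563) (nat_lit 5) (nat_lit 550) (nat_lit 5) (nat_lit 408) (nat_lit 386) (nat_lit 346)) (XT.lf (nat_lit 0) (nat_lit 639110262) (nat_lit 1140) (nat_lit 3603137025) (nat_lit 76) (nat_lit 2886044090) (nat_lit 534) (nat_lit 5) (nat_lit 549) (nat_lit 5) (nat_lit 535) (nat_lit 5) (nat_lit 409) (nat_lit 386) (nat_lit 345)))))) (XT.nd (nat_lit 390) (nat_lit 4484) (nat_lit 0) (XT.nd (nat_lit 156) (nat_lit 2584) (nat_lit 0) (XT.nd (nat_lit 78) (nat_lit 0) (nat_lit 0) (XT.lf (nat_lit 0) (nat_lit 355647681) (nat_lit 1140) (nat_lit 2440032220) (nat_lit 1216) (nat_lit 4375450278) (nat_lit 519) (nat_lit 5) (nat_lit 534) (nat_lit 5) (nat_lit 535) (nat_lit 5) (nat_lit 410) (nat_lit 386) (nat_lit 344)) (XT.lf (nat_lit 0) (nat_lit 4407211601) (nat_lit 1140) (nat_lit 565973064) (nat_lit 1216) (nat_lit 2242119829) (nat_lit 519) (nat_lit 5) (nat_lit 534) (nat_lit 5) (nat_lit 535) (nat_lit 5) (nat_lit 411) (nat_lit 386)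 (nat_lit 343))) (XT.nd (nat_lit 78) (nat_lit 1368) (nat_lit 0) (XT.lf (nat_lit 0) (nat_lit 1251561285) (nat_lit 1216) (nat_lit 5914145516) (nat_lit 1292) (nat_lit 95260278) (nat_lit 503) (nat_lit 5) (nat_lit 519) (nat_lit 5) (nat_lit 520) (nat_lit 5) (nat_lit 412) (nat_lit 386) (nat_lit 342)) (XT.nd (nat_lit 78) (nat_lit 1292) (nat_lit 0) (XT.lf (nat_lit 0) (nat_lit 2044719431) (nat_lit 1292) (nat_lit 1930124204) (nat_lit 76) (nat_lit 3332907040) (nat_lit 502) (nat_lit 5) (nat_lit 519) (nat_lit 5) (nat_lit 503) (nat_lit 5) (nat_lit 413) (nat_lit 386) (nat_lit 341)) (XT.lf (nat_lit 0) (nat_lit 2224026673) (nat_lit 1292) (nat_lit 1972457625) (nat_lit 1368) (nat_lit 3159599989) (nat_lit 485) (nat_lit 5) (nat_lit 502) (nat_lit 5) (nat_lit 503) (nat_lit 5) (nat_lit 414) (nat_lit 386) (nat_lit 340))))) (XT.nd (nat_lit 234) (nat_lit 1596) (nat_lit 0) (XT.nd (nat_lit 78) (nat_lit 2888) (nat_lit 0) (XT.lf (nat_lit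 0) (nat_lit 6361290968) (nat_lit 1368) (nat_lit 954221444) (nat_lit 76) (nat_lit 90503560) (nat_lit 485) (nat_lit 5) (nat_lit 503) (nat_lit 5) (nat_lit 486) (nat_lit 5) (nat_lit 415) (nat_lit 386) (nat_lit 339)) (XT.nd (nat_lit 78) (nat_lit 1444) (nat_lit 0) (XT.lf (nat_lit 0) (nat_lit 1089642421) (nat_lit 1444) (nat_lit 4162165740) (nat_lit 76) (nat_lit 2205188281) (nat_lit 466) (nat_lit 5) (nat_lit 485) (nat_lit 5) (nat_lit 467) (nat_lit 5) (nat_lit 416) (nat_lit 386) (nat_lit 338)) (XT.lf (nat_lit 0) (nat_lit 91535083) (nat_lit 1444) (nat_lit 3125893481) (nat_lit 1520) (nat_lit 4292165154) (nat_lit 447) (nat_lit 5) (nat_lit 466) (nat_lit 5) (nat_lit 467) (nat_lit 5) (nat_lit 417) (nat_lit 386) (nat_lit 337)))) (XT.nd (nat_lit 78) (nat_lit 1596) (nat_lit 0) (XT.lf (nat_lit 0) (nat_lit 4451329153) (nat_lit 1444) (nat_lit 922638934) (nat_lit 1520) (nat_lit 2189580028) (nat_lit 447) (nat_lit 5) (nat_lit 466)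 (nat_lit 5) (nat_lit 467) (nat_lit 5) (nat_lit 418) (nat_lit 386) (nat_lit 336)) (XT.nd (nat_lit 78) (nat_lit 76) (nat_lit 0) (XT.lf (nat_lit 0) (nat_lit 1251963465) (nat_lit 1520) (nat_lit 6297530149) (nat_lit 1596) (nat_lit 69599438) (nat_lit 427) (nat_lit 5) (nat_lit 447) (nat_lit 5) (nat_lit 448) (nat_lit 5) (nat_lit 419) (nat_lit 386) (nat_lit 335)) (XT.lf (nat_lit 0) (nat_lit 2051869972) (nat_lit 1596) (nat_lit 1985476782) (nat_lit 76) (nat_lit 3638427100) (nat_lit 426) (nat_lit 5) (nat_lit 447) (nat_lit 5) (nat_lit 427) (nat_lit 5) (nat_lit 420) (nat_lit 386) (nat_lit 334))))))))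
noncomputable def xc116 : XT := (XT.nd (nat_lit 1560) (nat_lit 7296) (nat_lit 0) (XT.nd (nat_lit 780) (nat_lit 4788) (nat_lit 0) (XT.nd (nat_lit 390) (nat_lit 2736) (nat_lit 0) (XT.nd (nat_lit 156) (nat_lit 3496) (nat_lit 0) (XT.nd (nat_lit 78) (nat_lit 0) (nat_lit 0) (XT.lf (nat_lit 0) (nat_lit 2480661047) (nat_lit 1596) (nat_lit 1710482047) (nat_lit 1672) (nat_lit 3542936763) (nat_lit 405) (nat_lit 5) (nat_lit 426) (nat_lit 5) (nat_lit 427) (nat_lit 5) (nat_lit 421) (nat_lit 386) (nat_lit 333)) (XT.lf (nat_lit 0) (nat_lit 6351697791) (nat_lit 1672) (nat_lit 770471249) (nat_lit 76) (nat_lit 671839401) (nat_lit 405) (nat_lit 5) (nat_lit 427) (nat_lit 5) (nat_lit 406) (nat_lit 5) (nat_lit 422) (nat_lit 386) (nat_lit 332))) (XT.nd (nat_lit 78) (nat_lit 1748) (nat_lit 0) (XT.lf (nat_lit 0) (nat_lit 688686846) (nat_lit 1748) (nat_lit 4054148153) (nat_lit 76) (nat_lit 3112284141) (nat_lit 382) (nat_lit 5) (nat_lit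 405) (nat_lit 5) (nat_lit 383) (nat_lit 5) (nat_lit 423) (nat_lit 386) (nat_lit 331)) (XT.nd (nat_lit 78) (nat_lit 0) (nat_lit 0) (XT.lf (nat_lit 0) (nat_lit 518727014) (nat_lit 1748) (nat_lit 2294655603) (nat_lit 1824) (nat_lit 5104495805) (nat_lit 359) (nat_lit 5) (nat_lit 382) (nat_lit 5) (nat_lit 383) (nat_lit 5) (nat_lit 424) (nat_lit 386) (nat_lit 330)) (XT.lf (nat_lit 0) (nat_lit 4971609645) (nat_lit 1824) (nat_lit 2780817493) (nat_lit 76) (nat_lit 229669380) (nat_lit 359) (nat_lit 5) (nat_lit 383) (nat_lit 5) (nat_lit 360) (nat_lit 5) (nat_lit 425) (nat_lit 386) (nat_lit 329))))) (XT.nd (nat_lit 156) (nat_lit 1748) (nat_lit 0) (XT.nd (nat_lit 78) (nat_lit 76) (nat_lit 0) (XT.lf (nat_lit 0) (nat_lit 1904380061) (nat_lit 912) (nat_lit 5259257555) (nat_lit 988) (nat_lit 884172527) (nat_lit 347) (nat_lit 5) (nat_lit 359) (nat_lit 5) (nat_lit 360) (nat_lit 5) (nat_lit 426) (nat_lit 386) (nat_lit 328))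 (XT.lf (nat_lit 0) (nat_lit 1249911364) (nat_lit 988) (nat_lit 1437514444) (nat_lit 76) (nat_lit 5427626544) (nat_lit 346) (nat_lit 5) (nat_lit 359) (nat_lit 5) (nat_lit 347) (nat_lit 5) (nat_lit 427) (nat_lit 386) (nat_lit 327))) (XT.nd (nat_lit 78) (nat_lit 836) (nat_lit 0) (XT.lf (nat_lit 0) (nat_lit 3365944916) (nat_lit 912) (nat_lit 34785002) (nat_lit 988) (nat_lit 4783097277) (nat_lit 334) (nat_lit 5) (nat_lit 346) (nat_lit 5) (nat_lit 347) (nat_lit 5) (nat_lit 428) (nat_lit 386) (nat_lit 326)) (XT.nd (nat_lit 78) (nat_lit 836) (nat_lit 0) (XT.lf (nat_lit 0) (nat_lit 5586129607) (nat_lit 988) (nat_lit 21602690) (nat_lit 76) (nat_lit 2646436018) (nat_lit 334) (nat_lit 5) (nat_lit 347) (nat_lit 5) (nat_lit 335) (nat_lit 5) (nat_lit 429) (nat_lit 386) (nat_lit 325)) (XT.lf (nat_lit 0) (nat_lit 4899957279) (nat_lit 836) (nat_lit 2912533059) (nat_lit 912) (nat_lit 513502501) (nat_lit 323) (nat_lit 5) (nat_lit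 334) (nat_lit 5) (nat_lit 335) (nat_lit 5) (nat_lit 430) (nat_lit 386) (nat_lit 324)))))) (XT.nd (nat_lit 390) (nat_lit 2280) (nat_lit 0) (XT.nd (nat_lit 156) (nat_lit 1596) (nat_lit 0) (XT.nd (nat_lit 78) (nat_lit 0) (nat_lit 0) (XT.lf (nat_lit 0) (nat_lit 1494727648) (nat_lit 836) (nat_lit 142578982) (nat_lit 912) (nat_lit 6762243943) (nat_lit 311) (nat_lit 5) (nat_lit 322) (nat_lit 5) (nat_lit 323) (nat_lit 5) (nat_lit 431) (nat_lit 386) (nat_lit 323)) (XT.lf (nat_lit 0) (nat_lit 3830691819) (nat_lit 912) (nat_lit 1970144312) (nat_lit 76) (nat_lit 2673567125) (nat_lit 311) (nat_lit 5) (nat_lit 323) (nat_lit 5) (nat_lit 312) (nat_lit 5) (nat_lit 432) (nat_lit 386) (nat_lit 322))) (XT.nd (nat_lit 78) (nat_lit 836) (nat_lit 0) (XT.lf (nat_lit 0) (nat_lit 3067812362) (nat_lit 760) (nat_lit 2987532247) (nat_lit 836) (nat_lit 2495680382) (nat_lit 301) (nat_lit 5) (nat_lit 311) (nat_lit 5) (nat_lit 312) (nat_lit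 5) (nat_lit 433) (nat_lit 386) (nat_lit 321)) (XT.nd (nat_lit 78) (nat_lit 836) (nat_lit 0) (XT.lf (nat_lit 0) (nat_lit 8198756137) (nat_lit 760) (nat_lit 105924693) (nat_lit 836) (nat_lit 324914127) (nat_lit 301) (nat_lit 5) (nat_lit 311) (nat_lit 5) (nat_lit 312) (nat_lit 5) (nat_lit 434) (nat_lit 386) (nat_lit 320)) (XT.lf (nat_lit 0) (nat_lit 1881306929) (nat_lit 836) (nat_lit 3990012603) (nat_lit 76) (nat_lit 2837853951) (nat_lit 290) (nat_lit 5) (nat_lit 301) (nat_lit 5) (nat_lit 291) (nat_lit 5) (nat_lit 435) (nat_lit 386) (nat_lit 319))))) (XT.nd (nat_lit 156) (nat_lit 1520) (nat_lit 0) (XT.nd (nat_lit 78) (nat_lit 0) (nat_lit 0) (XT.lf (nat_lit 0) (nat_lit 1165448339) (nat_lit 760) (nat_lit 2940826793) (nat_lit 836) (nat_lit 4684464501) (nat_lit 280) (nat_lit 5) (nat_lit 290) (nat_lit 5) (nat_lit 291) (nat_lit 5) (nat_lit 436) (nat_lit 386) (nat_lit 318)) (XT.lf (nat_lit 0) (nat_lit 6371189822)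 (nat_lit 836) (nat_lit 2430876265) (nat_lit 76) (nat_lit 71980187) (nat_lit 280) (nat_lit 5) (nat_lit 291) (nat_lit 5) (nat_lit 281) (nat_lit 5) (nat_lit 437) (nat_lit 386) (nat_lit 317))) (XT.nd (nat_lit 78) (nat_lit 760) (nat_lit 0) (XT.lf (nat_lit 0) (nat_lit 2850941931) (nat_lit 760) (nat_lit 5837251929) (nat_lit 836) (nat_lit 270707121) (nat_lit 270) (nat_lit 5) (nat_lit 280) (nat_lit 5) (nat_lit 281) (nat_lit 5) (nat_lit 438) (nat_lit 386) (nat_lit 316)) (XT.nd (nat_lit 78) (nat_lit 684) (nat_lit 0) (XT.lf (nat_lit 0) (nat_lit 1965169292) (nat_lit 836) (nat_lit 821514885) (nat_lit 76) (nat_lit 6258817289) (nat_lit 269) (nat_lit 5) (nat_lit 280) (nat_lit 5) (nat_lit 270) (nat_lit 5) (nat_lit 439) (nat_lit 386) (nat_lit 315)) (XT.lf (nat_lit 0) (nat_lit 4243855245) (nat_lit 760) (nat_lit 4540914890) (nat_lit 76) (nat_lit 349010434) (nat_lit 260) (nat_lit 5) (nat_lit 270) (nat_lit 5) (nat_lit 261) (nat_lit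 5) (nat_lit 440) (nat_lit 386) (nat_lit 314))))))) (XT.nd (nat_lit 780) (nat_lit 3420) (nat_lit 0) (XT.nd (nat_lit 390) (nat_lit 1824) (nat_lit 0) (XT.nd (nat_lit 156) (nat_lit 1368) (nat_lit 0) (XT.nd (nat_lit 78) (nat_lit 0) (nat_lit 0) (XT.lf (nat_lit 0) (nat_lit 861466727) (nat_lit 684) (nat_lit 5706181549) (nat_lit 760) (nat_lit 2656202714) (nat_lit 251) (nat_lit 5) (nat_lit 260) (nat_lit 5) (nat_lit 261) (nat_lit 5) (nat_lit 441) (nat_lit 386) (nat_lit 313)) (XT.lf (nat_lit 0) (nat_lit 6399379996) (nat_lit 684) (nat_lit 2539313368) (nat_lit 760) (nat_lit 377030011) (nat_lit 251) (nat_lit 5) (nat_lit 260) (nat_lit 5) (nat_lit 261) (nat_lit 5) (nat_lit 442) (nat_lit 386) (nat_lit 312))) (XT.nd (nat_lit 78) (nat_lit 684) (nat_lit 0) (XT.lf (nat_lit 0) (nat_lit 1914566564) (nat_lit 684) (nat_lit 6787479877) (nat_lit 76) (nat_lit 707301602) (nat_lit 242) (nat_lit 5) (nat_lit 251) (nat_lit 5) (nat_lit 243)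 (nat_lit 5) (nat_lit 443) (nat_lit 386) (nat_lit 311)) (XT.nd (nat_lit 78) (nat_lit 684) (nat_lit 0) (XT.lf (nat_lit 0) (nat_lit 4254472879) (nat_lit 684) (nat_lit 1247669623) (nat_lit 76) (nat_lit 4002517488) (nat_lit 242) (nat_lit 5) (nat_lit 251) (nat_lit 5) (nat_lit 243) (nat_lit 5) (nat_lit 444) (nat_lit 386) (nat_lit 310)) (XT.lf (nat_lit 0) (nat_lit 4427525776) (nat_lit 684) (nat_lit 2213971579) (nat_lit 760) (nat_lit 2960389277) (nat_lit 233) (nat_lit 5) (nat_lit 242) (nat_lit 5) (nat_lit 243) (nat_lit 5) (nat_lit 445) (nat_lit 386) (nat_lit 309))))) (XT.nd (nat_lit 156) (nat_lit 1140) (nat_lit 0) (XT.nd (nat_lit 78) (nat_lit 76) (nat_lit 0) (XT.lf (nat_lit 0) (nat_lit 497514089) (nat_lit 608) (nat_lit 8569689238) (nat_lit 684) (nat_lit 634050225) (nat_lit 225) (nat_lit 5) (nat_lit 233) (nat_lit 5) (nat_lit 234) (nat_lit 5) (nat_lit 446) (nat_lit 386) (nat_lit 308)) (XT.lf (nat_lit 0) (nat_lit 1737642108)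 (nat_lit 684) (nat_lit 3509093339) (nat_lit 76) (nat_lit 4555227945) (nat_lit 224) (nat_lit 5) (nat_lit 233) (nat_lit 5) (nat_lit 225) (nat_lit 5) (nat_lit 447) (nat_lit 386) (nat_lit 307))) (XT.nd (nat_lit 78) (nat_lit 532) (nat_lit 0) (XT.lf (nat_lit 0) (nat_lit 2292007993) (nat_lit 608) (nat_lit 1843724908) (nat_lit 684) (nat_lit 5769135340) (nat_lit 216) (nat_lit 5) (nat_lit 224) (nat_lit 5) (nat_lit 225) (nat_lit 5) (nat_lit 448) (nat_lit 386) (nat_lit 306)) (XT.nd (nat_lit 78) (nat_lit 532) (nat_lit 0) (XT.lf (nat_lit 0) (nat_lit 6588904909) (nat_lit 684) (nat_lit 1796980617) (nat_lit 76) (nat_lit 1623816728) (nat_lit 216) (nat_lit 5) (nat_lit 225) (nat_lit 5) (nat_lit 217) (nat_lit 5) (nat_lit 449) (nat_lit 386) (nat_lit 305)) (XT.lf (nat_lit 0) (nat_lit 4144423456) (nat_lit 532) (nat_lit 4959217485) (nat_lit 608) (nat_lit 1012755189) (nat_lit 209) (nat_lit 5) (nat_lit 216) (nat_lit 5) (nat_lit 217)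 (nat_lit 5) (nat_lit 450) (nat_lit 386) (nat_lit 304)))))) (XT.nd (nat_lit 390) (nat_lit 1596) (nat_lit 0) (XT.nd (nat_lit 156) (nat_lit 1140) (nat_lit 0) (XT.nd (nat_lit 78) (nat_lit 608) (nat_lit 0) (XT.lf (nat_lit 0) (nat_lit 1410159895) (nat_lit 608) (nat_lit 38506234) (nat_lit 76) (nat_lit 8776670132) (nat_lit 208) (nat_lit 5) (nat_lit 216) (nat_lit 5) (nat_lit 209) (nat_lit 5) (nat_lit 451) (nat_lit 386) (nat_lit 303)) (XT.lf (nat_lit 0) (nat_lit 3895420877) (nat_lit 684) (nat_lit 4296289590) (nat_lit 76) (nat_lit 2144074307) (nat_lit 200) (nat_lit 5) (nat_lit 209) (nat_lit 5) (nat_lit 201) (nat_lit 5) (nat_lit 452) (nat_lit 386) (nat_lit 302))) (XT.nd (nat_lit 78) (nat_lit 608) (nat_lit 0) (XT.lf (nat_lit 0) (nat_lit 1772080085) (nat_lit 532) (nat_lit 4653948170) (nat_lit 608) (nat_lit 4022513367) (nat_lit 193) (nat_lit 5) (nat_lit 200) (nat_lit 5) (nat_lit 201) (nat_lit 5) (nat_lit 453) (nat_lit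 386) (nat_lit 301)) (XT.nd (nat_lit 78) (nat_lit 608) (nat_lit 0) (XT.lf (nat_lit 0) (nat_lit 7987562625) (nat_lit 532) (nat_lit 1023090573) (nat_lit 608) (nat_lit 1552844248) (nat_lit 193) (nat_lit 5) (nat_lit 200) (nat_lit 5) (nat_lit 201) (nat_lit 5) (nat_lit 454) (nat_lit 386) (nat_lit 300)) (XT.lf (nat_lit 0) (nat_lit 969736268) (nat_lit 608) (nat_lit 7042141838) (nat_lit 76) (nat_lit 2668436495) (nat_lit 185) (nat_lit 5) (nat_lit 193) (nat_lit 5) (nat_lit 186) (nat_lit 5) (nat_lit 455) (nat_lit 386) (nat_lit 299))))) (XT.nd (nat_lit 234) (nat_lit 532) (nat_lit 0) (XT.nd (nat_lit 78) (nat_lit 1064) (nat_lit 0) (XT.lf (nat_lit 0) (nat_lit 3521305961) (nat_lit 608) (nat_lit 837265155) (nat_lit 76) (nat_lit 6440716354) (nat_lit 185) (nat_lit 5) (nat_lit 193) (nat_lit 5) (nat_lit 186) (nat_lit 5) (nat_lit 456) (nat_lit 386) (nat_lit 298)) (XT.nd (nat_lit 78) (nat_lit 532) (nat_lit 0) (XT.lf (nat_lit 0)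 (nat_lit 5532455364) (nat_lit 532) (nat_lit 602994529) (nat_lit 608) (nat_lit 4784970085) (nat_lit 178) (nat_lit 5) (nat_lit 185) (nat_lit 5) (nat_lit 186) (nat_lit 5) (nat_lit 457) (nat_lit 386) (nat_lit 297)) (XT.lf (nat_lit 0) (nat_lit 956561032) (nat_lit 532) (nat_lit 7853984917) (nat_lit 608) (nat_lit 2233266626) (nat_lit 171) (nat_lit 5) (nat_lit 178) (nat_lit 5) (nat_lit 179) (nat_lit 5) (nat_lit 458) (nat_lit 386) (nat_lit 296)))) (XT.nd (nat_lit 78) (nat_lit 456) (nat_lit 0) (XT.lf (nat_lit 0) (nat_lit 380958907) (nat_lit 608) (nat_lit 3706736086) (nat_lit 76) (nat_lit 7081613781) (nat_lit 170) (nat_lit 5) (nat_lit 178) (nat_lit 5) (nat_lit 171) (nat_lit 5) (nat_lit 459) (nat_lit 386) (nat_lit 295)) (XT.nd (nat_lit 78) (nat_lit 0) (nat_lit 0) (XT.lf (nat_lit 0) (nat_lit 2791676885) (nat_lit 456) (nat_lit 220458485) (nat_lit 532) (nat_lit 8285003091) (nat_lit 164) (nat_lit 5) (nat_lit 170) (nat_lit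 5) (nat_lit 171) (nat_lit 5) (nat_lit 460) (nat_lit 386) (nat_lit 294)) (XT.lf (nat_lit 0) (nat_lit 5721777251) (nat_lit 532) (nat_lit 2012820900) (nat_lit 76) (nat_lit 3692419750) (nat_lit 164) (nat_lit 5) (nat_lit 171) (nat_lit 5) (nat_lit 165) (nat_lit 5) (nat_lit 461) (nat_lit 386) (nat_lit 293))))))))
noncomputable def xc117 : XT := (XT.nd (nat_lit 1560) (nat_lit 2964) (nat_lit 0) (XT.nd (nat_lit 780) (nat_lit 2356) (nat_lit 0) (XT.nd (nat_lit 390) (nat_lit 1292) (nat_lit 0) (XT.nd (nat_lit 156) (nat_lit 988) (nat_lit 0) (XT.nd (nat_lit 78) (nat_lit 0) (nat_lit 0) (XT.lf (nat_lit 0) (nat_lit 4637908886) (nat_lit 456) (nat_lit 3856357350) (nat_lit 532) (nat_lit 3065065410) (nat_lit 158) (nat_lit 5) (nat_lit 164) (nat_lit 5) (nat_lit 165) (nat_lit 5) (nat_lit 462) (nat_lit 386) (nat_lit 292)) (XT.lf (nat_lit 0) (nat_lit 11313724097) (nat_lit 532) (nat_lit 277154384) (nat_lit 76) (nat_lit 103592414) (nat_lit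 158) (nat_lit 5) (nat_lit 165) (nat_lit 5) (nat_lit 159) (nat_lit 5) (nat_lit 463) (nat_lit 386) (nat_lit 291))) (XT.nd (nat_lit 78) (nat_lit 456) (nat_lit 0) (XT.lf (nat_lit 0) (nat_lit 2372289607) (nat_lit 532) (nat_lit 5317642848) (nat_lit 76) (nat_lit 4141164667) (nat_lit 151) (nat_lit 5) (nat_lit 158) (nat_lit 5) (nat_lit 152) (nat_lit 5) (nat_lit 464) (nat_lit 386) (nat_lit 290)) (XT.nd (nat_lit 78) (nat_lit 0) (nat_lit 0) (XT.lf (nat_lit 0) (nat_lit 1458991667) (nat_lit 456) (nat_lit 3705452573) (nat_lit 532) (nat_lit 6806187239) (nat_lit 145) (nat_lit 5) (nat_lit 151) (nat_lit 5) (nat_lit 152) (nat_lit 5) (nat_lit 465) (nat_lit 386) (nat_lit 289)) (XT.lf (nat_lit 0) (nat_lit 8028677648) (nat_lit 532) (nat_lit 3702579056) (nat_lit 76) (nat_lit 381383986) (nat_lit 145) (nat_lit 5) (nat_lit 152) (nat_lit 5) (nat_lit 146) (nat_lit 5) (nat_lit 466) (nat_lit 386) (nat_lit 288))))) (XT.nd (nat_lit 156)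 (nat_lit 836) (nat_lit 0) (XT.nd (nat_lit 78) (nat_lit 76) (nat_lit 0) (XT.lf (nat_lit 0) (nat_lit 3230082898) (nat_lit 380) (nat_lit 7744041882) (nat_lit 456) (nat_lit 1282895426) (nat_lit 140) (nat_lit 5) (nat_lit 145) (nat_lit 5) (nat_lit 146) (nat_lit 5) (nat_lit 467) (nat_lit 386) (nat_lit 287)) (XT.lf (nat_lit 0) (nat_lit 1557053537) (nat_lit 456) (nat_lit 2093085962) (nat_lit 76) (nat_lit 8753881650) (nat_lit 139) (nat_lit 5) (nat_lit 145) (nat_lit 5) (nat_lit 140) (nat_lit 5) (nat_lit 468) (nat_lit 386) (nat_lit 286))) (XT.nd (nat_lit 78) (nat_lit 380) (nat_lit 0) (XT.lf (nat_lit 0) (nat_lit 4451690256) (nat_lit 532) (nat_lit 7550488554) (nat_lit 76) (nat_lit 551320567) (nat_lit 133) (nat_lit 5) (nat_lit 140) (nat_lit 5) (nat_lit 134) (nat_lit 5) (nat_lit 469) (nat_lit 386) (nat_lit 285)) (XT.nd (nat_lit 78) (nat_lit 380) (nat_lit 0) (XT.lf (nat_lit 0) (nat_lit 7421611386) (nat_lit 532) (nat_lit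 490621547) (nat_lit 76) (nat_lit 4793394446) (nat_lit 133) (nat_lit 5) (nat_lit 140) (nat_lit 5) (nat_lit 134) (nat_lit 5) (nat_lit 470) (nat_lit 386) (nat_lit 284)) (XT.lf (nat_lit 0) (nat_lit 6769747851) (nat_lit 380) (nat_lit 3704626822) (nat_lit 456) (nat_lit 2385962275) (nat_lit 128) (nat_lit 5) (nat_lit 133) (nat_lit 5) (nat_lit 134) (nat_lit 5) (nat_lit 471) (nat_lit 386) (nat_lit 283)))))) (XT.nd (nat_lit 390) (nat_lit 1140) (nat_lit 0) (XT.nd (nat_lit 156) (nat_lit 760) (nat_lit 0) (XT.nd (nat_lit 78) (nat_lit 0) (nat_lit 0) (XT.lf (nat_lit 0) (nat_lit 556737036) (nat_lit 456) (nat_lit 11876480658) (nat_lit 76) (nat_lit 584973353) (nat_lit 122) (nat_lit 5) (nat_lit 128) (nat_lit 5) (nat_lit 123) (nat_lit 5) (nat_lit 472) (nat_lit 386) (nat_lit 282)) (XT.lf (nat_lit 0) (nat_lit 3571758560) (nat_lit 456) (nat_lit 4647499917) (nat_lit 76) (nat_lit 4958727429) (nat_lit 122) (nat_lit 5) (nat_lit 128)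 (nat_lit 5) (nat_lit 123) (nat_lit 5) (nat_lit 473) (nat_lit 386) (nat_lit 281))) (XT.nd (nat_lit 78) (nat_lit 380) (nat_lit 0) (XT.lf (nat_lit 0) (nat_lit 2732759084) (nat_lit 380) (nat_lit 3912172860) (nat_lit 456) (nat_lit 6696094974) (nat_lit 117) (nat_lit 5) (nat_lit 122) (nat_lit 5) (nat_lit 123) (nat_lit 5) (nat_lit 474) (nat_lit 386) (nat_lit 280)) (XT.nd (nat_lit 78) (nat_lit 380) (nat_lit 0) (XT.lf (nat_lit 0) (nat_lit 9794336311) (nat_lit 456) (nat_lit 3215704574) (nat_lit 76) (nat_lit 496999654) (nat_lit 117) (nat_lit 5) (nat_lit 123) (nat_lit 5) (nat_lit 118) (nat_lit 5) (nat_lit 475) (nat_lit 386) (nat_lit 279)) (XT.lf (nat_lit 0) (nat_lit 4326831978) (nat_lit 380) (nat_lit 8714535606) (nat_lit 456) (nat_lit 634321072) (nat_lit 112) (nat_lit 5) (nat_lit 117) (nat_lit 5) (nat_lit 118) (nat_lit 5) (nat_lit 476) (nat_lit 386) (nat_lit 278))))) (XT.nd (nat_lit 156) (nat_lit 760) (nat_lit 0) (XT.nd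 (nat_lit 78) (nat_lit 304) (nat_lit 0) (XT.lf (nat_lit 0) (nat_lit 2475188385) (nat_lit 456) (nat_lit 1828671323) (nat_lit 76) (nat_lit 9543482984) (nat_lit 111) (nat_lit 5) (nat_lit 117) (nat_lit 5) (nat_lit 112) (nat_lit 5) (nat_lit 477) (nat_lit 386) (nat_lit 277)) (XT.lf (nat_lit 0) (nat_lit 5659186446) (nat_lit 380) (nat_lit 8136757731) (nat_lit 76) (nat_lit 225992531) (nat_lit 107) (nat_lit 5) (nat_lit 112) (nat_lit 5) (nat_lit 108) (nat_lit 5) (nat_lit 478) (nat_lit 386) (nat_lit 276))) (XT.nd (nat_lit 78) (nat_lit 760) (nat_lit 0) (XT.lf (nat_lit 0) (nat_lit 8928924928) (nat_lit 380) (nat_lit 478627948) (nat_lit 76) (nat_lit 4792034987) (nat_lit 107) (nat_lit 5) (nat_lit 112) (nat_lit 5) (nat_lit 108) (nat_lit 5) (nat_lit 479) (nat_lit 386) (nat_lit 275)) (XT.nd (nat_lit 78) (nat_lit 380) (nat_lit 0) (XT.lf (nat_lit 0) (nat_lit 7401936744) (nat_lit 380) (nat_lit 4891753703) (nat_lit 456) (nat_lit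 2086515288) (nat_lit 102) (nat_lit 5) (nat_lit 107) (nat_lit 5) (nat_lit 108) (nat_lit 5) (nat_lit 480) (nat_lit 386) (nat_lit 274)) (XT.lf (nat_lit 0) (nat_lit 858048366) (nat_lit 304) (nat_lit 278469200) (nat_lit 380) (nat_lit 13427965031) (nat_lit 97) (nat_lit 5) (nat_lit 101) (nat_lit 5) (nat_lit 102) (nat_lit 5) (nat_lit 481) (nat_lit 386) (nat_lit 273))))))) (XT.nd (nat_lit 780) (nat_lit 1368) (nat_lit 0) (XT.nd (nat_lit 390) (nat_lit 912) (nat_lit 0) (XT.nd (nat_lit 156) (nat_lit 380) (nat_lit 0) (XT.nd (nat_lit 78) (nat_lit 304) (nat_lit 0) (XT.lf (nat_lit 0) (nat_lit 4453728022) (nat_lit 380) (nat_lit 5876693204) (nat_lit 76) (nat_lit 4420600798) (nat_lit 97) (nat_lit 5) (nat_lit 102) (nat_lit 5) (nat_lit 98) (nat_lit 5) (nat_lit 482) (nat_lit 386) (nat_lit 272)) (XT.lf (nat_lit 0) (nat_lit 2107996738) (nat_lit 304) (nat_lit 5726922262) (nat_lit 380) (nat_lit 7106426373) (nat_lit 93) (nat_lit 5)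 (nat_lit 97) (nat_lit 5) (nat_lit 98) (nat_lit 5) (nat_lit 483) (nat_lit 386) (nat_lit 271))) (XT.nd (nat_lit 78) (nat_lit 380) (nat_lit 0) (XT.lf (nat_lit 0) (nat_lit 10304772693) (nat_lit 304) (nat_lit 1000676271) (nat_lit 380) (nat_lit 3829597663) (nat_lit 93) (nat_lit 5) (nat_lit 97) (nat_lit 5) (nat_lit 98) (nat_lit 5) (nat_lit 484) (nat_lit 386) (nat_lit 270)) (XT.nd (nat_lit 78) (nat_lit 76) (nat_lit 0) (XT.lf (nat_lit 0) (nat_lit 3324637322) (nat_lit 304) (nat_lit 11549706694) (nat_lit 380) (nat_lit 457704431) (nat_lit 89) (nat_lit 5) (nat_lit 93) (nat_lit 5) (nat_lit 94) (nat_lit 5) (nat_lit 485) (nat_lit 386) (nat_lit 269)) (XT.lf (nat_lit 0) (nat_lit 2964391315) (nat_lit 380) (nat_lit 3877504173) (nat_lit 76) (nat_lit 8690275667) (nat_lit 88) (nat_lit 5) (nat_lit 93) (nat_lit 5) (nat_lit 89) (nat_lit 5) (nat_lit 486) (nat_lit 386) (nat_lit 268))))) (XT.nd (nat_lit 156) (nat_lit 608) (nat_lit 0)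 (XT.nd (nat_lit 78) (nat_lit 0) (nat_lit 0) (XT.lf (nat_lit 0) (nat_lit 4443696473) (nat_lit 304) (nat_lit 2016915781) (nat_lit 380) (nat_lit 9275392621) (nat_lit 84) (nat_lit 5) (nat_lit 88) (nat_lit 5) (nat_lit 89) (nat_lit 5) (nat_lit 487) (nat_lit 386) (nat_lit 267)) (XT.lf (nat_lit 0) (nat_lit 10054864465) (nat_lit 380) (nat_lit 3005203483) (nat_lit 76) (nat_lit 2883290388) (nat_lit 84) (nat_lit 5) (nat_lit 89) (nat_lit 5) (nat_lit 85) (nat_lit 5) (nat_lit 488) (nat_lit 386) (nat_lit 266))) (XT.nd (nat_lit 78) (nat_lit 380) (nat_lit 0) (XT.lf (nat_lit 0) (nat_lit 5480021012) (nat_lit 228) (nat_lit 8273306015) (nat_lit 304) (nat_lit 2400890431) (nat_lit 81) (nat_lit 5) (nat_lit 84) (nat_lit 5) (nat_lit 85) (nat_lit 5) (nat_lit 489) (nat_lit 386) (nat_lit 265)) (XT.nd (nat_lit 78) (nat_lit 304) (nat_lit 0) (XT.lf (nat_lit 0) (nat_lit 1145029432) (nat_lit 304) (nat_lit 2227036263) (nat_lit 76) (nat_lit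 12997008166) (nat_lit 80) (nat_lit 5) (nat_lit 84) (nat_lit 5) (nat_lit 81) (nat_lit 5) (nat_lit 490) (nat_lit 386) (nat_lit 264)) (XT.lf (nat_lit 0) (nat_lit 4766151517) (nat_lit 380) (nat_lit 10166443872) (nat_lit 76) (nat_lit 1654590775) (nat_lit 76) (nat_lit 5) (nat_lit 81) (nat_lit 5) (nat_lit 77) (nat_lit 5) (nat_lit 491) (nat_lit 386) (nat_lit 263)))))) (XT.nd (nat_lit 390) (nat_lit 760) (nat_lit 0) (XT.nd (nat_lit 156) (nat_lit 380) (nat_lit 0) (XT.nd (nat_lit 78) (nat_lit 228) (nat_lit 0) (XT.lf (nat_lit 0) (nat_lit 8480919333) (nat_lit 380) (nat_lit 1585900861) (nat_lit 76) (nat_lit 6742420765) (nat_lit 76) (nat_lit 5) (nat_lit 81) (nat_lit 5) (nat_lit 77) (nat_lit 5) (nat_lit 492) (nat_lit 386) (nat_lit 262)) (XT.lf (nat_lit 0) (nat_lit 7235885311) (nat_lit 228) (nat_lit 5065242235) (nat_lit 304) (nat_lit 4733991021) (nat_lit 73) (nat_lit 5) (nat_lit 76) (nat_lit 5) (nat_lit 77) (nat_lit 5) (nat_lit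 493) (nat_lit 386) (nat_lit 261))) (XT.nd (nat_lit 78) (nat_lit 380) (nat_lit 0) (XT.lf (nat_lit 0) (nat_lit 16192940024) (nat_lit 304) (nat_lit 1035361533) (nat_lit 76) (nat_lit 37312697) (nat_lit 73) (nat_lit 5) (nat_lit 77) (nat_lit 5) (nat_lit 74) (nat_lit 5) (nat_lit 494) (nat_lit 386) (nat_lit 260)) (XT.nd (nat_lit 78) (nat_lit 0) (nat_lit 0) (XT.lf (nat_lit 0) (nat_lit 2697134415) (nat_lit 380) (nat_lit 9567431586) (nat_lit 76) (nat_lit 5234409025) (nat_lit 68) (nat_lit 5) (nat_lit 73) (nat_lit 5) (nat_lit 69) (nat_lit 5) (nat_lit 495) (nat_lit 386) (nat_lit 259)) (XT.lf (nat_lit 0) (nat_lit 6519580241) (nat_lit 380) (nat_lit 677099500) (nat_lit 76) (nat_lit 10540353650) (nat_lit 68) (nat_lit 5) (nat_lit 73) (nat_lit 5) (nat_lit 69) (nat_lit 5) (nat_lit 496) (nat_lit 386) (nat_lit 258))))) (XT.nd (nat_lit 234) (nat_lit 228) (nat_lit 0) (XT.nd (nat_lit 78) (nat_lit 304) (nat_lit 0) (XT.lf (nat_lit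 0) (nat_lit 8477808843) (nat_lit 228) (nat_lit 1980608577) (nat_lit 304) (nat_lit 7520640837) (nat_lit 65) (nat_lit 5) (nat_lit 68) (nat_lit 5) (nat_lit 69) (nat_lit 5) (nat_lit 497) (nat_lit 386) (nat_lit 257)) (XT.nd (nat_lit 78) (nat_lit 304) (nat_lit 0) (XT.lf (nat_lit 0) (nat_lit 14487266352) (nat_lit 304) (nat_lit 447054041) (nat_lit 76) (nat_lit 3291382628) (nat_lit 65) (nat_lit 5) (nat_lit 69) (nat_lit 5) (nat_lit 66) (nat_lit 5) (nat_lit 498) (nat_lit 386) (nat_lit 256)) (XT.lf (nat_lit 0) (nat_lit 174173372) (nat_lit 304) (nat_lit 9609925690) (nat_lit 76) (nat_lit 8692043496) (nat_lit 61) (nat_lit 5) (nat_lit 65) (nat_lit 5) (nat_lit 62) (nat_lit 5) (nat_lit 499) (nat_lit 386) (nat_lit 255)))) (XT.nd (nat_lit 78) (nat_lit 228) (nat_lit 0) (XT.lf (nat_lit 0) (nat_lit 4103349592) (nat_lit 304) (nat_lit 408556926) (nat_lit 76) (nat_lit 14219426580) (nat_lit 61) (nat_lit 5) (nat_lit 65) (nat_lit 5)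 (nat_lit 62) (nat_lit 5) (nat_lit 500) (nat_lit 386) (nat_lit 254)) (XT.nd (nat_lit 78) (nat_lit 0) (nat_lit 0) (XT.lf (nat_lit 0) (nat_lit 8161556803) (nat_lit 304) (nat_lit 9924459136) (nat_lit 76) (nat_lit 904606348) (nat_lit 58) (nat_lit 5) (nat_lit 62) (nat_lit 5) (nat_lit 59) (nat_lit 5) (nat_lit 501) (nat_lit 386) (nat_lit 253)) (XT.lf (nat_lit 0) (nat_lit 12319232151) (nat_lit 304) (nat_lit 572689274) (nat_lit 76) (nat_lit 6362813470) (nat_lit 58) (nat_lit 5) (nat_lit 62) (nat_lit 5) (nat_lit 59) (nat_lit 5) (nat_lit 502) (nat_lit 386) (nat_lit 252))))))))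
noncomputable def xc118 : XT := (XT.nd (nat_lit 51792) (nat_lit 0) (nat_lit 23104) (XT.nd (nat_lit 51012) (nat_lit 0) (nat_lit 38532) (XT.nd (nat_lit 50622) (nat_lit 0) (nat_lit 41800) (XT.nd (nat_lit 50388) (nat_lit 0) (nat_lit 42484) (XT.nd (nat_lit 50310) (nat_lit 0) (nat_lit 43624) (XT.lf (nat_lit 0) (nat_lit 9061762391) (nat_lit 228) (nat_lit 7543078712) (nat_lit 304) (nat_lit 2918396692) (nat_lit 55) (nat_lit 5) (nat_lit 58) (nat_lit 5) (nat_lit 59) (nat_lit 5) (nat_lit 503) (nat_lit 386) (nat_lit 251)) (XT.lf (nat_lit 0) (nat_lit 3094032636) (nat_lit 532) (nat_lit 87462913) (nat_lit 532) (nat_lit 87462913) (nat_lit 629) (nat_lit 3) (nat_lit 636) (nat_lit 3) (nat_lit 636) (nat_lit 5) (nat_lit 387) (nat_lit 387) (nat_lit 366))) (XT.nd (nat_lit 78) (nat_lit 608) (nat_lit 0) (XT.lf (nat_lit 0) (nat_lit 2104276481) (nat_lit 532) (nat_lit 3613718648) (nat_lit 608) (nat_lit 833976389) (nat_lit 622) (nat_lit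 5) (nat_lit 629) (nat_lit 3) (nat_lit 630) (nat_lit 5) (nat_lit 388) (nat_lit 387) (nat_lit 365)) (XT.nd (nat_lit 78) (nat_lit 608) (nat_lit 0) (XT.lf (nat_lit 0) (nat_lit 4539937734) (nat_lit 532) (nat_lit 486226266) (nat_lit 608) (nat_lit 1541414859) (nat_lit 622) (nat_lit 5) (nat_lit 629) (nat_lit 3) (nat_lit 630) (nat_lit 5) (nat_lit 389) (nat_lit 387) (nat_lit 364)) (XT.lf (nat_lit 0) (nat_lit 389450345) (nat_lit 608) (nat_lit 3880738737) (nat_lit 684) (nat_lit 2314221922) (nat_lit 614) (nat_lit 5) (nat_lit 622) (nat_lit 5) (nat_lit 623) (nat_lit 5) (nat_lit 390) (nat_lit 387) (nat_lit 363))))) (XT.nd (nat_lit 156) (nat_lit 684) (nat_lit 0) (XT.nd (nat_lit 78) (nat_lit 0) (nat_lit 0) (XT.lf (nat_lit 0) (nat_lit 2768799991) (nat_lit 608) (nat_lit 684695267) (nat_lit 684) (nat_lit 3149052264) (nat_lit 614) (nat_lit 5) (nat_lit 622) (nat_lit 5) (nat_lit 623) (nat_lit 5) (nat_lit 391) (nat_lit 387) (nat_lit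 362)) (XT.lf (nat_lit 76) (nat_lit 2576023959) (nat_lit 0) (nat_lit 2575415023) (nat_lit 684) (nat_lit 1470549733) (nat_lit 615) (nat_lit 5) (nat_lit 614) (nat_lit 5) (nat_lit 623) (nat_lit 5) (nat_lit 392) (nat_lit 387) (nat_lit 361))) (XT.nd (nat_lit 78) (nat_lit 0) (nat_lit 0) (XT.lf (nat_lit 0) (nat_lit 871718792) (nat_lit 684) (nat_lit 770291547) (nat_lit 760) (nat_lit 5000857483) (nat_lit 605) (nat_lit 5) (nat_lit 614) (nat_lit 5) (nat_lit 615) (nat_lit 5) (nat_lit 393) (nat_lit 387) (nat_lit 360)) (XT.nd (nat_lit 78) (nat_lit 0) (nat_lit 76) (XT.lf (nat_lit 76) (nat_lit 2561743781) (nat_lit 0) (nat_lit 636744089) (nat_lit 760) (nat_lit 3466388081) (nat_lit 606) (nat_lit 5) (nat_lit 605) (nat_lit 5) (nat_lit 615) (nat_lit 5) (nat_lit 394) (nat_lit 387) (nat_lit 359)) (XT.lf (nat_lit 0) (nat_lit 5521329643) (nat_lit 684) (nat_lit 753094959) (nat_lit 760) (nat_lit 413960622) (nat_lit 606) (nat_lit 5)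 (nat_lit 615) (nat_lit 5) (nat_lit 616) (nat_lit 5) (nat_lit 395) (nat_lit 387) (nat_lit 358)))))) (XT.nd (nat_lit 390) (nat_lit 1748) (nat_lit 0) (XT.nd (nat_lit 156) (nat_lit 836) (nat_lit 0) (XT.nd (nat_lit 78) (nat_lit 0) (nat_lit 0) (XT.lf (nat_lit 0) (nat_lit 1126971282) (nat_lit 760) (nat_lit 4059421352) (nat_lit 836) (nat_lit 1526585550) (nat_lit 596) (nat_lit 5) (nat_lit 606) (nat_lit 5) (nat_lit 607) (nat_lit 5) (nat_lit 396) (nat_lit 387) (nat_lit 357)) (XT.lf (nat_lit 0) (nat_lit 3399786880) (nat_lit 760) (nat_lit 641262026) (nat_lit 836) (nat_lit 2697937856) (nat_lit 596) (nat_lit 5) (nat_lit 606) (nat_lit 5) (nat_lit 607) (nat_lit 5) (nat_lit 397) (nat_lit 387) (nat_lit 356))) (XT.nd (nat_lit 78) (nat_lit 836) (nat_lit 0) (XT.lf (nat_lit 76) (nat_lit 2849208918) (nat_lit 0) (nat_lit 2831891308) (nat_lit 836) (nat_lit 1085202247) (nat_lit 597) (nat_lit 5) (nat_lit 596) (nat_lit 5) (nat_lit 607)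 (nat_lit 5) (nat_lit 398) (nat_lit 387) (nat_lit 355)) (XT.nd (nat_lit 78) (nat_lit 0) (nat_lit 0) (XT.lf (nat_lit 0) (nat_lit 1147293451) (nat_lit 836) (nat_lit 417782814) (nat_lit 912) (nat_lit 5229989774) (nat_lit 585) (nat_lit 5) (nat_lit 596) (nat_lit 5) (nat_lit 597) (nat_lit 5) (nat_lit 399) (nat_lit 387) (nat_lit 354)) (XT.lf (nat_lit 76) (nat_lit 3152360999) (nat_lit 0) (nat_lit 224112907) (nat_lit 912) (nat_lit 3448501225) (nat_lit 586) (nat_lit 5) (nat_lit 585) (nat_lit 5) (nat_lit 597) (nat_lit 5) (nat_lit 400) (nat_lit 387) (nat_lit 353))))) (XT.nd (nat_lit 156) (nat_lit 912) (nat_lit 0) (XT.nd (nat_lit 78) (nat_lit 912) (nat_lit 0) (XT.lf (nat_lit 0) (nat_lit 5607542489) (nat_lit 836) (nat_lit 97625866) (nat_lit 912) (nat_lit 1151212109) (nat_lit 586) (nat_lit 5) (nat_lit 597) (nat_lit 5) (nat_lit 598) (nat_lit 5) (nat_lit 401) (nat_lit 387) (nat_lit 352)) (XT.lf (nat_lit 0) (nat_lit 954243621)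 (nat_lit 912) (nat_lit 3334860949) (nat_lit 988) (nat_lit 2599773144) (nat_lit 574) (nat_lit 5) (nat_lit 586) (nat_lit 5) (nat_lit 587) (nat_lit 5) (nat_lit 402) (nat_lit 387) (nat_lit 351))) (XT.nd (nat_lit 78) (nat_lit 912) (nat_lit 0) (XT.lf (nat_lit 76) (nat_lit 319765089) (nat_lit 0) (nat_lit 2816166447) (nat_lit 988) (nat_lit 3786944546) (nat_lit 575) (nat_lit 5) (nat_lit 574) (nat_lit 5) (nat_lit 587) (nat_lit 5) (nat_lit 403) (nat_lit 387) (nat_lit 350)) (XT.nd (nat_lit 78) (nat_lit 912) (nat_lit 0) (XT.lf (nat_lit 76) (nat_lit 4058755603) (nat_lit 0) (nat_lit 1274180875) (nat_lit 988) (nat_lit 1625225062) (nat_lit 575) (nat_lit 5) (nat_lit 574) (nat_lit 5) (nat_lit 587) (nat_lit 5) (nat_lit 404) (nat_lit 387) (nat_lit 349)) (XT.lf (nat_lit 0) (nat_lit 529691150) (nat_lit 988) (nat_lit 6145303851) (nat_lit 76) (nat_lit 319970319) (nat_lit 562) (nat_lit 5) (nat_lit 575) (nat_lit 5) (nat_lit 563) (nat_lit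 5) (nat_lit 405) (nat_lit 387) (nat_lit 348))))))) (XT.nd (nat_lit 780) (nat_lit 9500) (nat_lit 0) (XT.nd (nat_lit 390) (nat_lit 3800) (nat_lit 0) (XT.nd (nat_lit 156) (nat_lit 1140) (nat_lit 0) (XT.nd (nat_lit 78) (nat_lit 988) (nat_lit 0) (XT.lf (nat_lit 0) (nat_lit 2684781614) (nat_lit 988) (nat_lit 2373308141) (nat_lit 76) (nat_lit 1974662246) (nat_lit 562) (nat_lit 5) (nat_lit 575) (nat_lit 5) (nat_lit 563) (nat_lit 5) (nat_lit 406) (nat_lit 387) (nat_lit 347)) (XT.lf (nat_lit 0) (nat_lit 1459072981) (nat_lit 988) (nat_lit 3385132681) (nat_lit 1064) (nat_lit 2227901801) (nat_lit 549) (nat_lit 5) (nat_lit 562) (nat_lit 5) (nat_lit 563) (nat_lit 5) (nat_lit 407) (nat_lit 387) (nat_lit 346))) (XT.nd (nat_lit 78) (nat_lit 1140) (nat_lit 0) (XT.lf (nat_lit 0) (nat_lit 5366306973) (nat_lit 988) (nat_lit 1648921253) (nat_lit 1064) (nat_lit 97690549) (nat_lit 549) (nat_lit 5) (nat_lit 562) (nat_lit 5) (nat_lit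 563) (nat_lit 5) (nat_lit 408) (nat_lit 387) (nat_lit 345)) (XT.nd (nat_lit 78) (nat_lit 0) (nat_lit 0) (XT.lf (nat_lit 0) (nat_lit 2016182725) (nat_lit 1140) (nat_lit 4977751391) (nat_lit 76) (nat_lit 161012774) (nat_lit 534) (nat_lit 5) (nat_lit 549) (nat_lit 5) (nat_lit 535) (nat_lit 5) (nat_lit 409) (nat_lit 387) (nat_lit 344)) (XT.lf (nat_lit 0) (nat_lit 4147598499) (nat_lit 1140) (nat_lit 1040846810) (nat_lit 76) (nat_lit 2009860695) (nat_lit 534) (nat_lit 5) (nat_lit 549) (nat_lit 5) (nat_lit 535) (nat_lit 5) (nat_lit 410) (nat_lit 387) (nat_lit 343))))) (XT.nd (nat_lit 156) (nat_lit 2584) (nat_lit 0) (XT.nd (nat_lit 78) (nat_lit 76) (nat_lit 0) (XT.lf (nat_lit 0) (nat_lit 2979782322) (nat_lit 1140) (nat_lit 3315965395) (nat_lit 1216) (nat_lit 947336610) (nat_lit 519) (nat_lit 5) (nat_lit 534) (nat_lit 5) (nat_lit 535) (nat_lit 5) (nat_lit 411) (nat_lit 387) (nat_lit 342)) (XT.lf (nat_lit 0) (nat_lit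 1144516645) (nat_lit 1216) (nat_lit 236009817) (nat_lit 76) (nat_lit 5908866414) (nat_lit 518) (nat_lit 5) (nat_lit 534) (nat_lit 5) (nat_lit 519) (nat_lit 5) (nat_lit 412) (nat_lit 387) (nat_lit 341))) (XT.nd (nat_lit 78) (nat_lit 1368) (nat_lit 0) (XT.lf (nat_lit 0) (nat_lit 3250849465) (nat_lit 1292) (nat_lit 3458385991) (nat_lit 76) (nat_lit 627592517) (nat_lit 502) (nat_lit 5) (nat_lit 519) (nat_lit 5) (nat_lit 503) (nat_lit 5) (nat_lit 413) (nat_lit 387) (nat_lit 340)) (XT.nd (nat_lit 78) (nat_lit 76) (nat_lit 0) (XT.lf (nat_lit 0) (nat_lit 658117440) (nat_lit 1292) (nat_lit 4712887556) (nat_lit 1368) (nat_lit 2014804385) (nat_lit 485) (nat_lit 5) (nat_lit 502) (nat_lit 5) (nat_lit 503) (nat_lit 5) (nat_lit 414) (nat_lit 387) (nat_lit 339)) (XT.lf (nat_lit 0) (nat_lit 76871407) (nat_lit 1368) (nat_lit 2567201733) (nat_lit 76) (nat_lit 4792107669) (nat_lit 484) (nat_lit 5) (nat_lit 502) (nat_lit 5)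 (nat_lit 485) (nat_lit 5) (nat_lit 415) (nat_lit 387) (nat_lit 338)))))) (XT.nd (nat_lit 390) (nat_lit 5092) (nat_lit 0) (XT.nd (nat_lit 156) (nat_lit 3040) (nat_lit 0) (XT.nd (nat_lit 78) (nat_lit 0) (nat_lit 0) (XT.lf (nat_lit 0) (nat_lit 1650550400) (nat_lit 1368) (nat_lit 501436397) (nat_lit 1444) (nat_lit 5335964536) (nat_lit 466) (nat_lit 5) (nat_lit 484) (nat_lit 5) (nat_lit 485) (nat_lit 5) (nat_lit 416) (nat_lit 387) (nat_lit 337)) (XT.lf (nat_lit 0) (nat_lit 4255377023) (nat_lit 1444) (nat_lit 1598939874) (nat_lit 76) (nat_lit 1686734049) (nat_lit 466) (nat_lit 5) (nat_lit 485) (nat_lit 5) (nat_lit 467) (nat_lit 5) (nat_lit 417) (nat_lit 387) (nat_lit 336))) (XT.nd (nat_lit 78) (nat_lit 1596) (nat_lit 0) (XT.lf (nat_lit 0) (nat_lit 2722423984) (nat_lit 1444) (nat_lit 3658718577) (nat_lit 1520) (nat_lit 1214492399) (nat_lit 447) (nat_lit 5) (nat_lit 466) (nat_lit 5) (nat_lit 467) (nat_lit 5) (nat_lit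 418) (nat_lit 387) (nat_lit 335)) (XT.nd (nat_lit 78) (nat_lit 1520) (nat_lit 0) (XT.lf (nat_lit 0) (nat_lit 856729222) (nat_lit 1520) (nat_lit 539698902) (nat_lit 76) (nat_lit 6255385448) (nat_lit 446) (nat_lit 5) (nat_lit 466) (nat_lit 5) (nat_lit 447) (nat_lit 5) (nat_lit 419) (nat_lit 387) (nat_lit 334)) (XT.lf (nat_lit 0) (nat_lit 2944941801) (nat_lit 1596) (nat_lit 3825901180) (nat_lit 76) (nat_lit 938302559) (nat_lit 426) (nat_lit 5) (nat_lit 447) (nat_lit 5) (nat_lit 427) (nat_lit 5) (nat_lit 420) (nat_lit 387) (nat_lit 333))))) (XT.nd (nat_lit 234) (nat_lit 1748) (nat_lit 0) (XT.nd (nat_lit 78) (nat_lit 1748) (nat_lit 0) (XT.lf (nat_lit 0) (nat_lit 598456741) (nat_lit 1596) (nat_lit 4454220682) (nat_lit 1672) (nat_lit 2715417931) (nat_lit 405) (nat_lit 5) (nat_lit 426) (nat_lit 5) (nat_lit 427) (nat_lit 5) (nat_lit 421) (nat_lit 387) (nat_lit 332)) (XT.nd (nat_lit 78) (nat_lit 1748) (nat_lit 0)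 (XT.lf (nat_lit 0) (nat_lit 5128859286) (nat_lit 1596) (nat_lit 2060904361) (nat_lit 1672) (nat_lit 638742464) (nat_lit 405) (nat_lit 5) (nat_lit 426) (nat_lit 5) (nat_lit 427) (nat_lit 5) (nat_lit 422) (nat_lit 387) (nat_lit 331)) (XT.lf (nat_lit 0) (nat_lit 1436648635) (nat_lit 1748) (nat_lit 6053003859) (nat_lit 76) (nat_lit 400773627) (nat_lit 382) (nat_lit 5) (nat_lit 405) (nat_lit 5) (nat_lit 383) (nat_lit 5) (nat_lit 423) (nat_lit 387) (nat_lit 330)))) (XT.nd (nat_lit 78) (nat_lit 1748) (nat_lit 0) (XT.lf (nat_lit 0) (nat_lit 3539436583) (nat_lit 1748) (nat_lit 1504126404) (nat_lit 76) (nat_lit 2910072639) (nat_lit 382) (nat_lit 5) (nat_lit 405) (nat_lit 5) (nat_lit 383) (nat_lit 5) (nat_lit 424) (nat_lit 387) (nat_lit 329)) (XT.nd (nat_lit 78) (nat_lit 0) (nat_lit 0) (XT.lf (nat_lit 0) (nat_lit 3142896367) (nat_lit 1748) (nat_lit 2525073412) (nat_lit 1824) (nat_lit 2350489649) (nat_lit 359) (nat_lit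 5) (nat_lit 382) (nat_lit 5) (nat_lit 383) (nat_lit 5) (nat_lit 425) (nat_lit 387) (nat_lit 328)) (XT.lf (nat_lit 0) (nat_lit 7813317772) (nat_lit 1824) (nat_lit 216071654) (nat_lit 76) (nat_lit 55728824) (nat_lit 359) (nat_lit 5) (nat_lit 383) (nat_lit 5) (nat_lit 360) (nat_lit 5) (nat_lit 426) (nat_lit 387) (nat_lit 327))))))))
noncomputable def xc119 : XT := (XT.nd (nat_lit 1560) (nat_lit 6688) (nat_lit 0) (XT.nd (nat_lit 780) (nat_lit 4332) (nat_lit 0) (XT.nd (nat_lit 390) (nat_lit 2432) (nat_lit 0) (XT.nd (nat_lit 156) (nat_lit 912) (nat_lit 0) (XT.nd (nat_lit 78) (nat_lit 912) (nat_lit 0) (XT.lf (nat_lit 0) (nat_lit 1835012709) (nat_lit 988) (nat_lit 3619400152) (nat_lit 76) (nat_lit 2698264015) (nat_lit 346) (nat_lit 5) (nat_lit 359) (nat_lit 5) (nat_lit 347) (nat_lit 5) (nat_lit 427) (nat_lit 387) (nat_lit 326)) (XT.lf (nat_lit 0) (nat_lit 1137917181) (nat_lit 912) (nat_lit 2815989036) (nat_lit 988)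 (nat_lit 4268194930) (nat_lit 334) (nat_lit 5) (nat_lit 346) (nat_lit 5) (nat_lit 347) (nat_lit 5) (nat_lit 428) (nat_lit 387) (nat_lit 325))) (XT.nd (nat_lit 78) (nat_lit 912) (nat_lit 0) (XT.lf (nat_lit 0) (nat_lit 6005487150) (nat_lit 912) (nat_lit 99181980) (nat_lit 988) (nat_lit 2188476588) (nat_lit 334) (nat_lit 5) (nat_lit 346) (nat_lit 5) (nat_lit 347) (nat_lit 5) (nat_lit 429) (nat_lit 387) (nat_lit 324)) (XT.nd (nat_lit 78) (nat_lit 76) (nat_lit 0) (XT.lf (nat_lit 0) (nat_lit 2587384512) (nat_lit 836) (nat_lit 5711101039) (nat_lit 912) (nat_lit 67146082) (nat_lit 323) (nat_lit 5) (nat_lit 334) (nat_lit 5) (nat_lit 335) (nat_lit 5) (nat_lit 430) (nat_lit 387) (nat_lit 323)) (XT.lf (nat_lit 0) (nat_lit 2051320658) (nat_lit 912) (nat_lit 896939024) (nat_lit 76) (nat_lit 5491411586) (nat_lit 322) (nat_lit 5) (nat_lit 334) (nat_lit 5) (nat_lit 323) (nat_lit 5) (nat_lit 431) (nat_lit 387) (nat_lit 322)))))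 (XT.nd (nat_lit 156) (nat_lit 836) (nat_lit 0) (XT.nd (nat_lit 78) (nat_lit 760) (nat_lit 0) (XT.lf (nat_lit 0) (nat_lit 4101771555) (nat_lit 836) (nat_lit 102880278) (nat_lit 912) (nat_lit 4310683098) (nat_lit 311) (nat_lit 5) (nat_lit 322) (nat_lit 5) (nat_lit 323) (nat_lit 5) (nat_lit 432) (nat_lit 387) (nat_lit 321)) (XT.lf (nat_lit 0) (nat_lit 575530141) (nat_lit 760) (nat_lit 5820684135) (nat_lit 836) (nat_lit 2196413901) (nat_lit 301) (nat_lit 5) (nat_lit 311) (nat_lit 5) (nat_lit 312) (nat_lit 5) (nat_lit 433) (nat_lit 387) (nat_lit 320))) (XT.nd (nat_lit 78) (nat_lit 836) (nat_lit 0) (XT.lf (nat_lit 0) (nat_lit 5689740340) (nat_lit 760) (nat_lit 2939779128) (nat_lit 836) (nat_lit 42008809) (nat_lit 301) (nat_lit 5) (nat_lit 311) (nat_lit 5) (nat_lit 312) (nat_lit 5) (nat_lit 434) (nat_lit 387) (nat_lit 319)) (XT.nd (nat_lit 78) (nat_lit 0) (nat_lit 0) (XT.lf (nat_lit 0) (nat_lit 2109263683) (nat_lit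 836) (nat_lit 6617625833) (nat_lit 76) (nat_lit 25214461) (nat_lit 290) (nat_lit 5) (nat_lit 301) (nat_lit 5) (nat_lit 291) (nat_lit 5) (nat_lit 435) (nat_lit 387) (nat_lit 318)) (XT.lf (nat_lit 0) (nat_lit 4311032430) (nat_lit 836) (nat_lit 1494281294) (nat_lit 76) (nat_lit 3028829358) (nat_lit 290) (nat_lit 5) (nat_lit 301) (nat_lit 5) (nat_lit 291) (nat_lit 5) (nat_lit 436) (nat_lit 387) (nat_lit 317)))))) (XT.nd (nat_lit 390) (nat_lit 2052) (nat_lit 0) (XT.nd (nat_lit 156) (nat_lit 760) (nat_lit 0) (XT.nd (nat_lit 78) (nat_lit 760) (nat_lit 0) (XT.lf (nat_lit 0) (nat_lit 3747344581) (nat_lit 760) (nat_lit 2802863553) (nat_lit 836) (nat_lit 2367765157) (nat_lit 280) (nat_lit 5) (nat_lit 290) (nat_lit 5) (nat_lit 291) (nat_lit 5) (nat_lit 437) (nat_lit 387) (nat_lit 316)) (XT.lf (nat_lit 0) (nat_lit 76301808) (nat_lit 760) (nat_lit 8739557333) (nat_lit 836) (nat_lit 188004535) (nat_lit 270) (nat_lit 5)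 (nat_lit 280) (nat_lit 5) (nat_lit 281) (nat_lit 5) (nat_lit 438) (nat_lit 387) (nat_lit 315))) (XT.nd (nat_lit 78) (nat_lit 684) (nat_lit 0) (XT.lf (nat_lit 0) (nat_lit 2031728868) (nat_lit 836) (nat_lit 3658449046) (nat_lit 76) (nat_lit 3400584957) (nat_lit 269) (nat_lit 5) (nat_lit 280) (nat_lit 5) (nat_lit 270) (nat_lit 5) (nat_lit 439) (nat_lit 387) (nat_lit 314)) (XT.nd (nat_lit 78) (nat_lit 0) (nat_lit 0) (XT.lf (nat_lit 0) (nat_lit 1703888307) (nat_lit 684) (nat_lit 2570694941) (nat_lit 760) (nat_lit 4905183479) (nat_lit 260) (nat_lit 5) (nat_lit 269) (nat_lit 5) (nat_lit 270) (nat_lit 5) (nat_lit 440) (nat_lit 387) (nat_lit 313)) (XT.lf (nat_lit 0) (nat_lit 6561501057) (nat_lit 760) (nat_lit 2084749215) (nat_lit 76) (nat_lit 624332341) (nat_lit 260) (nat_lit 5) (nat_lit 270) (nat_lit 5) (nat_lit 261) (nat_lit 5) (nat_lit 441) (nat_lit 387) (nat_lit 312))))) (XT.nd (nat_lit 156) (nat_lit 1292) (nat_lit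 0) (XT.nd (nat_lit 78) (nat_lit 76) (nat_lit 0) (XT.lf (nat_lit 0) (nat_lit 3408923561) (nat_lit 684) (nat_lit 5495494524) (nat_lit 760) (nat_lit 458607280) (nat_lit 251) (nat_lit 5) (nat_lit 260) (nat_lit 5) (nat_lit 261) (nat_lit 5) (nat_lit 442) (nat_lit 387) (nat_lit 311)) (XT.lf (nat_lit 0) (nat_lit 1798121040) (nat_lit 760) (nat_lit 461470437) (nat_lit 76) (nat_lit 7197795414) (nat_lit 250) (nat_lit 5) (nat_lit 260) (nat_lit 5) (nat_lit 251) (nat_lit 5) (nat_lit 443) (nat_lit 387) (nat_lit 310))) (XT.nd (nat_lit 78) (nat_lit 684) (nat_lit 0) (XT.lf (nat_lit 0) (nat_lit 4106228017) (nat_lit 684) (nat_lit 4387123312) (nat_lit 76) (nat_lit 1059990849) (nat_lit 242) (nat_lit 5) (nat_lit 251) (nat_lit 5) (nat_lit 243) (nat_lit 5) (nat_lit 444) (nat_lit 387) (nat_lit 309)) (XT.nd (nat_lit 78) (nat_lit 0) (nat_lit 0) (XT.lf (nat_lit 0) (nat_lit 1229885747) (nat_lit 684) (nat_lit 5228809002) (nat_lit 760)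 (nat_lit 3192572437) (nat_lit 233) (nat_lit 5) (nat_lit 242) (nat_lit 5) (nat_lit 243) (nat_lit 5) (nat_lit 445) (nat_lit 387) (nat_lit 308)) (XT.lf (nat_lit 0) (nat_lit 6986097129) (nat_lit 684) (nat_lit 1874019323) (nat_lit 760) (nat_lit 891010409) (nat_lit 233) (nat_lit 5) (nat_lit 242) (nat_lit 5) (nat_lit 243) (nat_lit 5) (nat_lit 446) (nat_lit 387) (nat_lit 307))))))) (XT.nd (nat_lit 780) (nat_lit 3040) (nat_lit 0) (XT.nd (nat_lit 390) (nat_lit 1748) (nat_lit 0) (XT.nd (nat_lit 156) (nat_lit 1216) (nat_lit 0) (XT.nd (nat_lit 78) (nat_lit 0) (nat_lit 0) (XT.lf (nat_lit 0) (nat_lit 1439991673) (nat_lit 684) (nat_lit 6861148432) (nat_lit 76) (nat_lit 1551617962) (nat_lit 224) (nat_lit 5) (nat_lit 233) (nat_lit 5) (nat_lit 225) (nat_lit 5) (nat_lit 447) (nat_lit 387) (nat_lit 306)) (XT.lf (nat_lit 0) (nat_lit 3809886035) (nat_lit 684) (nat_lit 1106268527) (nat_lit 76) (nat_lit 5040078945) (nat_lit 224)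 (nat_lit 5) (nat_lit 233) (nat_lit 5) (nat_lit 225) (nat_lit 5) (nat_lit 448) (nat_lit 387) (nat_lit 305))) (XT.nd (nat_lit 78) (nat_lit 608) (nat_lit 0) (XT.lf (nat_lit 0) (nat_lit 4794585050) (nat_lit 608) (nat_lit 1437353553) (nat_lit 684) (nat_lit 3829757837) (nat_lit 216) (nat_lit 5) (nat_lit 224) (nat_lit 5) (nat_lit 225) (nat_lit 5) (nat_lit 449) (nat_lit 387) (nat_lit 304)) (XT.nd (nat_lit 78) (nat_lit 76) (nat_lit 0) (XT.lf (nat_lit 0) (nat_lit 621434123) (nat_lit 532) (nat_lit 8080115892) (nat_lit 608) (nat_lit 1467749195) (nat_lit 209) (nat_lit 5) (nat_lit 216) (nat_lit 5) (nat_lit 217) (nat_lit 5) (nat_lit 450) (nat_lit 387) (nat_lit 303)) (XT.lf (nat_lit 0) (nat_lit 948273878) (nat_lit 608) (nat_lit 3627502574) (nat_lit 76) (nat_lit 5702785314) (nat_lit 208) (nat_lit 5) (nat_lit 216) (nat_lit 5) (nat_lit 209) (nat_lit 5) (nat_lit 451) (nat_lit 387) (nat_lit 302))))) (XT.nd (nat_lit 156) (nat_lit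 1140) (nat_lit 0) (XT.nd (nat_lit 78) (nat_lit 0) (nat_lit 0) (XT.lf (nat_lit 0) (nat_lit 2401238437) (nat_lit 608) (nat_lit 981868084) (nat_lit 684) (nat_lit 7006918358) (nat_lit 200) (nat_lit 5) (nat_lit 208) (nat_lit 5) (nat_lit 209) (nat_lit 5) (nat_lit 452) (nat_lit 387) (nat_lit 301)) (XT.lf (nat_lit 0) (nat_lit 5883351269) (nat_lit 684) (nat_lit 1953157100) (nat_lit 76) (nat_lit 2666886524) (nat_lit 200) (nat_lit 5) (nat_lit 209) (nat_lit 5) (nat_lit 201) (nat_lit 5) (nat_lit 453) (nat_lit 387) (nat_lit 300))) (XT.nd (nat_lit 78) (nat_lit 608) (nat_lit 0) (XT.lf (nat_lit 0) (nat_lit 4220599321) (nat_lit 532) (nat_lit 4222187362) (nat_lit 608) (nat_lit 2176073625) (nat_lit 193) (nat_lit 5) (nat_lit 200) (nat_lit 5) (nat_lit 201) (nat_lit 5) (nat_lit 454) (nat_lit 387) (nat_lit 299)) (XT.nd (nat_lit 78) (nat_lit 532) (nat_lit 0) (XT.lf (nat_lit 0) (nat_lit 301203877) (nat_lit 608) (nat_lit 225778474)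 (nat_lit 76) (nat_lit 10209851150) (nat_lit 192) (nat_lit 5) (nat_lit 200) (nat_lit 5) (nat_lit 193) (nat_lit 5) (nat_lit 455) (nat_lit 387) (nat_lit 298)) (XT.lf (nat_lit 0) (nat_lit 2835788749) (nat_lit 608) (nat_lit 4773083056) (nat_lit 76) (nat_lit 3247279727) (nat_lit 185) (nat_lit 5) (nat_lit 193) (nat_lit 5) (nat_lit 186) (nat_lit 5) (nat_lit 456) (nat_lit 387) (nat_lit 297)))))) (XT.nd (nat_lit 390) (nat_lit 1444) (nat_lit 0) (XT.nd (nat_lit 156) (nat_lit 1064) (nat_lit 0) (XT.nd (nat_lit 78) (nat_lit 0) (nat_lit 0) (XT.lf (nat_lit 0) (nat_lit 1528687195) (nat_lit 532) (nat_lit 3883418917) (nat_lit 608) (nat_lit 5565939818) (nat_lit 178) (nat_lit 5) (nat_lit 185) (nat_lit 5) (nat_lit 186) (nat_lit 5) (nat_lit 457) (nat_lit 387) (nat_lit 296)) (XT.lf (nat_lit 0) (nat_lit 7990209377) (nat_lit 532) (nat_lit 58138261) (nat_lit 608) (nat_lit 3053873230) (nat_lit 178) (nat_lit 5) (nat_lit 185) (nat_lit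 5) (nat_lit 186) (nat_lit 5) (nat_lit 458) (nat_lit 387) (nat_lit 295))) (XT.nd (nat_lit 78) (nat_lit 532) (nat_lit 0) (XT.lf (nat_lit 0) (nat_lit 3340130269) (nat_lit 532) (nat_lit 7420610075) (nat_lit 608) (nat_lit 467680837) (nat_lit 171) (nat_lit 5) (nat_lit 178) (nat_lit 5) (nat_lit 179) (nat_lit 5) (nat_lit 459) (nat_lit 387) (nat_lit 294)) (XT.nd (nat_lit 78) (nat_lit 456) (nat_lit 0) (XT.lf (nat_lit 0) (nat_lit 2140057841) (nat_lit 608) (nat_lit 1438760700) (nat_lit 76) (nat_lit 7778089436) (nat_lit 170) (nat_lit 5) (nat_lit 178) (nat_lit 5) (nat_lit 171) (nat_lit 5) (nat_lit 460) (nat_lit 387) (nat_lit 293)) (XT.lf (nat_lit 0) (nat_lit 4807021209) (nat_lit 532) (nat_lit 6315881547) (nat_lit 76) (nat_lit 364743084) (nat_lit 164) (nat_lit 5) (nat_lit 171) (nat_lit 5) (nat_lit 165) (nat_lit 5) (nat_lit 461) (nat_lit 387) (nat_lit 292))))) (XT.nd (nat_lit 234) (nat_lit 456) (nat_lit 0) (XT.nd (nat_lit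 78) (nat_lit 532) (nat_lit 0) (XT.lf (nat_lit 0) (nat_lit 262352969) (nat_lit 456) (nat_lit 7277625080) (nat_lit 532) (nat_lit 4080776937) (nat_lit 158) (nat_lit 5) (nat_lit 164) (nat_lit 5) (nat_lit 165) (nat_lit 5) (nat_lit 462) (nat_lit 387) (nat_lit 291)) (XT.nd (nat_lit 78) (nat_lit 532) (nat_lit 0) (XT.lf (nat_lit 0) (nat_lit 7027446088) (nat_lit 456) (nat_lit 3320305807) (nat_lit 532) (nat_lit 1408380684) (nat_lit 158) (nat_lit 5) (nat_lit 164) (nat_lit 5) (nat_lit 165) (nat_lit 5) (nat_lit 463) (nat_lit 387) (nat_lit 290)) (XT.lf (nat_lit 0) (nat_lit 1296108235) (nat_lit 532) (nat_lit 9877416031) (nat_lit 76) (nat_lit 720612967) (nat_lit 151) (nat_lit 5) (nat_lit 158) (nat_lit 5) (nat_lit 152) (nat_lit 5) (nat_lit 464) (nat_lit 387) (nat_lit 289)))) (XT.nd (nat_lit 78) (nat_lit 456) (nat_lit 0) (XT.lf (nat_lit 0) (nat_lit 4068018443) (nat_lit 532) (nat_lit 3134876064) (nat_lit 76) (nat_lit 4831186367)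 (nat_lit 151) (nat_lit 5) (nat_lit 158) (nat_lit 5) (nat_lit 152) (nat_lit 5) (nat_lit 465) (nat_lit 387) (nat_lit 288)) (XT.nd (nat_lit 78) (nat_lit 0) (nat_lit 0) (XT.lf (nat_lit 0) (nat_lit 3762231144) (nat_lit 456) (nat_lit 3136230453) (nat_lit 532) (nat_lit 5278308600) (nat_lit 145) (nat_lit 5) (nat_lit 151) (nat_lit 5) (nat_lit 152) (nat_lit 5) (nat_lit 466) (nat_lit 387) (nat_lit 287)) (XT.lf (nat_lit 0) (nat_lit 9792099637) (nat_lit 532) (nat_lit 1518633948) (nat_lit 76) (nat_lit 1011456536) (nat_lit 145) (nat_lit 5) (nat_lit 152) (nat_lit 5) (nat_lit 146) (nat_lit 5) (nat_lit 467) (nat_lit 387) (nat_lit 286))))))))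
noncomputable def xc120 : XT := (XT.nd (nat_lit 1560) (nat_lit 2508) (nat_lit 0) (XT.nd (nat_lit 780) (nat_lit 1748) (nat_lit 0) (XT.nd (nat_lit 390) (nat_lit 1292) (nat_lit 0) (XT.nd (nat_lit 156) (nat_lit 380) (nat_lit 0) (XT.nd (nat_lit 78) (nat_lit 456) (nat_lit 0) (XT.lf (nat_lit 0) (nat_lit 305721208) (nat_lit 456) (nat_lit 6933992511) (nat_lit 76) (nat_lit 5230053246) (nat_lit 139) (nat_lit 5) (nat_lit 145) (nat_lit 5) (nat_lit 140) (nat_lit 5) (nat_lit 468) (nat_lit 387) (nat_lit 285)) (XT.lf (nat_lit 0) (nat_lit 86766301) (nat_lit 456) (nat_lit 3067788347) (nat_lit 532) (nat_lit 9465610591) (nat_lit 133) (nat_lit 5) (nat_lit 139) (nat_lit 5) (nat_lit 140) (nat_lit 5) (nat_lit 469) (nat_lit 387) (nat_lit 284))) (XT.nd (nat_lit 78) (nat_lit 380) (nat_lit 0) (XT.lf (nat_lit 0) (nat_lit 6094404217) (nat_lit 532) (nat_lit 5468208572) (nat_lit 76) (nat_lit 1210285786) (nat_lit 133) (nat_lit 5) (nat_lit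 140) (nat_lit 5) (nat_lit 134) (nat_lit 5) (nat_lit 470) (nat_lit 387) (nat_lit 283)) (XT.nd (nat_lit 78) (nat_lit 0) (nat_lit 0) (XT.lf (nat_lit 0) (nat_lit 1711512575) (nat_lit 380) (nat_lit 7392859153) (nat_lit 456) (nat_lit 3824096158) (nat_lit 128) (nat_lit 5) (nat_lit 133) (nat_lit 5) (nat_lit 134) (nat_lit 5) (nat_lit 471) (nat_lit 387) (nat_lit 282)) (XT.lf (nat_lit 0) (nat_lit 9080237963) (nat_lit 380) (nat_lit 3111095226) (nat_lit 456) (nat_lit 895487080) (nat_lit 128) (nat_lit 5) (nat_lit 133) (nat_lit 5) (nat_lit 134) (nat_lit 5) (nat_lit 472) (nat_lit 387) (nat_lit 281))))) (XT.nd (nat_lit 156) (nat_lit 836) (nat_lit 0) (XT.nd (nat_lit 78) (nat_lit 0) (nat_lit 0) (XT.lf (nat_lit 0) (nat_lit 2074698711) (nat_lit 456) (nat_lit 9906433158) (nat_lit 76) (nat_lit 1266734751) (nat_lit 122) (nat_lit 5) (nat_lit 128) (nat_lit 5) (nat_lit 123) (nat_lit 5) (nat_lit 473) (nat_lit 387) (nat_lit 280)) (XT.lf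 (nat_lit 0) (nat_lit 5120475039) (nat_lit 456) (nat_lit 2576158629) (nat_lit 76) (nat_lit 5714825440) (nat_lit 122) (nat_lit 5) (nat_lit 128) (nat_lit 5) (nat_lit 123) (nat_lit 5) (nat_lit 474) (nat_lit 387) (nat_lit 279))) (XT.nd (nat_lit 78) (nat_lit 456) (nat_lit 0) (XT.lf (nat_lit 0) (nat_lit 4937466794) (nat_lit 380) (nat_lit 3302638363) (nat_lit 456) (nat_lit 5337966522) (nat_lit 117) (nat_lit 5) (nat_lit 122) (nat_lit 5) (nat_lit 123) (nat_lit 5) (nat_lit 475) (nat_lit 387) (nat_lit 278)) (XT.nd (nat_lit 78) (nat_lit 456) (nat_lit 0) (XT.lf (nat_lit 0) (nat_lit 11428203513) (nat_lit 456) (nat_lit 1147310044) (nat_lit 76) (nat_lit 1172388296) (nat_lit 117) (nat_lit 5) (nat_lit 123) (nat_lit 5) (nat_lit 118) (nat_lit 5) (nat_lit 476) (nat_lit 387) (nat_lit 277)) (XT.lf (nat_lit 0) (nat_lit 794949196) (nat_lit 456) (nat_lit 7393405591) (nat_lit 76) (nat_lit 5731762537) (nat_lit 111) (nat_lit 5) (nat_lit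 117) (nat_lit 5) (nat_lit 112) (nat_lit 5) (nat_lit 477) (nat_lit 387) (nat_lit 276)))))) (XT.nd (nat_lit 390) (nat_lit 684) (nat_lit 0) (XT.nd (nat_lit 156) (nat_lit 760) (nat_lit 0) (XT.nd (nat_lit 78) (nat_lit 0) (nat_lit 0) (XT.lf (nat_lit 0) (nat_lit 234127263) (nat_lit 304) (nat_lit 3697448794) (nat_lit 380) (nat_lit 10164085909) (nat_lit 107) (nat_lit 5) (nat_lit 111) (nat_lit 5) (nat_lit 112) (nat_lit 5) (nat_lit 478) (nat_lit 387) (nat_lit 275)) (XT.lf (nat_lit 0) (nat_lit 7168186460) (nat_lit 380) (nat_lit 6193163689) (nat_lit 76) (nat_lit 912628672) (nat_lit 107) (nat_lit 5) (nat_lit 112) (nat_lit 5) (nat_lit 108) (nat_lit 5) (nat_lit 479) (nat_lit 387) (nat_lit 274))) (XT.nd (nat_lit 78) (nat_lit 380) (nat_lit 0) (XT.lf (nat_lit 0) (nat_lit 1597783332) (nat_lit 380) (nat_lit 8888541302) (nat_lit 456) (nat_lit 3969207684) (nat_lit 102) (nat_lit 5) (nat_lit 107) (nat_lit 5) (nat_lit 108) (nat_lit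 5) (nat_lit 480) (nat_lit 387) (nat_lit 273)) (XT.nd (nat_lit 78) (nat_lit 380) (nat_lit 0) (XT.lf (nat_lit 0) (nat_lit 9601418389) (nat_lit 380) (nat_lit 4293080233) (nat_lit 456) (nat_lit 745750896) (nat_lit 102) (nat_lit 5) (nat_lit 107) (nat_lit 5) (nat_lit 108) (nat_lit 5) (nat_lit 481) (nat_lit 387) (nat_lit 272)) (XT.lf (nat_lit 0) (nat_lit 2512946359) (nat_lit 380) (nat_lit 11899427437) (nat_lit 76) (nat_lit 415880765) (nat_lit 97) (nat_lit 5) (nat_lit 102) (nat_lit 5) (nat_lit 98) (nat_lit 5) (nat_lit 482) (nat_lit 387) (nat_lit 271))))) (XT.nd (nat_lit 156) (nat_lit 380) (nat_lit 0) (XT.nd (nat_lit 78) (nat_lit 304) (nat_lit 0) (XT.lf (nat_lit 0) (nat_lit 5871765924) (nat_lit 380) (nat_lit 3955706175) (nat_lit 76) (nat_lit 5191556081) (nat_lit 97) (nat_lit 5) (nat_lit 102) (nat_lit 5) (nat_lit 98) (nat_lit 5) (nat_lit 483) (nat_lit 387) (nat_lit 270)) (XT.lf (nat_lit 0) (nat_lit 4175266245) (nat_lit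 304) (nat_lit 5132404726) (nat_lit 380) (nat_lit 5905753748) (nat_lit 93) (nat_lit 5) (nat_lit 97) (nat_lit 5) (nat_lit 98) (nat_lit 5) (nat_lit 484) (nat_lit 387) (nat_lit 269))) (XT.nd (nat_lit 78) (nat_lit 380) (nat_lit 0) (XT.lf (nat_lit 0) (nat_lit 12496269688) (nat_lit 304) (nat_lit 325536874) (nat_lit 380) (nat_lit 2589717899) (nat_lit 93) (nat_lit 5) (nat_lit 97) (nat_lit 5) (nat_lit 98) (nat_lit 5) (nat_lit 485) (nat_lit 387) (nat_lit 268)) (XT.nd (nat_lit 78) (nat_lit 0) (nat_lit 0) (XT.lf (nat_lit 0) (nat_lit 830481438) (nat_lit 380) (nat_lit 10233060141) (nat_lit 76) (nat_lit 4548982228) (nat_lit 88) (nat_lit 5) (nat_lit 93) (nat_lit 5) (nat_lit 89) (nat_lit 5) (nat_lit 486) (nat_lit 387) (nat_lit 267)) (XT.lf (nat_lit 0) (nat_lit 4289578185) (nat_lit 380) (nat_lit 1983026756) (nat_lit 76) (nat_lit 9544497647) (nat_lit 88) (nat_lit 5) (nat_lit 93) (nat_lit 5) (nat_lit 89) (nat_lit 5) (nat_lit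 487) (nat_lit 387) (nat_lit 266))))))) (XT.nd (nat_lit 780) (nat_lit 760) (nat_lit 0) (XT.nd (nat_lit 390) (nat_lit 836) (nat_lit 0) (XT.nd (nat_lit 156) (nat_lit 608) (nat_lit 0) (XT.nd (nat_lit 78) (nat_lit 0) (nat_lit 0) (XT.lf (nat_lit 0) (nat_lit 6491624039) (nat_lit 304) (nat_lit 1351997431) (nat_lit 380) (nat_lit 8181641281) (nat_lit 84) (nat_lit 5) (nat_lit 88) (nat_lit 5) (nat_lit 89) (nat_lit 5) (nat_lit 488) (nat_lit 387) (nat_lit 265)) (XT.lf (nat_lit 0) (nat_lit 11489663680) (nat_lit 380) (nat_lit 1124192979) (nat_lit 76) (nat_lit 3623316096) (nat_lit 84) (nat_lit 5) (nat_lit 89) (nat_lit 5) (nat_lit 85) (nat_lit 5) (nat_lit 489) (nat_lit 387) (nat_lit 264))) (XT.nd (nat_lit 78) (nat_lit 380) (nat_lit 0) (XT.lf (nat_lit 0) (nat_lit 7517965515) (nat_lit 228) (nat_lit 7732459833) (nat_lit 304) (nat_lit 1202064539) (nat_lit 81) (nat_lit 5) (nat_lit 84) (nat_lit 5) (nat_lit 85) (nat_lit 5) (nat_lit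 490) (nat_lit 387) (nat_lit 263)) (XT.nd (nat_lit 78) (nat_lit 304) (nat_lit 0) (XT.lf (nat_lit 0) (nat_lit 2374293864) (nat_lit 304) (nat_lit 364654766) (nat_lit 76) (nat_lit 13933022564) (nat_lit 80) (nat_lit 5) (nat_lit 84) (nat_lit 5) (nat_lit 81) (nat_lit 5) (nat_lit 491) (nat_lit 387) (nat_lit 262)) (XT.lf (nat_lit 0) (nat_lit 6061024506) (nat_lit 380) (nat_lit 8455686773) (nat_lit 76) (nat_lit 2377877740) (nat_lit 76) (nat_lit 5) (nat_lit 81) (nat_lit 5) (nat_lit 77) (nat_lit 5) (nat_lit 492) (nat_lit 387) (nat_lit 261))))) (XT.nd (nat_lit 156) (nat_lit 608) (nat_lit 0) (XT.nd (nat_lit 78) (nat_lit 0) (nat_lit 0) (XT.lf (nat_lit 0) (nat_lit 262377123) (nat_lit 228) (nat_lit 9565893493) (nat_lit 304) (nat_lit 7293257495) (nat_lit 73) (nat_lit 5) (nat_lit 76) (nat_lit 5) (nat_lit 77) (nat_lit 5) (nat_lit 493) (nat_lit 387) (nat_lit 260)) (XT.lf (nat_lit 0) (nat_lit 9244812140) (nat_lit 228) (nat_lit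 4467411610) (nat_lit 304) (nat_lit 3639959432) (nat_lit 73) (nat_lit 5) (nat_lit 76) (nat_lit 5) (nat_lit 77) (nat_lit 5) (nat_lit 494) (nat_lit 387) (nat_lit 259))) (XT.nd (nat_lit 78) (nat_lit 228) (nat_lit 0) (XT.lf (nat_lit 0) (nat_lit 80054402) (nat_lit 380) (nat_lit 16787271865) (nat_lit 76) (nat_lit 720222474) (nat_lit 68) (nat_lit 5) (nat_lit 73) (nat_lit 5) (nat_lit 69) (nat_lit 5) (nat_lit 495) (nat_lit 387) (nat_lit 258)) (XT.nd (nat_lit 78) (nat_lit 228) (nat_lit 0) (XT.lf (nat_lit 0) (nat_lit 3895024425) (nat_lit 380) (nat_lit 7909028082) (nat_lit 76) (nat_lit 6021706185) (nat_lit 68) (nat_lit 5) (nat_lit 73) (nat_lit 5) (nat_lit 69) (nat_lit 5) (nat_lit 496) (nat_lit 387) (nat_lit 257)) (XT.lf (nat_lit 0) (nat_lit 1137762962) (nat_lit 228) (nat_lit 6641112978) (nat_lit 304) (nat_lit 10290009363) (nat_lit 65) (nat_lit 5) (nat_lit 68) (nat_lit 5) (nat_lit 69) (nat_lit 5) (nat_lit 497) (nat_lit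 387) (nat_lit 256)))))) (XT.nd (nat_lit 390) (nat_lit 228) (nat_lit 0) (XT.nd (nat_lit 156) (nat_lit 304) (nat_lit 0) (XT.nd (nat_lit 78) (nat_lit 228) (nat_lit 0) (XT.lf (nat_lit 0) (nat_lit 10448916700) (nat_lit 228) (nat_lit 1329892390) (nat_lit 304) (nat_lit 6537301283) (nat_lit 65) (nat_lit 5) (nat_lit 68) (nat_lit 5) (nat_lit 69) (nat_lit 5) (nat_lit 498) (nat_lit 387) (nat_lit 255)) (XT.lf (nat_lit 0) (nat_lit 1345572558) (nat_lit 228) (nat_lit 14534004286) (nat_lit 304) (nat_lit 2688290324) (nat_lit 62) (nat_lit 5) (nat_lit 65) (nat_lit 5) (nat_lit 66) (nat_lit 5) (nat_lit 499) (nat_lit 387) (nat_lit 254))) (XT.nd (nat_lit 78) (nat_lit 228) (nat_lit 0) (XT.lf (nat_lit 0) (nat_lit 1269011202) (nat_lit 304) (nat_lit 8015149728) (nat_lit 76) (nat_lit 9539390378) (nat_lit 61) (nat_lit 5) (nat_lit 65) (nat_lit 5) (nat_lit 62) (nat_lit 5) (nat_lit 500) (nat_lit 387) (nat_lit 253)) (XT.nd (nat_lit 78) (nat_lit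 0) (nat_lit 0) (XT.lf (nat_lit 0) (nat_lit 1352951903) (nat_lit 228) (nat_lit 3911204198) (nat_lit 304) (nat_lit 13819947481) (nat_lit 58) (nat_lit 5) (nat_lit 61) (nat_lit 5) (nat_lit 62) (nat_lit 5) (nat_lit 501) (nat_lit 387) (nat_lit 252)) (XT.lf (nat_lit 0) (nat_lit 9389479460) (nat_lit 304) (nat_lit 8365472951) (nat_lit 76) (nat_lit 1593912622) (nat_lit 58) (nat_lit 5) (nat_lit 62) (nat_lit 5) (nat_lit 59) (nat_lit 5) (nat_lit 502) (nat_lit 387) (nat_lit 251))))) (XT.nd (nat_lit 50544) (nat_lit 0) (nat_lit 41800) (XT.nd (nat_lit 50388) (nat_lit 0) (nat_lit 42408) (XT.lf (nat_lit 0) (nat_lit 1154007015) (nat_lit 228) (nat_lit 12462917574) (nat_lit 304) (nat_lit 6001608388) (nat_lit 55) (nat_lit 5) (nat_lit 58) (nat_lit 5) (nat_lit 59) (nat_lit 5) (nat_lit 503) (nat_lit 387) (nat_lit 250)) (XT.nd (nat_lit 78) (nat_lit 684) (nat_lit 0) (XT.lf (nat_lit 0) (nat_lit 1128329483) (nat_lit 0) (nat_lit 1128329483)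 (nat_lit 532) (nat_lit 1026751358) (nat_lit 622) (nat_lit 5) (nat_lit 622) (nat_lit 3) (nat_lit 629) (nat_lit 3) (nat_lit 388) (nat_lit 388) (nat_lit 364)) (XT.lf (nat_lit 0) (nat_lit 325635319) (nat_lit 684) (nat_lit 1196404561) (nat_lit 684) (nat_lit 5061091525) (nat_lit 613) (nat_lit 3) (nat_lit 622) (nat_lit 3) (nat_lit 622) (nat_lit 5) (nat_lit 389) (nat_lit 388) (nat_lit 363)))) (XT.nd (nat_lit 78) (nat_lit 608) (nat_lit 0) (XT.lf (nat_lit 76) (nat_lit 1959967417) (nat_lit 0) (nat_lit 715412623) (nat_lit 684) (nat_lit 3925163565) (nat_lit 614) (nat_lit 5) (nat_lit 613) (nat_lit 3) (nat_lit 622) (nat_lit 5) (nat_lit 390) (nat_lit 388) (nat_lit 362)) (XT.nd (nat_lit 78) (nat_lit 684) (nat_lit 0) (XT.lf (nat_lit 0) (nat_lit 5019875395) (nat_lit 608) (nat_lit 1456239335) (nat_lit 684) (nat_lit 143290198) (nat_lit 614) (nat_lit 5) (nat_lit 622) (nat_lit 5) (nat_lit 623) (nat_lit 5) (nat_lit 391) (nat_lit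 388) (nat_lit 361)) (XT.lf (nat_lit 0) (nat_lit 718596913) (nat_lit 684) (nat_lit 4866314374) (nat_lit 760) (nat_lit 1054563426) (nat_lit 605) (nat_lit 5) (nat_lit 614) (nat_lit 5) (nat_lit 615) (nat_lit 5) (nat_lit 392) (nat_lit 388) (nat_lit 360))))))))
noncomputable def xc121 : XT := (XT.nd (nat_lit 1560) (nat_lit 15732) (nat_lit 0) (XT.nd (nat_lit 780) (nat_lit 4180) (nat_lit 0) (XT.nd (nat_lit 390) (nat_lit 1672) (nat_lit 0) (XT.nd (nat_lit 156) (nat_lit 760) (nat_lit 0) (XT.nd (nat_lit 78) (nat_lit 0) (nat_lit 0) (XT.lf (nat_lit 0) (nat_lit 3012219953) (nat_lit 684) (nat_lit 1616530698) (nat_lit 760) (nat_lit 2032025512) (nat_lit 605) (nat_lit 5) (nat_lit 614) (nat_lit 5) (nat_lit 615) (nat_lit 5) (nat_lit 393) (nat_lit 388) (nat_lit 359)) (XT.lf (nat_lit 76) (nat_lit 1688024318) (nat_lit 0) (nat_lit 3616508650) (nat_lit 760) (nat_lit 1378966053) (nat_lit 606) (nat_lit 5) (nat_lit 605) (nat_lit 5)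 (nat_lit 615) (nat_lit 5) (nat_lit 394) (nat_lit 388) (nat_lit 358))) (XT.nd (nat_lit 78) (nat_lit 0) (nat_lit 0) (XT.lf (nat_lit 0) (nat_lit 877019616) (nat_lit 760) (nat_lit 1664991405) (nat_lit 836) (nat_lit 4165527896) (nat_lit 595) (nat_lit 5) (nat_lit 605) (nat_lit 5) (nat_lit 606) (nat_lit 5) (nat_lit 395) (nat_lit 388) (nat_lit 357)) (XT.nd (nat_lit 78) (nat_lit 0) (nat_lit 0) (XT.lf (nat_lit 76) (nat_lit 1713117687) (nat_lit 0) (nat_lit 1401173222) (nat_lit 836) (nat_lit 3618542541) (nat_lit 596) (nat_lit 5) (nat_lit 595) (nat_lit 5) (nat_lit 606) (nat_lit 5) (nat_lit 396) (nat_lit 388) (nat_lit 356)) (XT.lf (nat_lit 76) (nat_lit 5149251495) (nat_lit 0) (nat_lit 202618988) (nat_lit 836) (nat_lit 1407699925) (nat_lit 596) (nat_lit 5) (nat_lit 595) (nat_lit 5) (nat_lit 606) (nat_lit 5) (nat_lit 397) (nat_lit 388) (nat_lit 355))))) (XT.nd (nat_lit 156) (nat_lit 912) (nat_lit 0) (XT.nd (nat_lit 78)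 (nat_lit 0) (nat_lit 0) (XT.lf (nat_lit 0) (nat_lit 800240775) (nat_lit 836) (nat_lit 4940696797) (nat_lit 912) (nat_lit 1046560542) (nat_lit 585) (nat_lit 5) (nat_lit 596) (nat_lit 5) (nat_lit 597) (nat_lit 5) (nat_lit 398) (nat_lit 388) (nat_lit 354)) (XT.lf (nat_lit 0) (nat_lit 2991813208) (nat_lit 836) (nat_lit 1464922084) (nat_lit 912) (nat_lit 2359941578) (nat_lit 585) (nat_lit 5) (nat_lit 596) (nat_lit 5) (nat_lit 597) (nat_lit 5) (nat_lit 399) (nat_lit 388) (nat_lit 353))) (XT.nd (nat_lit 78) (nat_lit 912) (nat_lit 0) (XT.lf (nat_lit 76) (nat_lit 2074924113) (nat_lit 0) (nat_lit 3112906818) (nat_lit 912) (nat_lit 1659440141) (nat_lit 586) (nat_lit 5) (nat_lit 585) (nat_lit 5) (nat_lit 597) (nat_lit 5) (nat_lit 400) (nat_lit 388) (nat_lit 352)) (XT.nd (nat_lit 78) (nat_lit 0) (nat_lit 0) (XT.lf (nat_lit 0) (nat_lit 499563841) (nat_lit 912) (nat_lit 1209668610) (nat_lit 988) (nat_lit 5170066296) (nat_lit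 573) (nat_lit 5) (nat_lit 585) (nat_lit 5) (nat_lit 586) (nat_lit 5) (nat_lit 401) (nat_lit 388) (nat_lit 351)) (XT.lf (nat_lit 76) (nat_lit 2412381845) (nat_lit 0) (nat_lit 231438095) (nat_lit 988) (nat_lit 4268683422) (nat_lit 574) (nat_lit 5) (nat_lit 573) (nat_lit 5) (nat_lit 586) (nat_lit 5) (nat_lit 402) (nat_lit 388) (nat_lit 350)))))) (XT.nd (nat_lit 390) (nat_lit 2356) (nat_lit 0) (XT.nd (nat_lit 156) (nat_lit 1900) (nat_lit 0) (XT.nd (nat_lit 78) (nat_lit 0) (nat_lit 0) (XT.lf (nat_lit 0) (nat_lit 4796941411) (nat_lit 912) (nat_lit 864764787) (nat_lit 988) (nat_lit 1285387053) (nat_lit 574) (nat_lit 5) (nat_lit 586) (nat_lit 5) (nat_lit 587) (nat_lit 5) (nat_lit 403) (nat_lit 388) (nat_lit 349)) (XT.lf (nat_lit 76) (nat_lit 2846264343) (nat_lit 0) (nat_lit 4117388126) (nat_lit 988) (nat_lit 19351913) (nat_lit 575) (nat_lit 5) (nat_lit 574) (nat_lit 5) (nat_lit 587) (nat_lit 5) (nat_lit 404) (nat_lit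 388) (nat_lit 348))) (XT.nd (nat_lit 78) (nat_lit 912) (nat_lit 0) (XT.lf (nat_lit 0) (nat_lit 2082566308) (nat_lit 988) (nat_lit 423611647) (nat_lit 1064) (nat_lit 4514079440) (nat_lit 561) (nat_lit 5) (nat_lit 574) (nat_lit 5) (nat_lit 575) (nat_lit 5) (nat_lit 405) (nat_lit 388) (nat_lit 347)) (XT.nd (nat_lit 78) (nat_lit 912) (nat_lit 0) (XT.lf (nat_lit 76) (nat_lit 3375265329) (nat_lit 0) (nat_lit 824787437) (nat_lit 1064) (nat_lit 2858762045) (nat_lit 562) (nat_lit 5) (nat_lit 561) (nat_lit 5) (nat_lit 575) (nat_lit 5) (nat_lit 406) (nat_lit 388) (nat_lit 346)) (XT.lf (nat_lit 0) (nat_lit 120030816) (nat_lit 988) (nat_lit 6201983324) (nat_lit 1064) (nat_lit 776923673) (nat_lit 549) (nat_lit 5) (nat_lit 562) (nat_lit 5) (nat_lit 563) (nat_lit 5) (nat_lit 407) (nat_lit 388) (nat_lit 345))))) (XT.nd (nat_lit 156) (nat_lit 1216) (nat_lit 0) (XT.nd (nat_lit 78) (nat_lit 1064) (nat_lit 0) (XT.lf (nat_lit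 0) (nat_lit 1312306952) (nat_lit 1064) (nat_lit 3138082017) (nat_lit 76) (nat_lit 2689666646) (nat_lit 548) (nat_lit 5) (nat_lit 562) (nat_lit 5) (nat_lit 549) (nat_lit 5) (nat_lit 408) (nat_lit 388) (nat_lit 344)) (XT.lf (nat_lit 0) (nat_lit 750970499) (nat_lit 1064) (nat_lit 2640825704) (nat_lit 1140) (nat_lit 3790954132) (nat_lit 534) (nat_lit 5) (nat_lit 548) (nat_lit 5) (nat_lit 549) (nat_lit 5) (nat_lit 409) (nat_lit 388) (nat_lit 343))) (XT.nd (nat_lit 78) (nat_lit 1216) (nat_lit 0) (XT.lf (nat_lit 0) (nat_lit 4727267742) (nat_lit 1064) (nat_lit 761344568) (nat_lit 1140) (nat_lit 1738206028) (nat_lit 534) (nat_lit 5) (nat_lit 548) (nat_lit 5) (nat_lit 549) (nat_lit 5) (nat_lit 410) (nat_lit 388) (nat_lit 342)) (XT.nd (nat_lit 78) (nat_lit 0) (nat_lit 0) (XT.lf (nat_lit 0) (nat_lit 323543198) (nat_lit 1216) (nat_lit 5784538440) (nat_lit 76) (nat_lit 1164220493) (nat_lit 518) (nat_lit 5) (nat_lit 534)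 (nat_lit 5) (nat_lit 519) (nat_lit 5) (nat_lit 411) (nat_lit 388) (nat_lit 341)) (XT.lf (nat_lit 0) (nat_lit 2381178805) (nat_lit 1216) (nat_lit 1780140901) (nat_lit 76) (nat_lit 3157619745) (nat_lit 518) (nat_lit 5) (nat_lit 534) (nat_lit 5) (nat_lit 519) (nat_lit 5) (nat_lit 412) (nat_lit 388) (nat_lit 340))))))) (XT.nd (nat_lit 780) (nat_lit 7068) (nat_lit 0) (XT.nd (nat_lit 390) (nat_lit 4712) (nat_lit 0) (XT.nd (nat_lit 156) (nat_lit 2736) (nat_lit 0) (XT.nd (nat_lit 78) (nat_lit 0) (nat_lit 0) (XT.lf (nat_lit 0) (nat_lit 2301367930) (nat_lit 1216) (nat_lit 2150382199) (nat_lit 1292) (nat_lit 2915355257) (nat_lit 502) (nat_lit 5) (nat_lit 518) (nat_lit 5) (nat_lit 519) (nat_lit 5) (nat_lit 413) (nat_lit 388) (nat_lit 339)) (XT.lf (nat_lit 0) (nat_lit 6455695860) (nat_lit 1216) (nat_lit 77456080) (nat_lit 1292) (nat_lit 883725231) (nat_lit 502) (nat_lit 5) (nat_lit 518) (nat_lit 5) (nat_lit 519) (nat_lit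 5) (nat_lit 414) (nat_lit 388) (nat_lit 338))) (XT.nd (nat_lit 78) (nat_lit 1368) (nat_lit 0) (XT.lf (nat_lit 0) (nat_lit 1165377931) (nat_lit 1368) (nat_lit 4254223753) (nat_lit 76) (nat_lit 2048069516) (nat_lit 484) (nat_lit 5) (nat_lit 502) (nat_lit 5) (nat_lit 485) (nat_lit 5) (nat_lit 415) (nat_lit 388) (nat_lit 337)) (XT.nd (nat_lit 78) (nat_lit 1368) (nat_lit 0) (XT.lf (nat_lit 0) (nat_lit 3209316083) (nat_lit 1368) (nat_lit 74742874) (nat_lit 76) (nat_lit 4236020733) (nat_lit 484) (nat_lit 5) (nat_lit 502) (nat_lit 5) (nat_lit 485) (nat_lit 5) (nat_lit 416) (nat_lit 388) (nat_lit 336)) (XT.lf (nat_lit 0) (nat_lit 4210628756) (nat_lit 1368) (nat_lit 1070322084) (nat_lit 1444) (nat_lit 2292877710) (nat_lit 466) (nat_lit 5) (nat_lit 484) (nat_lit 5) (nat_lit 485) (nat_lit 5) (nat_lit 417) (nat_lit 388) (nat_lit 335))))) (XT.nd (nat_lit 156) (nat_lit 3192) (nat_lit 0) (XT.nd (nat_lit 78) (nat_lit 76)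 (nat_lit 0) (XT.lf (nat_lit 0) (nat_lit 924915315) (nat_lit 1444) (nat_lit 6443433075) (nat_lit 1520) (nat_lit 260845393) (nat_lit 447) (nat_lit 5) (nat_lit 466) (nat_lit 5) (nat_lit 467) (nat_lit 5) (nat_lit 418) (nat_lit 388) (nat_lit 334)) (XT.lf (nat_lit 0) (nat_lit 1778258507) (nat_lit 1520) (nat_lit 2393746015) (nat_lit 76) (nat_lit 3513649571) (nat_lit 446) (nat_lit 5) (nat_lit 466) (nat_lit 5) (nat_lit 447) (nat_lit 5) (nat_lit 419) (nat_lit 388) (nat_lit 333))) (XT.nd (nat_lit 78) (nat_lit 1672) (nat_lit 0) (XT.lf (nat_lit 0) (nat_lit 1994176976) (nat_lit 1520) (nat_lit 1834589156) (nat_lit 1596) (nat_lit 3914987088) (nat_lit 426) (nat_lit 5) (nat_lit 446) (nat_lit 5) (nat_lit 447) (nat_lit 5) (nat_lit 420) (nat_lit 388) (nat_lit 332)) (XT.nd (nat_lit 78) (nat_lit 1672) (nat_lit 0) (XT.lf (nat_lit 0) (nat_lit 5901766591) (nat_lit 1596) (nat_lit 1337915095) (nat_lit 76) (nat_lit 563728857) (nat_lit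 426) (nat_lit 5) (nat_lit 447) (nat_lit 5) (nat_lit 427) (nat_lit 5) (nat_lit 421) (nat_lit 388) (nat_lit 331)) (XT.lf (nat_lit 0) (nat_lit 145064539) (nat_lit 1672) (nat_lit 4707279521) (nat_lit 76) (nat_lit 3012020248) (nat_lit 404) (nat_lit 5) (nat_lit 426) (nat_lit 5) (nat_lit 405) (nat_lit 5) (nat_lit 422) (nat_lit 388) (nat_lit 330)))))) (XT.nd (nat_lit 390) (nat_lit 2660) (nat_lit 0) (XT.nd (nat_lit 156) (nat_lit 2736) (nat_lit 0) (XT.nd (nat_lit 78) (nat_lit 1672) (nat_lit 0) (XT.lf (nat_lit 0) (nat_lit 2179052326) (nat_lit 1672) (nat_lit 212381283) (nat_lit 76) (nat_lit 5535440353) (nat_lit 404) (nat_lit 5) (nat_lit 426) (nat_lit 5) (nat_lit 405) (nat_lit 5) (nat_lit 423) (nat_lit 388) (nat_lit 329)) (XT.lf (nat_lit 0) (nat_lit 4246730627) (nat_lit 1748) (nat_lit 3594549513) (nat_lit 76) (nat_lit 149517350) (nat_lit 382) (nat_lit 5) (nat_lit 405) (nat_lit 5) (nat_lit 383) (nat_lit 5) (nat_lit 424)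 (nat_lit 388) (nat_lit 328))) (XT.nd (nat_lit 78) (nat_lit 988) (nat_lit 0) (XT.lf (nat_lit 0) (nat_lit 1007946171) (nat_lit 1748) (nat_lit 5335636163) (nat_lit 1824) (nat_lit 1712684185) (nat_lit 359) (nat_lit 5) (nat_lit 382) (nat_lit 5) (nat_lit 383) (nat_lit 5) (nat_lit 425) (nat_lit 388) (nat_lit 327)) (XT.nd (nat_lit 78) (nat_lit 912) (nat_lit 0) (XT.lf (nat_lit 0) (nat_lit 343130909) (nat_lit 1824) (nat_lit 2407500760) (nat_lit 76) (nat_lit 5372618770) (nat_lit 358) (nat_lit 5) (nat_lit 382) (nat_lit 5) (nat_lit 359) (nat_lit 5) (nat_lit 426) (nat_lit 388) (nat_lit 326)) (XT.lf (nat_lit 0) (nat_lit 2312114418) (nat_lit 912) (nat_lit 84985839) (nat_lit 988) (nat_lit 5794670024) (nat_lit 346) (nat_lit 5) (nat_lit 358) (nat_lit 5) (nat_lit 359) (nat_lit 5) (nat_lit 427) (nat_lit 388) (nat_lit 325))))) (XT.nd (nat_lit 234) (nat_lit 836) (nat_lit 0) (XT.nd (nat_lit 78) (nat_lit 1824) (nat_lit 0) (XT.lf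 (nat_lit 0) (nat_lit 4490936996) (nat_lit 988) (nat_lit 1153299991) (nat_lit 76) (nat_lit 2617469416) (nat_lit 346) (nat_lit 5) (nat_lit 359) (nat_lit 5) (nat_lit 347) (nat_lit 5) (nat_lit 428) (nat_lit 388) (nat_lit 324)) (XT.nd (nat_lit 78) (nat_lit 912) (nat_lit 0) (XT.lf (nat_lit 0) (nat_lit 3682463109) (nat_lit 912) (nat_lit 2934761050) (nat_lit 988) (nat_lit 1716026834) (nat_lit 334) (nat_lit 5) (nat_lit 346) (nat_lit 5) (nat_lit 347) (nat_lit 5) (nat_lit 429) (nat_lit 388) (nat_lit 323)) (XT.lf (nat_lit 0) (nat_lit 191390777) (nat_lit 836) (nat_lit 158784290) (nat_lit 912) (nat_lit 8056515567) (nat_lit 322) (nat_lit 5) (nat_lit 333) (nat_lit 5) (nat_lit 334) (nat_lit 5) (nat_lit 430) (nat_lit 388) (nat_lit 322)))) (XT.nd (nat_lit 78) (nat_lit 836) (nat_lit 0) (XT.lf (nat_lit 0) (nat_lit 2450275749) (nat_lit 912) (nat_lit 3350017811) (nat_lit 76) (nat_lit 2680787597) (nat_lit 322) (nat_lit 5) (nat_lit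 334) (nat_lit 5) (nat_lit 323) (nat_lit 5) (nat_lit 431) (nat_lit 388) (nat_lit 321)) (XT.nd (nat_lit 78) (nat_lit 0) (nat_lit 0) (XT.lf (nat_lit 0) (nat_lit 1599580964) (nat_lit 836) (nat_lit 2971648223) (nat_lit 912) (nat_lit 3986172892) (nat_lit 311) (nat_lit 5) (nat_lit 322) (nat_lit 5) (nat_lit 323) (nat_lit 5) (nat_lit 432) (nat_lit 388) (nat_lit 320)) (XT.lf (nat_lit 0) (nat_lit 6660882491) (nat_lit 836) (nat_lit 64039879) (nat_lit 912) (nat_lit 1910539855) (nat_lit 311) (nat_lit 5) (nat_lit 322) (nat_lit 5) (nat_lit 323) (nat_lit 5) (nat_lit 433) (nat_lit 388) (nat_lit 319))))))))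
noncomputable def xc122 : XT := (XT.nd (nat_lit 1560) (nat_lit 5928) (nat_lit 0) (XT.nd (nat_lit 780) (nat_lit 3800) (nat_lit 0) (XT.nd (nat_lit 390) (nat_lit 2280) (nat_lit 0) (XT.nd (nat_lit 156) (nat_lit 1520) (nat_lit 0) (XT.nd (nat_lit 78) (nat_lit 0) (nat_lit 0) (XT.lf (nat_lit 0) (nat_lit 211344439) (nat_lit 836) (nat_lit 5618939298) (nat_lit 76) (nat_lit 2884642514) (nat_lit 300) (nat_lit 5) (nat_lit 311) (nat_lit 5) (nat_lit 301) (nat_lit 5) (nat_lit 434) (nat_lit 388) (nat_lit 318)) (XT.lf (nat_lit 0) (nat_lit 2332520956) (nat_lit 836) (nat_lit 547072050) (nat_lit 76) (nat_lit 5916503358) (nat_lit 300) (nat_lit 5) (nat_lit 311) (nat_lit 5) (nat_lit 301) (nat_lit 5) (nat_lit 435) (nat_lit 388) (nat_lit 317))) (XT.nd (nat_lit 78) (nat_lit 760) (nat_lit 0) (XT.lf (nat_lit 0) (nat_lit 4496644410) (nat_lit 836) (nat_lit 4224947407) (nat_lit 76) (nat_lit 157305346) (nat_lit 290) (nat_lit 5) (nat_lit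 301) (nat_lit 5) (nat_lit 291) (nat_lit 5) (nat_lit 436) (nat_lit 388) (nat_lit 316)) (XT.nd (nat_lit 78) (nat_lit 0) (nat_lit 0) (XT.lf (nat_lit 0) (nat_lit 963996601) (nat_lit 760) (nat_lit 5738726612) (nat_lit 836) (nat_lit 2260674715) (nat_lit 280) (nat_lit 5) (nat_lit 290) (nat_lit 5) (nat_lit 291) (nat_lit 5) (nat_lit 437) (nat_lit 388) (nat_lit 315)) (XT.lf (nat_lit 0) (nat_lit 6281525686) (nat_lit 760) (nat_lit 2669782246) (nat_lit 836) (nat_lit 98330155) (nat_lit 280) (nat_lit 5) (nat_lit 290) (nat_lit 5) (nat_lit 291) (nat_lit 5) (nat_lit 438) (nat_lit 388) (nat_lit 314))))) (XT.nd (nat_lit 156) (nat_lit 1444) (nat_lit 0) (XT.nd (nat_lit 78) (nat_lit 0) (nat_lit 0) (XT.lf (nat_lit 0) (nat_lit 2069798197) (nat_lit 836) (nat_lit 6585381354) (nat_lit 76) (nat_lit 482362786) (nat_lit 269) (nat_lit 5) (nat_lit 280) (nat_lit 5) (nat_lit 270) (nat_lit 5) (nat_lit 439) (nat_lit 388) (nat_lit 313)) (XT.lf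 (nat_lit 0) (nat_lit 4287116188) (nat_lit 836) (nat_lit 1261533038) (nat_lit 76) (nat_lit 3678415655) (nat_lit 269) (nat_lit 5) (nat_lit 280) (nat_lit 5) (nat_lit 270) (nat_lit 5) (nat_lit 440) (nat_lit 388) (nat_lit 312))) (XT.nd (nat_lit 78) (nat_lit 760) (nat_lit 0) (XT.lf (nat_lit 0) (nat_lit 4191800503) (nat_lit 684) (nat_lit 2355532547) (nat_lit 760) (nat_lit 2771089539) (nat_lit 260) (nat_lit 5) (nat_lit 269) (nat_lit 5) (nat_lit 270) (nat_lit 5) (nat_lit 441) (nat_lit 388) (nat_lit 311)) (XT.nd (nat_lit 78) (nat_lit 76) (nat_lit 0) (XT.lf (nat_lit 0) (nat_lit 325911672) (nat_lit 684) (nat_lit 8515003018) (nat_lit 760) (nat_lit 570945013) (nat_lit 251) (nat_lit 5) (nat_lit 260) (nat_lit 5) (nat_lit 261) (nat_lit 5) (nat_lit 442) (nat_lit 388) (nat_lit 310)) (XT.lf (nat_lit 0) (nat_lit 1673304545) (nat_lit 760) (nat_lit 3608673252) (nat_lit 76) (nat_lit 4224544415) (nat_lit 250) (nat_lit 5) (nat_lit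 260) (nat_lit 5) (nat_lit 251) (nat_lit 5) (nat_lit 443) (nat_lit 388) (nat_lit 309)))))) (XT.nd (nat_lit 390) (nat_lit 1824) (nat_lit 0) (XT.nd (nat_lit 156) (nat_lit 1368) (nat_lit 0) (XT.nd (nat_lit 78) (nat_lit 0) (nat_lit 0) (XT.lf (nat_lit 0) (nat_lit 1968324349) (nat_lit 608) (nat_lit 1971625994) (nat_lit 684) (nat_lit 5663363592) (nat_lit 242) (nat_lit 5) (nat_lit 250) (nat_lit 5) (nat_lit 251) (nat_lit 5) (nat_lit 444) (nat_lit 388) (nat_lit 308)) (XT.lf (nat_lit 0) (nat_lit 6258104714) (nat_lit 684) (nat_lit 2037239709) (nat_lit 76) (nat_lit 1406587835) (nat_lit 242) (nat_lit 5) (nat_lit 251) (nat_lit 5) (nat_lit 243) (nat_lit 5) (nat_lit 445) (nat_lit 388) (nat_lit 307))) (XT.nd (nat_lit 78) (nat_lit 684) (nat_lit 0) (XT.lf (nat_lit 0) (nat_lit 3676072517) (nat_lit 684) (nat_lit 4956687450) (nat_lit 760) (nat_lit 1169574225) (nat_lit 233) (nat_lit 5) (nat_lit 242) (nat_lit 5) (nat_lit 243) (nat_lit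 5) (nat_lit 446) (nat_lit 388) (nat_lit 306)) (XT.nd (nat_lit 78) (nat_lit 608) (nat_lit 0) (XT.lf (nat_lit 0) (nat_lit 1122187146) (nat_lit 760) (nat_lit 412470594) (nat_lit 76) (nat_lit 8370208376) (nat_lit 232) (nat_lit 5) (nat_lit 242) (nat_lit 5) (nat_lit 233) (nat_lit 5) (nat_lit 447) (nat_lit 388) (nat_lit 305)) (XT.lf (nat_lit 0) (nat_lit 3466331786) (nat_lit 684) (nat_lit 4573855050) (nat_lit 76) (nat_lit 1968676244) (nat_lit 224) (nat_lit 5) (nat_lit 233) (nat_lit 5) (nat_lit 225) (nat_lit 5) (nat_lit 448) (nat_lit 388) (nat_lit 304))))) (XT.nd (nat_lit 156) (nat_lit 1216) (nat_lit 0) (XT.nd (nat_lit 78) (nat_lit 0) (nat_lit 0) (XT.lf (nat_lit 0) (nat_lit 1265175927) (nat_lit 608) (nat_lit 4587495014) (nat_lit 684) (nat_lit 4262375745) (nat_lit 216) (nat_lit 5) (nat_lit 224) (nat_lit 5) (nat_lit 225) (nat_lit 5) (nat_lit 449) (nat_lit 388) (nat_lit 303)) (XT.lf (nat_lit 0) (nat_lit 7251815561)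 (nat_lit 608) (nat_lit 1040066549) (nat_lit 684) (nat_lit 1931381627) (nat_lit 216) (nat_lit 5) (nat_lit 224) (nat_lit 5) (nat_lit 225) (nat_lit 5) (nat_lit 450) (nat_lit 388) (nat_lit 302))) (XT.nd (nat_lit 78) (nat_lit 608) (nat_lit 0) (XT.lf (nat_lit 0) (nat_lit 451683607) (nat_lit 608) (nat_lit 7320080073) (nat_lit 76) (nat_lit 2561609620) (nat_lit 208) (nat_lit 5) (nat_lit 216) (nat_lit 5) (nat_lit 209) (nat_lit 5) (nat_lit 451) (nat_lit 388) (nat_lit 301)) (XT.nd (nat_lit 78) (nat_lit 608) (nat_lit 0) (XT.lf (nat_lit 0) (nat_lit 2858565823) (nat_lit 608) (nat_lit 1338266230) (nat_lit 76) (nat_lit 6248569283) (nat_lit 208) (nat_lit 5) (nat_lit 216) (nat_lit 5) (nat_lit 209) (nat_lit 5) (nat_lit 452) (nat_lit 388) (nat_lit 300)) (XT.lf (nat_lit 0) (nat_lit 4795511532) (nat_lit 608) (nat_lit 524732154) (nat_lit 684) (nat_lit 5239304802) (nat_lit 200) (nat_lit 5) (nat_lit 208) (nat_lit 5) (nat_lit 209)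 (nat_lit 5) (nat_lit 453) (nat_lit 388) (nat_lit 299))))))) (XT.nd (nat_lit 780) (nat_lit 2736) (nat_lit 0) (XT.nd (nat_lit 390) (nat_lit 1520) (nat_lit 0) (XT.nd (nat_lit 156) (nat_lit 1140) (nat_lit 0) (XT.nd (nat_lit 78) (nat_lit 0) (nat_lit 0) (XT.lf (nat_lit 0) (nat_lit 347066585) (nat_lit 532) (nat_lit 7492058589) (nat_lit 608) (nat_lit 2836705492) (nat_lit 193) (nat_lit 5) (nat_lit 200) (nat_lit 5) (nat_lit 201) (nat_lit 5) (nat_lit 454) (nat_lit 388) (nat_lit 298)) (XT.lf (nat_lit 0) (nat_lit 6624386197) (nat_lit 532) (nat_lit 3802171506) (nat_lit 608) (nat_lit 367528576) (nat_lit 193) (nat_lit 5) (nat_lit 200) (nat_lit 5) (nat_lit 201) (nat_lit 5) (nat_lit 455) (nat_lit 388) (nat_lit 297))) (XT.nd (nat_lit 78) (nat_lit 532) (nat_lit 0) (XT.lf (nat_lit 0) (nat_lit 2095722399) (nat_lit 532) (nat_lit 17049960) (nat_lit 608) (nat_lit 8801867115) (nat_lit 185) (nat_lit 5) (nat_lit 192) (nat_lit 5) (nat_lit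 193) (nat_lit 5) (nat_lit 456) (nat_lit 388) (nat_lit 296)) (XT.nd (nat_lit 78) (nat_lit 532) (nat_lit 0) (XT.lf (nat_lit 0) (nat_lit 4667454308) (nat_lit 608) (nat_lit 2552222514) (nat_lit 76) (nat_lit 3817295009) (nat_lit 185) (nat_lit 5) (nat_lit 193) (nat_lit 5) (nat_lit 186) (nat_lit 5) (nat_lit 457) (nat_lit 388) (nat_lit 295)) (XT.lf (nat_lit 0) (nat_lit 3860344179) (nat_lit 532) (nat_lit 3415091061) (nat_lit 608) (nat_lit 3886281893) (nat_lit 178) (nat_lit 5) (nat_lit 185) (nat_lit 5) (nat_lit 186) (nat_lit 5) (nat_lit 458) (nat_lit 388) (nat_lit 294))))) (XT.nd (nat_lit 156) (nat_lit 912) (nat_lit 0) (XT.nd (nat_lit 78) (nat_lit 608) (nat_lit 0) (XT.lf (nat_lit 0) (nat_lit 9933078566) (nat_lit 608) (nat_lit 886192204) (nat_lit 76) (nat_lit 469746712) (nat_lit 178) (nat_lit 5) (nat_lit 186) (nat_lit 5) (nat_lit 179) (nat_lit 5) (nat_lit 459) (nat_lit 388) (nat_lit 293)) (XT.lf (nat_lit 0) (nat_lit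 1246358954) (nat_lit 608) (nat_lit 5746773127) (nat_lit 76) (nat_lit 4424834201) (nat_lit 170) (nat_lit 5) (nat_lit 178) (nat_lit 5) (nat_lit 171) (nat_lit 5) (nat_lit 460) (nat_lit 388) (nat_lit 292))) (XT.nd (nat_lit 78) (nat_lit 456) (nat_lit 0) (XT.lf (nat_lit 0) (nat_lit 794041197) (nat_lit 456) (nat_lit 3077440907) (nat_lit 532) (nat_lit 7678063604) (nat_lit 164) (nat_lit 5) (nat_lit 170) (nat_lit 5) (nat_lit 171) (nat_lit 5) (nat_lit 461) (nat_lit 388) (nat_lit 291)) (XT.nd (nat_lit 78) (nat_lit 456) (nat_lit 0) (XT.lf (nat_lit 0) (nat_lit 6571849754) (nat_lit 532) (nat_lit 4175542824) (nat_lit 76) (nat_lit 935918722) (nat_lit 164) (nat_lit 5) (nat_lit 171) (nat_lit 5) (nat_lit 165) (nat_lit 5) (nat_lit 462) (nat_lit 388) (nat_lit 290)) (XT.lf (nat_lit 0) (nat_lit 2519344169) (nat_lit 456) (nat_lit 6822022004) (nat_lit 532) (nat_lit 2478092442) (nat_lit 158) (nat_lit 5) (nat_lit 164) (nat_lit 5) (nat_lit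 165) (nat_lit 5) (nat_lit 463) (nat_lit 388) (nat_lit 289)))))) (XT.nd (nat_lit 390) (nat_lit 1368) (nat_lit 0) (XT.nd (nat_lit 156) (nat_lit 836) (nat_lit 0) (XT.nd (nat_lit 78) (nat_lit 456) (nat_lit 0) (XT.lf (nat_lit 0) (nat_lit 211910071) (nat_lit 532) (nat_lit 2584011610) (nat_lit 76) (nat_lit 9162255205) (nat_lit 157) (nat_lit 5) (nat_lit 164) (nat_lit 5) (nat_lit 158) (nat_lit 5) (nat_lit 464) (nat_lit 388) (nat_lit 288)) (XT.lf (nat_lit 0) (nat_lit 2937994167) (nat_lit 532) (nat_lit 7830729409) (nat_lit 76) (nat_lit 1330317782) (nat_lit 151) (nat_lit 5) (nat_lit 158) (nat_lit 5) (nat_lit 152) (nat_lit 5) (nat_lit 465) (nat_lit 388) (nat_lit 287))) (XT.nd (nat_lit 78) (nat_lit 836) (nat_lit 0) (XT.lf (nat_lit 0) (nat_lit 5733657016) (nat_lit 532) (nat_lit 997343249) (nat_lit 76) (nat_lit 5511430247) (nat_lit 151) (nat_lit 5) (nat_lit 158) (nat_lit 5) (nat_lit 152) (nat_lit 5) (nat_lit 466) (nat_lit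 388) (nat_lit 286)) (XT.nd (nat_lit 78) (nat_lit 380) (nat_lit 0) (XT.lf (nat_lit 0) (nat_lit 6023230903) (nat_lit 456) (nat_lit 2580605223) (nat_lit 532) (nat_lit 3784487629) (nat_lit 145) (nat_lit 5) (nat_lit 151) (nat_lit 5) (nat_lit 152) (nat_lit 5) (nat_lit 467) (nat_lit 388) (nat_lit 285)) (XT.lf (nat_lit 0) (nat_lit 629566172) (nat_lit 380) (nat_lit 10903070896) (nat_lit 456) (nat_lit 1004481633) (nat_lit 140) (nat_lit 5) (nat_lit 145) (nat_lit 5) (nat_lit 146) (nat_lit 5) (nat_lit 468) (nat_lit 388) (nat_lit 284))))) (XT.nd (nat_lit 234) (nat_lit 836) (nat_lit 0) (XT.nd (nat_lit 78) (nat_lit 456) (nat_lit 0) (XT.lf (nat_lit 0) (nat_lit 1846930432) (nat_lit 456) (nat_lit 4895637041) (nat_lit 76) (nat_lit 5945295747) (nat_lit 139) (nat_lit 5) (nat_lit 145) (nat_lit 5) (nat_lit 140) (nat_lit 5) (nat_lit 469) (nat_lit 388) (nat_lit 283)) (XT.nd (nat_lit 78) (nat_lit 0) (nat_lit 0) (XT.lf (nat_lit 0)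 (nat_lit 2251214346) (nat_lit 456) (nat_lit 2485468063) (nat_lit 532) (nat_lit 8104919925) (nat_lit 133) (nat_lit 5) (nat_lit 139) (nat_lit 5) (nat_lit 140) (nat_lit 5) (nat_lit 470) (nat_lit 388) (nat_lit 282)) (XT.lf (nat_lit 0) (nat_lit 7709641164) (nat_lit 532) (nat_lit 3431004353) (nat_lit 76) (nat_lit 1857270055) (nat_lit 133) (nat_lit 5) (nat_lit 140) (nat_lit 5) (nat_lit 134) (nat_lit 5) (nat_lit 471) (nat_lit 388) (nat_lit 281)))) (XT.nd (nat_lit 78) (nat_lit 456) (nat_lit 0) (XT.lf (nat_lit 0) (nat_lit 3878189057) (nat_lit 380) (nat_lit 6886182873) (nat_lit 456) (nat_lit 2392544316) (nat_lit 128) (nat_lit 5) (nat_lit 133) (nat_lit 5) (nat_lit 134) (nat_lit 5) (nat_lit 472) (nat_lit 388) (nat_lit 280)) (XT.nd (nat_lit 78) (nat_lit 380) (nat_lit 0) (XT.lf (nat_lit 0) (nat_lit 557656690) (nat_lit 456) (nat_lit 1970218798) (nat_lit 76) (nat_lit 10791077422) (nat_lit 127) (nat_lit 5) (nat_lit 133) (nat_lit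 5) (nat_lit 128) (nat_lit 5) (nat_lit 473) (nat_lit 388) (nat_lit 279)) (XT.lf (nat_lit 0) (nat_lit 3564507693) (nat_lit 456) (nat_lit 7982707619) (nat_lit 76) (nat_lit 1936112056) (nat_lit 122) (nat_lit 5) (nat_lit 128) (nat_lit 5) (nat_lit 123) (nat_lit 5) (nat_lit 474) (nat_lit 388) (nat_lit 278))))))))
noncomputable def xc123 : XT := (XT.nd (nat_lit 1560) (nat_lit 1140) (nat_lit 0) (XT.nd (nat_lit 780) (nat_lit 1824) (nat_lit 0) (XT.nd (nat_lit 390) (nat_lit 760) (nat_lit 0) (XT.nd (nat_lit 156) (nat_lit 760) (nat_lit 0) (XT.nd (nat_lit 78) (nat_lit 380) (nat_lit 0) (XT.lf (nat_lit 0) (nat_lit 6642801214) (nat_lit 456) (nat_lit 547432583) (nat_lit 76) (nat_lit 6460536272) (nat_lit 122) (nat_lit 5) (nat_lit 128) (nat_lit 5) (nat_lit 123) (nat_lit 5) (nat_lit 475) (nat_lit 388) (nat_lit 277)) (XT.lf (nat_lit 0) (nat_lit 7102779499) (nat_lit 380) (nat_lit 2707620433) (nat_lit 456) (nat_lit 4010613634) (nat_lit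 117) (nat_lit 5) (nat_lit 122) (nat_lit 5) (nat_lit 123) (nat_lit 5) (nat_lit 476) (nat_lit 388) (nat_lit 276))) (XT.nd (nat_lit 78) (nat_lit 380) (nat_lit 0) (XT.lf (nat_lit 0) (nat_lit 891326610) (nat_lit 380) (nat_lit 12153369998) (nat_lit 456) (nat_lit 949905002) (nat_lit 112) (nat_lit 5) (nat_lit 117) (nat_lit 5) (nat_lit 118) (nat_lit 5) (nat_lit 477) (nat_lit 388) (nat_lit 275)) (XT.nd (nat_lit 78) (nat_lit 304) (nat_lit 0) (XT.lf (nat_lit 0) (nat_lit 2188655822) (nat_lit 456) (nat_lit 5486076260) (nat_lit 76) (nat_lit 6495751140) (nat_lit 111) (nat_lit 5) (nat_lit 117) (nat_lit 5) (nat_lit 112) (nat_lit 5) (nat_lit 478) (nat_lit 388) (nat_lit 274)) (XT.lf (nat_lit 0) (nat_lit 2280486215) (nat_lit 304) (nat_lit 3093769087) (nat_lit 380) (nat_lit 8975568072) (nat_lit 107) (nat_lit 5) (nat_lit 111) (nat_lit 5) (nat_lit 112) (nat_lit 5) (nat_lit 479) (nat_lit 388) (nat_lit 273))))) (XT.nd (nat_lit 156)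 (nat_lit 380) (nat_lit 0) (XT.nd (nat_lit 78) (nat_lit 380) (nat_lit 0) (XT.lf (nat_lit 0) (nat_lit 8653165227) (nat_lit 380) (nat_lit 4292489096) (nat_lit 76) (nat_lit 1586510129) (nat_lit 107) (nat_lit 5) (nat_lit 112) (nat_lit 5) (nat_lit 108) (nat_lit 5) (nat_lit 480) (nat_lit 388) (nat_lit 272)) (XT.lf (nat_lit 0) (nat_lit 3640957538) (nat_lit 380) (nat_lit 8383460614) (nat_lit 456) (nat_lit 2693204879) (nat_lit 102) (nat_lit 5) (nat_lit 107) (nat_lit 5) (nat_lit 108) (nat_lit 5) (nat_lit 481) (nat_lit 388) (nat_lit 271))) (XT.nd (nat_lit 78) (nat_lit 304) (nat_lit 0) (XT.lf (nat_lit 0) (nat_lit 560693508) (nat_lit 456) (nat_lit 3145023513) (nat_lit 76) (nat_lit 11200773581) (nat_lit 101) (nat_lit 5) (nat_lit 107) (nat_lit 5) (nat_lit 102) (nat_lit 5) (nat_lit 482) (nat_lit 388) (nat_lit 270)) (XT.nd (nat_lit 78) (nat_lit 0) (nat_lit 0) (XT.lf (nat_lit 0) (nat_lit 3866110523) (nat_lit 380) (nat_lit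 10138866090) (nat_lit 76) (nat_lit 1093358446) (nat_lit 97) (nat_lit 5) (nat_lit 102) (nat_lit 5) (nat_lit 98) (nat_lit 5) (nat_lit 483) (nat_lit 388) (nat_lit 269)) (XT.lf (nat_lit 0) (nat_lit 7266559318) (nat_lit 380) (nat_lit 2075457655) (nat_lit 76) (nat_lit 5951426483) (nat_lit 97) (nat_lit 5) (nat_lit 102) (nat_lit 5) (nat_lit 98) (nat_lit 5) (nat_lit 484) (nat_lit 388) (nat_lit 268)))))) (XT.nd (nat_lit 390) (nat_lit 836) (nat_lit 0) (XT.nd (nat_lit 156) (nat_lit 684) (nat_lit 0) (XT.nd (nat_lit 78) (nat_lit 0) (nat_lit 0) (XT.lf (nat_lit 0) (nat_lit 6205243669) (nat_lit 304) (nat_lit 4553530348) (nat_lit 380) (nat_lit 4733210277) (nat_lit 93) (nat_lit 5) (nat_lit 97) (nat_lit 5) (nat_lit 98) (nat_lit 5) (nat_lit 485) (nat_lit 388) (nat_lit 267)) (XT.lf (nat_lit 0) (nat_lit 14320571646) (nat_lit 380) (nat_lit 1042231326) (nat_lit 76) (nat_lit 331703510) (nat_lit 93) (nat_lit 5) (nat_lit 98) (nat_lit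 5) (nat_lit 94) (nat_lit 5) (nat_lit 486) (nat_lit 388) (nat_lit 266))) (XT.nd (nat_lit 78) (nat_lit 304) (nat_lit 0) (XT.lf (nat_lit 0) (nat_lit 2088168561) (nat_lit 380) (nat_lit 8504361049) (nat_lit 76) (nat_lit 5307036840) (nat_lit 88) (nat_lit 5) (nat_lit 93) (nat_lit 5) (nat_lit 89) (nat_lit 5) (nat_lit 487) (nat_lit 388) (nat_lit 265)) (XT.nd (nat_lit 78) (nat_lit 304) (nat_lit 0) (XT.lf (nat_lit 0) (nat_lit 5592112390) (nat_lit 380) (nat_lit 127236021) (nat_lit 76) (nat_lit 10389382665) (nat_lit 88) (nat_lit 5) (nat_lit 93) (nat_lit 5) (nat_lit 89) (nat_lit 5) (nat_lit 488) (nat_lit 388) (nat_lit 264)) (XT.lf (nat_lit 0) (nat_lit 8504437715) (nat_lit 304) (nat_lit 701166689) (nat_lit 380) (nat_lit 7115690107) (nat_lit 84) (nat_lit 5) (nat_lit 88) (nat_lit 5) (nat_lit 89) (nat_lit 5) (nat_lit 489) (nat_lit 388) (nat_lit 263))))) (XT.nd (nat_lit 156) (nat_lit 608) (nat_lit 0) (XT.nd (nat_lit 78) (nat_lit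 0) (nat_lit 0) (XT.lf (nat_lit 0) (nat_lit 728617844) (nat_lit 228) (nat_lit 12181365556) (nat_lit 304) (nat_lit 3627758277) (nat_lit 81) (nat_lit 5) (nat_lit 84) (nat_lit 5) (nat_lit 85) (nat_lit 5) (nat_lit 490) (nat_lit 388) (nat_lit 262)) (XT.lf (nat_lit 0) (nat_lit 9521788957) (nat_lit 228) (nat_lit 7208223694) (nat_lit 304) (nat_lit 27678591) (nat_lit 81) (nat_lit 5) (nat_lit 84) (nat_lit 5) (nat_lit 85) (nat_lit 5) (nat_lit 491) (nat_lit 388) (nat_lit 261))) (XT.nd (nat_lit 78) (nat_lit 228) (nat_lit 0) (XT.lf (nat_lit 0) (nat_lit 1480341186) (nat_lit 304) (nat_lit 2110569177) (nat_lit 380) (nat_lit 13390774633) (nat_lit 76) (nat_lit 5) (nat_lit 80) (nat_lit 5) (nat_lit 81) (nat_lit 5) (nat_lit 492) (nat_lit 388) (nat_lit 260)) (XT.nd (nat_lit 78) (nat_lit 228) (nat_lit 0) (XT.lf (nat_lit 0) (nat_lit 7335214967) (nat_lit 380) (nat_lit 6785040824) (nat_lit 76) (nat_lit 3088829326) (nat_lit 76) (nat_lit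 5) (nat_lit 81) (nat_lit 5) (nat_lit 77) (nat_lit 5) (nat_lit 493) (nat_lit 388) (nat_lit 259)) (XT.lf (nat_lit 0) (nat_lit 2095280668) (nat_lit 228) (nat_lit 9071784432) (nat_lit 304) (nat_lit 6273719302) (nat_lit 73) (nat_lit 5) (nat_lit 76) (nat_lit 5) (nat_lit 77) (nat_lit 5) (nat_lit 494) (nat_lit 388) (nat_lit 258))))))) (XT.nd (nat_lit 51246) (nat_lit 0) (nat_lit 39140) (XT.nd (nat_lit 390) (nat_lit 532) (nat_lit 0) (XT.nd (nat_lit 156) (nat_lit 228) (nat_lit 0) (XT.nd (nat_lit 78) (nat_lit 380) (nat_lit 0) (XT.lf (nat_lit 0) (nat_lit 11221527994) (nat_lit 228) (nat_lit 3884772655) (nat_lit 304) (nat_lit 2570206323) (nat_lit 73) (nat_lit 5) (nat_lit 76) (nat_lit 5) (nat_lit 77) (nat_lit 5) (nat_lit 495) (nat_lit 388) (nat_lit 257)) (XT.lf (nat_lit 0) (nat_lit 1203172473) (nat_lit 380) (nat_lit 15309534816) (nat_lit 76) (nat_lit 1403851413) (nat_lit 68) (nat_lit 5) (nat_lit 73) (nat_lit 5) (nat_lit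 69) (nat_lit 5) (nat_lit 496) (nat_lit 388) (nat_lit 256))) (XT.nd (nat_lit 78) (nat_lit 228) (nat_lit 0) (XT.lf (nat_lit 0) (nat_lit 5072451368) (nat_lit 380) (nat_lit 6289284637) (nat_lit 76) (nat_lit 6798242750) (nat_lit 68) (nat_lit 5) (nat_lit 73) (nat_lit 5) (nat_lit 69) (nat_lit 5) (nat_lit 497) (nat_lit 388) (nat_lit 255)) (XT.nd (nat_lit 78) (nat_lit 0) (nat_lit 0) (XT.lf (nat_lit 0) (nat_lit 2926745358) (nat_lit 228) (nat_lit 6097142730) (nat_lit 304) (nat_lit 9384287618) (nat_lit 65) (nat_lit 5) (nat_lit 68) (nat_lit 5) (nat_lit 69) (nat_lit 5) (nat_lit 498) (nat_lit 388) (nat_lit 254)) (XT.lf (nat_lit 0) (nat_lit 12389490267) (nat_lit 228) (nat_lit 692968171) (nat_lit 304) (nat_lit 5578319924) (nat_lit 65) (nat_lit 5) (nat_lit 68) (nat_lit 5) (nat_lit 69) (nat_lit 5) (nat_lit 499) (nat_lit 388) (nat_lit 253))))) (XT.nd (nat_lit 156) (nat_lit 228) (nat_lit 0) (XT.nd (nat_lit 78) (nat_lit 76) (nat_lit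 0) (XT.lf (nat_lit 0) (nat_lit 3109919241) (nat_lit 228) (nat_lit 14149883831) (nat_lit 304) (nat_lit 1657881731) (nat_lit 62) (nat_lit 5) (nat_lit 65) (nat_lit 5) (nat_lit 66) (nat_lit 5) (nat_lit 500) (nat_lit 388) (nat_lit 252)) (XT.lf (nat_lit 0) (nat_lit 2343367169) (nat_lit 304) (nat_lit 6457868643) (nat_lit 76) (nat_lit 10377531138) (nat_lit 61) (nat_lit 5) (nat_lit 65) (nat_lit 5) (nat_lit 62) (nat_lit 5) (nat_lit 501) (nat_lit 388) (nat_lit 251))) (XT.nd (nat_lit 50544) (nat_lit 0) (nat_lit 42180) (XT.lf (nat_lit 0) (nat_lit 3086295126) (nat_lit 228) (nat_lit 3322630018) (nat_lit 304) (nat_lit 13035800332) (nat_lit 58) (nat_lit 5) (nat_lit 61) (nat_lit 5) (nat_lit 62) (nat_lit 5) (nat_lit 502) (nat_lit 388) (nat_lit 250)) (XT.nd (nat_lit 78) (nat_lit 0) (nat_lit 0) (XT.lf (nat_lit 0) (nat_lit 1323516989) (nat_lit 684) (nat_lit 988196486) (nat_lit 684) (nat_lit 988196486) (nat_lit 613) (nat_lit 3)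 (nat_lit 622) (nat_lit 3) (nat_lit 622) (nat_lit 5) (nat_lit 389) (nat_lit 389) (nat_lit 362)) (XT.lf (nat_lit 76) (nat_lit 1153990960) (nat_lit 0) (nat_lit 3807351551) (nat_lit 684) (nat_lit 1656626054) (nat_lit 614) (nat_lit 5) (nat_lit 613) (nat_lit 3) (nat_lit 622) (nat_lit 5) (nat_lit 390) (nat_lit 389) (nat_lit 361)))))) (XT.nd (nat_lit 390) (nat_lit 1672) (nat_lit 0) (XT.nd (nat_lit 156) (nat_lit 684) (nat_lit 0) (XT.nd (nat_lit 78) (nat_lit 0) (nat_lit 0) (XT.lf (nat_lit 0) (nat_lit 629350822) (nat_lit 684) (nat_lit 2298775993) (nat_lit 760) (nat_lit 3709260503) (nat_lit 604) (nat_lit 5) (nat_lit 613) (nat_lit 3) (nat_lit 614) (nat_lit 5) (nat_lit 391) (nat_lit 389) (nat_lit 360)) (XT.lf (nat_lit 76) (nat_lit 899381732) (nat_lit 0) (nat_lit 1986062235) (nat_lit 760) (nat_lit 3772652656) (nat_lit 605) (nat_lit 5) (nat_lit 604) (nat_lit 5) (nat_lit 614) (nat_lit 5) (nat_lit 392) (nat_lit 389) (nat_lit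 359))) (XT.nd (nat_lit 78) (nat_lit 684) (nat_lit 0) (XT.lf (nat_lit 76) (nat_lit 4161695768) (nat_lit 0) (nat_lit 982069355) (nat_lit 760) (nat_lit 1536364597) (nat_lit 605) (nat_lit 5) (nat_lit 604) (nat_lit 5) (nat_lit 614) (nat_lit 5) (nat_lit 393) (nat_lit 389) (nat_lit 358)) (XT.nd (nat_lit 78) (nat_lit 0) (nat_lit 0) (XT.lf (nat_lit 0) (nat_lit 682725463) (nat_lit 760) (nat_lit 5943500795) (nat_lit 836) (nat_lit 77373396) (nat_lit 595) (nat_lit 5) (nat_lit 605) (nat_lit 5) (nat_lit 606) (nat_lit 5) (nat_lit 394) (nat_lit 389) (nat_lit 357)) (XT.lf (nat_lit 0) (nat_lit 2892650652) (nat_lit 760) (nat_lit 2637970407) (nat_lit 836) (nat_lit 1197423061) (nat_lit 595) (nat_lit 5) (nat_lit 605) (nat_lit 5) (nat_lit 606) (nat_lit 5) (nat_lit 395) (nat_lit 389) (nat_lit 356))))) (XT.nd (nat_lit 234) (nat_lit 836) (nat_lit 0) (XT.nd (nat_lit 78) (nat_lit 836) (nat_lit 0) (XT.lf (nat_lit 76) (nat_lit 711313819)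 (nat_lit 0) (nat_lit 4384677188) (nat_lit 836) (nat_lit 1658049923) (nat_lit 596) (nat_lit 5) (nat_lit 595) (nat_lit 5) (nat_lit 606) (nat_lit 5) (nat_lit 396) (nat_lit 389) (nat_lit 355)) (XT.nd (nat_lit 78) (nat_lit 0) (nat_lit 0) (XT.lf (nat_lit 0) (nat_lit 518351123) (nat_lit 836) (nat_lit 2652886290) (nat_lit 912) (nat_lit 3610035263) (nat_lit 584) (nat_lit 5) (nat_lit 595) (nat_lit 5) (nat_lit 596) (nat_lit 5) (nat_lit 397) (nat_lit 389) (nat_lit 354)) (XT.lf (nat_lit 76) (nat_lit 772278671) (nat_lit 0) (nat_lit 1894985113) (nat_lit 912) (nat_lit 4142587414) (nat_lit 585) (nat_lit 5) (nat_lit 584) (nat_lit 5) (nat_lit 596) (nat_lit 5) (nat_lit 398) (nat_lit 389) (nat_lit 353)))) (XT.nd (nat_lit 78) (nat_lit 836) (nat_lit 0) (XT.lf (nat_lit 76) (nat_lit 4270494749) (nat_lit 0) (nat_lit 553464126) (nat_lit 912) (nat_lit 2015790481) (nat_lit 585) (nat_lit 5) (nat_lit 584) (nat_lit 5) (nat_lit 596) (nat_lit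 5) (nat_lit 399) (nat_lit 389) (nat_lit 352)) (XT.nd (nat_lit 78) (nat_lit 0) (nat_lit 0) (XT.lf (nat_lit 0) (nat_lit 110813437) (nat_lit 912) (nat_lit 5928329572) (nat_lit 988) (nat_lit 831939271) (nat_lit 573) (nat_lit 5) (nat_lit 585) (nat_lit 5) (nat_lit 586) (nat_lit 5) (nat_lit 400) (nat_lit 389) (nat_lit 351)) (XT.lf (nat_lit 0) (nat_lit 2222612171) (nat_lit 912) (nat_lit 2392529672) (nat_lit 988) (nat_lit 2288282051) (nat_lit 573) (nat_lit 5) (nat_lit 585) (nat_lit 5) (nat_lit 586) (nat_lit 5) (nat_lit 401) (nat_lit 389) (nat_lit 350))))))))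
noncomputable def xc124 : XT := (XT.nd (nat_lit 1560) (nat_lit 12616) (nat_lit 0) (XT.nd (nat_lit 780) (nat_lit 8132) (nat_lit 0) (XT.nd (nat_lit 390) (nat_lit 2128) (nat_lit 0) (XT.nd (nat_lit 156) (nat_lit 912) (nat_lit 0) (XT.nd (nat_lit 78) (nat_lit 0) (nat_lit 0) (XT.lf (nat_lit 76) (nat_lit 1197802866) (nat_lit 0) (nat_lit 3136237009) (nat_lit 988) (nat_lit 2603265393) (nat_lit 574) (nat_lit 5) (nat_lit 573) (nat_lit 5) (nat_lit 586) (nat_lit 5) (nat_lit 402) (nat_lit 389) (nat_lit 349)) (XT.lf (nat_lit 76) (nat_lit 4860690486) (nat_lit 0) (nat_lit 1593459058) (nat_lit 988) (nat_lit 518425644) (nat_lit 574) (nat_lit 5) (nat_lit 573) (nat_lit 5) (nat_lit 586) (nat_lit 5) (nat_lit 403) (nat_lit 389) (nat_lit 348))) (XT.nd (nat_lit 78) (nat_lit 0) (nat_lit 0) (XT.lf (nat_lit 0) (nat_lit 1548321736) (nat_lit 988) (nat_lit 5442636198) (nat_lit 1064) (nat_lit 18196161) (nat_lit 561) (nat_lit 5) (nat_lit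 574) (nat_lit 5) (nat_lit 575) (nat_lit 5) (nat_lit 404) (nat_lit 389) (nat_lit 347)) (XT.nd (nat_lit 78) (nat_lit 0) (nat_lit 0) (XT.lf (nat_lit 0) (nat_lit 3626161546) (nat_lit 988) (nat_lit 1745798321) (nat_lit 1064) (nat_lit 1674939874) (nat_lit 561) (nat_lit 5) (nat_lit 574) (nat_lit 5) (nat_lit 575) (nat_lit 5) (nat_lit 405) (nat_lit 389) (nat_lit 346)) (XT.lf (nat_lit 76) (nat_lit 2019448969) (nat_lit 0) (nat_lit 3692038716) (nat_lit 1064) (nat_lit 1374630967) (nat_lit 562) (nat_lit 5) (nat_lit 561) (nat_lit 5) (nat_lit 575) (nat_lit 5) (nat_lit 406) (nat_lit 389) (nat_lit 345))))) (XT.nd (nat_lit 156) (nat_lit 1064) (nat_lit 0) (XT.nd (nat_lit 78) (nat_lit 0) (nat_lit 0) (XT.lf (nat_lit 0) (nat_lit 668041124) (nat_lit 1064) (nat_lit 1279384341) (nat_lit 1140) (nat_lit 5179339757) (nat_lit 547) (nat_lit 5) (nat_lit 561) (nat_lit 5) (nat_lit 562) (nat_lit 5) (nat_lit 407) (nat_lit 389) (nat_lit 344))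 (XT.lf (nat_lit 76) (nat_lit 2576511349) (nat_lit 0) (nat_lit 127505549) (nat_lit 1140) (nat_lit 4464643780) (nat_lit 548) (nat_lit 5) (nat_lit 547) (nat_lit 5) (nat_lit 562) (nat_lit 5) (nat_lit 408) (nat_lit 389) (nat_lit 343))) (XT.nd (nat_lit 78) (nat_lit 1140) (nat_lit 0) (XT.lf (nat_lit 0) (nat_lit 4755472613) (nat_lit 1064) (nat_lit 728276532) (nat_lit 76) (nat_lit 1728183820) (nat_lit 548) (nat_lit 5) (nat_lit 562) (nat_lit 5) (nat_lit 549) (nat_lit 5) (nat_lit 409) (nat_lit 389) (nat_lit 342)) (XT.nd (nat_lit 78) (nat_lit 76) (nat_lit 0) (XT.lf (nat_lit 0) (nat_lit 3222290146) (nat_lit 1064) (nat_lit 3603211011) (nat_lit 1140) (nat_lit 431052125) (nat_lit 534) (nat_lit 5) (nat_lit 548) (nat_lit 5) (nat_lit 549) (nat_lit 5) (nat_lit 410) (nat_lit 389) (nat_lit 341)) (XT.lf (nat_lit 0) (nat_lit 1574460114) (nat_lit 1140) (nat_lit 83280000) (nat_lit 76) (nat_lit 5644925014) (nat_lit 533) (nat_lit 5)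 (nat_lit 548) (nat_lit 5) (nat_lit 534) (nat_lit 5) (nat_lit 411) (nat_lit 389) (nat_lit 340)))))) (XT.nd (nat_lit 390) (nat_lit 4408) (nat_lit 0) (XT.nd (nat_lit 156) (nat_lit 1368) (nat_lit 0) (XT.nd (nat_lit 78) (nat_lit 1216) (nat_lit 0) (XT.lf (nat_lit 0) (nat_lit 3599415207) (nat_lit 1216) (nat_lit 3388314119) (nat_lit 76) (nat_lit 362242341) (nat_lit 518) (nat_lit 5) (nat_lit 534) (nat_lit 5) (nat_lit 519) (nat_lit 5) (nat_lit 412) (nat_lit 389) (nat_lit 339)) (XT.lf (nat_lit 0) (nat_lit 655515334) (nat_lit 1216) (nat_lit 4982838326) (nat_lit 1292) (nat_lit 1760431902) (nat_lit 502) (nat_lit 5) (nat_lit 518) (nat_lit 5) (nat_lit 519) (nat_lit 5) (nat_lit 413) (nat_lit 389) (nat_lit 338))) (XT.nd (nat_lit 78) (nat_lit 1292) (nat_lit 0) (XT.lf (nat_lit 0) (nat_lit 246849831) (nat_lit 1292) (nat_lit 2656753744) (nat_lit 76) (nat_lit 4545349094) (nat_lit 501) (nat_lit 5) (nat_lit 518) (nat_lit 5) (nat_lit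 502) (nat_lit 5) (nat_lit 414) (nat_lit 389) (nat_lit 337)) (XT.nd (nat_lit 78) (nat_lit 0) (nat_lit 0) (XT.lf (nat_lit 0) (nat_lit 1487099628) (nat_lit 1292) (nat_lit 752107379) (nat_lit 1368) (nat_lit 5261342473) (nat_lit 484) (nat_lit 5) (nat_lit 501) (nat_lit 5) (nat_lit 502) (nat_lit 5) (nat_lit 415) (nat_lit 389) (nat_lit 336)) (XT.lf (nat_lit 0) (nat_lit 4258202399) (nat_lit 1368) (nat_lit 1845383822) (nat_lit 76) (nat_lit 1449884740) (nat_lit 484) (nat_lit 5) (nat_lit 502) (nat_lit 5) (nat_lit 485) (nat_lit 5) (nat_lit 416) (nat_lit 389) (nat_lit 335))))) (XT.nd (nat_lit 156) (nat_lit 2964) (nat_lit 0) (XT.nd (nat_lit 78) (nat_lit 76) (nat_lit 0) (XT.lf (nat_lit 0) (nat_lit 2400266116) (nat_lit 1368) (nat_lit 3898150710) (nat_lit 1444) (nat_lit 1309445263) (nat_lit 466) (nat_lit 5) (nat_lit 484) (nat_lit 5) (nat_lit 485) (nat_lit 5) (nat_lit 417) (nat_lit 389) (nat_lit 334)) (XT.lf (nat_lit 0) (nat_lit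 679726829) (nat_lit 1444) (nat_lit 944596232) (nat_lit 76) (nat_lit 6039491420) (nat_lit 465) (nat_lit 5) (nat_lit 484) (nat_lit 5) (nat_lit 466) (nat_lit 5) (nat_lit 418) (nat_lit 389) (nat_lit 333))) (XT.nd (nat_lit 78) (nat_lit 1520) (nat_lit 0) (XT.lf (nat_lit 0) (nat_lit 2679381960) (nat_lit 1520) (nat_lit 4318120718) (nat_lit 76) (nat_lit 723471858) (nat_lit 446) (nat_lit 5) (nat_lit 466) (nat_lit 5) (nat_lit 447) (nat_lit 5) (nat_lit 419) (nat_lit 389) (nat_lit 332)) (XT.nd (nat_lit 78) (nat_lit 0) (nat_lit 0) (XT.lf (nat_lit 0) (nat_lit 27877891) (nat_lit 1520) (nat_lit 4670396206) (nat_lit 1596) (nat_lit 3081444680) (nat_lit 426) (nat_lit 5) (nat_lit 446) (nat_lit 5) (nat_lit 447) (nat_lit 5) (nat_lit 420) (nat_lit 389) (nat_lit 331)) (XT.lf (nat_lit 0) (nat_lit 4486949422) (nat_lit 1520) (nat_lit 2262032931) (nat_lit 1596) (nat_lit 1090852144) (nat_lit 426) (nat_lit 5) (nat_lit 446) (nat_lit 5)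 (nat_lit 447) (nat_lit 5) (nat_lit 421) (nat_lit 389) (nat_lit 330))))))) (XT.nd (nat_lit 780) (nat_lit 4712) (nat_lit 0) (XT.nd (nat_lit 390) (nat_lit 2736) (nat_lit 0) (XT.nd (nat_lit 156) (nat_lit 3496) (nat_lit 0) (XT.nd (nat_lit 78) (nat_lit 0) (nat_lit 0) (XT.lf (nat_lit 0) (nat_lit 898749680) (nat_lit 1672) (nat_lit 6792785982) (nat_lit 76) (nat_lit 210088843) (nat_lit 404) (nat_lit 5) (nat_lit 426) (nat_lit 5) (nat_lit 405) (nat_lit 5) (nat_lit 422) (nat_lit 389) (nat_lit 329)) (XT.lf (nat_lit 0) (nat_lit 2914656883) (nat_lit 1672) (nat_lit 2314142369) (nat_lit 76) (nat_lit 2735708349) (nat_lit 404) (nat_lit 5) (nat_lit 426) (nat_lit 5) (nat_lit 405) (nat_lit 5) (nat_lit 423) (nat_lit 389) (nat_lit 328))) (XT.nd (nat_lit 78) (nat_lit 1824) (nat_lit 0) (XT.lf (nat_lit 0) (nat_lit 2251411246) (nat_lit 1672) (nat_lit 2698281990) (nat_lit 1748) (nat_lit 3079402329) (nat_lit 382) (nat_lit 5) (nat_lit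 404) (nat_lit 5) (nat_lit 405) (nat_lit 5) (nat_lit 424) (nat_lit 389) (nat_lit 327)) (XT.nd (nat_lit 78) (nat_lit 1824) (nat_lit 0) (XT.lf (nat_lit 0) (nat_lit 6907665991) (nat_lit 1672) (nat_lit 97981255) (nat_lit 1748) (nat_lit 1089746672) (nat_lit 382) (nat_lit 5) (nat_lit 404) (nat_lit 5) (nat_lit 405) (nat_lit 5) (nat_lit 425) (nat_lit 389) (nat_lit 326)) (XT.lf (nat_lit 0) (nat_lit 932038942) (nat_lit 1824) (nat_lit 4677937216) (nat_lit 76) (nat_lit 2552848911) (nat_lit 358) (nat_lit 5) (nat_lit 382) (nat_lit 5) (nat_lit 359) (nat_lit 5) (nat_lit 426) (nat_lit 389) (nat_lit 325))))) (XT.nd (nat_lit 156) (nat_lit 1824) (nat_lit 0) (XT.nd (nat_lit 78) (nat_lit 912) (nat_lit 0) (XT.lf (nat_lit 0) (nat_lit 2953979220) (nat_lit 1824) (nat_lit 4663265) (nat_lit 76) (nat_lit 5273353720) (nat_lit 358) (nat_lit 5) (nat_lit 382) (nat_lit 5) (nat_lit 359) (nat_lit 5) (nat_lit 427) (nat_lit 389) (nat_lit 324))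 (XT.lf (nat_lit 0) (nat_lit 4793219299) (nat_lit 912) (nat_lit 220558857) (nat_lit 988) (nat_lit 3288845432) (nat_lit 346) (nat_lit 5) (nat_lit 358) (nat_lit 5) (nat_lit 359) (nat_lit 5) (nat_lit 428) (nat_lit 389) (nat_lit 323))) (XT.nd (nat_lit 78) (nat_lit 912) (nat_lit 0) (XT.lf (nat_lit 0) (nat_lit 1280341492) (nat_lit 912) (nat_lit 5826243442) (nat_lit 988) (nat_lit 1268263150) (nat_lit 334) (nat_lit 5) (nat_lit 346) (nat_lit 5) (nat_lit 347) (nat_lit 5) (nat_lit 429) (nat_lit 389) (nat_lit 322)) (XT.nd (nat_lit 78) (nat_lit 836) (nat_lit 0) (XT.lf (nat_lit 0) (nat_lit 774473693) (nat_lit 988) (nat_lit 2273812588) (nat_lit 76) (nat_lit 5400305050) (nat_lit 333) (nat_lit 5) (nat_lit 346) (nat_lit 5) (nat_lit 334) (nat_lit 5) (nat_lit 430) (nat_lit 389) (nat_lit 321)) (XT.lf (nat_lit 0) (nat_lit 2637670056) (nat_lit 836) (nat_lit 188175297) (nat_lit 912) (nat_lit 5698120787) (nat_lit 322) (nat_lit 5)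 (nat_lit 333) (nat_lit 5) (nat_lit 334) (nat_lit 5) (nat_lit 431) (nat_lit 389) (nat_lit 320)))))) (XT.nd (nat_lit 390) (nat_lit 2280) (nat_lit 0) (XT.nd (nat_lit 156) (nat_lit 1596) (nat_lit 0) (XT.nd (nat_lit 78) (nat_lit 836) (nat_lit 0) (XT.lf (nat_lit 0) (nat_lit 4919375947) (nat_lit 912) (nat_lit 972429953) (nat_lit 76) (nat_lit 2709039131) (nat_lit 322) (nat_lit 5) (nat_lit 334) (nat_lit 5) (nat_lit 323) (nat_lit 5) (nat_lit 432) (nat_lit 389) (nat_lit 319)) (XT.lf (nat_lit 0) (nat_lit 4060077980) (nat_lit 836) (nat_lit 2990985105) (nat_lit 912) (nat_lit 1628291541) (nat_lit 311) (nat_lit 5) (nat_lit 322) (nat_lit 5) (nat_lit 323) (nat_lit 5) (nat_lit 433) (nat_lit 389) (nat_lit 318))) (XT.nd (nat_lit 78) (nat_lit 760) (nat_lit 0) (XT.lf (nat_lit 0) (nat_lit 417661252) (nat_lit 760) (nat_lit 20323909) (nat_lit 836) (nat_lit 8321843923) (nat_lit 300) (nat_lit 5) (nat_lit 310) (nat_lit 5) (nat_lit 311)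 (nat_lit 5) (nat_lit 434) (nat_lit 389) (nat_lit 317)) (XT.nd (nat_lit 78) (nat_lit 760) (nat_lit 0) (XT.lf (nat_lit 0) (nat_lit 2543814435) (nat_lit 836) (nat_lit 3286148043) (nat_lit 76) (nat_lit 3011352452) (nat_lit 300) (nat_lit 5) (nat_lit 311) (nat_lit 5) (nat_lit 301) (nat_lit 5) (nat_lit 435) (nat_lit 389) (nat_lit 316)) (XT.lf (nat_lit 0) (nat_lit 1863654199) (nat_lit 760) (nat_lit 2810208536) (nat_lit 836) (nat_lit 4250943115) (nat_lit 290) (nat_lit 5) (nat_lit 300) (nat_lit 5) (nat_lit 301) (nat_lit 5) (nat_lit 436) (nat_lit 389) (nat_lit 315))))) (XT.nd (nat_lit 234) (nat_lit 1444) (nat_lit 0) (XT.nd (nat_lit 78) (nat_lit 836) (nat_lit 0) (XT.lf (nat_lit 0) (nat_lit 6840705954) (nat_lit 836) (nat_lit 1882465441) (nat_lit 76) (nat_lit 286928381) (nat_lit 290) (nat_lit 5) (nat_lit 301) (nat_lit 5) (nat_lit 291) (nat_lit 5) (nat_lit 437) (nat_lit 389) (nat_lit 314)) (XT.nd (nat_lit 78) (nat_lit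 76) (nat_lit 0) (XT.lf (nat_lit 0) (nat_lit 3394290467) (nat_lit 760) (nat_lit 5668071166) (nat_lit 836) (nat_lit 34525165) (nat_lit 280) (nat_lit 5) (nat_lit 290) (nat_lit 5) (nat_lit 291) (nat_lit 5) (nat_lit 438) (nat_lit 389) (nat_lit 313)) (XT.lf (nat_lit 0) (nat_lit 2098639936) (nat_lit 836) (nat_lit 428660880) (nat_lit 76) (nat_lit 6658172437) (nat_lit 279) (nat_lit 5) (nat_lit 290) (nat_lit 5) (nat_lit 280) (nat_lit 5) (nat_lit 439) (nat_lit 389) (nat_lit 312)))) (XT.nd (nat_lit 78) (nat_lit 684) (nat_lit 0) (XT.lf (nat_lit 0) (nat_lit 4282520379) (nat_lit 836) (nat_lit 4295437031) (nat_lit 76) (nat_lit 697714942) (nat_lit 269) (nat_lit 5) (nat_lit 280) (nat_lit 5) (nat_lit 270) (nat_lit 5) (nat_lit 440) (nat_lit 389) (nat_lit 311)) (XT.nd (nat_lit 78) (nat_lit 0) (nat_lit 0) (XT.lf (nat_lit 0) (nat_lit 1101855918) (nat_lit 684) (nat_lit 5406907766) (nat_lit 760) (nat_lit 2858953500) (nat_lit 260)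 (nat_lit 5) (nat_lit 269) (nat_lit 5) (nat_lit 270) (nat_lit 5) (nat_lit 441) (nat_lit 389) (nat_lit 310)) (XT.lf (nat_lit 0) (nat_lit 6634185562) (nat_lit 684) (nat_lit 2146418389) (nat_lit 760) (nat_lit 680992675) (nat_lit 260) (nat_lit 5) (nat_lit 269) (nat_lit 5) (nat_lit 270) (nat_lit 5) (nat_lit 442) (nat_lit 389) (nat_lit 309))))))))
noncomputable def xc125 : XT := (XT.nd (nat_lit 1560) (nat_lit 4788) (nat_lit 0) (XT.nd (nat_lit 780) (nat_lit 3344) (nat_lit 0) (XT.nd (nat_lit 390) (nat_lit 1824) (nat_lit 0) (XT.nd (nat_lit 156) (nat_lit 1368) (nat_lit 0) (XT.nd (nat_lit 78) (nat_lit 0) (nat_lit 0) (XT.lf (nat_lit 0) (nat_lit 1518361109) (nat_lit 760) (nat_lit 6850676631) (nat_lit 76) (nat_lit 1188169678) (nat_lit 250) (nat_lit 5) (nat_lit 260) (nat_lit 5) (nat_lit 251) (nat_lit 5) (nat_lit 443) (nat_lit 389) (nat_lit 308)) (XT.lf (nat_lit 0) (nat_lit 3758816926) (nat_lit 760) (nat_lit 1314955278)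 (nat_lit 76) (nat_lit 4580757805) (nat_lit 250) (nat_lit 5) (nat_lit 260) (nat_lit 5) (nat_lit 251) (nat_lit 5) (nat_lit 444) (nat_lit 389) (nat_lit 307))) (XT.nd (nat_lit 78) (nat_lit 760) (nat_lit 0) (XT.lf (nat_lit 0) (nat_lit 4358017200) (nat_lit 608) (nat_lit 1687802115) (nat_lit 684) (nat_lit 3707958987) (nat_lit 242) (nat_lit 5) (nat_lit 250) (nat_lit 5) (nat_lit 251) (nat_lit 5) (nat_lit 445) (nat_lit 389) (nat_lit 306)) (XT.nd (nat_lit 78) (nat_lit 76) (nat_lit 0) (XT.lf (nat_lit 0) (nat_lit 268507093) (nat_lit 684) (nat_lit 8105884179) (nat_lit 760) (nat_lit 1480717425) (nat_lit 233) (nat_lit 5) (nat_lit 242) (nat_lit 5) (nat_lit 243) (nat_lit 5) (nat_lit 446) (nat_lit 389) (nat_lit 305)) (XT.lf (nat_lit 0) (nat_lit 802188373) (nat_lit 760) (nat_lit 3886179618) (nat_lit 76) (nat_lit 5269578289) (nat_lit 232) (nat_lit 5) (nat_lit 242) (nat_lit 5) (nat_lit 233) (nat_lit 5) (nat_lit 447) (nat_lit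 389) (nat_lit 304))))) (XT.nd (nat_lit 156) (nat_lit 1216) (nat_lit 0) (XT.nd (nat_lit 78) (nat_lit 0) (nat_lit 0) (XT.lf (nat_lit 0) (nat_lit 1913058100) (nat_lit 608) (nat_lit 1184687869) (nat_lit 684) (nat_lit 6965175419) (nat_lit 224) (nat_lit 5) (nat_lit 232) (nat_lit 5) (nat_lit 233) (nat_lit 5) (nat_lit 448) (nat_lit 389) (nat_lit 303)) (XT.lf (nat_lit 0) (nat_lit 5455631778) (nat_lit 684) (nat_lit 2334962724) (nat_lit 76) (nat_lit 2379085835) (nat_lit 224) (nat_lit 5) (nat_lit 233) (nat_lit 5) (nat_lit 225) (nat_lit 5) (nat_lit 449) (nat_lit 389) (nat_lit 302))) (XT.nd (nat_lit 78) (nat_lit 608) (nat_lit 0) (XT.lf (nat_lit 0) (nat_lit 3605517494) (nat_lit 608) (nat_lit 4261564447) (nat_lit 684) (nat_lit 2411376822) (nat_lit 216) (nat_lit 5) (nat_lit 224) (nat_lit 5) (nat_lit 225) (nat_lit 5) (nat_lit 450) (nat_lit 389) (nat_lit 301)) (XT.nd (nat_lit 78) (nat_lit 608) (nat_lit 0) (XT.lf (nat_lit 0)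 (nat_lit 9666497018) (nat_lit 608) (nat_lit 651377226) (nat_lit 684) (nat_lit 71728438) (nat_lit 216) (nat_lit 5) (nat_lit 224) (nat_lit 5) (nat_lit 225) (nat_lit 5) (nat_lit 451) (nat_lit 389) (nat_lit 300)) (XT.lf (nat_lit 0) (nat_lit 2314958913) (nat_lit 608) (nat_lit 5151004816) (nat_lit 76) (nat_lit 3036104815) (nat_lit 208) (nat_lit 5) (nat_lit 216) (nat_lit 5) (nat_lit 209) (nat_lit 5) (nat_lit 452) (nat_lit 389) (nat_lit 299)))))) (XT.nd (nat_lit 390) (nat_lit 1596) (nat_lit 0) (XT.nd (nat_lit 156) (nat_lit 1140) (nat_lit 0) (XT.nd (nat_lit 78) (nat_lit 0) (nat_lit 0) (XT.lf (nat_lit 0) (nat_lit 917071351) (nat_lit 608) (nat_lit 3822503978) (nat_lit 684) (nat_lit 5877387281) (nat_lit 200) (nat_lit 5) (nat_lit 208) (nat_lit 5) (nat_lit 209) (nat_lit 5) (nat_lit 453) (nat_lit 389) (nat_lit 298)) (XT.lf (nat_lit 0) (nat_lit 7146562408) (nat_lit 608) (nat_lit 76967193) (nat_lit 684) (nat_lit 3510419306)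 (nat_lit 200) (nat_lit 5) (nat_lit 208) (nat_lit 5) (nat_lit 209) (nat_lit 5) (nat_lit 454) (nat_lit 389) (nat_lit 297))) (XT.nd (nat_lit 78) (nat_lit 608) (nat_lit 0) (XT.lf (nat_lit 0) (nat_lit 2627904867) (nat_lit 532) (nat_lit 7147331522) (nat_lit 608) (nat_lit 1077688110) (nat_lit 193) (nat_lit 5) (nat_lit 200) (nat_lit 5) (nat_lit 201) (nat_lit 5) (nat_lit 455) (nat_lit 389) (nat_lit 296)) (XT.nd (nat_lit 78) (nat_lit 532) (nat_lit 0) (XT.lf (nat_lit 0) (nat_lit 1386839013) (nat_lit 608) (nat_lit 1997198681) (nat_lit 76) (nat_lit 7590039223) (nat_lit 192) (nat_lit 5) (nat_lit 200) (nat_lit 5) (nat_lit 193) (nat_lit 5) (nat_lit 456) (nat_lit 389) (nat_lit 295)) (XT.lf (nat_lit 0) (nat_lit 3895061741) (nat_lit 608) (nat_lit 6724278384) (nat_lit 76) (nat_lit 478003485) (nat_lit 185) (nat_lit 5) (nat_lit 193) (nat_lit 5) (nat_lit 186) (nat_lit 5) (nat_lit 457) (nat_lit 389) (nat_lit 294))))) (XT.nd (nat_lit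 156) (nat_lit 1064) (nat_lit 0) (XT.nd (nat_lit 78) (nat_lit 532) (nat_lit 0) (XT.lf (nat_lit 0) (nat_lit 6466829716) (nat_lit 608) (nat_lit 376890377) (nat_lit 76) (nat_lit 4379098125) (nat_lit 185) (nat_lit 5) (nat_lit 193) (nat_lit 5) (nat_lit 186) (nat_lit 5) (nat_lit 458) (nat_lit 389) (nat_lit 293)) (XT.lf (nat_lit 0) (nat_lit 6149280436) (nat_lit 532) (nat_lit 2958598347) (nat_lit 608) (nat_lit 2242576618) (nat_lit 178) (nat_lit 5) (nat_lit 185) (nat_lit 5) (nat_lit 186) (nat_lit 5) (nat_lit 459) (nat_lit 389) (nat_lit 292))) (XT.nd (nat_lit 78) (nat_lit 456) (nat_lit 0) (XT.lf (nat_lit 0) (nat_lit 312562819) (nat_lit 608) (nat_lit 10170663156) (nat_lit 76) (nat_lit 997473853) (nat_lit 170) (nat_lit 5) (nat_lit 178) (nat_lit 5) (nat_lit 171) (nat_lit 5) (nat_lit 460) (nat_lit 389) (nat_lit 291)) (XT.nd (nat_lit 78) (nat_lit 456) (nat_lit 0) (XT.lf (nat_lit 0) (nat_lit 2921744626) (nat_lit 608) (nat_lit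 3654685924) (nat_lit 76) (nat_lit 5036172193) (nat_lit 170) (nat_lit 5) (nat_lit 178) (nat_lit 5) (nat_lit 171) (nat_lit 5) (nat_lit 461) (nat_lit 389) (nat_lit 290)) (XT.lf (nat_lit 0) (nat_lit 3002424799) (nat_lit 456) (nat_lit 2578818690) (nat_lit 532) (nat_lit 6165946797) (nat_lit 164) (nat_lit 5) (nat_lit 170) (nat_lit 5) (nat_lit 171) (nat_lit 5) (nat_lit 462) (nat_lit 389) (nat_lit 289))))))) (XT.nd (nat_lit 780) (nat_lit 2432) (nat_lit 0) (XT.nd (nat_lit 390) (nat_lit 912) (nat_lit 0) (XT.nd (nat_lit 156) (nat_lit 988) (nat_lit 0) (XT.nd (nat_lit 78) (nat_lit 456) (nat_lit 0) (XT.lf (nat_lit 0) (nat_lit 8307177677) (nat_lit 532) (nat_lit 2080414355) (nat_lit 76) (nat_lit 1496621695) (nat_lit 164) (nat_lit 5) (nat_lit 171) (nat_lit 5) (nat_lit 165) (nat_lit 5) (nat_lit 463) (nat_lit 389) (nat_lit 288)) (XT.lf (nat_lit 0) (nat_lit 4734037224) (nat_lit 456) (nat_lit 6380650469) (nat_lit 532) (nat_lit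 908757680) (nat_lit 158) (nat_lit 5) (nat_lit 164) (nat_lit 5) (nat_lit 165) (nat_lit 5) (nat_lit 464) (nat_lit 389) (nat_lit 287))) (XT.nd (nat_lit 78) (nat_lit 912) (nat_lit 0) (XT.lf (nat_lit 0) (nat_lit 1782486008) (nat_lit 532) (nat_lit 492360828) (nat_lit 76) (nat_lit 9890520418) (nat_lit 157) (nat_lit 5) (nat_lit 164) (nat_lit 5) (nat_lit 158) (nat_lit 5) (nat_lit 465) (nat_lit 389) (nat_lit 286)) (XT.nd (nat_lit 78) (nat_lit 456) (nat_lit 0) (XT.lf (nat_lit 0) (nat_lit 4549967976) (nat_lit 532) (nat_lit 5830255433) (nat_lit 76) (nat_lit 1929100758) (nat_lit 151) (nat_lit 5) (nat_lit 158) (nat_lit 5) (nat_lit 152) (nat_lit 5) (nat_lit 466) (nat_lit 389) (nat_lit 285)) (XT.lf (nat_lit 0) (nat_lit 1112087826) (nat_lit 456) (nat_lit 6266221491) (nat_lit 532) (nat_lit 5077748908) (nat_lit 145) (nat_lit 5) (nat_lit 151) (nat_lit 5) (nat_lit 152) (nat_lit 5) (nat_lit 467) (nat_lit 389) (nat_lit 284)))))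 (XT.nd (nat_lit 156) (nat_lit 456) (nat_lit 0) (XT.nd (nat_lit 78) (nat_lit 456) (nat_lit 0) (XT.lf (nat_lit 0) (nat_lit 8244575121) (nat_lit 456) (nat_lit 2037878768) (nat_lit 532) (nat_lit 2322896390) (nat_lit 145) (nat_lit 5) (nat_lit 151) (nat_lit 5) (nat_lit 152) (nat_lit 5) (nat_lit 468) (nat_lit 389) (nat_lit 283)) (XT.lf (nat_lit 0) (nat_lit 493861072) (nat_lit 456) (nat_lit 10004703030) (nat_lit 76) (nat_lit 2258744640) (nat_lit 139) (nat_lit 5) (nat_lit 145) (nat_lit 5) (nat_lit 140) (nat_lit 5) (nat_lit 469) (nat_lit 389) (nat_lit 282))) (XT.nd (nat_lit 78) (nat_lit 456) (nat_lit 0) (XT.lf (nat_lit 0) (nat_lit 3359354239) (nat_lit 456) (nat_lit 2901051396) (nat_lit 76) (nat_lit 6651131148) (nat_lit 139) (nat_lit 5) (nat_lit 145) (nat_lit 5) (nat_lit 140) (nat_lit 5) (nat_lit 470) (nat_lit 389) (nat_lit 281)) (XT.nd (nat_lit 78) (nat_lit 0) (nat_lit 0) (XT.lf (nat_lit 0) (nat_lit 4374970582) (nat_lit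 456) (nat_lit 1916496098) (nat_lit 532) (nat_lit 6777203945) (nat_lit 133) (nat_lit 5) (nat_lit 139) (nat_lit 5) (nat_lit 140) (nat_lit 5) (nat_lit 471) (nat_lit 389) (nat_lit 280)) (XT.lf (nat_lit 0) (nat_lit 9299194293) (nat_lit 532) (nat_lit 1436409916) (nat_lit 76) (nat_lit 2493010759) (nat_lit 133) (nat_lit 5) (nat_lit 140) (nat_lit 5) (nat_lit 134) (nat_lit 5) (nat_lit 472) (nat_lit 389) (nat_lit 279)))))) (XT.nd (nat_lit 390) (nat_lit 1216) (nat_lit 0) (XT.nd (nat_lit 156) (nat_lit 380) (nat_lit 0) (XT.nd (nat_lit 78) (nat_lit 456) (nat_lit 0) (XT.lf (nat_lit 0) (nat_lit 6005393582) (nat_lit 380) (nat_lit 6394789400) (nat_lit 456) (nat_lit 990920226) (nat_lit 128) (nat_lit 5) (nat_lit 133) (nat_lit 5) (nat_lit 134) (nat_lit 5) (nat_lit 473) (nat_lit 389) (nat_lit 278)) (XT.lf (nat_lit 0) (nat_lit 19238111) (nat_lit 380) (nat_lit 1952113139) (nat_lit 456) (nat_lit 11585410001) (nat_lit 122) (nat_lit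 5) (nat_lit 127) (nat_lit 5) (nat_lit 128) (nat_lit 5) (nat_lit 474) (nat_lit 389) (nat_lit 277))) (XT.nd (nat_lit 78) (nat_lit 380) (nat_lit 0) (XT.lf (nat_lit 0) (nat_lit 5027873018) (nat_lit 456) (nat_lit 6102901753) (nat_lit 76) (nat_lit 2593867948) (nat_lit 122) (nat_lit 5) (nat_lit 128) (nat_lit 5) (nat_lit 123) (nat_lit 5) (nat_lit 475) (nat_lit 389) (nat_lit 276)) (XT.nd (nat_lit 78) (nat_lit 0) (nat_lit 0) (XT.lf (nat_lit 0) (nat_lit 1460240690) (nat_lit 380) (nat_lit 6689676979) (nat_lit 456) (nat_lit 5745882894) (nat_lit 117) (nat_lit 5) (nat_lit 122) (nat_lit 5) (nat_lit 123) (nat_lit 5) (nat_lit 476) (nat_lit 389) (nat_lit 275)) (XT.lf (nat_lit 0) (nat_lit 9231151283) (nat_lit 380) (nat_lit 2126372326) (nat_lit 456) (nat_lit 2712402014) (nat_lit 117) (nat_lit 5) (nat_lit 122) (nat_lit 5) (nat_lit 123) (nat_lit 5) (nat_lit 477) (nat_lit 389) (nat_lit 274))))) (XT.nd (nat_lit 234) (nat_lit 456)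 (nat_lit 0) (XT.nd (nat_lit 78) (nat_lit 304) (nat_lit 0) (XT.lf (nat_lit 0) (nat_lit 394596042) (nat_lit 456) (nat_lit 11344150285) (nat_lit 76) (nat_lit 2508386417) (nat_lit 111) (nat_lit 5) (nat_lit 117) (nat_lit 5) (nat_lit 112) (nat_lit 5) (nat_lit 478) (nat_lit 389) (nat_lit 273)) (XT.nd (nat_lit 78) (nat_lit 304) (nat_lit 0) (XT.lf (nat_lit 0) (nat_lit 3556734631) (nat_lit 456) (nat_lit 3620406164) (nat_lit 76) (nat_lit 7249804333) (nat_lit 111) (nat_lit 5) (nat_lit 117) (nat_lit 5) (nat_lit 112) (nat_lit 5) (nat_lit 479) (nat_lit 389) (nat_lit 272)) (XT.lf (nat_lit 0) (nat_lit 4288491563) (nat_lit 304) (nat_lit 2504328933) (nat_lit 380) (nat_lit 7817325150) (nat_lit 107) (nat_lit 5) (nat_lit 111) (nat_lit 5) (nat_lit 112) (nat_lit 5) (nat_lit 480) (nat_lit 389) (nat_lit 271)))) (XT.nd (nat_lit 78) (nat_lit 456) (nat_lit 0) (XT.lf (nat_lit 0) (nat_lit 10115747023) (nat_lit 380) (nat_lit 2432416283)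 (nat_lit 76) (nat_lit 2248410347) (nat_lit 107) (nat_lit 5) (nat_lit 112) (nat_lit 5) (nat_lit 108) (nat_lit 5) (nat_lit 481) (nat_lit 389) (nat_lit 270)) (XT.nd (nat_lit 78) (nat_lit 76) (nat_lit 0) (XT.lf (nat_lit 0) (nat_lit 5646897161) (nat_lit 380) (nat_lit 7894794270) (nat_lit 456) (nat_lit 1444313345) (nat_lit 102) (nat_lit 5) (nat_lit 107) (nat_lit 5) (nat_lit 108) (nat_lit 5) (nat_lit 482) (nat_lit 389) (nat_lit 269)) (XT.lf (nat_lit 0) (nat_lit 1832367925) (nat_lit 456) (nat_lit 1295538850) (nat_lit 76) (nat_lit 12051086302) (nat_lit 101) (nat_lit 5) (nat_lit 107) (nat_lit 5) (nat_lit 102) (nat_lit 5) (nat_lit 483) (nat_lit 389) (nat_lit 268))))))))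
noncomputable def xc126 : XT := (XT.nd (nat_lit 52104) (nat_lit 0) (nat_lit 35872) (XT.nd (nat_lit 780) (nat_lit 1140) (nat_lit 0) (XT.nd (nat_lit 390) (nat_lit 912) (nat_lit 0) (XT.nd (nat_lit 156) (nat_lit 684) (nat_lit 0) (XT.nd (nat_lit 78) (nat_lit 0) (nat_lit 0) (XT.lf (nat_lit 0) (nat_lit 5195744572) (nat_lit 380) (nat_lit 8420699645) (nat_lit 76) (nat_lit 1758401379) (nat_lit 97) (nat_lit 5) (nat_lit 102) (nat_lit 5) (nat_lit 98) (nat_lit 5) (nat_lit 484) (nat_lit 389) (nat_lit 267)) (XT.lf (nat_lit 0) (nat_lit 8639647209) (nat_lit 380) (nat_lit 233688605) (nat_lit 76) (nat_lit 6701019488) (nat_lit 97) (nat_lit 5) (nat_lit 102) (nat_lit 5) (nat_lit 98) (nat_lit 5) (nat_lit 485) (nat_lit 389) (nat_lit 266))) (XT.nd (nat_lit 78) (nat_lit 380) (nat_lit 0) (XT.lf (nat_lit 0) (nat_lit 8200236758) (nat_lit 304) (nat_lit 3989542830) (nat_lit 380) (nat_lit 3587333780) (nat_lit 93) (nat_lit 5) (nat_lit 97)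 (nat_lit 5) (nat_lit 98) (nat_lit 5) (nat_lit 486) (nat_lit 389) (nat_lit 265)) (XT.nd (nat_lit 78) (nat_lit 76) (nat_lit 0) (XT.lf (nat_lit 0) (nat_lit 801699018) (nat_lit 304) (nat_lit 15006649186) (nat_lit 380) (nat_lit 175634821) (nat_lit 89) (nat_lit 5) (nat_lit 93) (nat_lit 5) (nat_lit 94) (nat_lit 5) (nat_lit 487) (nat_lit 389) (nat_lit 264)) (XT.lf (nat_lit 0) (nat_lit 3322816875) (nat_lit 380) (nat_lit 6816162712) (nat_lit 76) (nat_lit 6054349210) (nat_lit 88) (nat_lit 5) (nat_lit 93) (nat_lit 5) (nat_lit 89) (nat_lit 5) (nat_lit 488) (nat_lit 389) (nat_lit 263))))) (XT.nd (nat_lit 156) (nat_lit 608) (nat_lit 0) (XT.nd (nat_lit 78) (nat_lit 0) (nat_lit 0) (XT.lf (nat_lit 0) (nat_lit 1714554535) (nat_lit 304) (nat_lit 5170027169) (nat_lit 380) (nat_lit 9522347449) (nat_lit 84) (nat_lit 5) (nat_lit 88) (nat_lit 5) (nat_lit 89) (nat_lit 5) (nat_lit 489) (nat_lit 389) (nat_lit 262)) (XT.lf (nat_lit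 0) (nat_lit 10484389210) (nat_lit 304) (nat_lit 63641878) (nat_lit 380) (nat_lit 6076166155) (nat_lit 84) (nat_lit 5) (nat_lit 88) (nat_lit 5) (nat_lit 89) (nat_lit 5) (nat_lit 490) (nat_lit 389) (nat_lit 261))) (XT.nd (nat_lit 78) (nat_lit 380) (nat_lit 0) (XT.lf (nat_lit 0) (nat_lit 2560311899) (nat_lit 228) (nat_lit 11759419009) (nat_lit 304) (nat_lit 2525384777) (nat_lit 81) (nat_lit 5) (nat_lit 84) (nat_lit 5) (nat_lit 85) (nat_lit 5) (nat_lit 491) (nat_lit 389) (nat_lit 260)) (XT.nd (nat_lit 78) (nat_lit 304) (nat_lit 0) (XT.lf (nat_lit 0) (nat_lit 1108921700) (nat_lit 304) (nat_lit 5583501630) (nat_lit 76) (nat_lit 10377353449) (nat_lit 80) (nat_lit 5) (nat_lit 84) (nat_lit 5) (nat_lit 81) (nat_lit 5) (nat_lit 492) (nat_lit 389) (nat_lit 259)) (XT.lf (nat_lit 0) (nat_lit 3295061466) (nat_lit 304) (nat_lit 1493750964) (nat_lit 380) (nat_lit 12509654900) (nat_lit 76) (nat_lit 5) (nat_lit 80) (nat_lit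 5) (nat_lit 81) (nat_lit 5) (nat_lit 493) (nat_lit 389) (nat_lit 258)))))) (XT.nd (nat_lit 390) (nat_lit 532) (nat_lit 0) (XT.nd (nat_lit 156) (nat_lit 380) (nat_lit 0) (XT.nd (nat_lit 78) (nat_lit 228) (nat_lit 0) (XT.lf (nat_lit 0) (nat_lit 8590118009) (nat_lit 380) (nat_lit 5152422066) (nat_lit 76) (nat_lit 3788239545) (nat_lit 76) (nat_lit 5) (nat_lit 81) (nat_lit 5) (nat_lit 77) (nat_lit 5) (nat_lit 494) (nat_lit 389) (nat_lit 257)) (XT.lf (nat_lit 0) (nat_lit 3893872175) (nat_lit 228) (nat_lit 8594409153) (nat_lit 304) (nat_lit 5279044377) (nat_lit 73) (nat_lit 5) (nat_lit 76) (nat_lit 5) (nat_lit 77) (nat_lit 5) (nat_lit 495) (nat_lit 389) (nat_lit 256))) (XT.nd (nat_lit 78) (nat_lit 380) (nat_lit 0) (XT.lf (nat_lit 0) (nat_lit 13168199625) (nat_lit 228) (nat_lit 3316575002) (nat_lit 304) (nat_lit 1523424851) (nat_lit 73) (nat_lit 5) (nat_lit 76) (nat_lit 5) (nat_lit 77) (nat_lit 5) (nat_lit 496)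 (nat_lit 389) (nat_lit 255)) (XT.nd (nat_lit 78) (nat_lit 0) (nat_lit 0) (XT.lf (nat_lit 0) (nat_lit 2305203034) (nat_lit 380) (nat_lit 13872662762) (nat_lit 76) (nat_lit 2075166129) (nat_lit 68) (nat_lit 5) (nat_lit 73) (nat_lit 5) (nat_lit 69) (nat_lit 5) (nat_lit 497) (nat_lit 389) (nat_lit 254)) (XT.lf (nat_lit 0) (nat_lit 6230730897) (nat_lit 380) (nat_lit 4706185280) (nat_lit 76) (nat_lit 7564832789) (nat_lit 68) (nat_lit 5) (nat_lit 73) (nat_lit 5) (nat_lit 69) (nat_lit 5) (nat_lit 498) (nat_lit 389) (nat_lit 253))))) (XT.nd (nat_lit 156) (nat_lit 304) (nat_lit 0) (XT.nd (nat_lit 78) (nat_lit 0) (nat_lit 0) (XT.lf (nat_lit 0) (nat_lit 4682922651) (nat_lit 228) (nat_lit 5568573755) (nat_lit 304) (nat_lit 8503613189) (nat_lit 65) (nat_lit 5) (nat_lit 68) (nat_lit 5) (nat_lit 69) (nat_lit 5) (nat_lit 499) (nat_lit 389) (nat_lit 252)) (XT.lf (nat_lit 0) (nat_lit 14301635352) (nat_lit 228) (nat_lit 69070839)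 (nat_lit 304) (nat_lit 4642474380) (nat_lit 65) (nat_lit 5) (nat_lit 68) (nat_lit 5) (nat_lit 69) (nat_lit 5) (nat_lit 500) (nat_lit 389) (nat_lit 251))) (XT.nd (nat_lit 78) (nat_lit 76) (nat_lit 0) (XT.lf (nat_lit 0) (nat_lit 4842086131) (nat_lit 228) (nat_lit 13784284294) (nat_lit 304) (nat_lit 648964779) (nat_lit 62) (nat_lit 5) (nat_lit 65) (nat_lit 5) (nat_lit 66) (nat_lit 5) (nat_lit 501) (nat_lit 389) (nat_lit 250)) (XT.nd (nat_lit 50622) (nat_lit 0) (nat_lit 41268) (XT.lf (nat_lit 0) (nat_lit 3398477249) (nat_lit 304) (nat_lit 4936137819) (nat_lit 76) (nat_lit 11207297210) (nat_lit 61) (nat_lit 5) (nat_lit 65) (nat_lit 5) (nat_lit 62) (nat_lit 5) (nat_lit 502) (nat_lit 389) (nat_lit 249)) (XT.lf (nat_lit 0) (nat_lit 147527684) (nat_lit 0) (nat_lit 147527684) (nat_lit 684) (nat_lit 3023385389) (nat_lit 604) (nat_lit 5) (nat_lit 604) (nat_lit 3) (nat_lit 613) (nat_lit 3) (nat_lit 390) (nat_lit 390)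 (nat_lit 360))))))) (XT.nd (nat_lit 780) (nat_lit 2964) (nat_lit 0) (XT.nd (nat_lit 390) (nat_lit 1672) (nat_lit 0) (XT.nd (nat_lit 156) (nat_lit 760) (nat_lit 0) (XT.nd (nat_lit 78) (nat_lit 0) (nat_lit 0) (XT.lf (nat_lit 0) (nat_lit 2823097861) (nat_lit 684) (nat_lit 3200896655) (nat_lit 760) (nat_lit 632742010) (nat_lit 604) (nat_lit 5) (nat_lit 613) (nat_lit 3) (nat_lit 614) (nat_lit 5) (nat_lit 391) (nat_lit 390) (nat_lit 359)) (XT.lf (nat_lit 0) (nat_lit 5044579946) (nat_lit 684) (nat_lit 29663797) (nat_lit 760) (nat_lit 1603919918) (nat_lit 604) (nat_lit 5) (nat_lit 613) (nat_lit 3) (nat_lit 614) (nat_lit 5) (nat_lit 392) (nat_lit 390) (nat_lit 358))) (XT.nd (nat_lit 78) (nat_lit 0) (nat_lit 0) (XT.lf (nat_lit 0) (nat_lit 566085979) (nat_lit 760) (nat_lit 3487289878) (nat_lit 836) (nat_lit 2647341527) (nat_lit 594) (nat_lit 5) (nat_lit 604) (nat_lit 5) (nat_lit 605) (nat_lit 5) (nat_lit 393) (nat_lit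 390) (nat_lit 357)) (XT.nd (nat_lit 78) (nat_lit 0) (nat_lit 0) (XT.lf (nat_lit 0) (nat_lit 2731620695) (nat_lit 760) (nat_lit 243319348) (nat_lit 836) (nat_lit 3749740017) (nat_lit 594) (nat_lit 5) (nat_lit 604) (nat_lit 5) (nat_lit 605) (nat_lit 5) (nat_lit 394) (nat_lit 390) (nat_lit 356)) (XT.lf (nat_lit 76) (nat_lit 3075906827) (nat_lit 0) (nat_lit 1829161956) (nat_lit 836) (nat_lit 1844808943) (nat_lit 595) (nat_lit 5) (nat_lit 594) (nat_lit 5) (nat_lit 605) (nat_lit 5) (nat_lit 395) (nat_lit 390) (nat_lit 355))))) (XT.nd (nat_lit 156) (nat_lit 836) (nat_lit 0) (XT.nd (nat_lit 78) (nat_lit 0) (nat_lit 76) (XT.lf (nat_lit 0) (nat_lit 288624141) (nat_lit 836) (nat_lit 343533815) (nat_lit 912) (nat_lit 6144487123) (nat_lit 583) (nat_lit 5) (nat_lit 594) (nat_lit 5) (nat_lit 595) (nat_lit 5) (nat_lit 396) (nat_lit 390) (nat_lit 354)) (XT.lf (nat_lit 0) (nat_lit 2410241694) (nat_lit 836) (nat_lit 3757248317)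 (nat_lit 912) (nat_lit 636854561) (nat_lit 584) (nat_lit 5) (nat_lit 595) (nat_lit 5) (nat_lit 596) (nat_lit 5) (nat_lit 397) (nat_lit 390) (nat_lit 353))) (XT.nd (nat_lit 78) (nat_lit 912) (nat_lit 0) (XT.lf (nat_lit 0) (nat_lit 4528004500) (nat_lit 836) (nat_lit 357558846) (nat_lit 912) (nat_lit 1948004602) (nat_lit 584) (nat_lit 5) (nat_lit 595) (nat_lit 5) (nat_lit 596) (nat_lit 5) (nat_lit 398) (nat_lit 390) (nat_lit 352)) (XT.nd (nat_lit 78) (nat_lit 912) (nat_lit 0) (XT.lf (nat_lit 76) (nat_lit 3120659512) (nat_lit 0) (nat_lit 3535965485) (nat_lit 912) (nat_lit 207424028) (nat_lit 585) (nat_lit 5) (nat_lit 584) (nat_lit 5) (nat_lit 596) (nat_lit 5) (nat_lit 399) (nat_lit 390) (nat_lit 351)) (XT.lf (nat_lit 0) (nat_lit 1858426718) (nat_lit 912) (nat_lit 265283384) (nat_lit 988) (nat_lit 4772198343) (nat_lit 572) (nat_lit 5) (nat_lit 584) (nat_lit 5) (nat_lit 585) (nat_lit 5) (nat_lit 400) (nat_lit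 390) (nat_lit 350)))))) (XT.nd (nat_lit 390) (nat_lit 2052) (nat_lit 0) (XT.nd (nat_lit 156) (nat_lit 912) (nat_lit 0) (XT.nd (nat_lit 78) (nat_lit 0) (nat_lit 76) (XT.lf (nat_lit 76) (nat_lit 3293900939) (nat_lit 0) (nat_lit 639991845) (nat_lit 988) (nat_lit 2995104121) (nat_lit 573) (nat_lit 5) (nat_lit 572) (nat_lit 5) (nat_lit 585) (nat_lit 5) (nat_lit 401) (nat_lit 390) (nat_lit 349)) (XT.lf (nat_lit 0) (nat_lit 6008934833) (nat_lit 912) (nat_lit 71796492) (nat_lit 988) (nat_lit 882894463) (nat_lit 573) (nat_lit 5) (nat_lit 585) (nat_lit 5) (nat_lit 586) (nat_lit 5) (nat_lit 402) (nat_lit 390) (nat_lit 348))) (XT.nd (nat_lit 78) (nat_lit 0) (nat_lit 0) (XT.lf (nat_lit 0) (nat_lit 1090598800) (nat_lit 988) (nat_lit 3431821125) (nat_lit 1064) (nat_lit 2476842616) (nat_lit 560) (nat_lit 5) (nat_lit 573) (nat_lit 5) (nat_lit 574) (nat_lit 5) (nat_lit 403) (nat_lit 390) (nat_lit 347)) (XT.nd (nat_lit 78)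 (nat_lit 0) (nat_lit 0) (XT.lf (nat_lit 76) (nat_lit 210136626) (nat_lit 0) (nat_lit 2907706402) (nat_lit 1064) (nat_lit 3918603831) (nat_lit 561) (nat_lit 5) (nat_lit 560) (nat_lit 5) (nat_lit 574) (nat_lit 5) (nat_lit 404) (nat_lit 390) (nat_lit 346)) (XT.lf (nat_lit 76) (nat_lit 3940528949) (nat_lit 0) (nat_lit 1220844201) (nat_lit 1064) (nat_lit 1913523838) (nat_lit 561) (nat_lit 5) (nat_lit 560) (nat_lit 5) (nat_lit 574) (nat_lit 5) (nat_lit 405) (nat_lit 390) (nat_lit 345))))) (XT.nd (nat_lit 234) (nat_lit 1064) (nat_lit 0) (XT.nd (nat_lit 78) (nat_lit 0) (nat_lit 0) (XT.lf (nat_lit 0) (nat_lit 90550467) (nat_lit 1064) (nat_lit 6510815673) (nat_lit 1140) (nat_lit 513556001) (nat_lit 547) (nat_lit 5) (nat_lit 561) (nat_lit 5) (nat_lit 562) (nat_lit 5) (nat_lit 406) (nat_lit 390) (nat_lit 344)) (XT.nd (nat_lit 78) (nat_lit 0) (nat_lit 0) (XT.lf (nat_lit 0) (nat_lit 2092476662) (nat_lit 1064) (nat_lit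 2748209431) (nat_lit 1140) (nat_lit 2315175699) (nat_lit 547) (nat_lit 5) (nat_lit 561) (nat_lit 5) (nat_lit 562) (nat_lit 5) (nat_lit 407) (nat_lit 390) (nat_lit 343)) (XT.lf (nat_lit 76) (nat_lit 1072515906) (nat_lit 0) (nat_lit 3023899668) (nat_lit 1140) (nat_lit 3101999308) (nat_lit 548) (nat_lit 5) (nat_lit 547) (nat_lit 5) (nat_lit 562) (nat_lit 5) (nat_lit 408) (nat_lit 390) (nat_lit 342)))) (XT.nd (nat_lit 78) (nat_lit 1064) (nat_lit 0) (XT.lf (nat_lit 76) (nat_lit 4975914445) (nat_lit 0) (nat_lit 1138652371) (nat_lit 1140) (nat_lit 1127803007) (nat_lit 548) (nat_lit 5) (nat_lit 547) (nat_lit 5) (nat_lit 562) (nat_lit 5) (nat_lit 409) (nat_lit 390) (nat_lit 341)) (XT.nd (nat_lit 78) (nat_lit 0) (nat_lit 0) (XT.lf (nat_lit 0) (nat_lit 846529654) (nat_lit 1140) (nat_lit 5637932787) (nat_lit 76) (nat_lit 803213130) (nat_lit 533) (nat_lit 5) (nat_lit 548) (nat_lit 5) (nat_lit 534) (nat_lit 5) (nat_lit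 410) (nat_lit 390) (nat_lit 340)) (XT.lf (nat_lit 0) (nat_lit 2825090715) (nat_lit 1140) (nat_lit 1705475800) (nat_lit 76) (nat_lit 2803606494) (nat_lit 533) (nat_lit 5) (nat_lit 548) (nat_lit 5) (nat_lit 534) (nat_lit 5) (nat_lit 411) (nat_lit 390) (nat_lit 339))))))))
noncomputable def xc127 : XT := (XT.nd (nat_lit 1638) (nat_lit 8664) (nat_lit 0) (XT.nd (nat_lit 780) (nat_lit 7904) (nat_lit 0) (XT.nd (nat_lit 390) (nat_lit 4408) (nat_lit 0) (XT.nd (nat_lit 156) (nat_lit 2584) (nat_lit 0) (XT.nd (nat_lit 78) (nat_lit 0) (nat_lit 0) (XT.lf (nat_lit 0) (nat_lit 2304710454) (nat_lit 1140) (nat_lit 2511298149) (nat_lit 1216) (nat_lit 2566166990) (nat_lit 518) (nat_lit 5) (nat_lit 533) (nat_lit 5) (nat_lit 534) (nat_lit 5) (nat_lit 412) (nat_lit 390) (nat_lit 338)) (XT.lf (nat_lit 0) (nat_lit 6387276954) (nat_lit 1140) (nat_lit 429360563) (nat_lit 1216) (nat_lit 615133166) (nat_lit 518) (nat_lit 5) (nat_lit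 533) (nat_lit 5) (nat_lit 534) (nat_lit 5) (nat_lit 413) (nat_lit 390) (nat_lit 337))) (XT.nd (nat_lit 78) (nat_lit 1292) (nat_lit 0) (XT.lf (nat_lit 0) (nat_lit 1347039096) (nat_lit 1292) (nat_lit 4424328641) (nat_lit 76) (nat_lit 1711037527) (nat_lit 501) (nat_lit 5) (nat_lit 518) (nat_lit 5) (nat_lit 502) (nat_lit 5) (nat_lit 414) (nat_lit 390) (nat_lit 336)) (XT.nd (nat_lit 78) (nat_lit 1292) (nat_lit 0) (XT.lf (nat_lit 0) (nat_lit 3309756915) (nat_lit 1292) (nat_lit 315625581) (nat_lit 76) (nat_lit 3909226503) (nat_lit 501) (nat_lit 5) (nat_lit 518) (nat_lit 5) (nat_lit 502) (nat_lit 5) (nat_lit 415) (nat_lit 390) (nat_lit 335)) (XT.lf (nat_lit 0) (nat_lit 3895353127) (nat_lit 1292) (nat_lit 1402090784) (nat_lit 1368) (nat_lit 2290726598) (nat_lit 484) (nat_lit 5) (nat_lit 501) (nat_lit 5) (nat_lit 502) (nat_lit 5) (nat_lit 416) (nat_lit 390) (nat_lit 334))))) (XT.nd (nat_lit 156) (nat_lit 2964) (nat_lit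 0) (XT.nd (nat_lit 78) (nat_lit 76) (nat_lit 0) (XT.lf (nat_lit 0) (nat_lit 521632080) (nat_lit 1368) (nat_lit 6775444975) (nat_lit 1444) (nat_lit 346309795) (nat_lit 466) (nat_lit 5) (nat_lit 484) (nat_lit 5) (nat_lit 485) (nat_lit 5) (nat_lit 417) (nat_lit 390) (nat_lit 333)) (XT.lf (nat_lit 0) (nat_lit 1611087973) (nat_lit 1444) (nat_lit 2880837897) (nat_lit 76) (nat_lit 3207684220) (nat_lit 465) (nat_lit 5) (nat_lit 484) (nat_lit 5) (nat_lit 466) (nat_lit 5) (nat_lit 418) (nat_lit 390) (nat_lit 332))) (XT.nd (nat_lit 78) (nat_lit 1520) (nat_lit 0) (XT.lf (nat_lit 0) (nat_lit 1430009987) (nat_lit 1444) (nat_lit 2144365617) (nat_lit 1520) (nat_lit 4183134693) (nat_lit 446) (nat_lit 5) (nat_lit 465) (nat_lit 5) (nat_lit 466) (nat_lit 5) (nat_lit 419) (nat_lit 390) (nat_lit 331)) (XT.nd (nat_lit 78) (nat_lit 1520) (nat_lit 0) (XT.lf (nat_lit 0) (nat_lit 5560684715) (nat_lit 1520) (nat_lit 1983764305) (nat_lit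 76) (nat_lit 272469734) (nat_lit 446) (nat_lit 5) (nat_lit 466) (nat_lit 5) (nat_lit 447) (nat_lit 5) (nat_lit 420) (nat_lit 390) (nat_lit 330)) (XT.lf (nat_lit 0) (nat_lit 2433228494) (nat_lit 1520) (nat_lit 5146894318) (nat_lit 1596) (nat_lit 297549373) (nat_lit 426) (nat_lit 5) (nat_lit 446) (nat_lit 5) (nat_lit 447) (nat_lit 5) (nat_lit 421) (nat_lit 390) (nat_lit 329)))))) (XT.nd (nat_lit 390) (nat_lit 2736) (nat_lit 0) (XT.nd (nat_lit 156) (nat_lit 3496) (nat_lit 0) (XT.nd (nat_lit 78) (nat_lit 1596) (nat_lit 0) (XT.lf (nat_lit 0) (nat_lit 1655065472) (nat_lit 1596) (nat_lit 1016680372) (nat_lit 76) (nat_lit 5268156818) (nat_lit 425) (nat_lit 5) (nat_lit 446) (nat_lit 5) (nat_lit 426) (nat_lit 5) (nat_lit 422) (nat_lit 390) (nat_lit 328)) (XT.lf (nat_lit 0) (nat_lit 3512728106) (nat_lit 1596) (nat_lit 117199714) (nat_lit 1672) (nat_lit 4373690432) (nat_lit 404) (nat_lit 5) (nat_lit 425) (nat_lit 5)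 (nat_lit 426) (nat_lit 5) (nat_lit 423) (nat_lit 390) (nat_lit 327))) (XT.nd (nat_lit 78) (nat_lit 1824) (nat_lit 0) (XT.lf (nat_lit 0) (nat_lit 30675621) (nat_lit 1672) (nat_lit 5601730633) (nat_lit 1748) (nat_lit 2436462492) (nat_lit 382) (nat_lit 5) (nat_lit 404) (nat_lit 5) (nat_lit 405) (nat_lit 5) (nat_lit 424) (nat_lit 390) (nat_lit 326)) (XT.nd (nat_lit 78) (nat_lit 1824) (nat_lit 0) (XT.lf (nat_lit 0) (nat_lit 4671409713) (nat_lit 1672) (nat_lit 2999812042) (nat_lit 1748) (nat_lit 464299262) (nat_lit 382) (nat_lit 5) (nat_lit 404) (nat_lit 5) (nat_lit 405) (nat_lit 5) (nat_lit 425) (nat_lit 390) (nat_lit 325)) (XT.lf (nat_lit 0) (nat_lit 1175611406) (nat_lit 1748) (nat_lit 324847931) (nat_lit 1824) (nat_lit 6703398811) (nat_lit 358) (nat_lit 5) (nat_lit 381) (nat_lit 5) (nat_lit 382) (nat_lit 5) (nat_lit 426) (nat_lit 390) (nat_lit 324))))) (XT.nd (nat_lit 234) (nat_lit 1824) (nat_lit 0) (XT.nd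 (nat_lit 78) (nat_lit 912) (nat_lit 0) (XT.lf (nat_lit 0) (nat_lit 3503606871) (nat_lit 1824) (nat_lit 2368567028) (nat_lit 76) (nat_lit 2401241746) (nat_lit 358) (nat_lit 5) (nat_lit 382) (nat_lit 5) (nat_lit 359) (nat_lit 5) (nat_lit 427) (nat_lit 390) (nat_lit 323)) (XT.nd (nat_lit 78) (nat_lit 0) (nat_lit 0) (XT.lf (nat_lit 0) (nat_lit 2382300446) (nat_lit 912) (nat_lit 3149095589) (nat_lit 988) (nat_lit 2813297487) (nat_lit 346) (nat_lit 5) (nat_lit 358) (nat_lit 5) (nat_lit 359) (nat_lit 5) (nat_lit 428) (nat_lit 390) (nat_lit 322)) (XT.lf (nat_lit 0) (nat_lit 7229397596) (nat_lit 912) (nat_lit 353644871) (nat_lit 988) (nat_lit 834708853) (nat_lit 346) (nat_lit 5) (nat_lit 358) (nat_lit 5) (nat_lit 359) (nat_lit 5) (nat_lit 429) (nat_lit 390) (nat_lit 321)))) (XT.nd (nat_lit 78) (nat_lit 836) (nat_lit 0) (XT.lf (nat_lit 0) (nat_lit 1176146524) (nat_lit 988) (nat_lit 4817579358) (nat_lit 76) (nat_lit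 2498245998) (nat_lit 333) (nat_lit 5) (nat_lit 346) (nat_lit 5) (nat_lit 334) (nat_lit 5) (nat_lit 430) (nat_lit 390) (nat_lit 320)) (XT.nd (nat_lit 78) (nat_lit 0) (nat_lit 0) (XT.lf (nat_lit 0) (nat_lit 44449289) (nat_lit 836) (nat_lit 3150516951) (nat_lit 912) (nat_lit 5373041001) (nat_lit 322) (nat_lit 5) (nat_lit 333) (nat_lit 5) (nat_lit 334) (nat_lit 5) (nat_lit 431) (nat_lit 390) (nat_lit 319)) (XT.lf (nat_lit 0) (nat_lit 5038031553) (nat_lit 836) (nat_lit 217136150) (nat_lit 912) (nat_lit 3390394341) (nat_lit 322) (nat_lit 5) (nat_lit 333) (nat_lit 5) (nat_lit 334) (nat_lit 5) (nat_lit 432) (nat_lit 390) (nat_lit 318))))))) (XT.nd (nat_lit 780) (nat_lit 3952) (nat_lit 0) (XT.nd (nat_lit 390) (nat_lit 2280) (nat_lit 0) (XT.nd (nat_lit 156) (nat_lit 1520) (nat_lit 0) (XT.nd (nat_lit 78) (nat_lit 76) (nat_lit 0) (XT.lf (nat_lit 0) (nat_lit 1375827546) (nat_lit 836) (nat_lit 5976988161) (nat_lit 912)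 (nat_lit 1371945858) (nat_lit 311) (nat_lit 5) (nat_lit 322) (nat_lit 5) (nat_lit 323) (nat_lit 5) (nat_lit 433) (nat_lit 390) (nat_lit 317)) (XT.lf (nat_lit 0) (nat_lit 673146508) (nat_lit 912) (nat_lit 2334602029) (nat_lit 76) (nat_lit 5797819436) (nat_lit 310) (nat_lit 5) (nat_lit 322) (nat_lit 5) (nat_lit 311) (nat_lit 5) (nat_lit 434) (nat_lit 390) (nat_lit 316))) (XT.nd (nat_lit 78) (nat_lit 760) (nat_lit 0) (XT.lf (nat_lit 0) (nat_lit 2729201551) (nat_lit 836) (nat_lit 6111651064) (nat_lit 76) (nat_lit 47205305) (nat_lit 300) (nat_lit 5) (nat_lit 311) (nat_lit 5) (nat_lit 301) (nat_lit 5) (nat_lit 435) (nat_lit 390) (nat_lit 315)) (XT.nd (nat_lit 78) (nat_lit 760) (nat_lit 0) (XT.lf (nat_lit 0) (nat_lit 4832525314) (nat_lit 836) (nat_lit 1001649895) (nat_lit 76) (nat_lit 3137916570) (nat_lit 300) (nat_lit 5) (nat_lit 311) (nat_lit 5) (nat_lit 301) (nat_lit 5) (nat_lit 436) (nat_lit 390) (nat_lit 314))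 (XT.lf (nat_lit 0) (nat_lit 4235686411) (nat_lit 760) (nat_lit 2740767864) (nat_lit 836) (nat_lit 2081397997) (nat_lit 290) (nat_lit 5) (nat_lit 300) (nat_lit 5) (nat_lit 301) (nat_lit 5) (nat_lit 437) (nat_lit 390) (nat_lit 313))))) (XT.nd (nat_lit 156) (nat_lit 1444) (nat_lit 0) (XT.nd (nat_lit 78) (nat_lit 0) (nat_lit 0) (XT.lf (nat_lit 0) (nat_lit 1144623) (nat_lit 836) (nat_lit 8727573403) (nat_lit 76) (nat_lit 416954782) (nat_lit 279) (nat_lit 5) (nat_lit 290) (nat_lit 5) (nat_lit 280) (nat_lit 5) (nat_lit 438) (nat_lit 390) (nat_lit 312)) (XT.lf (nat_lit 0) (nat_lit 2119776862) (nat_lit 836) (nat_lit 3469201403) (nat_lit 76) (nat_lit 3645565921) (nat_lit 279) (nat_lit 5) (nat_lit 290) (nat_lit 5) (nat_lit 280) (nat_lit 5) (nat_lit 439) (nat_lit 390) (nat_lit 311))) (XT.nd (nat_lit 78) (nat_lit 684) (nat_lit 0) (XT.lf (nat_lit 0) (nat_lit 1888731276) (nat_lit 760) (nat_lit 2376429325) (nat_lit 836)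 (nat_lit 5060360269) (nat_lit 269) (nat_lit 5) (nat_lit 279) (nat_lit 5) (nat_lit 280) (nat_lit 5) (nat_lit 440) (nat_lit 390) (nat_lit 310)) (XT.nd (nat_lit 78) (nat_lit 684) (nat_lit 0) (XT.lf (nat_lit 0) (nat_lit 6455181761) (nat_lit 836) (nat_lit 2053729518) (nat_lit 76) (nat_lit 909386369) (nat_lit 269) (nat_lit 5) (nat_lit 280) (nat_lit 5) (nat_lit 270) (nat_lit 5) (nat_lit 441) (nat_lit 390) (nat_lit 309)) (XT.lf (nat_lit 0) (nat_lit 3436196025) (nat_lit 684) (nat_lit 5263845128) (nat_lit 760) (nat_lit 812682908) (nat_lit 260) (nat_lit 5) (nat_lit 269) (nat_lit 5) (nat_lit 270) (nat_lit 5) (nat_lit 442) (nat_lit 390) (nat_lit 308)))))) (XT.nd (nat_lit 390) (nat_lit 1824) (nat_lit 0) (XT.nd (nat_lit 156) (nat_lit 1368) (nat_lit 0) (XT.nd (nat_lit 78) (nat_lit 684) (nat_lit 0) (XT.lf (nat_lit 0) (nat_lit 1349656794) (nat_lit 760) (nat_lit 584357767) (nat_lit 76) (nat_lit 7675119286) (nat_lit 259) (nat_lit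 5) (nat_lit 269) (nat_lit 5) (nat_lit 260) (nat_lit 5) (nat_lit 443) (nat_lit 390) (nat_lit 307)) (XT.lf (nat_lit 0) (nat_lit 3560538419) (nat_lit 760) (nat_lit 4668188752) (nat_lit 76) (nat_lit 1478327681) (nat_lit 250) (nat_lit 5) (nat_lit 260) (nat_lit 5) (nat_lit 251) (nat_lit 5) (nat_lit 444) (nat_lit 390) (nat_lit 306))) (XT.nd (nat_lit 78) (nat_lit 760) (nat_lit 0) (XT.lf (nat_lit 0) (nat_lit 945162584) (nat_lit 608) (nat_lit 4867330133) (nat_lit 684) (nat_lit 3994518186) (nat_lit 242) (nat_lit 5) (nat_lit 250) (nat_lit 5) (nat_lit 251) (nat_lit 5) (nat_lit 445) (nat_lit 390) (nat_lit 305)) (XT.nd (nat_lit 78) (nat_lit 760) (nat_lit 0) (XT.lf (nat_lit 0) (nat_lit 6704237871) (nat_lit 608) (nat_lit 1410854199) (nat_lit 684) (nat_lit 1793775341) (nat_lit 242) (nat_lit 5) (nat_lit 250) (nat_lit 5) (nat_lit 251) (nat_lit 5) (nat_lit 446) (nat_lit 390) (nat_lit 304)) (XT.lf (nat_lit 0) (nat_lit 450170737)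 (nat_lit 760) (nat_lit 7459839555) (nat_lit 76) (nat_lit 2102603067) (nat_lit 232) (nat_lit 5) (nat_lit 242) (nat_lit 5) (nat_lit 233) (nat_lit 5) (nat_lit 447) (nat_lit 390) (nat_lit 303))))) (XT.nd (nat_lit 234) (nat_lit 1216) (nat_lit 0) (XT.nd (nat_lit 78) (nat_lit 608) (nat_lit 0) (XT.lf (nat_lit 0) (nat_lit 2720873552) (nat_lit 760) (nat_lit 1700483596) (nat_lit 76) (nat_lit 5696734691) (nat_lit 232) (nat_lit 5) (nat_lit 242) (nat_lit 5) (nat_lit 233) (nat_lit 5) (nat_lit 448) (nat_lit 390) (nat_lit 302)) (XT.nd (nat_lit 78) (nat_lit 0) (nat_lit 0) (XT.lf (nat_lit 0) (nat_lit 4199847957) (nat_lit 608) (nat_lit 839786588) (nat_lit 684) (nat_lit 5186004894) (nat_lit 224) (nat_lit 5) (nat_lit 232) (nat_lit 5) (nat_lit 233) (nat_lit 5) (nat_lit 449) (nat_lit 390) (nat_lit 301)) (XT.lf (nat_lit 0) (nat_lit 7410162865) (nat_lit 684) (nat_lit 141783637) (nat_lit 76) (nat_lit 2783295834) (nat_lit 224) (nat_lit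 5) (nat_lit 233) (nat_lit 5) (nat_lit 225) (nat_lit 5) (nat_lit 450) (nat_lit 390) (nat_lit 300)))) (XT.nd (nat_lit 78) (nat_lit 608) (nat_lit 0) (XT.lf (nat_lit 0) (nat_lit 5902770144) (nat_lit 608) (nat_lit 3945334311) (nat_lit 684) (nat_lit 598544729) (nat_lit 216) (nat_lit 5) (nat_lit 224) (nat_lit 5) (nat_lit 225) (nat_lit 5) (nat_lit 451) (nat_lit 390) (nat_lit 299)) (XT.nd (nat_lit 78) (nat_lit 0) (nat_lit 0) (XT.lf (nat_lit 0) (nat_lit 1488743977) (nat_lit 532) (nat_lit 249357197) (nat_lit 608) (nat_lit 8822226982) (nat_lit 208) (nat_lit 5) (nat_lit 215) (nat_lit 5) (nat_lit 216) (nat_lit 5) (nat_lit 452) (nat_lit 390) (nat_lit 298)) (XT.lf (nat_lit 0) (nat_lit 4143497263) (nat_lit 608) (nat_lit 3028460843) (nat_lit 76) (nat_lit 3503654096) (nat_lit 208) (nat_lit 5) (nat_lit 216) (nat_lit 5) (nat_lit 209) (nat_lit 5) (nat_lit 453) (nat_lit 390) (nat_lit 297))))))))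
noncomputable def xc128 : XT := (XT.nd (nat_lit 1560) (nat_lit 3952) (nat_lit 0) (XT.nd (nat_lit 780) (nat_lit 2736) (nat_lit 0) (XT.nd (nat_lit 390) (nat_lit 1596) (nat_lit 0) (XT.nd (nat_lit 156) (nat_lit 1140) (nat_lit 0) (XT.nd (nat_lit 78) (nat_lit 0) (nat_lit 0) (XT.lf (nat_lit 0) (nat_lit 3146334979) (nat_lit 608) (nat_lit 3449679936) (nat_lit 684) (nat_lit 4197217781) (nat_lit 200) (nat_lit 5) (nat_lit 208) (nat_lit 5) (nat_lit 209) (nat_lit 5) (nat_lit 454) (nat_lit 390) (nat_lit 296)) (XT.lf (nat_lit 0) (nat_lit 9097456226) (nat_lit 684) (nat_lit 1458551589) (nat_lit 76) (nat_lit 357211140) (nat_lit 200) (nat_lit 5) (nat_lit 209) (nat_lit 5) (nat_lit 201) (nat_lit 5) (nat_lit 455) (nat_lit 390) (nat_lit 295))) (XT.nd (nat_lit 78) (nat_lit 532) (nat_lit 0) (XT.lf (nat_lit 0) (nat_lit 637529346) (nat_lit 608) (nat_lit 6173107098) (nat_lit 76) (nat_lit 4224254221) (nat_lit 192) (nat_lit 5) (nat_lit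 200) (nat_lit 5) (nat_lit 193) (nat_lit 5) (nat_lit 456) (nat_lit 390) (nat_lit 294)) (XT.nd (nat_lit 78) (nat_lit 0) (nat_lit 0) (XT.lf (nat_lit 0) (nat_lit 130526000) (nat_lit 532) (nat_lit 2973480061) (nat_lit 608) (nat_lit 8054991263) (nat_lit 185) (nat_lit 5) (nat_lit 192) (nat_lit 5) (nat_lit 193) (nat_lit 5) (nat_lit 457) (nat_lit 390) (nat_lit 293)) (XT.lf (nat_lit 0) (nat_lit 5645537800) (nat_lit 608) (nat_lit 4676041806) (nat_lit 76) (nat_lit 963502001) (nat_lit 185) (nat_lit 5) (nat_lit 193) (nat_lit 5) (nat_lit 186) (nat_lit 5) (nat_lit 458) (nat_lit 390) (nat_lit 292))))) (XT.nd (nat_lit 156) (nat_lit 1064) (nat_lit 0) (XT.nd (nat_lit 78) (nat_lit 0) (nat_lit 0) (XT.lf (nat_lit 0) (nat_lit 1778825098) (nat_lit 532) (nat_lit 6468669764) (nat_lit 608) (nat_lit 3166010622) (nat_lit 178) (nat_lit 5) (nat_lit 185) (nat_lit 5) (nat_lit 186) (nat_lit 5) (nat_lit 459) (nat_lit 390) (nat_lit 291)) (XT.lf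 (nat_lit 0) (nat_lit 8398111271) (nat_lit 532) (nat_lit 2513354190) (nat_lit 608) (nat_lit 632842497) (nat_lit 178) (nat_lit 5) (nat_lit 185) (nat_lit 5) (nat_lit 186) (nat_lit 5) (nat_lit 460) (nat_lit 390) (nat_lit 290))) (XT.nd (nat_lit 78) (nat_lit 456) (nat_lit 0) (XT.lf (nat_lit 0) (nat_lit 1936910638) (nat_lit 608) (nat_lit 8210328709) (nat_lit 76) (nat_lit 1530012848) (nat_lit 170) (nat_lit 5) (nat_lit 178) (nat_lit 5) (nat_lit 171) (nat_lit 5) (nat_lit 461) (nat_lit 390) (nat_lit 289)) (XT.nd (nat_lit 78) (nat_lit 456) (nat_lit 0) (XT.lf (nat_lit 0) (nat_lit 4566548697) (nat_lit 608) (nat_lit 1606458358) (nat_lit 76) (nat_lit 5639434380) (nat_lit 170) (nat_lit 5) (nat_lit 178) (nat_lit 5) (nat_lit 171) (nat_lit 5) (nat_lit 462) (nat_lit 390) (nat_lit 288)) (XT.lf (nat_lit 0) (nat_lit 5169838519) (nat_lit 456) (nat_lit 2091976154) (nat_lit 532) (nat_lit 4688267964) (nat_lit 164) (nat_lit 5) (nat_lit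 170) (nat_lit 5) (nat_lit 171) (nat_lit 5) (nat_lit 463) (nat_lit 390) (nat_lit 287)))))) (XT.nd (nat_lit 390) (nat_lit 1292) (nat_lit 0) (XT.nd (nat_lit 156) (nat_lit 912) (nat_lit 0) (XT.nd (nat_lit 78) (nat_lit 532) (nat_lit 0) (XT.lf (nat_lit 0) (nat_lit 10014931119) (nat_lit 532) (nat_lit 27982538) (nat_lit 76) (nat_lit 2047492806) (nat_lit 164) (nat_lit 5) (nat_lit 171) (nat_lit 5) (nat_lit 165) (nat_lit 5) (nat_lit 464) (nat_lit 390) (nat_lit 286)) (XT.lf (nat_lit 0) (nat_lit 620849287) (nat_lit 532) (nat_lit 5327873134) (nat_lit 76) (nat_lit 6283965980) (nat_lit 157) (nat_lit 5) (nat_lit 164) (nat_lit 5) (nat_lit 158) (nat_lit 5) (nat_lit 465) (nat_lit 390) (nat_lit 285))) (XT.nd (nat_lit 78) (nat_lit 456) (nat_lit 0) (XT.lf (nat_lit 0) (nat_lit 1578598416) (nat_lit 456) (nat_lit 1755301553) (nat_lit 532) (nat_lit 9043838033) (nat_lit 151) (nat_lit 5) (nat_lit 157) (nat_lit 5) (nat_lit 158) (nat_lit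 5) (nat_lit 466) (nat_lit 390) (nat_lit 284)) (XT.nd (nat_lit 78) (nat_lit 456) (nat_lit 0) (XT.lf (nat_lit 0) (nat_lit 6133868072) (nat_lit 532) (nat_lit 3873534356) (nat_lit 76) (nat_lit 2517641078) (nat_lit 151) (nat_lit 5) (nat_lit 158) (nat_lit 5) (nat_lit 152) (nat_lit 5) (nat_lit 467) (nat_lit 390) (nat_lit 283)) (XT.lf (nat_lit 0) (nat_lit 3194015465) (nat_lit 456) (nat_lit 5808861058) (nat_lit 532) (nat_lit 3672165660) (nat_lit 145) (nat_lit 5) (nat_lit 151) (nat_lit 5) (nat_lit 152) (nat_lit 5) (nat_lit 468) (nat_lit 390) (nat_lit 282))))) (XT.nd (nat_lit 156) (nat_lit 836) (nat_lit 0) (XT.nd (nat_lit 78) (nat_lit 456) (nat_lit 0) (XT.lf (nat_lit 0) (nat_lit 10428766508) (nat_lit 456) (nat_lit 1507376673) (nat_lit 532) (nat_lit 891767822) (nat_lit 145) (nat_lit 5) (nat_lit 151) (nat_lit 5) (nat_lit 152) (nat_lit 5) (nat_lit 469) (nat_lit 390) (nat_lit 281)) (XT.lf (nat_lit 0) (nat_lit 1950292410)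 (nat_lit 456) (nat_lit 8153328085) (nat_lit 76) (nat_lit 2879340597) (nat_lit 139) (nat_lit 5) (nat_lit 145) (nat_lit 5) (nat_lit 140) (nat_lit 5) (nat_lit 470) (nat_lit 390) (nat_lit 280))) (XT.nd (nat_lit 78) (nat_lit 836) (nat_lit 0) (XT.lf (nat_lit 0) (nat_lit 4844731634) (nat_lit 456) (nat_lit 947828301) (nat_lit 76) (nat_lit 7348292070) (nat_lit 139) (nat_lit 5) (nat_lit 145) (nat_lit 5) (nat_lit 140) (nat_lit 5) (nat_lit 471) (nat_lit 390) (nat_lit 279)) (XT.nd (nat_lit 78) (nat_lit 380) (nat_lit 0) (XT.lf (nat_lit 0) (nat_lit 6460482248) (nat_lit 456) (nat_lit 1360168843) (nat_lit 532) (nat_lit 5480784954) (nat_lit 133) (nat_lit 5) (nat_lit 139) (nat_lit 5) (nat_lit 140) (nat_lit 5) (nat_lit 472) (nat_lit 390) (nat_lit 278)) (XT.lf (nat_lit 0) (nat_lit 524842681) (nat_lit 380) (nat_lit 10343366641) (nat_lit 456) (nat_lit 2596787038) (nat_lit 128) (nat_lit 5) (nat_lit 133) (nat_lit 5) (nat_lit 134)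 (nat_lit 5) (nat_lit 473) (nat_lit 390) (nat_lit 277))))))) (XT.nd (nat_lit 780) (nat_lit 1976) (nat_lit 0) (XT.nd (nat_lit 390) (nat_lit 1140) (nat_lit 0) (XT.nd (nat_lit 156) (nat_lit 380) (nat_lit 0) (XT.nd (nat_lit 78) (nat_lit 380) (nat_lit 0) (XT.lf (nat_lit 0) (nat_lit 377435546) (nat_lit 456) (nat_lit 5538029105) (nat_lit 76) (nat_lit 7715583813) (nat_lit 127) (nat_lit 5) (nat_lit 133) (nat_lit 5) (nat_lit 128) (nat_lit 5) (nat_lit 474) (nat_lit 390) (nat_lit 276)) (XT.lf (nat_lit 0) (nat_lit 1995370779) (nat_lit 380) (nat_lit 1376194341) (nat_lit 456) (nat_lit 10428615920) (nat_lit 122) (nat_lit 5) (nat_lit 127) (nat_lit 5) (nat_lit 128) (nat_lit 5) (nat_lit 475) (nat_lit 390) (nat_lit 275))) (XT.nd (nat_lit 78) (nat_lit 380) (nat_lit 0) (XT.lf (nat_lit 0) (nat_lit 6466449674) (nat_lit 456) (nat_lit 4264694488) (nat_lit 76) (nat_lit 3240741126) (nat_lit 122) (nat_lit 5) (nat_lit 128) (nat_lit 5)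 (nat_lit 123) (nat_lit 5) (nat_lit 476) (nat_lit 390) (nat_lit 274)) (XT.nd (nat_lit 78) (nat_lit 0) (nat_lit 0) (XT.lf (nat_lit 0) (nat_lit 3436814321) (nat_lit 380) (nat_lit 6200528836) (nat_lit 456) (nat_lit 4509404579) (nat_lit 117) (nat_lit 5) (nat_lit 122) (nat_lit 5) (nat_lit 123) (nat_lit 5) (nat_lit 477) (nat_lit 390) (nat_lit 273)) (XT.lf (nat_lit 0) (nat_lit 11324959424) (nat_lit 380) (nat_lit 1558172632) (nat_lit 456) (nat_lit 1441752042) (nat_lit 117) (nat_lit 5) (nat_lit 122) (nat_lit 5) (nat_lit 123) (nat_lit 5) (nat_lit 478) (nat_lit 390) (nat_lit 272))))) (XT.nd (nat_lit 156) (nat_lit 684) (nat_lit 0) (XT.nd (nat_lit 78) (nat_lit 0) (nat_lit 0) (XT.lf (nat_lit 0) (nat_lit 1700826877) (nat_lit 456) (nat_lit 9634374839) (nat_lit 76) (nat_lit 3170454312) (nat_lit 111) (nat_lit 5) (nat_lit 117) (nat_lit 5) (nat_lit 112) (nat_lit 5) (nat_lit 479) (nat_lit 390) (nat_lit 271)) (XT.lf (nat_lit 0)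 (nat_lit 4900750612) (nat_lit 456) (nat_lit 1794129531) (nat_lit 76) (nat_lit 7994702544) (nat_lit 111) (nat_lit 5) (nat_lit 117) (nat_lit 5) (nat_lit 112) (nat_lit 5) (nat_lit 480) (nat_lit 390) (nat_lit 270))) (XT.nd (nat_lit 78) (nat_lit 380) (nat_lit 0) (XT.lf (nat_lit 0) (nat_lit 6260454805) (nat_lit 304) (nat_lit 1928391352) (nat_lit 380) (nat_lit 6687863999) (nat_lit 107) (nat_lit 5) (nat_lit 111) (nat_lit 5) (nat_lit 112) (nat_lit 5) (nat_lit 481) (nat_lit 390) (nat_lit 269)) (XT.nd (nat_lit 78) (nat_lit 380) (nat_lit 0) (XT.lf (nat_lit 0) (nat_lit 11557506879) (nat_lit 380) (nat_lit 610704561) (nat_lit 76) (nat_lit 2899078299) (nat_lit 107) (nat_lit 5) (nat_lit 112) (nat_lit 5) (nat_lit 108) (nat_lit 5) (nat_lit 482) (nat_lit 390) (nat_lit 268)) (XT.lf (nat_lit 0) (nat_lit 7617890152) (nat_lit 380) (nat_lit 7421840907) (nat_lit 456) (nat_lit 221031569) (nat_lit 102) (nat_lit 5) (nat_lit 107) (nat_lit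 5) (nat_lit 108) (nat_lit 5) (nat_lit 483) (nat_lit 390) (nat_lit 267)))))) (XT.nd (nat_lit 390) (nat_lit 912) (nat_lit 0) (XT.nd (nat_lit 156) (nat_lit 684) (nat_lit 0) (XT.nd (nat_lit 78) (nat_lit 0) (nat_lit 0) (XT.lf (nat_lit 0) (nat_lit 523541601) (nat_lit 304) (nat_lit 2560388188) (nat_lit 380) (nat_lit 12373942970) (nat_lit 97) (nat_lit 5) (nat_lit 101) (nat_lit 5) (nat_lit 102) (nat_lit 5) (nat_lit 484) (nat_lit 390) (nat_lit 266)) (XT.lf (nat_lit 0) (nat_lit 6503342507) (nat_lit 380) (nat_lit 6742762458) (nat_lit 76) (nat_lit 2411769873) (nat_lit 97) (nat_lit 5) (nat_lit 102) (nat_lit 5) (nat_lit 98) (nat_lit 5) (nat_lit 485) (nat_lit 390) (nat_lit 265))) (XT.nd (nat_lit 78) (nat_lit 380) (nat_lit 0) (XT.lf (nat_lit 0) (nat_lit 1592674044) (nat_lit 304) (nat_lit 8410188220) (nat_lit 380) (nat_lit 5858785417) (nat_lit 93) (nat_lit 5) (nat_lit 97) (nat_lit 5) (nat_lit 98) (nat_lit 5) (nat_lit 486)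 (nat_lit 390) (nat_lit 264)) (XT.nd (nat_lit 78) (nat_lit 380) (nat_lit 0) (XT.lf (nat_lit 0) (nat_lit 10162480839) (nat_lit 304) (nat_lit 3439712268) (nat_lit 380) (nat_lit 2466711461) (nat_lit 93) (nat_lit 5) (nat_lit 97) (nat_lit 5) (nat_lit 98) (nat_lit 5) (nat_lit 487) (nat_lit 390) (nat_lit 263)) (XT.lf (nat_lit 0) (nat_lit 992697075) (nat_lit 380) (nat_lit 13662917956) (nat_lit 76) (nat_lit 1624317012) (nat_lit 88) (nat_lit 5) (nat_lit 93) (nat_lit 5) (nat_lit 89) (nat_lit 5) (nat_lit 488) (nat_lit 390) (nat_lit 262))))) (XT.nd (nat_lit 234) (nat_lit 608) (nat_lit 0) (XT.nd (nat_lit 78) (nat_lit 304) (nat_lit 0) (XT.lf (nat_lit 0) (nat_lit 4535836979) (nat_lit 380) (nat_lit 5166359900) (nat_lit 76) (nat_lit 6791710352) (nat_lit 88) (nat_lit 5) (nat_lit 93) (nat_lit 5) (nat_lit 89) (nat_lit 5) (nat_lit 489) (nat_lit 390) (nat_lit 261)) (XT.nd (nat_lit 78) (nat_lit 0) (nat_lit 0) (XT.lf (nat_lit 0)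 (nat_lit 3523220862) (nat_lit 304) (nat_lit 4634655022) (nat_lit 380) (nat_lit 8554129933) (nat_lit 84) (nat_lit 5) (nat_lit 88) (nat_lit 5) (nat_lit 89) (nat_lit 5) (nat_lit 490) (nat_lit 390) (nat_lit 260)) (XT.lf (nat_lit 0) (nat_lit 11875972085) (nat_lit 380) (nat_lit 4504055450) (nat_lit 76) (nat_lit 553971036) (nat_lit 84) (nat_lit 5) (nat_lit 89) (nat_lit 5) (nat_lit 85) (nat_lit 5) (nat_lit 491) (nat_lit 390) (nat_lit 259)))) (XT.nd (nat_lit 78) (nat_lit 380) (nat_lit 0) (XT.lf (nat_lit 0) (nat_lit 4358078784) (nat_lit 228) (nat_lit 11354878575) (nat_lit 304) (nat_lit 1446587718) (nat_lit 81) (nat_lit 5) (nat_lit 84) (nat_lit 5) (nat_lit 85) (nat_lit 5) (nat_lit 492) (nat_lit 390) (nat_lit 258)) (XT.nd (nat_lit 78) (nat_lit 304) (nat_lit 0) (XT.lf (nat_lit 0) (nat_lit 2223741035) (nat_lit 304) (nat_lit 3968013454) (nat_lit 76) (nat_lit 11197241782) (nat_lit 80) (nat_lit 5) (nat_lit 84) (nat_lit 5)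 (nat_lit 81) (nat_lit 5) (nat_lit 493) (nat_lit 390) (nat_lit 257)) (XT.lf (nat_lit 0) (nat_lit 5076758021) (nat_lit 304) (nat_lit 890187309) (nat_lit 380) (nat_lit 11655527326) (nat_lit 76) (nat_lit 5) (nat_lit 80) (nat_lit 5) (nat_lit 81) (nat_lit 5) (nat_lit 494) (nat_lit 390) (nat_lit 256))))))))
noncomputable def xc129 : XT := (XT.nd (nat_lit 52182) (nat_lit 0) (nat_lit 26068) (XT.nd (nat_lit 51402) (nat_lit 0) (nat_lit 37848) (XT.nd (nat_lit 390) (nat_lit 532) (nat_lit 0) (XT.nd (nat_lit 156) (nat_lit 380) (nat_lit 0) (XT.nd (nat_lit 78) (nat_lit 228) (nat_lit 0) (XT.lf (nat_lit 0) (nat_lit 9827086403) (nat_lit 380) (nat_lit 3555816937) (nat_lit 76) (nat_lit 4476877877) (nat_lit 76) (nat_lit 5) (nat_lit 81) (nat_lit 5) (nat_lit 77) (nat_lit 5) (nat_lit 495) (nat_lit 390) (nat_lit 255)) (XT.lf (nat_lit 0) (nat_lit 5660221257) (nat_lit 228) (nat_lit 8133068801) (nat_lit 304) (nat_lit 4307972717) (nat_lit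 73) (nat_lit 5) (nat_lit 76) (nat_lit 5) (nat_lit 77) (nat_lit 5) (nat_lit 496) (nat_lit 390) (nat_lit 254))) (XT.nd (nat_lit 78) (nat_lit 380) (nat_lit 0) (XT.lf (nat_lit 0) (nat_lit 15086927970) (nat_lit 228) (nat_lit 2762094213) (nat_lit 304) (nat_lit 498351634) (nat_lit 73) (nat_lit 5) (nat_lit 76) (nat_lit 5) (nat_lit 77) (nat_lit 5) (nat_lit 497) (nat_lit 390) (nat_lit 253)) (XT.nd (nat_lit 78) (nat_lit 0) (nat_lit 0) (XT.lf (nat_lit 0) (nat_lit 3387415430) (nat_lit 380) (nat_lit 12474738517) (nat_lit 76) (nat_lit 2734929435) (nat_lit 68) (nat_lit 5) (nat_lit 73) (nat_lit 5) (nat_lit 69) (nat_lit 5) (nat_lit 498) (nat_lit 390) (nat_lit 252)) (XT.lf (nat_lit 0) (nat_lit 7371138000) (nat_lit 380) (nat_lit 3157782025) (nat_lit 76) (nat_lit 8322266684) (nat_lit 68) (nat_lit 5) (nat_lit 73) (nat_lit 5) (nat_lit 69) (nat_lit 5) (nat_lit 499) (nat_lit 390) (nat_lit 251))))) (XT.nd (nat_lit 156) (nat_lit 304)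 (nat_lit 0) (XT.nd (nat_lit 78) (nat_lit 0) (nat_lit 0) (XT.lf (nat_lit 0) (nat_lit 6408301966) (nat_lit 228) (nat_lit 5054693567) (nat_lit 304) (nat_lit 7646811000) (nat_lit 65) (nat_lit 5) (nat_lit 68) (nat_lit 5) (nat_lit 69) (nat_lit 5) (nat_lit 500) (nat_lit 390) (nat_lit 250)) (XT.lf (nat_lit 0) (nat_lit 15648377352) (nat_lit 304) (nat_lit 3189567164) (nat_lit 76) (nat_lit 535424066) (nat_lit 65) (nat_lit 5) (nat_lit 69) (nat_lit 5) (nat_lit 66) (nat_lit 5) (nat_lit 501) (nat_lit 390) (nat_lit 249))) (XT.nd (nat_lit 50700) (nat_lit 0) (nat_lit 40432) (XT.lf (nat_lit 0) (nat_lit 335210711) (nat_lit 304) (nat_lit 13099098436) (nat_lit 76) (nat_lit 6206589294) (nat_lit 61) (nat_lit 5) (nat_lit 65) (nat_lit 5) (nat_lit 62) (nat_lit 5) (nat_lit 502) (nat_lit 390) (nat_lit 248)) (XT.nd (nat_lit 78) (nat_lit 836) (nat_lit 0) (XT.lf (nat_lit 0) (nat_lit 1254723511) (nat_lit 0) (nat_lit 1254723511) (nat_lit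 684) (nat_lit 829233459) (nat_lit 604) (nat_lit 5) (nat_lit 604) (nat_lit 3) (nat_lit 613) (nat_lit 3) (nat_lit 391) (nat_lit 391) (nat_lit 358)) (XT.lf (nat_lit 0) (nat_lit 499541779) (nat_lit 836) (nat_lit 1008319006) (nat_lit 836) (nat_lit 5191580464) (nat_lit 593) (nat_lit 3) (nat_lit 604) (nat_lit 3) (nat_lit 604) (nat_lit 5) (nat_lit 392) (nat_lit 391) (nat_lit 357)))))) (XT.nd (nat_lit 390) (nat_lit 1824) (nat_lit 0) (XT.nd (nat_lit 156) (nat_lit 760) (nat_lit 0) (XT.nd (nat_lit 78) (nat_lit 0) (nat_lit 76) (XT.lf (nat_lit 76) (nat_lit 2203563661) (nat_lit 0) (nat_lit 432803751) (nat_lit 836) (nat_lit 4086267951) (nat_lit 594) (nat_lit 5) (nat_lit 593) (nat_lit 3) (nat_lit 604) (nat_lit 5) (nat_lit 393) (nat_lit 391) (nat_lit 356)) (XT.lf (nat_lit 0) (nat_lit 4771682104) (nat_lit 760) (nat_lit 1287125201) (nat_lit 836) (nat_lit 688418793) (nat_lit 594) (nat_lit 5) (nat_lit 604) (nat_lit 5) (nat_lit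 605) (nat_lit 5) (nat_lit 394) (nat_lit 391) (nat_lit 355))) (XT.nd (nat_lit 78) (nat_lit 0) (nat_lit 0) (XT.lf (nat_lit 0) (nat_lit 136359038) (nat_lit 836) (nat_lit 4770527906) (nat_lit 912) (nat_lit 1866218779) (nat_lit 583) (nat_lit 5) (nat_lit 594) (nat_lit 5) (nat_lit 595) (nat_lit 5) (nat_lit 395) (nat_lit 391) (nat_lit 354)) (XT.nd (nat_lit 78) (nat_lit 0) (nat_lit 0) (XT.lf (nat_lit 0) (nat_lit 2218960171) (nat_lit 836) (nat_lit 1466892362) (nat_lit 912) (nat_lit 3114336021) (nat_lit 583) (nat_lit 5) (nat_lit 594) (nat_lit 5) (nat_lit 595) (nat_lit 5) (nat_lit 396) (nat_lit 391) (nat_lit 353)) (XT.lf (nat_lit 76) (nat_lit 1898356200) (nat_lit 0) (nat_lit 2404430902) (nat_lit 912) (nat_lit 2525878615) (nat_lit 584) (nat_lit 5) (nat_lit 583) (nat_lit 5) (nat_lit 595) (nat_lit 5) (nat_lit 397) (nat_lit 391) (nat_lit 352))))) (XT.nd (nat_lit 156) (nat_lit 988) (nat_lit 0) (XT.nd (nat_lit 78) (nat_lit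 836) (nat_lit 0) (XT.lf (nat_lit 76) (nat_lit 5321630012) (nat_lit 0) (nat_lit 1064597564) (nat_lit 912) (nat_lit 472369390) (nat_lit 584) (nat_lit 5) (nat_lit 583) (nat_lit 5) (nat_lit 595) (nat_lit 5) (nat_lit 398) (nat_lit 391) (nat_lit 351)) (XT.lf (nat_lit 0) (nat_lit 1564319427) (nat_lit 912) (nat_lit 4982552891) (nat_lit 988) (nat_lit 342817778) (nat_lit 572) (nat_lit 5) (nat_lit 584) (nat_lit 5) (nat_lit 585) (nat_lit 5) (nat_lit 399) (nat_lit 391) (nat_lit 350))) (XT.nd (nat_lit 78) (nat_lit 988) (nat_lit 0) (XT.lf (nat_lit 0) (nat_lit 3602542308) (nat_lit 912) (nat_lit 1520798626) (nat_lit 988) (nat_lit 1798699987) (nat_lit 572) (nat_lit 5) (nat_lit 584) (nat_lit 5) (nat_lit 585) (nat_lit 5) (nat_lit 400) (nat_lit 391) (nat_lit 349)) (XT.nd (nat_lit 78) (nat_lit 988) (nat_lit 0) (XT.lf (nat_lit 76) (nat_lit 2006794148) (nat_lit 0) (nat_lit 3638438392) (nat_lit 988) (nat_lit 1310572153) (nat_lit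 573) (nat_lit 5) (nat_lit 572) (nat_lit 5) (nat_lit 585) (nat_lit 5) (nat_lit 401) (nat_lit 391) (nat_lit 348)) (XT.lf (nat_lit 0) (nat_lit 690208546) (nat_lit 988) (nat_lit 1399557641) (nat_lit 1064) (nat_lit 4901192854) (nat_lit 559) (nat_lit 5) (nat_lit 572) (nat_lit 5) (nat_lit 573) (nat_lit 5) (nat_lit 402) (nat_lit 391) (nat_lit 347))))))) (XT.nd (nat_lit 780) (nat_lit 8664) (nat_lit 0) (XT.nd (nat_lit 390) (nat_lit 2128) (nat_lit 0) (XT.nd (nat_lit 156) (nat_lit 988) (nat_lit 0) (XT.nd (nat_lit 78) (nat_lit 0) (nat_lit 76) (XT.lf (nat_lit 76) (nat_lit 2211593837) (nat_lit 0) (nat_lit 468285799) (nat_lit 1064) (nat_lit 4347472796) (nat_lit 560) (nat_lit 5) (nat_lit 559) (nat_lit 5) (nat_lit 573) (nat_lit 5) (nat_lit 403) (nat_lit 391) (nat_lit 346)) (XT.lf (nat_lit 0) (nat_lit 4679408433) (nat_lit 988) (nat_lit 1188624447) (nat_lit 1064) (nat_lit 1197076468) (nat_lit 560) (nat_lit 5) (nat_lit 573)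 (nat_lit 5) (nat_lit 574) (nat_lit 5) (nat_lit 404) (nat_lit 391) (nat_lit 345))) (XT.nd (nat_lit 78) (nat_lit 1064) (nat_lit 0) (XT.lf (nat_lit 76) (nat_lit 2510963031) (nat_lit 0) (nat_lit 4181204589) (nat_lit 1064) (nat_lit 412025205) (nat_lit 561) (nat_lit 5) (nat_lit 560) (nat_lit 5) (nat_lit 574) (nat_lit 5) (nat_lit 405) (nat_lit 391) (nat_lit 344)) (XT.nd (nat_lit 78) (nat_lit 0) (nat_lit 0) (XT.lf (nat_lit 0) (nat_lit 1542366004) (nat_lit 1064) (nat_lit 884058776) (nat_lit 1140) (nat_lit 4718215271) (nat_lit 546) (nat_lit 5) (nat_lit 560) (nat_lit 5) (nat_lit 561) (nat_lit 5) (nat_lit 406) (nat_lit 391) (nat_lit 343)) (XT.lf (nat_lit 76) (nat_lit 2904894322) (nat_lit 0) (nat_lit 599409058) (nat_lit 1140) (nat_lit 3682092994) (nat_lit 547) (nat_lit 5) (nat_lit 546) (nat_lit 5) (nat_lit 561) (nat_lit 5) (nat_lit 407) (nat_lit 391) (nat_lit 342))))) (XT.nd (nat_lit 156) (nat_lit 1064) (nat_lit 0) (XT.nd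 (nat_lit 78) (nat_lit 1140) (nat_lit 0) (XT.lf (nat_lit 0) (nat_lit 5475551826) (nat_lit 1064) (nat_lit 486093526) (nat_lit 1140) (nat_lit 1267974485) (nat_lit 547) (nat_lit 5) (nat_lit 561) (nat_lit 5) (nat_lit 562) (nat_lit 5) (nat_lit 408) (nat_lit 391) (nat_lit 341)) (XT.lf (nat_lit 0) (nat_lit 192358914) (nat_lit 1140) (nat_lit 3879548221) (nat_lit 1216) (nat_lit 3202152626) (nat_lit 532) (nat_lit 5) (nat_lit 547) (nat_lit 5) (nat_lit 548) (nat_lit 5) (nat_lit 409) (nat_lit 391) (nat_lit 340))) (XT.nd (nat_lit 78) (nat_lit 1064) (nat_lit 0) (XT.lf (nat_lit 0) (nat_lit 2114631299) (nat_lit 1140) (nat_lit 2035500) (nat_lit 1216) (nat_lit 5203313249) (nat_lit 532) (nat_lit 5) (nat_lit 547) (nat_lit 5) (nat_lit 548) (nat_lit 5) (nat_lit 410) (nat_lit 391) (nat_lit 339)) (XT.nd (nat_lit 78) (nat_lit 1064) (nat_lit 0) (XT.lf (nat_lit 76) (nat_lit 3975368934) (nat_lit 0) (nat_lit 83730526) (nat_lit 1216) (nat_lit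 3308075187) (nat_lit 533) (nat_lit 5) (nat_lit 532) (nat_lit 5) (nat_lit 548) (nat_lit 5) (nat_lit 411) (nat_lit 391) (nat_lit 338)) (XT.lf (nat_lit 0) (nat_lit 581203312) (nat_lit 1140) (nat_lit 5436609420) (nat_lit 1216) (nat_lit 1398023595) (nat_lit 518) (nat_lit 5) (nat_lit 533) (nat_lit 5) (nat_lit 534) (nat_lit 5) (nat_lit 412) (nat_lit 391) (nat_lit 337)))))) (XT.nd (nat_lit 390) (nat_lit 6004) (nat_lit 0) (XT.nd (nat_lit 156) (nat_lit 1368) (nat_lit 0) (XT.nd (nat_lit 78) (nat_lit 1216) (nat_lit 0) (XT.lf (nat_lit 0) (nat_lit 525442382) (nat_lit 1216) (nat_lit 2820553815) (nat_lit 76) (nat_lit 4119784130) (nat_lit 517) (nat_lit 5) (nat_lit 533) (nat_lit 5) (nat_lit 518) (nat_lit 5) (nat_lit 413) (nat_lit 391) (nat_lit 336)) (XT.lf (nat_lit 0) (nat_lit 1250647636) (nat_lit 1216) (nat_lit 1185916341) (nat_lit 1292) (nat_lit 5080644853) (nat_lit 501) (nat_lit 5) (nat_lit 517) (nat_lit 5) (nat_lit 518)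 (nat_lit 5) (nat_lit 414) (nat_lit 391) (nat_lit 335))) (XT.nd (nat_lit 78) (nat_lit 1368) (nat_lit 0) (XT.lf (nat_lit 0) (nat_lit 4371989766) (nat_lit 1292) (nat_lit 2165498314) (nat_lit 76) (nat_lit 1032484186) (nat_lit 501) (nat_lit 5) (nat_lit 518) (nat_lit 5) (nat_lit 502) (nat_lit 5) (nat_lit 415) (nat_lit 391) (nat_lit 334)) (XT.nd (nat_lit 78) (nat_lit 76) (nat_lit 0) (XT.lf (nat_lit 0) (nat_lit 2005657544) (nat_lit 1292) (nat_lit 4322541948) (nat_lit 1368) (nat_lit 1295977418) (nat_lit 484) (nat_lit 5) (nat_lit 501) (nat_lit 5) (nat_lit 502) (nat_lit 5) (nat_lit 416) (nat_lit 391) (nat_lit 333)) (XT.lf (nat_lit 0) (nat_lit 611733258) (nat_lit 1368) (nat_lit 1424580002) (nat_lit 76) (nat_lit 5643572885) (nat_lit 483) (nat_lit 5) (nat_lit 501) (nat_lit 5) (nat_lit 484) (nat_lit 5) (nat_lit 417) (nat_lit 391) (nat_lit 332))))) (XT.nd (nat_lit 234) (nat_lit 3192) (nat_lit 0) (XT.nd (nat_lit 78) (nat_lit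 1444) (nat_lit 0) (XT.lf (nat_lit 0) (nat_lit 2523166428) (nat_lit 1444) (nat_lit 4887153116) (nat_lit 76) (nat_lit 326586130) (nat_lit 465) (nat_lit 5) (nat_lit 484) (nat_lit 5) (nat_lit 466) (nat_lit 5) (nat_lit 418) (nat_lit 391) (nat_lit 331)) (XT.nd (nat_lit 78) (nat_lit 1444) (nat_lit 0) (XT.lf (nat_lit 0) (nat_lit 4458770190) (nat_lit 1444) (nat_lit 610274942) (nat_lit 76) (nat_lit 2726326982) (nat_lit 465) (nat_lit 5) (nat_lit 484) (nat_lit 5) (nat_lit 466) (nat_lit 5) (nat_lit 419) (nat_lit 391) (nat_lit 330)) (XT.lf (nat_lit 0) (nat_lit 3771472928) (nat_lit 1444) (nat_lit 2649662178) (nat_lit 1520) (nat_lit 1434136655) (nat_lit 446) (nat_lit 5) (nat_lit 465) (nat_lit 5) (nat_lit 466) (nat_lit 5) (nat_lit 420) (nat_lit 391) (nat_lit 329)))) (XT.nd (nat_lit 78) (nat_lit 1596) (nat_lit 0) (XT.lf (nat_lit 0) (nat_lit 303062672) (nat_lit 1520) (nat_lit 166584458) (nat_lit 1596) (nat_lit 7447282204)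 (nat_lit 425) (nat_lit 5) (nat_lit 445) (nat_lit 5) (nat_lit 446) (nat_lit 5) (nat_lit 421) (nat_lit 391) (nat_lit 328)) (XT.nd (nat_lit 78) (nat_lit 1596) (nat_lit 0) (XT.lf (nat_lit 0) (nat_lit 2399638732) (nat_lit 1596) (nat_lit 3202304962) (nat_lit 76) (nat_lit 2377563494) (nat_lit 425) (nat_lit 5) (nat_lit 446) (nat_lit 5) (nat_lit 426) (nat_lit 5) (nat_lit 422) (nat_lit 391) (nat_lit 327)) (XT.lf (nat_lit 0) (nat_lit 1282807404) (nat_lit 1596) (nat_lit 3059922166) (nat_lit 1672) (nat_lit 3701140009) (nat_lit 404) (nat_lit 5) (nat_lit 425) (nat_lit 5) (nat_lit 426) (nat_lit 5) (nat_lit 423) (nat_lit 391) (nat_lit 326))))))))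
noncomputable def xc130 : XT := (XT.nd (nat_lit 1560) (nat_lit 7220) (nat_lit 0) (XT.nd (nat_lit 780) (nat_lit 4788) (nat_lit 0) (XT.nd (nat_lit 390) (nat_lit 2736) (nat_lit 0) (XT.nd (nat_lit 156) (nat_lit 1748) (nat_lit 0) (XT.nd (nat_lit 78) (nat_lit 1748) (nat_lit 0) (XT.lf (nat_lit 0) (nat_lit 5870828506) (nat_lit 1596) (nat_lit 440899096) (nat_lit 1672) (nat_lit 1798073226) (nat_lit 404) (nat_lit 5) (nat_lit 425) (nat_lit 5) (nat_lit 426) (nat_lit 5) (nat_lit 424) (nat_lit 391) (nat_lit 325)) (XT.lf (nat_lit 0) (nat_lit 137192021) (nat_lit 1748) (nat_lit 5818362802) (nat_lit 76) (nat_lit 2221578680) (nat_lit 381) (nat_lit 5) (nat_lit 404) (nat_lit 5) (nat_lit 382) (nat_lit 5) (nat_lit 425) (nat_lit 391) (nat_lit 324))) (XT.nd (nat_lit 78) (nat_lit 1748) (nat_lit 0) (XT.lf (nat_lit 0) (nat_lit 2071635738) (nat_lit 1748) (nat_lit 1212221962) (nat_lit 76) (nat_lit 4962047656) (nat_lit 381) (nat_lit 5)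 (nat_lit 404) (nat_lit 5) (nat_lit 382) (nat_lit 5) (nat_lit 426) (nat_lit 391) (nat_lit 323)) (XT.nd (nat_lit 78) (nat_lit 0) (nat_lit 0) (XT.lf (nat_lit 0) (nat_lit 3501969737) (nat_lit 1748) (nat_lit 532675716) (nat_lit 1824) (nat_lit 4281630456) (nat_lit 358) (nat_lit 5) (nat_lit 381) (nat_lit 5) (nat_lit 382) (nat_lit 5) (nat_lit 427) (nat_lit 391) (nat_lit 322)) (XT.lf (nat_lit 0) (nat_lit 6027472886) (nat_lit 1824) (nat_lit 106318096) (nat_lit 76) (nat_lit 2254472133) (nat_lit 358) (nat_lit 5) (nat_lit 382) (nat_lit 5) (nat_lit 359) (nat_lit 5) (nat_lit 428) (nat_lit 391) (nat_lit 321))))) (XT.nd (nat_lit 156) (nat_lit 836) (nat_lit 0) (XT.nd (nat_lit 78) (nat_lit 988) (nat_lit 0) (XT.lf (nat_lit 0) (nat_lit 4724371857) (nat_lit 912) (nat_lit 3338229302) (nat_lit 988) (nat_lit 399060017) (nat_lit 346) (nat_lit 5) (nat_lit 358) (nat_lit 5) (nat_lit 359) (nat_lit 5) (nat_lit 429) (nat_lit 391) (nat_lit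 320)) (XT.lf (nat_lit 0) (nat_lit 1090365721) (nat_lit 912) (nat_lit 466773324) (nat_lit 988) (nat_lit 6979674489) (nat_lit 333) (nat_lit 5) (nat_lit 345) (nat_lit 5) (nat_lit 346) (nat_lit 5) (nat_lit 430) (nat_lit 391) (nat_lit 319))) (XT.nd (nat_lit 78) (nat_lit 836) (nat_lit 0) (XT.lf (nat_lit 0) (nat_lit 3557232669) (nat_lit 988) (nat_lit 2597112151) (nat_lit 76) (nat_lit 2458887924) (nat_lit 333) (nat_lit 5) (nat_lit 346) (nat_lit 5) (nat_lit 334) (nat_lit 5) (nat_lit 431) (nat_lit 391) (nat_lit 318)) (XT.nd (nat_lit 78) (nat_lit 0) (nat_lit 0) (XT.lf (nat_lit 0) (nat_lit 2346914840) (nat_lit 836) (nat_lit 3238230572) (nat_lit 912) (nat_lit 3106297055) (nat_lit 322) (nat_lit 5) (nat_lit 333) (nat_lit 5) (nat_lit 334) (nat_lit 5) (nat_lit 432) (nat_lit 391) (nat_lit 317)) (XT.lf (nat_lit 0) (nat_lit 7395239796) (nat_lit 836) (nat_lit 245697778) (nat_lit 912) (nat_lit 1130550496) (nat_lit 322) (nat_lit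 5) (nat_lit 333) (nat_lit 5) (nat_lit 334) (nat_lit 5) (nat_lit 433) (nat_lit 391) (nat_lit 316)))))) (XT.nd (nat_lit 390) (nat_lit 2280) (nat_lit 0) (XT.nd (nat_lit 156) (nat_lit 1596) (nat_lit 0) (XT.nd (nat_lit 78) (nat_lit 0) (nat_lit 0) (XT.lf (nat_lit 0) (nat_lit 885852169) (nat_lit 912) (nat_lit 5166947787) (nat_lit 76) (nat_lit 2799982268) (nat_lit 310) (nat_lit 5) (nat_lit 322) (nat_lit 5) (nat_lit 311) (nat_lit 5) (nat_lit 434) (nat_lit 391) (nat_lit 315)) (XT.lf (nat_lit 0) (nat_lit 2909044499) (nat_lit 912) (nat_lit 106902717) (nat_lit 76) (nat_lit 5919990657) (nat_lit 310) (nat_lit 5) (nat_lit 322) (nat_lit 5) (nat_lit 311) (nat_lit 5) (nat_lit 435) (nat_lit 391) (nat_lit 314))) (XT.nd (nat_lit 78) (nat_lit 836) (nat_lit 0) (XT.lf (nat_lit 0) (nat_lit 4977741063) (nat_lit 836) (nat_lit 3929745743) (nat_lit 76) (nat_lit 113185754) (nat_lit 300) (nat_lit 5) (nat_lit 311) (nat_lit 5) (nat_lit 301)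 (nat_lit 5) (nat_lit 436) (nat_lit 391) (nat_lit 313)) (XT.nd (nat_lit 78) (nat_lit 76) (nat_lit 0) (XT.lf (nat_lit 0) (nat_lit 1253719015) (nat_lit 760) (nat_lit 5834533525) (nat_lit 836) (nat_lit 2018856982) (nat_lit 290) (nat_lit 5) (nat_lit 300) (nat_lit 5) (nat_lit 301) (nat_lit 5) (nat_lit 437) (nat_lit 391) (nat_lit 312)) (XT.lf (nat_lit 0) (nat_lit 43413611) (nat_lit 836) (nat_lit 2631112381) (nat_lit 76) (nat_lit 6520792785) (nat_lit 289) (nat_lit 5) (nat_lit 300) (nat_lit 5) (nat_lit 290) (nat_lit 5) (nat_lit 438) (nat_lit 391) (nat_lit 311))))) (XT.nd (nat_lit 156) (nat_lit 1520) (nat_lit 0) (XT.nd (nat_lit 78) (nat_lit 0) (nat_lit 0) (XT.lf (nat_lit 0) (nat_lit 2113452487) (nat_lit 836) (nat_lit 6600930546) (nat_lit 76) (nat_lit 570786641) (nat_lit 279) (nat_lit 5) (nat_lit 290) (nat_lit 5) (nat_lit 280) (nat_lit 5) (nat_lit 439) (nat_lit 391) (nat_lit 310)) (XT.lf (nat_lit 0) (nat_lit 4233040018)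 (nat_lit 836) (nat_lit 1282512563) (nat_lit 76) (nat_lit 3861117204) (nat_lit 279) (nat_lit 5) (nat_lit 290) (nat_lit 5) (nat_lit 280) (nat_lit 5) (nat_lit 440) (nat_lit 391) (nat_lit 309))) (XT.nd (nat_lit 78) (nat_lit 760) (nat_lit 0) (XT.lf (nat_lit 0) (nat_lit 4167736185) (nat_lit 760) (nat_lit 2227541554) (nat_lit 836) (nat_lit 3074731847) (nat_lit 269) (nat_lit 5) (nat_lit 279) (nat_lit 5) (nat_lit 280) (nat_lit 5) (nat_lit 441) (nat_lit 391) (nat_lit 308)) (XT.nd (nat_lit 78) (nat_lit 76) (nat_lit 0) (XT.lf (nat_lit 0) (nat_lit 144320762) (nat_lit 684) (nat_lit 8446871455) (nat_lit 760) (nat_lit 974229892) (nat_lit 260) (nat_lit 5) (nat_lit 269) (nat_lit 5) (nat_lit 270) (nat_lit 5) (nat_lit 442) (nat_lit 391) (nat_lit 307)) (XT.lf (nat_lit 0) (nat_lit 1177189354) (nat_lit 760) (nat_lit 3942586755) (nat_lit 76) (nat_lit 4542344477) (nat_lit 259) (nat_lit 5) (nat_lit 269) (nat_lit 5) (nat_lit 260)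 (nat_lit 5) (nat_lit 443) (nat_lit 391) (nat_lit 306))))))) (XT.nd (nat_lit 780) (nat_lit 3344) (nat_lit 0) (XT.nd (nat_lit 390) (nat_lit 1824) (nat_lit 0) (XT.nd (nat_lit 156) (nat_lit 1368) (nat_lit 0) (XT.nd (nat_lit 78) (nat_lit 0) (nat_lit 0) (XT.lf (nat_lit 0) (nat_lit 1631320567) (nat_lit 684) (nat_lit 1712052614) (nat_lit 760) (nat_lit 6417569161) (nat_lit 250) (nat_lit 5) (nat_lit 259) (nat_lit 5) (nat_lit 260) (nat_lit 5) (nat_lit 444) (nat_lit 391) (nat_lit 305)) (XT.lf (nat_lit 0) (nat_lit 5565438238) (nat_lit 760) (nat_lit 2532120183) (nat_lit 76) (nat_lit 1763944418) (nat_lit 250) (nat_lit 5) (nat_lit 260) (nat_lit 5) (nat_lit 251) (nat_lit 5) (nat_lit 445) (nat_lit 391) (nat_lit 304))) (XT.nd (nat_lit 78) (nat_lit 760) (nat_lit 0) (XT.lf (nat_lit 0) (nat_lit 3178830862) (nat_lit 608) (nat_lit 4660065012) (nat_lit 684) (nat_lit 2125052837) (nat_lit 242) (nat_lit 5) (nat_lit 250) (nat_lit 5)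 (nat_lit 251) (nat_lit 5) (nat_lit 446) (nat_lit 391) (nat_lit 303)) (XT.nd (nat_lit 78) (nat_lit 684) (nat_lit 0) (XT.lf (nat_lit 0) (nat_lit 80413548) (nat_lit 684) (nat_lit 1059479172) (nat_lit 76) (nat_lit 8928707723) (nat_lit 241) (nat_lit 5) (nat_lit 250) (nat_lit 5) (nat_lit 242) (nat_lit 5) (nat_lit 447) (nat_lit 391) (nat_lit 302)) (XT.lf (nat_lit 0) (nat_lit 2324508868) (nat_lit 760) (nat_lit 5389997510) (nat_lit 76) (nat_lit 2460110850) (nat_lit 232) (nat_lit 5) (nat_lit 242) (nat_lit 5) (nat_lit 233) (nat_lit 5) (nat_lit 448) (nat_lit 391) (nat_lit 301))))) (XT.nd (nat_lit 156) (nat_lit 1216) (nat_lit 0) (XT.nd (nat_lit 78) (nat_lit 0) (nat_lit 0) (XT.lf (nat_lit 0) (nat_lit 446896125) (nat_lit 608) (nat_lit 4160055970) (nat_lit 684) (nat_lit 5675945121) (nat_lit 224) (nat_lit 5) (nat_lit 232) (nat_lit 5) (nat_lit 233) (nat_lit 5) (nat_lit 449) (nat_lit 391) (nat_lit 300)) (XT.lf (nat_lit 0)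 (nat_lit 6445060502) (nat_lit 608) (nat_lit 502300276) (nat_lit 684) (nat_lit 3445747643) (nat_lit 224) (nat_lit 5) (nat_lit 232) (nat_lit 5) (nat_lit 233) (nat_lit 5) (nat_lit 450) (nat_lit 391) (nat_lit 299))) (XT.nd (nat_lit 78) (nat_lit 608) (nat_lit 0) (XT.lf (nat_lit 0) (nat_lit 2034970834) (nat_lit 608) (nat_lit 7310366271) (nat_lit 684) (nat_lit 1159983269) (nat_lit 216) (nat_lit 5) (nat_lit 224) (nat_lit 5) (nat_lit 225) (nat_lit 5) (nat_lit 451) (nat_lit 391) (nat_lit 298)) (XT.nd (nat_lit 78) (nat_lit 532) (nat_lit 0) (XT.lf (nat_lit 0) (nat_lit 1162823478) (nat_lit 684) (nat_lit 2467742173) (nat_lit 76) (nat_lit 6988936223) (nat_lit 215) (nat_lit 5) (nat_lit 224) (nat_lit 5) (nat_lit 216) (nat_lit 5) (nat_lit 452) (nat_lit 391) (nat_lit 297)) (XT.lf (nat_lit 0) (nat_lit 3518505131) (nat_lit 608) (nat_lit 7069438932) (nat_lit 76) (nat_lit 147841611) (nat_lit 208) (nat_lit 5) (nat_lit 216) (nat_lit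 5) (nat_lit 209) (nat_lit 5) (nat_lit 453) (nat_lit 391) (nat_lit 296)))))) (XT.nd (nat_lit 390) (nat_lit 1596) (nat_lit 0) (XT.nd (nat_lit 156) (nat_lit 1140) (nat_lit 0) (XT.nd (nat_lit 78) (nat_lit 608) (nat_lit 0) (XT.lf (nat_lit 0) (nat_lit 5939399861) (nat_lit 608) (nat_lit 949887356) (nat_lit 76) (nat_lit 3964756767) (nat_lit 208) (nat_lit 5) (nat_lit 216) (nat_lit 5) (nat_lit 209) (nat_lit 5) (nat_lit 454) (nat_lit 391) (nat_lit 295)) (XT.lf (nat_lit 0) (nat_lit 5334331075) (nat_lit 608) (nat_lit 3086845274) (nat_lit 684) (nat_lit 2553252442) (nat_lit 200) (nat_lit 5) (nat_lit 208) (nat_lit 5) (nat_lit 209) (nat_lit 5) (nat_lit 455) (nat_lit 391) (nat_lit 294))) (XT.nd (nat_lit 78) (nat_lit 608) (nat_lit 0) (XT.lf (nat_lit 0) (nat_lit 635250210) (nat_lit 532) (nat_lit 10311068676) (nat_lit 608) (nat_lit 151038201) (nat_lit 193) (nat_lit 5) (nat_lit 200) (nat_lit 5) (nat_lit 201) (nat_lit 5) (nat_lit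 456) (nat_lit 391) (nat_lit 293)) (XT.nd (nat_lit 78) (nat_lit 532) (nat_lit 0) (XT.lf (nat_lit 0) (nat_lit 2305753274) (nat_lit 608) (nat_lit 4173082196) (nat_lit 76) (nat_lit 4742886163) (nat_lit 192) (nat_lit 5) (nat_lit 200) (nat_lit 5) (nat_lit 193) (nat_lit 5) (nat_lit 457) (nat_lit 391) (nat_lit 292)) (XT.lf (nat_lit 0) (nat_lit 2242653254) (nat_lit 532) (nat_lit 2560142390) (nat_lit 608) (nat_lit 6545904911) (nat_lit 185) (nat_lit 5) (nat_lit 192) (nat_lit 5) (nat_lit 193) (nat_lit 5) (nat_lit 458) (nat_lit 391) (nat_lit 291))))) (XT.nd (nat_lit 234) (nat_lit 988) (nat_lit 0) (XT.nd (nat_lit 78) (nat_lit 608) (nat_lit 0) (XT.lf (nat_lit 0) (nat_lit 7366075262) (nat_lit 608) (nat_lit 2671598258) (nat_lit 76) (nat_lit 1440229218) (nat_lit 185) (nat_lit 5) (nat_lit 193) (nat_lit 5) (nat_lit 186) (nat_lit 5) (nat_lit 459) (nat_lit 391) (nat_lit 290)) (XT.nd (nat_lit 78) (nat_lit 76) (nat_lit 0) (XT.lf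 (nat_lit 0) (nat_lit 3898563586) (nat_lit 532) (nat_lit 6103517548) (nat_lit 608) (nat_lit 1607188037) (nat_lit 178) (nat_lit 5) (nat_lit 185) (nat_lit 5) (nat_lit 186) (nat_lit 5) (nat_lit 460) (nat_lit 391) (nat_lit 289)) (XT.lf (nat_lit 0) (nat_lit 932445023) (nat_lit 608) (nat_lit 1140090023) (nat_lit 76) (nat_lit 9670667342) (nat_lit 177) (nat_lit 5) (nat_lit 185) (nat_lit 5) (nat_lit 178) (nat_lit 5) (nat_lit 461) (nat_lit 391) (nat_lit 288)))) (XT.nd (nat_lit 78) (nat_lit 456) (nat_lit 0) (XT.lf (nat_lit 0) (nat_lit 3530912751) (nat_lit 608) (nat_lit 6294808533) (nat_lit 76) (nat_lit 2053298147) (nat_lit 170) (nat_lit 5) (nat_lit 178) (nat_lit 5) (nat_lit 171) (nat_lit 5) (nat_lit 462) (nat_lit 391) (nat_lit 287)) (XT.nd (nat_lit 78) (nat_lit 0) (nat_lit 0) (XT.lf (nat_lit 0) (nat_lit 405680845) (nat_lit 456) (nat_lit 5779601305) (nat_lit 532) (nat_lit 5832200722) (nat_lit 164) (nat_lit 5) (nat_lit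 170) (nat_lit 5) (nat_lit 171) (nat_lit 5) (nat_lit 463) (nat_lit 391) (nat_lit 286)) (XT.lf (nat_lit 0) (nat_lit 7298768953) (nat_lit 456) (nat_lit 1616304229) (nat_lit 532) (nat_lit 3243204248) (nat_lit 164) (nat_lit 5) (nat_lit 170) (nat_lit 5) (nat_lit 171) (nat_lit 5) (nat_lit 464) (nat_lit 391) (nat_lit 285))))))))
noncomputable def xc131 : XT := (XT.nd (nat_lit 1560) (nat_lit 2736) (nat_lit 0) (XT.nd (nat_lit 780) (nat_lit 2052) (nat_lit 0) (XT.nd (nat_lit 390) (nat_lit 1292) (nat_lit 0) (XT.nd (nat_lit 156) (nat_lit 912) (nat_lit 0) (XT.nd (nat_lit 78) (nat_lit 76) (nat_lit 0) (XT.lf (nat_lit 0) (nat_lit 2010552544) (nat_lit 456) (nat_lit 9699478335) (nat_lit 532) (nat_lit 591653950) (nat_lit 158) (nat_lit 5) (nat_lit 164) (nat_lit 5) (nat_lit 165) (nat_lit 5) (nat_lit 465) (nat_lit 391) (nat_lit 284)) (XT.lf (nat_lit 0) (nat_lit 2109261305) (nat_lit 532) (nat_lit 3414721912) (nat_lit 76) (nat_lit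 6923229922) (nat_lit 157) (nat_lit 5) (nat_lit 164) (nat_lit 5) (nat_lit 158) (nat_lit 5) (nat_lit 466) (nat_lit 391) (nat_lit 283))) (XT.nd (nat_lit 78) (nat_lit 456) (nat_lit 0) (XT.lf (nat_lit 0) (nat_lit 3616591512) (nat_lit 456) (nat_lit 1244067426) (nat_lit 532) (nat_lit 7734835017) (nat_lit 151) (nat_lit 5) (nat_lit 157) (nat_lit 5) (nat_lit 158) (nat_lit 5) (nat_lit 467) (nat_lit 391) (nat_lit 282)) (XT.nd (nat_lit 78) (nat_lit 456) (nat_lit 0) (XT.lf (nat_lit 0) (nat_lit 7691475014) (nat_lit 532) (nat_lit 1958188639) (nat_lit 76) (nat_lit 3096596654) (nat_lit 151) (nat_lit 5) (nat_lit 158) (nat_lit 5) (nat_lit 152) (nat_lit 5) (nat_lit 468) (nat_lit 391) (nat_lit 281)) (XT.lf (nat_lit 0) (nat_lit 5237601544) (nat_lit 456) (nat_lit 5364979779) (nat_lit 532) (nat_lit 2296994761) (nat_lit 145) (nat_lit 5) (nat_lit 151) (nat_lit 5) (nat_lit 152) (nat_lit 5) (nat_lit 469) (nat_lit 391) (nat_lit 280)))))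 (XT.nd (nat_lit 156) (nat_lit 836) (nat_lit 0) (XT.nd (nat_lit 78) (nat_lit 380) (nat_lit 0) (XT.lf (nat_lit 0) (nat_lit 503910133) (nat_lit 532) (nat_lit 481155611) (nat_lit 76) (nat_lit 12070938212) (nat_lit 144) (nat_lit 5) (nat_lit 151) (nat_lit 5) (nat_lit 145) (nat_lit 5) (nat_lit 470) (nat_lit 391) (nat_lit 279)) (XT.lf (nat_lit 0) (nat_lit 3379680915) (nat_lit 456) (nat_lit 6344586683) (nat_lit 76) (nat_lit 3490004172) (nat_lit 139) (nat_lit 5) (nat_lit 145) (nat_lit 5) (nat_lit 140) (nat_lit 5) (nat_lit 471) (nat_lit 391) (nat_lit 278))) (XT.nd (nat_lit 78) (nat_lit 380) (nat_lit 0) (XT.lf (nat_lit 0) (nat_lit 979202613) (nat_lit 456) (nat_lit 5331901537) (nat_lit 532) (nat_lit 7064645051) (nat_lit 133) (nat_lit 5) (nat_lit 139) (nat_lit 5) (nat_lit 140) (nat_lit 5) (nat_lit 472) (nat_lit 391) (nat_lit 277)) (XT.nd (nat_lit 78) (nat_lit 380) (nat_lit 0) (XT.lf (nat_lit 0) (nat_lit 8510118895) (nat_lit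 456) (nat_lit 815806307) (nat_lit 532) (nat_lit 4214042455) (nat_lit 133) (nat_lit 5) (nat_lit 139) (nat_lit 5) (nat_lit 140) (nat_lit 5) (nat_lit 473) (nat_lit 391) (nat_lit 276)) (XT.lf (nat_lit 0) (nat_lit 2466761785) (nat_lit 380) (nat_lit 9957402851) (nat_lit 456) (nat_lit 1282850135) (nat_lit 128) (nat_lit 5) (nat_lit 133) (nat_lit 5) (nat_lit 134) (nat_lit 5) (nat_lit 474) (nat_lit 391) (nat_lit 275)))))) (XT.nd (nat_lit 390) (nat_lit 1216) (nat_lit 0) (XT.nd (nat_lit 156) (nat_lit 380) (nat_lit 0) (XT.nd (nat_lit 78) (nat_lit 380) (nat_lit 0) (XT.lf (nat_lit 0) (nat_lit 1706512667) (nat_lit 456) (nat_lit 3737186142) (nat_lit 76) (nat_lit 8433050154) (nat_lit 127) (nat_lit 5) (nat_lit 133) (nat_lit 5) (nat_lit 128) (nat_lit 5) (nat_lit 475) (nat_lit 391) (nat_lit 274)) (XT.lf (nat_lit 0) (nat_lit 3934305400) (nat_lit 380) (nat_lit 812636855) (nat_lit 456) (nat_lit 9302603194) (nat_lit 122) (nat_lit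 5) (nat_lit 127) (nat_lit 5) (nat_lit 128) (nat_lit 5) (nat_lit 476) (nat_lit 391) (nat_lit 273))) (XT.nd (nat_lit 78) (nat_lit 380) (nat_lit 0) (XT.lf (nat_lit 0) (nat_lit 7881840947) (nat_lit 456) (nat_lit 2465842568) (nat_lit 76) (nat_lit 3877447355) (nat_lit 122) (nat_lit 5) (nat_lit 128) (nat_lit 5) (nat_lit 123) (nat_lit 5) (nat_lit 477) (nat_lit 391) (nat_lit 272)) (XT.nd (nat_lit 78) (nat_lit 0) (nat_lit 0) (XT.lf (nat_lit 0) (nat_lit 5377300721) (nat_lit 380) (nat_lit 5725787314) (nat_lit 456) (nat_lit 3300673050) (nat_lit 117) (nat_lit 5) (nat_lit 122) (nat_lit 5) (nat_lit 123) (nat_lit 5) (nat_lit 478) (nat_lit 391) (nat_lit 271)) (XT.lf (nat_lit 0) (nat_lit 13386507743) (nat_lit 380) (nat_lit 1002324224) (nat_lit 456) (nat_lit 197136474) (nat_lit 117) (nat_lit 5) (nat_lit 122) (nat_lit 5) (nat_lit 123) (nat_lit 5) (nat_lit 479) (nat_lit 391) (nat_lit 270))))) (XT.nd (nat_lit 156) (nat_lit 760)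 (nat_lit 0) (XT.nd (nat_lit 78) (nat_lit 0) (nat_lit 0) (XT.lf (nat_lit 0) (nat_lit 2982766246) (nat_lit 456) (nat_lit 7965606691) (nat_lit 76) (nat_lit 3822002735) (nat_lit 111) (nat_lit 5) (nat_lit 117) (nat_lit 5) (nat_lit 112) (nat_lit 5) (nat_lit 480) (nat_lit 391) (nat_lit 269)) (XT.lf (nat_lit 0) (nat_lit 6222219381) (nat_lit 456) (nat_lit 5055607) (nat_lit 76) (nat_lit 8731203788) (nat_lit 111) (nat_lit 5) (nat_lit 117) (nat_lit 5) (nat_lit 112) (nat_lit 5) (nat_lit 481) (nat_lit 391) (nat_lit 268))) (XT.nd (nat_lit 78) (nat_lit 456) (nat_lit 0) (XT.lf (nat_lit 0) (nat_lit 8198614122) (nat_lit 304) (nat_lit 1365244301) (nat_lit 380) (nat_lit 5585743103) (nat_lit 107) (nat_lit 5) (nat_lit 111) (nat_lit 5) (nat_lit 112) (nat_lit 5) (nat_lit 482) (nat_lit 391) (nat_lit 267)) (XT.nd (nat_lit 78) (nat_lit 76) (nat_lit 0) (XT.lf (nat_lit 0) (nat_lit 1190425682) (nat_lit 380) (nat_lit 11797276127) (nat_lit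 456) (nat_lit 2356542901) (nat_lit 102) (nat_lit 5) (nat_lit 107) (nat_lit 5) (nat_lit 108) (nat_lit 5) (nat_lit 483) (nat_lit 391) (nat_lit 266)) (XT.lf (nat_lit 0) (nat_lit 965264770) (nat_lit 456) (nat_lit 5992182919) (nat_lit 76) (nat_lit 8584410256) (nat_lit 101) (nat_lit 5) (nat_lit 107) (nat_lit 5) (nat_lit 102) (nat_lit 5) (nat_lit 484) (nat_lit 391) (nat_lit 265))))))) (XT.nd (nat_lit 780) (nat_lit 1140) (nat_lit 0) (XT.nd (nat_lit 390) (nat_lit 608) (nat_lit 0) (XT.nd (nat_lit 156) (nat_lit 684) (nat_lit 0) (XT.nd (nat_lit 78) (nat_lit 0) (nat_lit 0) (XT.lf (nat_lit 0) (nat_lit 2324239844) (nat_lit 304) (nat_lit 1997462594) (nat_lit 380) (nat_lit 11421419610) (nat_lit 97) (nat_lit 5) (nat_lit 101) (nat_lit 5) (nat_lit 102) (nat_lit 5) (nat_lit 485) (nat_lit 391) (nat_lit 264)) (XT.lf (nat_lit 0) (nat_lit 7790351921) (nat_lit 380) (nat_lit 5102962593) (nat_lit 76) (nat_lit 3054200259) (nat_lit 97)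 (nat_lit 5) (nat_lit 102) (nat_lit 5) (nat_lit 98) (nat_lit 5) (nat_lit 486) (nat_lit 391) (nat_lit 263))) (XT.nd (nat_lit 78) (nat_lit 380) (nat_lit 0) (XT.lf (nat_lit 0) (nat_lit 3387507276) (nat_lit 304) (nat_lit 7961116083) (nat_lit 380) (nat_lit 4806971915) (nat_lit 93) (nat_lit 5) (nat_lit 97) (nat_lit 5) (nat_lit 98) (nat_lit 5) (nat_lit 487) (nat_lit 391) (nat_lit 262)) (XT.nd (nat_lit 78) (nat_lit 380) (nat_lit 0) (XT.lf (nat_lit 0) (nat_lit 12094141976) (nat_lit 304) (nat_lit 2903334061) (nat_lit 380) (nat_lit 1369977837) (nat_lit 93) (nat_lit 5) (nat_lit 97) (nat_lit 5) (nat_lit 98) (nat_lit 5) (nat_lit 488) (nat_lit 391) (nat_lit 261)) (XT.lf (nat_lit 0) (nat_lit 2136633140) (nat_lit 380) (nat_lit 12185072330) (nat_lit 76) (nat_lit 2260993702) (nat_lit 88) (nat_lit 5) (nat_lit 93) (nat_lit 5) (nat_lit 89) (nat_lit 5) (nat_lit 489) (nat_lit 391) (nat_lit 260))))) (XT.nd (nat_lit 156) (nat_lit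 304) (nat_lit 0) (XT.nd (nat_lit 78) (nat_lit 304) (nat_lit 0) (XT.lf (nat_lit 0) (nat_lit 5728595016) (nat_lit 380) (nat_lit 3552918485) (nat_lit 76) (nat_lit 7519888039) (nat_lit 88) (nat_lit 5) (nat_lit 93) (nat_lit 5) (nat_lit 89) (nat_lit 5) (nat_lit 490) (nat_lit 391) (nat_lit 259)) (XT.lf (nat_lit 0) (nat_lit 5299159362) (nat_lit 304) (nat_lit 4113379753) (nat_lit 380) (nat_lit 7611540420) (nat_lit 84) (nat_lit 5) (nat_lit 88) (nat_lit 5) (nat_lit 89) (nat_lit 5) (nat_lit 491) (nat_lit 391) (nat_lit 258))) (XT.nd (nat_lit 78) (nat_lit 304) (nat_lit 0) (XT.lf (nat_lit 0) (nat_lit 13187503295) (nat_lit 380) (nat_lit 2904279509) (nat_lit 76) (nat_lit 1159085813) (nat_lit 84) (nat_lit 5) (nat_lit 89) (nat_lit 5) (nat_lit 85) (nat_lit 5) (nat_lit 492) (nat_lit 391) (nat_lit 257)) (XT.nd (nat_lit 78) (nat_lit 76) (nat_lit 0) (XT.lf (nat_lit 0) (nat_lit 6123979929) (nat_lit 228) (nat_lit 10967088782) (nat_lit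 304) (nat_lit 390066998) (nat_lit 81) (nat_lit 5) (nat_lit 84) (nat_lit 5) (nat_lit 85) (nat_lit 5) (nat_lit 493) (nat_lit 391) (nat_lit 256)) (XT.lf (nat_lit 0) (nat_lit 3318428179) (nat_lit 304) (nat_lit 2387283173) (nat_lit 76) (nat_lit 12009749924) (nat_lit 80) (nat_lit 5) (nat_lit 84) (nat_lit 5) (nat_lit 81) (nat_lit 5) (nat_lit 494) (nat_lit 391) (nat_lit 255)))))) (XT.nd (nat_lit 390) (nat_lit 228) (nat_lit 0) (XT.nd (nat_lit 156) (nat_lit 608) (nat_lit 0) (XT.nd (nat_lit 78) (nat_lit 0) (nat_lit 0) (XT.lf (nat_lit 0) (nat_lit 6827462083) (nat_lit 304) (nat_lit 299149577) (nat_lit 380) (nat_lit 10827199319) (nat_lit 76) (nat_lit 5) (nat_lit 80) (nat_lit 5) (nat_lit 81) (nat_lit 5) (nat_lit 495) (nat_lit 391) (nat_lit 254)) (XT.lf (nat_lit 0) (nat_lit 11047432470) (nat_lit 380) (nat_lit 1993279325) (nat_lit 76) (nat_lit 5155490349) (nat_lit 76) (nat_lit 5) (nat_lit 81) (nat_lit 5) (nat_lit 77) (nat_lit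 5) (nat_lit 496) (nat_lit 391) (nat_lit 253))) (XT.nd (nat_lit 78) (nat_lit 380) (nat_lit 0) (XT.lf (nat_lit 0) (nat_lit 7396331910) (nat_lit 228) (nat_lit 7687090678) (nat_lit 304) (nat_lit 3359287354) (nat_lit 73) (nat_lit 5) (nat_lit 76) (nat_lit 5) (nat_lit 77) (nat_lit 5) (nat_lit 497) (nat_lit 391) (nat_lit 252)) (XT.nd (nat_lit 78) (nat_lit 304) (nat_lit 0) (XT.lf (nat_lit 0) (nat_lit 499595710) (nat_lit 304) (nat_lit 1717682445) (nat_lit 76) (nat_lit 16476802805) (nat_lit 72) (nat_lit 5) (nat_lit 76) (nat_lit 5) (nat_lit 73) (nat_lit 5) (nat_lit 498) (nat_lit 391) (nat_lit 251)) (XT.lf (nat_lit 0) (nat_lit 4451038724) (nat_lit 380) (nat_lit 11113912737) (nat_lit 76) (nat_lit 3383880219) (nat_lit 68) (nat_lit 5) (nat_lit 73) (nat_lit 5) (nat_lit 69) (nat_lit 5) (nat_lit 499) (nat_lit 391) (nat_lit 250))))) (XT.nd (nat_lit 50934) (nat_lit 0) (nat_lit 39292) (XT.nd (nat_lit 78) (nat_lit 228) (nat_lit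 0) (XT.lf (nat_lit 0) (nat_lit 8494908785) (nat_lit 380) (nat_lit 1642192028) (nat_lit 76) (nat_lit 9071312209) (nat_lit 68) (nat_lit 5) (nat_lit 73) (nat_lit 5) (nat_lit 69) (nat_lit 5) (nat_lit 500) (nat_lit 391) (nat_lit 249)) (XT.nd (nat_lit 78) (nat_lit 0) (nat_lit 0) (XT.lf (nat_lit 0) (nat_lit 8104827158) (nat_lit 228) (nat_lit 4554815059) (nat_lit 304) (nat_lit 6812747553) (nat_lit 65) (nat_lit 5) (nat_lit 68) (nat_lit 5) (nat_lit 69) (nat_lit 5) (nat_lit 501) (nat_lit 391) (nat_lit 248)) (XT.lf (nat_lit 0) (nat_lit 16913588708) (nat_lit 304) (nat_lit 1700348572) (nat_lit 76) (nat_lit 1127593839) (nat_lit 65) (nat_lit 5) (nat_lit 69) (nat_lit 5) (nat_lit 66) (nat_lit 5) (nat_lit 502) (nat_lit 391) (nat_lit 247)))) (XT.nd (nat_lit 78) (nat_lit 836) (nat_lit 0) (XT.lf (nat_lit 0) (nat_lit 1303923425) (nat_lit 836) (nat_lit 1028510627) (nat_lit 836) (nat_lit 1028510627) (nat_lit 593) (nat_lit 3) (nat_lit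 604) (nat_lit 3) (nat_lit 604) (nat_lit 5) (nat_lit 392) (nat_lit 392) (nat_lit 356)) (XT.nd (nat_lit 78) (nat_lit 836) (nat_lit 0) (XT.lf (nat_lit 76) (nat_lit 1126750720) (nat_lit 0) (nat_lit 3583525932) (nat_lit 836) (nat_lit 2035518396) (nat_lit 594) (nat_lit 5) (nat_lit 593) (nat_lit 3) (nat_lit 604) (nat_lit 5) (nat_lit 393) (nat_lit 392) (nat_lit 355)) (XT.lf (nat_lit 0) (nat_lit 42501418) (nat_lit 836) (nat_lit 2397306781) (nat_lit 912) (nat_lit 4331224914) (nat_lit 582) (nat_lit 5) (nat_lit 593) (nat_lit 3) (nat_lit 594) (nat_lit 5) (nat_lit 394) (nat_lit 392) (nat_lit 354))))))))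
noncomputable def xc132 : XT := (XT.nd (nat_lit 1560) (nat_lit 15732) (nat_lit 0) (XT.nd (nat_lit 780) (nat_lit 3192) (nat_lit 0) (XT.nd (nat_lit 390) (nat_lit 912) (nat_lit 0) (XT.nd (nat_lit 156) (nat_lit 836) (nat_lit 0) (XT.nd (nat_lit 78) (nat_lit 0) (nat_lit 76) (XT.lf (nat_lit 76) (nat_lit 858363378) (nat_lit 0) (nat_lit 1228276242) (nat_lit 912) (nat_lit 4710875985) (nat_lit 583) (nat_lit 5) (nat_lit 582) (nat_lit 5) (nat_lit 594) (nat_lit 5) (nat_lit 395) (nat_lit 392) (nat_lit 353)) (XT.lf (nat_lit 0) (nat_lit 4135151310) (nat_lit 836) (nat_lit 2642075055) (nat_lit 912) (nat_lit 48075717) (nat_lit 583) (nat_lit 5) (nat_lit 594) (nat_lit 5) (nat_lit 595) (nat_lit 5) (nat_lit 396) (nat_lit 392) (nat_lit 352))) (XT.nd (nat_lit 78) (nat_lit 912) (nat_lit 0) (XT.lf (nat_lit 76) (nat_lit 693118406) (nat_lit 0) (nat_lit 5492432025) (nat_lit 912) (nat_lit 668918796) (nat_lit 584) (nat_lit 5) (nat_lit 583)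 (nat_lit 5) (nat_lit 595) (nat_lit 5) (nat_lit 397) (nat_lit 392) (nat_lit 351)) (XT.nd (nat_lit 78) (nat_lit 0) (nat_lit 0) (XT.lf (nat_lit 0) (nat_lit 1341051210) (nat_lit 912) (nat_lit 2791510276) (nat_lit 988) (nat_lit 2752187395) (nat_lit 571) (nat_lit 5) (nat_lit 583) (nat_lit 5) (nat_lit 584) (nat_lit 5) (nat_lit 398) (nat_lit 392) (nat_lit 350)) (XT.lf (nat_lit 76) (nat_lit 620697597) (nat_lit 0) (nat_lit 2715342069) (nat_lit 988) (nat_lit 3580471299) (nat_lit 572) (nat_lit 5) (nat_lit 571) (nat_lit 5) (nat_lit 584) (nat_lit 5) (nat_lit 399) (nat_lit 392) (nat_lit 349))))) (XT.nd (nat_lit 156) (nat_lit 0) (nat_lit 0) (XT.nd (nat_lit 78) (nat_lit 912) (nat_lit 0) (XT.lf (nat_lit 76) (nat_lit 4110438247) (nat_lit 0) (nat_lit 1229759834) (nat_lit 988) (nat_lit 1609364796) (nat_lit 572) (nat_lit 5) (nat_lit 571) (nat_lit 5) (nat_lit 584) (nat_lit 5) (nat_lit 400) (nat_lit 392) (nat_lit 348)) (XT.lf (nat_lit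 0) (nat_lit 353392801) (nat_lit 988) (nat_lit 6322059134) (nat_lit 1064) (nat_lit 308660427) (nat_lit 559) (nat_lit 5) (nat_lit 572) (nat_lit 5) (nat_lit 573) (nat_lit 5) (nat_lit 401) (nat_lit 392) (nat_lit 347))) (XT.nd (nat_lit 78) (nat_lit 0) (nat_lit 0) (XT.lf (nat_lit 0) (nat_lit 2313246399) (nat_lit 988) (nat_lit 2795777041) (nat_lit 1064) (nat_lit 1910566517) (nat_lit 559) (nat_lit 5) (nat_lit 572) (nat_lit 5) (nat_lit 573) (nat_lit 5) (nat_lit 402) (nat_lit 392) (nat_lit 346)) (XT.nd (nat_lit 78) (nat_lit 0) (nat_lit 0) (XT.lf (nat_lit 76) (nat_lit 782254168) (nat_lit 0) (nat_lit 3488109852) (nat_lit 1064) (nat_lit 2786288686) (nat_lit 560) (nat_lit 5) (nat_lit 559) (nat_lit 5) (nat_lit 573) (nat_lit 5) (nat_lit 403) (nat_lit 392) (nat_lit 345)) (XT.lf (nat_lit 76) (nat_lit 4440898591) (nat_lit 0) (nat_lit 1798209100) (nat_lit 1064) (nat_lit 855935563) (nat_lit 560) (nat_lit 5) (nat_lit 559) (nat_lit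 5) (nat_lit 573) (nat_lit 5) (nat_lit 404) (nat_lit 392) (nat_lit 344)))))) (XT.nd (nat_lit 390) (nat_lit 1140) (nat_lit 0) (XT.nd (nat_lit 156) (nat_lit 988) (nat_lit 0) (XT.nd (nat_lit 78) (nat_lit 0) (nat_lit 76) (XT.lf (nat_lit 76) (nat_lit 1015687181) (nat_lit 0) (nat_lit 43628893) (nat_lit 1140) (nat_lit 6075558042) (nat_lit 546) (nat_lit 5) (nat_lit 545) (nat_lit 5) (nat_lit 560) (nat_lit 5) (nat_lit 405) (nat_lit 392) (nat_lit 343)) (XT.lf (nat_lit 0) (nat_lit 2985797313) (nat_lit 1064) (nat_lit 2427145863) (nat_lit 1140) (nat_lit 1762791683) (nat_lit 546) (nat_lit 5) (nat_lit 560) (nat_lit 5) (nat_lit 561) (nat_lit 5) (nat_lit 406) (nat_lit 392) (nat_lit 342))) (XT.nd (nat_lit 78) (nat_lit 1064) (nat_lit 0) (XT.lf (nat_lit 76) (nat_lit 1326659308) (nat_lit 0) (nat_lit 3589041256) (nat_lit 1140) (nat_lit 2302447864) (nat_lit 547) (nat_lit 5) (nat_lit 546) (nat_lit 5) (nat_lit 561) (nat_lit 5) (nat_lit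 407) (nat_lit 392) (nat_lit 341)) (XT.nd (nat_lit 78) (nat_lit 1064) (nat_lit 0) (XT.lf (nat_lit 76) (nat_lit 5159446043) (nat_lit 0) (nat_lit 1697707857) (nat_lit 1140) (nat_lit 404830134) (nat_lit 547) (nat_lit 5) (nat_lit 546) (nat_lit 5) (nat_lit 561) (nat_lit 5) (nat_lit 408) (nat_lit 392) (nat_lit 340)) (XT.lf (nat_lit 0) (nat_lit 1480935298) (nat_lit 1140) (nat_lit 5562763960) (nat_lit 1216) (nat_lit 263424426) (nat_lit 532) (nat_lit 5) (nat_lit 547) (nat_lit 5) (nat_lit 548) (nat_lit 5) (nat_lit 409) (nat_lit 392) (nat_lit 339))))) (XT.nd (nat_lit 156) (nat_lit 1140) (nat_lit 0) (XT.nd (nat_lit 78) (nat_lit 0) (nat_lit 0) (XT.lf (nat_lit 0) (nat_lit 3382385701) (nat_lit 1140) (nat_lit 1700001842) (nat_lit 1216) (nat_lit 2271088171) (nat_lit 532) (nat_lit 5) (nat_lit 547) (nat_lit 5) (nat_lit 548) (nat_lit 5) (nat_lit 410) (nat_lit 392) (nat_lit 338)) (XT.lf (nat_lit 76) (nat_lit 2240183953) (nat_lit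 0) (nat_lit 3054990230) (nat_lit 1216) (nat_lit 2106144725) (nat_lit 533) (nat_lit 5) (nat_lit 532) (nat_lit 5) (nat_lit 548) (nat_lit 5) (nat_lit 411) (nat_lit 392) (nat_lit 337))) (XT.nd (nat_lit 78) (nat_lit 1140) (nat_lit 0) (XT.lf (nat_lit 76) (nat_lit 6253197642) (nat_lit 0) (nat_lit 963813138) (nat_lit 1216) (nat_lit 233722051) (nat_lit 533) (nat_lit 5) (nat_lit 532) (nat_lit 5) (nat_lit 548) (nat_lit 5) (nat_lit 412) (nat_lit 392) (nat_lit 336)) (XT.nd (nat_lit 78) (nat_lit 0) (nat_lit 0) (XT.lf (nat_lit 0) (nat_lit 1640368809) (nat_lit 1216) (nat_lit 4666512199) (nat_lit 76) (nat_lit 1194340874) (nat_lit 517) (nat_lit 5) (nat_lit 533) (nat_lit 5) (nat_lit 518) (nat_lit 5) (nat_lit 413) (nat_lit 392) (nat_lit 335)) (XT.lf (nat_lit 0) (nat_lit 3523844210) (nat_lit 1216) (nat_lit 626420731) (nat_lit 76) (nat_lit 3402952227) (nat_lit 517) (nat_lit 5) (nat_lit 533) (nat_lit 5) (nat_lit 518) (nat_lit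 5) (nat_lit 414) (nat_lit 392) (nat_lit 334))))))) (XT.nd (nat_lit 780) (nat_lit 7144) (nat_lit 0) (XT.nd (nat_lit 390) (nat_lit 4636) (nat_lit 0) (XT.nd (nat_lit 156) (nat_lit 1444) (nat_lit 0) (XT.nd (nat_lit 78) (nat_lit 1292) (nat_lit 0) (XT.lf (nat_lit 0) (nat_lit 3511398538) (nat_lit 1216) (nat_lit 1917719456) (nat_lit 1292) (nat_lit 2177479239) (nat_lit 501) (nat_lit 5) (nat_lit 517) (nat_lit 5) (nat_lit 518) (nat_lit 5) (nat_lit 415) (nat_lit 392) (nat_lit 333)) (XT.lf (nat_lit 0) (nat_lit 47988825) (nat_lit 1292) (nat_lit 7293345822) (nat_lit 1368) (nat_lit 320360414) (nat_lit 484) (nat_lit 5) (nat_lit 501) (nat_lit 5) (nat_lit 502) (nat_lit 5) (nat_lit 416) (nat_lit 392) (nat_lit 332))) (XT.nd (nat_lit 78) (nat_lit 1368) (nat_lit 0) (XT.lf (nat_lit 0) (nat_lit 1555861746) (nat_lit 1368) (nat_lit 3441009717) (nat_lit 76) (nat_lit 2720792813) (nat_lit 483) (nat_lit 5) (nat_lit 501) (nat_lit 5) (nat_lit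 484) (nat_lit 5) (nat_lit 417) (nat_lit 392) (nat_lit 331)) (XT.nd (nat_lit 78) (nat_lit 0) (nat_lit 0) (XT.lf (nat_lit 0) (nat_lit 793906709) (nat_lit 1368) (nat_lit 2639550877) (nat_lit 1444) (nat_lit 4341915519) (nat_lit 465) (nat_lit 5) (nat_lit 483) (nat_lit 5) (nat_lit 484) (nat_lit 5) (nat_lit 418) (nat_lit 392) (nat_lit 330)) (XT.lf (nat_lit 0) (nat_lit 5130834838) (nat_lit 1368) (nat_lit 204377221) (nat_lit 1444) (nat_lit 2499316779) (nat_lit 465) (nat_lit 5) (nat_lit 483) (nat_lit 5) (nat_lit 484) (nat_lit 5) (nat_lit 419) (nat_lit 392) (nat_lit 329))))) (XT.nd (nat_lit 156) (nat_lit 3116) (nat_lit 0) (XT.nd (nat_lit 78) (nat_lit 76) (nat_lit 0) (XT.lf (nat_lit 0) (nat_lit 1636759613) (nat_lit 1444) (nat_lit 5627945606) (nat_lit 1520) (nat_lit 630392769) (nat_lit 446) (nat_lit 5) (nat_lit 465) (nat_lit 5) (nat_lit 466) (nat_lit 5) (nat_lit 420) (nat_lit 392) (nat_lit 328)) (XT.lf (nat_lit 0) (nat_lit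 1243322573) (nat_lit 1520) (nat_lit 1895442833) (nat_lit 76) (nat_lit 4818287927) (nat_lit 445) (nat_lit 5) (nat_lit 465) (nat_lit 5) (nat_lit 446) (nat_lit 5) (nat_lit 421) (nat_lit 392) (nat_lit 327))) (XT.nd (nat_lit 78) (nat_lit 1596) (nat_lit 0) (XT.lf (nat_lit 0) (nat_lit 2554786371) (nat_lit 1520) (nat_lit 573105425) (nat_lit 1596) (nat_lit 4892659208) (nat_lit 425) (nat_lit 5) (nat_lit 445) (nat_lit 5) (nat_lit 446) (nat_lit 5) (nat_lit 422) (nat_lit 392) (nat_lit 326)) (XT.nd (nat_lit 78) (nat_lit 1596) (nat_lit 0) (XT.lf (nat_lit 0) (nat_lit 5041978518) (nat_lit 1596) (nat_lit 1008510734) (nat_lit 76) (nat_lit 2035015374) (nat_lit 425) (nat_lit 5) (nat_lit 446) (nat_lit 5) (nat_lit 426) (nat_lit 5) (nat_lit 423) (nat_lit 392) (nat_lit 325)) (XT.lf (nat_lit 0) (nat_lit 3551449667) (nat_lit 1596) (nat_lit 3436174910) (nat_lit 1672) (nat_lit 1164289265) (nat_lit 404) (nat_lit 5) (nat_lit 425) (nat_lit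 5) (nat_lit 426) (nat_lit 5) (nat_lit 424) (nat_lit 392) (nat_lit 324)))))) (XT.nd (nat_lit 390) (nat_lit 2660) (nat_lit 0) (XT.nd (nat_lit 156) (nat_lit 2736) (nat_lit 0) (XT.nd (nat_lit 78) (nat_lit 1672) (nat_lit 0) (XT.lf (nat_lit 0) (nat_lit 716128285) (nat_lit 1672) (nat_lit 37659960) (nat_lit 76) (nat_lit 7466317188) (nat_lit 403) (nat_lit 5) (nat_lit 425) (nat_lit 5) (nat_lit 404) (nat_lit 5) (nat_lit 425) (nat_lit 392) (nat_lit 323)) (XT.lf (nat_lit 0) (nat_lit 2629161185) (nat_lit 1748) (nat_lit 3662086196) (nat_lit 76) (nat_lit 1998068420) (nat_lit 381) (nat_lit 5) (nat_lit 404) (nat_lit 5) (nat_lit 382) (nat_lit 5) (nat_lit 426) (nat_lit 392) (nat_lit 322))) (XT.nd (nat_lit 78) (nat_lit 988) (nat_lit 0) (XT.lf (nat_lit 0) (nat_lit 1004793867) (nat_lit 1748) (nat_lit 3555215358) (nat_lit 1824) (nat_lit 3800330458) (nat_lit 358) (nat_lit 5) (nat_lit 381) (nat_lit 5) (nat_lit 382) (nat_lit 5) (nat_lit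 427) (nat_lit 392) (nat_lit 321)) (XT.nd (nat_lit 78) (nat_lit 988) (nat_lit 0) (XT.lf (nat_lit 0) (nat_lit 5785432913) (nat_lit 1748) (nat_lit 736842135) (nat_lit 1824) (nat_lit 1910672973) (nat_lit 358) (nat_lit 5) (nat_lit 381) (nat_lit 5) (nat_lit 382) (nat_lit 5) (nat_lit 428) (nat_lit 392) (nat_lit 320)) (XT.lf (nat_lit 0) (nat_lit 13153616) (nat_lit 988) (nat_lit 6367630874) (nat_lit 76) (nat_lit 2126309156) (nat_lit 345) (nat_lit 5) (nat_lit 358) (nat_lit 5) (nat_lit 346) (nat_lit 5) (nat_lit 429) (nat_lit 392) (nat_lit 319))))) (XT.nd (nat_lit 234) (nat_lit 1748) (nat_lit 0) (XT.nd (nat_lit 78) (nat_lit 912) (nat_lit 0) (XT.lf (nat_lit 0) (nat_lit 1941725038) (nat_lit 988) (nat_lit 1571492025) (nat_lit 76) (nat_lit 5069434326) (nat_lit 345) (nat_lit 5) (nat_lit 358) (nat_lit 5) (nat_lit 346) (nat_lit 5) (nat_lit 430) (nat_lit 392) (nat_lit 318)) (XT.nd (nat_lit 78) (nat_lit 0) (nat_lit 0) (XT.lf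 (nat_lit 0) (nat_lit 3335350306) (nat_lit 912) (nat_lit 564844134) (nat_lit 988) (nat_lit 4759717790) (nat_lit 333) (nat_lit 5) (nat_lit 345) (nat_lit 5) (nat_lit 346) (nat_lit 5) (nat_lit 431) (nat_lit 392) (nat_lit 317)) (XT.lf (nat_lit 0) (nat_lit 5894393485) (nat_lit 988) (nat_lit 422200498) (nat_lit 76) (nat_lit 2422211208) (nat_lit 333) (nat_lit 5) (nat_lit 346) (nat_lit 5) (nat_lit 334) (nat_lit 5) (nat_lit 432) (nat_lit 392) (nat_lit 316)))) (XT.nd (nat_lit 78) (nat_lit 912) (nat_lit 0) (XT.lf (nat_lit 0) (nat_lit 4606056678) (nat_lit 836) (nat_lit 3326739207) (nat_lit 912) (nat_lit 886411495) (nat_lit 322) (nat_lit 5) (nat_lit 333) (nat_lit 5) (nat_lit 334) (nat_lit 5) (nat_lit 433) (nat_lit 392) (nat_lit 315)) (XT.nd (nat_lit 78) (nat_lit 0) (nat_lit 0) (XT.lf (nat_lit 0) (nat_lit 813849538) (nat_lit 836) (nat_lit 261320955) (nat_lit 912) (nat_lit 7826340161) (nat_lit 310) (nat_lit 5) (nat_lit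 321) (nat_lit 5) (nat_lit 322) (nat_lit 5) (nat_lit 434) (nat_lit 392) (nat_lit 314)) (XT.lf (nat_lit 0) (nat_lit 3082427115) (nat_lit 912) (nat_lit 3040491300) (nat_lit 76) (nat_lit 2862074887) (nat_lit 310) (nat_lit 5) (nat_lit 322) (nat_lit 5) (nat_lit 311) (nat_lit 5) (nat_lit 435) (nat_lit 392) (nat_lit 313))))))))
noncomputable def xc133 : XT := (XT.nd (nat_lit 1560) (nat_lit 5548) (nat_lit 0) (XT.nd (nat_lit 780) (nat_lit 3800) (nat_lit 0) (XT.nd (nat_lit 390) (nat_lit 2204) (nat_lit 0) (XT.nd (nat_lit 156) (nat_lit 1596) (nat_lit 0) (XT.nd (nat_lit 78) (nat_lit 0) (nat_lit 0) (XT.lf (nat_lit 0) (nat_lit 2104635869) (nat_lit 760) (nat_lit 3012389410) (nat_lit 836) (nat_lit 3953392796) (nat_lit 300) (nat_lit 5) (nat_lit 310) (nat_lit 5) (nat_lit 311) (nat_lit 5) (nat_lit 436) (nat_lit 392) (nat_lit 312)) (XT.lf (nat_lit 0) (nat_lit 7186057399) (nat_lit 836) (nat_lit 1793674816) (nat_lit 76) (nat_lit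 177960372) (nat_lit 300) (nat_lit 5) (nat_lit 311) (nat_lit 5) (nat_lit 301) (nat_lit 5) (nat_lit 437) (nat_lit 392) (nat_lit 311))) (XT.nd (nat_lit 78) (nat_lit 760) (nat_lit 0) (XT.lf (nat_lit 0) (nat_lit 64435556) (nat_lit 836) (nat_lit 5767958301) (nat_lit 76) (nat_lit 3414021114) (nat_lit 289) (nat_lit 5) (nat_lit 300) (nat_lit 5) (nat_lit 290) (nat_lit 5) (nat_lit 438) (nat_lit 392) (nat_lit 310)) (XT.nd (nat_lit 78) (nat_lit 760) (nat_lit 0) (XT.lf (nat_lit 0) (nat_lit 2099833307) (nat_lit 836) (nat_lit 498312960) (nat_lit 76) (nat_lit 6738819926) (nat_lit 289) (nat_lit 5) (nat_lit 300) (nat_lit 5) (nat_lit 290) (nat_lit 5) (nat_lit 439) (nat_lit 392) (nat_lit 309)) (XT.lf (nat_lit 0) (nat_lit 4185983909) (nat_lit 836) (nat_lit 4521113012) (nat_lit 76) (nat_lit 722045477) (nat_lit 279) (nat_lit 5) (nat_lit 290) (nat_lit 5) (nat_lit 280) (nat_lit 5) (nat_lit 440) (nat_lit 392) (nat_lit 308))))) (XT.nd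 (nat_lit 156) (nat_lit 1444) (nat_lit 0) (XT.nd (nat_lit 78) (nat_lit 0) (nat_lit 0) (XT.lf (nat_lit 0) (nat_lit 871736981) (nat_lit 760) (nat_lit 5442077038) (nat_lit 836) (nat_lit 3209363543) (nat_lit 269) (nat_lit 5) (nat_lit 279) (nat_lit 5) (nat_lit 280) (nat_lit 5) (nat_lit 441) (nat_lit 392) (nat_lit 307)) (XT.lf (nat_lit 0) (nat_lit 6405291488) (nat_lit 760) (nat_lit 2083303114) (nat_lit 836) (nat_lit 1130425228) (nat_lit 269) (nat_lit 5) (nat_lit 279) (nat_lit 5) (nat_lit 280) (nat_lit 5) (nat_lit 442) (nat_lit 392) (nat_lit 306))) (XT.nd (nat_lit 78) (nat_lit 684) (nat_lit 0) (XT.lf (nat_lit 0) (nat_lit 975449890) (nat_lit 760) (nat_lit 7397101093) (nat_lit 76) (nat_lit 1344146255) (nat_lit 259) (nat_lit 5) (nat_lit 269) (nat_lit 5) (nat_lit 260) (nat_lit 5) (nat_lit 443) (nat_lit 392) (nat_lit 305)) (XT.nd (nat_lit 78) (nat_lit 684) (nat_lit 0) (XT.lf (nat_lit 0) (nat_lit 3118509256) (nat_lit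 760) (nat_lit 1858722384) (nat_lit 76) (nat_lit 4838756505) (nat_lit 259) (nat_lit 5) (nat_lit 269) (nat_lit 5) (nat_lit 260) (nat_lit 5) (nat_lit 444) (nat_lit 392) (nat_lit 304)) (XT.lf (nat_lit 0) (nat_lit 3812434689) (nat_lit 684) (nat_lit 1491928024) (nat_lit 760) (nat_lit 4612916691) (nat_lit 250) (nat_lit 5) (nat_lit 259) (nat_lit 5) (nat_lit 260) (nat_lit 5) (nat_lit 445) (nat_lit 392) (nat_lit 303)))))) (XT.nd (nat_lit 390) (nat_lit 1824) (nat_lit 0) (XT.nd (nat_lit 156) (nat_lit 1368) (nat_lit 0) (XT.nd (nat_lit 78) (nat_lit 608) (nat_lit 0) (XT.lf (nat_lit 0) (nat_lit 7535348550) (nat_lit 760) (nat_lit 439901817) (nat_lit 76) (nat_lit 2045330748) (nat_lit 250) (nat_lit 5) (nat_lit 260) (nat_lit 5) (nat_lit 251) (nat_lit 5) (nat_lit 446) (nat_lit 392) (nat_lit 302)) (XT.lf (nat_lit 0) (nat_lit 5371170480) (nat_lit 608) (nat_lit 4460483033) (nat_lit 684) (nat_lit 293894040) (nat_lit 242) (nat_lit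 5) (nat_lit 250) (nat_lit 5) (nat_lit 251) (nat_lit 5) (nat_lit 447) (nat_lit 392) (nat_lit 301))) (XT.nd (nat_lit 78) (nat_lit 608) (nat_lit 0) (XT.lf (nat_lit 0) (nat_lit 1045074933) (nat_lit 684) (nat_lit 856562076) (nat_lit 760) (nat_lit 8331019901) (nat_lit 232) (nat_lit 5) (nat_lit 241) (nat_lit 5) (nat_lit 242) (nat_lit 5) (nat_lit 448) (nat_lit 392) (nat_lit 300)) (XT.nd (nat_lit 78) (nat_lit 608) (nat_lit 0) (XT.lf (nat_lit 0) (nat_lit 4163900542) (nat_lit 760) (nat_lit 3364926605) (nat_lit 76) (nat_lit 2812519259) (nat_lit 232) (nat_lit 5) (nat_lit 242) (nat_lit 5) (nat_lit 233) (nat_lit 5) (nat_lit 449) (nat_lit 392) (nat_lit 299)) (XT.lf (nat_lit 0) (nat_lit 2574672857) (nat_lit 608) (nat_lit 3895921752) (nat_lit 684) (nat_lit 3981643094) (nat_lit 224) (nat_lit 5) (nat_lit 232) (nat_lit 5) (nat_lit 233) (nat_lit 5) (nat_lit 450) (nat_lit 392) (nat_lit 298))))) (XT.nd (nat_lit 156) (nat_lit 1140)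 (nat_lit 0) (XT.nd (nat_lit 78) (nat_lit 684) (nat_lit 0) (XT.lf (nat_lit 0) (nat_lit 8651254662) (nat_lit 608) (nat_lit 171821441) (nat_lit 684) (nat_lit 1742289136) (nat_lit 224) (nat_lit 5) (nat_lit 232) (nat_lit 5) (nat_lit 233) (nat_lit 5) (nat_lit 451) (nat_lit 392) (nat_lit 297)) (XT.lf (nat_lit 0) (nat_lit 563052448) (nat_lit 684) (nat_lit 6511436703) (nat_lit 76) (nat_lit 3605640711) (nat_lit 215) (nat_lit 5) (nat_lit 224) (nat_lit 5) (nat_lit 216) (nat_lit 5) (nat_lit 452) (nat_lit 392) (nat_lit 296))) (XT.nd (nat_lit 78) (nat_lit 1140) (nat_lit 0) (XT.lf (nat_lit 0) (nat_lit 2882862033) (nat_lit 684) (nat_lit 438040330) (nat_lit 76) (nat_lit 7476234098) (nat_lit 215) (nat_lit 5) (nat_lit 224) (nat_lit 5) (nat_lit 216) (nat_lit 5) (nat_lit 453) (nat_lit 392) (nat_lit 295)) (XT.nd (nat_lit 78) (nat_lit 608) (nat_lit 0) (XT.lf (nat_lit 0) (nat_lit 5268319010) (nat_lit 608) (nat_lit 5113628981) (nat_lit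 76) (nat_lit 534160786) (nat_lit 208) (nat_lit 5) (nat_lit 216) (nat_lit 5) (nat_lit 209) (nat_lit 5) (nat_lit 454) (nat_lit 392) (nat_lit 294)) (XT.lf (nat_lit 0) (nat_lit 1101640293) (nat_lit 608) (nat_lit 6610213651) (nat_lit 684) (nat_lit 3325409622) (nat_lit 200) (nat_lit 5) (nat_lit 208) (nat_lit 5) (nat_lit 209) (nat_lit 5) (nat_lit 455) (nat_lit 392) (nat_lit 293))))))) (XT.nd (nat_lit 780) (nat_lit 2812) (nat_lit 0) (XT.nd (nat_lit 390) (nat_lit 1596) (nat_lit 0) (XT.nd (nat_lit 156) (nat_lit 532) (nat_lit 0) (XT.nd (nat_lit 78) (nat_lit 608) (nat_lit 0) (XT.lf (nat_lit 0) (nat_lit 7483568059) (nat_lit 608) (nat_lit 2733522337) (nat_lit 684) (nat_lit 943504635) (nat_lit 200) (nat_lit 5) (nat_lit 208) (nat_lit 5) (nat_lit 209) (nat_lit 5) (nat_lit 456) (nat_lit 392) (nat_lit 292)) (XT.lf (nat_lit 0) (nat_lit 1470974625) (nat_lit 608) (nat_lit 8588498719) (nat_lit 76) (nat_lit 1226648101) (nat_lit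 192) (nat_lit 5) (nat_lit 200) (nat_lit 5) (nat_lit 193) (nat_lit 5) (nat_lit 457) (nat_lit 392) (nat_lit 291))) (XT.nd (nat_lit 78) (nat_lit 532) (nat_lit 0) (XT.lf (nat_lit 0) (nat_lit 3943057633) (nat_lit 608) (nat_lit 2215514387) (nat_lit 76) (nat_lit 5255032293) (nat_lit 192) (nat_lit 5) (nat_lit 200) (nat_lit 5) (nat_lit 193) (nat_lit 5) (nat_lit 458) (nat_lit 392) (nat_lit 290)) (XT.nd (nat_lit 78) (nat_lit 0) (nat_lit 0) (XT.lf (nat_lit 0) (nat_lit 4315107948) (nat_lit 532) (nat_lit 2156897648) (nat_lit 608) (nat_lit 5071492196) (nat_lit 185) (nat_lit 5) (nat_lit 192) (nat_lit 5) (nat_lit 193) (nat_lit 5) (nat_lit 459) (nat_lit 392) (nat_lit 289)) (XT.lf (nat_lit 0) (nat_lit 9058597368) (nat_lit 608) (nat_lit 708532353) (nat_lit 76) (nat_lit 1908727359) (nat_lit 185) (nat_lit 5) (nat_lit 193) (nat_lit 5) (nat_lit 186) (nat_lit 5) (nat_lit 460) (nat_lit 392) (nat_lit 288))))) (XT.nd (nat_lit 156)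 (nat_lit 456) (nat_lit 0) (XT.nd (nat_lit 78) (nat_lit 608) (nat_lit 0) (XT.lf (nat_lit 0) (nat_lit 5979766295) (nat_lit 532) (nat_lit 5750265320) (nat_lit 608) (nat_lit 80178783) (nat_lit 178) (nat_lit 5) (nat_lit 185) (nat_lit 5) (nat_lit 186) (nat_lit 5) (nat_lit 461) (nat_lit 392) (nat_lit 287)) (XT.lf (nat_lit 0) (nat_lit 832688385) (nat_lit 532) (nat_lit 1632345671) (nat_lit 608) (nat_lit 9482094234) (nat_lit 170) (nat_lit 5) (nat_lit 177) (nat_lit 5) (nat_lit 178) (nat_lit 5) (nat_lit 462) (nat_lit 392) (nat_lit 286))) (XT.nd (nat_lit 78) (nat_lit 456) (nat_lit 0) (XT.lf (nat_lit 0) (nat_lit 5096402114) (nat_lit 608) (nat_lit 4421736278) (nat_lit 76) (nat_lit 2567917591) (nat_lit 170) (nat_lit 5) (nat_lit 178) (nat_lit 5) (nat_lit 171) (nat_lit 5) (nat_lit 463) (nat_lit 392) (nat_lit 285)) (XT.nd (nat_lit 78) (nat_lit 0) (nat_lit 0) (XT.lf (nat_lit 0) (nat_lit 2399611779) (nat_lit 456) (nat_lit 5387829166)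 (nat_lit 532) (nat_lit 4440188781) (nat_lit 164) (nat_lit 5) (nat_lit 170) (nat_lit 5) (nat_lit 171) (nat_lit 5) (nat_lit 464) (nat_lit 392) (nat_lit 284)) (XT.lf (nat_lit 0) (nat_lit 9391624055) (nat_lit 456) (nat_lit 1151214465) (nat_lit 532) (nat_lit 1828993867) (nat_lit 164) (nat_lit 5) (nat_lit 170) (nat_lit 5) (nat_lit 171) (nat_lit 5) (nat_lit 465) (nat_lit 392) (nat_lit 283)))))) (XT.nd (nat_lit 390) (nat_lit 1368) (nat_lit 0) (XT.nd (nat_lit 156) (nat_lit 912) (nat_lit 0) (XT.nd (nat_lit 78) (nat_lit 0) (nat_lit 0) (XT.lf (nat_lit 0) (nat_lit 851481764) (nat_lit 532) (nat_lit 8512930139) (nat_lit 76) (nat_lit 3153846722) (nat_lit 157) (nat_lit 5) (nat_lit 164) (nat_lit 5) (nat_lit 158) (nat_lit 5) (nat_lit 466) (nat_lit 392) (nat_lit 282)) (XT.lf (nat_lit 0) (nat_lit 3570126877) (nat_lit 532) (nat_lit 1541735414) (nat_lit 76) (nat_lit 7555336025) (nat_lit 157) (nat_lit 5) (nat_lit 164) (nat_lit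 5) (nat_lit 158) (nat_lit 5) (nat_lit 467) (nat_lit 392) (nat_lit 281))) (XT.nd (nat_lit 78) (nat_lit 456) (nat_lit 0) (XT.lf (nat_lit 0) (nat_lit 5617432693) (nat_lit 456) (nat_lit 743823670) (nat_lit 532) (nat_lit 6457505789) (nat_lit 151) (nat_lit 5) (nat_lit 157) (nat_lit 5) (nat_lit 158) (nat_lit 5) (nat_lit 468) (nat_lit 392) (nat_lit 280)) (XT.nd (nat_lit 78) (nat_lit 456) (nat_lit 0) (XT.lf (nat_lit 0) (nat_lit 9224514030) (nat_lit 532) (nat_lit 81919498) (nat_lit 76) (nat_lit 3666605051) (nat_lit 151) (nat_lit 5) (nat_lit 158) (nat_lit 5) (nat_lit 152) (nat_lit 5) (nat_lit 469) (nat_lit 392) (nat_lit 279)) (XT.lf (nat_lit 0) (nat_lit 7245184956) (nat_lit 456) (nat_lit 4933968629) (nat_lit 532) (nat_lit 950571899) (nat_lit 145) (nat_lit 5) (nat_lit 151) (nat_lit 5) (nat_lit 152) (nat_lit 5) (nat_lit 470) (nat_lit 392) (nat_lit 278))))) (XT.nd (nat_lit 234) (nat_lit 456) (nat_lit 0) (XT.nd (nat_lit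 78) (nat_lit 456) (nat_lit 0) (XT.lf (nat_lit 0) (nat_lit 1411690121) (nat_lit 380) (nat_lit 458622342) (nat_lit 456) (nat_lit 11419154804) (nat_lit 139) (nat_lit 5) (nat_lit 144) (nat_lit 5) (nat_lit 145) (nat_lit 5) (nat_lit 471) (nat_lit 392) (nat_lit 277)) (XT.nd (nat_lit 78) (nat_lit 456) (nat_lit 0) (XT.lf (nat_lit 0) (nat_lit 4783666937) (nat_lit 456) (nat_lit 4576238160) (nat_lit 76) (nat_lit 4091404374) (nat_lit 139) (nat_lit 5) (nat_lit 145) (nat_lit 5) (nat_lit 140) (nat_lit 5) (nat_lit 472) (nat_lit 392) (nat_lit 276)) (XT.lf (nat_lit 0) (nat_lit 2881558237) (nat_lit 456) (nat_lit 4878180830) (nat_lit 532) (nat_lit 5856567169) (nat_lit 133) (nat_lit 5) (nat_lit 139) (nat_lit 5) (nat_lit 140) (nat_lit 5) (nat_lit 473) (nat_lit 392) (nat_lit 275)))) (XT.nd (nat_lit 78) (nat_lit 456) (nat_lit 0) (XT.lf (nat_lit 0) (nat_lit 10526175755) (nat_lit 456) (nat_lit 282751121) (nat_lit 532) (nat_lit 2975410772)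 (nat_lit 133) (nat_lit 5) (nat_lit 139) (nat_lit 5) (nat_lit 140) (nat_lit 5) (nat_lit 474) (nat_lit 392) (nat_lit 274)) (XT.nd (nat_lit 78) (nat_lit 0) (nat_lit 0) (XT.lf (nat_lit 0) (nat_lit 4270256) (nat_lit 456) (nat_lit 9582441227) (nat_lit 76) (nat_lit 4368220880) (nat_lit 127) (nat_lit 5) (nat_lit 133) (nat_lit 5) (nat_lit 128) (nat_lit 5) (nat_lit 475) (nat_lit 392) (nat_lit 273)) (XT.lf (nat_lit 0) (nat_lit 3010854771) (nat_lit 456) (nat_lit 1974556216) (nat_lit 76) (nat_lit 9142997840) (nat_lit 127) (nat_lit 5) (nat_lit 133) (nat_lit 5) (nat_lit 128) (nat_lit 5) (nat_lit 476) (nat_lit 392) (nat_lit 272))))))))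
noncomputable def xc134 : XT := (XT.nd (nat_lit 1560) (nat_lit 836) (nat_lit 0) (XT.nd (nat_lit 780) (nat_lit 1596) (nat_lit 0) (XT.nd (nat_lit 390) (nat_lit 1064) (nat_lit 0) (XT.nd (nat_lit 156) (nat_lit 836) (nat_lit 0) (XT.nd (nat_lit 78) (nat_lit 0) (nat_lit 0) (XT.lf (nat_lit 0) (nat_lit 5838277173) (nat_lit 380) (nat_lit 260760629) (nat_lit 456) (nat_lit 8205893777) (nat_lit 122) (nat_lit 5) (nat_lit 127) (nat_lit 5) (nat_lit 128) (nat_lit 5) (nat_lit 477) (nat_lit 392) (nat_lit 271)) (XT.lf (nat_lit 0) (nat_lit 9275600679) (nat_lit 456) (nat_lit 704177289) (nat_lit 76) (nat_lit 4504680468) (nat_lit 122) (nat_lit 5) (nat_lit 128) (nat_lit 5) (nat_lit 123) (nat_lit 5) (nat_lit 478) (nat_lit 392) (nat_lit 270))) (XT.nd (nat_lit 78) (nat_lit 456) (nat_lit 0) (XT.lf (nat_lit 0) (nat_lit 7283914511) (nat_lit 380) (nat_lit 5264801236) (nat_lit 456) (nat_lit 2118205522) (nat_lit 117) (nat_lit 5) (nat_lit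 122) (nat_lit 5) (nat_lit 123) (nat_lit 5) (nat_lit 479) (nat_lit 392) (nat_lit 269)) (XT.nd (nat_lit 78) (nat_lit 0) (nat_lit 0) (XT.lf (nat_lit 0) (nat_lit 565544258) (nat_lit 380) (nat_lit 447633591) (nat_lit 456) (nat_lit 13839877186) (nat_lit 111) (nat_lit 5) (nat_lit 116) (nat_lit 5) (nat_lit 117) (nat_lit 5) (nat_lit 480) (nat_lit 392) (nat_lit 268)) (XT.lf (nat_lit 0) (nat_lit 4241886038) (nat_lit 456) (nat_lit 6335745772) (nat_lit 76) (nat_lit 4463743960) (nat_lit 111) (nat_lit 5) (nat_lit 117) (nat_lit 5) (nat_lit 112) (nat_lit 5) (nat_lit 481) (nat_lit 392) (nat_lit 267))))) (XT.nd (nat_lit 156) (nat_lit 760) (nat_lit 0) (XT.nd (nat_lit 78) (nat_lit 0) (nat_lit 0) (XT.lf (nat_lit 0) (nat_lit 1772176927) (nat_lit 304) (nat_lit 5761938546) (nat_lit 380) (nat_lit 7699373918) (nat_lit 107) (nat_lit 5) (nat_lit 111) (nat_lit 5) (nat_lit 112) (nat_lit 5) (nat_lit 482) (nat_lit 392) (nat_lit 266)) (XT.lf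 (nat_lit 0) (nat_lit 10105137559) (nat_lit 304) (nat_lit 814199631) (nat_lit 380) (nat_lit 4509570446) (nat_lit 107) (nat_lit 5) (nat_lit 111) (nat_lit 5) (nat_lit 112) (nat_lit 5) (nat_lit 483) (nat_lit 392) (nat_lit 265))) (XT.nd (nat_lit 78) (nat_lit 380) (nat_lit 0) (XT.lf (nat_lit 0) (nat_lit 2965120967) (nat_lit 380) (nat_lit 11438758314) (nat_lit 456) (nat_lit 1223727846) (nat_lit 102) (nat_lit 5) (nat_lit 107) (nat_lit 5) (nat_lit 108) (nat_lit 5) (nat_lit 484) (nat_lit 392) (nat_lit 264)) (XT.nd (nat_lit 78) (nat_lit 304) (nat_lit 0) (XT.lf (nat_lit 0) (nat_lit 2126208016) (nat_lit 456) (nat_lit 4379920442) (nat_lit 76) (nat_lit 9323355176) (nat_lit 101) (nat_lit 5) (nat_lit 107) (nat_lit 5) (nat_lit 102) (nat_lit 5) (nat_lit 485) (nat_lit 392) (nat_lit 263)) (XT.lf (nat_lit 0) (nat_lit 4091435341) (nat_lit 304) (nat_lit 1447126035) (nat_lit 380) (nat_lit 10496443332) (nat_lit 97) (nat_lit 5) (nat_lit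 101) (nat_lit 5) (nat_lit 102) (nat_lit 5) (nat_lit 486) (nat_lit 392) (nat_lit 262)))))) (XT.nd (nat_lit 390) (nat_lit 912) (nat_lit 0) (XT.nd (nat_lit 156) (nat_lit 380) (nat_lit 0) (XT.nd (nat_lit 78) (nat_lit 304) (nat_lit 0) (XT.lf (nat_lit 0) (nat_lit 9058176034) (nat_lit 380) (nat_lit 3499278753) (nat_lit 76) (nat_lit 3686405937) (nat_lit 97) (nat_lit 5) (nat_lit 102) (nat_lit 5) (nat_lit 98) (nat_lit 5) (nat_lit 487) (nat_lit 392) (nat_lit 261)) (XT.lf (nat_lit 0) (nat_lit 5149778520) (nat_lit 304) (nat_lit 7527032079) (nat_lit 380) (nat_lit 3779515419) (nat_lit 93) (nat_lit 5) (nat_lit 97) (nat_lit 5) (nat_lit 98) (nat_lit 5) (nat_lit 488) (nat_lit 392) (nat_lit 260))) (XT.nd (nat_lit 78) (nat_lit 380) (nat_lit 0) (XT.lf (nat_lit 0) (nat_lit 13997320010) (nat_lit 304) (nat_lit 2379727874) (nat_lit 380) (nat_lit 295812752) (nat_lit 93) (nat_lit 5) (nat_lit 97) (nat_lit 5) (nat_lit 98) (nat_lit 5)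 (nat_lit 489) (nat_lit 392) (nat_lit 259)) (XT.nd (nat_lit 78) (nat_lit 0) (nat_lit 0) (XT.lf (nat_lit 0) (nat_lit 3259798448) (nat_lit 380) (nat_lit 10745667292) (nat_lit 76) (nat_lit 2886942479) (nat_lit 88) (nat_lit 5) (nat_lit 93) (nat_lit 5) (nat_lit 89) (nat_lit 5) (nat_lit 490) (nat_lit 392) (nat_lit 258)) (XT.lf (nat_lit 0) (nat_lit 6902414608) (nat_lit 380) (nat_lit 1973872459) (nat_lit 76) (nat_lit 8239627861) (nat_lit 88) (nat_lit 5) (nat_lit 93) (nat_lit 5) (nat_lit 89) (nat_lit 5) (nat_lit 491) (nat_lit 392) (nat_lit 257))))) (XT.nd (nat_lit 156) (nat_lit 608) (nat_lit 0) (XT.nd (nat_lit 78) (nat_lit 0) (nat_lit 0) (XT.lf (nat_lit 0) (nat_lit 7044390995) (nat_lit 304) (nat_lit 3605520119) (nat_lit 380) (nat_lit 6693344362) (nat_lit 84) (nat_lit 5) (nat_lit 88) (nat_lit 5) (nat_lit 89) (nat_lit 5) (nat_lit 492) (nat_lit 392) (nat_lit 256)) (XT.lf (nat_lit 0) (nat_lit 14483559944) (nat_lit 380)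 (nat_lit 1338127258) (nat_lit 76) (nat_lit 1753235769) (nat_lit 84) (nat_lit 5) (nat_lit 89) (nat_lit 5) (nat_lit 85) (nat_lit 5) (nat_lit 493) (nat_lit 392) (nat_lit 255))) (XT.nd (nat_lit 78) (nat_lit 304) (nat_lit 0) (XT.lf (nat_lit 0) (nat_lit 636969700) (nat_lit 304) (nat_lit 9954175917) (nat_lit 76) (nat_lit 7218767491) (nat_lit 80) (nat_lit 5) (nat_lit 84) (nat_lit 5) (nat_lit 81) (nat_lit 5) (nat_lit 494) (nat_lit 392) (nat_lit 254)) (XT.nd (nat_lit 78) (nat_lit 304) (nat_lit 0) (XT.lf (nat_lit 0) (nat_lit 4394228041) (nat_lit 304) (nat_lit 839401626) (nat_lit 76) (nat_lit 12815653598) (nat_lit 80) (nat_lit 5) (nat_lit 84) (nat_lit 5) (nat_lit 81) (nat_lit 5) (nat_lit 495) (nat_lit 392) (nat_lit 253)) (XT.lf (nat_lit 0) (nat_lit 8270892515) (nat_lit 380) (nat_lit 9745273231) (nat_lit 76) (nat_lit 276393725) (nat_lit 76) (nat_lit 5) (nat_lit 81) (nat_lit 5) (nat_lit 77) (nat_lit 5) (nat_lit 496) (nat_lit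 392) (nat_lit 252))))))) (XT.nd (nat_lit 51558) (nat_lit 0) (nat_lit 36480) (XT.nd (nat_lit 390) (nat_lit 228) (nat_lit 0) (XT.nd (nat_lit 156) (nat_lit 380) (nat_lit 0) (XT.nd (nat_lit 78) (nat_lit 228) (nat_lit 0) (XT.lf (nat_lit 0) (nat_lit 12252429889) (nat_lit 380) (nat_lit 462927735) (nat_lit 76) (nat_lit 5824800574) (nat_lit 76) (nat_lit 5) (nat_lit 81) (nat_lit 5) (nat_lit 77) (nat_lit 5) (nat_lit 497) (nat_lit 392) (nat_lit 251)) (XT.lf (nat_lit 0) (nat_lit 9104145348) (nat_lit 228) (nat_lit 7255827205) (nat_lit 304) (nat_lit 2431812569) (nat_lit 73) (nat_lit 5) (nat_lit 76) (nat_lit 5) (nat_lit 77) (nat_lit 5) (nat_lit 498) (nat_lit 392) (nat_lit 250))) (XT.nd (nat_lit 78) (nat_lit 304) (nat_lit 0) (XT.lf (nat_lit 0) (nat_lit 1471955644) (nat_lit 304) (nat_lit 209675484) (nat_lit 76) (nat_lit 17366813630) (nat_lit 72) (nat_lit 5) (nat_lit 76) (nat_lit 5) (nat_lit 73) (nat_lit 5) (nat_lit 499) (nat_lit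 392) (nat_lit 249)) (XT.nd (nat_lit 78) (nat_lit 0) (nat_lit 0) (XT.lf (nat_lit 0) (nat_lit 5497263444) (nat_lit 380) (nat_lit 9788401152) (nat_lit 76) (nat_lit 4022734482) (nat_lit 68) (nat_lit 5) (nat_lit 73) (nat_lit 5) (nat_lit 69) (nat_lit 5) (nat_lit 500) (nat_lit 392) (nat_lit 248)) (XT.lf (nat_lit 0) (nat_lit 9603242202) (nat_lit 380) (nat_lit 157594849) (nat_lit 76) (nat_lit 9812715569) (nat_lit 68) (nat_lit 5) (nat_lit 73) (nat_lit 5) (nat_lit 69) (nat_lit 5) (nat_lit 501) (nat_lit 392) (nat_lit 247))))) (XT.nd (nat_lit 50934) (nat_lit 0) (nat_lit 39292) (XT.nd (nat_lit 50856) (nat_lit 0) (nat_lit 39292) (XT.lf (nat_lit 0) (nat_lit 9774381557) (nat_lit 228) (nat_lit 4068275472) (nat_lit 304) (nat_lit 6000329238) (nat_lit 65) (nat_lit 5) (nat_lit 68) (nat_lit 5) (nat_lit 69) (nat_lit 5) (nat_lit 502) (nat_lit 392) (nat_lit 246)) (XT.lf (nat_lit 0) (nat_lit 162480) (nat_lit 0) (nat_lit 162480) (nat_lit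 836) (nat_lit 3384951903) (nat_lit 582) (nat_lit 5) (nat_lit 582) (nat_lit 3) (nat_lit 593) (nat_lit 3) (nat_lit 393) (nat_lit 393) (nat_lit 354))) (XT.nd (nat_lit 78) (nat_lit 0) (nat_lit 0) (XT.lf (nat_lit 0) (nat_lit 2025345219) (nat_lit 836) (nat_lit 3575704785) (nat_lit 912) (nat_lit 1195032329) (nat_lit 582) (nat_lit 5) (nat_lit 593) (nat_lit 3) (nat_lit 594) (nat_lit 5) (nat_lit 394) (nat_lit 393) (nat_lit 353)) (XT.nd (nat_lit 78) (nat_lit 0) (nat_lit 0) (XT.lf (nat_lit 0) (nat_lit 4037806221) (nat_lit 836) (nat_lit 345017451) (nat_lit 912) (nat_lit 2440396553) (nat_lit 582) (nat_lit 5) (nat_lit 593) (nat_lit 3) (nat_lit 594) (nat_lit 5) (nat_lit 395) (nat_lit 393) (nat_lit 352)) (XT.lf (nat_lit 76) (nat_lit 2961948773) (nat_lit 0) (nat_lit 3096102182) (nat_lit 912) (nat_lit 793542514) (nat_lit 583) (nat_lit 5) (nat_lit 582) (nat_lit 5) (nat_lit 594) (nat_lit 5) (nat_lit 396) (nat_lit 393) (nat_lit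 351)))))) (XT.nd (nat_lit 390) (nat_lit 988) (nat_lit 0) (XT.nd (nat_lit 156) (nat_lit 912) (nat_lit 0) (XT.nd (nat_lit 78) (nat_lit 0) (nat_lit 0) (XT.lf (nat_lit 0) (nat_lit 1173021436) (nat_lit 912) (nat_lit 576536115) (nat_lit 988) (nat_lit 5131835573) (nat_lit 570) (nat_lit 5) (nat_lit 582) (nat_lit 5) (nat_lit 583) (nat_lit 5) (nat_lit 397) (nat_lit 393) (nat_lit 350)) (XT.lf (nat_lit 76) (nat_lit 2807215111) (nat_lit 0) (nat_lit 329080123) (nat_lit 988) (nat_lit 3776069338) (nat_lit 571) (nat_lit 5) (nat_lit 570) (nat_lit 5) (nat_lit 583) (nat_lit 5) (nat_lit 398) (nat_lit 393) (nat_lit 349))) (XT.nd (nat_lit 78) (nat_lit 988) (nat_lit 0) (XT.lf (nat_lit 0) (nat_lit 5100722579) (nat_lit 912) (nat_lit 712894347) (nat_lit 988) (nat_lit 1131140750) (nat_lit 571) (nat_lit 5) (nat_lit 583) (nat_lit 5) (nat_lit 584) (nat_lit 5) (nat_lit 399) (nat_lit 393) (nat_lit 348)) (XT.nd (nat_lit 78) (nat_lit 0) (nat_lit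 0) (XT.lf (nat_lit 0) (nat_lit 96499381) (nat_lit 988) (nat_lit 4225522510) (nat_lit 1064) (nat_lit 2656368332) (nat_lit 558) (nat_lit 5) (nat_lit 571) (nat_lit 5) (nat_lit 572) (nat_lit 5) (nat_lit 400) (nat_lit 393) (nat_lit 347)) (XT.lf (nat_lit 0) (nat_lit 2008097170) (nat_lit 988) (nat_lit 755351631) (nat_lit 1064) (nat_lit 4249901635) (nat_lit 558) (nat_lit 5) (nat_lit 571) (nat_lit 5) (nat_lit 572) (nat_lit 5) (nat_lit 401) (nat_lit 393) (nat_lit 346))))) (XT.nd (nat_lit 234) (nat_lit 0) (nat_lit 0) (XT.nd (nat_lit 78) (nat_lit 988) (nat_lit 0) (XT.lf (nat_lit 76) (nat_lit 2793291957) (nat_lit 0) (nat_lit 1135815558) (nat_lit 1064) (nat_lit 3120515667) (nat_lit 559) (nat_lit 5) (nat_lit 558) (nat_lit 5) (nat_lit 572) (nat_lit 5) (nat_lit 402) (nat_lit 393) (nat_lit 345)) (XT.nd (nat_lit 78) (nat_lit 1064) (nat_lit 0) (XT.lf (nat_lit 0) (nat_lit 5850954846) (nat_lit 988) (nat_lit 695277328) (nat_lit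 1064) (nat_lit 541177093) (nat_lit 559) (nat_lit 5) (nat_lit 572) (nat_lit 5) (nat_lit 573) (nat_lit 5) (nat_lit 403) (nat_lit 393) (nat_lit 344)) (XT.lf (nat_lit 0) (nat_lit 657567102) (nat_lit 1064) (nat_lit 4190556624) (nat_lit 1140) (nat_lit 2278147838) (nat_lit 545) (nat_lit 5) (nat_lit 559) (nat_lit 5) (nat_lit 560) (nat_lit 5) (nat_lit 404) (nat_lit 393) (nat_lit 343)))) (XT.nd (nat_lit 78) (nat_lit 0) (nat_lit 0) (XT.lf (nat_lit 0) (nat_lit 2532815628) (nat_lit 1064) (nat_lit 553639853) (nat_lit 1140) (nat_lit 4080128243) (nat_lit 545) (nat_lit 5) (nat_lit 559) (nat_lit 5) (nat_lit 560) (nat_lit 5) (nat_lit 405) (nat_lit 393) (nat_lit 342)) (XT.nd (nat_lit 78) (nat_lit 0) (nat_lit 76) (XT.lf (nat_lit 76) (nat_lit 3169789134) (nat_lit 0) (nat_lit 1252429622) (nat_lit 1140) (nat_lit 2785983837) (nat_lit 546) (nat_lit 5) (nat_lit 545) (nat_lit 5) (nat_lit 560) (nat_lit 5) (nat_lit 406) (nat_lit 393)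 (nat_lit 341)) (XT.lf (nat_lit 0) (nat_lit 6314016876) (nat_lit 1064) (nat_lit 308041834) (nat_lit 1140) (nat_lit 629335795) (nat_lit 546) (nat_lit 5) (nat_lit 560) (nat_lit 5) (nat_lit 561) (nat_lit 5) (nat_lit 407) (nat_lit 393) (nat_lit 340))))))))
noncomputable def xc135 : XT := (XT.nd (nat_lit 1560) (nat_lit 10640) (nat_lit 0) (XT.nd (nat_lit 780) (nat_lit 7752) (nat_lit 0) (XT.nd (nat_lit 390) (nat_lit 2508) (nat_lit 0) (XT.nd (nat_lit 156) (nat_lit 1140) (nat_lit 0) (XT.nd (nat_lit 78) (nat_lit 0) (nat_lit 0) (XT.lf (nat_lit 0) (nat_lit 924418843) (nat_lit 1140) (nat_lit 3795210310) (nat_lit 1216) (nat_lit 2575956425) (nat_lit 531) (nat_lit 5) (nat_lit 546) (nat_lit 5) (nat_lit 547) (nat_lit 5) (nat_lit 408) (nat_lit 393) (nat_lit 339)) (XT.lf (nat_lit 76) (nat_lit 14021821) (nat_lit 0) (nat_lit 2757101920) (nat_lit 1216) (nat_lit 4570239245) (nat_lit 532) (nat_lit 5) (nat_lit 531) (nat_lit 5) (nat_lit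 547) (nat_lit 5) (nat_lit 409) (nat_lit 393) (nat_lit 338))) (XT.nd (nat_lit 78) (nat_lit 1140) (nat_lit 0) (XT.lf (nat_lit 76) (nat_lit 3922613133) (nat_lit 0) (nat_lit 716297044) (nat_lit 1216) (nat_lit 2749493120) (nat_lit 532) (nat_lit 5) (nat_lit 531) (nat_lit 5) (nat_lit 547) (nat_lit 5) (nat_lit 410) (nat_lit 393) (nat_lit 337)) (XT.nd (nat_lit 78) (nat_lit 1216) (nat_lit 0) (XT.lf (nat_lit 76) (nat_lit 441275478) (nat_lit 0) (nat_lit 6074079361) (nat_lit 1216) (nat_lit 921633239) (nat_lit 533) (nat_lit 5) (nat_lit 532) (nat_lit 5) (nat_lit 548) (nat_lit 5) (nat_lit 411) (nat_lit 393) (nat_lit 336)) (XT.lf (nat_lit 0) (nat_lit 918462419) (nat_lit 1216) (nat_lit 3052648564) (nat_lit 1292) (nat_lit 3515578837) (nat_lit 516) (nat_lit 5) (nat_lit 532) (nat_lit 5) (nat_lit 533) (nat_lit 5) (nat_lit 412) (nat_lit 393) (nat_lit 335))))) (XT.nd (nat_lit 156) (nat_lit 2508) (nat_lit 0) (XT.nd (nat_lit 78)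 (nat_lit 0) (nat_lit 76) (XT.lf (nat_lit 76) (nat_lit 947151756) (nat_lit 0) (nat_lit 1802703512) (nat_lit 1292) (nat_lit 4788099768) (nat_lit 517) (nat_lit 5) (nat_lit 516) (nat_lit 5) (nat_lit 533) (nat_lit 5) (nat_lit 413) (nat_lit 393) (nat_lit 334)) (XT.lf (nat_lit 0) (nat_lit 4602483029) (nat_lit 1216) (nat_lit 2553426599) (nat_lit 76) (nat_lit 434671236) (nat_lit 517) (nat_lit 5) (nat_lit 533) (nat_lit 5) (nat_lit 518) (nat_lit 5) (nat_lit 414) (nat_lit 393) (nat_lit 333))) (XT.nd (nat_lit 78) (nat_lit 1368) (nat_lit 0) (XT.lf (nat_lit 0) (nat_lit 1544459505) (nat_lit 1216) (nat_lit 4931758699) (nat_lit 1292) (nat_lit 1168386818) (nat_lit 501) (nat_lit 5) (nat_lit 517) (nat_lit 5) (nat_lit 518) (nat_lit 5) (nat_lit 415) (nat_lit 393) (nat_lit 332)) (XT.nd (nat_lit 78) (nat_lit 1292) (nat_lit 0) (XT.lf (nat_lit 0) (nat_lit 658321725) (nat_lit 1292) (nat_lit 1973923428) (nat_lit 76) (nat_lit 5067808617)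 (nat_lit 500) (nat_lit 5) (nat_lit 517) (nat_lit 5) (nat_lit 501) (nat_lit 5) (nat_lit 416) (nat_lit 393) (nat_lit 331)) (XT.lf (nat_lit 0) (nat_lit 2227978763) (nat_lit 1292) (nat_lit 255533417) (nat_lit 1368) (nat_lit 5273418362) (nat_lit 483) (nat_lit 5) (nat_lit 500) (nat_lit 5) (nat_lit 501) (nat_lit 5) (nat_lit 417) (nat_lit 393) (nat_lit 330)))))) (XT.nd (nat_lit 390) (nat_lit 3344) (nat_lit 0) (XT.nd (nat_lit 156) (nat_lit 3040) (nat_lit 0) (XT.nd (nat_lit 78) (nat_lit 1368) (nat_lit 0) (XT.lf (nat_lit 0) (nat_lit 4336327112) (nat_lit 1368) (nat_lit 1317118066) (nat_lit 76) (nat_lit 2161702118) (nat_lit 483) (nat_lit 5) (nat_lit 501) (nat_lit 5) (nat_lit 484) (nat_lit 5) (nat_lit 418) (nat_lit 393) (nat_lit 329)) (XT.lf (nat_lit 0) (nat_lit 2988070953) (nat_lit 1368) (nat_lit 3223638008) (nat_lit 1444) (nat_lit 1663133586) (nat_lit 465) (nat_lit 5) (nat_lit 483) (nat_lit 5) (nat_lit 484) (nat_lit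 5) (nat_lit 419) (nat_lit 393) (nat_lit 328))) (XT.nd (nat_lit 78) (nat_lit 2964) (nat_lit 0) (XT.lf (nat_lit 0) (nat_lit 159963449) (nat_lit 1444) (nat_lit 568306418) (nat_lit 76) (nat_lit 7207989263) (nat_lit 464) (nat_lit 5) (nat_lit 483) (nat_lit 5) (nat_lit 465) (nat_lit 5) (nat_lit 420) (nat_lit 393) (nat_lit 327)) (XT.nd (nat_lit 78) (nat_lit 1520) (nat_lit 0) (XT.lf (nat_lit 0) (nat_lit 1999703838) (nat_lit 1520) (nat_lit 4163120176) (nat_lit 76) (nat_lit 1835834119) (nat_lit 445) (nat_lit 5) (nat_lit 465) (nat_lit 5) (nat_lit 446) (nat_lit 5) (nat_lit 421) (nat_lit 393) (nat_lit 326)) (XT.lf (nat_lit 0) (nat_lit 242584933) (nat_lit 1520) (nat_lit 3609798127) (nat_lit 1596) (nat_lit 4210421693) (nat_lit 425) (nat_lit 5) (nat_lit 445) (nat_lit 5) (nat_lit 446) (nat_lit 5) (nat_lit 422) (nat_lit 393) (nat_lit 325))))) (XT.nd (nat_lit 156) (nat_lit 1748) (nat_lit 0) (XT.nd (nat_lit 78) (nat_lit 1596)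 (nat_lit 0) (XT.lf (nat_lit 0) (nat_lit 4764342736) (nat_lit 1520) (nat_lit 972100480) (nat_lit 1596) (nat_lit 2391926618) (nat_lit 425) (nat_lit 5) (nat_lit 445) (nat_lit 5) (nat_lit 446) (nat_lit 5) (nat_lit 423) (nat_lit 393) (nat_lit 324)) (XT.lf (nat_lit 0) (nat_lit 1156654418) (nat_lit 1596) (nat_lit 6487278793) (nat_lit 1672) (nat_lit 551619675) (nat_lit 404) (nat_lit 5) (nat_lit 425) (nat_lit 5) (nat_lit 426) (nat_lit 5) (nat_lit 424) (nat_lit 393) (nat_lit 323))) (XT.nd (nat_lit 78) (nat_lit 1672) (nat_lit 0) (XT.lf (nat_lit 0) (nat_lit 1304577936) (nat_lit 1672) (nat_lit 2494386425) (nat_lit 76) (nat_lit 4465034549) (nat_lit 403) (nat_lit 5) (nat_lit 425) (nat_lit 5) (nat_lit 404) (nat_lit 5) (nat_lit 425) (nat_lit 393) (nat_lit 322)) (XT.nd (nat_lit 78) (nat_lit 0) (nat_lit 0) (XT.lf (nat_lit 0) (nat_lit 2137042487) (nat_lit 1672) (nat_lit 1035300841) (nat_lit 1748) (nat_lit 5161781399) (nat_lit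 381) (nat_lit 5) (nat_lit 403) (nat_lit 5) (nat_lit 404) (nat_lit 5) (nat_lit 426) (nat_lit 393) (nat_lit 321)) (XT.lf (nat_lit 0) (nat_lit 5074310080) (nat_lit 1748) (nat_lit 1550933590) (nat_lit 76) (nat_lit 1780492463) (nat_lit 381) (nat_lit 5) (nat_lit 404) (nat_lit 5) (nat_lit 382) (nat_lit 5) (nat_lit 427) (nat_lit 393) (nat_lit 320))))))) (XT.nd (nat_lit 780) (nat_lit 4484) (nat_lit 0) (XT.nd (nat_lit 390) (nat_lit 2508) (nat_lit 0) (XT.nd (nat_lit 156) (nat_lit 1824) (nat_lit 0) (XT.nd (nat_lit 78) (nat_lit 76) (nat_lit 0) (XT.lf (nat_lit 0) (nat_lit 3194913059) (nat_lit 1748) (nat_lit 3816038199) (nat_lit 1824) (nat_lit 1467915409) (nat_lit 358) (nat_lit 5) (nat_lit 381) (nat_lit 5) (nat_lit 382) (nat_lit 5) (nat_lit 428) (nat_lit 393) (nat_lit 319)) (XT.lf (nat_lit 0) (nat_lit 406903734) (nat_lit 1824) (nat_lit 527943268) (nat_lit 76) (nat_lit 7618981137) (nat_lit 357) (nat_lit 5) (nat_lit 381)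 (nat_lit 5) (nat_lit 358) (nat_lit 5) (nat_lit 429) (nat_lit 393) (nat_lit 318))) (XT.nd (nat_lit 78) (nat_lit 912) (nat_lit 0) (XT.lf (nat_lit 0) (nat_lit 2310894961) (nat_lit 988) (nat_lit 4300963590) (nat_lit 76) (nat_lit 2018028080) (nat_lit 345) (nat_lit 5) (nat_lit 358) (nat_lit 5) (nat_lit 346) (nat_lit 5) (nat_lit 430) (nat_lit 393) (nat_lit 317)) (XT.nd (nat_lit 78) (nat_lit 0) (nat_lit 0) (XT.lf (nat_lit 0) (nat_lit 555361705) (nat_lit 912) (nat_lit 3681233289) (nat_lit 988) (nat_lit 4471216830) (nat_lit 333) (nat_lit 5) (nat_lit 345) (nat_lit 5) (nat_lit 346) (nat_lit 5) (nat_lit 431) (nat_lit 393) (nat_lit 316)) (XT.lf (nat_lit 0) (nat_lit 5538905900) (nat_lit 912) (nat_lit 661430658) (nat_lit 988) (nat_lit 2586986167) (nat_lit 333) (nat_lit 5) (nat_lit 345) (nat_lit 5) (nat_lit 346) (nat_lit 5) (nat_lit 432) (nat_lit 393) (nat_lit 315))))) (XT.nd (nat_lit 156) (nat_lit 1596) (nat_lit 0) (XT.nd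 (nat_lit 78) (nat_lit 76) (nat_lit 0) (XT.lf (nat_lit 0) (nat_lit 1732459453) (nat_lit 836) (nat_lit 6469094169) (nat_lit 912) (nat_lit 666923615) (nat_lit 322) (nat_lit 5) (nat_lit 333) (nat_lit 5) (nat_lit 334) (nat_lit 5) (nat_lit 433) (nat_lit 393) (nat_lit 314)) (XT.lf (nat_lit 0) (nat_lit 1272349631) (nat_lit 912) (nat_lit 2135208239) (nat_lit 76) (nat_lit 5543591026) (nat_lit 321) (nat_lit 5) (nat_lit 333) (nat_lit 5) (nat_lit 322) (nat_lit 5) (nat_lit 434) (nat_lit 393) (nat_lit 313))) (XT.nd (nat_lit 78) (nat_lit 760) (nat_lit 0) (XT.lf (nat_lit 0) (nat_lit 2972275317) (nat_lit 836) (nat_lit 260494486) (nat_lit 912) (nat_lit 5802806589) (nat_lit 310) (nat_lit 5) (nat_lit 321) (nat_lit 5) (nat_lit 322) (nat_lit 5) (nat_lit 435) (nat_lit 393) (nat_lit 312)) (XT.nd (nat_lit 78) (nat_lit 760) (nat_lit 0) (XT.lf (nat_lit 0) (nat_lit 5238325852) (nat_lit 912) (nat_lit 958091357) (nat_lit 76) (nat_lit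 2925172760) (nat_lit 310) (nat_lit 5) (nat_lit 322) (nat_lit 5) (nat_lit 311) (nat_lit 5) (nat_lit 436) (nat_lit 393) (nat_lit 311)) (XT.lf (nat_lit 0) (nat_lit 4275838291) (nat_lit 760) (nat_lit 3010537552) (nat_lit 836) (nat_lit 1922916085) (nat_lit 300) (nat_lit 5) (nat_lit 310) (nat_lit 5) (nat_lit 311) (nat_lit 5) (nat_lit 437) (nat_lit 393) (nat_lit 310)))))) (XT.nd (nat_lit 390) (nat_lit 2128) (nat_lit 0) (XT.nd (nat_lit 156) (nat_lit 1520) (nat_lit 0) (XT.nd (nat_lit 78) (nat_lit 0) (nat_lit 0) (XT.lf (nat_lit 0) (nat_lit 58742835) (nat_lit 836) (nat_lit 8996390648) (nat_lit 76) (nat_lit 243957463) (nat_lit 289) (nat_lit 5) (nat_lit 300) (nat_lit 5) (nat_lit 290) (nat_lit 5) (nat_lit 438) (nat_lit 393) (nat_lit 309)) (XT.lf (nat_lit 0) (nat_lit 2080970761) (nat_lit 836) (nat_lit 3740747203) (nat_lit 76) (nat_lit 3568194953) (nat_lit 289) (nat_lit 5) (nat_lit 300) (nat_lit 5) (nat_lit 290) (nat_lit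 5) (nat_lit 439) (nat_lit 393) (nat_lit 308))) (XT.nd (nat_lit 78) (nat_lit 760) (nat_lit 0) (XT.lf (nat_lit 0) (nat_lit 1613440424) (nat_lit 760) (nat_lit 2514596932) (nat_lit 836) (nat_lit 5354840658) (nat_lit 279) (nat_lit 5) (nat_lit 289) (nat_lit 5) (nat_lit 290) (nat_lit 5) (nat_lit 440) (nat_lit 393) (nat_lit 307)) (XT.nd (nat_lit 78) (nat_lit 760) (nat_lit 0) (XT.lf (nat_lit 0) (nat_lit 6221128396) (nat_lit 836) (nat_lit 2485587421) (nat_lit 76) (nat_lit 870899211) (nat_lit 279) (nat_lit 5) (nat_lit 290) (nat_lit 5) (nat_lit 280) (nat_lit 5) (nat_lit 441) (nat_lit 393) (nat_lit 306)) (XT.lf (nat_lit 0) (nat_lit 3001133073) (nat_lit 760) (nat_lit 5365831057) (nat_lit 836) (nat_lit 1307078994) (nat_lit 269) (nat_lit 5) (nat_lit 279) (nat_lit 5) (nat_lit 280) (nat_lit 5) (nat_lit 442) (nat_lit 393) (nat_lit 305))))) (XT.nd (nat_lit 234) (nat_lit 684) (nat_lit 0) (XT.nd (nat_lit 78) (nat_lit 1368) (nat_lit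 0) (XT.lf (nat_lit 0) (nat_lit 764717127) (nat_lit 836) (nat_lit 1173662040) (nat_lit 76) (nat_lit 7834098882) (nat_lit 268) (nat_lit 5) (nat_lit 279) (nat_lit 5) (nat_lit 269) (nat_lit 5) (nat_lit 443) (nat_lit 393) (nat_lit 304)) (XT.nd (nat_lit 78) (nat_lit 684) (nat_lit 0) (XT.lf (nat_lit 0) (nat_lit 2875131549) (nat_lit 760) (nat_lit 5424733207) (nat_lit 76) (nat_lit 1572563630) (nat_lit 259) (nat_lit 5) (nat_lit 269) (nat_lit 5) (nat_lit 260) (nat_lit 5) (nat_lit 444) (nat_lit 393) (nat_lit 303)) (XT.lf (nat_lit 0) (nat_lit 185268196) (nat_lit 684) (nat_lit 4840120659) (nat_lit 760) (nat_lit 4949049116) (nat_lit 250) (nat_lit 5) (nat_lit 259) (nat_lit 5) (nat_lit 260) (nat_lit 5) (nat_lit 445) (nat_lit 393) (nat_lit 302)))) (XT.nd (nat_lit 78) (nat_lit 684) (nat_lit 0) (XT.lf (nat_lit 0) (nat_lit 5953742696) (nat_lit 684) (nat_lit 1277278270) (nat_lit 760) (nat_lit 2847232067) (nat_lit 250) (nat_lit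 5) (nat_lit 259) (nat_lit 5) (nat_lit 260) (nat_lit 5) (nat_lit 446) (nat_lit 393) (nat_lit 301)) (XT.nd (nat_lit 78) (nat_lit 76) (nat_lit 0) (XT.lf (nat_lit 0) (nat_lit 1632359710) (nat_lit 608) (nat_lit 7850723957) (nat_lit 684) (nat_lit 701026804) (nat_lit 242) (nat_lit 5) (nat_lit 250) (nat_lit 5) (nat_lit 251) (nat_lit 5) (nat_lit 447) (nat_lit 393) (nat_lit 300)) (XT.lf (nat_lit 0) (nat_lit 1481443827) (nat_lit 684) (nat_lit 2776893450) (nat_lit 76) (nat_lit 6033309334) (nat_lit 241) (nat_lit 5) (nat_lit 250) (nat_lit 5) (nat_lit 242) (nat_lit 5) (nat_lit 448) (nat_lit 393) (nat_lit 299))))))))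
noncomputable def xc136 : XT := (XT.nd (nat_lit 1560) (nat_lit 4408) (nat_lit 0) (XT.nd (nat_lit 780) (nat_lit 3116) (nat_lit 0) (XT.nd (nat_lit 390) (nat_lit 1748) (nat_lit 0) (XT.nd (nat_lit 156) (nat_lit 1292) (nat_lit 0) (XT.nd (nat_lit 78) (nat_lit 0) (nat_lit 0) (XT.lf (nat_lit 0) (nat_lit 3122978747) (nat_lit 684) (nat_lit 572481903) (nat_lit 760) (nat_lit 6705846192) (nat_lit 232) (nat_lit 5) (nat_lit 241) (nat_lit 5) (nat_lit 242) (nat_lit 5) (nat_lit 449) (nat_lit 393) (nat_lit 298)) (XT.lf (nat_lit 0) (nat_lit 5970459499) (nat_lit 760) (nat_lit 1382176258) (nat_lit 76) (nat_lit 3160201970) (nat_lit 232) (nat_lit 5) (nat_lit 242) (nat_lit 5) (nat_lit 233) (nat_lit 5) (nat_lit 450) (nat_lit 393) (nat_lit 297))) (XT.nd (nat_lit 78) (nat_lit 684) (nat_lit 0) (XT.lf (nat_lit 0) (nat_lit 4662728030) (nat_lit 608) (nat_lit 3639992304) (nat_lit 684) (nat_lit 2323654916) (nat_lit 224) (nat_lit 5) (nat_lit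 232) (nat_lit 5) (nat_lit 233) (nat_lit 5) (nat_lit 451) (nat_lit 393) (nat_lit 296)) (XT.nd (nat_lit 78) (nat_lit 76) (nat_lit 0) (XT.lf (nat_lit 0) (nat_lit 78501486) (nat_lit 608) (nat_lit 10591860279) (nat_lit 684) (nat_lit 72058088) (nat_lit 216) (nat_lit 5) (nat_lit 224) (nat_lit 5) (nat_lit 225) (nat_lit 5) (nat_lit 452) (nat_lit 393) (nat_lit 295)) (XT.lf (nat_lit 0) (nat_lit 2237825345) (nat_lit 684) (nat_lit 4603374568) (nat_lit 76) (nat_lit 4018458574) (nat_lit 215) (nat_lit 5) (nat_lit 224) (nat_lit 5) (nat_lit 216) (nat_lit 5) (nat_lit 453) (nat_lit 393) (nat_lit 294))))) (XT.nd (nat_lit 156) (nat_lit 1216) (nat_lit 0) (XT.nd (nat_lit 78) (nat_lit 0) (nat_lit 0) (XT.lf (nat_lit 0) (nat_lit 1572142172) (nat_lit 532) (nat_lit 3009478459) (nat_lit 608) (nat_lit 6397848556) (nat_lit 208) (nat_lit 5) (nat_lit 215) (nat_lit 5) (nat_lit 216) (nat_lit 5) (nat_lit 454) (nat_lit 393) (nat_lit 293)) (XT.lf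 (nat_lit 0) (nat_lit 6987914318) (nat_lit 608) (nat_lit 3200139614) (nat_lit 76) (nat_lit 913319917) (nat_lit 208) (nat_lit 5) (nat_lit 216) (nat_lit 5) (nat_lit 209) (nat_lit 5) (nat_lit 455) (nat_lit 393) (nat_lit 292))) (XT.nd (nat_lit 78) (nat_lit 608) (nat_lit 0) (XT.lf (nat_lit 0) (nat_lit 3126173454) (nat_lit 608) (nat_lit 6335496510) (nat_lit 684) (nat_lit 1763669917) (nat_lit 200) (nat_lit 5) (nat_lit 208) (nat_lit 5) (nat_lit 209) (nat_lit 5) (nat_lit 456) (nat_lit 393) (nat_lit 291)) (XT.nd (nat_lit 78) (nat_lit 532) (nat_lit 0) (XT.lf (nat_lit 0) (nat_lit 625632414) (nat_lit 684) (nat_lit 1759419484) (nat_lit 76) (nat_lit 8966644326) (nat_lit 199) (nat_lit 5) (nat_lit 208) (nat_lit 5) (nat_lit 200) (nat_lit 5) (nat_lit 457) (nat_lit 393) (nat_lit 290)) (XT.lf (nat_lit 0) (nat_lit 3060383621) (nat_lit 608) (nat_lit 6759259426) (nat_lit 76) (nat_lit 1660287344) (nat_lit 192) (nat_lit 5) (nat_lit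 200) (nat_lit 5) (nat_lit 193) (nat_lit 5) (nat_lit 458) (nat_lit 393) (nat_lit 289)))))) (XT.nd (nat_lit 390) (nat_lit 1444) (nat_lit 0) (XT.nd (nat_lit 156) (nat_lit 1140) (nat_lit 0) (XT.nd (nat_lit 78) (nat_lit 532) (nat_lit 0) (XT.lf (nat_lit 0) (nat_lit 5551320260) (nat_lit 608) (nat_lit 298050882) (nat_lit 76) (nat_lit 5761217527) (nat_lit 192) (nat_lit 5) (nat_lit 200) (nat_lit 5) (nat_lit 193) (nat_lit 5) (nat_lit 459) (nat_lit 393) (nat_lit 288)) (XT.lf (nat_lit 0) (nat_lit 6350277492) (nat_lit 532) (nat_lit 1763234765) (nat_lit 608) (nat_lit 3629928179) (nat_lit 185) (nat_lit 5) (nat_lit 192) (nat_lit 5) (nat_lit 193) (nat_lit 5) (nat_lit 460) (nat_lit 393) (nat_lit 287))) (XT.nd (nat_lit 78) (nat_lit 608) (nat_lit 0) (XT.lf (nat_lit 0) (nat_lit 1231645045) (nat_lit 532) (nat_lit 9501319506) (nat_lit 608) (nat_lit 1145873237) (nat_lit 178) (nat_lit 5) (nat_lit 185) (nat_lit 5) (nat_lit 186) (nat_lit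 5) (nat_lit 461) (nat_lit 393) (nat_lit 286)) (XT.nd (nat_lit 78) (nat_lit 532) (nat_lit 0) (XT.lf (nat_lit 0) (nat_lit 1398244904) (nat_lit 608) (nat_lit 4000777538) (nat_lit 76) (nat_lit 6617177275) (nat_lit 177) (nat_lit 5) (nat_lit 185) (nat_lit 5) (nat_lit 178) (nat_lit 5) (nat_lit 462) (nat_lit 393) (nat_lit 285)) (XT.lf (nat_lit 0) (nat_lit 2782285665) (nat_lit 532) (nat_lit 1194554586) (nat_lit 608) (nat_lit 8179346755) (nat_lit 170) (nat_lit 5) (nat_lit 177) (nat_lit 5) (nat_lit 178) (nat_lit 5) (nat_lit 463) (nat_lit 393) (nat_lit 284))))) (XT.nd (nat_lit 156) (nat_lit 988) (nat_lit 0) (XT.nd (nat_lit 78) (nat_lit 456) (nat_lit 0) (XT.lf (nat_lit 0) (nat_lit 6635153597) (nat_lit 608) (nat_lit 2588824958) (nat_lit 76) (nat_lit 3074440765) (nat_lit 170) (nat_lit 5) (nat_lit 178) (nat_lit 5) (nat_lit 171) (nat_lit 5) (nat_lit 464) (nat_lit 393) (nat_lit 283)) (XT.lf (nat_lit 0) (nat_lit 4356309626)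 (nat_lit 456) (nat_lit 5007923154) (nat_lit 532) (nat_lit 3078919551) (nat_lit 164) (nat_lit 5) (nat_lit 170) (nat_lit 5) (nat_lit 171) (nat_lit 5) (nat_lit 465) (nat_lit 393) (nat_lit 282))) (XT.nd (nat_lit 78) (nat_lit 988) (nat_lit 0) (XT.lf (nat_lit 0) (nat_lit 11450736547) (nat_lit 456) (nat_lit 696138171) (nat_lit 532) (nat_lit 443933543) (nat_lit 164) (nat_lit 5) (nat_lit 170) (nat_lit 5) (nat_lit 171) (nat_lit 5) (nat_lit 466) (nat_lit 393) (nat_lit 281)) (XT.nd (nat_lit 78) (nat_lit 456) (nat_lit 0) (XT.lf (nat_lit 0) (nat_lit 2259374483) (nat_lit 532) (nat_lit 6779972138) (nat_lit 76) (nat_lit 3700885916) (nat_lit 157) (nat_lit 5) (nat_lit 164) (nat_lit 5) (nat_lit 158) (nat_lit 5) (nat_lit 467) (nat_lit 393) (nat_lit 280)) (XT.lf (nat_lit 0) (nat_lit 297226688) (nat_lit 456) (nat_lit 4709823778) (nat_lit 532) (nat_lit 7885618654) (nat_lit 151) (nat_lit 5) (nat_lit 157) (nat_lit 5) (nat_lit 158)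 (nat_lit 5) (nat_lit 468) (nat_lit 393) (nat_lit 279))))))) (XT.nd (nat_lit 780) (nat_lit 2204) (nat_lit 0) (XT.nd (nat_lit 390) (nat_lit 1292) (nat_lit 0) (XT.nd (nat_lit 156) (nat_lit 456) (nat_lit 0) (XT.nd (nat_lit 78) (nat_lit 456) (nat_lit 0) (XT.lf (nat_lit 0) (nat_lit 7583404328) (nat_lit 456) (nat_lit 253966287) (nat_lit 532) (nat_lit 5210237288) (nat_lit 151) (nat_lit 5) (nat_lit 157) (nat_lit 5) (nat_lit 158) (nat_lit 5) (nat_lit 469) (nat_lit 393) (nat_lit 278)) (XT.lf (nat_lit 0) (nat_lit 1780852633) (nat_lit 456) (nat_lit 8965367284) (nat_lit 532) (nat_lit 2458994232) (nat_lit 145) (nat_lit 5) (nat_lit 151) (nat_lit 5) (nat_lit 152) (nat_lit 5) (nat_lit 470) (nat_lit 393) (nat_lit 277))) (XT.nd (nat_lit 78) (nat_lit 380) (nat_lit 0) (XT.lf (nat_lit 0) (nat_lit 363876549) (nat_lit 532) (nat_lit 4148922166) (nat_lit 76) (nat_lit 8852712423) (nat_lit 144) (nat_lit 5) (nat_lit 151) (nat_lit 5)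 (nat_lit 145) (nat_lit 5) (nat_lit 471) (nat_lit 393) (nat_lit 276)) (XT.nd (nat_lit 78) (nat_lit 0) (nat_lit 0) (XT.lf (nat_lit 0) (nat_lit 3214870109) (nat_lit 456) (nat_lit 10254216772) (nat_lit 76) (nat_lit 59517010) (nat_lit 139) (nat_lit 5) (nat_lit 145) (nat_lit 5) (nat_lit 140) (nat_lit 5) (nat_lit 472) (nat_lit 393) (nat_lit 275)) (XT.lf (nat_lit 0) (nat_lit 6163838933) (nat_lit 456) (nat_lit 2846117154) (nat_lit 76) (nat_lit 4684189900) (nat_lit 139) (nat_lit 5) (nat_lit 145) (nat_lit 5) (nat_lit 140) (nat_lit 5) (nat_lit 473) (nat_lit 393) (nat_lit 274))))) (XT.nd (nat_lit 156) (nat_lit 836) (nat_lit 0) (XT.nd (nat_lit 78) (nat_lit 0) (nat_lit 0) (XT.lf (nat_lit 0) (nat_lit 4748850658) (nat_lit 456) (nat_lit 4437145121) (nat_lit 532) (nat_lit 4676725442) (nat_lit 133) (nat_lit 5) (nat_lit 139) (nat_lit 5) (nat_lit 140) (nat_lit 5) (nat_lit 474) (nat_lit 393) (nat_lit 273)) (XT.lf (nat_lit 0) (nat_lit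 12272800414) (nat_lit 532) (nat_lit 1525300202) (nat_lit 76) (nat_lit 236489588) (nat_lit 133) (nat_lit 5) (nat_lit 140) (nat_lit 5) (nat_lit 134) (nat_lit 5) (nat_lit 475) (nat_lit 393) (nat_lit 272))) (XT.nd (nat_lit 78) (nat_lit 380) (nat_lit 0) (XT.lf (nat_lit 0) (nat_lit 1249661398) (nat_lit 456) (nat_lit 7972743337) (nat_lit 76) (nat_lit 4986258516) (nat_lit 127) (nat_lit 5) (nat_lit 133) (nat_lit 5) (nat_lit 128) (nat_lit 5) (nat_lit 476) (nat_lit 393) (nat_lit 271)) (XT.nd (nat_lit 78) (nat_lit 380) (nat_lit 0) (XT.lf (nat_lit 0) (nat_lit 4291959844) (nat_lit 456) (nat_lit 248021149) (nat_lit 76) (nat_lit 9846125659) (nat_lit 127) (nat_lit 5) (nat_lit 133) (nat_lit 5) (nat_lit 128) (nat_lit 5) (nat_lit 477) (nat_lit 393) (nat_lit 270)) (XT.lf (nat_lit 0) (nat_lit 7431176876) (nat_lit 456) (nat_lit 6858787925) (nat_lit 76) (nat_lit 276418523) (nat_lit 122) (nat_lit 5) (nat_lit 128) (nat_lit 5) (nat_lit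 123) (nat_lit 5) (nat_lit 478) (nat_lit 393) (nat_lit 269)))))) (XT.nd (nat_lit 390) (nat_lit 1064) (nat_lit 0) (XT.nd (nat_lit 156) (nat_lit 760) (nat_lit 0) (XT.nd (nat_lit 78) (nat_lit 0) (nat_lit 0) (XT.lf (nat_lit 0) (nat_lit 1035985793) (nat_lit 380) (nat_lit 9619975961) (nat_lit 456) (nat_lit 4093853852) (nat_lit 117) (nat_lit 5) (nat_lit 122) (nat_lit 5) (nat_lit 123) (nat_lit 5) (nat_lit 479) (nat_lit 393) (nat_lit 268)) (XT.lf (nat_lit 0) (nat_lit 9158800582) (nat_lit 380) (nat_lit 4816942874) (nat_lit 456) (nat_lit 960568682) (nat_lit 117) (nat_lit 5) (nat_lit 122) (nat_lit 5) (nat_lit 123) (nat_lit 5) (nat_lit 480) (nat_lit 393) (nat_lit 267))) (XT.nd (nat_lit 78) (nat_lit 304) (nat_lit 0) (XT.lf (nat_lit 0) (nat_lit 2206422502) (nat_lit 456) (nat_lit 12816205304) (nat_lit 76) (nat_lit 103618780) (nat_lit 111) (nat_lit 5) (nat_lit 117) (nat_lit 5) (nat_lit 112) (nat_lit 5) (nat_lit 481) (nat_lit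 393) (nat_lit 266)) (XT.nd (nat_lit 78) (nat_lit 304) (nat_lit 0) (XT.lf (nat_lit 0) (nat_lit 5479611559) (nat_lit 456) (nat_lit 4742763405) (nat_lit 76) (nat_lit 5096368676) (nat_lit 111) (nat_lit 5) (nat_lit 117) (nat_lit 5) (nat_lit 112) (nat_lit 5) (nat_lit 482) (nat_lit 393) (nat_lit 265)) (XT.lf (nat_lit 0) (nat_lit 3516003950) (nat_lit 304) (nat_lit 5310167948) (nat_lit 380) (nat_lit 6688765789) (nat_lit 107) (nat_lit 5) (nat_lit 111) (nat_lit 5) (nat_lit 112) (nat_lit 5) (nat_lit 483) (nat_lit 393) (nat_lit 264))))) (XT.nd (nat_lit 234) (nat_lit 608) (nat_lit 0) (XT.nd (nat_lit 78) (nat_lit 456) (nat_lit 0) (XT.lf (nat_lit 0) (nat_lit 11982126079) (nat_lit 304) (nat_lit 274592085) (nat_lit 380) (nat_lit 3458001455) (nat_lit 107) (nat_lit 5) (nat_lit 111) (nat_lit 5) (nat_lit 112) (nat_lit 5) (nat_lit 484) (nat_lit 393) (nat_lit 263)) (XT.nd (nat_lit 78) (nat_lit 76) (nat_lit 0) (XT.lf (nat_lit 0)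 (nat_lit 4707321089) (nat_lit 380) (nat_lit 11096153880) (nat_lit 456) (nat_lit 114075227) (nat_lit 102) (nat_lit 5) (nat_lit 107) (nat_lit 5) (nat_lit 108) (nat_lit 5) (nat_lit 485) (nat_lit 393) (nat_lit 262)) (XT.lf (nat_lit 0) (nat_lit 3266038935) (nat_lit 456) (nat_lit 2802672509) (nat_lit 76) (nat_lit 10055051725) (nat_lit 101) (nat_lit 5) (nat_lit 107) (nat_lit 5) (nat_lit 102) (nat_lit 5) (nat_lit 486) (nat_lit 393) (nat_lit 261)))) (XT.nd (nat_lit 78) (nat_lit 304) (nat_lit 0) (XT.lf (nat_lit 0) (nat_lit 5827157454) (nat_lit 304) (nat_lit 908704263) (nat_lit 380) (nat_lit 9597755637) (nat_lit 97) (nat_lit 5) (nat_lit 101) (nat_lit 5) (nat_lit 102) (nat_lit 5) (nat_lit 487) (nat_lit 393) (nat_lit 260)) (XT.nd (nat_lit 78) (nat_lit 304) (nat_lit 0) (XT.lf (nat_lit 0) (nat_lit 10308175650) (nat_lit 380) (nat_lit 1929757319) (nat_lit 76) (nat_lit 4309078378) (nat_lit 97) (nat_lit 5) (nat_lit 102) (nat_lit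 5) (nat_lit 98) (nat_lit 5) (nat_lit 488) (nat_lit 393) (nat_lit 259)) (XT.lf (nat_lit 0) (nat_lit 6881494869) (nat_lit 304) (nat_lit 7107305203) (nat_lit 380) (nat_lit 2775140392) (nat_lit 93) (nat_lit 5) (nat_lit 97) (nat_lit 5) (nat_lit 98) (nat_lit 5) (nat_lit 489) (nat_lit 393) (nat_lit 258))))))))
noncomputable def xc137 : XT := (XT.nd (nat_lit 52416) (nat_lit 0) (nat_lit 28880) (XT.nd (nat_lit 780) (nat_lit 608) (nat_lit 0) (XT.nd (nat_lit 390) (nat_lit 608) (nat_lit 0) (XT.nd (nat_lit 156) (nat_lit 532) (nat_lit 0) (XT.nd (nat_lit 78) (nat_lit 304) (nat_lit 0) (XT.lf (nat_lit 0) (nat_lit 747131552) (nat_lit 380) (nat_lit 1116091431) (nat_lit 76) (nat_lit 15121906290) (nat_lit 92) (nat_lit 5) (nat_lit 97) (nat_lit 5) (nat_lit 93) (nat_lit 5) (nat_lit 490) (nat_lit 393) (nat_lit 257)) (XT.lf (nat_lit 0) (nat_lit 4363472546) (nat_lit 380) (nat_lit 9342831230) (nat_lit 76) (nat_lit 3502859820) (nat_lit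 88) (nat_lit 5) (nat_lit 93) (nat_lit 5) (nat_lit 89) (nat_lit 5) (nat_lit 491) (nat_lit 393) (nat_lit 256))) (XT.nd (nat_lit 78) (nat_lit 532) (nat_lit 0) (XT.lf (nat_lit 0) (nat_lit 8058578712) (nat_lit 380) (nat_lit 427321077) (nat_lit 76) (nat_lit 8951654234) (nat_lit 88) (nat_lit 5) (nat_lit 93) (nat_lit 5) (nat_lit 89) (nat_lit 5) (nat_lit 492) (nat_lit 393) (nat_lit 255)) (XT.nd (nat_lit 78) (nat_lit 228) (nat_lit 0) (XT.lf (nat_lit 0) (nat_lit 8760873246) (nat_lit 304) (nat_lit 3110418652) (nat_lit 380) (nat_lit 5798350363) (nat_lit 84) (nat_lit 5) (nat_lit 88) (nat_lit 5) (nat_lit 89) (nat_lit 5) (nat_lit 493) (nat_lit 393) (nat_lit 254)) (XT.lf (nat_lit 0) (nat_lit 198885319) (nat_lit 228) (nat_lit 15567857979) (nat_lit 304) (nat_lit 2139503308) (nat_lit 81) (nat_lit 5) (nat_lit 84) (nat_lit 5) (nat_lit 85) (nat_lit 5) (nat_lit 494) (nat_lit 393) (nat_lit 253))))) (XT.nd (nat_lit 156) (nat_lit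 228) (nat_lit 0) (XT.nd (nat_lit 78) (nat_lit 304) (nat_lit 0) (XT.lf (nat_lit 0) (nat_lit 1639347623) (nat_lit 304) (nat_lit 8588919033) (nat_lit 76) (nat_lit 7917759190) (nat_lit 80) (nat_lit 5) (nat_lit 84) (nat_lit 5) (nat_lit 81) (nat_lit 5) (nat_lit 495) (nat_lit 393) (nat_lit 252)) (XT.lf (nat_lit 0) (nat_lit 686480720) (nat_lit 304) (nat_lit 4770322821) (nat_lit 380) (nat_lit 12933684556) (nat_lit 76) (nat_lit 5) (nat_lit 80) (nat_lit 5) (nat_lit 81) (nat_lit 5) (nat_lit 496) (nat_lit 393) (nat_lit 251))) (XT.nd (nat_lit 78) (nat_lit 228) (nat_lit 0) (XT.lf (nat_lit 0) (nat_lit 9401064060) (nat_lit 380) (nat_lit 8400750091) (nat_lit 76) (nat_lit 837020048) (nat_lit 76) (nat_lit 5) (nat_lit 81) (nat_lit 5) (nat_lit 77) (nat_lit 5) (nat_lit 497) (nat_lit 393) (nat_lit 250)) (XT.nd (nat_lit 78) (nat_lit 0) (nat_lit 0) (XT.lf (nat_lit 0) (nat_lit 1050839387) (nat_lit 228) (nat_lit 12399298801) (nat_lit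 304) (nat_lit 5441494110) (nat_lit 73) (nat_lit 5) (nat_lit 76) (nat_lit 5) (nat_lit 77) (nat_lit 5) (nat_lit 498) (nat_lit 393) (nat_lit 249)) (XT.lf (nat_lit 0) (nat_lit 10785542750) (nat_lit 228) (nat_lit 6838654932) (nat_lit 304) (nat_lit 1524412169) (nat_lit 73) (nat_lit 5) (nat_lit 76) (nat_lit 5) (nat_lit 77) (nat_lit 5) (nat_lit 499) (nat_lit 393) (nat_lit 248)))))) (XT.nd (nat_lit 51246) (nat_lit 0) (nat_lit 37392) (XT.nd (nat_lit 156) (nat_lit 228) (nat_lit 0) (XT.nd (nat_lit 78) (nat_lit 0) (nat_lit 0) (XT.lf (nat_lit 0) (nat_lit 1285458897) (nat_lit 304) (nat_lit 1149280008) (nat_lit 380) (nat_lit 16975747907) (nat_lit 68) (nat_lit 5) (nat_lit 72) (nat_lit 5) (nat_lit 73) (nat_lit 5) (nat_lit 500) (nat_lit 393) (nat_lit 247)) (XT.lf (nat_lit 0) (nat_lit 6527243263) (nat_lit 380) (nat_lit 8496481900) (nat_lit 76) (nat_lit 4652186344) (nat_lit 68) (nat_lit 5) (nat_lit 73) (nat_lit 5) (nat_lit 69)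 (nat_lit 5) (nat_lit 501) (nat_lit 393) (nat_lit 246))) (XT.nd (nat_lit 50934) (nat_lit 0) (nat_lit 39292) (XT.lf (nat_lit 0) (nat_lit 1315016871) (nat_lit 228) (nat_lit 9390822793) (nat_lit 304) (nat_lit 9240723492) (nat_lit 65) (nat_lit 5) (nat_lit 68) (nat_lit 5) (nat_lit 69) (nat_lit 5) (nat_lit 502) (nat_lit 393) (nat_lit 245)) (XT.nd (nat_lit 78) (nat_lit 0) (nat_lit 0) (XT.lf (nat_lit 0) (nat_lit 1002031813) (nat_lit 0) (nat_lit 1002031813) (nat_lit 836) (nat_lit 1407171904) (nat_lit 582) (nat_lit 5) (nat_lit 582) (nat_lit 3) (nat_lit 593) (nat_lit 3) (nat_lit 394) (nat_lit 394) (nat_lit 352)) (XT.lf (nat_lit 0) (nat_lit 5257408082) (nat_lit 0) (nat_lit 729311346) (nat_lit 836) (nat_lit 863588329) (nat_lit 582) (nat_lit 5) (nat_lit 582) (nat_lit 3) (nat_lit 593) (nat_lit 3) (nat_lit 395) (nat_lit 394) (nat_lit 351))))) (XT.nd (nat_lit 156) (nat_lit 988) (nat_lit 0) (XT.nd (nat_lit 78) (nat_lit 0)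 (nat_lit 0) (XT.lf (nat_lit 0) (nat_lit 1075121490) (nat_lit 912) (nat_lit 5197623632) (nat_lit 988) (nat_lit 606577243) (nat_lit 570) (nat_lit 5) (nat_lit 582) (nat_lit 5) (nat_lit 583) (nat_lit 5) (nat_lit 396) (nat_lit 394) (nat_lit 350)) (XT.lf (nat_lit 0) (nat_lit 3006410596) (nat_lit 912) (nat_lit 1903123398) (nat_lit 988) (nat_lit 2000002523) (nat_lit 570) (nat_lit 5) (nat_lit 582) (nat_lit 5) (nat_lit 583) (nat_lit 5) (nat_lit 397) (nat_lit 394) (nat_lit 349))) (XT.nd (nat_lit 78) (nat_lit 988) (nat_lit 0) (XT.lf (nat_lit 76) (nat_lit 1449630566) (nat_lit 0) (nat_lit 3486859693) (nat_lit 988) (nat_lit 2004701385) (nat_lit 571) (nat_lit 5) (nat_lit 570) (nat_lit 5) (nat_lit 583) (nat_lit 5) (nat_lit 398) (nat_lit 394) (nat_lit 348)) (XT.nd (nat_lit 78) (nat_lit 988) (nat_lit 0) (XT.lf (nat_lit 76) (nat_lit 4868763829) (nat_lit 0) (nat_lit 2000725208) (nat_lit 988) (nat_lit 104743689) (nat_lit 571)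 (nat_lit 5) (nat_lit 570) (nat_lit 5) (nat_lit 583) (nat_lit 5) (nat_lit 399) (nat_lit 394) (nat_lit 347)) (XT.lf (nat_lit 76) (nat_lit 1327221740) (nat_lit 0) (nat_lit 442709808) (nat_lit 1064) (nat_lit 5238587489) (nat_lit 558) (nat_lit 5) (nat_lit 557) (nat_lit 5) (nat_lit 571) (nat_lit 5) (nat_lit 400) (nat_lit 394) (nat_lit 346))))))) (XT.nd (nat_lit 780) (nat_lit 6460) (nat_lit 0) (XT.nd (nat_lit 390) (nat_lit 1064) (nat_lit 0) (XT.nd (nat_lit 156) (nat_lit 1064) (nat_lit 0) (XT.nd (nat_lit 78) (nat_lit 0) (nat_lit 0) (XT.lf (nat_lit 0) (nat_lit 3655409772) (nat_lit 988) (nat_lit 2221898208) (nat_lit 1064) (nat_lit 1166711949) (nat_lit 558) (nat_lit 5) (nat_lit 571) (nat_lit 5) (nat_lit 572) (nat_lit 5) (nat_lit 401) (nat_lit 394) (nat_lit 345)) (XT.lf (nat_lit 76) (nat_lit 1293699369) (nat_lit 0) (nat_lit 4250194988) (nat_lit 1064) (nat_lit 1537066765) (nat_lit 559) (nat_lit 5) (nat_lit 558) (nat_lit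 5) (nat_lit 572) (nat_lit 5) (nat_lit 402) (nat_lit 394) (nat_lit 344))) (XT.nd (nat_lit 78) (nat_lit 0) (nat_lit 0) (XT.lf (nat_lit 0) (nat_lit 316264897) (nat_lit 1064) (nat_lit 2238484892) (nat_lit 1140) (nat_lit 4564493167) (nat_lit 544) (nat_lit 5) (nat_lit 558) (nat_lit 5) (nat_lit 559) (nat_lit 5) (nat_lit 403) (nat_lit 394) (nat_lit 343)) (XT.nd (nat_lit 78) (nat_lit 0) (nat_lit 76) (XT.lf (nat_lit 76) (nat_lit 1362001834) (nat_lit 0) (nat_lit 788195857) (nat_lit 1140) (nat_lit 5008641347) (nat_lit 545) (nat_lit 5) (nat_lit 544) (nat_lit 5) (nat_lit 559) (nat_lit 5) (nat_lit 404) (nat_lit 394) (nat_lit 342)) (XT.lf (nat_lit 0) (nat_lit 3998580835) (nat_lit 1064) (nat_lit 2168564564) (nat_lit 1140) (nat_lit 1032559670) (nat_lit 545) (nat_lit 5) (nat_lit 559) (nat_lit 5) (nat_lit 560) (nat_lit 5) (nat_lit 405) (nat_lit 394) (nat_lit 341))))) (XT.nd (nat_lit 156) (nat_lit 0) (nat_lit 0) (XT.nd (nat_lit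 78) (nat_lit 1140) (nat_lit 0) (XT.lf (nat_lit 76) (nat_lit 1519731840) (nat_lit 0) (nat_lit 4336217395) (nat_lit 1140) (nat_lit 1386031638) (nat_lit 546) (nat_lit 5) (nat_lit 545) (nat_lit 5) (nat_lit 560) (nat_lit 5) (nat_lit 406) (nat_lit 394) (nat_lit 340)) (XT.lf (nat_lit 0) (nat_lit 431194895) (nat_lit 1140) (nat_lit 2004412602) (nat_lit 1216) (nat_lit 4850027088) (nat_lit 530) (nat_lit 5) (nat_lit 545) (nat_lit 5) (nat_lit 546) (nat_lit 5) (nat_lit 407) (nat_lit 394) (nat_lit 339))) (XT.nd (nat_lit 78) (nat_lit 0) (nat_lit 76) (XT.lf (nat_lit 76) (nat_lit 1774747006) (nat_lit 0) (nat_lit 461124509) (nat_lit 1216) (nat_lit 5094744246) (nat_lit 531) (nat_lit 5) (nat_lit 530) (nat_lit 5) (nat_lit 546) (nat_lit 5) (nat_lit 408) (nat_lit 394) (nat_lit 338)) (XT.nd (nat_lit 78) (nat_lit 0) (nat_lit 0) (XT.lf (nat_lit 0) (nat_lit 4059126662) (nat_lit 1140) (nat_lit 1757638360) (nat_lit 1216) (nat_lit 1560112143)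 (nat_lit 531) (nat_lit 5) (nat_lit 546) (nat_lit 5) (nat_lit 547) (nat_lit 5) (nat_lit 409) (nat_lit 394) (nat_lit 337)) (XT.lf (nat_lit 76) (nat_lit 2113873966) (nat_lit 0) (nat_lit 3781421162) (nat_lit 1216) (nat_lit 1529269418) (nat_lit 532) (nat_lit 5) (nat_lit 531) (nat_lit 5) (nat_lit 547) (nat_lit 5) (nat_lit 410) (nat_lit 394) (nat_lit 336)))))) (XT.nd (nat_lit 390) (nat_lit 5320) (nat_lit 0) (XT.nd (nat_lit 156) (nat_lit 0) (nat_lit 76) (XT.nd (nat_lit 78) (nat_lit 0) (nat_lit 76) (XT.lf (nat_lit 0) (nat_lit 262977684) (nat_lit 1216) (nat_lit 1416054312) (nat_lit 1292) (nat_lit 5794726628) (nat_lit 515) (nat_lit 5) (nat_lit 531) (nat_lit 5) (nat_lit 532) (nat_lit 5) (nat_lit 411) (nat_lit 394) (nat_lit 335)) (XT.lf (nat_lit 0) (nat_lit 2051238840) (nat_lit 1216) (nat_lit 4974855564) (nat_lit 1292) (nat_lit 498055088) (nat_lit 516) (nat_lit 5) (nat_lit 532) (nat_lit 5) (nat_lit 533) (nat_lit 5) (nat_lit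 412) (nat_lit 394) (nat_lit 334))) (XT.nd (nat_lit 78) (nat_lit 0) (nat_lit 0) (XT.lf (nat_lit 0) (nat_lit 3857395991) (nat_lit 1216) (nat_lit 1001282166) (nat_lit 1292) (nat_lit 2717254853) (nat_lit 516) (nat_lit 5) (nat_lit 532) (nat_lit 5) (nat_lit 533) (nat_lit 5) (nat_lit 413) (nat_lit 394) (nat_lit 333)) (XT.nd (nat_lit 78) (nat_lit 0) (nat_lit 0) (XT.lf (nat_lit 76) (nat_lit 3064616665) (nat_lit 0) (nat_lit 2617159062) (nat_lit 1292) (nat_lit 1947361395) (nat_lit 517) (nat_lit 5) (nat_lit 516) (nat_lit 5) (nat_lit 533) (nat_lit 5) (nat_lit 414) (nat_lit 394) (nat_lit 332)) (XT.lf (nat_lit 76) (nat_lit 7198246946) (nat_lit 0) (nat_lit 313881961) (nat_lit 1292) (nat_lit 171913073) (nat_lit 517) (nat_lit 5) (nat_lit 516) (nat_lit 5) (nat_lit 533) (nat_lit 5) (nat_lit 415) (nat_lit 394) (nat_lit 331))))) (XT.nd (nat_lit 234) (nat_lit 2888) (nat_lit 0) (XT.nd (nat_lit 78) (nat_lit 1292) (nat_lit 0) (XT.lf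 (nat_lit 0) (nat_lit 1618210184) (nat_lit 1292) (nat_lit 4068568758) (nat_lit 76) (nat_lit 2053065271) (nat_lit 500) (nat_lit 5) (nat_lit 517) (nat_lit 5) (nat_lit 501) (nat_lit 5) (nat_lit 416) (nat_lit 394) (nat_lit 330)) (XT.nd (nat_lit 78) (nat_lit 0) (nat_lit 0) (XT.lf (nat_lit 0) (nat_lit 91565679) (nat_lit 1292) (nat_lit 3320060774) (nat_lit 1368) (nat_lit 4385742323) (nat_lit 483) (nat_lit 5) (nat_lit 500) (nat_lit 5) (nat_lit 501) (nat_lit 5) (nat_lit 417) (nat_lit 394) (nat_lit 329)) (XT.lf (nat_lit 0) (nat_lit 4362464444) (nat_lit 1292) (nat_lit 870114409) (nat_lit 1368) (nat_lit 2623655994) (nat_lit 483) (nat_lit 5) (nat_lit 500) (nat_lit 5) (nat_lit 501) (nat_lit 5) (nat_lit 418) (nat_lit 394) (nat_lit 328)))) (XT.nd (nat_lit 78) (nat_lit 1520) (nat_lit 0) (XT.lf (nat_lit 0) (nat_lit 774260308) (nat_lit 1368) (nat_lit 6296407950) (nat_lit 1444) (nat_lit 846019519) (nat_lit 465) (nat_lit 5) (nat_lit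 483) (nat_lit 5) (nat_lit 484) (nat_lit 5) (nat_lit 419) (nat_lit 394) (nat_lit 327)) (XT.nd (nat_lit 78) (nat_lit 1444) (nat_lit 0) (XT.lf (nat_lit 0) (nat_lit 949216985) (nat_lit 1444) (nat_lit 2843189273) (nat_lit 76) (nat_lit 4185946246) (nat_lit 464) (nat_lit 5) (nat_lit 483) (nat_lit 5) (nat_lit 465) (nat_lit 5) (nat_lit 420) (nat_lit 394) (nat_lit 326)) (XT.lf (nat_lit 0) (nat_lit 1528912377) (nat_lit 1444) (nat_lit 1216103233) (nat_lit 1520) (nat_lit 5296625880) (nat_lit 445) (nat_lit 5) (nat_lit 464) (nat_lit 5) (nat_lit 465) (nat_lit 5) (nat_lit 421) (nat_lit 394) (nat_lit 325))))))))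
noncomputable def xc138 : XT := (XT.nd (nat_lit 1560) (nat_lit 7752) (nat_lit 0) (XT.nd (nat_lit 780) (nat_lit 5016) (nat_lit 0) (XT.nd (nat_lit 390) (nat_lit 4408) (nat_lit 0) (XT.nd (nat_lit 156) (nat_lit 1672) (nat_lit 0) (XT.nd (nat_lit 78) (nat_lit 1520) (nat_lit 0) (XT.lf (nat_lit 0) (nat_lit 4571677340) (nat_lit 1520) (nat_lit 2116230543) (nat_lit 76) (nat_lit 1418411506) (nat_lit 445) (nat_lit 5) (nat_lit 465) (nat_lit 5) (nat_lit 446) (nat_lit 5) (nat_lit 422) (nat_lit 394) (nat_lit 324)) (XT.lf (nat_lit 0) (nat_lit 2363574510) (nat_lit 1520) (nat_lit 4061928351) (nat_lit 1596) (nat_lit 1746997015) (nat_lit 425) (nat_lit 5) (nat_lit 445) (nat_lit 5) (nat_lit 446) (nat_lit 5) (nat_lit 423) (nat_lit 394) (nat_lit 323))) (XT.nd (nat_lit 78) (nat_lit 1596) (nat_lit 0) (XT.lf (nat_lit 0) (nat_lit 57154813) (nat_lit 1596) (nat_lit 1306488707) (nat_lit 76) (nat_lit 6876736217) (nat_lit 424) (nat_lit 5)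 (nat_lit 445) (nat_lit 5) (nat_lit 425) (nat_lit 5) (nat_lit 424) (nat_lit 394) (nat_lit 322)) (XT.nd (nat_lit 78) (nat_lit 0) (nat_lit 0) (XT.lf (nat_lit 0) (nat_lit 1872744593) (nat_lit 1672) (nat_lit 5028595378) (nat_lit 76) (nat_lit 1408091723) (nat_lit 403) (nat_lit 5) (nat_lit 425) (nat_lit 5) (nat_lit 404) (nat_lit 5) (nat_lit 425) (nat_lit 394) (nat_lit 321)) (XT.lf (nat_lit 0) (nat_lit 3711078691) (nat_lit 1672) (nat_lit 438952634) (nat_lit 76) (nat_lit 4230124709) (nat_lit 403) (nat_lit 5) (nat_lit 425) (nat_lit 5) (nat_lit 404) (nat_lit 5) (nat_lit 426) (nat_lit 394) (nat_lit 320))))) (XT.nd (nat_lit 156) (nat_lit 988) (nat_lit 0) (XT.nd (nat_lit 78) (nat_lit 1748) (nat_lit 0) (XT.lf (nat_lit 0) (nat_lit 4271254057) (nat_lit 1672) (nat_lit 1311849858) (nat_lit 1748) (nat_lit 2869272059) (nat_lit 381) (nat_lit 5) (nat_lit 403) (nat_lit 5) (nat_lit 404) (nat_lit 5) (nat_lit 427) (nat_lit 394) (nat_lit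 319)) (XT.lf (nat_lit 0) (nat_lit 524498263) (nat_lit 1748) (nat_lit 6954362839) (nat_lit 1824) (nat_lit 1047472602) (nat_lit 358) (nat_lit 5) (nat_lit 381) (nat_lit 5) (nat_lit 382) (nat_lit 5) (nat_lit 428) (nat_lit 394) (nat_lit 318))) (XT.nd (nat_lit 78) (nat_lit 912) (nat_lit 0) (XT.lf (nat_lit 0) (nat_lit 806902680) (nat_lit 1824) (nat_lit 3262393074) (nat_lit 76) (nat_lit 4532252564) (nat_lit 357) (nat_lit 5) (nat_lit 381) (nat_lit 5) (nat_lit 358) (nat_lit 5) (nat_lit 429) (nat_lit 394) (nat_lit 317)) (XT.nd (nat_lit 78) (nat_lit 0) (nat_lit 0) (XT.lf (nat_lit 0) (nat_lit 1557928728) (nat_lit 912) (nat_lit 1106972681) (nat_lit 988) (nat_lit 6013634216) (nat_lit 345) (nat_lit 5) (nat_lit 357) (nat_lit 5) (nat_lit 358) (nat_lit 5) (nat_lit 430) (nat_lit 394) (nat_lit 316)) (XT.lf (nat_lit 0) (nat_lit 4565377251) (nat_lit 988) (nat_lit 2278159428) (nat_lit 76) (nat_lit 1913437412) (nat_lit 345) (nat_lit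 5) (nat_lit 358) (nat_lit 5) (nat_lit 346) (nat_lit 5) (nat_lit 431) (nat_lit 394) (nat_lit 315)))))) (XT.nd (nat_lit 390) (nat_lit 2356) (nat_lit 0) (XT.nd (nat_lit 156) (nat_lit 1748) (nat_lit 0) (XT.nd (nat_lit 78) (nat_lit 0) (nat_lit 0) (XT.lf (nat_lit 0) (nat_lit 2661418535) (nat_lit 912) (nat_lit 3838475251) (nat_lit 988) (nat_lit 2337184325) (nat_lit 333) (nat_lit 5) (nat_lit 345) (nat_lit 5) (nat_lit 346) (nat_lit 5) (nat_lit 432) (nat_lit 394) (nat_lit 314)) (XT.lf (nat_lit 0) (nat_lit 7703556171) (nat_lit 912) (nat_lit 756637012) (nat_lit 988) (nat_lit 458866241) (nat_lit 333) (nat_lit 5) (nat_lit 345) (nat_lit 5) (nat_lit 346) (nat_lit 5) (nat_lit 433) (nat_lit 394) (nat_lit 313))) (XT.nd (nat_lit 78) (nat_lit 836) (nat_lit 0) (XT.lf (nat_lit 0) (nat_lit 1450847320) (nat_lit 912) (nat_lit 5160267307) (nat_lit 76) (nat_lit 2391134178) (nat_lit 321) (nat_lit 5) (nat_lit 333) (nat_lit 5) (nat_lit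 322) (nat_lit 5) (nat_lit 434) (nat_lit 394) (nat_lit 312)) (XT.nd (nat_lit 78) (nat_lit 836) (nat_lit 0) (XT.lf (nat_lit 0) (nat_lit 3378372750) (nat_lit 912) (nat_lit 105310324) (nat_lit 76) (nat_lit 5603659083) (nat_lit 321) (nat_lit 5) (nat_lit 333) (nat_lit 5) (nat_lit 322) (nat_lit 5) (nat_lit 435) (nat_lit 394) (nat_lit 311)) (XT.lf (nat_lit 0) (nat_lit 5090687362) (nat_lit 836) (nat_lit 259886529) (nat_lit 912) (nat_lit 3823456747) (nat_lit 310) (nat_lit 5) (nat_lit 321) (nat_lit 5) (nat_lit 322) (nat_lit 5) (nat_lit 436) (nat_lit 394) (nat_lit 310))))) (XT.nd (nat_lit 156) (nat_lit 1520) (nat_lit 0) (XT.nd (nat_lit 78) (nat_lit 76) (nat_lit 0) (XT.lf (nat_lit 0) (nat_lit 1097122090) (nat_lit 760) (nat_lit 6266021431) (nat_lit 836) (nat_lit 1899306335) (nat_lit 300) (nat_lit 5) (nat_lit 310) (nat_lit 5) (nat_lit 311) (nat_lit 5) (nat_lit 437) (nat_lit 394) (nat_lit 309)) (XT.lf (nat_lit 0) (nat_lit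 65385040) (nat_lit 836) (nat_lit 2945236253) (nat_lit 76) (nat_lit 6341965028) (nat_lit 299) (nat_lit 5) (nat_lit 310) (nat_lit 5) (nat_lit 300) (nat_lit 5) (nat_lit 438) (nat_lit 394) (nat_lit 308))) (XT.nd (nat_lit 78) (nat_lit 760) (nat_lit 0) (XT.lf (nat_lit 0) (nat_lit 2035649548) (nat_lit 836) (nat_lit 7075759379) (nat_lit 76) (nat_lit 333045845) (nat_lit 289) (nat_lit 5) (nat_lit 300) (nat_lit 5) (nat_lit 290) (nat_lit 5) (nat_lit 439) (nat_lit 394) (nat_lit 307)) (XT.nd (nat_lit 78) (nat_lit 760) (nat_lit 0) (XT.lf (nat_lit 0) (nat_lit 4059582194) (nat_lit 836) (nat_lit 1756190498) (nat_lit 76) (nat_lit 3722116923) (nat_lit 289) (nat_lit 5) (nat_lit 300) (nat_lit 5) (nat_lit 290) (nat_lit 5) (nat_lit 440) (nat_lit 394) (nat_lit 306)) (XT.lf (nat_lit 0) (nat_lit 3691532384) (nat_lit 760) (nat_lit 2431360341) (nat_lit 836) (nat_lit 3510336445) (nat_lit 279) (nat_lit 5) (nat_lit 289) (nat_lit 5) (nat_lit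 290) (nat_lit 5) (nat_lit 441) (nat_lit 394) (nat_lit 305))))))) (XT.nd (nat_lit 780) (nat_lit 3572) (nat_lit 0) (XT.nd (nat_lit 390) (nat_lit 1976) (nat_lit 0) (XT.nd (nat_lit 156) (nat_lit 1368) (nat_lit 0) (XT.nd (nat_lit 78) (nat_lit 836) (nat_lit 0) (XT.lf (nat_lit 0) (nat_lit 8221199570) (nat_lit 836) (nat_lit 491904463) (nat_lit 76) (nat_lit 1017510606) (nat_lit 279) (nat_lit 5) (nat_lit 290) (nat_lit 5) (nat_lit 280) (nat_lit 5) (nat_lit 442) (nat_lit 394) (nat_lit 304)) (XT.lf (nat_lit 0) (nat_lit 549587025) (nat_lit 836) (nat_lit 4741972288) (nat_lit 76) (nat_lit 4537832010) (nat_lit 268) (nat_lit 5) (nat_lit 279) (nat_lit 5) (nat_lit 269) (nat_lit 5) (nat_lit 443) (nat_lit 394) (nat_lit 303))) (XT.nd (nat_lit 78) (nat_lit 684) (nat_lit 0) (XT.lf (nat_lit 0) (nat_lit 829170629) (nat_lit 684) (nat_lit 1784971594) (nat_lit 760) (nat_lit 7316123024) (nat_lit 259) (nat_lit 5) (nat_lit 268) (nat_lit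 5) (nat_lit 269) (nat_lit 5) (nat_lit 444) (nat_lit 394) (nat_lit 302)) (XT.nd (nat_lit 78) (nat_lit 684) (nat_lit 0) (XT.lf (nat_lit 0) (nat_lit 4739797445) (nat_lit 760) (nat_lit 3495252182) (nat_lit 76) (nat_lit 1797723524) (nat_lit 259) (nat_lit 5) (nat_lit 269) (nat_lit 5) (nat_lit 260) (nat_lit 5) (nat_lit 445) (nat_lit 394) (nat_lit 301)) (XT.lf (nat_lit 0) (nat_lit 2213541515) (nat_lit 684) (nat_lit 4697228646) (nat_lit 760) (nat_lit 3226517395) (nat_lit 250) (nat_lit 5) (nat_lit 259) (nat_lit 5) (nat_lit 260) (nat_lit 5) (nat_lit 446) (nat_lit 394) (nat_lit 300))))) (XT.nd (nat_lit 156) (nat_lit 1292) (nat_lit 0) (XT.nd (nat_lit 78) (nat_lit 684) (nat_lit 0) (XT.lf (nat_lit 0) (nat_lit 8057688094) (nat_lit 684) (nat_lit 1067829301) (nat_lit 760) (nat_lit 1118379940) (nat_lit 250) (nat_lit 5) (nat_lit 259) (nat_lit 5) (nat_lit 260) (nat_lit 5) (nat_lit 447) (nat_lit 394) (nat_lit 299)) (XT.lf (nat_lit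 0) (nat_lit 1036766111) (nat_lit 684) (nat_lit 6688118855) (nat_lit 76) (nat_lit 2627264468) (nat_lit 241) (nat_lit 5) (nat_lit 250) (nat_lit 5) (nat_lit 242) (nat_lit 5) (nat_lit 448) (nat_lit 394) (nat_lit 298))) (XT.nd (nat_lit 78) (nat_lit 1292) (nat_lit 0) (XT.lf (nat_lit 0) (nat_lit 3219342779) (nat_lit 684) (nat_lit 842211359) (nat_lit 76) (nat_lit 6400890015) (nat_lit 241) (nat_lit 5) (nat_lit 250) (nat_lit 5) (nat_lit 242) (nat_lit 5) (nat_lit 449) (nat_lit 394) (nat_lit 297)) (XT.nd (nat_lit 78) (nat_lit 608) (nat_lit 0) (XT.lf (nat_lit 0) (nat_lit 5162564730) (nat_lit 684) (nat_lit 294416533) (nat_lit 760) (nat_lit 5117746557) (nat_lit 232) (nat_lit 5) (nat_lit 241) (nat_lit 5) (nat_lit 242) (nat_lit 5) (nat_lit 450) (nat_lit 394) (nat_lit 296)) (XT.lf (nat_lit 0) (nat_lit 568073586) (nat_lit 608) (nat_lit 7181847259) (nat_lit 684) (nat_lit 2939136387) (nat_lit 224) (nat_lit 5) (nat_lit 232) (nat_lit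 5) (nat_lit 233) (nat_lit 5) (nat_lit 451) (nat_lit 394) (nat_lit 295)))))) (XT.nd (nat_lit 390) (nat_lit 2356) (nat_lit 0) (XT.nd (nat_lit 156) (nat_lit 532) (nat_lit 0) (XT.nd (nat_lit 78) (nat_lit 684) (nat_lit 0) (XT.lf (nat_lit 0) (nat_lit 6713462133) (nat_lit 608) (nat_lit 3391907987) (nat_lit 684) (nat_lit 699980918) (nat_lit 224) (nat_lit 5) (nat_lit 232) (nat_lit 5) (nat_lit 233) (nat_lit 5) (nat_lit 452) (nat_lit 394) (nat_lit 294)) (XT.lf (nat_lit 0) (nat_lit 1558358673) (nat_lit 684) (nat_lit 8878395148) (nat_lit 76) (nat_lit 487118119) (nat_lit 215) (nat_lit 5) (nat_lit 224) (nat_lit 5) (nat_lit 216) (nat_lit 5) (nat_lit 453) (nat_lit 394) (nat_lit 293))) (XT.nd (nat_lit 78) (nat_lit 532) (nat_lit 0) (XT.lf (nat_lit 0) (nat_lit 3881497507) (nat_lit 684) (nat_lit 2736300508) (nat_lit 76) (nat_lit 4426302803) (nat_lit 215) (nat_lit 5) (nat_lit 224) (nat_lit 5) (nat_lit 216) (nat_lit 5) (nat_lit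 454) (nat_lit 394) (nat_lit 292)) (XT.nd (nat_lit 78) (nat_lit 0) (nat_lit 0) (XT.lf (nat_lit 0) (nat_lit 3549837477) (nat_lit 532) (nat_lit 2703616297) (nat_lit 608) (nat_lit 4913243405) (nat_lit 208) (nat_lit 5) (nat_lit 215) (nat_lit 5) (nat_lit 216) (nat_lit 5) (nat_lit 455) (nat_lit 394) (nat_lit 291)) (XT.lf (nat_lit 0) (nat_lit 8679219056) (nat_lit 608) (nat_lit 1326654952) (nat_lit 76) (nat_lit 1285753861) (nat_lit 208) (nat_lit 5) (nat_lit 216) (nat_lit 5) (nat_lit 209) (nat_lit 5) (nat_lit 456) (nat_lit 394) (nat_lit 290))))) (XT.nd (nat_lit 234) (nat_lit 1140) (nat_lit 0) (XT.nd (nat_lit 78) (nat_lit 608) (nat_lit 0) (XT.lf (nat_lit 0) (nat_lit 5113437749) (nat_lit 608) (nat_lit 6071086280) (nat_lit 684) (nat_lit 233922268) (nat_lit 200) (nat_lit 5) (nat_lit 208) (nat_lit 5) (nat_lit 209) (nat_lit 5) (nat_lit 457) (nat_lit 394) (nat_lit 289)) (XT.nd (nat_lit 78) (nat_lit 0) (nat_lit 0) (XT.lf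 (nat_lit 0) (nat_lit 114720283) (nat_lit 532) (nat_lit 2038380908) (nat_lit 608) (nat_lit 9394630136) (nat_lit 192) (nat_lit 5) (nat_lit 199) (nat_lit 5) (nat_lit 200) (nat_lit 5) (nat_lit 458) (nat_lit 394) (nat_lit 288)) (XT.lf (nat_lit 0) (nat_lit 4621004503) (nat_lit 608) (nat_lit 4971136975) (nat_lit 76) (nat_lit 2086713276) (nat_lit 192) (nat_lit 5) (nat_lit 200) (nat_lit 5) (nat_lit 193) (nat_lit 5) (nat_lit 459) (nat_lit 394) (nat_lit 287)))) (XT.nd (nat_lit 78) (nat_lit 608) (nat_lit 0) (XT.lf (nat_lit 0) (nat_lit 1602602241) (nat_lit 532) (nat_lit 5540162531) (nat_lit 608) (nat_lit 4669754779) (nat_lit 185) (nat_lit 5) (nat_lit 192) (nat_lit 5) (nat_lit 193) (nat_lit 5) (nat_lit 460) (nat_lit 394) (nat_lit 286)) (XT.nd (nat_lit 78) (nat_lit 608) (nat_lit 0) (XT.lf (nat_lit 0) (nat_lit 8350473532) (nat_lit 532) (nat_lit 1378660133) (nat_lit 608) (nat_lit 2219449214) (nat_lit 185) (nat_lit 5) (nat_lit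 192) (nat_lit 5) (nat_lit 193) (nat_lit 5) (nat_lit 461) (nat_lit 394) (nat_lit 285)) (XT.lf (nat_lit 0) (nat_lit 296493760) (nat_lit 608) (nat_lit 8944955424) (nat_lit 76) (nat_lit 2845484281) (nat_lit 177) (nat_lit 5) (nat_lit 185) (nat_lit 5) (nat_lit 178) (nat_lit 5) (nat_lit 462) (nat_lit 394) (nat_lit 284))))))))
noncomputable def xc139 : XT := (XT.nd (nat_lit 1560) (nat_lit 3268) (nat_lit 0) (XT.nd (nat_lit 780) (nat_lit 2508) (nat_lit 0) (XT.nd (nat_lit 390) (nat_lit 988) (nat_lit 0) (XT.nd (nat_lit 156) (nat_lit 988) (nat_lit 0) (XT.nd (nat_lit 78) (nat_lit 532) (nat_lit 0) (XT.lf (nat_lit 0) (nat_lit 2847734864) (nat_lit 608) (nat_lit 2210604256) (nat_lit 76) (nat_lit 7169132778) (nat_lit 177) (nat_lit 5) (nat_lit 185) (nat_lit 5) (nat_lit 178) (nat_lit 5) (nat_lit 463) (nat_lit 394) (nat_lit 283)) (XT.lf (nat_lit 0) (nat_lit 4695816338) (nat_lit 532) (nat_lit 766275361) (nat_lit 608) (nat_lit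 6908495624) (nat_lit 170) (nat_lit 5) (nat_lit 177) (nat_lit 5) (nat_lit 178) (nat_lit 5) (nat_lit 464) (nat_lit 394) (nat_lit 282))) (XT.nd (nat_lit 78) (nat_lit 988) (nat_lit 0) (XT.lf (nat_lit 0) (nat_lit 8148886504) (nat_lit 608) (nat_lit 793863621) (nat_lit 76) (nat_lit 3573419798) (nat_lit 170) (nat_lit 5) (nat_lit 178) (nat_lit 5) (nat_lit 171) (nat_lit 5) (nat_lit 465) (nat_lit 394) (nat_lit 281)) (XT.nd (nat_lit 78) (nat_lit 532) (nat_lit 0) (XT.lf (nat_lit 0) (nat_lit 6278024064) (nat_lit 456) (nat_lit 4639355554) (nat_lit 532) (nat_lit 1746733038) (nat_lit 164) (nat_lit 5) (nat_lit 170) (nat_lit 5) (nat_lit 171) (nat_lit 5) (nat_lit 466) (nat_lit 394) (nat_lit 280)) (XT.lf (nat_lit 0) (nat_lit 665899932) (nat_lit 456) (nat_lit 240065155) (nat_lit 532) (nat_lit 11909098624) (nat_lit 157) (nat_lit 5) (nat_lit 163) (nat_lit 5) (nat_lit 164) (nat_lit 5) (nat_lit 467) (nat_lit 394) (nat_lit 279)))))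 (XT.nd (nat_lit 156) (nat_lit 532) (nat_lit 0) (XT.nd (nat_lit 78) (nat_lit 456) (nat_lit 0) (XT.lf (nat_lit 0) (nat_lit 3641416149) (nat_lit 532) (nat_lit 5086259198) (nat_lit 76) (nat_lit 4240073050) (nat_lit 157) (nat_lit 5) (nat_lit 164) (nat_lit 5) (nat_lit 158) (nat_lit 5) (nat_lit 468) (nat_lit 394) (nat_lit 278)) (XT.lf (nat_lit 0) (nat_lit 2120448655) (nat_lit 456) (nat_lit 4309183139) (nat_lit 532) (nat_lit 6693901011) (nat_lit 151) (nat_lit 5) (nat_lit 157) (nat_lit 5) (nat_lit 158) (nat_lit 5) (nat_lit 469) (nat_lit 394) (nat_lit 277))) (XT.nd (nat_lit 78) (nat_lit 532) (nat_lit 0) (XT.lf (nat_lit 0) (nat_lit 9292096063) (nat_lit 532) (nat_lit 3766850537) (nat_lit 76) (nat_lit 223123616) (nat_lit 151) (nat_lit 5) (nat_lit 158) (nat_lit 5) (nat_lit 152) (nat_lit 5) (nat_lit 470) (nat_lit 394) (nat_lit 276)) (XT.nd (nat_lit 78) (nat_lit 76) (nat_lit 0) (XT.lf (nat_lit 0) (nat_lit 3609550195) (nat_lit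 456) (nat_lit 8637412391) (nat_lit 532) (nat_lit 1196119593) (nat_lit 145) (nat_lit 5) (nat_lit 151) (nat_lit 5) (nat_lit 152) (nat_lit 5) (nat_lit 471) (nat_lit 394) (nat_lit 275)) (XT.lf (nat_lit 0) (nat_lit 1640611622) (nat_lit 532) (nat_lit 2456608419) (nat_lit 76) (nat_lit 9509712470) (nat_lit 144) (nat_lit 5) (nat_lit 151) (nat_lit 5) (nat_lit 145) (nat_lit 5) (nat_lit 472) (nat_lit 394) (nat_lit 274)))))) (XT.nd (nat_lit 390) (nat_lit 1216) (nat_lit 0) (XT.nd (nat_lit 156) (nat_lit 912) (nat_lit 0) (XT.nd (nat_lit 78) (nat_lit 0) (nat_lit 0) (XT.lf (nat_lit 0) (nat_lit 4538479921) (nat_lit 456) (nat_lit 8673373884) (nat_lit 76) (nat_lit 561646014) (nat_lit 139) (nat_lit 5) (nat_lit 145) (nat_lit 5) (nat_lit 140) (nat_lit 5) (nat_lit 473) (nat_lit 394) (nat_lit 273)) (XT.lf (nat_lit 0) (nat_lit 7521735722) (nat_lit 456) (nat_lit 1152130455) (nat_lit 76) (nat_lit 5268990036) (nat_lit 139) (nat_lit 5)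 (nat_lit 145) (nat_lit 5) (nat_lit 140) (nat_lit 5) (nat_lit 474) (nat_lit 394) (nat_lit 272))) (XT.nd (nat_lit 78) (nat_lit 456) (nat_lit 0) (XT.lf (nat_lit 0) (nat_lit 6583217576) (nat_lit 456) (nat_lit 4008203165) (nat_lit 532) (nat_lit 3523649925) (nat_lit 133) (nat_lit 5) (nat_lit 139) (nat_lit 5) (nat_lit 140) (nat_lit 5) (nat_lit 475) (nat_lit 394) (nat_lit 271)) (XT.nd (nat_lit 78) (nat_lit 76) (nat_lit 0) (XT.lf (nat_lit 0) (nat_lit 172866586) (nat_lit 380) (nat_lit 13547557495) (nat_lit 456) (nat_lit 570352930) (nat_lit 128) (nat_lit 5) (nat_lit 133) (nat_lit 5) (nat_lit 134) (nat_lit 5) (nat_lit 476) (nat_lit 394) (nat_lit 270)) (XT.lf (nat_lit 0) (nat_lit 2471603623) (nat_lit 456) (nat_lit 6400799977) (nat_lit 76) (nat_lit 5596050217) (nat_lit 127) (nat_lit 5) (nat_lit 133) (nat_lit 5) (nat_lit 128) (nat_lit 5) (nat_lit 477) (nat_lit 394) (nat_lit 269))))) (XT.nd (nat_lit 156) (nat_lit 836) (nat_lit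 0) (XT.nd (nat_lit 78) (nat_lit 0) (nat_lit 0) (XT.lf (nat_lit 0) (nat_lit 1463663884) (nat_lit 380) (nat_lit 4097117642) (nat_lit 456) (nat_lit 9088952590) (nat_lit 122) (nat_lit 5) (nat_lit 127) (nat_lit 5) (nat_lit 128) (nat_lit 5) (nat_lit 478) (nat_lit 394) (nat_lit 268)) (XT.lf (nat_lit 0) (nat_lit 8744626644) (nat_lit 456) (nat_lit 5289434774) (nat_lit 76) (nat_lit 799926561) (nat_lit 122) (nat_lit 5) (nat_lit 128) (nat_lit 5) (nat_lit 123) (nat_lit 5) (nat_lit 479) (nat_lit 394) (nat_lit 267))) (XT.nd (nat_lit 78) (nat_lit 456) (nat_lit 0) (XT.lf (nat_lit 0) (nat_lit 2752007254) (nat_lit 380) (nat_lit 9270067258) (nat_lit 456) (nat_lit 2999259409) (nat_lit 117) (nat_lit 5) (nat_lit 122) (nat_lit 5) (nat_lit 123) (nat_lit 5) (nat_lit 480) (nat_lit 394) (nat_lit 266)) (XT.nd (nat_lit 78) (nat_lit 380) (nat_lit 0) (XT.lf (nat_lit 0) (nat_lit 171346292) (nat_lit 456) (nat_lit 4209110888) (nat_lit 76)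 (nat_lit 10831541013) (nat_lit 116) (nat_lit 5) (nat_lit 122) (nat_lit 5) (nat_lit 117) (nat_lit 5) (nat_lit 481) (nat_lit 394) (nat_lit 265)) (XT.lf (nat_lit 0) (nat_lit 3380833109) (nat_lit 456) (nat_lit 11386551682) (nat_lit 76) (nat_lit 638387074) (nat_lit 111) (nat_lit 5) (nat_lit 117) (nat_lit 5) (nat_lit 112) (nat_lit 5) (nat_lit 482) (nat_lit 394) (nat_lit 264))))))) (XT.nd (nat_lit 780) (nat_lit 1520) (nat_lit 0) (XT.nd (nat_lit 390) (nat_lit 988) (nat_lit 0) (XT.nd (nat_lit 156) (nat_lit 456) (nat_lit 0) (XT.nd (nat_lit 78) (nat_lit 304) (nat_lit 0) (XT.lf (nat_lit 0) (nat_lit 6697323552) (nat_lit 456) (nat_lit 3184699332) (nat_lit 76) (nat_lit 5720546950) (nat_lit 111) (nat_lit 5) (nat_lit 117) (nat_lit 5) (nat_lit 112) (nat_lit 5) (nat_lit 483) (nat_lit 394) (nat_lit 263)) (XT.lf (nat_lit 0) (nat_lit 5228368901) (nat_lit 304) (nat_lit 4871379602) (nat_lit 380) (nat_lit 5703168164) (nat_lit 107)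 (nat_lit 5) (nat_lit 111) (nat_lit 5) (nat_lit 112) (nat_lit 5) (nat_lit 484) (nat_lit 394) (nat_lit 262))) (XT.nd (nat_lit 78) (nat_lit 456) (nat_lit 0) (XT.lf (nat_lit 0) (nat_lit 13579045425) (nat_lit 380) (nat_lit 2177165943) (nat_lit 76) (nat_lit 250887502) (nat_lit 107) (nat_lit 5) (nat_lit 112) (nat_lit 5) (nat_lit 108) (nat_lit 5) (nat_lit 485) (nat_lit 394) (nat_lit 261)) (XT.nd (nat_lit 78) (nat_lit 0) (nat_lit 0) (XT.lf (nat_lit 0) (nat_lit 960960246) (nat_lit 456) (nat_lit 9801475929) (nat_lit 76) (nat_lit 5451607450) (nat_lit 101) (nat_lit 5) (nat_lit 107) (nat_lit 5) (nat_lit 102) (nat_lit 5) (nat_lit 486) (nat_lit 394) (nat_lit 260)) (XT.lf (nat_lit 0) (nat_lit 4386056713) (nat_lit 456) (nat_lit 1258527629) (nat_lit 76) (nat_lit 10780210280) (nat_lit 101) (nat_lit 5) (nat_lit 107) (nat_lit 5) (nat_lit 102) (nat_lit 5) (nat_lit 487) (nat_lit 394) (nat_lit 259))))) (XT.nd (nat_lit 156) (nat_lit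 684) (nat_lit 0) (XT.nd (nat_lit 78) (nat_lit 0) (nat_lit 0) (XT.lf (nat_lit 0) (nat_lit 7533371312) (nat_lit 304) (nat_lit 381545501) (nat_lit 380) (nat_lit 8724143121) (nat_lit 97) (nat_lit 5) (nat_lit 101) (nat_lit 5) (nat_lit 102) (nat_lit 5) (nat_lit 488) (nat_lit 394) (nat_lit 258)) (XT.lf (nat_lit 0) (nat_lit 11541671051) (nat_lit 380) (nat_lit 392509511) (nat_lit 76) (nat_lit 4922888091) (nat_lit 97) (nat_lit 5) (nat_lit 102) (nat_lit 5) (nat_lit 98) (nat_lit 5) (nat_lit 489) (nat_lit 394) (nat_lit 257))) (XT.nd (nat_lit 78) (nat_lit 380) (nat_lit 0) (XT.lf (nat_lit 0) (nat_lit 8584600333) (nat_lit 304) (nat_lit 6701327972) (nat_lit 380) (nat_lit 1792614234) (nat_lit 93) (nat_lit 5) (nat_lit 97) (nat_lit 5) (nat_lit 98) (nat_lit 5) (nat_lit 490) (nat_lit 394) (nat_lit 256)) (XT.nd (nat_lit 78) (nat_lit 0) (nat_lit 0) (XT.lf (nat_lit 0) (nat_lit 415479681) (nat_lit 304) (nat_lit 1353620531) (nat_lit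 380) (nat_lit 15535274239) (nat_lit 88) (nat_lit 5) (nat_lit 92) (nat_lit 5) (nat_lit 93) (nat_lit 5) (nat_lit 491) (nat_lit 394) (nat_lit 255)) (XT.lf (nat_lit 0) (nat_lit 5448894754) (nat_lit 380) (nat_lit 7974757628) (nat_lit 76) (nat_lit 4109420757) (nat_lit 88) (nat_lit 5) (nat_lit 93) (nat_lit 5) (nat_lit 89) (nat_lit 5) (nat_lit 492) (nat_lit 394) (nat_lit 254)))))) (XT.nd (nat_lit 390) (nat_lit 608) (nat_lit 0) (XT.nd (nat_lit 156) (nat_lit 608) (nat_lit 0) (XT.nd (nat_lit 78) (nat_lit 0) (nat_lit 0) (XT.lf (nat_lit 0) (nat_lit 1103040473) (nat_lit 304) (nat_lit 8102452617) (nat_lit 380) (nat_lit 8560792574) (nat_lit 84) (nat_lit 5) (nat_lit 88) (nat_lit 5) (nat_lit 89) (nat_lit 5) (nat_lit 493) (nat_lit 394) (nat_lit 253)) (XT.lf (nat_lit 0) (nat_lit 10450502890) (nat_lit 304) (nat_lit 2627440683) (nat_lit 380) (nat_lit 4925408406) (nat_lit 84) (nat_lit 5) (nat_lit 88) (nat_lit 5) (nat_lit 89) (nat_lit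 5) (nat_lit 494) (nat_lit 394) (nat_lit 252))) (XT.nd (nat_lit 78) (nat_lit 380) (nat_lit 0) (XT.lf (nat_lit 0) (nat_lit 1723349175) (nat_lit 228) (nat_lit 15322292708) (nat_lit 304) (nat_lit 1199165626) (nat_lit 81) (nat_lit 5) (nat_lit 84) (nat_lit 5) (nat_lit 85) (nat_lit 5) (nat_lit 495) (nat_lit 394) (nat_lit 251)) (XT.nd (nat_lit 78) (nat_lit 304) (nat_lit 0) (XT.lf (nat_lit 0) (nat_lit 2623344233) (nat_lit 304) (nat_lit 7257102255) (nat_lit 76) (nat_lit 8609194294) (nat_lit 80) (nat_lit 5) (nat_lit 84) (nat_lit 5) (nat_lit 81) (nat_lit 5) (nat_lit 496) (nat_lit 394) (nat_lit 250)) (XT.lf (nat_lit 0) (nat_lit 2193913419) (nat_lit 304) (nat_lit 4314282792) (nat_lit 380) (nat_lit 12230980647) (nat_lit 76) (nat_lit 5) (nat_lit 80) (nat_lit 5) (nat_lit 81) (nat_lit 5) (nat_lit 497) (nat_lit 394) (nat_lit 249))))) (XT.nd (nat_lit 234) (nat_lit 380) (nat_lit 0) (XT.nd (nat_lit 78) (nat_lit 228) (nat_lit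 0) (XT.lf (nat_lit 0) (nat_lit 10516376474) (nat_lit 380) (nat_lit 7089114378) (nat_lit 76) (nat_lit 1387303749) (nat_lit 76) (nat_lit 5) (nat_lit 81) (nat_lit 5) (nat_lit 77) (nat_lit 5) (nat_lit 498) (nat_lit 394) (nat_lit 248)) (XT.nd (nat_lit 78) (nat_lit 0) (nat_lit 0) (XT.lf (nat_lit 0) (nat_lit 2541772346) (nat_lit 228) (nat_lit 12096021231) (nat_lit 304) (nat_lit 4613033158) (nat_lit 73) (nat_lit 5) (nat_lit 76) (nat_lit 5) (nat_lit 77) (nat_lit 5) (nat_lit 499) (nat_lit 394) (nat_lit 247)) (XT.lf (nat_lit 0) (nat_lit 12442347891) (nat_lit 228) (nat_lit 6434973573) (nat_lit 304) (nat_lit 635987830) (nat_lit 73) (nat_lit 5) (nat_lit 76) (nat_lit 5) (nat_lit 77) (nat_lit 5) (nat_lit 500) (nat_lit 394) (nat_lit 246)))) (XT.nd (nat_lit 78) (nat_lit 0) (nat_lit 0) (XT.lf (nat_lit 0) (nat_lit 2755007078) (nat_lit 304) (nat_lit 626880259) (nat_lit 380) (nat_lit 16398590275) (nat_lit 68) (nat_lit 5) (nat_lit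 72) (nat_lit 5) (nat_lit 73) (nat_lit 5) (nat_lit 501) (nat_lit 394) (nat_lit 245)) (XT.nd (nat_lit 51012) (nat_lit 0) (nat_lit 38076) (XT.lf (nat_lit 0) (nat_lit 7542096616) (nat_lit 380) (nat_lit 7236492974) (nat_lit 76) (nat_lit 5272909014) (nat_lit 68) (nat_lit 5) (nat_lit 73) (nat_lit 5) (nat_lit 69) (nat_lit 5) (nat_lit 502) (nat_lit 394) (nat_lit 244)) (XT.lf (nat_lit 0) (nat_lit 523774562) (nat_lit 988) (nat_lit 1457745486) (nat_lit 988) (nat_lit 1457745486) (nat_lit 569) (nat_lit 3) (nat_lit 582) (nat_lit 3) (nat_lit 582) (nat_lit 5) (nat_lit 395) (nat_lit 395) (nat_lit 350))))))))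
noncomputable def xc140 : XT := (XT.nd (nat_lit 1560) (nat_lit 14364) (nat_lit 0) (XT.nd (nat_lit 780) (nat_lit 3344) (nat_lit 0) (XT.nd (nat_lit 390) (nat_lit 1064) (nat_lit 0) (XT.nd (nat_lit 156) (nat_lit 912) (nat_lit 0) (XT.nd (nat_lit 78) (nat_lit 0) (nat_lit 0) (XT.lf (nat_lit 76) (nat_lit 327061291) (nat_lit 0) (nat_lit 2610196879) (nat_lit 988) (nat_lit 3970949053) (nat_lit 570) (nat_lit 5) (nat_lit 569) (nat_lit 3) (nat_lit 582) (nat_lit 5) (nat_lit 396) (nat_lit 395) (nat_lit 349)) (XT.lf (nat_lit 76) (nat_lit 3648519868) (nat_lit 0) (nat_lit 1186403401) (nat_lit 988) (nat_lit 2104190382) (nat_lit 570) (nat_lit 5) (nat_lit 569) (nat_lit 3) (nat_lit 582) (nat_lit 5) (nat_lit 397) (nat_lit 395) (nat_lit 348))) (XT.nd (nat_lit 78) (nat_lit 988) (nat_lit 0) (XT.lf (nat_lit 76) (nat_lit 38421210) (nat_lit 0) (nat_lit 6685814536) (nat_lit 988) (nat_lit 247367783) (nat_lit 571) (nat_lit 5) (nat_lit 570)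 (nat_lit 5) (nat_lit 583) (nat_lit 5) (nat_lit 398) (nat_lit 395) (nat_lit 347)) (XT.nd (nat_lit 78) (nat_lit 0) (nat_lit 0) (XT.lf (nat_lit 0) (nat_lit 1607224860) (nat_lit 988) (nat_lit 3571001879) (nat_lit 1064) (nat_lit 1826695752) (nat_lit 557) (nat_lit 5) (nat_lit 570) (nat_lit 5) (nat_lit 571) (nat_lit 5) (nat_lit 399) (nat_lit 395) (nat_lit 346)) (XT.lf (nat_lit 0) (nat_lit 3448682657) (nat_lit 988) (nat_lit 169321617) (nat_lit 1064) (nat_lit 3421846090) (nat_lit 557) (nat_lit 5) (nat_lit 570) (nat_lit 5) (nat_lit 571) (nat_lit 5) (nat_lit 400) (nat_lit 395) (nat_lit 345))))) (XT.nd (nat_lit 156) (nat_lit 0) (nat_lit 76) (XT.nd (nat_lit 78) (nat_lit 1064) (nat_lit 0) (XT.lf (nat_lit 76) (nat_lit 3318318884) (nat_lit 0) (nat_lit 1984197860) (nat_lit 1064) (nat_lit 1773485324) (nat_lit 558) (nat_lit 5) (nat_lit 557) (nat_lit 5) (nat_lit 571) (nat_lit 5) (nat_lit 401) (nat_lit 395) (nat_lit 344)) (XT.lf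 (nat_lit 0) (nat_lit 35042492) (nat_lit 1064) (nat_lit 261443289) (nat_lit 1140) (nat_lit 6817304414) (nat_lit 543) (nat_lit 5) (nat_lit 557) (nat_lit 5) (nat_lit 558) (nat_lit 5) (nat_lit 402) (nat_lit 395) (nat_lit 343))) (XT.nd (nat_lit 78) (nat_lit 0) (nat_lit 0) (XT.lf (nat_lit 0) (nat_lit 1842407153) (nat_lit 1064) (nat_lit 3851350000) (nat_lit 1140) (nat_lit 1458648341) (nat_lit 544) (nat_lit 5) (nat_lit 558) (nat_lit 5) (nat_lit 559) (nat_lit 5) (nat_lit 403) (nat_lit 395) (nat_lit 342)) (XT.nd (nat_lit 78) (nat_lit 0) (nat_lit 0) (XT.lf (nat_lit 0) (nat_lit 3645779575) (nat_lit 1064) (nat_lit 281805827) (nat_lit 1140) (nat_lit 3265043946) (nat_lit 544) (nat_lit 5) (nat_lit 558) (nat_lit 5) (nat_lit 559) (nat_lit 5) (nat_lit 404) (nat_lit 395) (nat_lit 341)) (XT.lf (nat_lit 76) (nat_lit 3377523207) (nat_lit 0) (nat_lit 2086616484) (nat_lit 1140) (nat_lit 1769972388) (nat_lit 545) (nat_lit 5) (nat_lit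 544) (nat_lit 5) (nat_lit 559) (nat_lit 5) (nat_lit 405) (nat_lit 395) (nat_lit 340)))))) (XT.nd (nat_lit 390) (nat_lit 2280) (nat_lit 0) (XT.nd (nat_lit 156) (nat_lit 0) (nat_lit 76) (XT.nd (nat_lit 78) (nat_lit 0) (nat_lit 76) (XT.lf (nat_lit 0) (nat_lit 1144767) (nat_lit 1140) (nat_lit 189146646) (nat_lit 1216) (nat_lit 7086973894) (nat_lit 529) (nat_lit 5) (nat_lit 544) (nat_lit 5) (nat_lit 545) (nat_lit 5) (nat_lit 406) (nat_lit 395) (nat_lit 339)) (XT.lf (nat_lit 0) (nat_lit 1776974596) (nat_lit 1140) (nat_lit 3772300386) (nat_lit 1216) (nat_lit 1771943732) (nat_lit 530) (nat_lit 5) (nat_lit 545) (nat_lit 5) (nat_lit 546) (nat_lit 5) (nat_lit 407) (nat_lit 395) (nat_lit 338))) (XT.nd (nat_lit 78) (nat_lit 0) (nat_lit 0) (XT.lf (nat_lit 0) (nat_lit 3549804335) (nat_lit 1140) (nat_lit 29584570) (nat_lit 1216) (nat_lit 3787462926) (nat_lit 530) (nat_lit 5) (nat_lit 545) (nat_lit 5) (nat_lit 546) (nat_lit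 5) (nat_lit 408) (nat_lit 395) (nat_lit 337)) (XT.nd (nat_lit 78) (nat_lit 0) (nat_lit 76) (XT.lf (nat_lit 76) (nat_lit 3811902203) (nat_lit 0) (nat_lit 1530688281) (nat_lit 1216) (nat_lit 2071146839) (nat_lit 531) (nat_lit 5) (nat_lit 530) (nat_lit 5) (nat_lit 546) (nat_lit 5) (nat_lit 409) (nat_lit 395) (nat_lit 336)) (XT.lf (nat_lit 76) (nat_lit 241787257) (nat_lit 0) (nat_lit 6895304624) (nat_lit 1216) (nat_lit 325180583) (nat_lit 532) (nat_lit 5) (nat_lit 531) (nat_lit 5) (nat_lit 547) (nat_lit 5) (nat_lit 410) (nat_lit 395) (nat_lit 335))))) (XT.nd (nat_lit 156) (nat_lit 1216) (nat_lit 0) (XT.nd (nat_lit 78) (nat_lit 0) (nat_lit 0) (XT.lf (nat_lit 0) (nat_lit 1431857252) (nat_lit 1216) (nat_lit 3347126688) (nat_lit 1292) (nat_lit 2732728456) (nat_lit 515) (nat_lit 5) (nat_lit 531) (nat_lit 5) (nat_lit 532) (nat_lit 5) (nat_lit 411) (nat_lit 395) (nat_lit 334)) (XT.lf (nat_lit 76) (nat_lit 582529374)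 (nat_lit 0) (nat_lit 2602484425) (nat_lit 1292) (nat_lit 4377805147) (nat_lit 516) (nat_lit 5) (nat_lit 515) (nat_lit 5) (nat_lit 532) (nat_lit 5) (nat_lit 412) (nat_lit 395) (nat_lit 333))) (XT.nd (nat_lit 78) (nat_lit 1216) (nat_lit 0) (XT.lf (nat_lit 76) (nat_lit 4609669021) (nat_lit 0) (nat_lit 348153395) (nat_lit 1292) (nat_lit 2657460341) (nat_lit 516) (nat_lit 5) (nat_lit 515) (nat_lit 5) (nat_lit 532) (nat_lit 5) (nat_lit 413) (nat_lit 395) (nat_lit 332)) (XT.nd (nat_lit 78) (nat_lit 1292) (nat_lit 0) (XT.lf (nat_lit 76) (nat_lit 1022493932) (nat_lit 0) (nat_lit 5725843940) (nat_lit 1292) (nat_lit 920839343) (nat_lit 517) (nat_lit 5) (nat_lit 516) (nat_lit 5) (nat_lit 533) (nat_lit 5) (nat_lit 414) (nat_lit 395) (nat_lit 331)) (XT.lf (nat_lit 0) (nat_lit 825197417) (nat_lit 1292) (nat_lit 2586942518) (nat_lit 1368) (nat_lit 4312207783) (nat_lit 499) (nat_lit 5) (nat_lit 516) (nat_lit 5) (nat_lit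 517) (nat_lit 5) (nat_lit 415) (nat_lit 395) (nat_lit 330))))))) (XT.nd (nat_lit 780) (nat_lit 7068) (nat_lit 0) (XT.nd (nat_lit 390) (nat_lit 4636) (nat_lit 0) (XT.nd (nat_lit 156) (nat_lit 2660) (nat_lit 0) (XT.nd (nat_lit 78) (nat_lit 0) (nat_lit 76) (XT.lf (nat_lit 76) (nat_lit 1541503396) (nat_lit 0) (nat_lit 1026291972) (nat_lit 1368) (nat_lit 5213249980) (nat_lit 500) (nat_lit 5) (nat_lit 499) (nat_lit 5) (nat_lit 517) (nat_lit 5) (nat_lit 416) (nat_lit 395) (nat_lit 329)) (XT.lf (nat_lit 0) (nat_lit 4336401632) (nat_lit 1292) (nat_lit 2087423784) (nat_lit 76) (nat_lit 1415252761) (nat_lit 500) (nat_lit 5) (nat_lit 517) (nat_lit 5) (nat_lit 501) (nat_lit 5) (nat_lit 417) (nat_lit 395) (nat_lit 328))) (XT.nd (nat_lit 78) (nat_lit 1444) (nat_lit 0) (XT.lf (nat_lit 0) (nat_lit 2142344155) (nat_lit 1292) (nat_lit 3983981915) (nat_lit 1368) (nat_lit 1772250566) (nat_lit 483) (nat_lit 5) (nat_lit 500) (nat_lit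 5) (nat_lit 501) (nat_lit 5) (nat_lit 418) (nat_lit 395) (nat_lit 327)) (XT.nd (nat_lit 78) (nat_lit 1444) (nat_lit 0) (XT.lf (nat_lit 0) (nat_lit 6458485461) (nat_lit 1292) (nat_lit 1473320546) (nat_lit 1368) (nat_lit 27887347) (nat_lit 483) (nat_lit 5) (nat_lit 500) (nat_lit 5) (nat_lit 501) (nat_lit 5) (nat_lit 419) (nat_lit 395) (nat_lit 326)) (XT.lf (nat_lit 0) (nat_lit 1720303881) (nat_lit 1444) (nat_lit 5191140277) (nat_lit 76) (nat_lit 1110545141) (nat_lit 464) (nat_lit 5) (nat_lit 483) (nat_lit 5) (nat_lit 465) (nat_lit 5) (nat_lit 420) (nat_lit 395) (nat_lit 325))))) (XT.nd (nat_lit 156) (nat_lit 3192) (nat_lit 0) (XT.nd (nat_lit 78) (nat_lit 1444) (nat_lit 0) (XT.lf (nat_lit 0) (nat_lit 3489697579) (nat_lit 1444) (nat_lit 852471722) (nat_lit 76) (nat_lit 3743648010) (nat_lit 464) (nat_lit 5) (nat_lit 483) (nat_lit 5) (nat_lit 465) (nat_lit 5) (nat_lit 421) (nat_lit 395) (nat_lit 324)) (XT.lf (nat_lit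 0) (nat_lit 3593601032) (nat_lit 1444) (nat_lit 1691576836) (nat_lit 1520) (nat_lit 2865951685) (nat_lit 445) (nat_lit 5) (nat_lit 464) (nat_lit 5) (nat_lit 465) (nat_lit 5) (nat_lit 422) (nat_lit 395) (nat_lit 323))) (XT.nd (nat_lit 78) (nat_lit 3192) (nat_lit 0) (XT.lf (nat_lit 0) (nat_lit 7096770465) (nat_lit 1520) (nat_lit 111119516) (nat_lit 76) (nat_lit 1010275222) (nat_lit 445) (nat_lit 5) (nat_lit 465) (nat_lit 5) (nat_lit 446) (nat_lit 5) (nat_lit 423) (nat_lit 395) (nat_lit 322)) (XT.nd (nat_lit 78) (nat_lit 1596) (nat_lit 0) (XT.lf (nat_lit 0) (nat_lit 658023670) (nat_lit 1596) (nat_lit 3845908514) (nat_lit 76) (nat_lit 3782372312) (nat_lit 424) (nat_lit 5) (nat_lit 445) (nat_lit 5) (nat_lit 425) (nat_lit 5) (nat_lit 424) (nat_lit 395) (nat_lit 321)) (XT.lf (nat_lit 0) (nat_lit 703694761) (nat_lit 1596) (nat_lit 1728378081) (nat_lit 1672) (nat_lit 5924124319) (nat_lit 403) (nat_lit 5) (nat_lit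 424) (nat_lit 5) (nat_lit 425) (nat_lit 5) (nat_lit 425) (nat_lit 395) (nat_lit 320)))))) (XT.nd (nat_lit 390) (nat_lit 3572) (nat_lit 0) (XT.nd (nat_lit 156) (nat_lit 1824) (nat_lit 0) (XT.nd (nat_lit 78) (nat_lit 1672) (nat_lit 0) (XT.lf (nat_lit 0) (nat_lit 4243933991) (nat_lit 1672) (nat_lit 3065126580) (nat_lit 76) (nat_lit 1118400095) (nat_lit 403) (nat_lit 5) (nat_lit 425) (nat_lit 5) (nat_lit 404) (nat_lit 5) (nat_lit 426) (nat_lit 395) (nat_lit 319)) (XT.lf (nat_lit 0) (nat_lit 1596779684) (nat_lit 1672) (nat_lit 4486862939) (nat_lit 1748) (nat_lit 2416693829) (nat_lit 381) (nat_lit 5) (nat_lit 403) (nat_lit 5) (nat_lit 404) (nat_lit 5) (nat_lit 427) (nat_lit 395) (nat_lit 318))) (XT.nd (nat_lit 78) (nat_lit 1824) (nat_lit 0) (XT.lf (nat_lit 0) (nat_lit 6366935502) (nat_lit 1672) (nat_lit 1583995161) (nat_lit 1748) (nat_lit 623942230) (nat_lit 381) (nat_lit 5) (nat_lit 403) (nat_lit 5) (nat_lit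 404) (nat_lit 5) (nat_lit 428) (nat_lit 395) (nat_lit 317)) (XT.nd (nat_lit 78) (nat_lit 0) (nat_lit 0) (XT.lf (nat_lit 0) (nat_lit 1185334986) (nat_lit 1824) (nat_lit 6078936899) (nat_lit 76) (nat_lit 1386560456) (nat_lit 357) (nat_lit 5) (nat_lit 381) (nat_lit 5) (nat_lit 358) (nat_lit 5) (nat_lit 429) (nat_lit 395) (nat_lit 316)) (XT.lf (nat_lit 0) (nat_lit 3018868669) (nat_lit 1824) (nat_lit 1292348439) (nat_lit 76) (nat_lit 4417100633) (nat_lit 357) (nat_lit 5) (nat_lit 381) (nat_lit 5) (nat_lit 358) (nat_lit 5) (nat_lit 430) (nat_lit 395) (nat_lit 315))))) (XT.nd (nat_lit 234) (nat_lit 1748) (nat_lit 0) (XT.nd (nat_lit 78) (nat_lit 912) (nat_lit 0) (XT.lf (nat_lit 0) (nat_lit 3610989717) (nat_lit 912) (nat_lit 1273109738) (nat_lit 988) (nat_lit 3923370270) (nat_lit 345) (nat_lit 5) (nat_lit 357) (nat_lit 5) (nat_lit 358) (nat_lit 5) (nat_lit 431) (nat_lit 395) (nat_lit 314)) (XT.nd (nat_lit 78) (nat_lit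 912) (nat_lit 0) (XT.lf (nat_lit 0) (nat_lit 6779199590) (nat_lit 988) (nat_lit 296787366) (nat_lit 76) (nat_lit 1812383564) (nat_lit 345) (nat_lit 5) (nat_lit 358) (nat_lit 5) (nat_lit 346) (nat_lit 5) (nat_lit 432) (nat_lit 395) (nat_lit 313)) (XT.lf (nat_lit 0) (nat_lit 4728247056) (nat_lit 912) (nat_lit 3995615090) (nat_lit 988) (nat_lit 246810708) (nat_lit 333) (nat_lit 5) (nat_lit 345) (nat_lit 5) (nat_lit 346) (nat_lit 5) (nat_lit 433) (nat_lit 395) (nat_lit 312)))) (XT.nd (nat_lit 78) (nat_lit 836) (nat_lit 0) (XT.lf (nat_lit 0) (nat_lit 776220890) (nat_lit 836) (nat_lit 834647705) (nat_lit 912) (nat_lit 7443959127) (nat_lit 321) (nat_lit 5) (nat_lit 332) (nat_lit 5) (nat_lit 333) (nat_lit 5) (nat_lit 434) (nat_lit 395) (nat_lit 311)) (XT.nd (nat_lit 78) (nat_lit 836) (nat_lit 0) (XT.lf (nat_lit 0) (nat_lit 3519644782) (nat_lit 912) (nat_lit 3231509830) (nat_lit 76) (nat_lit 2389149250) (nat_lit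 321) (nat_lit 5) (nat_lit 333) (nat_lit 5) (nat_lit 322) (nat_lit 5) (nat_lit 435) (nat_lit 395) (nat_lit 310)) (XT.lf (nat_lit 0) (nat_lit 1909750605) (nat_lit 836) (nat_lit 3548373786) (nat_lit 912) (nat_lit 3769550035) (nat_lit 310) (nat_lit 5) (nat_lit 321) (nat_lit 5) (nat_lit 322) (nat_lit 5) (nat_lit 436) (nat_lit 395) (nat_lit 309))))))))
noncomputable def xc141 : XT := (XT.nd (nat_lit 1560) (nat_lit 6156) (nat_lit 0) (XT.nd (nat_lit 780) (nat_lit 3876) (nat_lit 0) (XT.nd (nat_lit 390) (nat_lit 1520) (nat_lit 0) (XT.nd (nat_lit 156) (nat_lit 1520) (nat_lit 0) (XT.nd (nat_lit 78) (nat_lit 836) (nat_lit 0) (XT.lf (nat_lit 0) (nat_lit 7171515468) (nat_lit 836) (nat_lit 259492327) (nat_lit 912) (nat_lit 1885887075) (nat_lit 310) (nat_lit 5) (nat_lit 321) (nat_lit 5) (nat_lit 322) (nat_lit 5) (nat_lit 437) (nat_lit 395) (nat_lit 308)) (XT.lf (nat_lit 0) (nat_lit 49915153) (nat_lit 836) (nat_lit 6282573865)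 (nat_lit 76) (nat_lit 3075122049) (nat_lit 299) (nat_lit 5) (nat_lit 310) (nat_lit 5) (nat_lit 300) (nat_lit 5) (nat_lit 438) (nat_lit 395) (nat_lit 307))) (XT.nd (nat_lit 78) (nat_lit 1520) (nat_lit 0) (XT.lf (nat_lit 0) (nat_lit 1990025757) (nat_lit 836) (nat_lit 1010530911) (nat_lit 76) (nat_lit 6499532998) (nat_lit 299) (nat_lit 5) (nat_lit 310) (nat_lit 5) (nat_lit 300) (nat_lit 5) (nat_lit 439) (nat_lit 395) (nat_lit 306)) (XT.nd (nat_lit 78) (nat_lit 760) (nat_lit 0) (XT.lf (nat_lit 0) (nat_lit 3975374321) (nat_lit 836) (nat_lit 5198282753) (nat_lit 76) (nat_lit 420646046) (nat_lit 289) (nat_lit 5) (nat_lit 300) (nat_lit 5) (nat_lit 290) (nat_lit 5) (nat_lit 440) (nat_lit 395) (nat_lit 305)) (XT.lf (nat_lit 0) (nat_lit 190589039) (nat_lit 760) (nat_lit 5813198485) (nat_lit 836) (nat_lit 3686559893) (nat_lit 279) (nat_lit 5) (nat_lit 289) (nat_lit 5) (nat_lit 290) (nat_lit 5) (nat_lit 441) (nat_lit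 395) (nat_lit 304))))) (XT.nd (nat_lit 156) (nat_lit 684) (nat_lit 0) (XT.nd (nat_lit 78) (nat_lit 836) (nat_lit 0) (XT.lf (nat_lit 0) (nat_lit 5731744377) (nat_lit 760) (nat_lit 2351644094) (nat_lit 836) (nat_lit 1704725195) (nat_lit 279) (nat_lit 5) (nat_lit 289) (nat_lit 5) (nat_lit 290) (nat_lit 5) (nat_lit 442) (nat_lit 395) (nat_lit 303)) (XT.lf (nat_lit 0) (nat_lit 306013233) (nat_lit 836) (nat_lit 8408254223) (nat_lit 76) (nat_lit 1173671161) (nat_lit 268) (nat_lit 5) (nat_lit 279) (nat_lit 5) (nat_lit 269) (nat_lit 5) (nat_lit 443) (nat_lit 395) (nat_lit 302))) (XT.nd (nat_lit 78) (nat_lit 684) (nat_lit 0) (XT.lf (nat_lit 0) (nat_lit 2353468205) (nat_lit 836) (nat_lit 2860898803) (nat_lit 76) (nat_lit 4774793815) (nat_lit 268) (nat_lit 5) (nat_lit 279) (nat_lit 5) (nat_lit 269) (nat_lit 5) (nat_lit 444) (nat_lit 395) (nat_lit 301)) (XT.nd (nat_lit 78) (nat_lit 0) (nat_lit 0) (XT.lf (nat_lit 0) (nat_lit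 2808667545) (nat_lit 684) (nat_lit 1628236803) (nat_lit 760) (nat_lit 5655614915) (nat_lit 259) (nat_lit 5) (nat_lit 268) (nat_lit 5) (nat_lit 269) (nat_lit 5) (nat_lit 445) (nat_lit 395) (nat_lit 300)) (XT.lf (nat_lit 0) (nat_lit 6571582307) (nat_lit 760) (nat_lit 1606318616) (nat_lit 76) (nat_lit 2019864674) (nat_lit 259) (nat_lit 5) (nat_lit 269) (nat_lit 5) (nat_lit 260) (nat_lit 5) (nat_lit 446) (nat_lit 395) (nat_lit 299)))))) (XT.nd (nat_lit 390) (nat_lit 1824) (nat_lit 0) (XT.nd (nat_lit 156) (nat_lit 1292) (nat_lit 0) (XT.nd (nat_lit 78) (nat_lit 76) (nat_lit 0) (XT.lf (nat_lit 0) (nat_lit 4203763859) (nat_lit 684) (nat_lit 4560786420) (nat_lit 760) (nat_lit 1540266597) (nat_lit 250) (nat_lit 5) (nat_lit 259) (nat_lit 5) (nat_lit 260) (nat_lit 5) (nat_lit 447) (nat_lit 395) (nat_lit 298)) (XT.lf (nat_lit 0) (nat_lit 568154094) (nat_lit 760) (nat_lit 291349769) (nat_lit 76) (nat_lit 9554670750) (nat_lit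 249) (nat_lit 5) (nat_lit 259) (nat_lit 5) (nat_lit 250) (nat_lit 5) (nat_lit 448) (nat_lit 395) (nat_lit 297))) (XT.nd (nat_lit 78) (nat_lit 684) (nat_lit 0) (XT.lf (nat_lit 0) (nat_lit 2732276017) (nat_lit 684) (nat_lit 4870685193) (nat_lit 76) (nat_lit 2921882791) (nat_lit 241) (nat_lit 5) (nat_lit 250) (nat_lit 5) (nat_lit 242) (nat_lit 5) (nat_lit 449) (nat_lit 395) (nat_lit 296)) (XT.nd (nat_lit 78) (nat_lit 0) (nat_lit 0) (XT.lf (nat_lit 0) (nat_lit 1067887240) (nat_lit 684) (nat_lit 3864711693) (nat_lit 760) (nat_lit 5705280511) (nat_lit 232) (nat_lit 5) (nat_lit 241) (nat_lit 5) (nat_lit 242) (nat_lit 5) (nat_lit 450) (nat_lit 395) (nat_lit 295)) (XT.lf (nat_lit 0) (nat_lit 7166168205) (nat_lit 684) (nat_lit 22032076) (nat_lit 760) (nat_lit 3564760698) (nat_lit 232) (nat_lit 5) (nat_lit 241) (nat_lit 5) (nat_lit 242) (nat_lit 5) (nat_lit 451) (nat_lit 395) (nat_lit 294))))) (XT.nd (nat_lit 156)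 (nat_lit 1140) (nat_lit 0) (XT.nd (nat_lit 78) (nat_lit 76) (nat_lit 0) (XT.lf (nat_lit 0) (nat_lit 2498532649) (nat_lit 608) (nat_lit 7010891888) (nat_lit 684) (nat_lit 1360520000) (nat_lit 224) (nat_lit 5) (nat_lit 232) (nat_lit 5) (nat_lit 233) (nat_lit 5) (nat_lit 452) (nat_lit 395) (nat_lit 293)) (XT.lf (nat_lit 0) (nat_lit 879622986) (nat_lit 684) (nat_lit 2265796587) (nat_lit 76) (nat_lit 7843673882) (nat_lit 223) (nat_lit 5) (nat_lit 232) (nat_lit 5) (nat_lit 224) (nat_lit 5) (nat_lit 453) (nat_lit 395) (nat_lit 292))) (XT.nd (nat_lit 78) (nat_lit 532) (nat_lit 0) (XT.lf (nat_lit 0) (nat_lit 3157090215) (nat_lit 684) (nat_lit 7135236041) (nat_lit 76) (nat_lit 817914459) (nat_lit 215) (nat_lit 5) (nat_lit 224) (nat_lit 5) (nat_lit 216) (nat_lit 5) (nat_lit 454) (nat_lit 395) (nat_lit 291)) (XT.nd (nat_lit 78) (nat_lit 532) (nat_lit 0) (XT.lf (nat_lit 0) (nat_lit 5495955269) (nat_lit 684) (nat_lit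 907960822) (nat_lit 76) (nat_lit 4829587661) (nat_lit 215) (nat_lit 5) (nat_lit 224) (nat_lit 5) (nat_lit 216) (nat_lit 5) (nat_lit 455) (nat_lit 395) (nat_lit 290)) (XT.lf (nat_lit 0) (nat_lit 5491511332) (nat_lit 532) (nat_lit 2405851126) (nat_lit 608) (nat_lit 3461563904) (nat_lit 208) (nat_lit 5) (nat_lit 215) (nat_lit 5) (nat_lit 216) (nat_lit 5) (nat_lit 456) (nat_lit 395) (nat_lit 289))))))) (XT.nd (nat_lit 780) (nat_lit 2812) (nat_lit 0) (XT.nd (nat_lit 390) (nat_lit 1596) (nat_lit 0) (XT.nd (nat_lit 156) (nat_lit 1064) (nat_lit 0) (XT.nd (nat_lit 78) (nat_lit 76) (nat_lit 0) (XT.lf (nat_lit 0) (nat_lit 515829600) (nat_lit 608) (nat_lit 9831620956) (nat_lit 684) (nat_lit 1139403234) (nat_lit 200) (nat_lit 5) (nat_lit 208) (nat_lit 5) (nat_lit 209) (nat_lit 5) (nat_lit 457) (nat_lit 395) (nat_lit 288)) (XT.lf (nat_lit 0) (nat_lit 1249049448) (nat_lit 684) (nat_lit 4559144291) (nat_lit 76) (nat_lit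 5808276070) (nat_lit 199) (nat_lit 5) (nat_lit 208) (nat_lit 5) (nat_lit 200) (nat_lit 5) (nat_lit 458) (nat_lit 395) (nat_lit 287))) (XT.nd (nat_lit 78) (nat_lit 532) (nat_lit 0) (XT.lf (nat_lit 0) (nat_lit 1975124600) (nat_lit 532) (nat_lit 1688515315) (nat_lit 608) (nat_lit 8085023974) (nat_lit 192) (nat_lit 5) (nat_lit 199) (nat_lit 5) (nat_lit 200) (nat_lit 5) (nat_lit 459) (nat_lit 395) (nat_lit 286)) (XT.nd (nat_lit 78) (nat_lit 532) (nat_lit 0) (XT.lf (nat_lit 0) (nat_lit 6154613761) (nat_lit 608) (nat_lit 3221936454) (nat_lit 76) (nat_lit 2506398508) (nat_lit 192) (nat_lit 5) (nat_lit 200) (nat_lit 5) (nat_lit 193) (nat_lit 5) (nat_lit 460) (nat_lit 395) (nat_lit 285)) (XT.lf (nat_lit 0) (nat_lit 3471115550) (nat_lit 532) (nat_lit 5239358598) (nat_lit 608) (nat_lit 3309152297) (nat_lit 185) (nat_lit 5) (nat_lit 192) (nat_lit 5) (nat_lit 193) (nat_lit 5) (nat_lit 461) (nat_lit 395) (nat_lit 284)))))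 (XT.nd (nat_lit 156) (nat_lit 988) (nat_lit 0) (XT.nd (nat_lit 78) (nat_lit 608) (nat_lit 0) (XT.lf (nat_lit 0) (nat_lit 10317935223) (nat_lit 532) (nat_lit 1002696881) (nat_lit 608) (nat_lit 838350378) (nat_lit 185) (nat_lit 5) (nat_lit 192) (nat_lit 5) (nat_lit 193) (nat_lit 5) (nat_lit 462) (nat_lit 395) (nat_lit 283)) (XT.lf (nat_lit 0) (nat_lit 1696075656) (nat_lit 608) (nat_lit 7290336068) (nat_lit 76) (nat_lit 3313778238) (nat_lit 177) (nat_lit 5) (nat_lit 185) (nat_lit 5) (nat_lit 178) (nat_lit 5) (nat_lit 463) (nat_lit 395) (nat_lit 282))) (XT.nd (nat_lit 78) (nat_lit 988) (nat_lit 0) (XT.lf (nat_lit 0) (nat_lit 4271015072) (nat_lit 608) (nat_lit 457249219) (nat_lit 76) (nat_lit 7715833347) (nat_lit 177) (nat_lit 5) (nat_lit 185) (nat_lit 5) (nat_lit 178) (nat_lit 5) (nat_lit 464) (nat_lit 395) (nat_lit 281)) (XT.nd (nat_lit 78) (nat_lit 456) (nat_lit 0) (XT.lf (nat_lit 0) (nat_lit 6575473687) (nat_lit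 532) (nat_lit 346988876) (nat_lit 608) (nat_lit 5667928449) (nat_lit 170) (nat_lit 5) (nat_lit 177) (nat_lit 5) (nat_lit 178) (nat_lit 5) (nat_lit 465) (nat_lit 395) (nat_lit 280)) (XT.lf (nat_lit 0) (nat_lit 978114002) (nat_lit 456) (nat_lit 8667503560) (nat_lit 532) (nat_lit 3093626695) (nat_lit 164) (nat_lit 5) (nat_lit 170) (nat_lit 5) (nat_lit 171) (nat_lit 5) (nat_lit 466) (nat_lit 395) (nat_lit 279)))))) (XT.nd (nat_lit 390) (nat_lit 1824) (nat_lit 0) (XT.nd (nat_lit 156) (nat_lit 456) (nat_lit 0) (XT.nd (nat_lit 78) (nat_lit 532) (nat_lit 0) (XT.lf (nat_lit 0) (nat_lit 8166933494) (nat_lit 456) (nat_lit 4281617806) (nat_lit 532) (nat_lit 442024385) (nat_lit 164) (nat_lit 5) (nat_lit 170) (nat_lit 5) (nat_lit 171) (nat_lit 5) (nat_lit 467) (nat_lit 395) (nat_lit 278)) (XT.lf (nat_lit 0) (nat_lit 2233135902) (nat_lit 532) (nat_lit 10597113706) (nat_lit 76) (nat_lit 214393455) (nat_lit 157) (nat_lit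 5) (nat_lit 164) (nat_lit 5) (nat_lit 158) (nat_lit 5) (nat_lit 468) (nat_lit 395) (nat_lit 277))) (XT.nd (nat_lit 78) (nat_lit 456) (nat_lit 0) (XT.lf (nat_lit 0) (nat_lit 4999186970) (nat_lit 532) (nat_lit 3429706428) (nat_lit 76) (nat_lit 4771980831) (nat_lit 157) (nat_lit 5) (nat_lit 164) (nat_lit 5) (nat_lit 158) (nat_lit 5) (nat_lit 469) (nat_lit 395) (nat_lit 276)) (XT.nd (nat_lit 78) (nat_lit 0) (nat_lit 0) (XT.lf (nat_lit 0) (nat_lit 3909567964) (nat_lit 456) (nat_lit 3919744816) (nat_lit 532) (nat_lit 5530749027) (nat_lit 151) (nat_lit 5) (nat_lit 157) (nat_lit 5) (nat_lit 158) (nat_lit 5) (nat_lit 470) (nat_lit 395) (nat_lit 275)) (XT.lf (nat_lit 0) (nat_lit 10727130537) (nat_lit 532) (nat_lit 2107320943) (nat_lit 76) (nat_lit 687766596) (nat_lit 151) (nat_lit 5) (nat_lit 158) (nat_lit 5) (nat_lit 152) (nat_lit 5) (nat_lit 471) (nat_lit 395) (nat_lit 274))))) (XT.nd (nat_lit 234) (nat_lit 912)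 (nat_lit 0) (XT.nd (nat_lit 78) (nat_lit 380) (nat_lit 0) (XT.lf (nat_lit 0) (nat_lit 40525302) (nat_lit 532) (nat_lit 8281798762) (nat_lit 76) (nat_lit 5364396959) (nat_lit 144) (nat_lit 5) (nat_lit 151) (nat_lit 5) (nat_lit 145) (nat_lit 5) (nat_lit 472) (nat_lit 395) (nat_lit 273)) (XT.nd (nat_lit 78) (nat_lit 380) (nat_lit 0) (XT.lf (nat_lit 0) (nat_lit 2893586812) (nat_lit 532) (nat_lit 799385157) (nat_lit 76) (nat_lit 10161215637) (nat_lit 144) (nat_lit 5) (nat_lit 151) (nat_lit 5) (nat_lit 145) (nat_lit 5) (nat_lit 473) (nat_lit 395) (nat_lit 272)) (XT.lf (nat_lit 0) (nat_lit 5839661294) (nat_lit 456) (nat_lit 7130263868) (nat_lit 76) (nat_lit 1054365541) (nat_lit 139) (nat_lit 5) (nat_lit 145) (nat_lit 5) (nat_lit 140) (nat_lit 5) (nat_lit 474) (nat_lit 395) (nat_lit 271)))) (XT.nd (nat_lit 78) (nat_lit 456) (nat_lit 0) (XT.lf (nat_lit 0) (nat_lit 514493724) (nat_lit 456) (nat_lit 8347695356) (nat_lit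 532) (nat_lit 5335262238) (nat_lit 133) (nat_lit 5) (nat_lit 139) (nat_lit 5) (nat_lit 140) (nat_lit 5) (nat_lit 475) (nat_lit 395) (nat_lit 270)) (XT.nd (nat_lit 78) (nat_lit 456) (nat_lit 0) (XT.lf (nat_lit 0) (nat_lit 8386729202) (nat_lit 456) (nat_lit 3590784705) (nat_lit 532) (nat_lit 2395920284) (nat_lit 133) (nat_lit 5) (nat_lit 139) (nat_lit 5) (nat_lit 140) (nat_lit 5) (nat_lit 476) (nat_lit 395) (nat_lit 269)) (XT.lf (nat_lit 0) (nat_lit 599349306) (nat_lit 456) (nat_lit 12699042220) (nat_lit 76) (nat_lit 1254371962) (nat_lit 127) (nat_lit 5) (nat_lit 133) (nat_lit 5) (nat_lit 128) (nat_lit 5) (nat_lit 477) (nat_lit 395) (nat_lit 268))))))))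
noncomputable def xc142 : XT := (XT.nd (nat_lit 1560) (nat_lit 912) (nat_lit 0) (XT.nd (nat_lit 780) (nat_lit 1596) (nat_lit 0) (XT.nd (nat_lit 390) (nat_lit 1140) (nat_lit 0) (XT.nd (nat_lit 156) (nat_lit 456) (nat_lit 0) (XT.nd (nat_lit 78) (nat_lit 380) (nat_lit 0) (XT.lf (nat_lit 0) (nat_lit 3671505704) (nat_lit 456) (nat_lit 4864650053) (nat_lit 76) (nat_lit 6198231248) (nat_lit 127) (nat_lit 5) (nat_lit 133) (nat_lit 5) (nat_lit 128) (nat_lit 5) (nat_lit 478) (nat_lit 395) (nat_lit 267)) (XT.lf (nat_lit 0) (nat_lit 3146154625) (nat_lit 380) (nat_lit 3664488089) (nat_lit 456) (nat_lit 8108895047) (nat_lit 122) (nat_lit 5) (nat_lit 127) (nat_lit 5) (nat_lit 128) (nat_lit 5) (nat_lit 479) (nat_lit 395) (nat_lit 266))) (XT.nd (nat_lit 78) (nat_lit 456) (nat_lit 0) (XT.lf (nat_lit 0) (nat_lit 10039113784) (nat_lit 456) (nat_lit 3754961157) (nat_lit 76) (nat_lit 1313790977) (nat_lit 122) (nat_lit 5) (nat_lit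 128) (nat_lit 5) (nat_lit 123) (nat_lit 5) (nat_lit 480) (nat_lit 395) (nat_lit 265)) (XT.nd (nat_lit 78) (nat_lit 76) (nat_lit 0) (XT.lf (nat_lit 0) (nat_lit 4436518512) (nat_lit 380) (nat_lit 8934218869) (nat_lit 456) (nat_lit 1928456900) (nat_lit 117) (nat_lit 5) (nat_lit 122) (nat_lit 5) (nat_lit 123) (nat_lit 5) (nat_lit 481) (nat_lit 395) (nat_lit 264)) (XT.lf (nat_lit 0) (nat_lit 1268848916) (nat_lit 456) (nat_lit 2680846432) (nat_lit 76) (nat_lit 11544275009) (nat_lit 116) (nat_lit 5) (nat_lit 122) (nat_lit 5) (nat_lit 117) (nat_lit 5) (nat_lit 482) (nat_lit 395) (nat_lit 263))))) (XT.nd (nat_lit 156) (nat_lit 760) (nat_lit 0) (XT.nd (nat_lit 78) (nat_lit 0) (nat_lit 0) (XT.lf (nat_lit 0) (nat_lit 4534841695) (nat_lit 456) (nat_lit 9993773557) (nat_lit 76) (nat_lit 1163165503) (nat_lit 111) (nat_lit 5) (nat_lit 117) (nat_lit 5) (nat_lit 112) (nat_lit 5) (nat_lit 483) (nat_lit 395) (nat_lit 262))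 (XT.lf (nat_lit 0) (nat_lit 7896360144) (nat_lit 456) (nat_lit 1659658850) (nat_lit 76) (nat_lit 6336929150) (nat_lit 111) (nat_lit 5) (nat_lit 117) (nat_lit 5) (nat_lit 112) (nat_lit 5) (nat_lit 484) (nat_lit 395) (nat_lit 261))) (XT.nd (nat_lit 78) (nat_lit 456) (nat_lit 0) (XT.lf (nat_lit 0) (nat_lit 6911218548) (nat_lit 304) (nat_lit 4444978183) (nat_lit 380) (nat_lit 4741325202) (nat_lit 107) (nat_lit 5) (nat_lit 111) (nat_lit 5) (nat_lit 112) (nat_lit 5) (nat_lit 485) (nat_lit 395) (nat_lit 260)) (XT.nd (nat_lit 78) (nat_lit 456) (nat_lit 0) (XT.lf (nat_lit 0) (nat_lit 14887738394) (nat_lit 380) (nat_lit 655675642) (nat_lit 76) (nat_lit 762727703) (nat_lit 107) (nat_lit 5) (nat_lit 112) (nat_lit 5) (nat_lit 108) (nat_lit 5) (nat_lit 486) (nat_lit 395) (nat_lit 259)) (XT.lf (nat_lit 0) (nat_lit 2014196117) (nat_lit 456) (nat_lit 8428683556) (nat_lit 76) (nat_lit 6074421483) (nat_lit 101) (nat_lit 5)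 (nat_lit 107) (nat_lit 5) (nat_lit 102) (nat_lit 5) (nat_lit 487) (nat_lit 395) (nat_lit 258)))))) (XT.nd (nat_lit 390) (nat_lit 608) (nat_lit 0) (XT.nd (nat_lit 156) (nat_lit 684) (nat_lit 0) (XT.nd (nat_lit 78) (nat_lit 0) (nat_lit 0) (XT.lf (nat_lit 0) (nat_lit 257742839) (nat_lit 304) (nat_lit 5231450274) (nat_lit 380) (nat_lit 11243452812) (nat_lit 97) (nat_lit 5) (nat_lit 101) (nat_lit 5) (nat_lit 102) (nat_lit 5) (nat_lit 488) (nat_lit 395) (nat_lit 257)) (XT.lf (nat_lit 0) (nat_lit 9077876484) (nat_lit 380) (nat_lit 7740331531) (nat_lit 76) (nat_lit 133210201) (nat_lit 97) (nat_lit 5) (nat_lit 102) (nat_lit 5) (nat_lit 98) (nat_lit 5) (nat_lit 489) (nat_lit 395) (nat_lit 256))) (XT.nd (nat_lit 78) (nat_lit 380) (nat_lit 0) (XT.lf (nat_lit 0) (nat_lit 1129099695) (nat_lit 304) (nat_lit 11638174979) (nat_lit 380) (nat_lit 4406716723) (nat_lit 93) (nat_lit 5) (nat_lit 97) (nat_lit 5) (nat_lit 98) (nat_lit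 5) (nat_lit 490) (nat_lit 395) (nat_lit 255)) (XT.nd (nat_lit 78) (nat_lit 380) (nat_lit 0) (XT.lf (nat_lit 0) (nat_lit 10260978581) (nat_lit 304) (nat_lit 6308515493) (nat_lit 380) (nat_lit 830745484) (nat_lit 93) (nat_lit 5) (nat_lit 97) (nat_lit 5) (nat_lit 98) (nat_lit 5) (nat_lit 491) (nat_lit 395) (nat_lit 254)) (XT.lf (nat_lit 0) (nat_lit 1931884098) (nat_lit 304) (nat_lit 847718831) (nat_lit 380) (nat_lit 14851052014) (nat_lit 88) (nat_lit 5) (nat_lit 92) (nat_lit 5) (nat_lit 93) (nat_lit 5) (nat_lit 492) (nat_lit 395) (nat_lit 253))))) (XT.nd (nat_lit 156) (nat_lit 304) (nat_lit 0) (XT.nd (nat_lit 78) (nat_lit 304) (nat_lit 0) (XT.lf (nat_lit 0) (nat_lit 6517265918) (nat_lit 380) (nat_lit 6639702390) (nat_lit 76) (nat_lit 4707279818) (nat_lit 88) (nat_lit 5) (nat_lit 93) (nat_lit 5) (nat_lit 89) (nat_lit 5) (nat_lit 493) (nat_lit 395) (nat_lit 252)) (XT.lf (nat_lit 0) (nat_lit 2609819105) (nat_lit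 304) (nat_lit 7730005257) (nat_lit 380) (nat_lit 7762489833) (nat_lit 84) (nat_lit 5) (nat_lit 88) (nat_lit 5) (nat_lit 89) (nat_lit 5) (nat_lit 494) (nat_lit 395) (nat_lit 251))) (XT.nd (nat_lit 78) (nat_lit 304) (nat_lit 0) (XT.lf (nat_lit 0) (nat_lit 12115118656) (nat_lit 304) (nat_lit 2155973406) (nat_lit 380) (nat_lit 4073408150) (nat_lit 84) (nat_lit 5) (nat_lit 88) (nat_lit 5) (nat_lit 89) (nat_lit 5) (nat_lit 495) (nat_lit 395) (nat_lit 250)) (XT.nd (nat_lit 78) (nat_lit 76) (nat_lit 0) (XT.lf (nat_lit 0) (nat_lit 3219259977) (nat_lit 228) (nat_lit 15093442109) (nat_lit 304) (nat_lit 278197238) (nat_lit 81) (nat_lit 5) (nat_lit 84) (nat_lit 5) (nat_lit 85) (nat_lit 5) (nat_lit 496) (nat_lit 395) (nat_lit 249)) (XT.lf (nat_lit 0) (nat_lit 3590084145) (nat_lit 304) (nat_lit 5957035574) (nat_lit 76) (nat_lit 9293757957) (nat_lit 80) (nat_lit 5) (nat_lit 84) (nat_lit 5) (nat_lit 81) (nat_lit 5) (nat_lit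 497) (nat_lit 395) (nat_lit 248))))))) (XT.nd (nat_lit 51792) (nat_lit 0) (nat_lit 33896) (XT.nd (nat_lit 51402) (nat_lit 0) (nat_lit 37088) (XT.nd (nat_lit 156) (nat_lit 608) (nat_lit 0) (XT.nd (nat_lit 78) (nat_lit 0) (nat_lit 0) (XT.lf (nat_lit 0) (nat_lit 3673492461) (nat_lit 304) (nat_lit 3870535302) (nat_lit 380) (nat_lit 11551554122) (nat_lit 76) (nat_lit 5) (nat_lit 80) (nat_lit 5) (nat_lit 81) (nat_lit 5) (nat_lit 498) (nat_lit 395) (nat_lit 247)) (XT.lf (nat_lit 0) (nat_lit 11617987292) (nat_lit 380) (nat_lit 5808702590) (nat_lit 76) (nat_lit 1927874987) (nat_lit 76) (nat_lit 5) (nat_lit 81) (nat_lit 5) (nat_lit 77) (nat_lit 5) (nat_lit 499) (nat_lit 395) (nat_lit 246))) (XT.nd (nat_lit 78) (nat_lit 380) (nat_lit 0) (XT.lf (nat_lit 0) (nat_lit 4005445328) (nat_lit 228) (nat_lit 11808084344) (nat_lit 304) (nat_lit 3804399132) (nat_lit 73) (nat_lit 5) (nat_lit 76) (nat_lit 5) (nat_lit 77) (nat_lit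 5) (nat_lit 500) (nat_lit 395) (nat_lit 245)) (XT.nd (nat_lit 78) (nat_lit 304) (nat_lit 0) (XT.lf (nat_lit 0) (nat_lit 231446695) (nat_lit 304) (nat_lit 5811205267) (nat_lit 76) (nat_lit 13843329862) (nat_lit 72) (nat_lit 5) (nat_lit 76) (nat_lit 5) (nat_lit 73) (nat_lit 5) (nat_lit 501) (nat_lit 395) (nat_lit 244)) (XT.lf (nat_lit 0) (nat_lit 4197880193) (nat_lit 304) (nat_lit 115210493) (nat_lit 380) (nat_lit 15845485005) (nat_lit 68) (nat_lit 5) (nat_lit 72) (nat_lit 5) (nat_lit 73) (nat_lit 5) (nat_lit 502) (nat_lit 395) (nat_lit 243))))) (XT.nd (nat_lit 156) (nat_lit 988) (nat_lit 0) (XT.nd (nat_lit 78) (nat_lit 0) (nat_lit 0) (XT.lf (nat_lit 0) (nat_lit 2399172666) (nat_lit 988) (nat_lit 535032570) (nat_lit 988) (nat_lit 535032570) (nat_lit 569) (nat_lit 3) (nat_lit 582) (nat_lit 3) (nat_lit 582) (nat_lit 5) (nat_lit 396) (nat_lit 396) (nat_lit 348)) (XT.lf (nat_lit 76) (nat_lit 2224813593) (nat_lit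 0) (nat_lit 4440179742) (nat_lit 988) (nat_lit 305028453) (nat_lit 570) (nat_lit 5) (nat_lit 569) (nat_lit 3) (nat_lit 582) (nat_lit 5) (nat_lit 397) (nat_lit 396) (nat_lit 347))) (XT.nd (nat_lit 78) (nat_lit 0) (nat_lit 0) (XT.lf (nat_lit 0) (nat_lit 1505618482) (nat_lit 988) (nat_lit 1437330009) (nat_lit 1064) (nat_lit 4059896795) (nat_lit 556) (nat_lit 5) (nat_lit 569) (nat_lit 3) (nat_lit 570) (nat_lit 5) (nat_lit 398) (nat_lit 396) (nat_lit 346)) (XT.nd (nat_lit 78) (nat_lit 0) (nat_lit 76) (XT.lf (nat_lit 76) (nat_lit 1935412547) (nat_lit 0) (nat_lit 1378652612) (nat_lit 1064) (nat_lit 3722943292) (nat_lit 557) (nat_lit 5) (nat_lit 556) (nat_lit 5) (nat_lit 570) (nat_lit 5) (nat_lit 399) (nat_lit 396) (nat_lit 345)) (XT.lf (nat_lit 0) (nat_lit 5123800744) (nat_lit 988) (nat_lit 1703634670) (nat_lit 1064) (nat_lit 245153283) (nat_lit 557) (nat_lit 5) (nat_lit 570) (nat_lit 5) (nat_lit 571) (nat_lit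 5) (nat_lit 400) (nat_lit 396) (nat_lit 344)))))) (XT.nd (nat_lit 390) (nat_lit 2204) (nat_lit 0) (XT.nd (nat_lit 156) (nat_lit 0) (nat_lit 0) (XT.nd (nat_lit 78) (nat_lit 1064) (nat_lit 0) (XT.lf (nat_lit 76) (nat_lit 1751028819) (nat_lit 0) (nat_lit 5194105533) (nat_lit 1064) (nat_lit 164273637) (nat_lit 558) (nat_lit 5) (nat_lit 557) (nat_lit 5) (nat_lit 571) (nat_lit 5) (nat_lit 401) (nat_lit 396) (nat_lit 343)) (XT.lf (nat_lit 0) (nat_lit 1601019619) (nat_lit 1064) (nat_lit 1885238329) (nat_lit 1140) (nat_lit 3661188691) (nat_lit 543) (nat_lit 5) (nat_lit 557) (nat_lit 5) (nat_lit 558) (nat_lit 5) (nat_lit 402) (nat_lit 396) (nat_lit 342))) (XT.nd (nat_lit 78) (nat_lit 0) (nat_lit 76) (XT.lf (nat_lit 76) (nat_lit 1652901617) (nat_lit 0) (nat_lit 1713426283) (nat_lit 1140) (nat_lit 3820591730) (nat_lit 544) (nat_lit 5) (nat_lit 543) (nat_lit 5) (nat_lit 558) (nat_lit 5) (nat_lit 403) (nat_lit 396) (nat_lit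 341)) (XT.nd (nat_lit 78) (nat_lit 0) (nat_lit 0) (XT.lf (nat_lit 0) (nat_lit 5137284100) (nat_lit 1064) (nat_lit 1966172331) (nat_lit 1140) (nat_lit 124351617) (nat_lit 544) (nat_lit 5) (nat_lit 558) (nat_lit 5) (nat_lit 559) (nat_lit 5) (nat_lit 404) (nat_lit 396) (nat_lit 340)) (XT.lf (nat_lit 76) (nat_lit 1658033531) (nat_lit 0) (nat_lit 5265572575) (nat_lit 1140) (nat_lit 346341356) (nat_lit 545) (nat_lit 5) (nat_lit 544) (nat_lit 5) (nat_lit 559) (nat_lit 5) (nat_lit 405) (nat_lit 396) (nat_lit 339))))) (XT.nd (nat_lit 234) (nat_lit 1140) (nat_lit 0) (XT.nd (nat_lit 78) (nat_lit 0) (nat_lit 0) (XT.lf (nat_lit 0) (nat_lit 1385407319) (nat_lit 1140) (nat_lit 1966494268) (nat_lit 1216) (nat_lit 3961443489) (nat_lit 529) (nat_lit 5) (nat_lit 544) (nat_lit 5) (nat_lit 545) (nat_lit 5) (nat_lit 406) (nat_lit 396) (nat_lit 338)) (XT.nd (nat_lit 78) (nat_lit 0) (nat_lit 76) (XT.lf (nat_lit 76) (nat_lit 1747146036)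 (nat_lit 0) (nat_lit 1370366610) (nat_lit 1216) (nat_lit 4240675331) (nat_lit 530) (nat_lit 5) (nat_lit 529) (nat_lit 5) (nat_lit 545) (nat_lit 5) (nat_lit 407) (nat_lit 396) (nat_lit 337)) (XT.lf (nat_lit 0) (nat_lit 4861519520) (nat_lit 1140) (nat_lit 1872338272) (nat_lit 1216) (nat_lit 670554465) (nat_lit 530) (nat_lit 5) (nat_lit 545) (nat_lit 5) (nat_lit 546) (nat_lit 5) (nat_lit 408) (nat_lit 396) (nat_lit 336)))) (XT.nd (nat_lit 78) (nat_lit 1216) (nat_lit 0) (XT.lf (nat_lit 76) (nat_lit 1931834727) (nat_lit 0) (nat_lit 4690729459) (nat_lit 1216) (nat_lit 829382815) (nat_lit 531) (nat_lit 5) (nat_lit 530) (nat_lit 5) (nat_lit 546) (nat_lit 5) (nat_lit 409) (nat_lit 396) (nat_lit 335)) (XT.nd (nat_lit 78) (nat_lit 0) (nat_lit 0) (XT.lf (nat_lit 0) (nat_lit 879862925) (nat_lit 1216) (nat_lit 1694701717) (nat_lit 1292) (nat_lit 4926306327) (nat_lit 514) (nat_lit 5) (nat_lit 530) (nat_lit 5) (nat_lit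 531) (nat_lit 5) (nat_lit 410) (nat_lit 396) (nat_lit 334)) (XT.lf (nat_lit 76) (nat_lit 2205209166) (nat_lit 0) (nat_lit 382937415) (nat_lit 1292) (nat_lit 4963025471) (nat_lit 515) (nat_lit 5) (nat_lit 514) (nat_lit 5) (nat_lit 531) (nat_lit 5) (nat_lit 411) (nat_lit 396) (nat_lit 333))))))))
noncomputable def xc143 : XT := (XT.nd (nat_lit 1560) (nat_lit 8588) (nat_lit 0) (XT.nd (nat_lit 780) (nat_lit 9044) (nat_lit 0) (XT.nd (nat_lit 390) (nat_lit 2584) (nat_lit 0) (XT.nd (nat_lit 156) (nat_lit 1292) (nat_lit 0) (XT.nd (nat_lit 78) (nat_lit 0) (nat_lit 0) (XT.lf (nat_lit 0) (nat_lit 4316371255) (nat_lit 1216) (nat_lit 1434397854) (nat_lit 1292) (nat_lit 1852021450) (nat_lit 515) (nat_lit 5) (nat_lit 531) (nat_lit 5) (nat_lit 532) (nat_lit 5) (nat_lit 412) (nat_lit 396) (nat_lit 332)) (XT.lf (nat_lit 76) (nat_lit 2560827176) (nat_lit 0) (nat_lit 3500534950) (nat_lit 1292) (nat_lit 1594461661) (nat_lit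 516) (nat_lit 5) (nat_lit 515) (nat_lit 5) (nat_lit 532) (nat_lit 5) (nat_lit 413) (nat_lit 396) (nat_lit 331))) (XT.nd (nat_lit 78) (nat_lit 0) (nat_lit 76) (XT.lf (nat_lit 0) (nat_lit 102633940) (nat_lit 1292) (nat_lit 1081206379) (nat_lit 1368) (nat_lit 6526625238) (nat_lit 498) (nat_lit 5) (nat_lit 515) (nat_lit 5) (nat_lit 516) (nat_lit 5) (nat_lit 414) (nat_lit 396) (nat_lit 330)) (XT.nd (nat_lit 78) (nat_lit 0) (nat_lit 0) (XT.lf (nat_lit 0) (nat_lit 1803900859) (nat_lit 1292) (nat_lit 4757859935) (nat_lit 1368) (nat_lit 1204421858) (nat_lit 499) (nat_lit 5) (nat_lit 516) (nat_lit 5) (nat_lit 517) (nat_lit 5) (nat_lit 415) (nat_lit 396) (nat_lit 329)) (XT.lf (nat_lit 0) (nat_lit 3518993990) (nat_lit 1292) (nat_lit 662545348) (nat_lit 1368) (nat_lit 3641903106) (nat_lit 499) (nat_lit 5) (nat_lit 516) (nat_lit 5) (nat_lit 517) (nat_lit 5) (nat_lit 416) (nat_lit 396) (nat_lit 328))))) (XT.nd (nat_lit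 156) (nat_lit 2660) (nat_lit 0) (XT.nd (nat_lit 78) (nat_lit 0) (nat_lit 76) (XT.lf (nat_lit 76) (nat_lit 3535468589) (nat_lit 0) (nat_lit 1721225352) (nat_lit 1368) (nat_lit 2625411288) (nat_lit 500) (nat_lit 5) (nat_lit 499) (nat_lit 5) (nat_lit 517) (nat_lit 5) (nat_lit 417) (nat_lit 396) (nat_lit 327)) (XT.lf (nat_lit 0) (nat_lit 7004662963) (nat_lit 1292) (nat_lit 146745934) (nat_lit 76) (nat_lit 791045498) (nat_lit 500) (nat_lit 5) (nat_lit 517) (nat_lit 5) (nat_lit 501) (nat_lit 5) (nat_lit 418) (nat_lit 396) (nat_lit 326))) (XT.nd (nat_lit 78) (nat_lit 1368) (nat_lit 0) (XT.lf (nat_lit 0) (nat_lit 778276988) (nat_lit 1368) (nat_lit 3854479416) (nat_lit 76) (nat_lit 3371075449) (nat_lit 482) (nat_lit 5) (nat_lit 500) (nat_lit 5) (nat_lit 483) (nat_lit 5) (nat_lit 419) (nat_lit 396) (nat_lit 325)) (XT.nd (nat_lit 78) (nat_lit 0) (nat_lit 0) (XT.lf (nat_lit 0) (nat_lit 440555059) (nat_lit 1368) (nat_lit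 2046257122) (nat_lit 1444) (nat_lit 5580108730) (nat_lit 464) (nat_lit 5) (nat_lit 482) (nat_lit 5) (nat_lit 483) (nat_lit 5) (nat_lit 420) (nat_lit 396) (nat_lit 324)) (XT.lf (nat_lit 0) (nat_lit 4226765109) (nat_lit 1444) (nat_lit 3287530399) (nat_lit 76) (nat_lit 617052944) (nat_lit 464) (nat_lit 5) (nat_lit 483) (nat_lit 5) (nat_lit 465) (nat_lit 5) (nat_lit 421) (nat_lit 396) (nat_lit 323)))))) (XT.nd (nat_lit 390) (nat_lit 4408) (nat_lit 0) (XT.nd (nat_lit 156) (nat_lit 3192) (nat_lit 0) (XT.nd (nat_lit 78) (nat_lit 0) (nat_lit 0) (XT.lf (nat_lit 0) (nat_lit 1113149254) (nat_lit 1444) (nat_lit 4877153061) (nat_lit 1520) (nat_lit 2207007745) (nat_lit 445) (nat_lit 5) (nat_lit 464) (nat_lit 5) (nat_lit 465) (nat_lit 5) (nat_lit 422) (nat_lit 396) (nat_lit 322)) (XT.lf (nat_lit 0) (nat_lit 5620596473) (nat_lit 1444) (nat_lit 2159041146) (nat_lit 1520) (nat_lit 485163536) (nat_lit 445) (nat_lit 5) (nat_lit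 464) (nat_lit 5) (nat_lit 465) (nat_lit 5) (nat_lit 423) (nat_lit 396) (nat_lit 321))) (XT.nd (nat_lit 78) (nat_lit 1596) (nat_lit 0) (XT.lf (nat_lit 0) (nat_lit 1239634277) (nat_lit 1596) (nat_lit 6462876029) (nat_lit 76) (nat_lit 631282949) (nat_lit 424) (nat_lit 5) (nat_lit 445) (nat_lit 5) (nat_lit 425) (nat_lit 5) (nat_lit 424) (nat_lit 396) (nat_lit 320)) (XT.nd (nat_lit 78) (nat_lit 1596) (nat_lit 0) (XT.lf (nat_lit 0) (nat_lit 2993935202) (nat_lit 1596) (nat_lit 1935489273) (nat_lit 76) (nat_lit 3474666117) (nat_lit 424) (nat_lit 5) (nat_lit 445) (nat_lit 5) (nat_lit 425) (nat_lit 5) (nat_lit 425) (nat_lit 396) (nat_lit 319)) (XT.lf (nat_lit 0) (nat_lit 2692031479) (nat_lit 1596) (nat_lit 2078707964) (nat_lit 1672) (nat_lit 3705325304) (nat_lit 403) (nat_lit 5) (nat_lit 424) (nat_lit 5) (nat_lit 425) (nat_lit 5) (nat_lit 426) (nat_lit 396) (nat_lit 318))))) (XT.nd (nat_lit 156) (nat_lit 2736) (nat_lit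 0) (XT.nd (nat_lit 78) (nat_lit 1672) (nat_lit 0) (XT.lf (nat_lit 0) (nat_lit 6571925422) (nat_lit 1672) (nat_lit 1142537622) (nat_lit 76) (nat_lit 835257272) (nat_lit 403) (nat_lit 5) (nat_lit 425) (nat_lit 5) (nat_lit 404) (nat_lit 5) (nat_lit 427) (nat_lit 396) (nat_lit 317)) (XT.lf (nat_lit 0) (nat_lit 3599554850) (nat_lit 1672) (nat_lit 4817686771) (nat_lit 1748) (nat_lit 207463715) (nat_lit 381) (nat_lit 5) (nat_lit 403) (nat_lit 5) (nat_lit 404) (nat_lit 5) (nat_lit 428) (nat_lit 396) (nat_lit 316))) (XT.nd (nat_lit 78) (nat_lit 2660) (nat_lit 0) (XT.lf (nat_lit 0) (nat_lit 1556195930) (nat_lit 1748) (nat_lit 285395626) (nat_lit 76) (nat_lit 6859831046) (nat_lit 380) (nat_lit 5) (nat_lit 403) (nat_lit 5) (nat_lit 381) (nat_lit 5) (nat_lit 429) (nat_lit 396) (nat_lit 315)) (XT.nd (nat_lit 78) (nat_lit 912) (nat_lit 0) (XT.lf (nat_lit 0) (nat_lit 3361814172) (nat_lit 1824) (nat_lit 4205130837) (nat_lit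 76) (nat_lit 1212529918) (nat_lit 357) (nat_lit 5) (nat_lit 381) (nat_lit 5) (nat_lit 358) (nat_lit 5) (nat_lit 430) (nat_lit 396) (nat_lit 314)) (XT.lf (nat_lit 0) (nat_lit 646543737) (nat_lit 912) (nat_lit 4547461356) (nat_lit 988) (nat_lit 3665291064) (nat_lit 345) (nat_lit 5) (nat_lit 357) (nat_lit 5) (nat_lit 358) (nat_lit 5) (nat_lit 431) (nat_lit 396) (nat_lit 313))))))) (XT.nd (nat_lit 780) (nat_lit 4332) (nat_lit 0) (XT.nd (nat_lit 390) (nat_lit 2432) (nat_lit 0) (XT.nd (nat_lit 156) (nat_lit 912) (nat_lit 0) (XT.nd (nat_lit 78) (nat_lit 912) (nat_lit 0) (XT.lf (nat_lit 0) (nat_lit 5626598990) (nat_lit 912) (nat_lit 1436977933) (nat_lit 988) (nat_lit 1877138877) (nat_lit 345) (nat_lit 5) (nat_lit 357) (nat_lit 5) (nat_lit 358) (nat_lit 5) (nat_lit 432) (nat_lit 396) (nat_lit 312)) (XT.lf (nat_lit 0) (nat_lit 1667371649) (nat_lit 912) (nat_lit 7298332572) (nat_lit 988) (nat_lit 58172738) (nat_lit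 333) (nat_lit 5) (nat_lit 345) (nat_lit 5) (nat_lit 346) (nat_lit 5) (nat_lit 433) (nat_lit 396) (nat_lit 311))) (XT.nd (nat_lit 78) (nat_lit 836) (nat_lit 0) (XT.lf (nat_lit 0) (nat_lit 1778744926) (nat_lit 988) (nat_lit 2362095606) (nat_lit 76) (nat_lit 4967540357) (nat_lit 332) (nat_lit 5) (nat_lit 345) (nat_lit 5) (nat_lit 333) (nat_lit 5) (nat_lit 434) (nat_lit 396) (nat_lit 310)) (XT.nd (nat_lit 78) (nat_lit 0) (nat_lit 0) (XT.lf (nat_lit 0) (nat_lit 2742371454) (nat_lit 836) (nat_lit 900820589) (nat_lit 912) (nat_lit 5551559222) (nat_lit 321) (nat_lit 5) (nat_lit 332) (nat_lit 5) (nat_lit 333) (nat_lit 5) (nat_lit 435) (nat_lit 396) (nat_lit 309)) (XT.lf (nat_lit 0) (nat_lit 5550611030) (nat_lit 912) (nat_lit 1343080797) (nat_lit 76) (nat_lit 2389058714) (nat_lit 321) (nat_lit 5) (nat_lit 333) (nat_lit 5) (nat_lit 322) (nat_lit 5) (nat_lit 436) (nat_lit 396) (nat_lit 308))))) (XT.nd (nat_lit 156)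 (nat_lit 1520) (nat_lit 0) (XT.nd (nat_lit 78) (nat_lit 76) (nat_lit 0) (XT.lf (nat_lit 0) (nat_lit 3888155773) (nat_lit 836) (nat_lit 3613858975) (nat_lit 912) (nat_lit 1870393186) (nat_lit 310) (nat_lit 5) (nat_lit 321) (nat_lit 5) (nat_lit 322) (nat_lit 5) (nat_lit 437) (nat_lit 396) (nat_lit 307)) (XT.lf (nat_lit 0) (nat_lit 12066056) (nat_lit 912) (nat_lit 247160356) (nat_lit 76) (nat_lit 9204965572) (nat_lit 309) (nat_lit 5) (nat_lit 321) (nat_lit 5) (nat_lit 310) (nat_lit 5) (nat_lit 438) (nat_lit 396) (nat_lit 306))) (XT.nd (nat_lit 78) (nat_lit 760) (nat_lit 0) (XT.lf (nat_lit 0) (nat_lit 1936534060) (nat_lit 836) (nat_lit 4453705669) (nat_lit 76) (nat_lit 3166750636) (nat_lit 299) (nat_lit 5) (nat_lit 310) (nat_lit 5) (nat_lit 300) (nat_lit 5) (nat_lit 439) (nat_lit 396) (nat_lit 305)) (XT.nd (nat_lit 78) (nat_lit 0) (nat_lit 0) (XT.lf (nat_lit 0) (nat_lit 897221449) (nat_lit 760) (nat_lit 2987077830)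 (nat_lit 836) (nat_lit 5767663002) (nat_lit 289) (nat_lit 5) (nat_lit 299) (nat_lit 5) (nat_lit 300) (nat_lit 5) (nat_lit 440) (nat_lit 396) (nat_lit 304)) (XT.lf (nat_lit 0) (nat_lit 5880152646) (nat_lit 836) (nat_lit 3361656508) (nat_lit 76) (nat_lit 506855281) (nat_lit 289) (nat_lit 5) (nat_lit 300) (nat_lit 5) (nat_lit 290) (nat_lit 5) (nat_lit 441) (nat_lit 396) (nat_lit 303)))))) (XT.nd (nat_lit 390) (nat_lit 2052) (nat_lit 0) (XT.nd (nat_lit 156) (nat_lit 1444) (nat_lit 0) (XT.nd (nat_lit 78) (nat_lit 76) (nat_lit 0) (XT.lf (nat_lit 0) (nat_lit 2122225668) (nat_lit 760) (nat_lit 5803635539) (nat_lit 836) (nat_lit 1921253856) (nat_lit 279) (nat_lit 5) (nat_lit 289) (nat_lit 5) (nat_lit 290) (nat_lit 5) (nat_lit 442) (nat_lit 396) (nat_lit 302)) (XT.lf (nat_lit 0) (nat_lit 63316538) (nat_lit 836) (nat_lit 2211575828) (nat_lit 76) (nat_lit 7672662200) (nat_lit 278) (nat_lit 5) (nat_lit 289) (nat_lit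 5) (nat_lit 279) (nat_lit 5) (nat_lit 443) (nat_lit 396) (nat_lit 301))) (XT.nd (nat_lit 78) (nat_lit 684) (nat_lit 0) (XT.lf (nat_lit 0) (nat_lit 2069868242) (nat_lit 836) (nat_lit 6639249768) (nat_lit 76) (nat_lit 1340482981) (nat_lit 268) (nat_lit 5) (nat_lit 279) (nat_lit 5) (nat_lit 269) (nat_lit 5) (nat_lit 444) (nat_lit 396) (nat_lit 300)) (XT.nd (nat_lit 78) (nat_lit 684) (nat_lit 0) (XT.lf (nat_lit 0) (nat_lit 4123806926) (nat_lit 836) (nat_lit 1018930956) (nat_lit 76) (nat_lit 5010817531) (nat_lit 268) (nat_lit 5) (nat_lit 279) (nat_lit 5) (nat_lit 269) (nat_lit 5) (nat_lit 445) (nat_lit 396) (nat_lit 299)) (XT.lf (nat_lit 0) (nat_lit 4751532075) (nat_lit 684) (nat_lit 1475839772) (nat_lit 760) (nat_lit 4032058076) (nat_lit 259) (nat_lit 5) (nat_lit 268) (nat_lit 5) (nat_lit 269) (nat_lit 5) (nat_lit 446) (nat_lit 396) (nat_lit 298))))) (XT.nd (nat_lit 234) (nat_lit 684) (nat_lit 0) (XT.nd (nat_lit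 78) (nat_lit 684) (nat_lit 0) (XT.lf (nat_lit 0) (nat_lit 247576541) (nat_lit 684) (nat_lit 8126584359) (nat_lit 760) (nat_lit 1993249681) (nat_lit 250) (nat_lit 5) (nat_lit 259) (nat_lit 5) (nat_lit 260) (nat_lit 5) (nat_lit 447) (nat_lit 396) (nat_lit 297)) (XT.nd (nat_lit 78) (nat_lit 608) (nat_lit 0) (XT.lf (nat_lit 0) (nat_lit 110258966) (nat_lit 760) (nat_lit 4319562688) (nat_lit 76) (nat_lit 6047228119) (nat_lit 249) (nat_lit 5) (nat_lit 259) (nat_lit 5) (nat_lit 250) (nat_lit 5) (nat_lit 448) (nat_lit 396) (nat_lit 296)) (XT.lf (nat_lit 0) (nat_lit 1579728868) (nat_lit 608) (nat_lit 638207705) (nat_lit 684) (nat_lit 8370916938) (nat_lit 241) (nat_lit 5) (nat_lit 249) (nat_lit 5) (nat_lit 250) (nat_lit 5) (nat_lit 449) (nat_lit 396) (nat_lit 295)))) (XT.nd (nat_lit 78) (nat_lit 684) (nat_lit 0) (XT.lf (nat_lit 0) (nat_lit 4396662583) (nat_lit 684) (nat_lit 3092670177) (nat_lit 76) (nat_lit 3212993490)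 (nat_lit 241) (nat_lit 5) (nat_lit 250) (nat_lit 5) (nat_lit 242) (nat_lit 5) (nat_lit 450) (nat_lit 396) (nat_lit 294)) (XT.nd (nat_lit 78) (nat_lit 0) (nat_lit 0) (XT.lf (nat_lit 0) (nat_lit 2952335358) (nat_lit 684) (nat_lit 3669189469) (nat_lit 760) (nat_lit 4196502993) (nat_lit 232) (nat_lit 5) (nat_lit 241) (nat_lit 5) (nat_lit 242) (nat_lit 5) (nat_lit 451) (nat_lit 396) (nat_lit 293)) (XT.lf (nat_lit 0) (nat_lit 8892647026) (nat_lit 760) (nat_lit 1801590290) (nat_lit 76) (nat_lit 241781252) (nat_lit 232) (nat_lit 5) (nat_lit 242) (nat_lit 5) (nat_lit 233) (nat_lit 5) (nat_lit 452) (nat_lit 396) (nat_lit 292))))))))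
noncomputable def xc144 : XT := (XT.nd (nat_lit 1560) (nat_lit 4788) (nat_lit 0) (XT.nd (nat_lit 780) (nat_lit 2584) (nat_lit 0) (XT.nd (nat_lit 390) (nat_lit 1748) (nat_lit 0) (XT.nd (nat_lit 156) (nat_lit 1140) (nat_lit 0) (XT.nd (nat_lit 78) (nat_lit 0) (nat_lit 0) (XT.lf (nat_lit 0) (nat_lit 183645952) (nat_lit 684) (nat_lit 6663855099) (nat_lit 76) (nat_lit 4208201680) (nat_lit 223) (nat_lit 5) (nat_lit 232) (nat_lit 5) (nat_lit 224) (nat_lit 5) (nat_lit 453) (nat_lit 396) (nat_lit 291)) (XT.lf (nat_lit 0) (nat_lit 2419937034) (nat_lit 684) (nat_lit 481725302) (nat_lit 76) (nat_lit 8276016030) (nat_lit 223) (nat_lit 5) (nat_lit 232) (nat_lit 5) (nat_lit 224) (nat_lit 5) (nat_lit 454) (nat_lit 396) (nat_lit 290))) (XT.nd (nat_lit 78) (nat_lit 532) (nat_lit 0) (XT.lf (nat_lit 0) (nat_lit 4726925952) (nat_lit 684) (nat_lit 5431797922) (nat_lit 76) (nat_lit 1142859809) (nat_lit 215) (nat_lit 5) (nat_lit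 224) (nat_lit 5) (nat_lit 216) (nat_lit 5) (nat_lit 455) (nat_lit 396) (nat_lit 289)) (XT.nd (nat_lit 78) (nat_lit 0) (nat_lit 0) (XT.lf (nat_lit 0) (nat_lit 895569476) (nat_lit 532) (nat_lit 6193270444) (nat_lit 608) (nat_lit 4338960902) (nat_lit 208) (nat_lit 5) (nat_lit 215) (nat_lit 5) (nat_lit 216) (nat_lit 5) (nat_lit 456) (nat_lit 396) (nat_lit 288)) (XT.lf (nat_lit 0) (nat_lit 7399377994) (nat_lit 532) (nat_lit 2115792931) (nat_lit 608) (nat_lit 2041037041) (nat_lit 208) (nat_lit 5) (nat_lit 215) (nat_lit 5) (nat_lit 216) (nat_lit 5) (nat_lit 457) (nat_lit 396) (nat_lit 287))))) (XT.nd (nat_lit 156) (nat_lit 1064) (nat_lit 0) (XT.nd (nat_lit 78) (nat_lit 0) (nat_lit 0) (XT.lf (nat_lit 0) (nat_lit 308463667) (nat_lit 684) (nat_lit 9349158492) (nat_lit 76) (nat_lit 2029338840) (nat_lit 199) (nat_lit 5) (nat_lit 208) (nat_lit 5) (nat_lit 200) (nat_lit 5) (nat_lit 458) (nat_lit 396) (nat_lit 286)) (XT.lf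 (nat_lit 0) (nat_lit 2700905553) (nat_lit 684) (nat_lit 2852542407) (nat_lit 76) (nat_lit 6266154400) (nat_lit 199) (nat_lit 5) (nat_lit 208) (nat_lit 5) (nat_lit 200) (nat_lit 5) (nat_lit 459) (nat_lit 396) (nat_lit 285))) (XT.nd (nat_lit 78) (nat_lit 532) (nat_lit 0) (XT.lf (nat_lit 0) (nat_lit 3800584331) (nat_lit 532) (nat_lit 1346821175) (nat_lit 608) (nat_lit 6807375391) (nat_lit 192) (nat_lit 5) (nat_lit 199) (nat_lit 5) (nat_lit 200) (nat_lit 5) (nat_lit 460) (nat_lit 396) (nat_lit 284)) (XT.nd (nat_lit 78) (nat_lit 532) (nat_lit 0) (XT.lf (nat_lit 0) (nat_lit 7662932072) (nat_lit 608) (nat_lit 1509536218) (nat_lit 76) (nat_lit 2919801148) (nat_lit 192) (nat_lit 5) (nat_lit 200) (nat_lit 5) (nat_lit 193) (nat_lit 5) (nat_lit 461) (nat_lit 396) (nat_lit 283)) (XT.lf (nat_lit 0) (nat_lit 5305687097) (nat_lit 532) (nat_lit 4948521795) (nat_lit 608) (nat_lit 1977798264) (nat_lit 185) (nat_lit 5) (nat_lit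 192) (nat_lit 5) (nat_lit 193) (nat_lit 5) (nat_lit 462) (nat_lit 396) (nat_lit 282)))))) (XT.nd (nat_lit 390) (nat_lit 988) (nat_lit 0) (XT.nd (nat_lit 156) (nat_lit 988) (nat_lit 0) (XT.nd (nat_lit 78) (nat_lit 532) (nat_lit 0) (XT.lf (nat_lit 0) (nat_lit 508262464) (nat_lit 608) (nat_lit 123211003) (nat_lit 76) (nat_lit 11743159221) (nat_lit 184) (nat_lit 5) (nat_lit 192) (nat_lit 5) (nat_lit 185) (nat_lit 5) (nat_lit 463) (nat_lit 396) (nat_lit 281)) (XT.lf (nat_lit 0) (nat_lit 3069531984) (nat_lit 608) (nat_lit 5673822082) (nat_lit 76) (nat_lit 3775463522) (nat_lit 177) (nat_lit 5) (nat_lit 185) (nat_lit 5) (nat_lit 178) (nat_lit 5) (nat_lit 464) (nat_lit 396) (nat_lit 280))) (XT.nd (nat_lit 78) (nat_lit 456) (nat_lit 0) (XT.lf (nat_lit 0) (nat_lit 1278134154) (nat_lit 532) (nat_lit 4399869139) (nat_lit 608) (nat_lit 6987970942) (nat_lit 170) (nat_lit 5) (nat_lit 177) (nat_lit 5) (nat_lit 178) (nat_lit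 5) (nat_lit 465) (nat_lit 396) (nat_lit 279)) (XT.nd (nat_lit 78) (nat_lit 456) (nat_lit 0) (XT.lf (nat_lit 0) (nat_lit 8359989133) (nat_lit 608) (nat_lit 4392695422) (nat_lit 76) (nat_lit 62969987) (nat_lit 170) (nat_lit 5) (nat_lit 178) (nat_lit 5) (nat_lit 171) (nat_lit 5) (nat_lit 466) (nat_lit 396) (nat_lit 278)) (XT.lf (nat_lit 0) (nat_lit 2726449761) (nat_lit 456) (nat_lit 8399162593) (nat_lit 532) (nat_lit 1842123431) (nat_lit 164) (nat_lit 5) (nat_lit 170) (nat_lit 5) (nat_lit 171) (nat_lit 5) (nat_lit 467) (nat_lit 396) (nat_lit 277))))) (XT.nd (nat_lit 156) (nat_lit 456) (nat_lit 0) (XT.nd (nat_lit 78) (nat_lit 456) (nat_lit 0) (XT.lf (nat_lit 0) (nat_lit 825784220) (nat_lit 532) (nat_lit 3102894065) (nat_lit 76) (nat_lit 9193822455) (nat_lit 163) (nat_lit 5) (nat_lit 170) (nat_lit 5) (nat_lit 164) (nat_lit 5) (nat_lit 468) (nat_lit 396) (nat_lit 276)) (XT.lf (nat_lit 0) (nat_lit 3537546168) (nat_lit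 532) (nat_lit 9085254065) (nat_lit 76) (nat_lit 657020854) (nat_lit 157) (nat_lit 5) (nat_lit 164) (nat_lit 5) (nat_lit 158) (nat_lit 5) (nat_lit 469) (nat_lit 396) (nat_lit 275))) (XT.nd (nat_lit 78) (nat_lit 456) (nat_lit 0) (XT.lf (nat_lit 0) (nat_lit 6334217325) (nat_lit 532) (nat_lit 1808298679) (nat_lit 76) (nat_lit 5297165084) (nat_lit 157) (nat_lit 5) (nat_lit 164) (nat_lit 5) (nat_lit 158) (nat_lit 5) (nat_lit 470) (nat_lit 396) (nat_lit 274)) (XT.nd (nat_lit 78) (nat_lit 0) (nat_lit 0) (XT.lf (nat_lit 0) (nat_lit 5666642767) (nat_lit 456) (nat_lit 3540986708) (nat_lit 532) (nat_lit 4394699259) (nat_lit 151) (nat_lit 5) (nat_lit 157) (nat_lit 5) (nat_lit 158) (nat_lit 5) (nat_lit 471) (nat_lit 396) (nat_lit 273)) (XT.lf (nat_lit 0) (nat_lit 12142358030) (nat_lit 532) (nat_lit 481967742) (nat_lit 76) (nat_lit 1143833066) (nat_lit 151) (nat_lit 5) (nat_lit 158) (nat_lit 5) (nat_lit 152) (nat_lit 5)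 (nat_lit 472) (nat_lit 396) (nat_lit 272))))))) (XT.nd (nat_lit 780) (nat_lit 2204) (nat_lit 0) (XT.nd (nat_lit 390) (nat_lit 1216) (nat_lit 0) (XT.nd (nat_lit 156) (nat_lit 456) (nat_lit 0) (XT.nd (nat_lit 78) (nat_lit 380) (nat_lit 0) (XT.lf (nat_lit 0) (nat_lit 1237574003) (nat_lit 532) (nat_lit 6774537256) (nat_lit 76) (nat_lit 5923948543) (nat_lit 144) (nat_lit 5) (nat_lit 151) (nat_lit 5) (nat_lit 145) (nat_lit 5) (nat_lit 473) (nat_lit 396) (nat_lit 271)) (XT.lf (nat_lit 0) (nat_lit 835682840) (nat_lit 380) (nat_lit 3293984060) (nat_lit 456) (nat_lit 9977578647) (nat_lit 139) (nat_lit 5) (nat_lit 144) (nat_lit 5) (nat_lit 145) (nat_lit 5) (nat_lit 474) (nat_lit 396) (nat_lit 270))) (XT.nd (nat_lit 78) (nat_lit 456) (nat_lit 0) (XT.lf (nat_lit 0) (nat_lit 7119864529) (nat_lit 456) (nat_lit 5622948449) (nat_lit 76) (nat_lit 1538242745) (nat_lit 139) (nat_lit 5) (nat_lit 145) (nat_lit 5) (nat_lit 140)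 (nat_lit 5) (nat_lit 475) (nat_lit 396) (nat_lit 269)) (XT.nd (nat_lit 78) (nat_lit 0) (nat_lit 0) (XT.lf (nat_lit 0) (nat_lit 2163849554) (nat_lit 456) (nat_lit 8026823260) (nat_lit 532) (nat_lit 4267259013) (nat_lit 133) (nat_lit 5) (nat_lit 139) (nat_lit 5) (nat_lit 140) (nat_lit 5) (nat_lit 476) (nat_lit 396) (nat_lit 268)) (XT.lf (nat_lit 0) (nat_lit 10161391194) (nat_lit 456) (nat_lit 3184339611) (nat_lit 532) (nat_lit 1292163719) (nat_lit 133) (nat_lit 5) (nat_lit 139) (nat_lit 5) (nat_lit 140) (nat_lit 5) (nat_lit 477) (nat_lit 396) (nat_lit 267))))) (XT.nd (nat_lit 156) (nat_lit 760) (nat_lit 0) (XT.nd (nat_lit 78) (nat_lit 0) (nat_lit 0) (XT.lf (nat_lit 0) (nat_lit 1739248066) (nat_lit 456) (nat_lit 11321487845) (nat_lit 76) (nat_lit 1760106485) (nat_lit 127) (nat_lit 5) (nat_lit 133) (nat_lit 5) (nat_lit 128) (nat_lit 5) (nat_lit 478) (nat_lit 396) (nat_lit 266)) (XT.lf (nat_lit 0) (nat_lit 4850731675)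 (nat_lit 456) (nat_lit 3362398722) (nat_lit 76) (nat_lit 6793418504) (nat_lit 127) (nat_lit 5) (nat_lit 133) (nat_lit 5) (nat_lit 128) (nat_lit 5) (nat_lit 479) (nat_lit 396) (nat_lit 265))) (XT.nd (nat_lit 78) (nat_lit 380) (nat_lit 0) (XT.lf (nat_lit 0) (nat_lit 4798098732) (nat_lit 380) (nat_lit 3243187399) (nat_lit 456) (nat_lit 7154351884) (nat_lit 122) (nat_lit 5) (nat_lit 127) (nat_lit 5) (nat_lit 128) (nat_lit 5) (nat_lit 480) (nat_lit 396) (nat_lit 264)) (XT.nd (nat_lit 78) (nat_lit 380) (nat_lit 0) (XT.lf (nat_lit 0) (nat_lit 11316015445) (nat_lit 456) (nat_lit 2253491453) (nat_lit 76) (nat_lit 1818599942) (nat_lit 122) (nat_lit 5) (nat_lit 128) (nat_lit 5) (nat_lit 123) (nat_lit 5) (nat_lit 481) (nat_lit 396) (nat_lit 263)) (XT.lf (nat_lit 0) (nat_lit 6091445646) (nat_lit 380) (nat_lit 8611894276) (nat_lit 456) (nat_lit 880148206) (nat_lit 117) (nat_lit 5) (nat_lit 122) (nat_lit 5) (nat_lit 123)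 (nat_lit 5) (nat_lit 482) (nat_lit 396) (nat_lit 262)))))) (XT.nd (nat_lit 390) (nat_lit 1064) (nat_lit 0) (XT.nd (nat_lit 156) (nat_lit 684) (nat_lit 0) (XT.nd (nat_lit 78) (nat_lit 380) (nat_lit 0) (XT.lf (nat_lit 0) (nat_lit 2345817301) (nat_lit 456) (nat_lit 1184629958) (nat_lit 76) (nat_lit 12251999395) (nat_lit 116) (nat_lit 5) (nat_lit 122) (nat_lit 5) (nat_lit 117) (nat_lit 5) (nat_lit 483) (nat_lit 396) (nat_lit 261)) (XT.lf (nat_lit 0) (nat_lit 5669744530) (nat_lit 456) (nat_lit 8636066216) (nat_lit 76) (nat_lit 1678557500) (nat_lit 111) (nat_lit 5) (nat_lit 117) (nat_lit 5) (nat_lit 112) (nat_lit 5) (nat_lit 484) (nat_lit 396) (nat_lit 260))) (XT.nd (nat_lit 78) (nat_lit 684) (nat_lit 0) (XT.lf (nat_lit 0) (nat_lit 9078018721) (nat_lit 456) (nat_lit 165810054) (nat_lit 76) (nat_lit 6946146839) (nat_lit 111) (nat_lit 5) (nat_lit 117) (nat_lit 5) (nat_lit 112) (nat_lit 5) (nat_lit 485) (nat_lit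 396) (nat_lit 259)) (XT.nd (nat_lit 78) (nat_lit 380) (nat_lit 0) (XT.lf (nat_lit 0) (nat_lit 8566438563) (nat_lit 304) (nat_lit 4030389653) (nat_lit 380) (nat_lit 3802024134) (nat_lit 107) (nat_lit 5) (nat_lit 111) (nat_lit 5) (nat_lit 112) (nat_lit 5) (nat_lit 486) (nat_lit 396) (nat_lit 258)) (XT.lf (nat_lit 0) (nat_lit 846575288) (nat_lit 380) (nat_lit 15341254137) (nat_lit 456) (nat_lit 424045415) (nat_lit 102) (nat_lit 5) (nat_lit 107) (nat_lit 5) (nat_lit 108) (nat_lit 5) (nat_lit 487) (nat_lit 396) (nat_lit 257))))) (XT.nd (nat_lit 234) (nat_lit 684) (nat_lit 0) (XT.nd (nat_lit 78) (nat_lit 304) (nat_lit 0) (XT.lf (nat_lit 0) (nat_lit 3048344578) (nat_lit 456) (nat_lit 7089354601) (nat_lit 76) (nat_lit 6689741019) (nat_lit 101) (nat_lit 5) (nat_lit 107) (nat_lit 5) (nat_lit 102) (nat_lit 5) (nat_lit 488) (nat_lit 396) (nat_lit 256)) (XT.nd (nat_lit 78) (nat_lit 0) (nat_lit 0) (XT.lf (nat_lit 0) (nat_lit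 1760879910) (nat_lit 304) (nat_lit 4822199959) (nat_lit 380) (nat_lit 10464213693) (nat_lit 97) (nat_lit 5) (nat_lit 101) (nat_lit 5) (nat_lit 102) (nat_lit 5) (nat_lit 489) (nat_lit 396) (nat_lit 255)) (XT.lf (nat_lit 0) (nat_lit 10227511796) (nat_lit 380) (nat_lit 6410186151) (nat_lit 76) (nat_lit 633070191) (nat_lit 97) (nat_lit 5) (nat_lit 102) (nat_lit 5) (nat_lit 98) (nat_lit 5) (nat_lit 490) (nat_lit 396) (nat_lit 254)))) (XT.nd (nat_lit 78) (nat_lit 380) (nat_lit 0) (XT.lf (nat_lit 0) (nat_lit 2626864279) (nat_lit 304) (nat_lit 11354429618) (nat_lit 380) (nat_lit 3516693179) (nat_lit 93) (nat_lit 5) (nat_lit 97) (nat_lit 5) (nat_lit 98) (nat_lit 5) (nat_lit 491) (nat_lit 396) (nat_lit 253)) (XT.nd (nat_lit 78) (nat_lit 304) (nat_lit 0) (XT.lf (nat_lit 0) (nat_lit 110154028) (nat_lit 380) (nat_lit 5817411347) (nat_lit 76) (nat_lit 11801562374) (nat_lit 92) (nat_lit 5) (nat_lit 97) (nat_lit 5) (nat_lit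 93) (nat_lit 5) (nat_lit 492) (nat_lit 396) (nat_lit 252)) (XT.lf (nat_lit 0) (nat_lit 3420055443) (nat_lit 304) (nat_lit 352395131) (nat_lit 380) (nat_lit 14191779601) (nat_lit 88) (nat_lit 5) (nat_lit 92) (nat_lit 5) (nat_lit 93) (nat_lit 5) (nat_lit 493) (nat_lit 396) (nat_lit 251))))))))
noncomputable def xc145 : XT := (XT.nd (nat_lit 52728) (nat_lit 0) (nat_lit 23332) (XT.nd (nat_lit 51948) (nat_lit 0) (nat_lit 34580) (XT.nd (nat_lit 390) (nat_lit 532) (nat_lit 0) (XT.nd (nat_lit 156) (nat_lit 304) (nat_lit 0) (XT.nd (nat_lit 78) (nat_lit 304) (nat_lit 0) (XT.lf (nat_lit 0) (nat_lit 7569750096) (nat_lit 380) (nat_lit 5335981260) (nat_lit 76) (nat_lit 5297071941) (nat_lit 88) (nat_lit 5) (nat_lit 93) (nat_lit 5) (nat_lit 89) (nat_lit 5) (nat_lit 494) (nat_lit 396) (nat_lit 250)) (XT.lf (nat_lit 0) (nat_lit 4089079907) (nat_lit 304) (nat_lit 7370864096) (nat_lit 380) (nat_lit 6985868626) (nat_lit 84)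 (nat_lit 5) (nat_lit 88) (nat_lit 5) (nat_lit 89) (nat_lit 5) (nat_lit 495) (nat_lit 396) (nat_lit 249))) (XT.nd (nat_lit 78) (nat_lit 304) (nat_lit 0) (XT.lf (nat_lit 0) (nat_lit 13756503794) (nat_lit 304) (nat_lit 1695424966) (nat_lit 380) (nat_lit 3241277290) (nat_lit 84) (nat_lit 5) (nat_lit 88) (nat_lit 5) (nat_lit 89) (nat_lit 5) (nat_lit 496) (nat_lit 396) (nat_lit 248)) (XT.nd (nat_lit 78) (nat_lit 0) (nat_lit 0) (XT.lf (nat_lit 0) (nat_lit 616306500) (nat_lit 304) (nat_lit 14260358469) (nat_lit 76) (nat_lit 4067897110) (nat_lit 80) (nat_lit 5) (nat_lit 84) (nat_lit 5) (nat_lit 81) (nat_lit 5) (nat_lit 497) (nat_lit 396) (nat_lit 247)) (XT.lf (nat_lit 0) (nat_lit 4540656520) (nat_lit 304) (nat_lit 4687086776) (nat_lit 76) (nat_lit 9972116562) (nat_lit 80) (nat_lit 5) (nat_lit 84) (nat_lit 5) (nat_lit 81) (nat_lit 5) (nat_lit 498) (nat_lit 396) (nat_lit 246))))) (XT.nd (nat_lit 156) (nat_lit 228)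 (nat_lit 0) (XT.nd (nat_lit 78) (nat_lit 0) (nat_lit 0) (XT.lf (nat_lit 0) (nat_lit 5126913073) (nat_lit 304) (nat_lit 3438494695) (nat_lit 380) (nat_lit 10894420906) (nat_lit 76) (nat_lit 5) (nat_lit 80) (nat_lit 5) (nat_lit 81) (nat_lit 5) (nat_lit 499) (nat_lit 396) (nat_lit 245)) (XT.lf (nat_lit 0) (nat_lit 12707020710) (nat_lit 380) (nat_lit 4557908096) (nat_lit 76) (nat_lit 2459344024) (nat_lit 76) (nat_lit 5) (nat_lit 81) (nat_lit 5) (nat_lit 77) (nat_lit 5) (nat_lit 500) (nat_lit 396) (nat_lit 244))) (XT.nd (nat_lit 51246) (nat_lit 0) (nat_lit 36708) (XT.lf (nat_lit 0) (nat_lit 5443529566) (nat_lit 228) (nat_lit 11534963725) (nat_lit 304) (nat_lit 3014575264) (nat_lit 73) (nat_lit 5) (nat_lit 76) (nat_lit 5) (nat_lit 77) (nat_lit 5) (nat_lit 501) (nat_lit 396) (nat_lit 243)) (XT.nd (nat_lit 78) (nat_lit 0) (nat_lit 0) (XT.lf (nat_lit 0) (nat_lit 366743651) (nat_lit 0) (nat_lit 366743651) (nat_lit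 988) (nat_lit 2767636981) (nat_lit 556) (nat_lit 5) (nat_lit 556) (nat_lit 3) (nat_lit 569) (nat_lit 3) (nat_lit 397) (nat_lit 397) (nat_lit 346)) (XT.lf (nat_lit 0) (nat_lit 3245641589) (nat_lit 988) (nat_lit 2970307388) (nat_lit 1064) (nat_lit 819661356) (nat_lit 556) (nat_lit 5) (nat_lit 569) (nat_lit 3) (nat_lit 570) (nat_lit 5) (nat_lit 398) (nat_lit 397) (nat_lit 345)))))) (XT.nd (nat_lit 390) (nat_lit 1064) (nat_lit 0) (XT.nd (nat_lit 156) (nat_lit 1064) (nat_lit 0) (XT.nd (nat_lit 78) (nat_lit 0) (nat_lit 0) (XT.lf (nat_lit 76) (nat_lit 369936861) (nat_lit 0) (nat_lit 4651225375) (nat_lit 1064) (nat_lit 2049287711) (nat_lit 557) (nat_lit 5) (nat_lit 556) (nat_lit 5) (nat_lit 570) (nat_lit 5) (nat_lit 399) (nat_lit 397) (nat_lit 344)) (XT.lf (nat_lit 76) (nat_lit 3793235365) (nat_lit 0) (nat_lit 3013656809) (nat_lit 1064) (nat_lit 299635711) (nat_lit 557) (nat_lit 5) (nat_lit 556) (nat_lit 5) (nat_lit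 570) (nat_lit 5) (nat_lit 400) (nat_lit 397) (nat_lit 343))) (XT.nd (nat_lit 78) (nat_lit 0) (nat_lit 76) (XT.lf (nat_lit 76) (nat_lit 109293294) (nat_lit 0) (nat_lit 1312274915) (nat_lit 1140) (nat_lit 5722479766) (nat_lit 543) (nat_lit 5) (nat_lit 542) (nat_lit 5) (nat_lit 557) (nat_lit 5) (nat_lit 401) (nat_lit 397) (nat_lit 342)) (XT.nd (nat_lit 78) (nat_lit 0) (nat_lit 0) (XT.lf (nat_lit 0) (nat_lit 3154491281) (nat_lit 1064) (nat_lit 3566563179) (nat_lit 1140) (nat_lit 461631712) (nat_lit 543) (nat_lit 5) (nat_lit 557) (nat_lit 5) (nat_lit 558) (nat_lit 5) (nat_lit 402) (nat_lit 397) (nat_lit 341)) (XT.lf (nat_lit 0) (nat_lit 4887797682) (nat_lit 1064) (nat_lit 62261066) (nat_lit 1140) (nat_lit 2272756691) (nat_lit 543) (nat_lit 5) (nat_lit 557) (nat_lit 5) (nat_lit 558) (nat_lit 5) (nat_lit 403) (nat_lit 397) (nat_lit 340))))) (XT.nd (nat_lit 156) (nat_lit 0) (nat_lit 76) (XT.nd (nat_lit 78) (nat_lit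 1140) (nat_lit 0) (XT.lf (nat_lit 76) (nat_lit 3534400350) (nat_lit 0) (nat_lit 3102194304) (nat_lit 1140) (nat_lit 627568311) (nat_lit 544) (nat_lit 5) (nat_lit 543) (nat_lit 5) (nat_lit 558) (nat_lit 5) (nat_lit 404) (nat_lit 397) (nat_lit 339)) (XT.lf (nat_lit 0) (nat_lit 1058081748) (nat_lit 1140) (nat_lit 134234379) (nat_lit 1216) (nat_lit 6114734318) (nat_lit 528) (nat_lit 5) (nat_lit 543) (nat_lit 5) (nat_lit 544) (nat_lit 5) (nat_lit 405) (nat_lit 397) (nat_lit 338))) (XT.nd (nat_lit 78) (nat_lit 0) (nat_lit 0) (XT.lf (nat_lit 0) (nat_lit 2756366344) (nat_lit 1140) (nat_lit 3804697079) (nat_lit 1216) (nat_lit 789933099) (nat_lit 529) (nat_lit 5) (nat_lit 544) (nat_lit 5) (nat_lit 545) (nat_lit 5) (nat_lit 406) (nat_lit 397) (nat_lit 337)) (XT.nd (nat_lit 78) (nat_lit 0) (nat_lit 0) (XT.lf (nat_lit 0) (nat_lit 4457234438) (nat_lit 1140) (nat_lit 126254074) (nat_lit 1216) (nat_lit 2812990363) (nat_lit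 529) (nat_lit 5) (nat_lit 544) (nat_lit 5) (nat_lit 545) (nat_lit 5) (nat_lit 407) (nat_lit 397) (nat_lit 336)) (XT.lf (nat_lit 76) (nat_lit 3649293443) (nat_lit 0) (nat_lit 2527122951) (nat_lit 1216) (nat_lit 1266797682) (nat_lit 530) (nat_lit 5) (nat_lit 529) (nat_lit 5) (nat_lit 545) (nat_lit 5) (nat_lit 408) (nat_lit 397) (nat_lit 335))))))) (XT.nd (nat_lit 780) (nat_lit 8968) (nat_lit 0) (XT.nd (nat_lit 390) (nat_lit 1140) (nat_lit 0) (XT.nd (nat_lit 156) (nat_lit 0) (nat_lit 76) (XT.nd (nat_lit 78) (nat_lit 0) (nat_lit 76) (XT.lf (nat_lit 0) (nat_lit 395125447) (nat_lit 1216) (nat_lit 16372865) (nat_lit 1292) (nat_lit 7080120921) (nat_lit 513) (nat_lit 5) (nat_lit 529) (nat_lit 5) (nat_lit 530) (nat_lit 5) (nat_lit 409) (nat_lit 397) (nat_lit 334)) (XT.lf (nat_lit 0) (nat_lit 2071718670) (nat_lit 1216) (nat_lit 3698106328) (nat_lit 1292) (nat_lit 1771059595) (nat_lit 514) (nat_lit 5) (nat_lit 530)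 (nat_lit 5) (nat_lit 531) (nat_lit 5) (nat_lit 410) (nat_lit 397) (nat_lit 333))) (XT.nd (nat_lit 78) (nat_lit 0) (nat_lit 0) (XT.lf (nat_lit 76) (nat_lit 162670634) (nat_lit 0) (nat_lit 3585447761) (nat_lit 1292) (nat_lit 3843718281) (nat_lit 515) (nat_lit 5) (nat_lit 514) (nat_lit 5) (nat_lit 531) (nat_lit 5) (nat_lit 411) (nat_lit 397) (nat_lit 332)) (XT.nd (nat_lit 78) (nat_lit 0) (nat_lit 76) (XT.lf (nat_lit 76) (nat_lit 4126017775) (nat_lit 0) (nat_lit 1319804044) (nat_lit 1292) (nat_lit 2198256851) (nat_lit 515) (nat_lit 5) (nat_lit 514) (nat_lit 5) (nat_lit 531) (nat_lit 5) (nat_lit 412) (nat_lit 397) (nat_lit 331)) (XT.lf (nat_lit 76) (nat_lit 445556052) (nat_lit 0) (nat_lit 6705015153) (nat_lit 1292) (nat_lit 547358327) (nat_lit 516) (nat_lit 5) (nat_lit 515) (nat_lit 5) (nat_lit 532) (nat_lit 5) (nat_lit 413) (nat_lit 397) (nat_lit 330))))) (XT.nd (nat_lit 156) (nat_lit 0) (nat_lit 76) (XT.nd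 (nat_lit 78) (nat_lit 0) (nat_lit 0) (XT.lf (nat_lit 0) (nat_lit 1118207770) (nat_lit 1292) (nat_lit 3257983708) (nat_lit 1368) (nat_lit 3376612092) (nat_lit 498) (nat_lit 5) (nat_lit 515) (nat_lit 5) (nat_lit 516) (nat_lit 5) (nat_lit 414) (nat_lit 397) (nat_lit 329)) (XT.lf (nat_lit 76) (nat_lit 798180406) (nat_lit 0) (nat_lit 1981520667) (nat_lit 1368) (nat_lit 5029627130) (nat_lit 499) (nat_lit 5) (nat_lit 498) (nat_lit 5) (nat_lit 516) (nat_lit 5) (nat_lit 415) (nat_lit 397) (nat_lit 328))) (XT.nd (nat_lit 78) (nat_lit 0) (nat_lit 0) (XT.lf (nat_lit 0) (nat_lit 4464775566) (nat_lit 1292) (nat_lit 2915628878) (nat_lit 1368) (nat_lit 486795754) (nat_lit 499) (nat_lit 5) (nat_lit 516) (nat_lit 5) (nat_lit 517) (nat_lit 5) (nat_lit 416) (nat_lit 397) (nat_lit 327)) (XT.nd (nat_lit 78) (nat_lit 0) (nat_lit 0) (XT.lf (nat_lit 76) (nat_lit 1239865047) (nat_lit 0) (nat_lit 4930888937) (nat_lit 1368) (nat_lit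 1755755028) (nat_lit 500) (nat_lit 5) (nat_lit 499) (nat_lit 5) (nat_lit 517) (nat_lit 5) (nat_lit 417) (nat_lit 397) (nat_lit 326)) (XT.lf (nat_lit 76) (nat_lit 5493082157) (nat_lit 0) (nat_lit 2403869332) (nat_lit 1368) (nat_lit 90353490) (nat_lit 500) (nat_lit 5) (nat_lit 499) (nat_lit 5) (nat_lit 517) (nat_lit 5) (nat_lit 418) (nat_lit 397) (nat_lit 325)))))) (XT.nd (nat_lit 390) (nat_lit 4864) (nat_lit 0) (XT.nd (nat_lit 156) (nat_lit 2888) (nat_lit 0) (XT.nd (nat_lit 78) (nat_lit 0) (nat_lit 0) (XT.lf (nat_lit 0) (nat_lit 1567030601) (nat_lit 1368) (nat_lit 6280951683) (nat_lit 76) (nat_lit 201552439) (nat_lit 482) (nat_lit 5) (nat_lit 500) (nat_lit 5) (nat_lit 483) (nat_lit 5) (nat_lit 419) (nat_lit 397) (nat_lit 324)) (XT.lf (nat_lit 0) (nat_lit 3256610996) (nat_lit 1368) (nat_lit 2004290114) (nat_lit 76) (nat_lit 2852112482) (nat_lit 482) (nat_lit 5) (nat_lit 500) (nat_lit 5) (nat_lit 483) (nat_lit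 5) (nat_lit 420) (nat_lit 397) (nat_lit 323))) (XT.nd (nat_lit 78) (nat_lit 1520) (nat_lit 0) (XT.lf (nat_lit 0) (nat_lit 2363965584) (nat_lit 1368) (nat_lit 2599492580) (nat_lit 1444) (nat_lit 3214655589) (nat_lit 464) (nat_lit 5) (nat_lit 482) (nat_lit 5) (nat_lit 483) (nat_lit 5) (nat_lit 421) (nat_lit 397) (nat_lit 322)) (XT.nd (nat_lit 78) (nat_lit 1520) (nat_lit 0) (XT.lf (nat_lit 0) (nat_lit 6687362648) (nat_lit 1444) (nat_lit 1423799381) (nat_lit 76) (nat_lit 133716284) (nat_lit 464) (nat_lit 5) (nat_lit 483) (nat_lit 5) (nat_lit 465) (nat_lit 5) (nat_lit 422) (nat_lit 397) (nat_lit 321)) (XT.lf (nat_lit 0) (nat_lit 137328238) (nat_lit 1520) (nat_lit 5261576509) (nat_lit 76) (nat_lit 2913950123) (nat_lit 444) (nat_lit 5) (nat_lit 464) (nat_lit 5) (nat_lit 445) (nat_lit 5) (nat_lit 423) (nat_lit 397) (nat_lit 320))))) (XT.nd (nat_lit 234) (nat_lit 3344) (nat_lit 0) (XT.nd (nat_lit 78) (nat_lit 1520)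 (nat_lit 0) (XT.lf (nat_lit 0) (nat_lit 1824321430) (nat_lit 1520) (nat_lit 782452666) (nat_lit 76) (nat_lit 5775648411) (nat_lit 444) (nat_lit 5) (nat_lit 464) (nat_lit 5) (nat_lit 445) (nat_lit 5) (nat_lit 424) (nat_lit 397) (nat_lit 319)) (XT.nd (nat_lit 78) (nat_lit 0) (nat_lit 0) (XT.lf (nat_lit 0) (nat_lit 3541633883) (nat_lit 1596) (nat_lit 4643763539) (nat_lit 76) (nat_lit 268071706) (nat_lit 424) (nat_lit 5) (nat_lit 445) (nat_lit 5) (nat_lit 425) (nat_lit 5) (nat_lit 425) (nat_lit 397) (nat_lit 318)) (XT.lf (nat_lit 0) (nat_lit 5286369710) (nat_lit 1596) (nat_lit 64032380) (nat_lit 76) (nat_lit 3175691888) (nat_lit 424) (nat_lit 5) (nat_lit 445) (nat_lit 5) (nat_lit 425) (nat_lit 5) (nat_lit 426) (nat_lit 397) (nat_lit 317)))) (XT.nd (nat_lit 78) (nat_lit 1748) (nat_lit 0) (XT.lf (nat_lit 0) (nat_lit 4643471901) (nat_lit 1596) (nat_lit 2423783009) (nat_lit 1672) (nat_lit 1532909797) (nat_lit 403)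 (nat_lit 5) (nat_lit 424) (nat_lit 5) (nat_lit 425) (nat_lit 5) (nat_lit 427) (nat_lit 397) (nat_lit 316)) (XT.nd (nat_lit 78) (nat_lit 0) (nat_lit 0) (XT.lf (nat_lit 0) (nat_lit 185659550) (nat_lit 1748) (nat_lit 7926026636) (nat_lit 76) (nat_lit 564414461) (nat_lit 380) (nat_lit 5) (nat_lit 403) (nat_lit 5) (nat_lit 381) (nat_lit 5) (nat_lit 428) (nat_lit 397) (nat_lit 315)) (XT.lf (nat_lit 0) (nat_lit 1932603752) (nat_lit 1748) (nat_lit 3200192854) (nat_lit 76) (nat_lit 3620282875) (nat_lit 380) (nat_lit 5) (nat_lit 403) (nat_lit 5) (nat_lit 381) (nat_lit 5) (nat_lit 429) (nat_lit 397) (nat_lit 314))))))))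
noncomputable def xc146 : XT := (XT.nd (nat_lit 1560) (nat_lit 6992) (nat_lit 0) (XT.nd (nat_lit 780) (nat_lit 3800) (nat_lit 0) (XT.nd (nat_lit 390) (nat_lit 2508) (nat_lit 0) (XT.nd (nat_lit 156) (nat_lit 1900) (nat_lit 0) (XT.nd (nat_lit 78) (nat_lit 0) (nat_lit 0) (XT.lf (nat_lit 0) (nat_lit 1616456093) (nat_lit 1748) (nat_lit 2080811213) (nat_lit 1824) (nat_lit 5134692042) (nat_lit 357) (nat_lit 5) (nat_lit 380) (nat_lit 5) (nat_lit 381) (nat_lit 5) (nat_lit 430) (nat_lit 397) (nat_lit 313)) (XT.lf (nat_lit 0) (nat_lit 5498228161) (nat_lit 1824) (nat_lit 2371331877) (nat_lit 76) (nat_lit 1042853424) (nat_lit 357) (nat_lit 5) (nat_lit 381) (nat_lit 5) (nat_lit 358) (nat_lit 5) (nat_lit 431) (nat_lit 397) (nat_lit 312))) (XT.nd (nat_lit 78) (nat_lit 988) (nat_lit 0) (XT.lf (nat_lit 0) (nat_lit 2564758415) (nat_lit 912) (nat_lit 4774102740) (nat_lit 988) (nat_lit 1655558847) (nat_lit 345) (nat_lit 5) (nat_lit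 357) (nat_lit 5) (nat_lit 358) (nat_lit 5) (nat_lit 432) (nat_lit 397) (nat_lit 311)) (XT.nd (nat_lit 78) (nat_lit 912) (nat_lit 0) (XT.lf (nat_lit 0) (nat_lit 125840150) (nat_lit 988) (nat_lit 1472064414) (nat_lit 76) (nat_lit 7480371663) (nat_lit 344) (nat_lit 5) (nat_lit 357) (nat_lit 5) (nat_lit 345) (nat_lit 5) (nat_lit 433) (nat_lit 397) (nat_lit 310)) (XT.lf (nat_lit 0) (nat_lit 1928883328) (nat_lit 988) (nat_lit 5578206834) (nat_lit 76) (nat_lit 1656352325) (nat_lit 332) (nat_lit 5) (nat_lit 345) (nat_lit 5) (nat_lit 333) (nat_lit 5) (nat_lit 434) (nat_lit 397) (nat_lit 309))))) (XT.nd (nat_lit 156) (nat_lit 1672) (nat_lit 0) (XT.nd (nat_lit 78) (nat_lit 836) (nat_lit 0) (XT.lf (nat_lit 0) (nat_lit 3762791705) (nat_lit 988) (nat_lit 522040133) (nat_lit 76) (nat_lit 4965599301) (nat_lit 332) (nat_lit 5) (nat_lit 345) (nat_lit 5) (nat_lit 333) (nat_lit 5) (nat_lit 435) (nat_lit 397) (nat_lit 308))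 (XT.lf (nat_lit 0) (nat_lit 4672099838) (nat_lit 836) (nat_lit 966395565) (nat_lit 912) (nat_lit 3700576673) (nat_lit 321) (nat_lit 5) (nat_lit 332) (nat_lit 5) (nat_lit 333) (nat_lit 5) (nat_lit 436) (nat_lit 397) (nat_lit 307))) (XT.nd (nat_lit 78) (nat_lit 836) (nat_lit 0) (XT.lf (nat_lit 0) (nat_lit 514018592) (nat_lit 836) (nat_lit 7035383908) (nat_lit 912) (nat_lit 1880144112) (nat_lit 310) (nat_lit 5) (nat_lit 321) (nat_lit 5) (nat_lit 322) (nat_lit 5) (nat_lit 437) (nat_lit 397) (nat_lit 306)) (XT.nd (nat_lit 78) (nat_lit 836) (nat_lit 0) (XT.lf (nat_lit 0) (nat_lit 5830788320) (nat_lit 836) (nat_lit 3680866751) (nat_lit 912) (nat_lit 9927300) (nat_lit 310) (nat_lit 5) (nat_lit 321) (nat_lit 5) (nat_lit 322) (nat_lit 5) (nat_lit 438) (nat_lit 397) (nat_lit 305)) (XT.lf (nat_lit 0) (nat_lit 1622927399) (nat_lit 760) (nat_lit 236174740) (nat_lit 836) (nat_lit 7756398072) (nat_lit 299) (nat_lit 5) (nat_lit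 309) (nat_lit 5) (nat_lit 310) (nat_lit 5) (nat_lit 439) (nat_lit 397) (nat_lit 304)))))) (XT.nd (nat_lit 390) (nat_lit 2204) (nat_lit 0) (XT.nd (nat_lit 156) (nat_lit 836) (nat_lit 0) (XT.nd (nat_lit 78) (nat_lit 760) (nat_lit 0) (XT.lf (nat_lit 0) (nat_lit 3787664398) (nat_lit 836) (nat_lit 2664156490) (nat_lit 76) (nat_lit 3259041960) (nat_lit 299) (nat_lit 5) (nat_lit 310) (nat_lit 5) (nat_lit 300) (nat_lit 5) (nat_lit 440) (nat_lit 397) (nat_lit 303)) (XT.lf (nat_lit 0) (nat_lit 2781429807) (nat_lit 760) (nat_lit 2969534890) (nat_lit 836) (nat_lit 4057257897) (nat_lit 289) (nat_lit 5) (nat_lit 299) (nat_lit 5) (nat_lit 300) (nat_lit 5) (nat_lit 441) (nat_lit 397) (nat_lit 302))) (XT.nd (nat_lit 78) (nat_lit 836) (nat_lit 0) (XT.lf (nat_lit 0) (nat_lit 7752149047) (nat_lit 836) (nat_lit 1563653287) (nat_lit 76) (nat_lit 591767775) (nat_lit 289) (nat_lit 5) (nat_lit 300) (nat_lit 5) (nat_lit 290) (nat_lit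 5) (nat_lit 442) (nat_lit 397) (nat_lit 301)) (XT.nd (nat_lit 78) (nat_lit 76) (nat_lit 0) (XT.lf (nat_lit 0) (nat_lit 4017635241) (nat_lit 760) (nat_lit 5798767346) (nat_lit 836) (nat_lit 192053756) (nat_lit 279) (nat_lit 5) (nat_lit 289) (nat_lit 5) (nat_lit 290) (nat_lit 5) (nat_lit 443) (nat_lit 397) (nat_lit 300)) (XT.lf (nat_lit 0) (nat_lit 1774820570) (nat_lit 836) (nat_lit 415523535) (nat_lit 76) (nat_lit 7921033559) (nat_lit 278) (nat_lit 5) (nat_lit 289) (nat_lit 5) (nat_lit 279) (nat_lit 5) (nat_lit 444) (nat_lit 397) (nat_lit 299))))) (XT.nd (nat_lit 156) (nat_lit 760) (nat_lit 0) (XT.nd (nat_lit 78) (nat_lit 684) (nat_lit 0) (XT.lf (nat_lit 0) (nat_lit 3800745368) (nat_lit 836) (nat_lit 4910087878) (nat_lit 76) (nat_lit 1505065033) (nat_lit 268) (nat_lit 5) (nat_lit 279) (nat_lit 5) (nat_lit 269) (nat_lit 5) (nat_lit 445) (nat_lit 397) (nat_lit 298)) (XT.lf (nat_lit 0) (nat_lit 796575781) (nat_lit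 684) (nat_lit 5071231889) (nat_lit 760) (nat_lit 4454700971) (nat_lit 259) (nat_lit 5) (nat_lit 268) (nat_lit 5) (nat_lit 269) (nat_lit 5) (nat_lit 446) (nat_lit 397) (nat_lit 297))) (XT.nd (nat_lit 78) (nat_lit 760) (nat_lit 0) (XT.lf (nat_lit 0) (nat_lit 6659991378) (nat_lit 684) (nat_lit 1327577091) (nat_lit 760) (nat_lit 2443467080) (nat_lit 259) (nat_lit 5) (nat_lit 268) (nat_lit 5) (nat_lit 269) (nat_lit 5) (nat_lit 447) (nat_lit 397) (nat_lit 296)) (XT.nd (nat_lit 78) (nat_lit 76) (nat_lit 0) (XT.lf (nat_lit 0) (nat_lit 2086241645) (nat_lit 684) (nat_lit 8072017420) (nat_lit 760) (nat_lit 383314498) (nat_lit 250) (nat_lit 5) (nat_lit 259) (nat_lit 5) (nat_lit 260) (nat_lit 5) (nat_lit 448) (nat_lit 397) (nat_lit 295)) (XT.lf (nat_lit 0) (nat_lit 1708702135) (nat_lit 760) (nat_lit 2586162564) (nat_lit 76) (nat_lit 6358981499) (nat_lit 249) (nat_lit 5) (nat_lit 259) (nat_lit 5) (nat_lit 250) (nat_lit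 5) (nat_lit 449) (nat_lit 397) (nat_lit 294))))))) (XT.nd (nat_lit 780) (nat_lit 3192) (nat_lit 0) (XT.nd (nat_lit 390) (nat_lit 1824) (nat_lit 0) (XT.nd (nat_lit 156) (nat_lit 1368) (nat_lit 0) (XT.nd (nat_lit 78) (nat_lit 0) (nat_lit 0) (XT.lf (nat_lit 0) (nat_lit 3419142512) (nat_lit 608) (nat_lit 419829560) (nat_lit 684) (nat_lit 6929321240) (nat_lit 241) (nat_lit 5) (nat_lit 249) (nat_lit 5) (nat_lit 250) (nat_lit 5) (nat_lit 450) (nat_lit 397) (nat_lit 293)) (XT.lf (nat_lit 0) (nat_lit 6031828674) (nat_lit 684) (nat_lit 1351920044) (nat_lit 76) (nat_lit 3500891425) (nat_lit 241) (nat_lit 5) (nat_lit 250) (nat_lit 5) (nat_lit 242) (nat_lit 5) (nat_lit 451) (nat_lit 397) (nat_lit 292))) (XT.nd (nat_lit 78) (nat_lit 684) (nat_lit 0) (XT.lf (nat_lit 0) (nat_lit 4802126368) (nat_lit 684) (nat_lit 3480350595) (nat_lit 760) (nat_lit 2720568455) (nat_lit 232) (nat_lit 5) (nat_lit 241) (nat_lit 5) (nat_lit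 242) (nat_lit 5) (nat_lit 452) (nat_lit 397) (nat_lit 291)) (XT.nd (nat_lit 78) (nat_lit 684) (nat_lit 0) (XT.lf (nat_lit 0) (nat_lit 10570719734) (nat_lit 760) (nat_lit 52931177) (nat_lit 76) (nat_lit 500326255) (nat_lit 232) (nat_lit 5) (nat_lit 242) (nat_lit 5) (nat_lit 233) (nat_lit 5) (nat_lit 453) (nat_lit 397) (nat_lit 290)) (XT.lf (nat_lit 0) (nat_lit 1680183173) (nat_lit 684) (nat_lit 5003615321) (nat_lit 76) (nat_lit 4562433038) (nat_lit 223) (nat_lit 5) (nat_lit 232) (nat_lit 5) (nat_lit 224) (nat_lit 5) (nat_lit 454) (nat_lit 397) (nat_lit 289))))) (XT.nd (nat_lit 156) (nat_lit 1216) (nat_lit 0) (XT.nd (nat_lit 78) (nat_lit 0) (nat_lit 0) (XT.lf (nat_lit 0) (nat_lit 1283827704) (nat_lit 608) (nat_lit 2656435983) (nat_lit 684) (nat_lit 7430815993) (nat_lit 215) (nat_lit 5) (nat_lit 223) (nat_lit 5) (nat_lit 224) (nat_lit 5) (nat_lit 455) (nat_lit 397) (nat_lit 288)) (XT.lf (nat_lit 0) (nat_lit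 6269651642) (nat_lit 684) (nat_lit 3765979017) (nat_lit 76) (nat_lit 1462321254) (nat_lit 215) (nat_lit 5) (nat_lit 224) (nat_lit 5) (nat_lit 216) (nat_lit 5) (nat_lit 456) (nat_lit 397) (nat_lit 287))) (XT.nd (nat_lit 78) (nat_lit 684) (nat_lit 0) (XT.lf (nat_lit 0) (nat_lit 2676261683) (nat_lit 532) (nat_lit 5985591521) (nat_lit 608) (nat_lit 2965192924) (nat_lit 208) (nat_lit 5) (nat_lit 215) (nat_lit 5) (nat_lit 216) (nat_lit 5) (nat_lit 457) (nat_lit 397) (nat_lit 286)) (XT.nd (nat_lit 78) (nat_lit 684) (nat_lit 0) (XT.lf (nat_lit 0) (nat_lit 9275582042) (nat_lit 532) (nat_lit 1833065327) (nat_lit 608) (nat_lit 649948766) (nat_lit 208) (nat_lit 5) (nat_lit 215) (nat_lit 5) (nat_lit 216) (nat_lit 5) (nat_lit 458) (nat_lit 397) (nat_lit 285)) (XT.lf (nat_lit 0) (nat_lit 1713530113) (nat_lit 684) (nat_lit 7773607574) (nat_lit 76) (nat_lit 2404938174) (nat_lit 199) (nat_lit 5) (nat_lit 208) (nat_lit 5)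 (nat_lit 200) (nat_lit 5) (nat_lit 459) (nat_lit 397) (nat_lit 284)))))) (XT.nd (nat_lit 390) (nat_lit 1520) (nat_lit 0) (XT.nd (nat_lit 156) (nat_lit 1140) (nat_lit 0) (XT.nd (nat_lit 78) (nat_lit 532) (nat_lit 0) (XT.lf (nat_lit 0) (nat_lit 4126391481) (nat_lit 684) (nat_lit 1181618658) (nat_lit 76) (nat_lit 6719921172) (nat_lit 199) (nat_lit 5) (nat_lit 208) (nat_lit 5) (nat_lit 200) (nat_lit 5) (nat_lit 460) (nat_lit 397) (nat_lit 283)) (XT.lf (nat_lit 0) (nat_lit 5593202360) (nat_lit 532) (nat_lit 1012872894) (nat_lit 608) (nat_lit 5560065514) (nat_lit 192) (nat_lit 5) (nat_lit 199) (nat_lit 5) (nat_lit 200) (nat_lit 5) (nat_lit 461) (nat_lit 397) (nat_lit 282))) (XT.nd (nat_lit 78) (nat_lit 608) (nat_lit 0) (XT.lf (nat_lit 0) (nat_lit 170349363) (nat_lit 532) (nat_lit 8978383392) (nat_lit 608) (nat_lit 3158122100) (nat_lit 185) (nat_lit 5) (nat_lit 192) (nat_lit 5) (nat_lit 193) (nat_lit 5) (nat_lit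 462) (nat_lit 397) (nat_lit 281)) (XT.nd (nat_lit 78) (nat_lit 608) (nat_lit 0) (XT.lf (nat_lit 0) (nat_lit 7108407179) (nat_lit 532) (nat_lit 4667230817) (nat_lit 608) (nat_lit 674085219) (nat_lit 185) (nat_lit 5) (nat_lit 192) (nat_lit 5) (nat_lit 193) (nat_lit 5) (nat_lit 463) (nat_lit 397) (nat_lit 280)) (XT.lf (nat_lit 0) (nat_lit 1576182012) (nat_lit 532) (nat_lit 252137944) (nat_lit 608) (nat_lit 10767033543) (nat_lit 177) (nat_lit 5) (nat_lit 184) (nat_lit 5) (nat_lit 185) (nat_lit 5) (nat_lit 464) (nat_lit 397) (nat_lit 279))))) (XT.nd (nat_lit 234) (nat_lit 988) (nat_lit 0) (XT.nd (nat_lit 78) (nat_lit 532) (nat_lit 0) (XT.lf (nat_lit 0) (nat_lit 4418441668) (nat_lit 608) (nat_lit 4093410877) (nat_lit 76) (nat_lit 4231028271) (nat_lit 177) (nat_lit 5) (nat_lit 185) (nat_lit 5) (nat_lit 178) (nat_lit 5) (nat_lit 465) (nat_lit 397) (nat_lit 278)) (XT.nd (nat_lit 78) (nat_lit 0) (nat_lit 0) (XT.lf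 (nat_lit 0) (nat_lit 2986440486) (nat_lit 532) (nat_lit 4078321935) (nat_lit 608) (nat_lit 5828515609) (nat_lit 170) (nat_lit 5) (nat_lit 177) (nat_lit 5) (nat_lit 178) (nat_lit 5) (nat_lit 466) (nat_lit 397) (nat_lit 277)) (XT.lf (nat_lit 0) (nat_lit 9778030187) (nat_lit 608) (nat_lit 2807901975) (nat_lit 76) (nat_lit 460477756) (nat_lit 170) (nat_lit 5) (nat_lit 178) (nat_lit 5) (nat_lit 171) (nat_lit 5) (nat_lit 467) (nat_lit 397) (nat_lit 276)))) (XT.nd (nat_lit 78) (nat_lit 532) (nat_lit 0) (XT.lf (nat_lit 0) (nat_lit 4442621854) (nat_lit 456) (nat_lit 8142606208) (nat_lit 532) (nat_lit 616590085) (nat_lit 164) (nat_lit 5) (nat_lit 170) (nat_lit 5) (nat_lit 171) (nat_lit 5) (nat_lit 468) (nat_lit 397) (nat_lit 275)) (XT.nd (nat_lit 78) (nat_lit 456) (nat_lit 0) (XT.lf (nat_lit 0) (nat_lit 2063691600) (nat_lit 532) (nat_lit 1519148740) (nat_lit 76) (nat_lit 9777172888) (nat_lit 163) (nat_lit 5) (nat_lit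 170) (nat_lit 5) (nat_lit 164) (nat_lit 5) (nat_lit 469) (nat_lit 397) (nat_lit 274)) (XT.lf (nat_lit 0) (nat_lit 4819127106) (nat_lit 532) (nat_lit 7610094561) (nat_lit 76) (nat_lit 1091479542) (nat_lit 157) (nat_lit 5) (nat_lit 164) (nat_lit 5) (nat_lit 158) (nat_lit 5) (nat_lit 470) (nat_lit 397) (nat_lit 273))))))))
noncomputable def xc147 : XT := (XT.nd (nat_lit 1560) (nat_lit 1596) (nat_lit 0) (XT.nd (nat_lit 780) (nat_lit 2280) (nat_lit 0) (XT.nd (nat_lit 390) (nat_lit 912) (nat_lit 0) (XT.nd (nat_lit 156) (nat_lit 912) (nat_lit 0) (XT.nd (nat_lit 78) (nat_lit 456) (nat_lit 0) (XT.lf (nat_lit 0) (nat_lit 7647989921) (nat_lit 532) (nat_lit 220087608) (nat_lit 76) (nat_lit 5816165515) (nat_lit 157) (nat_lit 5) (nat_lit 164) (nat_lit 5) (nat_lit 158) (nat_lit 5) (nat_lit 471) (nat_lit 397) (nat_lit 272)) (XT.lf (nat_lit 0) (nat_lit 7393665977) (nat_lit 456) (nat_lit 3172405246) (nat_lit 532) (nat_lit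 3284338008) (nat_lit 151) (nat_lit 5) (nat_lit 157) (nat_lit 5) (nat_lit 158) (nat_lit 5) (nat_lit 472) (nat_lit 397) (nat_lit 271))) (XT.nd (nat_lit 78) (nat_lit 456) (nat_lit 0) (XT.lf (nat_lit 0) (nat_lit 1125907964) (nat_lit 456) (nat_lit 12420668193) (nat_lit 532) (nat_lit 473247561) (nat_lit 145) (nat_lit 5) (nat_lit 151) (nat_lit 5) (nat_lit 152) (nat_lit 5) (nat_lit 473) (nat_lit 397) (nat_lit 270)) (XT.nd (nat_lit 78) (nat_lit 380) (nat_lit 0) (XT.lf (nat_lit 0) (nat_lit 2412112290) (nat_lit 532) (nat_lit 5302091168) (nat_lit 76) (nat_lit 6477129210) (nat_lit 144) (nat_lit 5) (nat_lit 151) (nat_lit 5) (nat_lit 145) (nat_lit 5) (nat_lit 474) (nat_lit 397) (nat_lit 269)) (XT.lf (nat_lit 0) (nat_lit 2449754798) (nat_lit 380) (nat_lit 2900118517) (nat_lit 456) (nat_lit 9016321162) (nat_lit 139) (nat_lit 5) (nat_lit 144) (nat_lit 5) (nat_lit 145) (nat_lit 5) (nat_lit 475) (nat_lit 397) (nat_lit 268)))))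 (XT.nd (nat_lit 156) (nat_lit 456) (nat_lit 0) (XT.nd (nat_lit 78) (nat_lit 456) (nat_lit 0) (XT.lf (nat_lit 0) (nat_lit 8380495201) (nat_lit 456) (nat_lit 4149555152) (nat_lit 76) (nat_lit 2013826799) (nat_lit 139) (nat_lit 5) (nat_lit 145) (nat_lit 5) (nat_lit 140) (nat_lit 5) (nat_lit 476) (nat_lit 397) (nat_lit 267)) (XT.lf (nat_lit 0) (nat_lit 3782545572) (nat_lit 456) (nat_lit 7718476600) (nat_lit 532) (nat_lit 3223511085) (nat_lit 133) (nat_lit 5) (nat_lit 139) (nat_lit 5) (nat_lit 140) (nat_lit 5) (nat_lit 477) (nat_lit 397) (nat_lit 266))) (XT.nd (nat_lit 78) (nat_lit 456) (nat_lit 0) (XT.lf (nat_lit 0) (nat_lit 11909147475) (nat_lit 456) (nat_lit 2788337065) (nat_lit 532) (nat_lit 211052966) (nat_lit 133) (nat_lit 5) (nat_lit 139) (nat_lit 5) (nat_lit 140) (nat_lit 5) (nat_lit 478) (nat_lit 397) (nat_lit 265)) (XT.nd (nat_lit 78) (nat_lit 0) (nat_lit 0) (XT.lf (nat_lit 0) (nat_lit 2858146612) (nat_lit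 456) (nat_lit 9979736884) (nat_lit 76) (nat_lit 2257291587) (nat_lit 127) (nat_lit 5) (nat_lit 133) (nat_lit 5) (nat_lit 128) (nat_lit 5) (nat_lit 479) (nat_lit 397) (nat_lit 264)) (XT.lf (nat_lit 0) (nat_lit 6010602764) (nat_lit 456) (nat_lit 1892214619) (nat_lit 76) (nat_lit 7382211357) (nat_lit 127) (nat_lit 5) (nat_lit 133) (nat_lit 5) (nat_lit 128) (nat_lit 5) (nat_lit 480) (nat_lit 397) (nat_lit 263)))))) (XT.nd (nat_lit 390) (nat_lit 1064) (nat_lit 0) (XT.nd (nat_lit 156) (nat_lit 836) (nat_lit 0) (XT.nd (nat_lit 78) (nat_lit 0) (nat_lit 0) (XT.lf (nat_lit 0) (nat_lit 6421378099) (nat_lit 380) (nat_lit 2832666246) (nat_lit 456) (nat_lit 6224081498) (nat_lit 122) (nat_lit 5) (nat_lit 127) (nat_lit 5) (nat_lit 128) (nat_lit 5) (nat_lit 481) (nat_lit 397) (nat_lit 262)) (XT.lf (nat_lit 0) (nat_lit 12576668111) (nat_lit 456) (nat_lit 783212447) (nat_lit 76) (nat_lit 2314923062) (nat_lit 122) (nat_lit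 5) (nat_lit 128) (nat_lit 5) (nat_lit 123) (nat_lit 5) (nat_lit 482) (nat_lit 397) (nat_lit 261))) (XT.nd (nat_lit 78) (nat_lit 380) (nat_lit 0) (XT.lf (nat_lit 0) (nat_lit 144994964) (nat_lit 456) (nat_lit 8156610023) (nat_lit 76) (nat_lit 7572686037) (nat_lit 116) (nat_lit 5) (nat_lit 122) (nat_lit 5) (nat_lit 117) (nat_lit 5) (nat_lit 483) (nat_lit 397) (nat_lit 260)) (XT.nd (nat_lit 78) (nat_lit 0) (nat_lit 0) (XT.lf (nat_lit 0) (nat_lit 285067639) (nat_lit 380) (nat_lit 3120273685) (nat_lit 456) (nat_lit 12672145241) (nat_lit 111) (nat_lit 5) (nat_lit 116) (nat_lit 5) (nat_lit 117) (nat_lit 5) (nat_lit 484) (nat_lit 397) (nat_lit 259)) (XT.lf (nat_lit 0) (nat_lit 6786797629) (nat_lit 456) (nat_lit 7311687567) (nat_lit 76) (nat_lit 2185147381) (nat_lit 111) (nat_lit 5) (nat_lit 117) (nat_lit 5) (nat_lit 112) (nat_lit 5) (nat_lit 485) (nat_lit 397) (nat_lit 258))))) (XT.nd (nat_lit 156) (nat_lit 760)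 (nat_lit 0) (XT.nd (nat_lit 78) (nat_lit 0) (nat_lit 0) (XT.lf (nat_lit 0) (nat_lit 1315876777) (nat_lit 304) (nat_lit 8936224499) (nat_lit 380) (nat_lit 6241480397) (nat_lit 107) (nat_lit 5) (nat_lit 111) (nat_lit 5) (nat_lit 112) (nat_lit 5) (nat_lit 486) (nat_lit 397) (nat_lit 257)) (XT.lf (nat_lit 0) (nat_lit 10195856189) (nat_lit 304) (nat_lit 3627060409) (nat_lit 380) (nat_lit 2884093480) (nat_lit 107) (nat_lit 5) (nat_lit 111) (nat_lit 5) (nat_lit 112) (nat_lit 5) (nat_lit 487) (nat_lit 397) (nat_lit 256))) (XT.nd (nat_lit 78) (nat_lit 304) (nat_lit 0) (XT.lf (nat_lit 0) (nat_lit 547523335) (nat_lit 456) (nat_lit 14599461388) (nat_lit 76) (nat_lit 1777373013) (nat_lit 101) (nat_lit 5) (nat_lit 107) (nat_lit 5) (nat_lit 102) (nat_lit 5) (nat_lit 488) (nat_lit 397) (nat_lit 255)) (XT.nd (nat_lit 78) (nat_lit 304) (nat_lit 0) (XT.lf (nat_lit 0) (nat_lit 4064583037) (nat_lit 456) (nat_lit 5781792764)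 (nat_lit 76) (nat_lit 7298190883) (nat_lit 101) (nat_lit 5) (nat_lit 107) (nat_lit 5) (nat_lit 102) (nat_lit 5) (nat_lit 489) (nat_lit 397) (nat_lit 254)) (XT.lf (nat_lit 0) (nat_lit 3235911247) (nat_lit 304) (nat_lit 4424719198) (nat_lit 380) (nat_lit 9708380535) (nat_lit 97) (nat_lit 5) (nat_lit 101) (nat_lit 5) (nat_lit 102) (nat_lit 5) (nat_lit 490) (nat_lit 397) (nat_lit 253))))))) (XT.nd (nat_lit 780) (nat_lit 0) (nat_lit 0) (XT.nd (nat_lit 390) (nat_lit 912) (nat_lit 0) (XT.nd (nat_lit 156) (nat_lit 380) (nat_lit 0) (XT.nd (nat_lit 78) (nat_lit 304) (nat_lit 0) (XT.lf (nat_lit 0) (nat_lit 11362548175) (nat_lit 380) (nat_lit 5111100359) (nat_lit 76) (nat_lit 1123620662) (nat_lit 97) (nat_lit 5) (nat_lit 102) (nat_lit 5) (nat_lit 98) (nat_lit 5) (nat_lit 491) (nat_lit 397) (nat_lit 252)) (XT.lf (nat_lit 0) (nat_lit 4097301016) (nat_lit 304) (nat_lit 11085066018) (nat_lit 380) (nat_lit 2646852228) (nat_lit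 93) (nat_lit 5) (nat_lit 97) (nat_lit 5) (nat_lit 98) (nat_lit 5) (nat_lit 492) (nat_lit 397) (nat_lit 251))) (XT.nd (nat_lit 78) (nat_lit 304) (nat_lit 0) (XT.lf (nat_lit 0) (nat_lit 1022008337) (nat_lit 380) (nat_lit 4531286271) (nat_lit 76) (nat_lit 12511935657) (nat_lit 92) (nat_lit 5) (nat_lit 97) (nat_lit 5) (nat_lit 93) (nat_lit 5) (nat_lit 493) (nat_lit 397) (nat_lit 250)) (XT.nd (nat_lit 78) (nat_lit 0) (nat_lit 0) (XT.lf (nat_lit 0) (nat_lit 4749623549) (nat_lit 380) (nat_lit 13424376271) (nat_lit 76) (nat_lit 131199093) (nat_lit 88) (nat_lit 5) (nat_lit 93) (nat_lit 5) (nat_lit 89) (nat_lit 5) (nat_lit 494) (nat_lit 397) (nat_lit 249)) (XT.lf (nat_lit 0) (nat_lit 8607476181) (nat_lit 380) (nat_lit 4061967343) (nat_lit 76) (nat_lit 5879413348) (nat_lit 88) (nat_lit 5) (nat_lit 93) (nat_lit 5) (nat_lit 89) (nat_lit 5) (nat_lit 495) (nat_lit 397) (nat_lit 248))))) (XT.nd (nat_lit 156) (nat_lit 608)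 (nat_lit 0) (XT.nd (nat_lit 78) (nat_lit 0) (nat_lit 0) (XT.lf (nat_lit 0) (nat_lit 5542511275) (nat_lit 304) (nat_lit 7024489311) (nat_lit 380) (nat_lit 6229900681) (nat_lit 84) (nat_lit 5) (nat_lit 88) (nat_lit 5) (nat_lit 89) (nat_lit 5) (nat_lit 496) (nat_lit 397) (nat_lit 247)) (XT.lf (nat_lit 0) (nat_lit 15376388545) (nat_lit 304) (nat_lit 1245223596) (nat_lit 380) (nat_lit 2427979976) (nat_lit 84) (nat_lit 5) (nat_lit 88) (nat_lit 5) (nat_lit 89) (nat_lit 5) (nat_lit 497) (nat_lit 397) (nat_lit 246))) (XT.nd (nat_lit 78) (nat_lit 304) (nat_lit 0) (XT.lf (nat_lit 0) (nat_lit 1490172524) (nat_lit 304) (nat_lit 13183713178) (nat_lit 76) (nat_lit 4632081960) (nat_lit 80) (nat_lit 5) (nat_lit 84) (nat_lit 5) (nat_lit 81) (nat_lit 5) (nat_lit 498) (nat_lit 397) (nat_lit 245)) (XT.nd (nat_lit 78) (nat_lit 304) (nat_lit 0) (XT.lf (nat_lit 0) (nat_lit 5476116605) (nat_lit 304) (nat_lit 3445679041) (nat_lit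 76) (nat_lit 10644918607) (nat_lit 80) (nat_lit 5) (nat_lit 84) (nat_lit 5) (nat_lit 81) (nat_lit 5) (nat_lit 499) (nat_lit 397) (nat_lit 244)) (XT.lf (nat_lit 0) (nat_lit 6555816928) (nat_lit 304) (nat_lit 3017595891) (nat_lit 380) (nat_lit 10258633527) (nat_lit 76) (nat_lit 5) (nat_lit 80) (nat_lit 5) (nat_lit 81) (nat_lit 5) (nat_lit 500) (nat_lit 397) (nat_lit 243)))))) (XT.nd (nat_lit 51636) (nat_lit 0) (nat_lit 34352) (XT.nd (nat_lit 51402) (nat_lit 0) (nat_lit 35416) (XT.nd (nat_lit 51324) (nat_lit 0) (nat_lit 36480) (XT.lf (nat_lit 0) (nat_lit 13784569113) (nat_lit 380) (nat_lit 3335178767) (nat_lit 76) (nat_lit 2982302085) (nat_lit 76) (nat_lit 5) (nat_lit 81) (nat_lit 5) (nat_lit 77) (nat_lit 5) (nat_lit 501) (nat_lit 397) (nat_lit 242)) (XT.lf (nat_lit 0) (nat_lit 1247671875) (nat_lit 0) (nat_lit 1247671875) (nat_lit 988) (nat_lit 1039487476) (nat_lit 556) (nat_lit 5) (nat_lit 556) (nat_lit 3)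 (nat_lit 569) (nat_lit 3) (nat_lit 398) (nat_lit 398) (nat_lit 344))) (XT.nd (nat_lit 78) (nat_lit 1064) (nat_lit 0) (XT.lf (nat_lit 0) (nat_lit 5865147510) (nat_lit 0) (nat_lit 865762830) (nat_lit 988) (nat_lit 374315260) (nat_lit 556) (nat_lit 5) (nat_lit 556) (nat_lit 3) (nat_lit 569) (nat_lit 3) (nat_lit 399) (nat_lit 398) (nat_lit 343)) (XT.nd (nat_lit 78) (nat_lit 0) (nat_lit 0) (XT.lf (nat_lit 0) (nat_lit 1321349288) (nat_lit 1064) (nat_lit 4989946532) (nat_lit 1140) (nat_lit 830565014) (nat_lit 542) (nat_lit 5) (nat_lit 556) (nat_lit 5) (nat_lit 557) (nat_lit 5) (nat_lit 400) (nat_lit 398) (nat_lit 342)) (XT.lf (nat_lit 0) (nat_lit 3016231359) (nat_lit 1064) (nat_lit 1582470720) (nat_lit 1140) (nat_lit 2581104343) (nat_lit 542) (nat_lit 5) (nat_lit 556) (nat_lit 5) (nat_lit 557) (nat_lit 5) (nat_lit 401) (nat_lit 398) (nat_lit 341))))) (XT.nd (nat_lit 234) (nat_lit 0) (nat_lit 0) (XT.nd (nat_lit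 78) (nat_lit 1064) (nat_lit 0) (XT.lf (nat_lit 76) (nat_lit 1894772578) (nat_lit 0) (nat_lit 2819600822) (nat_lit 1140) (nat_lit 2504783079) (nat_lit 543) (nat_lit 5) (nat_lit 542) (nat_lit 5) (nat_lit 557) (nat_lit 5) (nat_lit 402) (nat_lit 398) (nat_lit 340)) (XT.nd (nat_lit 78) (nat_lit 1064) (nat_lit 0) (XT.lf (nat_lit 76) (nat_lit 5439932081) (nat_lit 0) (nat_lit 974917730) (nat_lit 1140) (nat_lit 845108456) (nat_lit 543) (nat_lit 5) (nat_lit 542) (nat_lit 5) (nat_lit 557) (nat_lit 5) (nat_lit 403) (nat_lit 398) (nat_lit 339)) (XT.lf (nat_lit 0) (nat_lit 812388194) (nat_lit 1140) (nat_lit 5559587019) (nat_lit 1216) (nat_lit 930006765) (nat_lit 528) (nat_lit 5) (nat_lit 543) (nat_lit 5) (nat_lit 544) (nat_lit 5) (nat_lit 404) (nat_lit 398) (nat_lit 338)))) (XT.nd (nat_lit 78) (nat_lit 0) (nat_lit 0) (XT.lf (nat_lit 0) (nat_lit 2469540526) (nat_lit 1140) (nat_lit 1980028375) (nat_lit 1216) (nat_lit 2895639409)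 (nat_lit 528) (nat_lit 5) (nat_lit 543) (nat_lit 5) (nat_lit 544) (nat_lit 5) (nat_lit 405) (nat_lit 398) (nat_lit 337)) (XT.nd (nat_lit 78) (nat_lit 0) (nat_lit 0) (XT.lf (nat_lit 76) (nat_lit 1669459936) (nat_lit 0) (nat_lit 2461078491) (nat_lit 1216) (nat_lit 3259376403) (nat_lit 529) (nat_lit 5) (nat_lit 528) (nat_lit 5) (nat_lit 544) (nat_lit 5) (nat_lit 406) (nat_lit 398) (nat_lit 336)) (XT.lf (nat_lit 76) (nat_lit 5395376028) (nat_lit 0) (nat_lit 403165627) (nat_lit 1216) (nat_lit 1637527247) (nat_lit 529) (nat_lit 5) (nat_lit 528) (nat_lit 5) (nat_lit 544) (nat_lit 5) (nat_lit 407) (nat_lit 398) (nat_lit 335))))))))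
noncomputable def xc148 : XT := (XT.nd (nat_lit 1560) (nat_lit 10944) (nat_lit 0) (XT.nd (nat_lit 780) (nat_lit 7144) (nat_lit 0) (XT.nd (nat_lit 390) (nat_lit 1216) (nat_lit 0) (XT.nd (nat_lit 156) (nat_lit 0) (nat_lit 0) (XT.nd (nat_lit 78) (nat_lit 1216) (nat_lit 0) (XT.lf (nat_lit 76) (nat_lit 1700102070) (nat_lit 0) (nat_lit 5783227370) (nat_lit 1216) (nat_lit 176684) (nat_lit 530) (nat_lit 5) (nat_lit 529) (nat_lit 5) (nat_lit 545) (nat_lit 5) (nat_lit 408) (nat_lit 398) (nat_lit 334)) (XT.lf (nat_lit 0) (nat_lit 1626173819) (nat_lit 1216) (nat_lit 2026074119) (nat_lit 1292) (nat_lit 3879891670) (nat_lit 513) (nat_lit 5) (nat_lit 529) (nat_lit 5) (nat_lit 530) (nat_lit 5) (nat_lit 409) (nat_lit 398) (nat_lit 333))) (XT.nd (nat_lit 78) (nat_lit 0) (nat_lit 76) (XT.lf (nat_lit 76) (nat_lit 1806338701) (nat_lit 0) (nat_lit 1452888666) (nat_lit 1292) (nat_lit 4323061716) (nat_lit 514) (nat_lit 5) (nat_lit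 513) (nat_lit 5) (nat_lit 530) (nat_lit 5) (nat_lit 410) (nat_lit 398) (nat_lit 332)) (XT.nd (nat_lit 78) (nat_lit 0) (nat_lit 0) (XT.lf (nat_lit 0) (nat_lit 4906880540) (nat_lit 1216) (nat_lit 1919977345) (nat_lit 1292) (nat_lit 806971273) (nat_lit 514) (nat_lit 5) (nat_lit 530) (nat_lit 5) (nat_lit 531) (nat_lit 5) (nat_lit 411) (nat_lit 398) (nat_lit 331)) (XT.lf (nat_lit 76) (nat_lit 2005830347) (nat_lit 0) (nat_lit 4568144834) (nat_lit 1292) (nat_lit 1112720951) (nat_lit 515) (nat_lit 5) (nat_lit 514) (nat_lit 5) (nat_lit 531) (nat_lit 5) (nat_lit 412) (nat_lit 398) (nat_lit 330))))) (XT.nd (nat_lit 156) (nat_lit 0) (nat_lit 76) (XT.nd (nat_lit 78) (nat_lit 0) (nat_lit 76) (XT.lf (nat_lit 0) (nat_lit 503896874) (nat_lit 1292) (nat_lit 1732047443) (nat_lit 1368) (nat_lit 5505089548) (nat_lit 497) (nat_lit 5) (nat_lit 514) (nat_lit 5) (nat_lit 515) (nat_lit 5) (nat_lit 413) (nat_lit 398) (nat_lit 329))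 (XT.lf (nat_lit 0) (nat_lit 2118848921) (nat_lit 1292) (nat_lit 5503253426) (nat_lit 1368) (nat_lit 174615255) (nat_lit 498) (nat_lit 5) (nat_lit 515) (nat_lit 5) (nat_lit 516) (nat_lit 5) (nat_lit 414) (nat_lit 398) (nat_lit 328))) (XT.nd (nat_lit 78) (nat_lit 0) (nat_lit 0) (XT.lf (nat_lit 0) (nat_lit 3758054415) (nat_lit 1292) (nat_lit 1469670211) (nat_lit 1368) (nat_lit 2625975194) (nat_lit 498) (nat_lit 5) (nat_lit 515) (nat_lit 5) (nat_lit 516) (nat_lit 5) (nat_lit 415) (nat_lit 398) (nat_lit 327)) (XT.nd (nat_lit 78) (nat_lit 0) (nat_lit 0) (XT.lf (nat_lit 76) (nat_lit 2655423282) (nat_lit 0) (nat_lit 2757985921) (nat_lit 1368) (nat_lit 2498768603) (nat_lit 499) (nat_lit 5) (nat_lit 498) (nat_lit 5) (nat_lit 516) (nat_lit 5) (nat_lit 416) (nat_lit 398) (nat_lit 326)) (XT.lf (nat_lit 76) (nat_lit 6859110489) (nat_lit 0) (nat_lit 219256784) (nat_lit 1368) (nat_lit 893951124) (nat_lit 499) (nat_lit 5)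 (nat_lit 498) (nat_lit 5) (nat_lit 516) (nat_lit 5) (nat_lit 417) (nat_lit 398) (nat_lit 325)))))) (XT.nd (nat_lit 390) (nat_lit 4636) (nat_lit 0) (XT.nd (nat_lit 156) (nat_lit 1292) (nat_lit 0) (XT.nd (nat_lit 78) (nat_lit 0) (nat_lit 0) (XT.lf (nat_lit 0) (nat_lit 736175916) (nat_lit 1368) (nat_lit 4923899959) (nat_lit 1444) (nat_lit 2373452378) (nat_lit 481) (nat_lit 5) (nat_lit 499) (nat_lit 5) (nat_lit 500) (nat_lit 5) (nat_lit 418) (nat_lit 398) (nat_lit 324)) (XT.lf (nat_lit 0) (nat_lit 2363517221) (nat_lit 1368) (nat_lit 695617374) (nat_lit 1444) (nat_lit 5037199539) (nat_lit 481) (nat_lit 5) (nat_lit 499) (nat_lit 5) (nat_lit 500) (nat_lit 5) (nat_lit 419) (nat_lit 398) (nat_lit 323))) (XT.nd (nat_lit 78) (nat_lit 1292) (nat_lit 0) (XT.lf (nat_lit 76) (nat_lit 3641068631) (nat_lit 0) (nat_lit 374211098) (nat_lit 1444) (nat_lit 4145300137) (nat_lit 482) (nat_lit 5) (nat_lit 481) (nat_lit 5) (nat_lit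 500) (nat_lit 5) (nat_lit 420) (nat_lit 398) (nat_lit 322)) (XT.nd (nat_lit 78) (nat_lit 1368) (nat_lit 0) (XT.lf (nat_lit 0) (nat_lit 5688879383) (nat_lit 1368) (nat_lit 191935614) (nat_lit 76) (nat_lit 2345540279) (nat_lit 482) (nat_lit 5) (nat_lit 500) (nat_lit 5) (nat_lit 483) (nat_lit 5) (nat_lit 421) (nat_lit 398) (nat_lit 321)) (XT.lf (nat_lit 0) (nat_lit 4251498090) (nat_lit 1368) (nat_lit 3143899114) (nat_lit 1444) (nat_lit 898080462) (nat_lit 464) (nat_lit 5) (nat_lit 482) (nat_lit 5) (nat_lit 483) (nat_lit 5) (nat_lit 422) (nat_lit 398) (nat_lit 320))))) (XT.nd (nat_lit 156) (nat_lit 3116) (nat_lit 0) (XT.nd (nat_lit 78) (nat_lit 0) (nat_lit 0) (XT.lf (nat_lit 0) (nat_lit 400462714) (nat_lit 1444) (nat_lit 336975064) (nat_lit 1520) (nat_lit 7624954060) (nat_lit 444) (nat_lit 5) (nat_lit 463) (nat_lit 5) (nat_lit 464) (nat_lit 5) (nat_lit 423) (nat_lit 398) (nat_lit 319)) (XT.lf (nat_lit 0) (nat_lit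 2407425754) (nat_lit 1520) (nat_lit 3492863817) (nat_lit 76) (nat_lit 2532019522) (nat_lit 444) (nat_lit 5) (nat_lit 464) (nat_lit 5) (nat_lit 445) (nat_lit 5) (nat_lit 424) (nat_lit 398) (nat_lit 318))) (XT.nd (nat_lit 78) (nat_lit 1596) (nat_lit 0) (XT.lf (nat_lit 0) (nat_lit 1052907570) (nat_lit 1520) (nat_lit 3037629552) (nat_lit 1596) (nat_lit 4413511941) (nat_lit 424) (nat_lit 5) (nat_lit 444) (nat_lit 5) (nat_lit 445) (nat_lit 5) (nat_lit 425) (nat_lit 398) (nat_lit 317)) (XT.nd (nat_lit 78) (nat_lit 1596) (nat_lit 0) (XT.lf (nat_lit 0) (nat_lit 5712847955) (nat_lit 1520) (nat_lit 88976500) (nat_lit 1596) (nat_lit 2775527574) (nat_lit 424) (nat_lit 5) (nat_lit 444) (nat_lit 5) (nat_lit 445) (nat_lit 5) (nat_lit 426) (nat_lit 398) (nat_lit 316)) (XT.lf (nat_lit 0) (nat_lit 1794210948) (nat_lit 1596) (nat_lit 5755398305) (nat_lit 1672) (nat_lit 1102484478) (nat_lit 403) (nat_lit 5) (nat_lit 424) (nat_lit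 5) (nat_lit 425) (nat_lit 5) (nat_lit 427) (nat_lit 398) (nat_lit 315))))))) (XT.nd (nat_lit 780) (nat_lit 4712) (nat_lit 0) (XT.nd (nat_lit 390) (nat_lit 2736) (nat_lit 0) (XT.nd (nat_lit 156) (nat_lit 1748) (nat_lit 0) (XT.nd (nat_lit 78) (nat_lit 1672) (nat_lit 0) (XT.lf (nat_lit 0) (nat_lit 587905871) (nat_lit 1672) (nat_lit 2172123216) (nat_lit 76) (nat_lit 5968403988) (nat_lit 402) (nat_lit 5) (nat_lit 424) (nat_lit 5) (nat_lit 403) (nat_lit 5) (nat_lit 428) (nat_lit 398) (nat_lit 314)) (XT.lf (nat_lit 0) (nat_lit 2288825095) (nat_lit 1748) (nat_lit 6198187648) (nat_lit 76) (nat_lit 319328113) (nat_lit 380) (nat_lit 5) (nat_lit 403) (nat_lit 5) (nat_lit 381) (nat_lit 5) (nat_lit 429) (nat_lit 398) (nat_lit 313))) (XT.nd (nat_lit 78) (nat_lit 1748) (nat_lit 0) (XT.lf (nat_lit 0) (nat_lit 4029542448) (nat_lit 1748) (nat_lit 1414824632) (nat_lit 76) (nat_lit 3441340849) (nat_lit 380) (nat_lit 5) (nat_lit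 403) (nat_lit 5) (nat_lit 381) (nat_lit 5) (nat_lit 430) (nat_lit 398) (nat_lit 312)) (XT.nd (nat_lit 78) (nat_lit 0) (nat_lit 0) (XT.lf (nat_lit 0) (nat_lit 3485990373) (nat_lit 1748) (nat_lit 2315078694) (nat_lit 1824) (nat_lit 3165689782) (nat_lit 357) (nat_lit 5) (nat_lit 380) (nat_lit 5) (nat_lit 381) (nat_lit 5) (nat_lit 431) (nat_lit 398) (nat_lit 311)) (XT.lf (nat_lit 0) (nat_lit 7597021739) (nat_lit 1824) (nat_lit 575331393) (nat_lit 76) (nat_lit 877313824) (nat_lit 357) (nat_lit 5) (nat_lit 381) (nat_lit 5) (nat_lit 358) (nat_lit 5) (nat_lit 432) (nat_lit 398) (nat_lit 310))))) (XT.nd (nat_lit 156) (nat_lit 836) (nat_lit 0) (XT.nd (nat_lit 78) (nat_lit 912) (nat_lit 0) (XT.lf (nat_lit 0) (nat_lit 309369746) (nat_lit 988) (nat_lit 4688562080) (nat_lit 76) (nat_lit 4135907114) (nat_lit 344) (nat_lit 5) (nat_lit 357) (nat_lit 5) (nat_lit 345) (nat_lit 5) (nat_lit 433) (nat_lit 398) (nat_lit 309))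 (XT.lf (nat_lit 0) (nat_lit 325040371) (nat_lit 912) (nat_lit 1742576528) (nat_lit 988) (nat_lit 7152291723) (nat_lit 332) (nat_lit 5) (nat_lit 344) (nat_lit 5) (nat_lit 345) (nat_lit 5) (nat_lit 434) (nat_lit 398) (nat_lit 308))) (XT.nd (nat_lit 78) (nat_lit 836) (nat_lit 0) (XT.lf (nat_lit 0) (nat_lit 3877727543) (nat_lit 988) (nat_lit 3839479416) (nat_lit 76) (nat_lit 1590173624) (nat_lit 332) (nat_lit 5) (nat_lit 345) (nat_lit 5) (nat_lit 333) (nat_lit 5) (nat_lit 435) (nat_lit 398) (nat_lit 307)) (XT.nd (nat_lit 78) (nat_lit 0) (nat_lit 0) (XT.lf (nat_lit 0) (nat_lit 1298561256) (nat_lit 836) (nat_lit 4420727745) (nat_lit 912) (nat_lit 3677422575) (nat_lit 321) (nat_lit 5) (nat_lit 332) (nat_lit 5) (nat_lit 333) (nat_lit 5) (nat_lit 436) (nat_lit 398) (nat_lit 306)) (XT.lf (nat_lit 0) (nat_lit 6567618878) (nat_lit 836) (nat_lit 1031435283) (nat_lit 912) (nat_lit 1888761858) (nat_lit 321) (nat_lit 5)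 (nat_lit 332) (nat_lit 5) (nat_lit 333) (nat_lit 5) (nat_lit 437) (nat_lit 398) (nat_lit 305)))))) (XT.nd (nat_lit 390) (nat_lit 2280) (nat_lit 0) (XT.nd (nat_lit 156) (nat_lit 1520) (nat_lit 0) (XT.nd (nat_lit 78) (nat_lit 76) (nat_lit 0) (XT.lf (nat_lit 0) (nat_lit 2352602327) (nat_lit 836) (nat_lit 7170925505) (nat_lit 912) (nat_lit 57086455) (nat_lit 310) (nat_lit 5) (nat_lit 321) (nat_lit 5) (nat_lit 322) (nat_lit 5) (nat_lit 438) (nat_lit 398) (nat_lit 304)) (XT.lf (nat_lit 0) (nat_lit 1790259545) (nat_lit 912) (nat_lit 1947146171) (nat_lit 76) (nat_lit 5937585235) (nat_lit 309) (nat_lit 5) (nat_lit 321) (nat_lit 5) (nat_lit 310) (nat_lit 5) (nat_lit 439) (nat_lit 398) (nat_lit 303))) (XT.nd (nat_lit 78) (nat_lit 760) (nat_lit 0) (XT.lf (nat_lit 0) (nat_lit 3460827399) (nat_lit 760) (nat_lit 212132426) (nat_lit 836) (nat_lit 6098317534) (nat_lit 299) (nat_lit 5) (nat_lit 309) (nat_lit 5) (nat_lit 310)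 (nat_lit 5) (nat_lit 440) (nat_lit 398) (nat_lit 302)) (XT.nd (nat_lit 78) (nat_lit 760) (nat_lit 0) (XT.lf (nat_lit 0) (nat_lit 5605439656) (nat_lit 836) (nat_lit 911765559) (nat_lit 76) (nat_lit 3352054702) (nat_lit 299) (nat_lit 5) (nat_lit 310) (nat_lit 5) (nat_lit 300) (nat_lit 5) (nat_lit 441) (nat_lit 398) (nat_lit 301)) (XT.lf (nat_lit 0) (nat_lit 4630853029) (nat_lit 760) (nat_lit 2954642143) (nat_lit 836) (nat_lit 2383541113) (nat_lit 289) (nat_lit 5) (nat_lit 299) (nat_lit 5) (nat_lit 300) (nat_lit 5) (nat_lit 442) (nat_lit 398) (nat_lit 300))))) (XT.nd (nat_lit 234) (nat_lit 684) (nat_lit 0) (XT.nd (nat_lit 78) (nat_lit 836) (nat_lit 0) (XT.lf (nat_lit 0) (nat_lit 200510327) (nat_lit 760) (nat_lit 9394251663) (nat_lit 836) (nat_lit 476266418) (nat_lit 279) (nat_lit 5) (nat_lit 289) (nat_lit 5) (nat_lit 290) (nat_lit 5) (nat_lit 443) (nat_lit 398) (nat_lit 299)) (XT.nd (nat_lit 78) (nat_lit 760)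 (nat_lit 0) (XT.lf (nat_lit 0) (nat_lit 1483377993) (nat_lit 836) (nat_lit 4305165832) (nat_lit 76) (nat_lit 4385667874) (nat_lit 278) (nat_lit 5) (nat_lit 289) (nat_lit 5) (nat_lit 279) (nat_lit 5) (nat_lit 444) (nat_lit 398) (nat_lit 298)) (XT.lf (nat_lit 0) (nat_lit 1362863540) (nat_lit 760) (nat_lit 2100129143) (nat_lit 836) (nat_lit 6816671633) (nat_lit 268) (nat_lit 5) (nat_lit 278) (nat_lit 5) (nat_lit 279) (nat_lit 5) (nat_lit 445) (nat_lit 398) (nat_lit 297)))) (XT.nd (nat_lit 78) (nat_lit 684) (nat_lit 0) (XT.lf (nat_lit 0) (nat_lit 5500635479) (nat_lit 836) (nat_lit 3218644417) (nat_lit 76) (nat_lit 1667588856) (nat_lit 268) (nat_lit 5) (nat_lit 279) (nat_lit 5) (nat_lit 269) (nat_lit 5) (nat_lit 446) (nat_lit 398) (nat_lit 296)) (XT.nd (nat_lit 78) (nat_lit 0) (nat_lit 0) (XT.lf (nat_lit 0) (nat_lit 2590378534) (nat_lit 684) (nat_lit 4998362922) (nat_lit 760) (nat_lit 2907292875) (nat_lit 259)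 (nat_lit 5) (nat_lit 268) (nat_lit 5) (nat_lit 269) (nat_lit 5) (nat_lit 447) (nat_lit 398) (nat_lit 295)) (XT.lf (nat_lit 0) (nat_lit 8536202222) (nat_lit 684) (nat_lit 1183252550) (nat_lit 760) (nat_lit 887922583) (nat_lit 259) (nat_lit 5) (nat_lit 268) (nat_lit 5) (nat_lit 269) (nat_lit 5) (nat_lit 448) (nat_lit 398) (nat_lit 294))))))))
noncomputable def xc149 : XT := (XT.nd (nat_lit 1560) (nat_lit 5244) (nat_lit 0) (XT.nd (nat_lit 780) (nat_lit 2888) (nat_lit 0) (XT.nd (nat_lit 390) (nat_lit 1824) (nat_lit 0) (XT.nd (nat_lit 156) (nat_lit 1292) (nat_lit 0) (XT.nd (nat_lit 78) (nat_lit 0) (nat_lit 0) (XT.lf (nat_lit 0) (nat_lit 1179086200) (nat_lit 760) (nat_lit 6837790857) (nat_lit 76) (nat_lit 2703476229) (nat_lit 249) (nat_lit 5) (nat_lit 259) (nat_lit 5) (nat_lit 250) (nat_lit 5) (nat_lit 449) (nat_lit 398) (nat_lit 293)) (XT.lf (nat_lit 0) (nat_lit 3277130302) (nat_lit 760) (nat_lit 888759155) (nat_lit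 76) (nat_lit 6669560608) (nat_lit 249) (nat_lit 5) (nat_lit 259) (nat_lit 5) (nat_lit 250) (nat_lit 5) (nat_lit 450) (nat_lit 398) (nat_lit 292))) (XT.nd (nat_lit 78) (nat_lit 684) (nat_lit 0) (XT.lf (nat_lit 0) (nat_lit 5225144610) (nat_lit 608) (nat_lit 206059389) (nat_lit 684) (nat_lit 5521373604) (nat_lit 241) (nat_lit 5) (nat_lit 249) (nat_lit 5) (nat_lit 250) (nat_lit 5) (nat_lit 451) (nat_lit 398) (nat_lit 291)) (XT.nd (nat_lit 78) (nat_lit 0) (nat_lit 0) (XT.lf (nat_lit 0) (nat_lit 358347591) (nat_lit 684) (nat_lit 7283596188) (nat_lit 760) (nat_lit 3429842219) (nat_lit 232) (nat_lit 5) (nat_lit 241) (nat_lit 5) (nat_lit 242) (nat_lit 5) (nat_lit 452) (nat_lit 398) (nat_lit 290)) (XT.lf (nat_lit 0) (nat_lit 6619376414) (nat_lit 684) (nat_lit 3297917370) (nat_lit 760) (nat_lit 1275686670) (nat_lit 232) (nat_lit 5) (nat_lit 241) (nat_lit 5) (nat_lit 242) (nat_lit 5) (nat_lit 453) (nat_lit 398) (nat_lit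 289))))) (XT.nd (nat_lit 156) (nat_lit 1140) (nat_lit 0) (XT.nd (nat_lit 78) (nat_lit 0) (nat_lit 0) (XT.lf (nat_lit 0) (nat_lit 906313514) (nat_lit 684) (nat_lit 9639154922) (nat_lit 76) (nat_lit 771083161) (nat_lit 223) (nat_lit 5) (nat_lit 232) (nat_lit 5) (nat_lit 224) (nat_lit 5) (nat_lit 454) (nat_lit 398) (nat_lit 288)) (XT.lf (nat_lit 0) (nat_lit 3148681398) (nat_lit 684) (nat_lit 3379815194) (nat_lit 76) (nat_lit 4913261979) (nat_lit 223) (nat_lit 5) (nat_lit 232) (nat_lit 5) (nat_lit 224) (nat_lit 5) (nat_lit 455) (nat_lit 398) (nat_lit 287))) (XT.nd (nat_lit 78) (nat_lit 532) (nat_lit 0) (XT.lf (nat_lit 0) (nat_lit 3022035426) (nat_lit 608) (nat_lit 2414911798) (nat_lit 684) (nat_lit 6132510505) (nat_lit 215) (nat_lit 5) (nat_lit 223) (nat_lit 5) (nat_lit 224) (nat_lit 5) (nat_lit 456) (nat_lit 398) (nat_lit 286)) (XT.nd (nat_lit 78) (nat_lit 532) (nat_lit 0) (XT.lf (nat_lit 0) (nat_lit 7786996974)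 (nat_lit 684) (nat_lit 2135747979) (nat_lit 76) (nat_lit 1776654423) (nat_lit 215) (nat_lit 5) (nat_lit 224) (nat_lit 5) (nat_lit 216) (nat_lit 5) (nat_lit 457) (nat_lit 398) (nat_lit 285)) (XT.lf (nat_lit 0) (nat_lit 4424116808) (nat_lit 532) (nat_lit 5786633291) (nat_lit 608) (nat_lit 1620664413) (nat_lit 208) (nat_lit 5) (nat_lit 215) (nat_lit 5) (nat_lit 216) (nat_lit 5) (nat_lit 458) (nat_lit 398) (nat_lit 284)))))) (XT.nd (nat_lit 390) (nat_lit 1140) (nat_lit 0) (XT.nd (nat_lit 156) (nat_lit 1064) (nat_lit 0) (XT.nd (nat_lit 78) (nat_lit 608) (nat_lit 0) (XT.lf (nat_lit 0) (nat_lit 704002677) (nat_lit 608) (nat_lit 848578099) (nat_lit 76) (nat_lit 10413474512) (nat_lit 207) (nat_lit 5) (nat_lit 215) (nat_lit 5) (nat_lit 208) (nat_lit 5) (nat_lit 459) (nat_lit 398) (nat_lit 283)) (XT.lf (nat_lit 0) (nat_lit 3092377007) (nat_lit 684) (nat_lit 6234986983) (nat_lit 76) (nat_lit 2775040549) (nat_lit 199)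 (nat_lit 5) (nat_lit 208) (nat_lit 5) (nat_lit 200) (nat_lit 5) (nat_lit 460) (nat_lit 398) (nat_lit 282))) (XT.nd (nat_lit 78) (nat_lit 532) (nat_lit 0) (XT.lf (nat_lit 0) (nat_lit 461679211) (nat_lit 532) (nat_lit 5068449678) (nat_lit 608) (nat_lit 6711327727) (nat_lit 192) (nat_lit 5) (nat_lit 199) (nat_lit 5) (nat_lit 200) (nat_lit 5) (nat_lit 461) (nat_lit 398) (nat_lit 281)) (XT.nd (nat_lit 78) (nat_lit 532) (nat_lit 0) (XT.lf (nat_lit 0) (nat_lit 7355014833) (nat_lit 532) (nat_lit 686259240) (nat_lit 608) (nat_lit 4341530777) (nat_lit 192) (nat_lit 5) (nat_lit 199) (nat_lit 5) (nat_lit 200) (nat_lit 5) (nat_lit 462) (nat_lit 398) (nat_lit 280)) (XT.lf (nat_lit 0) (nat_lit 1837095898) (nat_lit 532) (nat_lit 8785145752) (nat_lit 608) (nat_lit 1904354139) (nat_lit 185) (nat_lit 5) (nat_lit 192) (nat_lit 5) (nat_lit 193) (nat_lit 5) (nat_lit 463) (nat_lit 398) (nat_lit 279))))) (XT.nd (nat_lit 156) (nat_lit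 532) (nat_lit 0) (XT.nd (nat_lit 78) (nat_lit 532) (nat_lit 0) (XT.lf (nat_lit 0) (nat_lit 595625761) (nat_lit 608) (nat_lit 3795457309) (nat_lit 76) (nat_lit 8281677645) (nat_lit 184) (nat_lit 5) (nat_lit 192) (nat_lit 5) (nat_lit 185) (nat_lit 5) (nat_lit 464) (nat_lit 398) (nat_lit 278)) (XT.lf (nat_lit 0) (nat_lit 3125490142) (nat_lit 608) (nat_lit 9577210967) (nat_lit 76) (nat_lit 118795677) (nat_lit 177) (nat_lit 5) (nat_lit 185) (nat_lit 5) (nat_lit 178) (nat_lit 5) (nat_lit 465) (nat_lit 398) (nat_lit 277))) (XT.nd (nat_lit 78) (nat_lit 532) (nat_lit 0) (XT.lf (nat_lit 0) (nat_lit 5744333613) (nat_lit 608) (nat_lit 2547167170) (nat_lit 76) (nat_lit 4680946297) (nat_lit 177) (nat_lit 5) (nat_lit 185) (nat_lit 5) (nat_lit 178) (nat_lit 5) (nat_lit 466) (nat_lit 398) (nat_lit 276)) (XT.nd (nat_lit 78) (nat_lit 0) (nat_lit 0) (XT.lf (nat_lit 0) (nat_lit 4663569958) (nat_lit 532) (nat_lit 3766246901)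 (nat_lit 608) (nat_lit 4696321263) (nat_lit 170) (nat_lit 5) (nat_lit 177) (nat_lit 5) (nat_lit 178) (nat_lit 5) (nat_lit 467) (nat_lit 398) (nat_lit 275)) (XT.lf (nat_lit 0) (nat_lit 11175860371) (nat_lit 608) (nat_lit 1256363593) (nat_lit 76) (nat_lit 850548873) (nat_lit 170) (nat_lit 5) (nat_lit 178) (nat_lit 5) (nat_lit 171) (nat_lit 5) (nat_lit 468) (nat_lit 398) (nat_lit 274))))))) (XT.nd (nat_lit 780) (nat_lit 2432) (nat_lit 0) (XT.nd (nat_lit 390) (nat_lit 1368) (nat_lit 0) (XT.nd (nat_lit 156) (nat_lit 456) (nat_lit 0) (XT.nd (nat_lit 78) (nat_lit 456) (nat_lit 0) (XT.lf (nat_lit 0) (nat_lit 576769375) (nat_lit 532) (nat_lit 7316764286) (nat_lit 76) (nat_lit 5547953960) (nat_lit 163) (nat_lit 5) (nat_lit 170) (nat_lit 5) (nat_lit 164) (nat_lit 5) (nat_lit 469) (nat_lit 398) (nat_lit 273)) (XT.lf (nat_lit 0) (nat_lit 32793032) (nat_lit 456) (nat_lit 3246348881) (nat_lit 532) (nat_lit 10324098149)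 (nat_lit 157) (nat_lit 5) (nat_lit 163) (nat_lit 5) (nat_lit 164) (nat_lit 5) (nat_lit 470) (nat_lit 398) (nat_lit 272))) (XT.nd (nat_lit 78) (nat_lit 456) (nat_lit 0) (XT.lf (nat_lit 0) (nat_lit 6079321658) (nat_lit 532) (nat_lit 6169769937) (nat_lit 76) (nat_lit 1518267102) (nat_lit 157) (nat_lit 5) (nat_lit 164) (nat_lit 5) (nat_lit 158) (nat_lit 5) (nat_lit 471) (nat_lit 398) (nat_lit 271)) (XT.nd (nat_lit 78) (nat_lit 0) (nat_lit 0) (XT.lf (nat_lit 0) (nat_lit 1354576660) (nat_lit 456) (nat_lit 7596160036) (nat_lit 532) (nat_lit 4983724591) (nat_lit 151) (nat_lit 5) (nat_lit 157) (nat_lit 5) (nat_lit 158) (nat_lit 5) (nat_lit 472) (nat_lit 398) (nat_lit 270)) (XT.lf (nat_lit 0) (nat_lit 9092568087) (nat_lit 456) (nat_lit 2813514639) (nat_lit 532) (nat_lit 2198299243) (nat_lit 151) (nat_lit 5) (nat_lit 157) (nat_lit 5) (nat_lit 158) (nat_lit 5) (nat_lit 473) (nat_lit 398) (nat_lit 269))))) (XT.nd (nat_lit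 156) (nat_lit 836) (nat_lit 0) (XT.nd (nat_lit 78) (nat_lit 0) (nat_lit 0) (XT.lf (nat_lit 0) (nat_lit 650860316) (nat_lit 532) (nat_lit 11572251320) (nat_lit 76) (nat_lit 2054182680) (nat_lit 144) (nat_lit 5) (nat_lit 151) (nat_lit 5) (nat_lit 145) (nat_lit 5) (nat_lit 474) (nat_lit 398) (nat_lit 268)) (XT.lf (nat_lit 0) (nat_lit 3565493720) (nat_lit 532) (nat_lit 3862634306) (nat_lit 76) (nat_lit 7024493494) (nat_lit 144) (nat_lit 5) (nat_lit 151) (nat_lit 5) (nat_lit 145) (nat_lit 5) (nat_lit 475) (nat_lit 398) (nat_lit 267))) (XT.nd (nat_lit 78) (nat_lit 456) (nat_lit 0) (XT.lf (nat_lit 0) (nat_lit 4034080825) (nat_lit 380) (nat_lit 2516228131) (nat_lit 456) (nat_lit 8080914158) (nat_lit 139) (nat_lit 5) (nat_lit 144) (nat_lit 5) (nat_lit 145) (nat_lit 5) (nat_lit 476) (nat_lit 398) (nat_lit 266)) (XT.nd (nat_lit 78) (nat_lit 456) (nat_lit 0) (XT.lf (nat_lit 0) (nat_lit 9622916121) (nat_lit 456) (nat_lit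 2708274566) (nat_lit 76) (nat_lit 2481649661) (nat_lit 139) (nat_lit 5) (nat_lit 145) (nat_lit 5) (nat_lit 140) (nat_lit 5) (nat_lit 477) (nat_lit 398) (nat_lit 265)) (XT.lf (nat_lit 0) (nat_lit 5372440069) (nat_lit 456) (nat_lit 7422170309) (nat_lit 532) (nat_lit 2202732260) (nat_lit 133) (nat_lit 5) (nat_lit 139) (nat_lit 5) (nat_lit 140) (nat_lit 5) (nat_lit 478) (nat_lit 398) (nat_lit 264)))))) (XT.nd (nat_lit 390) (nat_lit 1216) (nat_lit 0) (XT.nd (nat_lit 156) (nat_lit 760) (nat_lit 0) (XT.nd (nat_lit 78) (nat_lit 380) (nat_lit 0) (XT.lf (nat_lit 0) (nat_lit 837564831) (nat_lit 532) (nat_lit 1559079432) (nat_lit 76) (nat_lit 12788697627) (nat_lit 132) (nat_lit 5) (nat_lit 139) (nat_lit 5) (nat_lit 133) (nat_lit 5) (nat_lit 479) (nat_lit 398) (nat_lit 263)) (XT.lf (nat_lit 0) (nat_lit 3957325677) (nat_lit 456) (nat_lit 8672045272) (nat_lit 76) (nat_lit 2746481029) (nat_lit 127) (nat_lit 5) (nat_lit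 133) (nat_lit 5) (nat_lit 128) (nat_lit 5) (nat_lit 480) (nat_lit 398) (nat_lit 262))) (XT.nd (nat_lit 78) (nat_lit 760) (nat_lit 0) (XT.lf (nat_lit 0) (nat_lit 7152399263) (nat_lit 456) (nat_lit 452327197) (nat_lit 76) (nat_lit 7965192457) (nat_lit 127) (nat_lit 5) (nat_lit 133) (nat_lit 5) (nat_lit 128) (nat_lit 5) (nat_lit 481) (nat_lit 398) (nat_lit 261)) (XT.nd (nat_lit 78) (nat_lit 380) (nat_lit 0) (XT.lf (nat_lit 0) (nat_lit 8017815457) (nat_lit 380) (nat_lit 2432394444) (nat_lit 456) (nat_lit 5316885481) (nat_lit 122) (nat_lit 5) (nat_lit 127) (nat_lit 5) (nat_lit 128) (nat_lit 5) (nat_lit 482) (nat_lit 398) (nat_lit 260)) (XT.lf (nat_lit 0) (nat_lit 666368842) (nat_lit 380) (nat_lit 13160327110) (nat_lit 456) (nat_lit 2141269846) (nat_lit 117) (nat_lit 5) (nat_lit 122) (nat_lit 5) (nat_lit 123) (nat_lit 5) (nat_lit 483) (nat_lit 398) (nat_lit 259))))) (XT.nd (nat_lit 234) (nat_lit 760) (nat_lit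 0) (XT.nd (nat_lit 78) (nat_lit 380) (nat_lit 0) (XT.lf (nat_lit 0) (nat_lit 1138832932) (nat_lit 456) (nat_lit 6859299592) (nat_lit 76) (nat_lit 8173475689) (nat_lit 116) (nat_lit 5) (nat_lit 122) (nat_lit 5) (nat_lit 117) (nat_lit 5) (nat_lit 484) (nat_lit 398) (nat_lit 258)) (XT.nd (nat_lit 78) (nat_lit 0) (nat_lit 0) (XT.lf (nat_lit 0) (nat_lit 1741603448) (nat_lit 380) (nat_lit 2712772393) (nat_lit 456) (nat_lit 11924698893) (nat_lit 111) (nat_lit 5) (nat_lit 116) (nat_lit 5) (nat_lit 117) (nat_lit 5) (nat_lit 485) (nat_lit 398) (nat_lit 257)) (XT.lf (nat_lit 0) (nat_lit 7887218520) (nat_lit 456) (nat_lit 6018955561) (nat_lit 76) (nat_lit 2683501166) (nat_lit 111) (nat_lit 5) (nat_lit 117) (nat_lit 5) (nat_lit 112) (nat_lit 5) (nat_lit 486) (nat_lit 398) (nat_lit 256)))) (XT.nd (nat_lit 78) (nat_lit 456) (nat_lit 0) (XT.lf (nat_lit 0) (nat_lit 2771693189) (nat_lit 304) (nat_lit 8640500914) (nat_lit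 380) (nat_lit 5391828498) (nat_lit 107) (nat_lit 5) (nat_lit 111) (nat_lit 5) (nat_lit 112) (nat_lit 5) (nat_lit 487) (nat_lit 398) (nat_lit 255)) (XT.nd (nat_lit 78) (nat_lit 456) (nat_lit 0) (XT.lf (nat_lit 0) (nat_lit 11801242800) (nat_lit 304) (nat_lit 3234456446) (nat_lit 380) (nat_lit 1986401323) (nat_lit 107) (nat_lit 5) (nat_lit 111) (nat_lit 5) (nat_lit 112) (nat_lit 5) (nat_lit 488) (nat_lit 398) (nat_lit 254)) (XT.lf (nat_lit 0) (nat_lit 1495014554) (nat_lit 456) (nat_lit 13470520293) (nat_lit 76) (nat_lit 2278268555) (nat_lit 101) (nat_lit 5) (nat_lit 107) (nat_lit 5) (nat_lit 102) (nat_lit 5) (nat_lit 489) (nat_lit 398) (nat_lit 253))))))))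
noncomputable def xc150 : XT := (XT.nd (nat_lit 52884) (nat_lit 0) (nat_lit 26448) (XT.nd (nat_lit 780) (nat_lit 304) (nat_lit 0) (XT.nd (nat_lit 390) (nat_lit 912) (nat_lit 0) (XT.nd (nat_lit 156) (nat_lit 380) (nat_lit 0) (XT.nd (nat_lit 78) (nat_lit 304) (nat_lit 0) (XT.lf (nat_lit 0) (nat_lit 5064051906) (nat_lit 456) (nat_lit 4504359675) (nat_lit 76) (nat_lit 7900378309) (nat_lit 101) (nat_lit 5) (nat_lit 107) (nat_lit 5) (nat_lit 102) (nat_lit 5) (nat_lit 490) (nat_lit 398) (nat_lit 252)) (XT.lf (nat_lit 0) (nat_lit 4684533489) (nat_lit 304) (nat_lit 4038468521) (nat_lit 380) (nat_lit 8974907400) (nat_lit 97) (nat_lit 5) (nat_lit 101) (nat_lit 5) (nat_lit 102) (nat_lit 5) (nat_lit 491) (nat_lit 398) (nat_lit 251))) (XT.nd (nat_lit 78) (nat_lit 380) (nat_lit 0) (XT.lf (nat_lit 0) (nat_lit 12484153370) (nat_lit 380) (nat_lit 3841456243) (nat_lit 76) (nat_lit 1605425128) (nat_lit 97) (nat_lit 5) (nat_lit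 102) (nat_lit 5) (nat_lit 98) (nat_lit 5) (nat_lit 492) (nat_lit 398) (nat_lit 250)) (XT.nd (nat_lit 78) (nat_lit 76) (nat_lit 0) (XT.lf (nat_lit 0) (nat_lit 5542087725) (nat_lit 304) (nat_lit 10829592990) (nat_lit 380) (nat_lit 1796122591) (nat_lit 93) (nat_lit 5) (nat_lit 97) (nat_lit 5) (nat_lit 98) (nat_lit 5) (nat_lit 493) (nat_lit 398) (nat_lit 249)) (XT.lf (nat_lit 0) (nat_lit 1916776867) (nat_lit 380) (nat_lit 3273898441) (nat_lit 76) (nat_lit 13218097125) (nat_lit 92) (nat_lit 5) (nat_lit 97) (nat_lit 5) (nat_lit 93) (nat_lit 5) (nat_lit 494) (nat_lit 398) (nat_lit 248))))) (XT.nd (nat_lit 156) (nat_lit 608) (nat_lit 0) (XT.nd (nat_lit 78) (nat_lit 0) (nat_lit 0) (XT.lf (nat_lit 0) (nat_lit 5713568063) (nat_lit 380) (nat_lit 12339203461) (nat_lit 76) (nat_lit 600881867) (nat_lit 88) (nat_lit 5) (nat_lit 93) (nat_lit 5) (nat_lit 89) (nat_lit 5) (nat_lit 495) (nat_lit 398) (nat_lit 247)) (XT.lf (nat_lit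 0) (nat_lit 9631539472) (nat_lit 380) (nat_lit 2816088714) (nat_lit 76) (nat_lit 6454902391) (nat_lit 88) (nat_lit 5) (nat_lit 93) (nat_lit 5) (nat_lit 89) (nat_lit 5) (nat_lit 496) (nat_lit 398) (nat_lit 246))) (XT.nd (nat_lit 78) (nat_lit 304) (nat_lit 0) (XT.lf (nat_lit 0) (nat_lit 6971748437) (nat_lit 304) (nat_lit 6690361579) (nat_lit 380) (nat_lit 5493593931) (nat_lit 84) (nat_lit 5) (nat_lit 88) (nat_lit 5) (nat_lit 89) (nat_lit 5) (nat_lit 497) (nat_lit 398) (nat_lit 245)) (XT.nd (nat_lit 78) (nat_lit 304) (nat_lit 0) (XT.lf (nat_lit 0) (nat_lit 16976452529) (nat_lit 304) (nat_lit 804816775) (nat_lit 380) (nat_lit 1632515296) (nat_lit 84) (nat_lit 5) (nat_lit 88) (nat_lit 5) (nat_lit 89) (nat_lit 5) (nat_lit 498) (nat_lit 398) (nat_lit 244)) (XT.lf (nat_lit 0) (nat_lit 2348061225) (nat_lit 304) (nat_lit 12138417372) (nat_lit 76) (nat_lit 5188801749) (nat_lit 80) (nat_lit 5) (nat_lit 84) (nat_lit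 5) (nat_lit 81) (nat_lit 5) (nat_lit 499) (nat_lit 398) (nat_lit 243)))))) (XT.nd (nat_lit 51714) (nat_lit 0) (nat_lit 34276) (XT.nd (nat_lit 51480) (nat_lit 0) (nat_lit 35340) (XT.nd (nat_lit 78) (nat_lit 304) (nat_lit 0) (XT.lf (nat_lit 0) (nat_lit 6397487222) (nat_lit 304) (nat_lit 2231288632) (nat_lit 76) (nat_lit 11312795558) (nat_lit 80) (nat_lit 5) (nat_lit 84) (nat_lit 5) (nat_lit 81) (nat_lit 5) (nat_lit 500) (nat_lit 398) (nat_lit 242)) (XT.lf (nat_lit 0) (nat_lit 7961794466) (nat_lit 304) (nat_lit 2607293543) (nat_lit 380) (nat_lit 9643279672) (nat_lit 76) (nat_lit 5) (nat_lit 80) (nat_lit 5) (nat_lit 81) (nat_lit 5) (nat_lit 501) (nat_lit 398) (nat_lit 241))) (XT.nd (nat_lit 78) (nat_lit 0) (nat_lit 0) (XT.lf (nat_lit 0) (nat_lit 645392526) (nat_lit 1140) (nat_lit 1462572519) (nat_lit 1140) (nat_lit 1462572519) (nat_lit 541) (nat_lit 3) (nat_lit 556) (nat_lit 3) (nat_lit 556) (nat_lit 5) (nat_lit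 399) (nat_lit 399) (nat_lit 342)) (XT.nd (nat_lit 78) (nat_lit 0) (nat_lit 0) (XT.lf (nat_lit 76) (nat_lit 436353475) (nat_lit 0) (nat_lit 2506869814) (nat_lit 1140) (nat_lit 4235221373) (nat_lit 542) (nat_lit 5) (nat_lit 541) (nat_lit 3) (nat_lit 556) (nat_lit 5) (nat_lit 400) (nat_lit 399) (nat_lit 341)) (XT.lf (nat_lit 76) (nat_lit 3882530588) (nat_lit 0) (nat_lit 722733655) (nat_lit 1140) (nat_lit 2611799070) (nat_lit 542) (nat_lit 5) (nat_lit 541) (nat_lit 3) (nat_lit 556) (nat_lit 5) (nat_lit 401) (nat_lit 399) (nat_lit 340))))) (XT.nd (nat_lit 156) (nat_lit 0) (nat_lit 0) (XT.nd (nat_lit 78) (nat_lit 1140) (nat_lit 0) (XT.lf (nat_lit 76) (nat_lit 112755938) (nat_lit 0) (nat_lit 6153547334) (nat_lit 1140) (nat_lit 990868080) (nat_lit 543) (nat_lit 5) (nat_lit 542) (nat_lit 5) (nat_lit 557) (nat_lit 5) (nat_lit 402) (nat_lit 399) (nat_lit 339)) (XT.lf (nat_lit 0) (nat_lit 639379226) (nat_lit 1140) (nat_lit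 3655891293) (nat_lit 1216) (nat_lit 3003044193) (nat_lit 527) (nat_lit 5) (nat_lit 542) (nat_lit 5) (nat_lit 543) (nat_lit 5) (nat_lit 403) (nat_lit 399) (nat_lit 338))) (XT.nd (nat_lit 78) (nat_lit 0) (nat_lit 0) (XT.lf (nat_lit 0) (nat_lit 2248069576) (nat_lit 1140) (nat_lit 126915927) (nat_lit 1216) (nat_lit 4966012633) (nat_lit 527) (nat_lit 5) (nat_lit 542) (nat_lit 5) (nat_lit 543) (nat_lit 5) (nat_lit 404) (nat_lit 399) (nat_lit 337)) (XT.nd (nat_lit 78) (nat_lit 0) (nat_lit 76) (XT.lf (nat_lit 76) (nat_lit 3496181010) (nat_lit 0) (nat_lit 375347758) (nat_lit 1216) (nat_lit 3513384272) (nat_lit 528) (nat_lit 5) (nat_lit 527) (nat_lit 5) (nat_lit 543) (nat_lit 5) (nat_lit 405) (nat_lit 399) (nat_lit 336)) (XT.lf (nat_lit 0) (nat_lit 5499770360) (nat_lit 1140) (nat_lit 270135084) (nat_lit 1216) (nat_lit 1660383662) (nat_lit 528) (nat_lit 5) (nat_lit 543) (nat_lit 5) (nat_lit 544) (nat_lit 5) (nat_lit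 406) (nat_lit 399) (nat_lit 335))))))) (XT.nd (nat_lit 780) (nat_lit 5548) (nat_lit 0) (XT.nd (nat_lit 390) (nat_lit 1140) (nat_lit 0) (XT.nd (nat_lit 156) (nat_lit 0) (nat_lit 76) (XT.nd (nat_lit 78) (nat_lit 1216) (nat_lit 0) (XT.lf (nat_lit 76) (nat_lit 3440833165) (nat_lit 0) (nat_lit 3705991375) (nat_lit 1216) (nat_lit 330051756) (nat_lit 529) (nat_lit 5) (nat_lit 528) (nat_lit 5) (nat_lit 544) (nat_lit 5) (nat_lit 407) (nat_lit 399) (nat_lit 334)) (XT.lf (nat_lit 0) (nat_lit 1248920954) (nat_lit 1216) (nat_lit 326173454) (nat_lit 1292) (nat_lit 5949887589) (nat_lit 512) (nat_lit 5) (nat_lit 528) (nat_lit 5) (nat_lit 529) (nat_lit 5) (nat_lit 408) (nat_lit 399) (nat_lit 333))) (XT.nd (nat_lit 78) (nat_lit 0) (nat_lit 0) (XT.lf (nat_lit 0) (nat_lit 2844293607) (nat_lit 1216) (nat_lit 4099722397) (nat_lit 1292) (nat_lit 630232287) (nat_lit 513) (nat_lit 5) (nat_lit 529) (nat_lit 5) (nat_lit 530) (nat_lit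 5) (nat_lit 409) (nat_lit 399) (nat_lit 332)) (XT.nd (nat_lit 78) (nat_lit 0) (nat_lit 0) (XT.lf (nat_lit 0) (nat_lit 4447394807) (nat_lit 1216) (nat_lit 302528378) (nat_lit 1292) (nat_lit 2875086689) (nat_lit 513) (nat_lit 5) (nat_lit 529) (nat_lit 5) (nat_lit 530) (nat_lit 5) (nat_lit 410) (nat_lit 399) (nat_lit 331)) (XT.lf (nat_lit 76) (nat_lit 3594926993) (nat_lit 0) (nat_lit 2474880232) (nat_lit 1292) (nat_lit 1607260344) (nat_lit 514) (nat_lit 5) (nat_lit 513) (nat_lit 5) (nat_lit 530) (nat_lit 5) (nat_lit 411) (nat_lit 399) (nat_lit 330))))) (XT.nd (nat_lit 156) (nat_lit 0) (nat_lit 0) (XT.nd (nat_lit 78) (nat_lit 1216) (nat_lit 0) (XT.lf (nat_lit 76) (nat_lit 7551751883) (nat_lit 0) (nat_lit 139415095) (nat_lit 1292) (nat_lit 39694816) (nat_lit 514) (nat_lit 5) (nat_lit 513) (nat_lit 5) (nat_lit 530) (nat_lit 5) (nat_lit 412) (nat_lit 399) (nat_lit 329)) (XT.lf (nat_lit 0) (nat_lit 1543352896) (nat_lit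 1292) (nat_lit 3981411463) (nat_lit 1368) (nat_lit 2260697842) (nat_lit 497) (nat_lit 5) (nat_lit 514) (nat_lit 5) (nat_lit 515) (nat_lit 5) (nat_lit 413) (nat_lit 399) (nat_lit 328))) (XT.nd (nat_lit 78) (nat_lit 0) (nat_lit 0) (XT.lf (nat_lit 76) (nat_lit 3656251) (nat_lit 0) (nat_lit 3121560790) (nat_lit 1368) (nat_lit 4716602484) (nat_lit 498) (nat_lit 5) (nat_lit 497) (nat_lit 5) (nat_lit 515) (nat_lit 5) (nat_lit 414) (nat_lit 399) (nat_lit 327)) (XT.nd (nat_lit 78) (nat_lit 0) (nat_lit 76) (XT.lf (nat_lit 76) (nat_lit 4099178658) (nat_lit 0) (nat_lit 632311932) (nat_lit 1368) (nat_lit 3167981391) (nat_lit 498) (nat_lit 5) (nat_lit 497) (nat_lit 5) (nat_lit 515) (nat_lit 5) (nat_lit 415) (nat_lit 399) (nat_lit 326)) (XT.lf (nat_lit 76) (nat_lit 286190370) (nat_lit 0) (nat_lit 6064725723) (nat_lit 1368) (nat_lit 1607763830) (nat_lit 499) (nat_lit 5) (nat_lit 498) (nat_lit 5) (nat_lit 516) (nat_lit 5)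 (nat_lit 416) (nat_lit 399) (nat_lit 325)))))) (XT.nd (nat_lit 390) (nat_lit 4256) (nat_lit 0) (XT.nd (nat_lit 156) (nat_lit 0) (nat_lit 76) (XT.nd (nat_lit 78) (nat_lit 1368) (nat_lit 0) (XT.lf (nat_lit 76) (nat_lit 4478311898) (nat_lit 0) (nat_lit 3521368285) (nat_lit 1368) (nat_lit 19475357) (nat_lit 499) (nat_lit 5) (nat_lit 498) (nat_lit 5) (nat_lit 516) (nat_lit 5) (nat_lit 417) (nat_lit 399) (nat_lit 324)) (XT.lf (nat_lit 76) (nat_lit 648188743) (nat_lit 0) (nat_lit 903302127) (nat_lit 1444) (nat_lit 6529725525) (nat_lit 481) (nat_lit 5) (nat_lit 480) (nat_lit 5) (nat_lit 499) (nat_lit 5) (nat_lit 418) (nat_lit 399) (nat_lit 323))) (XT.nd (nat_lit 78) (nat_lit 0) (nat_lit 0) (XT.lf (nat_lit 0) (nat_lit 3157241669) (nat_lit 1368) (nat_lit 3210719588) (nat_lit 1444) (nat_lit 1776503335) (nat_lit 481) (nat_lit 5) (nat_lit 499) (nat_lit 5) (nat_lit 500) (nat_lit 5) (nat_lit 419) (nat_lit 399) (nat_lit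 322)) (XT.nd (nat_lit 78) (nat_lit 0) (nat_lit 0) (XT.lf (nat_lit 76) (nat_lit 1080780566) (nat_lit 0) (nat_lit 3696183198) (nat_lit 1444) (nat_lit 3432397666) (nat_lit 482) (nat_lit 5) (nat_lit 481) (nat_lit 5) (nat_lit 500) (nat_lit 5) (nat_lit 420) (nat_lit 399) (nat_lit 321)) (XT.lf (nat_lit 76) (nat_lit 5478340557) (nat_lit 0) (nat_lit 941601783) (nat_lit 1444) (nat_lit 1855817018) (nat_lit 482) (nat_lit 5) (nat_lit 481) (nat_lit 5) (nat_lit 500) (nat_lit 5) (nat_lit 421) (nat_lit 399) (nat_lit 320))))) (XT.nd (nat_lit 234) (nat_lit 1520) (nat_lit 0) (XT.nd (nat_lit 78) (nat_lit 1520) (nat_lit 0) (XT.lf (nat_lit 0) (nat_lit 1605793733) (nat_lit 1368) (nat_lit 6482506499) (nat_lit 1444) (nat_lit 255354612) (nat_lit 464) (nat_lit 5) (nat_lit 482) (nat_lit 5) (nat_lit 483) (nat_lit 5) (nat_lit 422) (nat_lit 399) (nat_lit 319)) (XT.nd (nat_lit 78) (nat_lit 1444) (nat_lit 0) (XT.lf (nat_lit 0) (nat_lit 1354375217)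 (nat_lit 1444) (nat_lit 2316608850) (nat_lit 76) (nat_lit 4741858184) (nat_lit 463) (nat_lit 5) (nat_lit 482) (nat_lit 5) (nat_lit 464) (nat_lit 5) (nat_lit 423) (nat_lit 399) (nat_lit 318)) (XT.lf (nat_lit 0) (nat_lit 2196890899) (nat_lit 1444) (nat_lit 781028053) (nat_lit 1520) (nat_lit 5505778766) (nat_lit 444) (nat_lit 5) (nat_lit 463) (nat_lit 5) (nat_lit 464) (nat_lit 5) (nat_lit 424) (nat_lit 399) (nat_lit 317)))) (XT.nd (nat_lit 78) (nat_lit 1520) (nat_lit 0) (XT.lf (nat_lit 0) (nat_lit 4634881220) (nat_lit 1520) (nat_lit 1761544409) (nat_lit 76) (nat_lit 2159544185) (nat_lit 444) (nat_lit 5) (nat_lit 464) (nat_lit 5) (nat_lit 445) (nat_lit 5) (nat_lit 425) (nat_lit 399) (nat_lit 316)) (XT.nd (nat_lit 78) (nat_lit 0) (nat_lit 0) (XT.lf (nat_lit 0) (nat_lit 2863292559) (nat_lit 1520) (nat_lit 3457248244) (nat_lit 1596) (nat_lit 2309253498) (nat_lit 424) (nat_lit 5) (nat_lit 444) (nat_lit 5) (nat_lit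 445) (nat_lit 5) (nat_lit 426) (nat_lit 399) (nat_lit 315)) (XT.lf (nat_lit 0) (nat_lit 7581346912) (nat_lit 1520) (nat_lit 442585540) (nat_lit 1596) (nat_lit 681500203) (nat_lit 424) (nat_lit 5) (nat_lit 444) (nat_lit 5) (nat_lit 445) (nat_lit 5) (nat_lit 427) (nat_lit 399) (nat_lit 314))))))))
noncomputable def xc151 : XT := (XT.nd (nat_lit 1560) (nat_lit 7448) (nat_lit 0) (XT.nd (nat_lit 780) (nat_lit 4028) (nat_lit 0) (XT.nd (nat_lit 390) (nat_lit 2736) (nat_lit 0) (XT.nd (nat_lit 156) (nat_lit 3420) (nat_lit 0) (XT.nd (nat_lit 78) (nat_lit 0) (nat_lit 0) (XT.lf (nat_lit 0) (nat_lit 979398015) (nat_lit 1672) (nat_lit 5170531642) (nat_lit 76) (nat_lit 2632275540) (nat_lit 402) (nat_lit 5) (nat_lit 424) (nat_lit 5) (nat_lit 403) (nat_lit 5) (nat_lit 428) (nat_lit 399) (nat_lit 313)) (XT.lf (nat_lit 0) (nat_lit 2647883318) (nat_lit 1672) (nat_lit 433989626) (nat_lit 76) (nat_lit 5778896997) (nat_lit 402)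 (nat_lit 5) (nat_lit 424) (nat_lit 5) (nat_lit 403) (nat_lit 5) (nat_lit 429) (nat_lit 399) (nat_lit 312))) (XT.nd (nat_lit 78) (nat_lit 1748) (nat_lit 0) (XT.lf (nat_lit 0) (nat_lit 4352529656) (nat_lit 1748) (nat_lit 4509041520) (nat_lit 76) (nat_lit 79295378) (nat_lit 380) (nat_lit 5) (nat_lit 403) (nat_lit 5) (nat_lit 381) (nat_lit 5) (nat_lit 430) (nat_lit 399) (nat_lit 311)) (XT.nd (nat_lit 78) (nat_lit 0) (nat_lit 0) (XT.lf (nat_lit 0) (nat_lit 338882081) (nat_lit 1748) (nat_lit 5751812306) (nat_lit 1824) (nat_lit 2931898285) (nat_lit 357) (nat_lit 5) (nat_lit 380) (nat_lit 5) (nat_lit 381) (nat_lit 5) (nat_lit 431) (nat_lit 399) (nat_lit 310)) (XT.lf (nat_lit 0) (nat_lit 5321574422) (nat_lit 1748) (nat_lit 2546550642) (nat_lit 1824) (nat_lit 1237753961) (nat_lit 357) (nat_lit 5) (nat_lit 380) (nat_lit 5) (nat_lit 381) (nat_lit 5) (nat_lit 432) (nat_lit 399) (nat_lit 309))))) (XT.nd (nat_lit 156)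 (nat_lit 1748) (nat_lit 0) (XT.nd (nat_lit 78) (nat_lit 0) (nat_lit 0) (XT.lf (nat_lit 0) (nat_lit 470997838) (nat_lit 988) (nat_lit 7993445456) (nat_lit 76) (nat_lit 726596209) (nat_lit 344) (nat_lit 5) (nat_lit 357) (nat_lit 5) (nat_lit 345) (nat_lit 5) (nat_lit 433) (nat_lit 399) (nat_lit 308)) (XT.lf (nat_lit 0) (nat_lit 2214723385) (nat_lit 988) (nat_lit 2995781252) (nat_lit 76) (nat_lit 4066902335) (nat_lit 344) (nat_lit 5) (nat_lit 357) (nat_lit 5) (nat_lit 345) (nat_lit 5) (nat_lit 434) (nat_lit 399) (nat_lit 307))) (XT.nd (nat_lit 78) (nat_lit 836) (nat_lit 0) (XT.lf (nat_lit 0) (nat_lit 2106339616) (nat_lit 912) (nat_lit 1876080480) (nat_lit 988) (nat_lit 5383314326) (nat_lit 332) (nat_lit 5) (nat_lit 344) (nat_lit 5) (nat_lit 345) (nat_lit 5) (nat_lit 435) (nat_lit 399) (nat_lit 306)) (XT.nd (nat_lit 78) (nat_lit 836) (nat_lit 0) (XT.lf (nat_lit 0) (nat_lit 5791370664) (nat_lit 988) (nat_lit 2137826526)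 (nat_lit 76) (nat_lit 1526527511) (nat_lit 332) (nat_lit 5) (nat_lit 345) (nat_lit 5) (nat_lit 333) (nat_lit 5) (nat_lit 436) (nat_lit 399) (nat_lit 305)) (XT.lf (nat_lit 0) (nat_lit 3091274680) (nat_lit 836) (nat_lit 4553957797) (nat_lit 912) (nat_lit 1902121665) (nat_lit 321) (nat_lit 5) (nat_lit 332) (nat_lit 5) (nat_lit 333) (nat_lit 5) (nat_lit 437) (nat_lit 399) (nat_lit 304)))))) (XT.nd (nat_lit 390) (nat_lit 1596) (nat_lit 0) (XT.nd (nat_lit 156) (nat_lit 1520) (nat_lit 0) (XT.nd (nat_lit 78) (nat_lit 912) (nat_lit 0) (XT.lf (nat_lit 0) (nat_lit 8431071451) (nat_lit 836) (nat_lit 1096000750) (nat_lit 912) (nat_lit 113939683) (nat_lit 321) (nat_lit 5) (nat_lit 332) (nat_lit 5) (nat_lit 333) (nat_lit 5) (nat_lit 438) (nat_lit 399) (nat_lit 303)) (XT.lf (nat_lit 0) (nat_lit 1707489007) (nat_lit 912) (nat_lit 5590431381) (nat_lit 76) (nat_lit 2438015332) (nat_lit 309) (nat_lit 5) (nat_lit 321) (nat_lit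 5) (nat_lit 310) (nat_lit 5) (nat_lit 439) (nat_lit 399) (nat_lit 302))) (XT.nd (nat_lit 78) (nat_lit 1520) (nat_lit 0) (XT.lf (nat_lit 0) (nat_lit 3556411323) (nat_lit 912) (nat_lit 239262857) (nat_lit 76) (nat_lit 6037229910) (nat_lit 309) (nat_lit 5) (nat_lit 321) (nat_lit 5) (nat_lit 310) (nat_lit 5) (nat_lit 440) (nat_lit 399) (nat_lit 301)) (XT.nd (nat_lit 78) (nat_lit 760) (nat_lit 0) (XT.lf (nat_lit 0) (nat_lit 5265377906) (nat_lit 760) (nat_lit 188726277) (nat_lit 836) (nat_lit 4477484482) (nat_lit 299) (nat_lit 5) (nat_lit 309) (nat_lit 5) (nat_lit 310) (nat_lit 5) (nat_lit 441) (nat_lit 399) (nat_lit 300)) (XT.lf (nat_lit 0) (nat_lit 816262089) (nat_lit 760) (nat_lit 6580963209) (nat_lit 836) (nat_lit 2634884577) (nat_lit 289) (nat_lit 5) (nat_lit 299) (nat_lit 5) (nat_lit 300) (nat_lit 5) (nat_lit 442) (nat_lit 399) (nat_lit 299))))) (XT.nd (nat_lit 156) (nat_lit 760) (nat_lit 0) (XT.nd (nat_lit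 78) (nat_lit 836) (nat_lit 0) (XT.lf (nat_lit 0) (nat_lit 6447609484) (nat_lit 760) (nat_lit 2942336058) (nat_lit 836) (nat_lit 744493421) (nat_lit 289) (nat_lit 5) (nat_lit 299) (nat_lit 5) (nat_lit 300) (nat_lit 5) (nat_lit 443) (nat_lit 399) (nat_lit 298)) (XT.lf (nat_lit 0) (nat_lit 1164406586) (nat_lit 836) (nat_lit 8295951015) (nat_lit 76) (nat_lit 778390527) (nat_lit 278) (nat_lit 5) (nat_lit 289) (nat_lit 5) (nat_lit 279) (nat_lit 5) (nat_lit 444) (nat_lit 399) (nat_lit 297))) (XT.nd (nat_lit 78) (nat_lit 760) (nat_lit 0) (XT.lf (nat_lit 0) (nat_lit 3124640736) (nat_lit 836) (nat_lit 2657128613) (nat_lit 76) (nat_lit 4562824691) (nat_lit 278) (nat_lit 5) (nat_lit 289) (nat_lit 5) (nat_lit 279) (nat_lit 5) (nat_lit 445) (nat_lit 399) (nat_lit 296)) (XT.nd (nat_lit 78) (nat_lit 0) (nat_lit 0) (XT.lf (nat_lit 0) (nat_lit 3112852527) (nat_lit 760) (nat_lit 2010580404) (nat_lit 836) (nat_lit 5329148132)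 (nat_lit 268) (nat_lit 5) (nat_lit 278) (nat_lit 5) (nat_lit 279) (nat_lit 5) (nat_lit 446) (nat_lit 399) (nat_lit 295)) (XT.lf (nat_lit 0) (nat_lit 7171466339) (nat_lit 836) (nat_lit 1562866192) (nat_lit 76) (nat_lit 1828221027) (nat_lit 268) (nat_lit 5) (nat_lit 279) (nat_lit 5) (nat_lit 269) (nat_lit 5) (nat_lit 447) (nat_lit 399) (nat_lit 294))))))) (XT.nd (nat_lit 780) (nat_lit 3420) (nat_lit 0) (XT.nd (nat_lit 390) (nat_lit 1976) (nat_lit 0) (XT.nd (nat_lit 156) (nat_lit 1292) (nat_lit 0) (XT.nd (nat_lit 78) (nat_lit 76) (nat_lit 0) (XT.lf (nat_lit 0) (nat_lit 4351020435) (nat_lit 684) (nat_lit 4930804609) (nat_lit 760) (nat_lit 1392483989) (nat_lit 259) (nat_lit 5) (nat_lit 268) (nat_lit 5) (nat_lit 269) (nat_lit 5) (nat_lit 448) (nat_lit 399) (nat_lit 293)) (XT.lf (nat_lit 0) (nat_lit 628084545) (nat_lit 760) (nat_lit 410377521) (nat_lit 76) (nat_lit 9749954718) (nat_lit 258) (nat_lit 5) (nat_lit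 268) (nat_lit 5) (nat_lit 259) (nat_lit 5) (nat_lit 449) (nat_lit 399) (nat_lit 292))) (XT.nd (nat_lit 78) (nat_lit 608) (nat_lit 0) (XT.lf (nat_lit 0) (nat_lit 2706838634) (nat_lit 760) (nat_lit 5259716614) (nat_lit 76) (nat_lit 2937349164) (nat_lit 249) (nat_lit 5) (nat_lit 259) (nat_lit 5) (nat_lit 250) (nat_lit 5) (nat_lit 450) (nat_lit 399) (nat_lit 291)) (XT.nd (nat_lit 78) (nat_lit 0) (nat_lit 0) (XT.lf (nat_lit 0) (nat_lit 784966579) (nat_lit 608) (nat_lit 4037480018) (nat_lit 684) (nat_lit 6199359617) (nat_lit 241) (nat_lit 5) (nat_lit 249) (nat_lit 5) (nat_lit 250) (nat_lit 5) (nat_lit 451) (nat_lit 399) (nat_lit 290)) (XT.lf (nat_lit 0) (nat_lit 6996455509) (nat_lit 684) (nat_lit 4141983448) (nat_lit 76) (nat_lit 3315122) (nat_lit 241) (nat_lit 5) (nat_lit 250) (nat_lit 5) (nat_lit 242) (nat_lit 5) (nat_lit 452) (nat_lit 399) (nat_lit 289))))) (XT.nd (nat_lit 156) (nat_lit 1216) (nat_lit 0) (XT.nd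 (nat_lit 78) (nat_lit 76) (nat_lit 0) (XT.lf (nat_lit 0) (nat_lit 2052972895) (nat_lit 684) (nat_lit 7182169840) (nat_lit 760) (nat_lit 2028543814) (nat_lit 232) (nat_lit 5) (nat_lit 241) (nat_lit 5) (nat_lit 242) (nat_lit 5) (nat_lit 453) (nat_lit 399) (nat_lit 288)) (XT.lf (nat_lit 0) (nat_lit 138038905) (nat_lit 760) (nat_lit 2982657291) (nat_lit 76) (nat_lit 8267169656) (nat_lit 231) (nat_lit 5) (nat_lit 241) (nat_lit 5) (nat_lit 232) (nat_lit 5) (nat_lit 454) (nat_lit 399) (nat_lit 287))) (XT.nd (nat_lit 78) (nat_lit 608) (nat_lit 0) (XT.lf (nat_lit 0) (nat_lit 2331199158) (nat_lit 684) (nat_lit 8141867007) (nat_lit 76) (nat_lit 1040995296) (nat_lit 223) (nat_lit 5) (nat_lit 232) (nat_lit 5) (nat_lit 224) (nat_lit 5) (nat_lit 455) (nat_lit 399) (nat_lit 286)) (XT.nd (nat_lit 78) (nat_lit 608) (nat_lit 0) (XT.lf (nat_lit 0) (nat_lit 4590830883) (nat_lit 684) (nat_lit 1790479132) (nat_lit 76) (nat_lit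 5261027681) (nat_lit 223) (nat_lit 5) (nat_lit 232) (nat_lit 5) (nat_lit 224) (nat_lit 5) (nat_lit 456) (nat_lit 399) (nat_lit 285)) (XT.lf (nat_lit 0) (nat_lit 4728507629) (nat_lit 608) (nat_lit 2179998860) (nat_lit 684) (nat_lit 4864424645) (nat_lit 215) (nat_lit 5) (nat_lit 223) (nat_lit 5) (nat_lit 224) (nat_lit 5) (nat_lit 457) (nat_lit 399) (nat_lit 284)))))) (XT.nd (nat_lit 390) (nat_lit 1672) (nat_lit 0) (XT.nd (nat_lit 156) (nat_lit 1216) (nat_lit 0) (XT.nd (nat_lit 78) (nat_lit 532) (nat_lit 0) (XT.lf (nat_lit 0) (nat_lit 9280638007) (nat_lit 684) (nat_lit 539140930) (nat_lit 76) (nat_lit 2086203990) (nat_lit 215) (nat_lit 5) (nat_lit 224) (nat_lit 5) (nat_lit 216) (nat_lit 5) (nat_lit 458) (nat_lit 399) (nat_lit 283)) (XT.lf (nat_lit 0) (nat_lit 6141136140) (nat_lit 532) (nat_lit 5596070243) (nat_lit 608) (nat_lit 303757854) (nat_lit 208) (nat_lit 5) (nat_lit 215) (nat_lit 5) (nat_lit 216) (nat_lit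 5) (nat_lit 459) (nat_lit 399) (nat_lit 282))) (XT.nd (nat_lit 78) (nat_lit 532) (nat_lit 0) (XT.lf (nat_lit 0) (nat_lit 758967948) (nat_lit 608) (nat_lit 1269555519) (nat_lit 684) (nat_lit 10150034981) (nat_lit 199) (nat_lit 5) (nat_lit 207) (nat_lit 5) (nat_lit 208) (nat_lit 5) (nat_lit 460) (nat_lit 399) (nat_lit 281)) (XT.nd (nat_lit 78) (nat_lit 532) (nat_lit 0) (XT.lf (nat_lit 0) (nat_lit 4446589302) (nat_lit 684) (nat_lit 4731377667) (nat_lit 76) (nat_lit 3140041179) (nat_lit 199) (nat_lit 5) (nat_lit 208) (nat_lit 5) (nat_lit 200) (nat_lit 5) (nat_lit 461) (nat_lit 399) (nat_lit 280)) (XT.lf (nat_lit 0) (nat_lit 2088509291) (nat_lit 532) (nat_lit 4829748954) (nat_lit 608) (nat_lit 5541891490) (nat_lit 192) (nat_lit 5) (nat_lit 199) (nat_lit 5) (nat_lit 200) (nat_lit 5) (nat_lit 462) (nat_lit 399) (nat_lit 279))))) (XT.nd (nat_lit 234) (nat_lit 1064) (nat_lit 0) (XT.nd (nat_lit 78) (nat_lit 608) (nat_lit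 0) (XT.lf (nat_lit 0) (nat_lit 9087994048) (nat_lit 532) (nat_lit 366582741) (nat_lit 608) (nat_lit 3150260616) (nat_lit 192) (nat_lit 5) (nat_lit 199) (nat_lit 5) (nat_lit 200) (nat_lit 5) (nat_lit 463) (nat_lit 399) (nat_lit 278)) (XT.nd (nat_lit 78) (nat_lit 76) (nat_lit 0) (XT.lf (nat_lit 0) (nat_lit 3472587863) (nat_lit 532) (nat_lit 8602519843) (nat_lit 608) (nat_lit 676648832) (nat_lit 185) (nat_lit 5) (nat_lit 192) (nat_lit 5) (nat_lit 193) (nat_lit 5) (nat_lit 464) (nat_lit 399) (nat_lit 277)) (XT.lf (nat_lit 0) (nat_lit 1832235625) (nat_lit 608) (nat_lit 2287147975) (nat_lit 76) (nat_lit 8781797492) (nat_lit 184) (nat_lit 5) (nat_lit 192) (nat_lit 5) (nat_lit 185) (nat_lit 5) (nat_lit 465) (nat_lit 399) (nat_lit 276)))) (XT.nd (nat_lit 78) (nat_lit 532) (nat_lit 0) (XT.lf (nat_lit 0) (nat_lit 4401257897) (nat_lit 608) (nat_lit 8172567025) (nat_lit 76) (nat_lit 479306355) (nat_lit 177) (nat_lit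 5) (nat_lit 185) (nat_lit 5) (nat_lit 178) (nat_lit 5) (nat_lit 466) (nat_lit 399) (nat_lit 275)) (XT.nd (nat_lit 78) (nat_lit 532) (nat_lit 0) (XT.lf (nat_lit 0) (nat_lit 7048688866) (nat_lit 608) (nat_lit 1033220159) (nat_lit 76) (nat_lit 5125677738) (nat_lit 177) (nat_lit 5) (nat_lit 185) (nat_lit 5) (nat_lit 178) (nat_lit 5) (nat_lit 467) (nat_lit 399) (nat_lit 274)) (XT.lf (nat_lit 0) (nat_lit 6311436381) (nat_lit 532) (nat_lit 3463215946) (nat_lit 608) (nat_lit 3589974082) (nat_lit 170) (nat_lit 5) (nat_lit 177) (nat_lit 5) (nat_lit 178) (nat_lit 5) (nat_lit 468) (nat_lit 399) (nat_lit 273))))))))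
noncomputable def xc152 : XT := (XT.nd (nat_lit 1560) (nat_lit 2052) (nat_lit 0) (XT.nd (nat_lit 780) (nat_lit 2432) (nat_lit 0) (XT.nd (nat_lit 390) (nat_lit 912) (nat_lit 0) (XT.nd (nat_lit 156) (nat_lit 912) (nat_lit 0) (XT.nd (nat_lit 78) (nat_lit 76) (nat_lit 0) (XT.lf (nat_lit 0) (nat_lit 267282198) (nat_lit 456) (nat_lit 12289414741) (nat_lit 532) (nat_lit 968085269) (nat_lit 164) (nat_lit 5) (nat_lit 170) (nat_lit 5) (nat_lit 171) (nat_lit 5) (nat_lit 469) (nat_lit 399) (nat_lit 272)) (XT.lf (nat_lit 0) (nat_lit 1739249436) (nat_lit 532) (nat_lit 5912222452) (nat_lit 76) (nat_lit 6035346296) (nat_lit 163) (nat_lit 5) (nat_lit 170) (nat_lit 5) (nat_lit 164) (nat_lit 5) (nat_lit 470) (nat_lit 399) (nat_lit 271))) (XT.nd (nat_lit 78) (nat_lit 456) (nat_lit 0) (XT.lf (nat_lit 0) (nat_lit 1574122874) (nat_lit 456) (nat_lit 2908982086) (nat_lit 532) (nat_lit 9368961422) (nat_lit 157) (nat_lit 5) (nat_lit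 163) (nat_lit 5) (nat_lit 164) (nat_lit 5) (nat_lit 471) (nat_lit 399) (nat_lit 270)) (XT.nd (nat_lit 78) (nat_lit 456) (nat_lit 0) (XT.lf (nat_lit 0) (nat_lit 7319527862) (nat_lit 532) (nat_lit 4762478566) (nat_lit 76) (nat_lit 1937865402) (nat_lit 157) (nat_lit 5) (nat_lit 164) (nat_lit 5) (nat_lit 158) (nat_lit 5) (nat_lit 472) (nat_lit 399) (nat_lit 269)) (XT.lf (nat_lit 0) (nat_lit 2902284655) (nat_lit 456) (nat_lit 7334025675) (nat_lit 532) (nat_lit 3954256411) (nat_lit 151) (nat_lit 5) (nat_lit 157) (nat_lit 5) (nat_lit 158) (nat_lit 5) (nat_lit 473) (nat_lit 399) (nat_lit 268))))) (XT.nd (nat_lit 156) (nat_lit 380) (nat_lit 0) (XT.nd (nat_lit 78) (nat_lit 532) (nat_lit 0) (XT.lf (nat_lit 0) (nat_lit 10765219902) (nat_lit 456) (nat_lit 2463846147) (nat_lit 532) (nat_lit 1135262608) (nat_lit 151) (nat_lit 5) (nat_lit 157) (nat_lit 5) (nat_lit 158) (nat_lit 5) (nat_lit 474) (nat_lit 399) (nat_lit 267))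 (XT.lf (nat_lit 0) (nat_lit 1747347311) (nat_lit 532) (nat_lit 10288501556) (nat_lit 76) (nat_lit 2504895451) (nat_lit 144) (nat_lit 5) (nat_lit 151) (nat_lit 5) (nat_lit 145) (nat_lit 5) (nat_lit 475) (nat_lit 399) (nat_lit 266))) (XT.nd (nat_lit 78) (nat_lit 380) (nat_lit 0) (XT.lf (nat_lit 0) (nat_lit 4699028878) (nat_lit 532) (nat_lit 2454401903) (nat_lit 76) (nat_lit 7566580538) (nat_lit 144) (nat_lit 5) (nat_lit 151) (nat_lit 5) (nat_lit 145) (nat_lit 5) (nat_lit 476) (nat_lit 399) (nat_lit 265)) (XT.nd (nat_lit 78) (nat_lit 0) (nat_lit 0) (XT.lf (nat_lit 0) (nat_lit 5590474602) (nat_lit 380) (nat_lit 2141819172) (nat_lit 456) (nat_lit 7170124303) (nat_lit 139) (nat_lit 5) (nat_lit 144) (nat_lit 5) (nat_lit 145) (nat_lit 5) (nat_lit 477) (nat_lit 399) (nat_lit 264)) (XT.lf (nat_lit 0) (nat_lit 10848449238) (nat_lit 456) (nat_lit 1297357696) (nat_lit 76) (nat_lit 2942226837) (nat_lit 139) (nat_lit 5)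 (nat_lit 145) (nat_lit 5) (nat_lit 140) (nat_lit 5) (nat_lit 478) (nat_lit 399) (nat_lit 263)))))) (XT.nd (nat_lit 390) (nat_lit 1140) (nat_lit 0) (XT.nd (nat_lit 156) (nat_lit 760) (nat_lit 0) (XT.nd (nat_lit 78) (nat_lit 76) (nat_lit 0) (XT.lf (nat_lit 0) (nat_lit 6935332533) (nat_lit 456) (nat_lit 7137438185) (nat_lit 532) (nat_lit 1203679402) (nat_lit 133) (nat_lit 5) (nat_lit 139) (nat_lit 5) (nat_lit 140) (nat_lit 5) (nat_lit 479) (nat_lit 399) (nat_lit 262)) (XT.lf (nat_lit 0) (nat_lit 1863558247) (nat_lit 532) (nat_lit 149564464) (nat_lit 76) (nat_lit 13455362466) (nat_lit 132) (nat_lit 5) (nat_lit 139) (nat_lit 5) (nat_lit 133) (nat_lit 5) (nat_lit 480) (nat_lit 399) (nat_lit 261))) (XT.nd (nat_lit 78) (nat_lit 380) (nat_lit 0) (XT.lf (nat_lit 0) (nat_lit 5038025567) (nat_lit 456) (nat_lit 7396729594) (nat_lit 76) (nat_lit 3228211505) (nat_lit 127) (nat_lit 5) (nat_lit 133) (nat_lit 5) (nat_lit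 128) (nat_lit 5) (nat_lit 481) (nat_lit 399) (nat_lit 260)) (XT.nd (nat_lit 78) (nat_lit 0) (nat_lit 0) (XT.lf (nat_lit 0) (nat_lit 971720135) (nat_lit 380) (nat_lit 7311951239) (nat_lit 456) (nat_lit 7577517434) (nat_lit 122) (nat_lit 5) (nat_lit 127) (nat_lit 5) (nat_lit 128) (nat_lit 5) (nat_lit 482) (nat_lit 399) (nat_lit 259)) (XT.lf (nat_lit 0) (nat_lit 9589176953) (nat_lit 380) (nat_lit 2041860166) (nat_lit 456) (nat_lit 4431606844) (nat_lit 122) (nat_lit 5) (nat_lit 127) (nat_lit 5) (nat_lit 128) (nat_lit 5) (nat_lit 483) (nat_lit 399) (nat_lit 258))))) (XT.nd (nat_lit 156) (nat_lit 684) (nat_lit 0) (XT.nd (nat_lit 78) (nat_lit 76) (nat_lit 0) (XT.lf (nat_lit 0) (nat_lit 2098248882) (nat_lit 380) (nat_lit 12969754391) (nat_lit 456) (nat_lit 1199676504) (nat_lit 117) (nat_lit 5) (nat_lit 122) (nat_lit 5) (nat_lit 123) (nat_lit 5) (nat_lit 484) (nat_lit 399) (nat_lit 257)) (XT.lf (nat_lit 0) (nat_lit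 2114068326) (nat_lit 456) (nat_lit 5592753720) (nat_lit 76) (nat_lit 8768832873) (nat_lit 116) (nat_lit 5) (nat_lit 122) (nat_lit 5) (nat_lit 117) (nat_lit 5) (nat_lit 485) (nat_lit 399) (nat_lit 256))) (XT.nd (nat_lit 78) (nat_lit 304) (nat_lit 0) (XT.lf (nat_lit 0) (nat_lit 3170932302) (nat_lit 380) (nat_lit 2315368128) (nat_lit 456) (nat_lit 11201169368) (nat_lit 111) (nat_lit 5) (nat_lit 116) (nat_lit 5) (nat_lit 117) (nat_lit 5) (nat_lit 486) (nat_lit 399) (nat_lit 255)) (XT.nd (nat_lit 78) (nat_lit 304) (nat_lit 0) (XT.lf (nat_lit 0) (nat_lit 8972187936) (nat_lit 456) (nat_lit 4756245709) (nat_lit 76) (nat_lit 3174167380) (nat_lit 111) (nat_lit 5) (nat_lit 117) (nat_lit 5) (nat_lit 112) (nat_lit 5) (nat_lit 487) (nat_lit 399) (nat_lit 254)) (XT.lf (nat_lit 0) (nat_lit 4201116747) (nat_lit 304) (nat_lit 8357286254) (nat_lit 380) (nat_lit 4563023865) (nat_lit 107) (nat_lit 5) (nat_lit 111) (nat_lit 5)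 (nat_lit 112) (nat_lit 5) (nat_lit 488) (nat_lit 399) (nat_lit 253))))))) (XT.nd (nat_lit 780) (nat_lit 304) (nat_lit 0) (XT.nd (nat_lit 390) (nat_lit 988) (nat_lit 0) (XT.nd (nat_lit 156) (nat_lit 304) (nat_lit 0) (XT.nd (nat_lit 78) (nat_lit 456) (nat_lit 0) (XT.lf (nat_lit 0) (nat_lit 13384316375) (nat_lit 304) (nat_lit 2852062557) (nat_lit 380) (nat_lit 1107853660) (nat_lit 107) (nat_lit 5) (nat_lit 111) (nat_lit 5) (nat_lit 112) (nat_lit 5) (nat_lit 489) (nat_lit 399) (nat_lit 252)) (XT.lf (nat_lit 0) (nat_lit 2425088579) (nat_lit 456) (nat_lit 12374176832) (nat_lit 76) (nat_lit 2771111975) (nat_lit 101) (nat_lit 5) (nat_lit 107) (nat_lit 5) (nat_lit 102) (nat_lit 5) (nat_lit 490) (nat_lit 399) (nat_lit 251))) (XT.nd (nat_lit 78) (nat_lit 304) (nat_lit 0) (XT.lf (nat_lit 0) (nat_lit 6047856213) (nat_lit 456) (nat_lit 3255472490) (nat_lit 76) (nat_lit 8496893766) (nat_lit 101) (nat_lit 5) (nat_lit 107)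 (nat_lit 5) (nat_lit 102) (nat_lit 5) (nat_lit 491) (nat_lit 399) (nat_lit 250)) (XT.nd (nat_lit 78) (nat_lit 0) (nat_lit 0) (XT.lf (nat_lit 0) (nat_lit 6108389496) (nat_lit 304) (nat_lit 3662927761) (nat_lit 380) (nat_lit 8262786224) (nat_lit 97) (nat_lit 5) (nat_lit 101) (nat_lit 5) (nat_lit 102) (nat_lit 5) (nat_lit 492) (nat_lit 399) (nat_lit 249)) (XT.lf (nat_lit 0) (nat_lit 13593461804) (nat_lit 380) (nat_lit 2599690478) (nat_lit 76) (nat_lit 2079029259) (nat_lit 97) (nat_lit 5) (nat_lit 102) (nat_lit 5) (nat_lit 98) (nat_lit 5) (nat_lit 493) (nat_lit 399) (nat_lit 248))))) (XT.nd (nat_lit 156) (nat_lit 608) (nat_lit 0) (XT.nd (nat_lit 78) (nat_lit 76) (nat_lit 0) (XT.lf (nat_lit 0) (nat_lit 6962849403) (nat_lit 304) (nat_lit 10587539762) (nat_lit 380) (nat_lit 963468840) (nat_lit 93) (nat_lit 5) (nat_lit 97) (nat_lit 5) (nat_lit 98) (nat_lit 5) (nat_lit 494) (nat_lit 399) (nat_lit 247)) (XT.lf (nat_lit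 0) (nat_lit 2795489531) (nat_lit 380) (nat_lit 2043707864) (nat_lit 76) (nat_lit 13920677787) (nat_lit 92) (nat_lit 5) (nat_lit 97) (nat_lit 5) (nat_lit 93) (nat_lit 5) (nat_lit 495) (nat_lit 399) (nat_lit 246))) (XT.nd (nat_lit 78) (nat_lit 304) (nat_lit 0) (XT.lf (nat_lit 0) (nat_lit 6663049000) (nat_lit 380) (nat_lit 11284891475) (nat_lit 76) (nat_lit 1061821834) (nat_lit 88) (nat_lit 5) (nat_lit 93) (nat_lit 5) (nat_lit 89) (nat_lit 5) (nat_lit 496) (nat_lit 399) (nat_lit 245)) (XT.nd (nat_lit 78) (nat_lit 304) (nat_lit 0) (XT.lf (nat_lit 0) (nat_lit 10643003179) (nat_lit 380) (nat_lit 1596826120) (nat_lit 76) (nat_lit 7024120371) (nat_lit 88) (nat_lit 5) (nat_lit 93) (nat_lit 5) (nat_lit 89) (nat_lit 5) (nat_lit 497) (nat_lit 399) (nat_lit 244)) (XT.lf (nat_lit 0) (nat_lit 8378375771) (nat_lit 304) (nat_lit 6367981268) (nat_lit 380) (nat_lit 4775991026) (nat_lit 84) (nat_lit 5) (nat_lit 88) (nat_lit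 5) (nat_lit 89) (nat_lit 5) (nat_lit 498) (nat_lit 399) (nat_lit 243)))))) (XT.nd (nat_lit 51792) (nat_lit 0) (nat_lit 32832) (XT.nd (nat_lit 156) (nat_lit 0) (nat_lit 0) (XT.nd (nat_lit 78) (nat_lit 304) (nat_lit 0) (XT.lf (nat_lit 0) (nat_lit 18558327036) (nat_lit 304) (nat_lit 373670423) (nat_lit 380) (nat_lit 853915815) (nat_lit 84) (nat_lit 5) (nat_lit 88) (nat_lit 5) (nat_lit 89) (nat_lit 5) (nat_lit 499) (nat_lit 399) (nat_lit 242)) (XT.lf (nat_lit 0) (nat_lit 3190952139) (nat_lit 304) (nat_lit 11123044553) (nat_lit 76) (nat_lit 5738635215) (nat_lit 80) (nat_lit 5) (nat_lit 84) (nat_lit 5) (nat_lit 81) (nat_lit 5) (nat_lit 500) (nat_lit 399) (nat_lit 241))) (XT.nd (nat_lit 51480) (nat_lit 0) (nat_lit 35036) (XT.lf (nat_lit 0) (nat_lit 7305760192) (nat_lit 304) (nat_lit 1042442673) (nat_lit 76) (nat_lit 11976362675) (nat_lit 80) (nat_lit 5) (nat_lit 84) (nat_lit 5) (nat_lit 81) (nat_lit 5) (nat_lit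 501) (nat_lit 399) (nat_lit 240)) (XT.nd (nat_lit 78) (nat_lit 0) (nat_lit 0) (XT.lf (nat_lit 0) (nat_lit 2284371143) (nat_lit 1140) (nat_lit 661906633) (nat_lit 1140) (nat_lit 661906633) (nat_lit 541) (nat_lit 3) (nat_lit 556) (nat_lit 3) (nat_lit 556) (nat_lit 5) (nat_lit 400) (nat_lit 400) (nat_lit 340)) (XT.lf (nat_lit 76) (nat_lit 2093995251) (nat_lit 0) (nat_lit 4107172404) (nat_lit 1140) (nat_lit 1054428049) (nat_lit 542) (nat_lit 5) (nat_lit 541) (nat_lit 3) (nat_lit 556) (nat_lit 5) (nat_lit 401) (nat_lit 400) (nat_lit 339))))) (XT.nd (nat_lit 234) (nat_lit 1064) (nat_lit 0) (XT.nd (nat_lit 78) (nat_lit 0) (nat_lit 0) (XT.lf (nat_lit 0) (nat_lit 530384797) (nat_lit 1140) (nat_lit 1723014167) (nat_lit 1216) (nat_lit 5042820286) (nat_lit 526) (nat_lit 5) (nat_lit 541) (nat_lit 3) (nat_lit 542) (nat_lit 5) (nat_lit 402) (nat_lit 400) (nat_lit 338)) (XT.nd (nat_lit 78) (nat_lit 0) (nat_lit 76) (XT.lf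 (nat_lit 76) (nat_lit 1779199793) (nat_lit 0) (nat_lit 324250111) (nat_lit 1216) (nat_lit 5234682778) (nat_lit 527) (nat_lit 5) (nat_lit 526) (nat_lit 5) (nat_lit 542) (nat_lit 5) (nat_lit 403) (nat_lit 400) (nat_lit 337)) (XT.lf (nat_lit 0) (nat_lit 3690181299) (nat_lit 1140) (nat_lit 2038897315) (nat_lit 1216) (nat_lit 1652191380) (nat_lit 527) (nat_lit 5) (nat_lit 542) (nat_lit 5) (nat_lit 543) (nat_lit 5) (nat_lit 404) (nat_lit 400) (nat_lit 336)))) (XT.nd (nat_lit 78) (nat_lit 1140) (nat_lit 0) (XT.lf (nat_lit 76) (nat_lit 1547818021) (nat_lit 0) (nat_lit 3733707984) (nat_lit 1216) (nat_lit 2144315602) (nat_lit 528) (nat_lit 5) (nat_lit 527) (nat_lit 5) (nat_lit 543) (nat_lit 5) (nat_lit 405) (nat_lit 400) (nat_lit 335)) (XT.nd (nat_lit 78) (nat_lit 1140) (nat_lit 0) (XT.lf (nat_lit 76) (nat_lit 5212175852) (nat_lit 0) (nat_lit 1667515560) (nat_lit 1216) (nat_lit 592141923) (nat_lit 528) (nat_lit 5)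 (nat_lit 527) (nat_lit 5) (nat_lit 543) (nat_lit 5) (nat_lit 406) (nat_lit 400) (nat_lit 334)) (XT.lf (nat_lit 0) (nat_lit 952164361) (nat_lit 1216) (nat_lit 6100845058) (nat_lit 1292) (nat_lit 466152488) (nat_lit 512) (nat_lit 5) (nat_lit 528) (nat_lit 5) (nat_lit 529) (nat_lit 5) (nat_lit 407) (nat_lit 400) (nat_lit 333))))))))
noncomputable def xc153 : XT := (XT.nd (nat_lit 1560) (nat_lit 12540) (nat_lit 0) (XT.nd (nat_lit 780) (nat_lit 4256) (nat_lit 0) (XT.nd (nat_lit 390) (nat_lit 1216) (nat_lit 0) (XT.nd (nat_lit 156) (nat_lit 1216) (nat_lit 0) (XT.nd (nat_lit 78) (nat_lit 0) (nat_lit 0) (XT.lf (nat_lit 0) (nat_lit 2508245562) (nat_lit 1216) (nat_lit 2404295155) (nat_lit 1292) (nat_lit 2655068611) (nat_lit 512) (nat_lit 5) (nat_lit 528) (nat_lit 5) (nat_lit 529) (nat_lit 5) (nat_lit 408) (nat_lit 400) (nat_lit 332)) (XT.lf (nat_lit 76) (nat_lit 1361912913) (nat_lit 0) (nat_lit 2705616247) (nat_lit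 1292) (nat_lit 3550081304) (nat_lit 513) (nat_lit 5) (nat_lit 512) (nat_lit 5) (nat_lit 529) (nat_lit 5) (nat_lit 409) (nat_lit 400) (nat_lit 331))) (XT.nd (nat_lit 78) (nat_lit 1216) (nat_lit 0) (XT.lf (nat_lit 76) (nat_lit 5214047053) (nat_lit 0) (nat_lit 423901846) (nat_lit 1292) (nat_lit 2031089581) (nat_lit 513) (nat_lit 5) (nat_lit 512) (nat_lit 5) (nat_lit 529) (nat_lit 5) (nat_lit 410) (nat_lit 400) (nat_lit 330)) (XT.nd (nat_lit 78) (nat_lit 1292) (nat_lit 0) (XT.lf (nat_lit 76) (nat_lit 1405419729) (nat_lit 0) (nat_lit 5820456879) (nat_lit 1292) (nat_lit 495921815) (nat_lit 514) (nat_lit 5) (nat_lit 513) (nat_lit 5) (nat_lit 530) (nat_lit 5) (nat_lit 411) (nat_lit 400) (nat_lit 329)) (XT.lf (nat_lit 0) (nat_lit 1040217834) (nat_lit 1292) (nat_lit 2431556556) (nat_lit 1368) (nat_lit 4304038590) (nat_lit 496) (nat_lit 5) (nat_lit 513) (nat_lit 5) (nat_lit 514) (nat_lit 5) (nat_lit 412) (nat_lit 400)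 (nat_lit 328))))) (XT.nd (nat_lit 156) (nat_lit 1216) (nat_lit 0) (XT.nd (nat_lit 78) (nat_lit 0) (nat_lit 76) (XT.lf (nat_lit 76) (nat_lit 1525402901) (nat_lit 0) (nat_lit 1050545572) (nat_lit 1368) (nat_lit 5255407520) (nat_lit 497) (nat_lit 5) (nat_lit 496) (nat_lit 5) (nat_lit 514) (nat_lit 5) (nat_lit 413) (nat_lit 400) (nat_lit 327)) (XT.lf (nat_lit 0) (nat_lit 4134238083) (nat_lit 1292) (nat_lit 2325454701) (nat_lit 1368) (nat_lit 1428503620) (nat_lit 497) (nat_lit 5) (nat_lit 514) (nat_lit 5) (nat_lit 515) (nat_lit 5) (nat_lit 414) (nat_lit 400) (nat_lit 326))) (XT.nd (nat_lit 78) (nat_lit 1292) (nat_lit 0) (XT.lf (nat_lit 76) (nat_lit 1727896046) (nat_lit 0) (nat_lit 3980841466) (nat_lit 1368) (nat_lit 2237758201) (nat_lit 498) (nat_lit 5) (nat_lit 497) (nat_lit 5) (nat_lit 515) (nat_lit 5) (nat_lit 415) (nat_lit 400) (nat_lit 325)) (XT.nd (nat_lit 78) (nat_lit 1292) (nat_lit 0) (XT.lf (nat_lit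 76) (nat_lit 5871521711) (nat_lit 0) (nat_lit 1426183131) (nat_lit 1368) (nat_lit 708619124) (nat_lit 498) (nat_lit 5) (nat_lit 497) (nat_lit 5) (nat_lit 515) (nat_lit 5) (nat_lit 416) (nat_lit 400) (nat_lit 324)) (XT.lf (nat_lit 0) (nat_lit 828742457) (nat_lit 1368) (nat_lit 6046052409) (nat_lit 1444) (nat_lit 1192689000) (nat_lit 480) (nat_lit 5) (nat_lit 498) (nat_lit 5) (nat_lit 499) (nat_lit 5) (nat_lit 417) (nat_lit 400) (nat_lit 323)))))) (XT.nd (nat_lit 390) (nat_lit 2888) (nat_lit 0) (XT.nd (nat_lit 156) (nat_lit 1368) (nat_lit 0) (XT.nd (nat_lit 78) (nat_lit 0) (nat_lit 0) (XT.lf (nat_lit 0) (nat_lit 2379565990) (nat_lit 1368) (nat_lit 1876983018) (nat_lit 1444) (nat_lit 3873401435) (nat_lit 480) (nat_lit 5) (nat_lit 498) (nat_lit 5) (nat_lit 499) (nat_lit 5) (nat_lit 418) (nat_lit 400) (nat_lit 322)) (XT.lf (nat_lit 76) (nat_lit 2384289537) (nat_lit 0) (nat_lit 1561546668) (nat_lit 1444) (nat_lit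 4248162344) (nat_lit 481) (nat_lit 5) (nat_lit 480) (nat_lit 5) (nat_lit 499) (nat_lit 5) (nat_lit 419) (nat_lit 400) (nat_lit 321))) (XT.nd (nat_lit 78) (nat_lit 1444) (nat_lit 0) (XT.lf (nat_lit 0) (nat_lit 5533287535) (nat_lit 1368) (nat_lit 1533624513) (nat_lit 1444) (nat_lit 1192638851) (nat_lit 481) (nat_lit 5) (nat_lit 499) (nat_lit 5) (nat_lit 500) (nat_lit 5) (nat_lit 420) (nat_lit 400) (nat_lit 320)) (XT.nd (nat_lit 78) (nat_lit 1444) (nat_lit 0) (XT.lf (nat_lit 76) (nat_lit 2832249661) (nat_lit 0) (nat_lit 4319034766) (nat_lit 1444) (nat_lit 1175173932) (nat_lit 482) (nat_lit 5) (nat_lit 481) (nat_lit 5) (nat_lit 500) (nat_lit 5) (nat_lit 421) (nat_lit 400) (nat_lit 319)) (XT.lf (nat_lit 0) (nat_lit 382253059) (nat_lit 1444) (nat_lit 1113780252) (nat_lit 1520) (nat_lit 6899023978) (nat_lit 462) (nat_lit 5) (nat_lit 481) (nat_lit 5) (nat_lit 482) (nat_lit 5) (nat_lit 422) (nat_lit 400) (nat_lit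 318))))) (XT.nd (nat_lit 156) (nat_lit 2964) (nat_lit 0) (XT.nd (nat_lit 78) (nat_lit 0) (nat_lit 0) (XT.lf (nat_lit 0) (nat_lit 1957075113) (nat_lit 1444) (nat_lit 5105963748) (nat_lit 76) (nat_lit 1401813177) (nat_lit 463) (nat_lit 5) (nat_lit 482) (nat_lit 5) (nat_lit 464) (nat_lit 5) (nat_lit 423) (nat_lit 400) (nat_lit 317)) (XT.lf (nat_lit 0) (nat_lit 3552169405) (nat_lit 1444) (nat_lit 632584658) (nat_lit 76) (nat_lit 4351531576) (nat_lit 463) (nat_lit 5) (nat_lit 482) (nat_lit 5) (nat_lit 464) (nat_lit 5) (nat_lit 424) (nat_lit 400) (nat_lit 316))) (XT.nd (nat_lit 78) (nat_lit 1520) (nat_lit 0) (XT.lf (nat_lit 0) (nat_lit 3959801162) (nat_lit 1444) (nat_lit 1216980686) (nat_lit 1520) (nat_lit 3432431850) (nat_lit 444) (nat_lit 5) (nat_lit 463) (nat_lit 5) (nat_lit 464) (nat_lit 5) (nat_lit 425) (nat_lit 400) (nat_lit 315)) (XT.nd (nat_lit 78) (nat_lit 1520) (nat_lit 0) (XT.lf (nat_lit 0) (nat_lit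 6822260650) (nat_lit 1520) (nat_lit 65540499) (nat_lit 76) (nat_lit 1796049440) (nat_lit 444) (nat_lit 5) (nat_lit 464) (nat_lit 5) (nat_lit 445) (nat_lit 5) (nat_lit 426) (nat_lit 400) (nat_lit 314)) (XT.lf (nat_lit 0) (nat_lit 4640403506) (nat_lit 1520) (nat_lit 3871324102) (nat_lit 1596) (nat_lit 248048447) (nat_lit 424) (nat_lit 5) (nat_lit 444) (nat_lit 5) (nat_lit 445) (nat_lit 5) (nat_lit 427) (nat_lit 400) (nat_lit 313))))))) (XT.nd (nat_lit 780) (nat_lit 5548) (nat_lit 0) (XT.nd (nat_lit 390) (nat_lit 1900) (nat_lit 0) (XT.nd (nat_lit 156) (nat_lit 3420) (nat_lit 0) (XT.nd (nat_lit 78) (nat_lit 0) (nat_lit 0) (XT.lf (nat_lit 0) (nat_lit 580040031) (nat_lit 1596) (nat_lit 776684405) (nat_lit 1672) (nat_lit 7480784969) (nat_lit 402) (nat_lit 5) (nat_lit 423) (nat_lit 5) (nat_lit 424) (nat_lit 5) (nat_lit 428) (nat_lit 400) (nat_lit 312)) (XT.lf (nat_lit 0) (nat_lit 3007044141) (nat_lit 1672) (nat_lit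 3527299085) (nat_lit 76) (nat_lit 2382102354) (nat_lit 402) (nat_lit 5) (nat_lit 424) (nat_lit 5) (nat_lit 403) (nat_lit 5) (nat_lit 429) (nat_lit 400) (nat_lit 311))) (XT.nd (nat_lit 78) (nat_lit 1748) (nat_lit 0) (XT.lf (nat_lit 0) (nat_lit 1286599854) (nat_lit 1672) (nat_lit 3391279066) (nat_lit 1748) (nat_lit 4319347467) (nat_lit 380) (nat_lit 5) (nat_lit 402) (nat_lit 5) (nat_lit 403) (nat_lit 5) (nat_lit 430) (nat_lit 400) (nat_lit 310)) (XT.nd (nat_lit 78) (nat_lit 1748) (nat_lit 0) (XT.lf (nat_lit 0) (nat_lit 6222133818) (nat_lit 1672) (nat_lit 158041999) (nat_lit 1748) (nat_lit 2699501850) (nat_lit 380) (nat_lit 5) (nat_lit 402) (nat_lit 5) (nat_lit 403) (nat_lit 5) (nat_lit 431) (nat_lit 400) (nat_lit 309)) (XT.lf (nat_lit 0) (nat_lit 2076899176) (nat_lit 1748) (nat_lit 6048388134) (nat_lit 1824) (nat_lit 1038330745) (nat_lit 357) (nat_lit 5) (nat_lit 380) (nat_lit 5) (nat_lit 381) (nat_lit 5)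 (nat_lit 432) (nat_lit 400) (nat_lit 308))))) (XT.nd (nat_lit 156) (nat_lit 912) (nat_lit 0) (XT.nd (nat_lit 78) (nat_lit 912) (nat_lit 0) (XT.lf (nat_lit 0) (nat_lit 642874462) (nat_lit 1824) (nat_lit 2128273149) (nat_lit 76) (nat_lit 6478111004) (nat_lit 356) (nat_lit 5) (nat_lit 380) (nat_lit 5) (nat_lit 357) (nat_lit 5) (nat_lit 433) (nat_lit 400) (nat_lit 307)) (XT.lf (nat_lit 0) (nat_lit 2342345485) (nat_lit 988) (nat_lit 6401792728) (nat_lit 76) (nat_lit 592380171) (nat_lit 344) (nat_lit 5) (nat_lit 357) (nat_lit 5) (nat_lit 345) (nat_lit 5) (nat_lit 434) (nat_lit 400) (nat_lit 306))) (XT.nd (nat_lit 78) (nat_lit 912) (nat_lit 0) (XT.lf (nat_lit 0) (nat_lit 4084437156) (nat_lit 988) (nat_lit 1338518801) (nat_lit 76) (nat_lit 4002409045) (nat_lit 344) (nat_lit 5) (nat_lit 357) (nat_lit 5) (nat_lit 345) (nat_lit 5) (nat_lit 435) (nat_lit 400) (nat_lit 305)) (XT.nd (nat_lit 78) (nat_lit 0) (nat_lit 0)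 (XT.lf (nat_lit 0) (nat_lit 3854347260) (nat_lit 912) (nat_lit 2008423717) (nat_lit 988) (nat_lit 3653203573) (nat_lit 332) (nat_lit 5) (nat_lit 344) (nat_lit 5) (nat_lit 345) (nat_lit 5) (nat_lit 436) (nat_lit 400) (nat_lit 304)) (XT.lf (nat_lit 0) (nat_lit 7671989091) (nat_lit 988) (nat_lit 471199667) (nat_lit 76) (nat_lit 1465314900) (nat_lit 332) (nat_lit 5) (nat_lit 345) (nat_lit 5) (nat_lit 333) (nat_lit 5) (nat_lit 437) (nat_lit 400) (nat_lit 303)))))) (XT.nd (nat_lit 390) (nat_lit 3040) (nat_lit 0) (XT.nd (nat_lit 156) (nat_lit 760) (nat_lit 0) (XT.nd (nat_lit 78) (nat_lit 912) (nat_lit 0) (XT.lf (nat_lit 0) (nat_lit 4851237620) (nat_lit 836) (nat_lit 4688112209) (nat_lit 912) (nat_lit 163107812) (nat_lit 321) (nat_lit 5) (nat_lit 332) (nat_lit 5) (nat_lit 333) (nat_lit 5) (nat_lit 438) (nat_lit 400) (nat_lit 302)) (XT.lf (nat_lit 0) (nat_lit 461335631) (nat_lit 836) (nat_lit 1146328037) (nat_lit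 912) (nat_lit 8190756638) (nat_lit 309) (nat_lit 5) (nat_lit 320) (nat_lit 5) (nat_lit 321) (nat_lit 5) (nat_lit 439) (nat_lit 400) (nat_lit 301))) (XT.nd (nat_lit 78) (nat_lit 760) (nat_lit 0) (XT.lf (nat_lit 0) (nat_lit 3438057010) (nat_lit 912) (nat_lit 3989665265) (nat_lit 76) (nat_lit 2468043256) (nat_lit 309) (nat_lit 5) (nat_lit 321) (nat_lit 5) (nat_lit 310) (nat_lit 5) (nat_lit 440) (nat_lit 400) (nat_lit 300)) (XT.nd (nat_lit 78) (nat_lit 0) (nat_lit 0) (XT.lf (nat_lit 0) (nat_lit 1454016418) (nat_lit 760) (nat_lit 3846118691) (nat_lit 836) (nat_lit 4695033447) (nat_lit 299) (nat_lit 5) (nat_lit 309) (nat_lit 5) (nat_lit 310) (nat_lit 5) (nat_lit 441) (nat_lit 400) (nat_lit 299)) (XT.lf (nat_lit 0) (nat_lit 7038634292) (nat_lit 760) (nat_lit 165925641) (nat_lit 836) (nat_lit 2891909793) (nat_lit 299) (nat_lit 5) (nat_lit 309) (nat_lit 5) (nat_lit 310) (nat_lit 5) (nat_lit 442) (nat_lit 400) (nat_lit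 298))))) (XT.nd (nat_lit 234) (nat_lit 1444) (nat_lit 0) (XT.nd (nat_lit 78) (nat_lit 836) (nat_lit 0) (XT.lf (nat_lit 0) (nat_lit 2522920070) (nat_lit 760) (nat_lit 6642583524) (nat_lit 836) (nat_lit 1033936666) (nat_lit 289) (nat_lit 5) (nat_lit 299) (nat_lit 5) (nat_lit 300) (nat_lit 5) (nat_lit 443) (nat_lit 400) (nat_lit 297)) (XT.nd (nat_lit 78) (nat_lit 760) (nat_lit 0) (XT.lf (nat_lit 0) (nat_lit 850534730) (nat_lit 836) (nat_lit 2076314093) (nat_lit 76) (nat_lit 7377508368) (nat_lit 288) (nat_lit 5) (nat_lit 299) (nat_lit 5) (nat_lit 289) (nat_lit 5) (nat_lit 444) (nat_lit 400) (nat_lit 296)) (XT.lf (nat_lit 0) (nat_lit 2767689995) (nat_lit 836) (nat_lit 6761732255) (nat_lit 76) (nat_lit 881648004) (nat_lit 278) (nat_lit 5) (nat_lit 289) (nat_lit 5) (nat_lit 279) (nat_lit 5) (nat_lit 445) (nat_lit 400) (nat_lit 295)))) (XT.nd (nat_lit 78) (nat_lit 1444) (nat_lit 0) (XT.lf (nat_lit 0) (nat_lit 4736148529)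 (nat_lit 836) (nat_lit 1043469440) (nat_lit 76) (nat_lit 4740051446) (nat_lit 278) (nat_lit 5) (nat_lit 289) (nat_lit 5) (nat_lit 279) (nat_lit 5) (nat_lit 446) (nat_lit 400) (nat_lit 294)) (XT.nd (nat_lit 78) (nat_lit 684) (nat_lit 0) (XT.lf (nat_lit 0) (nat_lit 4830945522) (nat_lit 760) (nat_lit 1924348989) (nat_lit 836) (nat_lit 3874930506) (nat_lit 268) (nat_lit 5) (nat_lit 278) (nat_lit 5) (nat_lit 279) (nat_lit 5) (nat_lit 447) (nat_lit 400) (nat_lit 293)) (XT.lf (nat_lit 0) (nat_lit 60019195) (nat_lit 684) (nat_lit 8755475834) (nat_lit 760) (nat_lit 1927493878) (nat_lit 259) (nat_lit 5) (nat_lit 268) (nat_lit 5) (nat_lit 269) (nat_lit 5) (nat_lit 448) (nat_lit 400) (nat_lit 292))))))))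
noncomputable def xc154 : XT := (XT.nd (nat_lit 1560) (nat_lit 4788) (nat_lit 0) (XT.nd (nat_lit 780) (nat_lit 3420) (nat_lit 0) (XT.nd (nat_lit 390) (nat_lit 1976) (nat_lit 0) (XT.nd (nat_lit 156) (nat_lit 608) (nat_lit 0) (XT.nd (nat_lit 78) (nat_lit 684) (nat_lit 0) (XT.lf (nat_lit 0) (nat_lit 90340744) (nat_lit 760) (nat_lit 4777453374) (nat_lit 76) (nat_lit 5989572075) (nat_lit 258) (nat_lit 5) (nat_lit 268) (nat_lit 5) (nat_lit 259) (nat_lit 5) (nat_lit 449) (nat_lit 400) (nat_lit 291)) (XT.lf (nat_lit 0) (nat_lit 1227990089) (nat_lit 684) (nat_lit 883419741) (nat_lit 760) (nat_lit 8862602641) (nat_lit 249) (nat_lit 5) (nat_lit 258) (nat_lit 5) (nat_lit 259) (nat_lit 5) (nat_lit 450) (nat_lit 400) (nat_lit 290))) (XT.nd (nat_lit 78) (nat_lit 608) (nat_lit 0) (XT.lf (nat_lit 0) (nat_lit 4206737334) (nat_lit 760) (nat_lit 3716669828) (nat_lit 76) (nat_lit 3168917572) (nat_lit 249) (nat_lit 5) (nat_lit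 259) (nat_lit 5) (nat_lit 250) (nat_lit 5) (nat_lit 451) (nat_lit 400) (nat_lit 289)) (XT.nd (nat_lit 78) (nat_lit 0) (nat_lit 0) (XT.lf (nat_lit 0) (nat_lit 2438063338) (nat_lit 608) (nat_lit 3908876916) (nat_lit 684) (nat_lit 4866013223) (nat_lit 241) (nat_lit 5) (nat_lit 249) (nat_lit 5) (nat_lit 250) (nat_lit 5) (nat_lit 452) (nat_lit 400) (nat_lit 288)) (XT.lf (nat_lit 0) (nat_lit 8537761071) (nat_lit 684) (nat_lit 2592149556) (nat_lit 76) (nat_lit 205937310) (nat_lit 241) (nat_lit 5) (nat_lit 250) (nat_lit 5) (nat_lit 242) (nat_lit 5) (nat_lit 453) (nat_lit 400) (nat_lit 287))))) (XT.nd (nat_lit 156) (nat_lit 1216) (nat_lit 0) (XT.nd (nat_lit 78) (nat_lit 76) (nat_lit 0) (XT.lf (nat_lit 0) (nat_lit 3715964641) (nat_lit 684) (nat_lit 7088310092) (nat_lit 760) (nat_lit 656297265) (nat_lit 232) (nat_lit 5) (nat_lit 241) (nat_lit 5) (nat_lit 242) (nat_lit 5) (nat_lit 454) (nat_lit 400) (nat_lit 286)) (XT.lf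 (nat_lit 0) (nat_lit 1507748772) (nat_lit 760) (nat_lit 1433342179) (nat_lit 76) (nat_lit 8646520706) (nat_lit 231) (nat_lit 5) (nat_lit 241) (nat_lit 5) (nat_lit 232) (nat_lit 5) (nat_lit 455) (nat_lit 400) (nat_lit 285))) (XT.nd (nat_lit 78) (nat_lit 608) (nat_lit 0) (XT.lf (nat_lit 0) (nat_lit 3729956335) (nat_lit 684) (nat_lit 6680260851) (nat_lit 76) (nat_lit 1306423498) (nat_lit 223) (nat_lit 5) (nat_lit 232) (nat_lit 5) (nat_lit 224) (nat_lit 5) (nat_lit 456) (nat_lit 400) (nat_lit 284)) (XT.nd (nat_lit 78) (nat_lit 608) (nat_lit 0) (XT.lf (nat_lit 0) (nat_lit 6008268278) (nat_lit 684) (nat_lit 233697052) (nat_lit 76) (nat_lit 5606060290) (nat_lit 223) (nat_lit 5) (nat_lit 232) (nat_lit 5) (nat_lit 224) (nat_lit 5) (nat_lit 457) (nat_lit 400) (nat_lit 283)) (XT.lf (nat_lit 0) (nat_lit 6405191868) (nat_lit 608) (nat_lit 1951385099) (nat_lit 684) (nat_lit 3624981044) (nat_lit 215) (nat_lit 5) (nat_lit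 223) (nat_lit 5) (nat_lit 224) (nat_lit 5) (nat_lit 458) (nat_lit 400) (nat_lit 282)))))) (XT.nd (nat_lit 390) (nat_lit 1672) (nat_lit 0) (XT.nd (nat_lit 156) (nat_lit 1140) (nat_lit 0) (XT.nd (nat_lit 78) (nat_lit 76) (nat_lit 0) (XT.lf (nat_lit 0) (nat_lit 1039372951) (nat_lit 532) (nat_lit 9719574878) (nat_lit 608) (nat_lit 1358679501) (nat_lit 208) (nat_lit 5) (nat_lit 215) (nat_lit 5) (nat_lit 216) (nat_lit 5) (nat_lit 459) (nat_lit 400) (nat_lit 281)) (XT.lf (nat_lit 0) (nat_lit 974145223) (nat_lit 608) (nat_lit 4432907519) (nat_lit 76) (nat_lit 6848575531) (nat_lit 207) (nat_lit 5) (nat_lit 215) (nat_lit 5) (nat_lit 208) (nat_lit 5) (nat_lit 460) (nat_lit 400) (nat_lit 280))) (XT.nd (nat_lit 78) (nat_lit 532) (nat_lit 0) (XT.lf (nat_lit 0) (nat_lit 2346638955) (nat_lit 608) (nat_lit 987482994) (nat_lit 684) (nat_lit 9062121631) (nat_lit 199) (nat_lit 5) (nat_lit 207) (nat_lit 5) (nat_lit 208) (nat_lit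 5) (nat_lit 461) (nat_lit 400) (nat_lit 279)) (XT.nd (nat_lit 78) (nat_lit 532) (nat_lit 0) (XT.lf (nat_lit 0) (nat_lit 5777701744) (nat_lit 684) (nat_lit 3260925390) (nat_lit 76) (nat_lit 3500323567) (nat_lit 199) (nat_lit 5) (nat_lit 208) (nat_lit 5) (nat_lit 200) (nat_lit 5) (nat_lit 462) (nat_lit 400) (nat_lit 278)) (XT.lf (nat_lit 0) (nat_lit 3685062730) (nat_lit 532) (nat_lit 4599479537) (nat_lit 608) (nat_lit 4399689342) (nat_lit 192) (nat_lit 5) (nat_lit 199) (nat_lit 5) (nat_lit 200) (nat_lit 5) (nat_lit 463) (nat_lit 400) (nat_lit 277))))) (XT.nd (nat_lit 156) (nat_lit 1064) (nat_lit 0) (XT.nd (nat_lit 78) (nat_lit 608) (nat_lit 0) (XT.lf (nat_lit 0) (nat_lit 10794051236) (nat_lit 532) (nat_lit 53459106) (nat_lit 608) (nat_lit 1984795263) (nat_lit 192) (nat_lit 5) (nat_lit 199) (nat_lit 5) (nat_lit 200) (nat_lit 5) (nat_lit 464) (nat_lit 400) (nat_lit 276)) (XT.lf (nat_lit 0) (nat_lit 519553724)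 (nat_lit 608) (nat_lit 7907115558) (nat_lit 76) (nat_lit 4555668050) (nat_lit 184) (nat_lit 5) (nat_lit 192) (nat_lit 5) (nat_lit 185) (nat_lit 5) (nat_lit 465) (nat_lit 400) (nat_lit 275))) (XT.nd (nat_lit 78) (nat_lit 1064) (nat_lit 0) (XT.lf (nat_lit 0) (nat_lit 3046021196) (nat_lit 608) (nat_lit 810189589) (nat_lit 76) (nat_lit 9278931226) (nat_lit 184) (nat_lit 5) (nat_lit 192) (nat_lit 5) (nat_lit 185) (nat_lit 5) (nat_lit 466) (nat_lit 400) (nat_lit 274)) (XT.nd (nat_lit 78) (nat_lit 532) (nat_lit 0) (XT.lf (nat_lit 0) (nat_lit 5655428722) (nat_lit 608) (nat_lit 6801812135) (nat_lit 76) (nat_lit 833120438) (nat_lit 177) (nat_lit 5) (nat_lit 185) (nat_lit 5) (nat_lit 178) (nat_lit 5) (nat_lit 467) (nat_lit 400) (nat_lit 273)) (XT.lf (nat_lit 0) (nat_lit 456222634) (nat_lit 532) (nat_lit 7879682175) (nat_lit 608) (nat_lit 5112409146) (nat_lit 170) (nat_lit 5) (nat_lit 177) (nat_lit 5) (nat_lit 178)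 (nat_lit 5) (nat_lit 468) (nat_lit 400) (nat_lit 272))))))) (XT.nd (nat_lit 780) (nat_lit 2432) (nat_lit 0) (XT.nd (nat_lit 390) (nat_lit 1368) (nat_lit 0) (XT.nd (nat_lit 156) (nat_lit 456) (nat_lit 0) (XT.nd (nat_lit 78) (nat_lit 532) (nat_lit 0) (XT.lf (nat_lit 0) (nat_lit 7931893312) (nat_lit 532) (nat_lit 3168816391) (nat_lit 608) (nat_lit 2508108046) (nat_lit 170) (nat_lit 5) (nat_lit 177) (nat_lit 5) (nat_lit 178) (nat_lit 5) (nat_lit 469) (nat_lit 400) (nat_lit 271)) (XT.lf (nat_lit 0) (nat_lit 153880701) (nat_lit 532) (nat_lit 11995771085) (nat_lit 76) (nat_lit 1622715868) (nat_lit 163) (nat_lit 5) (nat_lit 170) (nat_lit 5) (nat_lit 164) (nat_lit 5) (nat_lit 470) (nat_lit 400) (nat_lit 270))) (XT.nd (nat_lit 78) (nat_lit 456) (nat_lit 0) (XT.lf (nat_lit 0) (nat_lit 2880286514) (nat_lit 532) (nat_lit 4539812230) (nat_lit 76) (nat_lit 6517869117) (nat_lit 163) (nat_lit 5) (nat_lit 170) (nat_lit 5)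 (nat_lit 164) (nat_lit 5) (nat_lit 471) (nat_lit 400) (nat_lit 269)) (XT.nd (nat_lit 78) (nat_lit 0) (nat_lit 0) (XT.lf (nat_lit 0) (nat_lit 3086453064) (nat_lit 456) (nat_lit 2580489513) (nat_lit 532) (nat_lit 8439829029) (nat_lit 157) (nat_lit 5) (nat_lit 163) (nat_lit 5) (nat_lit 164) (nat_lit 5) (nat_lit 472) (nat_lit 400) (nat_lit 268)) (XT.lf (nat_lit 0) (nat_lit 8541100822) (nat_lit 532) (nat_lit 3386479801) (nat_lit 76) (nat_lit 2350741278) (nat_lit 157) (nat_lit 5) (nat_lit 164) (nat_lit 5) (nat_lit 158) (nat_lit 5) (nat_lit 473) (nat_lit 400) (nat_lit 267))))) (XT.nd (nat_lit 156) (nat_lit 912) (nat_lit 0) (XT.nd (nat_lit 78) (nat_lit 0) (nat_lit 0) (XT.lf (nat_lit 0) (nat_lit 4421899420) (nat_lit 456) (nat_lit 7082726988) (nat_lit 532) (nat_lit 2948044854) (nat_lit 151) (nat_lit 5) (nat_lit 157) (nat_lit 5) (nat_lit 158) (nat_lit 5) (nat_lit 474) (nat_lit 400) (nat_lit 266)) (XT.lf (nat_lit 0)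 (nat_lit 12413435154) (nat_lit 456) (nat_lit 2122947382) (nat_lit 532) (nat_lit 93951502) (nat_lit 151) (nat_lit 5) (nat_lit 157) (nat_lit 5) (nat_lit 158) (nat_lit 5) (nat_lit 475) (nat_lit 400) (nat_lit 265))) (XT.nd (nat_lit 78) (nat_lit 380) (nat_lit 0) (XT.lf (nat_lit 0) (nat_lit 2823691594) (nat_lit 532) (nat_lit 9037913657) (nat_lit 76) (nat_lit 2948716080) (nat_lit 144) (nat_lit 5) (nat_lit 151) (nat_lit 5) (nat_lit 145) (nat_lit 5) (nat_lit 476) (nat_lit 400) (nat_lit 264)) (XT.nd (nat_lit 78) (nat_lit 380) (nat_lit 0) (XT.lf (nat_lit 0) (nat_lit 5813987236) (nat_lit 532) (nat_lit 1075688049) (nat_lit 76) (nat_lit 8103914815) (nat_lit 144) (nat_lit 5) (nat_lit 151) (nat_lit 5) (nat_lit 145) (nat_lit 5) (nat_lit 477) (nat_lit 400) (nat_lit 263)) (XT.lf (nat_lit 0) (nat_lit 7120692553) (nat_lit 380) (nat_lit 1776414953) (nat_lit 456) (nat_lit 6282761565) (nat_lit 139) (nat_lit 5) (nat_lit 144) (nat_lit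 5) (nat_lit 145) (nat_lit 5) (nat_lit 478) (nat_lit 400) (nat_lit 262)))))) (XT.nd (nat_lit 390) (nat_lit 1140) (nat_lit 0) (XT.nd (nat_lit 156) (nat_lit 836) (nat_lit 0) (XT.nd (nat_lit 78) (nat_lit 0) (nat_lit 0) (XT.lf (nat_lit 0) (nat_lit 86014676) (nat_lit 456) (nat_lit 11972921252) (nat_lit 532) (nat_lit 3310601880) (nat_lit 133) (nat_lit 5) (nat_lit 139) (nat_lit 5) (nat_lit 140) (nat_lit 5) (nat_lit 479) (nat_lit 400) (nat_lit 261)) (XT.lf (nat_lit 0) (nat_lit 8472966194) (nat_lit 456) (nat_lit 6863832152) (nat_lit 532) (nat_lit 225150622) (nat_lit 133) (nat_lit 5) (nat_lit 139) (nat_lit 5) (nat_lit 140) (nat_lit 5) (nat_lit 480) (nat_lit 400) (nat_lit 260))) (XT.nd (nat_lit 78) (nat_lit 380) (nat_lit 0) (XT.lf (nat_lit 0) (nat_lit 1248572047) (nat_lit 380) (nat_lit 1630415940) (nat_lit 456) (nat_lit 12878939719) (nat_lit 127) (nat_lit 5) (nat_lit 132) (nat_lit 5) (nat_lit 133) (nat_lit 5) (nat_lit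 481) (nat_lit 400) (nat_lit 259)) (XT.nd (nat_lit 78) (nat_lit 380) (nat_lit 0) (XT.lf (nat_lit 0) (nat_lit 6101447916) (nat_lit 456) (nat_lit 6152164586) (nat_lit 76) (nat_lit 3703003394) (nat_lit 127) (nat_lit 5) (nat_lit 133) (nat_lit 5) (nat_lit 128) (nat_lit 5) (nat_lit 482) (nat_lit 400) (nat_lit 258)) (XT.lf (nat_lit 0) (nat_lit 2374492955) (nat_lit 380) (nat_lit 7027619512) (nat_lit 456) (nat_lit 6756894894) (nat_lit 122) (nat_lit 5) (nat_lit 127) (nat_lit 5) (nat_lit 128) (nat_lit 5) (nat_lit 483) (nat_lit 400) (nat_lit 257))))) (XT.nd (nat_lit 234) (nat_lit 684) (nat_lit 0) (XT.nd (nat_lit 78) (nat_lit 456) (nat_lit 0) (XT.lf (nat_lit 0) (nat_lit 11137174627) (nat_lit 380) (nat_lit 1660569182) (nat_lit 456) (nat_lit 3567128305) (nat_lit 122) (nat_lit 5) (nat_lit 127) (nat_lit 5) (nat_lit 128) (nat_lit 5) (nat_lit 484) (nat_lit 400) (nat_lit 256)) (XT.nd (nat_lit 78) (nat_lit 76) (nat_lit 0) (XT.lf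 (nat_lit 0) (nat_lit 3503682394) (nat_lit 380) (nat_lit 12792991020) (nat_lit 456) (nat_lit 277477474) (nat_lit 117) (nat_lit 5) (nat_lit 122) (nat_lit 5) (nat_lit 123) (nat_lit 5) (nat_lit 485) (nat_lit 400) (nat_lit 255)) (XT.lf (nat_lit 0) (nat_lit 3071823295) (nat_lit 456) (nat_lit 4355385550) (nat_lit 76) (nat_lit 9359326475) (nat_lit 116) (nat_lit 5) (nat_lit 122) (nat_lit 5) (nat_lit 117) (nat_lit 5) (nat_lit 486) (nat_lit 400) (nat_lit 254)))) (XT.nd (nat_lit 78) (nat_lit 304) (nat_lit 0) (XT.lf (nat_lit 0) (nat_lit 4574697724) (nat_lit 380) (nat_lit 1927554275) (nat_lit 456) (nat_lit 10500525797) (nat_lit 111) (nat_lit 5) (nat_lit 116) (nat_lit 5) (nat_lit 117) (nat_lit 5) (nat_lit 487) (nat_lit 400) (nat_lit 253)) (XT.nd (nat_lit 78) (nat_lit 304) (nat_lit 0) (XT.lf (nat_lit 0) (nat_lit 10042851462) (nat_lit 456) (nat_lit 3521988691) (nat_lit 76) (nat_lit 3657677824) (nat_lit 111) (nat_lit 5) (nat_lit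 117) (nat_lit 5) (nat_lit 112) (nat_lit 5) (nat_lit 488) (nat_lit 400) (nat_lit 252)) (XT.lf (nat_lit 0) (nat_lit 5605775081) (nat_lit 304) (nat_lit 8086115295) (nat_lit 380) (nat_lit 3754014059) (nat_lit 107) (nat_lit 5) (nat_lit 111) (nat_lit 5) (nat_lit 112) (nat_lit 5) (nat_lit 489) (nat_lit 400) (nat_lit 251))))))))
noncomputable def xc155 : XT := (XT.nd (nat_lit 53040) (nat_lit 0) (nat_lit 24472) (XT.nd (nat_lit 780) (nat_lit 304) (nat_lit 0) (XT.nd (nat_lit 390) (nat_lit 988) (nat_lit 0) (XT.nd (nat_lit 156) (nat_lit 304) (nat_lit 0) (XT.nd (nat_lit 78) (nat_lit 456) (nat_lit 0) (XT.lf (nat_lit 0) (nat_lit 14946743878) (nat_lit 304) (nat_lit 2479381568) (nat_lit 380) (nat_lit 247392809) (nat_lit 107) (nat_lit 5) (nat_lit 111) (nat_lit 5) (nat_lit 112) (nat_lit 5) (nat_lit 490) (nat_lit 400) (nat_lit 250)) (XT.lf (nat_lit 0) (nat_lit 3338809241) (nat_lit 456) (nat_lit 11308940390) (nat_lit 76) (nat_lit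 3256443911) (nat_lit 101) (nat_lit 5) (nat_lit 107) (nat_lit 5) (nat_lit 102) (nat_lit 5) (nat_lit 491) (nat_lit 400) (nat_lit 249))) (XT.nd (nat_lit 78) (nat_lit 304) (nat_lit 0) (XT.lf (nat_lit 0) (nat_lit 7017067151) (nat_lit 456) (nat_lit 2033601567) (nat_lit 76) (nat_lit 9088311736) (nat_lit 101) (nat_lit 5) (nat_lit 107) (nat_lit 5) (nat_lit 102) (nat_lit 5) (nat_lit 492) (nat_lit 400) (nat_lit 248)) (XT.nd (nat_lit 78) (nat_lit 0) (nat_lit 0) (XT.lf (nat_lit 0) (nat_lit 7509070681) (nat_lit 304) (nat_lit 3297595264) (nat_lit 380) (nat_lit 7571045288) (nat_lit 97) (nat_lit 5) (nat_lit 101) (nat_lit 5) (nat_lit 102) (nat_lit 5) (nat_lit 493) (nat_lit 400) (nat_lit 247)) (XT.lf (nat_lit 0) (nat_lit 14691576106) (nat_lit 380) (nat_lit 1384292044) (nat_lit 76) (nat_lit 2544961660) (nat_lit 97) (nat_lit 5) (nat_lit 102) (nat_lit 5) (nat_lit 98) (nat_lit 5) (nat_lit 494) (nat_lit 400) (nat_lit 246))))) (XT.nd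 (nat_lit 156) (nat_lit 608) (nat_lit 0) (XT.nd (nat_lit 78) (nat_lit 76) (nat_lit 0) (XT.lf (nat_lit 0) (nat_lit 8361160528) (nat_lit 304) (nat_lit 10358455218) (nat_lit 380) (nat_lit 147889887) (nat_lit 93) (nat_lit 5) (nat_lit 97) (nat_lit 5) (nat_lit 98) (nat_lit 5) (nat_lit 495) (nat_lit 400) (nat_lit 245)) (XT.lf (nat_lit 0) (nat_lit 3659143581) (nat_lit 380) (nat_lit 839225864) (nat_lit 76) (nat_lit 14620293495) (nat_lit 92) (nat_lit 5) (nat_lit 97) (nat_lit 5) (nat_lit 93) (nat_lit 5) (nat_lit 496) (nat_lit 400) (nat_lit 244))) (XT.nd (nat_lit 78) (nat_lit 304) (nat_lit 0) (XT.lf (nat_lit 0) (nat_lit 7599087350) (nat_lit 380) (nat_lit 10260016395) (nat_lit 76) (nat_lit 1514548399) (nat_lit 88) (nat_lit 5) (nat_lit 93) (nat_lit 5) (nat_lit 89) (nat_lit 5) (nat_lit 497) (nat_lit 400) (nat_lit 243)) (XT.nd (nat_lit 78) (nat_lit 304) (nat_lit 0) (XT.lf (nat_lit 0) (nat_lit 11642899880) (nat_lit 380) (nat_lit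 402710771) (nat_lit 76) (nat_lit 7587632316) (nat_lit 88) (nat_lit 5) (nat_lit 93) (nat_lit 5) (nat_lit 89) (nat_lit 5) (nat_lit 498) (nat_lit 400) (nat_lit 242)) (XT.lf (nat_lit 0) (nat_lit 9763929028) (nat_lit 304) (nat_lit 6056867670) (nat_lit 380) (nat_lit 4076167917) (nat_lit 84) (nat_lit 5) (nat_lit 88) (nat_lit 5) (nat_lit 89) (nat_lit 5) (nat_lit 499) (nat_lit 400) (nat_lit 241)))))) (XT.nd (nat_lit 51870) (nat_lit 0) (nat_lit 32756) (XT.nd (nat_lit 51636) (nat_lit 0) (nat_lit 33896) (XT.nd (nat_lit 78) (nat_lit 304) (nat_lit 0) (XT.lf (nat_lit 0) (nat_lit 20075181766) (nat_lit 380) (nat_lit 42830683) (nat_lit 76) (nat_lit 48092750) (nat_lit 84) (nat_lit 5) (nat_lit 89) (nat_lit 5) (nat_lit 85) (nat_lit 5) (nat_lit 500) (nat_lit 400) (nat_lit 240)) (XT.lf (nat_lit 0) (nat_lit 4019793953) (nat_lit 304) (nat_lit 10136219433) (nat_lit 76) (nat_lit 6282144396) (nat_lit 80) (nat_lit 5) (nat_lit 84) (nat_lit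 5) (nat_lit 81) (nat_lit 5) (nat_lit 501) (nat_lit 400) (nat_lit 239))) (XT.nd (nat_lit 78) (nat_lit 0) (nat_lit 0) (XT.lf (nat_lit 0) (nat_lit 121739644) (nat_lit 0) (nat_lit 121739644) (nat_lit 1140) (nat_lit 3404352133) (nat_lit 526) (nat_lit 5) (nat_lit 526) (nat_lit 3) (nat_lit 541) (nat_lit 3) (nat_lit 401) (nat_lit 401) (nat_lit 338)) (XT.nd (nat_lit 78) (nat_lit 0) (nat_lit 0) (XT.lf (nat_lit 0) (nat_lit 2036118935) (nat_lit 1140) (nat_lit 3629503878) (nat_lit 1216) (nat_lit 1670978130) (nat_lit 526) (nat_lit 5) (nat_lit 541) (nat_lit 3) (nat_lit 542) (nat_lit 5) (nat_lit 402) (nat_lit 401) (nat_lit 337)) (XT.lf (nat_lit 0) (nat_lit 3577786563) (nat_lit 1140) (nat_lit 161057178) (nat_lit 1216) (nat_lit 3640313291) (nat_lit 526) (nat_lit 5) (nat_lit 541) (nat_lit 3) (nat_lit 542) (nat_lit 5) (nat_lit 403) (nat_lit 401) (nat_lit 336))))) (XT.nd (nat_lit 156) (nat_lit 1140) (nat_lit 0) (XT.nd (nat_lit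 78) (nat_lit 0) (nat_lit 76) (XT.lf (nat_lit 76) (nat_lit 3400698316) (nat_lit 0) (nat_lit 1732366483) (nat_lit 1216) (nat_lit 2289873028) (nat_lit 527) (nat_lit 5) (nat_lit 526) (nat_lit 5) (nat_lit 542) (nat_lit 5) (nat_lit 404) (nat_lit 401) (nat_lit 335)) (XT.lf (nat_lit 0) (nat_lit 6684029608) (nat_lit 1140) (nat_lit 455192560) (nat_lit 1216) (nat_lit 329109009) (nat_lit 527) (nat_lit 5) (nat_lit 542) (nat_lit 5) (nat_lit 543) (nat_lit 5) (nat_lit 405) (nat_lit 401) (nat_lit 334))) (XT.nd (nat_lit 78) (nat_lit 0) (nat_lit 0) (XT.lf (nat_lit 0) (nat_lit 735871712) (nat_lit 1216) (nat_lit 4327043764) (nat_lit 1292) (nat_lit 2451759899) (nat_lit 511) (nat_lit 5) (nat_lit 527) (nat_lit 5) (nat_lit 528) (nat_lit 5) (nat_lit 406) (nat_lit 401) (nat_lit 333)) (XT.nd (nat_lit 78) (nat_lit 0) (nat_lit 0) (XT.lf (nat_lit 0) (nat_lit 2241571980) (nat_lit 1216) (nat_lit 679027664) (nat_lit 1292) (nat_lit 4641957531)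 (nat_lit 511) (nat_lit 5) (nat_lit 527) (nat_lit 5) (nat_lit 528) (nat_lit 5) (nat_lit 407) (nat_lit 401) (nat_lit 332)) (XT.lf (nat_lit 76) (nat_lit 3061104972) (nat_lit 0) (nat_lit 699431192) (nat_lit 1292) (nat_lit 3851223834) (nat_lit 512) (nat_lit 5) (nat_lit 511) (nat_lit 5) (nat_lit 528) (nat_lit 5) (nat_lit 408) (nat_lit 401) (nat_lit 331))))))) (XT.nd (nat_lit 780) (nat_lit 5852) (nat_lit 0) (XT.nd (nat_lit 390) (nat_lit 1216) (nat_lit 0) (XT.nd (nat_lit 156) (nat_lit 1292) (nat_lit 0) (XT.nd (nat_lit 78) (nat_lit 0) (nat_lit 0) (XT.lf (nat_lit 0) (nat_lit 5288594145) (nat_lit 1216) (nat_lit 808510368) (nat_lit 1292) (nat_lit 1565293939) (nat_lit 512) (nat_lit 5) (nat_lit 528) (nat_lit 5) (nat_lit 529) (nat_lit 5) (nat_lit 409) (nat_lit 401) (nat_lit 330)) (XT.lf (nat_lit 76) (nat_lit 3022206922) (nat_lit 0) (nat_lit 3813926360) (nat_lit 1292) (nat_lit 878163350) (nat_lit 513) (nat_lit 5) (nat_lit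 512) (nat_lit 5) (nat_lit 529) (nat_lit 5) (nat_lit 410) (nat_lit 401) (nat_lit 329))) (XT.nd (nat_lit 78) (nat_lit 0) (nat_lit 76) (XT.lf (nat_lit 0) (nat_lit 609327823) (nat_lit 1292) (nat_lit 852490392) (nat_lit 1368) (nat_lit 6305946311) (nat_lit 495) (nat_lit 5) (nat_lit 512) (nat_lit 5) (nat_lit 513) (nat_lit 5) (nat_lit 411) (nat_lit 401) (nat_lit 328)) (XT.nd (nat_lit 78) (nat_lit 0) (nat_lit 0) (XT.lf (nat_lit 0) (nat_lit 2106796176) (nat_lit 1292) (nat_lit 4751595819) (nat_lit 1368) (nat_lit 963977865) (nat_lit 496) (nat_lit 5) (nat_lit 513) (nat_lit 5) (nat_lit 514) (nat_lit 5) (nat_lit 412) (nat_lit 401) (nat_lit 327)) (XT.lf (nat_lit 0) (nat_lit 3615926350) (nat_lit 1292) (nat_lit 825456119) (nat_lit 1368) (nat_lit 3437074009) (nat_lit 496) (nat_lit 5) (nat_lit 513) (nat_lit 5) (nat_lit 514) (nat_lit 5) (nat_lit 413) (nat_lit 401) (nat_lit 326))))) (XT.nd (nat_lit 156) (nat_lit 1292) (nat_lit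 0) (XT.nd (nat_lit 78) (nat_lit 0) (nat_lit 76) (XT.lf (nat_lit 76) (nat_lit 3199756135) (nat_lit 0) (nat_lit 1943192240) (nat_lit 1368) (nat_lit 2792985238) (nat_lit 497) (nat_lit 5) (nat_lit 496) (nat_lit 5) (nat_lit 514) (nat_lit 5) (nat_lit 414) (nat_lit 401) (nat_lit 325)) (XT.lf (nat_lit 0) (nat_lit 6677532350) (nat_lit 1292) (nat_lit 703773683) (nat_lit 1368) (nat_lit 613736343) (nat_lit 497) (nat_lit 5) (nat_lit 514) (nat_lit 5) (nat_lit 515) (nat_lit 5) (nat_lit 415) (nat_lit 401) (nat_lit 324))) (XT.nd (nat_lit 78) (nat_lit 0) (nat_lit 0) (XT.lf (nat_lit 0) (nat_lit 188241760) (nat_lit 1368) (nat_lit 4636860157) (nat_lit 1444) (nat_lit 3230164182) (nat_lit 479) (nat_lit 5) (nat_lit 497) (nat_lit 5) (nat_lit 498) (nat_lit 5) (nat_lit 416) (nat_lit 401) (nat_lit 323)) (XT.nd (nat_lit 78) (nat_lit 0) (nat_lit 76) (XT.lf (nat_lit 0) (nat_lit 1679648379) (nat_lit 1368) (nat_lit 514676133) (nat_lit 1444)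 (nat_lit 5922753202) (nat_lit 479) (nat_lit 5) (nat_lit 497) (nat_lit 5) (nat_lit 498) (nat_lit 5) (nat_lit 417) (nat_lit 401) (nat_lit 322)) (XT.lf (nat_lit 0) (nat_lit 3197445075) (nat_lit 1368) (nat_lit 4466435690) (nat_lit 1444) (nat_lit 516334359) (nat_lit 480) (nat_lit 5) (nat_lit 498) (nat_lit 5) (nat_lit 499) (nat_lit 5) (nat_lit 418) (nat_lit 401) (nat_lit 321)))))) (XT.nd (nat_lit 390) (nat_lit 4560) (nat_lit 0) (XT.nd (nat_lit 156) (nat_lit 1368) (nat_lit 0) (XT.nd (nat_lit 78) (nat_lit 0) (nat_lit 0) (XT.lf (nat_lit 0) (nat_lit 4733164926) (nat_lit 1368) (nat_lit 247328789) (nat_lit 1444) (nat_lit 3264390620) (nat_lit 480) (nat_lit 5) (nat_lit 498) (nat_lit 5) (nat_lit 499) (nat_lit 5) (nat_lit 419) (nat_lit 401) (nat_lit 320)) (XT.lf (nat_lit 76) (nat_lit 4088200836) (nat_lit 0) (nat_lit 2208097188) (nat_lit 1444) (nat_lit 2014634923) (nat_lit 481) (nat_lit 5) (nat_lit 480) (nat_lit 5) (nat_lit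 499) (nat_lit 5) (nat_lit 420) (nat_lit 401) (nat_lit 319))) (XT.nd (nat_lit 78) (nat_lit 1444) (nat_lit 0) (XT.lf (nat_lit 76) (nat_lit 110849100) (nat_lit 0) (nat_lit 7756912158) (nat_lit 1444) (nat_lit 511019527) (nat_lit 482) (nat_lit 5) (nat_lit 481) (nat_lit 5) (nat_lit 500) (nat_lit 5) (nat_lit 421) (nat_lit 401) (nat_lit 318)) (XT.nd (nat_lit 78) (nat_lit 0) (nat_lit 0) (XT.lf (nat_lit 0) (nat_lit 1023279004) (nat_lit 1444) (nat_lit 3902882081) (nat_lit 1520) (nat_lit 3521430074) (nat_lit 462) (nat_lit 5) (nat_lit 481) (nat_lit 5) (nat_lit 482) (nat_lit 5) (nat_lit 422) (nat_lit 401) (nat_lit 317)) (XT.lf (nat_lit 76) (nat_lit 531133766) (nat_lit 0) (nat_lit 2025188852) (nat_lit 1520) (nat_lit 5961908004) (nat_lit 463) (nat_lit 5) (nat_lit 462) (nat_lit 5) (nat_lit 482) (nat_lit 5) (nat_lit 423) (nat_lit 401) (nat_lit 316))))) (XT.nd (nat_lit 234) (nat_lit 3192) (nat_lit 0) (XT.nd (nat_lit 78) (nat_lit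 1444) (nat_lit 0) (XT.lf (nat_lit 0) (nat_lit 4124360423) (nat_lit 1444) (nat_lit 3511655211) (nat_lit 76) (nat_lit 954198685) (nat_lit 463) (nat_lit 5) (nat_lit 482) (nat_lit 5) (nat_lit 464) (nat_lit 5) (nat_lit 424) (nat_lit 401) (nat_lit 315)) (XT.nd (nat_lit 78) (nat_lit 0) (nat_lit 0) (XT.lf (nat_lit 0) (nat_lit 1031455899) (nat_lit 1444) (nat_lit 4684869287) (nat_lit 1520) (nat_lit 2947478934) (nat_lit 444) (nat_lit 5) (nat_lit 463) (nat_lit 5) (nat_lit 464) (nat_lit 5) (nat_lit 425) (nat_lit 401) (nat_lit 314)) (XT.lf (nat_lit 0) (nat_lit 5691219835) (nat_lit 1444) (nat_lit 1645330364) (nat_lit 1520) (nat_lit 1402404505) (nat_lit 444) (nat_lit 5) (nat_lit 463) (nat_lit 5) (nat_lit 464) (nat_lit 5) (nat_lit 426) (nat_lit 401) (nat_lit 313)))) (XT.nd (nat_lit 78) (nat_lit 1596) (nat_lit 0) (XT.lf (nat_lit 0) (nat_lit 164610807) (nat_lit 1596) (nat_lit 7198457889) (nat_lit 76) (nat_lit 1452667481) (nat_lit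 423) (nat_lit 5) (nat_lit 444) (nat_lit 5) (nat_lit 424) (nat_lit 5) (nat_lit 427) (nat_lit 401) (nat_lit 312)) (XT.nd (nat_lit 78) (nat_lit 1596) (nat_lit 0) (XT.lf (nat_lit 0) (nat_lit 1749300888) (nat_lit 1596) (nat_lit 2519247771) (nat_lit 76) (nat_lit 4625233372) (nat_lit 423) (nat_lit 5) (nat_lit 444) (nat_lit 5) (nat_lit 424) (nat_lit 5) (nat_lit 428) (nat_lit 401) (nat_lit 311)) (XT.lf (nat_lit 0) (nat_lit 2261452004) (nat_lit 1596) (nat_lit 1093044562) (nat_lit 1672) (nat_lit 5619132081) (nat_lit 402) (nat_lit 5) (nat_lit 423) (nat_lit 5) (nat_lit 424) (nat_lit 5) (nat_lit 429) (nat_lit 401) (nat_lit 310))))))))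
noncomputable def xc156 : XT := (XT.nd (nat_lit 1560) (nat_lit 6764) (nat_lit 0) (XT.nd (nat_lit 780) (nat_lit 4636) (nat_lit 0) (XT.nd (nat_lit 390) (nat_lit 2736) (nat_lit 0) (XT.nd (nat_lit 156) (nat_lit 1824) (nat_lit 0) (XT.nd (nat_lit 78) (nat_lit 1672) (nat_lit 0) (XT.lf (nat_lit 0) (nat_lit 4997267844) (nat_lit 1672) (nat_lit 1919026160) (nat_lit 76) (nat_lit 2138684524) (nat_lit 402) (nat_lit 5) (nat_lit 424) (nat_lit 5) (nat_lit 403) (nat_lit 5) (nat_lit 430) (nat_lit 401) (nat_lit 309)) (XT.lf (nat_lit 0) (nat_lit 2980105896) (nat_lit 1672) (nat_lit 3694396956) (nat_lit 1748) (nat_lit 2463435845) (nat_lit 380) (nat_lit 5) (nat_lit 402) (nat_lit 5) (nat_lit 403) (nat_lit 5) (nat_lit 431) (nat_lit 401) (nat_lit 308))) (XT.nd (nat_lit 78) (nat_lit 1824) (nat_lit 0) (XT.lf (nat_lit 0) (nat_lit 7981649087) (nat_lit 1672) (nat_lit 391881573) (nat_lit 1748) (nat_lit 849277601) (nat_lit 380) (nat_lit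 5) (nat_lit 402) (nat_lit 5) (nat_lit 403) (nat_lit 5) (nat_lit 432) (nat_lit 401) (nat_lit 307)) (XT.nd (nat_lit 78) (nat_lit 0) (nat_lit 0) (XT.lf (nat_lit 0) (nat_lit 806582568) (nat_lit 1824) (nat_lit 5531850913) (nat_lit 76) (nat_lit 2970455312) (nat_lit 356) (nat_lit 5) (nat_lit 380) (nat_lit 5) (nat_lit 357) (nat_lit 5) (nat_lit 433) (nat_lit 401) (nat_lit 306)) (XT.lf (nat_lit 0) (nat_lit 2471212026) (nat_lit 1824) (nat_lit 514244512) (nat_lit 76) (nat_lit 6411395925) (nat_lit 356) (nat_lit 5) (nat_lit 380) (nat_lit 5) (nat_lit 357) (nat_lit 5) (nat_lit 434) (nat_lit 401) (nat_lit 305))))) (XT.nd (nat_lit 156) (nat_lit 912) (nat_lit 0) (XT.nd (nat_lit 78) (nat_lit 912) (nat_lit 0) (XT.lf (nat_lit 0) (nat_lit 4178819163) (nat_lit 988) (nat_lit 4846320665) (nat_lit 76) (nat_lit 461255876) (nat_lit 344) (nat_lit 5) (nat_lit 357) (nat_lit 5) (nat_lit 345) (nat_lit 5) (nat_lit 435) (nat_lit 401) (nat_lit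 304)) (XT.lf (nat_lit 0) (nat_lit 288999054) (nat_lit 912) (nat_lit 5633539266) (nat_lit 988) (nat_lit 3655166018) (nat_lit 332) (nat_lit 5) (nat_lit 344) (nat_lit 5) (nat_lit 345) (nat_lit 5) (nat_lit 436) (nat_lit 401) (nat_lit 303))) (XT.nd (nat_lit 78) (nat_lit 912) (nat_lit 0) (XT.lf (nat_lit 0) (nat_lit 5571073624) (nat_lit 912) (nat_lit 2139731779) (nat_lit 988) (nat_lit 1959853727) (nat_lit 332) (nat_lit 5) (nat_lit 344) (nat_lit 5) (nat_lit 345) (nat_lit 5) (nat_lit 437) (nat_lit 401) (nat_lit 302)) (XT.nd (nat_lit 78) (nat_lit 76) (nat_lit 0) (XT.lf (nat_lit 0) (nat_lit 1177829737) (nat_lit 836) (nat_lit 8351508415) (nat_lit 912) (nat_lit 236258051) (nat_lit 321) (nat_lit 5) (nat_lit 332) (nat_lit 5) (nat_lit 333) (nat_lit 5) (nat_lit 438) (nat_lit 401) (nat_lit 301)) (XT.lf (nat_lit 0) (nat_lit 1521461633) (nat_lit 912) (nat_lit 3291605604) (nat_lit 76) (nat_lit 5048787630) (nat_lit 320) (nat_lit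 5) (nat_lit 332) (nat_lit 5) (nat_lit 321) (nat_lit 5) (nat_lit 439) (nat_lit 401) (nat_lit 300)))))) (XT.nd (nat_lit 390) (nat_lit 2204) (nat_lit 0) (XT.nd (nat_lit 156) (nat_lit 1596) (nat_lit 0) (XT.nd (nat_lit 78) (nat_lit 0) (nat_lit 0) (XT.lf (nat_lit 0) (nat_lit 2115229144) (nat_lit 836) (nat_lit 1187863740) (nat_lit 912) (nat_lit 6657088605) (nat_lit 309) (nat_lit 5) (nat_lit 320) (nat_lit 5) (nat_lit 321) (nat_lit 5) (nat_lit 440) (nat_lit 401) (nat_lit 299)) (XT.lf (nat_lit 0) (nat_lit 5137362387) (nat_lit 912) (nat_lit 2423385192) (nat_lit 76) (nat_lit 2499399140) (nat_lit 309) (nat_lit 5) (nat_lit 321) (nat_lit 5) (nat_lit 310) (nat_lit 5) (nat_lit 441) (nat_lit 401) (nat_lit 298))) (XT.nd (nat_lit 78) (nat_lit 836) (nat_lit 0) (XT.lf (nat_lit 0) (nat_lit 3118340695) (nat_lit 760) (nat_lit 3896986985) (nat_lit 836) (nat_lit 3146655314) (nat_lit 299) (nat_lit 5) (nat_lit 309) (nat_lit 5) (nat_lit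 310) (nat_lit 5) (nat_lit 442) (nat_lit 401) (nat_lit 297)) (XT.nd (nat_lit 78) (nat_lit 836) (nat_lit 0) (XT.lf (nat_lit 0) (nat_lit 8782587319) (nat_lit 760) (nat_lit 143700938) (nat_lit 836) (nat_lit 1339670732) (nat_lit 299) (nat_lit 5) (nat_lit 309) (nat_lit 5) (nat_lit 310) (nat_lit 5) (nat_lit 443) (nat_lit 401) (nat_lit 296)) (XT.lf (nat_lit 0) (nat_lit 527802905) (nat_lit 836) (nat_lit 6176809649) (nat_lit 76) (nat_lit 3666728790) (nat_lit 288) (nat_lit 5) (nat_lit 299) (nat_lit 5) (nat_lit 289) (nat_lit 5) (nat_lit 444) (nat_lit 401) (nat_lit 295))))) (XT.nd (nat_lit 156) (nat_lit 1444) (nat_lit 0) (XT.nd (nat_lit 78) (nat_lit 760) (nat_lit 0) (XT.lf (nat_lit 0) (nat_lit 2405375655) (nat_lit 836) (nat_lit 503728921) (nat_lit 76) (nat_lit 7569746948) (nat_lit 288) (nat_lit 5) (nat_lit 299) (nat_lit 5) (nat_lit 289) (nat_lit 5) (nat_lit 445) (nat_lit 401) (nat_lit 294)) (XT.lf (nat_lit 0) (nat_lit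 4341685931) (nat_lit 836) (nat_lit 5262847542) (nat_lit 76) (nat_lit 983565534) (nat_lit 278) (nat_lit 5) (nat_lit 289) (nat_lit 5) (nat_lit 279) (nat_lit 5) (nat_lit 446) (nat_lit 401) (nat_lit 293))) (XT.nd (nat_lit 78) (nat_lit 684) (nat_lit 0) (XT.lf (nat_lit 0) (nat_lit 544885240) (nat_lit 760) (nat_lit 5778388855) (nat_lit 836) (nat_lit 4376136922) (nat_lit 268) (nat_lit 5) (nat_lit 278) (nat_lit 5) (nat_lit 279) (nat_lit 5) (nat_lit 447) (nat_lit 401) (nat_lit 292)) (XT.nd (nat_lit 78) (nat_lit 684) (nat_lit 0) (XT.lf (nat_lit 0) (nat_lit 6519102249) (nat_lit 760) (nat_lit 1841302882) (nat_lit 836) (nat_lit 2452236316) (nat_lit 268) (nat_lit 5) (nat_lit 278) (nat_lit 5) (nat_lit 279) (nat_lit 5) (nat_lit 448) (nat_lit 401) (nat_lit 291)) (XT.lf (nat_lit 0) (nat_lit 1671492334) (nat_lit 684) (nat_lit 8772722263) (nat_lit 760) (nat_lit 483813369) (nat_lit 259) (nat_lit 5) (nat_lit 268) (nat_lit 5) (nat_lit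 269) (nat_lit 5) (nat_lit 449) (nat_lit 401) (nat_lit 290))))))) (XT.nd (nat_lit 780) (nat_lit 3420) (nat_lit 0) (XT.nd (nat_lit 390) (nat_lit 1976) (nat_lit 0) (XT.nd (nat_lit 156) (nat_lit 608) (nat_lit 0) (XT.nd (nat_lit 78) (nat_lit 684) (nat_lit 0) (XT.lf (nat_lit 0) (nat_lit 1526256057) (nat_lit 760) (nat_lit 3274502588) (nat_lit 76) (nat_lit 6244330175) (nat_lit 258) (nat_lit 5) (nat_lit 268) (nat_lit 5) (nat_lit 259) (nat_lit 5) (nat_lit 450) (nat_lit 401) (nat_lit 289)) (XT.lf (nat_lit 0) (nat_lit 2840533298) (nat_lit 684) (nat_lit 729403694) (nat_lit 760) (nat_lit 7594501781) (nat_lit 249) (nat_lit 5) (nat_lit 258) (nat_lit 5) (nat_lit 259) (nat_lit 5) (nat_lit 451) (nat_lit 401) (nat_lit 288))) (XT.nd (nat_lit 78) (nat_lit 608) (nat_lit 0) (XT.lf (nat_lit 0) (nat_lit 5680493311) (nat_lit 760) (nat_lit 2206765318) (nat_lit 76) (nat_lit 3398406482) (nat_lit 249) (nat_lit 5) (nat_lit 259) (nat_lit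 5) (nat_lit 250) (nat_lit 5) (nat_lit 452) (nat_lit 401) (nat_lit 287)) (XT.nd (nat_lit 78) (nat_lit 0) (nat_lit 0) (XT.lf (nat_lit 0) (nat_lit 4060639894) (nat_lit 608) (nat_lit 3785831173) (nat_lit 684) (nat_lit 3562589940) (nat_lit 241) (nat_lit 5) (nat_lit 249) (nat_lit 5) (nat_lit 250) (nat_lit 5) (nat_lit 453) (nat_lit 401) (nat_lit 286)) (XT.lf (nat_lit 0) (nat_lit 10055475590) (nat_lit 684) (nat_lit 1074717691) (nat_lit 76) (nat_lit 404746451) (nat_lit 241) (nat_lit 5) (nat_lit 250) (nat_lit 5) (nat_lit 242) (nat_lit 5) (nat_lit 454) (nat_lit 401) (nat_lit 285))))) (XT.nd (nat_lit 156) (nat_lit 608) (nat_lit 0) (XT.nd (nat_lit 78) (nat_lit 608) (nat_lit 0) (XT.lf (nat_lit 0) (nat_lit 679502561) (nat_lit 760) (nat_lit 6317733305) (nat_lit 76) (nat_lit 4665172232) (nat_lit 231) (nat_lit 5) (nat_lit 241) (nat_lit 5) (nat_lit 232) (nat_lit 5) (nat_lit 455) (nat_lit 401) (nat_lit 284)) (XT.lf (nat_lit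 0) (nat_lit 85603744) (nat_lit 608) (nat_lit 2766724590) (nat_lit 684) (nat_lit 8940100651) (nat_lit 223) (nat_lit 5) (nat_lit 231) (nat_lit 5) (nat_lit 232) (nat_lit 5) (nat_lit 456) (nat_lit 401) (nat_lit 283))) (XT.nd (nat_lit 78) (nat_lit 608) (nat_lit 0) (XT.lf (nat_lit 0) (nat_lit 5104183675) (nat_lit 684) (nat_lit 5252501693) (nat_lit 76) (nat_lit 1567661826) (nat_lit 223) (nat_lit 5) (nat_lit 232) (nat_lit 5) (nat_lit 224) (nat_lit 5) (nat_lit 457) (nat_lit 401) (nat_lit 282)) (XT.nd (nat_lit 78) (nat_lit 0) (nat_lit 0) (XT.lf (nat_lit 0) (nat_lit 1309553422) (nat_lit 608) (nat_lit 6101528018) (nat_lit 684) (nat_lit 4647630423) (nat_lit 215) (nat_lit 5) (nat_lit 223) (nat_lit 5) (nat_lit 224) (nat_lit 5) (nat_lit 458) (nat_lit 401) (nat_lit 281)) (XT.lf (nat_lit 0) (nat_lit 8053974373) (nat_lit 608) (nat_lit 1728769454) (nat_lit 684) (nat_lit 2412655507) (nat_lit 215) (nat_lit 5) (nat_lit 223) (nat_lit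 5) (nat_lit 224) (nat_lit 5) (nat_lit 459) (nat_lit 401) (nat_lit 280)))))) (XT.nd (nat_lit 390) (nat_lit 1672) (nat_lit 0) (XT.nd (nat_lit 156) (nat_lit 1140) (nat_lit 0) (XT.nd (nat_lit 78) (nat_lit 76) (nat_lit 0) (XT.lf (nat_lit 0) (nat_lit 2594767194) (nat_lit 532) (nat_lit 9625337084) (nat_lit 608) (nat_lit 114358863) (nat_lit 208) (nat_lit 5) (nat_lit 215) (nat_lit 5) (nat_lit 216) (nat_lit 5) (nat_lit 460) (nat_lit 401) (nat_lit 279)) (XT.lf (nat_lit 0) (nat_lit 2223842199) (nat_lit 608) (nat_lit 3000126319) (nat_lit 76) (nat_lit 7251594041) (nat_lit 207) (nat_lit 5) (nat_lit 215) (nat_lit 5) (nat_lit 208) (nat_lit 5) (nat_lit 461) (nat_lit 401) (nat_lit 278))) (XT.nd (nat_lit 78) (nat_lit 532) (nat_lit 0) (XT.lf (nat_lit 0) (nat_lit 3905001614) (nat_lit 608) (nat_lit 711708206) (nat_lit 684) (nat_lit 8002577781) (nat_lit 199) (nat_lit 5) (nat_lit 207) (nat_lit 5) (nat_lit 208) (nat_lit 5) (nat_lit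 462) (nat_lit 401) (nat_lit 277)) (XT.nd (nat_lit 78) (nat_lit 532) (nat_lit 0) (XT.lf (nat_lit 0) (nat_lit 7087201047) (nat_lit 684) (nat_lit 1821838024) (nat_lit 76) (nat_lit 3856260030) (nat_lit 199) (nat_lit 5) (nat_lit 208) (nat_lit 5) (nat_lit 200) (nat_lit 5) (nat_lit 463) (nat_lit 401) (nat_lit 276)) (XT.lf (nat_lit 0) (nat_lit 5253173109) (nat_lit 532) (nat_lit 4377297275) (nat_lit 608) (nat_lit 3283300222) (nat_lit 192) (nat_lit 5) (nat_lit 199) (nat_lit 5) (nat_lit 200) (nat_lit 5) (nat_lit 464) (nat_lit 401) (nat_lit 275))))) (XT.nd (nat_lit 234) (nat_lit 532) (nat_lit 0) (XT.nd (nat_lit 78) (nat_lit 1140) (nat_lit 0) (XT.lf (nat_lit 0) (nat_lit 12223201695) (nat_lit 608) (nat_lit 591886062) (nat_lit 76) (nat_lit 250158852) (nat_lit 192) (nat_lit 5) (nat_lit 200) (nat_lit 5) (nat_lit 193) (nat_lit 5) (nat_lit 465) (nat_lit 401) (nat_lit 274)) (XT.nd (nat_lit 78) (nat_lit 532) (nat_lit 0) (XT.lf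 (nat_lit 0) (nat_lit 1684004464) (nat_lit 608) (nat_lit 6572413412) (nat_lit 76) (nat_lit 4961975317) (nat_lit 184) (nat_lit 5) (nat_lit 192) (nat_lit 5) (nat_lit 185) (nat_lit 5) (nat_lit 466) (nat_lit 401) (nat_lit 273)) (XT.lf (nat_lit 0) (nat_lit 645647397) (nat_lit 532) (nat_lit 3596917237) (nat_lit 608) (nat_lit 9132068057) (nat_lit 177) (nat_lit 5) (nat_lit 184) (nat_lit 5) (nat_lit 185) (nat_lit 5) (nat_lit 467) (nat_lit 401) (nat_lit 272)))) (XT.nd (nat_lit 78) (nat_lit 532) (nat_lit 0) (XT.lf (nat_lit 0) (nat_lit 6889400106) (nat_lit 608) (nat_lit 5463217246) (nat_lit 76) (nat_lit 1180644012) (nat_lit 177) (nat_lit 5) (nat_lit 185) (nat_lit 5) (nat_lit 178) (nat_lit 5) (nat_lit 468) (nat_lit 401) (nat_lit 271)) (XT.nd (nat_lit 78) (nat_lit 0) (nat_lit 0) (XT.lf (nat_lit 0) (nat_lit 1930276698) (nat_lit 532) (nat_lit 7680742610) (nat_lit 608) (nat_lit 4083612703) (nat_lit 170) (nat_lit 5) (nat_lit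 177) (nat_lit 5) (nat_lit 178) (nat_lit 5) (nat_lit 469) (nat_lit 401) (nat_lit 270)) (XT.lf (nat_lit 0) (nat_lit 9526736680) (nat_lit 532) (nat_lit 2882650357) (nat_lit 608) (nat_lit 1449402926) (nat_lit 170) (nat_lit 5) (nat_lit 177) (nat_lit 5) (nat_lit 178) (nat_lit 5) (nat_lit 470) (nat_lit 401) (nat_lit 269))))))))
noncomputable def xc157 : XT := (XT.nd (nat_lit 1560) (nat_lit 2052) (nat_lit 0) (XT.nd (nat_lit 780) (nat_lit 1976) (nat_lit 0) (XT.nd (nat_lit 390) (nat_lit 1368) (nat_lit 0) (XT.nd (nat_lit 156) (nat_lit 912) (nat_lit 0) (XT.nd (nat_lit 78) (nat_lit 0) (nat_lit 0) (XT.lf (nat_lit 0) (nat_lit 1241519187) (nat_lit 532) (nat_lit 10774260358) (nat_lit 76) (nat_lit 2009891651) (nat_lit 163) (nat_lit 5) (nat_lit 170) (nat_lit 5) (nat_lit 164) (nat_lit 5) (nat_lit 471) (nat_lit 401) (nat_lit 268)) (XT.lf (nat_lit 0) (nat_lit 4001187217) (nat_lit 532) (nat_lit 3197837741) (nat_lit 76) (nat_lit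 6995992642) (nat_lit 163) (nat_lit 5) (nat_lit 170) (nat_lit 5) (nat_lit 164) (nat_lit 5) (nat_lit 472) (nat_lit 401) (nat_lit 267))) (XT.nd (nat_lit 78) (nat_lit 456) (nat_lit 0) (XT.lf (nat_lit 0) (nat_lit 4571526735) (nat_lit 456) (nat_lit 2260442042) (nat_lit 532) (nat_lit 7535469496) (nat_lit 157) (nat_lit 5) (nat_lit 163) (nat_lit 5) (nat_lit 164) (nat_lit 5) (nat_lit 473) (nat_lit 401) (nat_lit 266)) (XT.nd (nat_lit 78) (nat_lit 456) (nat_lit 0) (XT.lf (nat_lit 0) (nat_lit 9745354597) (nat_lit 532) (nat_lit 2040091427) (nat_lit 76) (nat_lit 2757347191) (nat_lit 157) (nat_lit 5) (nat_lit 164) (nat_lit 5) (nat_lit 158) (nat_lit 5) (nat_lit 474) (nat_lit 401) (nat_lit 265)) (XT.lf (nat_lit 0) (nat_lit 5915151971) (nat_lit 456) (nat_lit 6841856344) (nat_lit 532) (nat_lit 1963852458) (nat_lit 151) (nat_lit 5) (nat_lit 157) (nat_lit 5) (nat_lit 158) (nat_lit 5) (nat_lit 475) (nat_lit 401) (nat_lit 264)))))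 (XT.nd (nat_lit 156) (nat_lit 836) (nat_lit 0) (XT.nd (nat_lit 78) (nat_lit 456) (nat_lit 0) (XT.lf (nat_lit 0) (nat_lit 914712723) (nat_lit 532) (nat_lit 869530712) (nat_lit 76) (nat_lit 13118122109) (nat_lit 150) (nat_lit 5) (nat_lit 157) (nat_lit 5) (nat_lit 151) (nat_lit 5) (nat_lit 476) (nat_lit 401) (nat_lit 263)) (XT.lf (nat_lit 0) (nat_lit 3881124034) (nat_lit 532) (nat_lit 7818866153) (nat_lit 76) (nat_lit 3386124388) (nat_lit 144) (nat_lit 5) (nat_lit 151) (nat_lit 5) (nat_lit 145) (nat_lit 5) (nat_lit 477) (nat_lit 401) (nat_lit 262))) (XT.nd (nat_lit 78) (nat_lit 456) (nat_lit 0) (XT.lf (nat_lit 0) (nat_lit 278813483) (nat_lit 380) (nat_lit 6634595709) (nat_lit 456) (nat_lit 8360003582) (nat_lit 139) (nat_lit 5) (nat_lit 144) (nat_lit 5) (nat_lit 145) (nat_lit 5) (nat_lit 478) (nat_lit 401) (nat_lit 261)) (XT.nd (nat_lit 78) (nat_lit 456) (nat_lit 0) (XT.lf (nat_lit 0) (nat_lit 8626436334) (nat_lit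 380) (nat_lit 1419555131) (nat_lit 456) (nat_lit 5417677442) (nat_lit 139) (nat_lit 5) (nat_lit 144) (nat_lit 5) (nat_lit 145) (nat_lit 5) (nat_lit 479) (nat_lit 401) (nat_lit 260)) (XT.lf (nat_lit 0) (nat_lit 1459232038) (nat_lit 456) (nat_lit 11804188699) (nat_lit 532) (nat_lit 2393870420) (nat_lit 133) (nat_lit 5) (nat_lit 139) (nat_lit 5) (nat_lit 140) (nat_lit 5) (nat_lit 480) (nat_lit 401) (nat_lit 259)))))) (XT.nd (nat_lit 390) (nat_lit 1140) (nat_lit 0) (XT.nd (nat_lit 156) (nat_lit 380) (nat_lit 0) (XT.nd (nat_lit 78) (nat_lit 380) (nat_lit 0) (XT.lf (nat_lit 0) (nat_lit 724389703) (nat_lit 532) (nat_lit 5871670823) (nat_lit 76) (nat_lit 9257779749) (nat_lit 132) (nat_lit 5) (nat_lit 139) (nat_lit 5) (nat_lit 133) (nat_lit 5) (nat_lit 481) (nat_lit 401) (nat_lit 258)) (XT.lf (nat_lit 0) (nat_lit 2622212448) (nat_lit 380) (nat_lit 1255495466) (nat_lit 456) (nat_lit 12176205672) (nat_lit 127) (nat_lit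 5) (nat_lit 132) (nat_lit 5) (nat_lit 133) (nat_lit 5) (nat_lit 482) (nat_lit 401) (nat_lit 257))) (XT.nd (nat_lit 78) (nat_lit 380) (nat_lit 0) (XT.lf (nat_lit 0) (nat_lit 7148757380) (nat_lit 456) (nat_lit 4936780735) (nat_lit 76) (nat_lit 4171361480) (nat_lit 127) (nat_lit 5) (nat_lit 133) (nat_lit 5) (nat_lit 128) (nat_lit 5) (nat_lit 483) (nat_lit 401) (nat_lit 256)) (XT.nd (nat_lit 78) (nat_lit 0) (nat_lit 0) (XT.lf (nat_lit 0) (nat_lit 3751604516) (nat_lit 380) (nat_lit 6754320738) (nat_lit 456) (nat_lit 5957610561) (nat_lit 122) (nat_lit 5) (nat_lit 127) (nat_lit 5) (nat_lit 128) (nat_lit 5) (nat_lit 484) (nat_lit 401) (nat_lit 255)) (XT.lf (nat_lit 0) (nat_lit 12663468807) (nat_lit 380) (nat_lit 1288044129) (nat_lit 456) (nat_lit 2722370645) (nat_lit 122) (nat_lit 5) (nat_lit 127) (nat_lit 5) (nat_lit 128) (nat_lit 5) (nat_lit 485) (nat_lit 401) (nat_lit 254))))) (XT.nd (nat_lit 156) (nat_lit 684)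 (nat_lit 0) (XT.nd (nat_lit 78) (nat_lit 0) (nat_lit 0) (XT.lf (nat_lit 0) (nat_lit 618208065) (nat_lit 456) (nat_lit 12007272378) (nat_lit 76) (nat_lit 4261922865) (nat_lit 116) (nat_lit 5) (nat_lit 122) (nat_lit 5) (nat_lit 117) (nat_lit 5) (nat_lit 486) (nat_lit 401) (nat_lit 253)) (XT.lf (nat_lit 0) (nat_lit 4013184407) (nat_lit 456) (nat_lit 3145662000) (nat_lit 76) (nat_lit 9945510453) (nat_lit 116) (nat_lit 5) (nat_lit 122) (nat_lit 5) (nat_lit 117) (nat_lit 5) (nat_lit 487) (nat_lit 401) (nat_lit 252))) (XT.nd (nat_lit 78) (nat_lit 304) (nat_lit 0) (XT.lf (nat_lit 0) (nat_lit 5954491156) (nat_lit 380) (nat_lit 1548841600) (nat_lit 456) (nat_lit 9821775299) (nat_lit 111) (nat_lit 5) (nat_lit 116) (nat_lit 5) (nat_lit 117) (nat_lit 5) (nat_lit 488) (nat_lit 401) (nat_lit 251)) (XT.nd (nat_lit 78) (nat_lit 304) (nat_lit 0) (XT.lf (nat_lit 0) (nat_lit 11100321109) (nat_lit 456) (nat_lit 2314668052) (nat_lit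 76) (nat_lit 4134548313) (nat_lit 111) (nat_lit 5) (nat_lit 117) (nat_lit 5) (nat_lit 112) (nat_lit 5) (nat_lit 489) (nat_lit 401) (nat_lit 250)) (XT.lf (nat_lit 0) (nat_lit 6987244676) (nat_lit 304) (nat_lit 7826541287) (nat_lit 380) (nat_lit 2963782649) (nat_lit 107) (nat_lit 5) (nat_lit 111) (nat_lit 5) (nat_lit 112) (nat_lit 5) (nat_lit 490) (nat_lit 401) (nat_lit 249))))))) (XT.nd (nat_lit 780) (nat_lit 304) (nat_lit 0) (XT.nd (nat_lit 390) (nat_lit 988) (nat_lit 0) (XT.nd (nat_lit 156) (nat_lit 304) (nat_lit 0) (XT.nd (nat_lit 78) (nat_lit 380) (nat_lit 0) (XT.lf (nat_lit 0) (nat_lit 588187428) (nat_lit 380) (nat_lit 1523799123) (nat_lit 76) (nat_lit 15898009077) (nat_lit 106) (nat_lit 5) (nat_lit 111) (nat_lit 5) (nat_lit 107) (nat_lit 5) (nat_lit 491) (nat_lit 401) (nat_lit 248)) (XT.lf (nat_lit 0) (nat_lit 4237206812) (nat_lit 456) (nat_lit 10273373735) (nat_lit 76) (nat_lit 3734788568) (nat_lit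 101) (nat_lit 5) (nat_lit 107) (nat_lit 5) (nat_lit 102) (nat_lit 5) (nat_lit 492) (nat_lit 401) (nat_lit 247))) (XT.nd (nat_lit 78) (nat_lit 304) (nat_lit 0) (XT.lf (nat_lit 0) (nat_lit 7972723579) (nat_lit 456) (nat_lit 837268243) (nat_lit 76) (nat_lit 9675191480) (nat_lit 101) (nat_lit 5) (nat_lit 107) (nat_lit 5) (nat_lit 102) (nat_lit 5) (nat_lit 493) (nat_lit 401) (nat_lit 246)) (XT.nd (nat_lit 78) (nat_lit 0) (nat_lit 0) (XT.lf (nat_lit 0) (nat_lit 8888119257) (nat_lit 304) (nat_lit 2941987142) (nat_lit 380) (nat_lit 6898747759) (nat_lit 97) (nat_lit 5) (nat_lit 101) (nat_lit 5) (nat_lit 102) (nat_lit 5) (nat_lit 494) (nat_lit 401) (nat_lit 245)) (XT.lf (nat_lit 0) (nat_lit 15779568592) (nat_lit 380) (nat_lit 193800027) (nat_lit 76) (nat_lit 3003734610) (nat_lit 97) (nat_lit 5) (nat_lit 102) (nat_lit 5) (nat_lit 98) (nat_lit 5) (nat_lit 495) (nat_lit 401) (nat_lit 244))))) (XT.nd (nat_lit 156) (nat_lit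 304) (nat_lit 0) (XT.nd (nat_lit 78) (nat_lit 304) (nat_lit 0) (XT.lf (nat_lit 0) (nat_lit 643036845) (nat_lit 380) (nat_lit 9494555196) (nat_lit 76) (nat_lit 9091195307) (nat_lit 92) (nat_lit 5) (nat_lit 97) (nat_lit 5) (nat_lit 93) (nat_lit 5) (nat_lit 496) (nat_lit 401) (nat_lit 243)) (XT.lf (nat_lit 0) (nat_lit 345518616) (nat_lit 304) (nat_lit 4165429737) (nat_lit 380) (nat_lit 14974270444) (nat_lit 88) (nat_lit 5) (nat_lit 92) (nat_lit 5) (nat_lit 93) (nat_lit 5) (nat_lit 497) (nat_lit 401) (nat_lit 242))) (XT.nd (nat_lit 78) (nat_lit 304) (nat_lit 0) (XT.lf (nat_lit 0) (nat_lit 8522673643) (nat_lit 380) (nat_lit 9263205083) (nat_lit 76) (nat_lit 1959574208) (nat_lit 88) (nat_lit 5) (nat_lit 93) (nat_lit 5) (nat_lit 89) (nat_lit 5) (nat_lit 498) (nat_lit 401) (nat_lit 241)) (XT.nd (nat_lit 78) (nat_lit 0) (nat_lit 0) (XT.lf (nat_lit 0) (nat_lit 777879831) (nat_lit 304) (nat_lit 11859403604) (nat_lit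 380) (nat_lit 7373158428) (nat_lit 84) (nat_lit 5) (nat_lit 88) (nat_lit 5) (nat_lit 89) (nat_lit 5) (nat_lit 499) (nat_lit 401) (nat_lit 240)) (XT.lf (nat_lit 0) (nat_lit 11129897479) (nat_lit 304) (nat_lit 5756558249) (nat_lit 380) (nat_lit 3393232482) (nat_lit 84) (nat_lit 5) (nat_lit 88) (nat_lit 5) (nat_lit 89) (nat_lit 5) (nat_lit 500) (nat_lit 401) (nat_lit 239)))))) (XT.nd (nat_lit 51948) (nat_lit 0) (nat_lit 31540) (XT.nd (nat_lit 51714) (nat_lit 0) (nat_lit 32680) (XT.nd (nat_lit 51636) (nat_lit 0) (nat_lit 33896) (XT.lf (nat_lit 0) (nat_lit 658207427) (nat_lit 304) (nat_lit 19427522365) (nat_lit 76) (nat_lit 468493023) (nat_lit 80) (nat_lit 5) (nat_lit 84) (nat_lit 5) (nat_lit 81) (nat_lit 5) (nat_lit 501) (nat_lit 401) (nat_lit 238)) (XT.lf (nat_lit 0) (nat_lit 885845592) (nat_lit 0) (nat_lit 885845592) (nat_lit 1140) (nat_lit 1917504659) (nat_lit 526) (nat_lit 5) (nat_lit 526) (nat_lit 3) (nat_lit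 541) (nat_lit 3) (nat_lit 402) (nat_lit 402) (nat_lit 336))) (XT.nd (nat_lit 78) (nat_lit 1216) (nat_lit 0) (XT.lf (nat_lit 0) (nat_lit 5054090402) (nat_lit 1140) (nat_lit 2136978982) (nat_lit 1216) (nat_lit 230512005) (nat_lit 526) (nat_lit 5) (nat_lit 541) (nat_lit 3) (nat_lit 542) (nat_lit 5) (nat_lit 403) (nat_lit 402) (nat_lit 335)) (XT.nd (nat_lit 78) (nat_lit 1216) (nat_lit 0) (XT.lf (nat_lit 76) (nat_lit 1388356669) (nat_lit 0) (nat_lit 5188871413) (nat_lit 1216) (nat_lit 888791051) (nat_lit 527) (nat_lit 5) (nat_lit 526) (nat_lit 5) (nat_lit 542) (nat_lit 5) (nat_lit 404) (nat_lit 402) (nat_lit 334)) (XT.lf (nat_lit 0) (nat_lit 587607981) (nat_lit 1216) (nat_lit 2522666988) (nat_lit 1292) (nat_lit 4401492676) (nat_lit 510) (nat_lit 5) (nat_lit 526) (nat_lit 5) (nat_lit 527) (nat_lit 5) (nat_lit 405) (nat_lit 402) (nat_lit 333))))) (XT.nd (nat_lit 234) (nat_lit 1140) (nat_lit 0) (XT.nd (nat_lit 78)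 (nat_lit 0) (nat_lit 76) (XT.lf (nat_lit 76) (nat_lit 1091606583) (nat_lit 0) (nat_lit 959689299) (nat_lit 1292) (nat_lit 5507651421) (nat_lit 511) (nat_lit 5) (nat_lit 510) (nat_lit 5) (nat_lit 527) (nat_lit 5) (nat_lit 406) (nat_lit 402) (nat_lit 332)) (XT.nd (nat_lit 78) (nat_lit 0) (nat_lit 0) (XT.lf (nat_lit 0) (nat_lit 3532584610) (nat_lit 1216) (nat_lit 2823485130) (nat_lit 1292) (nat_lit 1251260655) (nat_lit 511) (nat_lit 5) (nat_lit 527) (nat_lit 5) (nat_lit 528) (nat_lit 5) (nat_lit 407) (nat_lit 402) (nat_lit 331)) (XT.lf (nat_lit 76) (nat_lit 877825711) (nat_lit 0) (nat_lit 4141723668) (nat_lit 1292) (nat_lit 2637636632) (nat_lit 512) (nat_lit 5) (nat_lit 511) (nat_lit 5) (nat_lit 528) (nat_lit 5) (nat_lit 408) (nat_lit 402) (nat_lit 330)))) (XT.nd (nat_lit 78) (nat_lit 1216) (nat_lit 0) (XT.lf (nat_lit 76) (nat_lit 4670992099) (nat_lit 0) (nat_lit 1848776939) (nat_lit 1292) (nat_lit 1188624748)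 (nat_lit 512) (nat_lit 5) (nat_lit 511) (nat_lit 5) (nat_lit 528) (nat_lit 5) (nat_lit 409) (nat_lit 402) (nat_lit 329)) (XT.nd (nat_lit 78) (nat_lit 0) (nat_lit 0) (XT.lf (nat_lit 0) (nat_lit 258882002) (nat_lit 1292) (nat_lit 6997488650) (nat_lit 1368) (nat_lit 504775666) (nat_lit 495) (nat_lit 5) (nat_lit 512) (nat_lit 5) (nat_lit 513) (nat_lit 5) (nat_lit 410) (nat_lit 402) (nat_lit 328)) (XT.lf (nat_lit 0) (nat_lit 1717852693) (nat_lit 1292) (nat_lit 3174086502) (nat_lit 1368) (nat_lit 2922912878) (nat_lit 495) (nat_lit 5) (nat_lit 512) (nat_lit 5) (nat_lit 513) (nat_lit 5) (nat_lit 411) (nat_lit 402) (nat_lit 327))))))))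
noncomputable def xc158 : XT := (XT.nd (nat_lit 1560) (nat_lit 11628) (nat_lit 0) (XT.nd (nat_lit 780) (nat_lit 4484) (nat_lit 0) (XT.nd (nat_lit 390) (nat_lit 1292) (nat_lit 0) (XT.nd (nat_lit 156) (nat_lit 1292) (nat_lit 0) (XT.nd (nat_lit 78) (nat_lit 0) (nat_lit 76) (XT.lf (nat_lit 76) (nat_lit 714367438) (nat_lit 0) (nat_lit 2462600477) (nat_lit 1368) (nat_lit 4693268152) (nat_lit 496) (nat_lit 5) (nat_lit 495) (nat_lit 5) (nat_lit 513) (nat_lit 5) (nat_lit 412) (nat_lit 402) (nat_lit 326)) (XT.lf (nat_lit 0) (nat_lit 4653740099) (nat_lit 1292) (nat_lit 3224341884) (nat_lit 1368) (nat_lit 48899232) (nat_lit 496) (nat_lit 5) (nat_lit 513) (nat_lit 5) (nat_lit 514) (nat_lit 5) (nat_lit 413) (nat_lit 402) (nat_lit 325))) (XT.nd (nat_lit 78) (nat_lit 1368) (nat_lit 0) (XT.lf (nat_lit 76) (nat_lit 758458400) (nat_lit 0) (nat_lit 5390405009) (nat_lit 1368) (nat_lit 1836244062) (nat_lit 497) (nat_lit 5) (nat_lit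 496) (nat_lit 5) (nat_lit 514) (nat_lit 5) (nat_lit 414) (nat_lit 402) (nat_lit 324)) (XT.nd (nat_lit 78) (nat_lit 1368) (nat_lit 0) (XT.lf (nat_lit 76) (nat_lit 4843763922) (nat_lit 0) (nat_lit 2819845162) (nat_lit 1368) (nat_lit 381014846) (nat_lit 497) (nat_lit 5) (nat_lit 496) (nat_lit 5) (nat_lit 514) (nat_lit 5) (nat_lit 415) (nat_lit 402) (nat_lit 323)) (XT.lf (nat_lit 76) (nat_lit 889052742) (nat_lit 0) (nat_lit 174048413) (nat_lit 1444) (nat_lit 7042622464) (nat_lit 479) (nat_lit 5) (nat_lit 478) (nat_lit 5) (nat_lit 497) (nat_lit 5) (nat_lit 416) (nat_lit 402) (nat_lit 322))))) (XT.nd (nat_lit 156) (nat_lit 1368) (nat_lit 0) (XT.nd (nat_lit 78) (nat_lit 0) (nat_lit 0) (XT.lf (nat_lit 0) (nat_lit 2538046149) (nat_lit 1368) (nat_lit 3103980374) (nat_lit 1444) (nat_lit 2525848242) (nat_lit 479) (nat_lit 5) (nat_lit 497) (nat_lit 5) (nat_lit 498) (nat_lit 5) (nat_lit 417) (nat_lit 402) (nat_lit 321))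 (XT.lf (nat_lit 76) (nat_lit 1082975911) (nat_lit 0) (nat_lit 2937335611) (nat_lit 1444) (nat_lit 4211421377) (nat_lit 480) (nat_lit 5) (nat_lit 479) (nat_lit 5) (nat_lit 498) (nat_lit 5) (nat_lit 418) (nat_lit 402) (nat_lit 320))) (XT.nd (nat_lit 78) (nat_lit 1368) (nat_lit 0) (XT.lf (nat_lit 76) (nat_lit 5374846194) (nat_lit 0) (nat_lit 148302440) (nat_lit 1444) (nat_lit 2773921028) (nat_lit 480) (nat_lit 5) (nat_lit 479) (nat_lit 5) (nat_lit 498) (nat_lit 5) (nat_lit 419) (nat_lit 402) (nat_lit 319)) (XT.nd (nat_lit 78) (nat_lit 1444) (nat_lit 0) (XT.lf (nat_lit 76) (nat_lit 1368122526) (nat_lit 0) (nat_lit 5685050987) (nat_lit 1444) (nat_lit 1310616631) (nat_lit 481) (nat_lit 5) (nat_lit 480) (nat_lit 5) (nat_lit 499) (nat_lit 5) (nat_lit 420) (nat_lit 402) (nat_lit 318)) (XT.lf (nat_lit 0) (nat_lit 171257309) (nat_lit 1444) (nat_lit 2671278574) (nat_lit 1520) (nat_lit 5589470571) (nat_lit 461) (nat_lit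 5) (nat_lit 480) (nat_lit 5) (nat_lit 481) (nat_lit 5) (nat_lit 421) (nat_lit 402) (nat_lit 317)))))) (XT.nd (nat_lit 390) (nat_lit 3192) (nat_lit 0) (XT.nd (nat_lit 156) (nat_lit 1368) (nat_lit 0) (XT.nd (nat_lit 78) (nat_lit 0) (nat_lit 0) (XT.lf (nat_lit 0) (nat_lit 1648572262) (nat_lit 1444) (nat_lit 6769682375) (nat_lit 1520) (nat_lit 83510606) (nat_lit 462) (nat_lit 5) (nat_lit 481) (nat_lit 5) (nat_lit 482) (nat_lit 5) (nat_lit 422) (nat_lit 402) (nat_lit 316)) (XT.lf (nat_lit 0) (nat_lit 3164309316) (nat_lit 1444) (nat_lit 2353269420) (nat_lit 1520) (nat_lit 3055181068) (nat_lit 462) (nat_lit 5) (nat_lit 481) (nat_lit 5) (nat_lit 482) (nat_lit 5) (nat_lit 423) (nat_lit 402) (nat_lit 315))) (XT.nd (nat_lit 78) (nat_lit 1368) (nat_lit 0) (XT.lf (nat_lit 76) (nat_lit 2158718387) (nat_lit 0) (nat_lit 2538214104) (nat_lit 1520) (nat_lit 3948528091) (nat_lit 463) (nat_lit 5) (nat_lit 462) (nat_lit 5) (nat_lit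 482) (nat_lit 5) (nat_lit 424) (nat_lit 402) (nat_lit 314)) (XT.nd (nat_lit 78) (nat_lit 1444) (nat_lit 0) (XT.lf (nat_lit 0) (nat_lit 6252353020) (nat_lit 1444) (nat_lit 1951334863) (nat_lit 76) (nat_lit 516102001) (nat_lit 463) (nat_lit 5) (nat_lit 482) (nat_lit 5) (nat_lit 464) (nat_lit 5) (nat_lit 425) (nat_lit 402) (nat_lit 313)) (XT.lf (nat_lit 0) (nat_lit 2671911144) (nat_lit 1444) (nat_lit 5174654971) (nat_lit 1520) (nat_lit 948903041) (nat_lit 444) (nat_lit 5) (nat_lit 463) (nat_lit 5) (nat_lit 464) (nat_lit 5) (nat_lit 426) (nat_lit 402) (nat_lit 312))))) (XT.nd (nat_lit 156) (nat_lit 1596) (nat_lit 0) (XT.nd (nat_lit 78) (nat_lit 1520) (nat_lit 0) (XT.lf (nat_lit 0) (nat_lit 579034179) (nat_lit 1520) (nat_lit 1483639029) (nat_lit 76) (nat_lit 6810189258) (nat_lit 443) (nat_lit 5) (nat_lit 463) (nat_lit 5) (nat_lit 444) (nat_lit 5) (nat_lit 427) (nat_lit 402) (nat_lit 311)) (XT.lf (nat_lit 0) (nat_lit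 2127699143) (nat_lit 1596) (nat_lit 5694515748) (nat_lit 76) (nat_lit 1129421893) (nat_lit 423) (nat_lit 5) (nat_lit 444) (nat_lit 5) (nat_lit 424) (nat_lit 5) (nat_lit 428) (nat_lit 402) (nat_lit 310))) (XT.nd (nat_lit 78) (nat_lit 1596) (nat_lit 0) (XT.lf (nat_lit 0) (nat_lit 3705655651) (nat_lit 1596) (nat_lit 954033414) (nat_lit 76) (nat_lit 4372346924) (nat_lit 423) (nat_lit 5) (nat_lit 444) (nat_lit 5) (nat_lit 424) (nat_lit 5) (nat_lit 429) (nat_lit 402) (nat_lit 309)) (XT.nd (nat_lit 78) (nat_lit 0) (nat_lit 0) (XT.lf (nat_lit 0) (nat_lit 3911651414) (nat_lit 1596) (nat_lit 1404050464) (nat_lit 1672) (nat_lit 3798346145) (nat_lit 402) (nat_lit 5) (nat_lit 423) (nat_lit 5) (nat_lit 424) (nat_lit 5) (nat_lit 430) (nat_lit 402) (nat_lit 308)) (XT.lf (nat_lit 0) (nat_lit 6952348552) (nat_lit 1672) (nat_lit 343778361) (nat_lit 76) (nat_lit 1901700546) (nat_lit 402) (nat_lit 5) (nat_lit 424) (nat_lit 5)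 (nat_lit 403) (nat_lit 5) (nat_lit 431) (nat_lit 402) (nat_lit 307))))))) (XT.nd (nat_lit 780) (nat_lit 4560) (nat_lit 0) (XT.nd (nat_lit 390) (nat_lit 2660) (nat_lit 0) (XT.nd (nat_lit 156) (nat_lit 912) (nat_lit 0) (XT.nd (nat_lit 78) (nat_lit 1824) (nat_lit 0) (XT.lf (nat_lit 0) (nat_lit 4642720360) (nat_lit 1672) (nat_lit 3994440517) (nat_lit 1748) (nat_lit 645827812) (nat_lit 380) (nat_lit 5) (nat_lit 402) (nat_lit 5) (nat_lit 403) (nat_lit 5) (nat_lit 432) (nat_lit 402) (nat_lit 306)) (XT.lf (nat_lit 0) (nat_lit 340778154) (nat_lit 1748) (nat_lit 612799433) (nat_lit 1824) (nat_lit 8416548014) (nat_lit 356) (nat_lit 5) (nat_lit 379) (nat_lit 5) (nat_lit 380) (nat_lit 5) (nat_lit 433) (nat_lit 402) (nat_lit 305))) (XT.nd (nat_lit 78) (nat_lit 912) (nat_lit 0) (XT.lf (nat_lit 0) (nat_lit 2602596647) (nat_lit 1824) (nat_lit 4018376069) (nat_lit 76) (nat_lit 2837435693) (nat_lit 356) (nat_lit 5) (nat_lit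 380) (nat_lit 5) (nat_lit 357) (nat_lit 5) (nat_lit 434) (nat_lit 402) (nat_lit 304)) (XT.nd (nat_lit 78) (nat_lit 0) (nat_lit 0) (XT.lf (nat_lit 0) (nat_lit 1081926792) (nat_lit 912) (nat_lit 3190716832) (nat_lit 988) (nat_lit 5276066024) (nat_lit 344) (nat_lit 5) (nat_lit 356) (nat_lit 5) (nat_lit 357) (nat_lit 5) (nat_lit 435) (nat_lit 402) (nat_lit 303)) (XT.lf (nat_lit 0) (nat_lit 5982528926) (nat_lit 988) (nat_lit 3325111825) (nat_lit 76) (nat_lit 333060869) (nat_lit 344) (nat_lit 5) (nat_lit 357) (nat_lit 5) (nat_lit 345) (nat_lit 5) (nat_lit 436) (nat_lit 402) (nat_lit 302))))) (XT.nd (nat_lit 156) (nat_lit 1748) (nat_lit 0) (XT.nd (nat_lit 78) (nat_lit 0) (nat_lit 0) (XT.lf (nat_lit 0) (nat_lit 1902268662) (nat_lit 912) (nat_lit 5835562588) (nat_lit 988) (nat_lit 1996490988) (nat_lit 332) (nat_lit 5) (nat_lit 344) (nat_lit 5) (nat_lit 345) (nat_lit 5) (nat_lit 437) (nat_lit 402) (nat_lit 301)) (XT.lf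 (nat_lit 0) (nat_lit 7258465318) (nat_lit 912) (nat_lit 2270126941) (nat_lit 988) (nat_lit 301228889) (nat_lit 332) (nat_lit 5) (nat_lit 344) (nat_lit 5) (nat_lit 345) (nat_lit 5) (nat_lit 438) (nat_lit 402) (nat_lit 300))) (XT.nd (nat_lit 78) (nat_lit 836) (nat_lit 0) (XT.lf (nat_lit 0) (nat_lit 1414775001) (nat_lit 912) (nat_lit 7134860473) (nat_lit 76) (nat_lit 1377310287) (nat_lit 320) (nat_lit 5) (nat_lit 332) (nat_lit 5) (nat_lit 321) (nat_lit 5) (nat_lit 439) (nat_lit 402) (nat_lit 299)) (XT.nd (nat_lit 78) (nat_lit 836) (nat_lit 0) (XT.lf (nat_lit 0) (nat_lit 3172084665) (nat_lit 912) (nat_lit 1766166442) (nat_lit 76) (nat_lit 5087513743) (nat_lit 320) (nat_lit 5) (nat_lit 332) (nat_lit 5) (nat_lit 321) (nat_lit 5) (nat_lit 440) (nat_lit 402) (nat_lit 298)) (XT.lf (nat_lit 0) (nat_lit 3738336111) (nat_lit 836) (nat_lit 1229507543) (nat_lit 912) (nat_lit 5158662551) (nat_lit 309) (nat_lit 5) (nat_lit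 320) (nat_lit 5) (nat_lit 321) (nat_lit 5) (nat_lit 441) (nat_lit 402) (nat_lit 297)))))) (XT.nd (nat_lit 390) (nat_lit 2204) (nat_lit 0) (XT.nd (nat_lit 156) (nat_lit 1596) (nat_lit 0) (XT.nd (nat_lit 78) (nat_lit 760) (nat_lit 0) (XT.lf (nat_lit 0) (nat_lit 6807337850) (nat_lit 912) (nat_lit 889698553) (nat_lit 76) (nat_lit 2532081297) (nat_lit 309) (nat_lit 5) (nat_lit 321) (nat_lit 5) (nat_lit 310) (nat_lit 5) (nat_lit 442) (nat_lit 402) (nat_lit 296)) (XT.lf (nat_lit 0) (nat_lit 4752452942) (nat_lit 760) (nat_lit 3949884357) (nat_lit 836) (nat_lit 1631081306) (nat_lit 299) (nat_lit 5) (nat_lit 309) (nat_lit 5) (nat_lit 310) (nat_lit 5) (nat_lit 443) (nat_lit 402) (nat_lit 295))) (XT.nd (nat_lit 78) (nat_lit 760) (nat_lit 0) (XT.lf (nat_lit 0) (nat_lit 58661823) (nat_lit 760) (nat_lit 120435843) (nat_lit 836) (nat_lit 10260968929) (nat_lit 288) (nat_lit 5) (nat_lit 298) (nat_lit 5) (nat_lit 299) (nat_lit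 5) (nat_lit 444) (nat_lit 402) (nat_lit 294)) (XT.nd (nat_lit 78) (nat_lit 760) (nat_lit 0) (XT.lf (nat_lit 0) (nat_lit 2046035659) (nat_lit 836) (nat_lit 4717883633) (nat_lit 76) (nat_lit 3783875535) (nat_lit 288) (nat_lit 5) (nat_lit 299) (nat_lit 5) (nat_lit 289) (nat_lit 5) (nat_lit 445) (nat_lit 402) (nat_lit 293)) (XT.lf (nat_lit 0) (nat_lit 1051419595) (nat_lit 760) (nat_lit 2887004493) (nat_lit 836) (nat_lit 6719501912) (nat_lit 278) (nat_lit 5) (nat_lit 288) (nat_lit 5) (nat_lit 289) (nat_lit 5) (nat_lit 446) (nat_lit 402) (nat_lit 292))))) (XT.nd (nat_lit 234) (nat_lit 1444) (nat_lit 0) (XT.nd (nat_lit 78) (nat_lit 760) (nat_lit 0) (XT.lf (nat_lit 0) (nat_lit 5888191060) (nat_lit 836) (nat_lit 3797439981) (nat_lit 76) (nat_lit 1084248542) (nat_lit 278) (nat_lit 5) (nat_lit 289) (nat_lit 5) (nat_lit 279) (nat_lit 5) (nat_lit 447) (nat_lit 402) (nat_lit 291)) (XT.nd (nat_lit 78) (nat_lit 0) (nat_lit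 0) (XT.lf (nat_lit 0) (nat_lit 2116114137) (nat_lit 760) (nat_lit 5774806547) (nat_lit 836) (nat_lit 2992882406) (nat_lit 268) (nat_lit 5) (nat_lit 278) (nat_lit 5) (nat_lit 279) (nat_lit 5) (nat_lit 448) (nat_lit 402) (nat_lit 290)) (XT.lf (nat_lit 0) (nat_lit 8179220757) (nat_lit 760) (nat_lit 1761315131) (nat_lit 836) (nat_lit 1059342557) (nat_lit 268) (nat_lit 5) (nat_lit 278) (nat_lit 5) (nat_lit 279) (nat_lit 5) (nat_lit 449) (nat_lit 402) (nat_lit 289)))) (XT.nd (nat_lit 78) (nat_lit 684) (nat_lit 0) (XT.lf (nat_lit 0) (nat_lit 918971291) (nat_lit 760) (nat_lit 7871305564) (nat_lit 76) (nat_lit 2327528010) (nat_lit 258) (nat_lit 5) (nat_lit 268) (nat_lit 5) (nat_lit 259) (nat_lit 5) (nat_lit 450) (nat_lit 402) (nat_lit 288)) (XT.nd (nat_lit 78) (nat_lit 684) (nat_lit 0) (XT.lf (nat_lit 0) (nat_lit 2935201495) (nat_lit 760) (nat_lit 1803564484) (nat_lit 76) (nat_lit 6498942518) (nat_lit 258) (nat_lit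 5) (nat_lit 268) (nat_lit 5) (nat_lit 259) (nat_lit 5) (nat_lit 451) (nat_lit 402) (nat_lit 287)) (XT.lf (nat_lit 0) (nat_lit 4423664040) (nat_lit 684) (nat_lit 578974042) (nat_lit 760) (nat_lit 6357163720) (nat_lit 249) (nat_lit 5) (nat_lit 258) (nat_lit 5) (nat_lit 259) (nat_lit 5) (nat_lit 452) (nat_lit 402) (nat_lit 286))))))))
noncomputable def xc159 : XT := (XT.nd (nat_lit 1638) (nat_lit 5016) (nat_lit 0) (XT.nd (nat_lit 780) (nat_lit 3344) (nat_lit 0) (XT.nd (nat_lit 390) (nat_lit 1216) (nat_lit 0) (XT.nd (nat_lit 156) (nat_lit 1368) (nat_lit 0) (XT.nd (nat_lit 78) (nat_lit 608) (nat_lit 0) (XT.lf (nat_lit 0) (nat_lit 7129763721) (nat_lit 760) (nat_lit 728180606) (nat_lit 76) (nat_lit 3626034895) (nat_lit 249) (nat_lit 5) (nat_lit 259) (nat_lit 5) (nat_lit 250) (nat_lit 5) (nat_lit 453) (nat_lit 402) (nat_lit 285)) (XT.lf (nat_lit 0) (nat_lit 5654554815) (nat_lit 608) (nat_lit 3668138261) (nat_lit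 684) (nat_lit 2287490770) (nat_lit 241) (nat_lit 5) (nat_lit 249) (nat_lit 5) (nat_lit 250) (nat_lit 5) (nat_lit 454) (nat_lit 402) (nat_lit 284))) (XT.nd (nat_lit 78) (nat_lit 684) (nat_lit 0) (XT.lf (nat_lit 0) (nat_lit 417602893) (nat_lit 684) (nat_lit 11136348788) (nat_lit 760) (nat_lit 185080170) (nat_lit 232) (nat_lit 5) (nat_lit 241) (nat_lit 5) (nat_lit 242) (nat_lit 5) (nat_lit 455) (nat_lit 402) (nat_lit 283)) (XT.nd (nat_lit 78) (nat_lit 608) (nat_lit 0) (XT.lf (nat_lit 0) (nat_lit 1981199269) (nat_lit 760) (nat_lit 4927921246) (nat_lit 76) (nat_lit 4960139872) (nat_lit 231) (nat_lit 5) (nat_lit 241) (nat_lit 5) (nat_lit 232) (nat_lit 5) (nat_lit 456) (nat_lit 402) (nat_lit 282)) (XT.lf (nat_lit 0) (nat_lit 1593507762) (nat_lit 608) (nat_lit 2588495999) (nat_lit 684) (nat_lit 7820199913) (nat_lit 223) (nat_lit 5) (nat_lit 231) (nat_lit 5) (nat_lit 232) (nat_lit 5) (nat_lit 457) (nat_lit 402) (nat_lit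 281))))) (XT.nd (nat_lit 156) (nat_lit 608) (nat_lit 0) (XT.nd (nat_lit 78) (nat_lit 608) (nat_lit 0) (XT.lf (nat_lit 0) (nat_lit 6455429414) (nat_lit 684) (nat_lit 3856817034) (nat_lit 76) (nat_lit 1824995318) (nat_lit 223) (nat_lit 5) (nat_lit 232) (nat_lit 5) (nat_lit 224) (nat_lit 5) (nat_lit 458) (nat_lit 402) (nat_lit 280)) (XT.lf (nat_lit 0) (nat_lit 2826605929) (nat_lit 608) (nat_lit 5967045493) (nat_lit 684) (nat_lit 3480950525) (nat_lit 215) (nat_lit 5) (nat_lit 223) (nat_lit 5) (nat_lit 224) (nat_lit 5) (nat_lit 459) (nat_lit 402) (nat_lit 279))) (XT.nd (nat_lit 78) (nat_lit 608) (nat_lit 0) (XT.lf (nat_lit 0) (nat_lit 9676682722) (nat_lit 608) (nat_lit 1511861426) (nat_lit 684) (nat_lit 1225974787) (nat_lit 215) (nat_lit 5) (nat_lit 223) (nat_lit 5) (nat_lit 224) (nat_lit 5) (nat_lit 460) (nat_lit 402) (nat_lit 278)) (XT.nd (nat_lit 78) (nat_lit 0) (nat_lit 0) (XT.lf (nat_lit 0) (nat_lit 1090976020)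 (nat_lit 608) (nat_lit 8442125317) (nat_lit 76) (nat_lit 3023381627) (nat_lit 207) (nat_lit 5) (nat_lit 215) (nat_lit 5) (nat_lit 208) (nat_lit 5) (nat_lit 461) (nat_lit 402) (nat_lit 277)) (XT.lf (nat_lit 0) (nat_lit 3450762403) (nat_lit 608) (nat_lit 1597768840) (nat_lit 76) (nat_lit 7652341992) (nat_lit 207) (nat_lit 5) (nat_lit 215) (nat_lit 5) (nat_lit 208) (nat_lit 5) (nat_lit 462) (nat_lit 402) (nat_lit 276)))))) (XT.nd (nat_lit 390) (nat_lit 1596) (nat_lit 0) (XT.nd (nat_lit 156) (nat_lit 1140) (nat_lit 0) (XT.nd (nat_lit 78) (nat_lit 0) (nat_lit 0) (XT.lf (nat_lit 0) (nat_lit 5435840863) (nat_lit 608) (nat_lit 441893496) (nat_lit 684) (nat_lit 6970024296) (nat_lit 199) (nat_lit 5) (nat_lit 207) (nat_lit 5) (nat_lit 208) (nat_lit 5) (nat_lit 463) (nat_lit 402) (nat_lit 275)) (XT.lf (nat_lit 0) (nat_lit 8376527985) (nat_lit 684) (nat_lit 412382942) (nat_lit 76) (nat_lit 4208212213) (nat_lit 199) (nat_lit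 5) (nat_lit 208) (nat_lit 5) (nat_lit 200) (nat_lit 5) (nat_lit 464) (nat_lit 402) (nat_lit 274))) (XT.nd (nat_lit 78) (nat_lit 608) (nat_lit 0) (XT.lf (nat_lit 0) (nat_lit 6794615968) (nat_lit 532) (nat_lit 4162871043) (nat_lit 608) (nat_lit 2191350975) (nat_lit 192) (nat_lit 5) (nat_lit 199) (nat_lit 5) (nat_lit 200) (nat_lit 5) (nat_lit 465) (nat_lit 402) (nat_lit 273)) (XT.nd (nat_lit 78) (nat_lit 0) (nat_lit 0) (XT.lf (nat_lit 0) (nat_lit 279811502) (nat_lit 608) (nat_lit 12469202177) (nat_lit 76) (nat_lit 554601035) (nat_lit 184) (nat_lit 5) (nat_lit 192) (nat_lit 5) (nat_lit 185) (nat_lit 5) (nat_lit 466) (nat_lit 402) (nat_lit 272)) (XT.lf (nat_lit 0) (nat_lit 2826930674) (nat_lit 608) (nat_lit 5268986193) (nat_lit 76) (nat_lit 5364169365) (nat_lit 184) (nat_lit 5) (nat_lit 192) (nat_lit 5) (nat_lit 185) (nat_lit 5) (nat_lit 467) (nat_lit 402) (nat_lit 271))))) (XT.nd (nat_lit 234) (nat_lit 532)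 (nat_lit 0) (XT.nd (nat_lit 78) (nat_lit 532) (nat_lit 0) (XT.lf (nat_lit 0) (nat_lit 2083995862) (nat_lit 532) (nat_lit 3340171135) (nat_lit 608) (nat_lit 8195543031) (nat_lit 177) (nat_lit 5) (nat_lit 184) (nat_lit 5) (nat_lit 185) (nat_lit 5) (nat_lit 468) (nat_lit 402) (nat_lit 270)) (XT.nd (nat_lit 78) (nat_lit 532) (nat_lit 0) (XT.lf (nat_lit 0) (nat_lit 8104526449) (nat_lit 608) (nat_lit 4155112183) (nat_lit 76) (nat_lit 1522270315) (nat_lit 177) (nat_lit 5) (nat_lit 185) (nat_lit 5) (nat_lit 178) (nat_lit 5) (nat_lit 469) (nat_lit 402) (nat_lit 269)) (XT.lf (nat_lit 0) (nat_lit 3376926841) (nat_lit 532) (nat_lit 7491668872) (nat_lit 608) (nat_lit 3078160173) (nat_lit 170) (nat_lit 5) (nat_lit 177) (nat_lit 5) (nat_lit 178) (nat_lit 5) (nat_lit 470) (nat_lit 402) (nat_lit 268)))) (XT.nd (nat_lit 78) (nat_lit 532) (nat_lit 0) (XT.lf (nat_lit 0) (nat_lit 11097707305) (nat_lit 532) (nat_lit 2604334158)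 (nat_lit 608) (nat_lit 412582373) (nat_lit 170) (nat_lit 5) (nat_lit 177) (nat_lit 5) (nat_lit 178) (nat_lit 5) (nat_lit 471) (nat_lit 402) (nat_lit 267)) (XT.nd (nat_lit 78) (nat_lit 0) (nat_lit 0) (XT.lf (nat_lit 0) (nat_lit 2308795622) (nat_lit 532) (nat_lit 9585068376) (nat_lit 76) (nat_lit 2391036683) (nat_lit 163) (nat_lit 5) (nat_lit 170) (nat_lit 5) (nat_lit 164) (nat_lit 5) (nat_lit 472) (nat_lit 402) (nat_lit 266)) (XT.lf (nat_lit 0) (nat_lit 5103216894) (nat_lit 532) (nat_lit 1884659997) (nat_lit 76) (nat_lit 7470174455) (nat_lit 163) (nat_lit 5) (nat_lit 170) (nat_lit 5) (nat_lit 164) (nat_lit 5) (nat_lit 473) (nat_lit 402) (nat_lit 265))))))) (XT.nd (nat_lit 780) (nat_lit 2280) (nat_lit 0) (XT.nd (nat_lit 390) (nat_lit 1292) (nat_lit 0) (XT.nd (nat_lit 156) (nat_lit 988) (nat_lit 0) (XT.nd (nat_lit 78) (nat_lit 0) (nat_lit 0) (XT.lf (nat_lit 0) (nat_lit 6031031674) (nat_lit 456) (nat_lit 1948425526)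 (nat_lit 532) (nat_lit 6654694731) (nat_lit 157) (nat_lit 5) (nat_lit 163) (nat_lit 5) (nat_lit 164) (nat_lit 5) (nat_lit 474) (nat_lit 402) (nat_lit 264)) (XT.lf (nat_lit 0) (nat_lit 10933564033) (nat_lit 532) (nat_lit 721687209) (nat_lit 76) (nat_lit 3158121863) (nat_lit 157) (nat_lit 5) (nat_lit 164) (nat_lit 5) (nat_lit 158) (nat_lit 5) (nat_lit 475) (nat_lit 402) (nat_lit 263))) (XT.nd (nat_lit 78) (nat_lit 532) (nat_lit 0) (XT.lf (nat_lit 0) (nat_lit 7383718912) (nat_lit 456) (nat_lit 6611022206) (nat_lit 532) (nat_lit 1000483128) (nat_lit 151) (nat_lit 5) (nat_lit 157) (nat_lit 5) (nat_lit 158) (nat_lit 5) (nat_lit 476) (nat_lit 402) (nat_lit 262)) (XT.nd (nat_lit 78) (nat_lit 0) (nat_lit 0) (XT.lf (nat_lit 0) (nat_lit 456127333) (nat_lit 456) (nat_lit 1449935725) (nat_lit 532) (nat_lit 13274502392) (nat_lit 144) (nat_lit 5) (nat_lit 150) (nat_lit 5) (nat_lit 151) (nat_lit 5) (nat_lit 477) (nat_lit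 402) (nat_lit 261)) (XT.lf (nat_lit 0) (nat_lit 4920836681) (nat_lit 532) (nat_lit 6629793864) (nat_lit 76) (nat_lit 3817585810) (nat_lit 144) (nat_lit 5) (nat_lit 151) (nat_lit 5) (nat_lit 145) (nat_lit 5) (nat_lit 478) (nat_lit 402) (nat_lit 260))))) (XT.nd (nat_lit 156) (nat_lit 912) (nat_lit 0) (XT.nd (nat_lit 78) (nat_lit 0) (nat_lit 0) (XT.lf (nat_lit 0) (nat_lit 1620987723) (nat_lit 380) (nat_lit 6382593386) (nat_lit 456) (nat_lit 7555890562) (nat_lit 139) (nat_lit 5) (nat_lit 144) (nat_lit 5) (nat_lit 145) (nat_lit 5) (nat_lit 479) (nat_lit 402) (nat_lit 259)) (XT.lf (nat_lit 0) (nat_lit 10109355227) (nat_lit 380) (nat_lit 1070795021) (nat_lit 456) (nat_lit 4573763254) (nat_lit 139) (nat_lit 5) (nat_lit 144) (nat_lit 5) (nat_lit 145) (nat_lit 5) (nat_lit 480) (nat_lit 402) (nat_lit 258))) (XT.nd (nat_lit 78) (nat_lit 456) (nat_lit 0) (XT.lf (nat_lit 0) (nat_lit 2806656846) (nat_lit 456) (nat_lit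 11647932049) (nat_lit 532) (nat_lit 1496973224) (nat_lit 133) (nat_lit 5) (nat_lit 139) (nat_lit 5) (nat_lit 140) (nat_lit 5) (nat_lit 481) (nat_lit 402) (nat_lit 257)) (XT.nd (nat_lit 78) (nat_lit 380) (nat_lit 0) (XT.lf (nat_lit 0) (nat_lit 1652979178) (nat_lit 532) (nat_lit 4684220980) (nat_lit 76) (nat_lit 9815091879) (nat_lit 132) (nat_lit 5) (nat_lit 139) (nat_lit 5) (nat_lit 133) (nat_lit 5) (nat_lit 482) (nat_lit 402) (nat_lit 256)) (XT.lf (nat_lit 0) (nat_lit 3970955199) (nat_lit 380) (nat_lit 888901423) (nat_lit 456) (nat_lit 11496707062) (nat_lit 127) (nat_lit 5) (nat_lit 132) (nat_lit 5) (nat_lit 133) (nat_lit 5) (nat_lit 483) (nat_lit 402) (nat_lit 255)))))) (XT.nd (nat_lit 390) (nat_lit 1444) (nat_lit 0) (XT.nd (nat_lit 156) (nat_lit 456) (nat_lit 0) (XT.nd (nat_lit 78) (nat_lit 380) (nat_lit 0) (XT.lf (nat_lit 0) (nat_lit 8181083264) (nat_lit 456) (nat_lit 3749061964) (nat_lit 76) (nat_lit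 4633775655) (nat_lit 127) (nat_lit 5) (nat_lit 133) (nat_lit 5) (nat_lit 128) (nat_lit 5) (nat_lit 484) (nat_lit 402) (nat_lit 254)) (XT.lf (nat_lit 0) (nat_lit 5104627477) (nat_lit 380) (nat_lit 6491626333) (nat_lit 456) (nat_lit 5178625295) (nat_lit 122) (nat_lit 5) (nat_lit 127) (nat_lit 5) (nat_lit 128) (nat_lit 5) (nat_lit 485) (nat_lit 402) (nat_lit 253))) (XT.nd (nat_lit 78) (nat_lit 456) (nat_lit 0) (XT.lf (nat_lit 0) (nat_lit 14169670409) (nat_lit 380) (nat_lit 923823816) (nat_lit 456) (nat_lit 1896291120) (nat_lit 122) (nat_lit 5) (nat_lit 127) (nat_lit 5) (nat_lit 128) (nat_lit 5) (nat_lit 486) (nat_lit 402) (nat_lit 252)) (XT.nd (nat_lit 78) (nat_lit 0) (nat_lit 0) (XT.lf (nat_lit 0) (nat_lit 1493243448) (nat_lit 456) (nat_lit 10976014628) (nat_lit 76) (nat_lit 4738335291) (nat_lit 116) (nat_lit 5) (nat_lit 122) (nat_lit 5) (nat_lit 117) (nat_lit 5) (nat_lit 487) (nat_lit 402) (nat_lit 251))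 (XT.lf (nat_lit 0) (nat_lit 4939204196) (nat_lit 456) (nat_lit 1962101517) (nat_lit 76) (nat_lit 10527924553) (nat_lit 116) (nat_lit 5) (nat_lit 122) (nat_lit 5) (nat_lit 117) (nat_lit 5) (nat_lit 488) (nat_lit 402) (nat_lit 250))))) (XT.nd (nat_lit 234) (nat_lit 760) (nat_lit 0) (XT.nd (nat_lit 78) (nat_lit 304) (nat_lit 0) (XT.lf (nat_lit 0) (nat_lit 7311854217) (nat_lit 380) (nat_lit 1178757532) (nat_lit 456) (nat_lit 9163961465) (nat_lit 111) (nat_lit 5) (nat_lit 116) (nat_lit 5) (nat_lit 117) (nat_lit 5) (nat_lit 489) (nat_lit 402) (nat_lit 249)) (XT.nd (nat_lit 78) (nat_lit 304) (nat_lit 0) (XT.lf (nat_lit 0) (nat_lit 12145676837) (nat_lit 456) (nat_lit 1132817995) (nat_lit 76) (nat_lit 4605279391) (nat_lit 111) (nat_lit 5) (nat_lit 117) (nat_lit 5) (nat_lit 112) (nat_lit 5) (nat_lit 490) (nat_lit 402) (nat_lit 248)) (XT.lf (nat_lit 0) (nat_lit 8347053097) (nat_lit 304) (nat_lit 7578135249) (nat_lit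 380) (nat_lit 2191347719) (nat_lit 107) (nat_lit 5) (nat_lit 111) (nat_lit 5) (nat_lit 112) (nat_lit 5) (nat_lit 491) (nat_lit 402) (nat_lit 247)))) (XT.nd (nat_lit 78) (nat_lit 684) (nat_lit 0) (XT.lf (nat_lit 0) (nat_lit 1404659558) (nat_lit 380) (nat_lit 347169781) (nat_lit 76) (nat_lit 16602001573) (nat_lit 106) (nat_lit 5) (nat_lit 111) (nat_lit 5) (nat_lit 107) (nat_lit 5) (nat_lit 492) (nat_lit 402) (nat_lit 246)) (XT.nd (nat_lit 78) (nat_lit 304) (nat_lit 0) (XT.lf (nat_lit 0) (nat_lit 5121279463) (nat_lit 456) (nat_lit 9266090861) (nat_lit 76) (nat_lit 4206654446) (nat_lit 101) (nat_lit 5) (nat_lit 107) (nat_lit 5) (nat_lit 102) (nat_lit 5) (nat_lit 493) (nat_lit 402) (nat_lit 245)) (XT.lf (nat_lit 0) (nat_lit 339408727) (nat_lit 304) (nat_lit 8578628395) (nat_lit 380) (nat_lit 9920872706) (nat_lit 97) (nat_lit 5) (nat_lit 101) (nat_lit 5) (nat_lit 102) (nat_lit 5) (nat_lit 494) (nat_lit 402) (nat_lit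 244))))))))
noncomputable def xc160 : XT := (XT.nd (nat_lit 53196) (nat_lit 0) (nat_lit 19760) (XT.nd (nat_lit 52416) (nat_lit 0) (nat_lit 29944) (XT.nd (nat_lit 390) (nat_lit 304) (nat_lit 0) (XT.nd (nat_lit 156) (nat_lit 380) (nat_lit 0) (XT.nd (nat_lit 78) (nat_lit 304) (nat_lit 0) (XT.lf (nat_lit 0) (nat_lit 10247030395) (nat_lit 304) (nat_lit 2595636547) (nat_lit 380) (nat_lit 6244990270) (nat_lit 97) (nat_lit 5) (nat_lit 101) (nat_lit 5) (nat_lit 102) (nat_lit 5) (nat_lit 495) (nat_lit 402) (nat_lit 243)) (XT.lf (nat_lit 0) (nat_lit 986131794) (nat_lit 304) (nat_lit 15878753516) (nat_lit 380) (nat_lit 2476115613) (nat_lit 93) (nat_lit 5) (nat_lit 97) (nat_lit 5) (nat_lit 98) (nat_lit 5) (nat_lit 496) (nat_lit 402) (nat_lit 242))) (XT.nd (nat_lit 78) (nat_lit 304) (nat_lit 0) (XT.lf (nat_lit 0) (nat_lit 1417053037) (nat_lit 380) (nat_lit 8510919379) (nat_lit 76) (nat_lit 9669927409) (nat_lit 92) (nat_lit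 5) (nat_lit 97) (nat_lit 5) (nat_lit 93) (nat_lit 5) (nat_lit 497) (nat_lit 402) (nat_lit 241)) (XT.nd (nat_lit 78) (nat_lit 0) (nat_lit 0) (XT.lf (nat_lit 0) (nat_lit 1518235338) (nat_lit 304) (nat_lit 3836732009) (nat_lit 380) (nat_lit 14504644374) (nat_lit 88) (nat_lit 5) (nat_lit 92) (nat_lit 5) (nat_lit 93) (nat_lit 5) (nat_lit 498) (nat_lit 402) (nat_lit 240)) (XT.lf (nat_lit 0) (nat_lit 9434769317) (nat_lit 380) (nat_lit 8293133122) (nat_lit 76) (nat_lit 2397395874) (nat_lit 88) (nat_lit 5) (nat_lit 93) (nat_lit 5) (nat_lit 89) (nat_lit 5) (nat_lit 499) (nat_lit 402) (nat_lit 239))))) (XT.nd (nat_lit 51792) (nat_lit 0) (nat_lit 32300) (XT.nd (nat_lit 78) (nat_lit 0) (nat_lit 0) (XT.lf (nat_lit 0) (nat_lit 1941172594) (nat_lit 304) (nat_lit 11683408564) (nat_lit 380) (nat_lit 6771152191) (nat_lit 84) (nat_lit 5) (nat_lit 88) (nat_lit 5) (nat_lit 89) (nat_lit 5) (nat_lit 500) (nat_lit 402) (nat_lit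 238)) (XT.lf (nat_lit 0) (nat_lit 12477725985) (nat_lit 304) (nat_lit 5466607932) (nat_lit 380) (nat_lit 2726323205) (nat_lit 84) (nat_lit 5) (nat_lit 88) (nat_lit 5) (nat_lit 89) (nat_lit 5) (nat_lit 501) (nat_lit 402) (nat_lit 237))) (XT.nd (nat_lit 78) (nat_lit 1292) (nat_lit 0) (XT.lf (nat_lit 0) (nat_lit 1635657039) (nat_lit 0) (nat_lit 1635657039) (nat_lit 1140) (nat_lit 461300238) (nat_lit 526) (nat_lit 5) (nat_lit 526) (nat_lit 3) (nat_lit 541) (nat_lit 3) (nat_lit 403) (nat_lit 403) (nat_lit 334)) (XT.nd (nat_lit 78) (nat_lit 0) (nat_lit 76) (XT.lf (nat_lit 0) (nat_lit 507338187) (nat_lit 1292) (nat_lit 686489890) (nat_lit 1292) (nat_lit 6316609037) (nat_lit 509) (nat_lit 3) (nat_lit 526) (nat_lit 3) (nat_lit 526) (nat_lit 5) (nat_lit 404) (nat_lit 403) (nat_lit 333)) (XT.lf (nat_lit 0) (nat_lit 1941250103) (nat_lit 1216) (nat_lit 4659160473) (nat_lit 1292) (nat_lit 956289569) (nat_lit 510) (nat_lit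 5) (nat_lit 526) (nat_lit 5) (nat_lit 527) (nat_lit 5) (nat_lit 405) (nat_lit 403) (nat_lit 332)))))) (XT.nd (nat_lit 390) (nat_lit 1216) (nat_lit 0) (XT.nd (nat_lit 156) (nat_lit 1216) (nat_lit 0) (XT.nd (nat_lit 78) (nat_lit 0) (nat_lit 0) (XT.lf (nat_lit 0) (nat_lit 3379680914) (nat_lit 1216) (nat_lit 1069032869) (nat_lit 1292) (nat_lit 3155684222) (nat_lit 510) (nat_lit 5) (nat_lit 526) (nat_lit 5) (nat_lit 527) (nat_lit 5) (nat_lit 406) (nat_lit 403) (nat_lit 331)) (XT.lf (nat_lit 76) (nat_lit 2607630861) (nat_lit 0) (nat_lit 2220196904) (nat_lit 1292) (nat_lit 2825628976) (nat_lit 511) (nat_lit 5) (nat_lit 510) (nat_lit 5) (nat_lit 527) (nat_lit 5) (nat_lit 407) (nat_lit 403) (nat_lit 330))) (XT.nd (nat_lit 78) (nat_lit 1292) (nat_lit 0) (XT.lf (nat_lit 0) (nat_lit 6277203492) (nat_lit 1216) (nat_lit 1351600826) (nat_lit 1292) (nat_lit 75272373) (nat_lit 511) (nat_lit 5) (nat_lit 527) (nat_lit 5) (nat_lit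 528) (nat_lit 5) (nat_lit 408) (nat_lit 403) (nat_lit 329)) (XT.nd (nat_lit 78) (nat_lit 1292) (nat_lit 0) (XT.lf (nat_lit 76) (nat_lit 2413681271) (nat_lit 0) (nat_lit 5337653360) (nat_lit 1292) (nat_lit 4483911) (nat_lit 512) (nat_lit 5) (nat_lit 511) (nat_lit 5) (nat_lit 528) (nat_lit 5) (nat_lit 409) (nat_lit 403) (nat_lit 328)) (XT.lf (nat_lit 0) (nat_lit 1402208780) (nat_lit 1292) (nat_lit 1565403960) (nat_lit 1368) (nat_lit 4841322078) (nat_lit 494) (nat_lit 5) (nat_lit 511) (nat_lit 5) (nat_lit 512) (nat_lit 5) (nat_lit 410) (nat_lit 403) (nat_lit 327))))) (XT.nd (nat_lit 156) (nat_lit 1216) (nat_lit 0) (XT.nd (nat_lit 78) (nat_lit 0) (nat_lit 76) (XT.lf (nat_lit 76) (nat_lit 2297227887) (nat_lit 0) (nat_lit 521030016) (nat_lit 1368) (nat_lit 5045252698) (nat_lit 495) (nat_lit 5) (nat_lit 494) (nat_lit 5) (nat_lit 512) (nat_lit 5) (nat_lit 411) (nat_lit 403) (nat_lit 326)) (XT.lf (nat_lit 0) (nat_lit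 4253009147) (nat_lit 1292) (nat_lit 1693902956) (nat_lit 1368) (nat_lit 1972481141) (nat_lit 495) (nat_lit 5) (nat_lit 512) (nat_lit 5) (nat_lit 513) (nat_lit 5) (nat_lit 412) (nat_lit 403) (nat_lit 325))) (XT.nd (nat_lit 78) (nat_lit 1292) (nat_lit 0) (XT.lf (nat_lit 76) (nat_lit 2262164369) (nat_lit 0) (nat_lit 3440063583) (nat_lit 1368) (nat_lit 2274472656) (nat_lit 496) (nat_lit 5) (nat_lit 495) (nat_lit 5) (nat_lit 513) (nat_lit 5) (nat_lit 413) (nat_lit 403) (nat_lit 324)) (XT.nd (nat_lit 78) (nat_lit 1292) (nat_lit 0) (XT.lf (nat_lit 76) (nat_lit 6300467588) (nat_lit 0) (nat_lit 859470819) (nat_lit 1368) (nat_lit 875647643) (nat_lit 496) (nat_lit 5) (nat_lit 495) (nat_lit 5) (nat_lit 513) (nat_lit 5) (nat_lit 414) (nat_lit 403) (nat_lit 323)) (XT.lf (nat_lit 0) (nat_lit 539305244) (nat_lit 1368) (nat_lit 5776650684) (nat_lit 1444) (nat_lit 1779735326) (nat_lit 478) (nat_lit 5) (nat_lit 496) (nat_lit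 5) (nat_lit 497) (nat_lit 5) (nat_lit 415) (nat_lit 403) (nat_lit 322))))))) (XT.nd (nat_lit 780) (nat_lit 8892) (nat_lit 0) (XT.nd (nat_lit 390) (nat_lit 1292) (nat_lit 0) (XT.nd (nat_lit 156) (nat_lit 0) (nat_lit 76) (XT.nd (nat_lit 78) (nat_lit 0) (nat_lit 0) (XT.lf (nat_lit 0) (nat_lit 1957353900) (nat_lit 1368) (nat_lit 1711009997) (nat_lit 1444) (nat_lit 4488809273) (nat_lit 478) (nat_lit 5) (nat_lit 496) (nat_lit 5) (nat_lit 497) (nat_lit 5) (nat_lit 416) (nat_lit 403) (nat_lit 321)) (XT.lf (nat_lit 76) (nat_lit 2447971521) (nat_lit 0) (nat_lit 941389925) (nat_lit 1444) (nat_lit 4830831715) (nat_lit 479) (nat_lit 5) (nat_lit 478) (nat_lit 5) (nat_lit 497) (nat_lit 5) (nat_lit 417) (nat_lit 403) (nat_lit 320))) (XT.nd (nat_lit 78) (nat_lit 0) (nat_lit 0) (XT.lf (nat_lit 0) (nat_lit 4843747051) (nat_lit 1368) (nat_lit 1603567684) (nat_lit 1444) (nat_lit 1837304054) (nat_lit 479) (nat_lit 5) (nat_lit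 497) (nat_lit 5) (nat_lit 498) (nat_lit 5) (nat_lit 418) (nat_lit 403) (nat_lit 319)) (XT.nd (nat_lit 78) (nat_lit 0) (nat_lit 0) (XT.lf (nat_lit 76) (nat_lit 2656848172) (nat_lit 0) (nat_lit 3664673045) (nat_lit 1444) (nat_lit 2028945299) (nat_lit 480) (nat_lit 5) (nat_lit 479) (nat_lit 5) (nat_lit 498) (nat_lit 5) (nat_lit 419) (nat_lit 403) (nat_lit 318)) (XT.lf (nat_lit 76) (nat_lit 7004120317) (nat_lit 0) (nat_lit 806749589) (nat_lit 1444) (nat_lit 607140129) (nat_lit 480) (nat_lit 5) (nat_lit 479) (nat_lit 5) (nat_lit 498) (nat_lit 5) (nat_lit 420) (nat_lit 403) (nat_lit 317))))) (XT.nd (nat_lit 156) (nat_lit 0) (nat_lit 0) (XT.nd (nat_lit 78) (nat_lit 0) (nat_lit 0) (XT.lf (nat_lit 0) (nat_lit 836815734) (nat_lit 1444) (nat_lit 5536150188) (nat_lit 1520) (nat_lit 2113752055) (nat_lit 461) (nat_lit 5) (nat_lit 480) (nat_lit 5) (nat_lit 481) (nat_lit 5) (nat_lit 421) (nat_lit 403) (nat_lit 316)) (XT.lf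 (nat_lit 0) (nat_lit 2288517696) (nat_lit 1444) (nat_lit 1165144143) (nat_lit 1520) (nat_lit 5103336154) (nat_lit 461) (nat_lit 5) (nat_lit 480) (nat_lit 5) (nat_lit 481) (nat_lit 5) (nat_lit 422) (nat_lit 403) (nat_lit 315))) (XT.nd (nat_lit 78) (nat_lit 0) (nat_lit 76) (XT.lf (nat_lit 76) (nat_lit 3316595874) (nat_lit 0) (nat_lit 446834007) (nat_lit 1520) (nat_lit 4865387959) (nat_lit 462) (nat_lit 5) (nat_lit 461) (nat_lit 5) (nat_lit 481) (nat_lit 5) (nat_lit 423) (nat_lit 403) (nat_lit 314)) (XT.nd (nat_lit 78) (nat_lit 0) (nat_lit 0) (XT.lf (nat_lit 0) (nat_lit 5265816120) (nat_lit 1444) (nat_lit 835868927) (nat_lit 1520) (nat_lit 2600446927) (nat_lit 462) (nat_lit 5) (nat_lit 481) (nat_lit 5) (nat_lit 482) (nat_lit 5) (nat_lit 424) (nat_lit 403) (nat_lit 313)) (XT.lf (nat_lit 76) (nat_lit 3756066097) (nat_lit 0) (nat_lit 3043151276) (nat_lit 1520) (nat_lit 1977692738) (nat_lit 463) (nat_lit 5) (nat_lit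 462) (nat_lit 5) (nat_lit 482) (nat_lit 5) (nat_lit 425) (nat_lit 403) (nat_lit 312)))))) (XT.nd (nat_lit 390) (nat_lit 4408) (nat_lit 0) (XT.nd (nat_lit 156) (nat_lit 3116) (nat_lit 0) (XT.nd (nat_lit 78) (nat_lit 1520) (nat_lit 0) (XT.lf (nat_lit 0) (nat_lit 8343476003) (nat_lit 1444) (nat_lit 423124486) (nat_lit 76) (nat_lit 86996266) (nat_lit 463) (nat_lit 5) (nat_lit 482) (nat_lit 5) (nat_lit 464) (nat_lit 5) (nat_lit 426) (nat_lit 403) (nat_lit 311)) (XT.lf (nat_lit 0) (nat_lit 996505119) (nat_lit 1520) (nat_lit 4655663585) (nat_lit 76) (nat_lit 3279083478) (nat_lit 443) (nat_lit 5) (nat_lit 463) (nat_lit 5) (nat_lit 444) (nat_lit 5) (nat_lit 427) (nat_lit 403) (nat_lit 310))) (XT.nd (nat_lit 78) (nat_lit 1596) (nat_lit 0) (XT.lf (nat_lit 0) (nat_lit 40236945) (nat_lit 1520) (nat_lit 2464062973) (nat_lit 1596) (nat_lit 6506551789) (nat_lit 423) (nat_lit 5) (nat_lit 443) (nat_lit 5) (nat_lit 444) (nat_lit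 5) (nat_lit 428) (nat_lit 403) (nat_lit 309)) (XT.nd (nat_lit 78) (nat_lit 1596) (nat_lit 0) (XT.lf (nat_lit 0) (nat_lit 4053947973) (nat_lit 1596) (nat_lit 4224485169) (nat_lit 76) (nat_lit 813391591) (nat_lit 423) (nat_lit 5) (nat_lit 444) (nat_lit 5) (nat_lit 424) (nat_lit 5) (nat_lit 429) (nat_lit 403) (nat_lit 308)) (XT.lf (nat_lit 0) (nat_lit 587454105) (nat_lit 1596) (nat_lit 5042888455) (nat_lit 1672) (nat_lit 3544174741) (nat_lit 402) (nat_lit 5) (nat_lit 423) (nat_lit 5) (nat_lit 424) (nat_lit 5) (nat_lit 430) (nat_lit 403) (nat_lit 307))))) (XT.nd (nat_lit 234) (nat_lit 2660) (nat_lit 0) (XT.nd (nat_lit 78) (nat_lit 1748) (nat_lit 0) (XT.lf (nat_lit 0) (nat_lit 5532531857) (nat_lit 1596) (nat_lit 1710048630) (nat_lit 1672) (nat_lit 2016211782) (nat_lit 402) (nat_lit 5) (nat_lit 423) (nat_lit 5) (nat_lit 424) (nat_lit 5) (nat_lit 431) (nat_lit 403) (nat_lit 306)) (XT.nd (nat_lit 78) (nat_lit 76)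 (nat_lit 0) (XT.lf (nat_lit 0) (nat_lit 1216266796) (nat_lit 1672) (nat_lit 7666123723) (nat_lit 1748) (nat_lit 462470234) (nat_lit 380) (nat_lit 5) (nat_lit 402) (nat_lit 5) (nat_lit 403) (nat_lit 5) (nat_lit 432) (nat_lit 403) (nat_lit 305)) (XT.lf (nat_lit 0) (nat_lit 1120745169) (nat_lit 1748) (nat_lit 3163437091) (nat_lit 76) (nat_lit 5148074231) (nat_lit 379) (nat_lit 5) (nat_lit 402) (nat_lit 5) (nat_lit 380) (nat_lit 5) (nat_lit 433) (nat_lit 403) (nat_lit 304)))) (XT.nd (nat_lit 78) (nat_lit 912) (nat_lit 0) (XT.lf (nat_lit 0) (nat_lit 1902654897) (nat_lit 1748) (nat_lit 816218168) (nat_lit 1824) (nat_lit 6802690853) (nat_lit 356) (nat_lit 5) (nat_lit 379) (nat_lit 5) (nat_lit 380) (nat_lit 5) (nat_lit 434) (nat_lit 403) (nat_lit 303)) (XT.nd (nat_lit 78) (nat_lit 912) (nat_lit 0) (XT.lf (nat_lit 0) (nat_lit 4365416002) (nat_lit 1824) (nat_lit 2537697972) (nat_lit 76) (nat_lit 2709227925) (nat_lit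 356) (nat_lit 5) (nat_lit 380) (nat_lit 5) (nat_lit 357) (nat_lit 5) (nat_lit 435) (nat_lit 403) (nat_lit 302)) (XT.lf (nat_lit 0) (nat_lit 2654340910) (nat_lit 912) (nat_lit 3391047213) (nat_lit 988) (nat_lit 3659550541) (nat_lit 344) (nat_lit 5) (nat_lit 356) (nat_lit 5) (nat_lit 357) (nat_lit 5) (nat_lit 436) (nat_lit 403) (nat_lit 301))))))))
noncomputable def xc161 : XT := (XT.nd (nat_lit 1560) (nat_lit 6080) (nat_lit 0) (XT.nd (nat_lit 780) (nat_lit 4332) (nat_lit 0) (XT.nd (nat_lit 390) (nat_lit 2432) (nat_lit 0) (XT.nd (nat_lit 156) (nat_lit 912) (nat_lit 0) (XT.nd (nat_lit 78) (nat_lit 912) (nat_lit 0) (XT.lf (nat_lit 0) (nat_lit 7755518009) (nat_lit 988) (nat_lit 1836312973) (nat_lit 76) (nat_lit 207638152) (nat_lit 344) (nat_lit 5) (nat_lit 357) (nat_lit 5) (nat_lit 345) (nat_lit 5) (nat_lit 437) (nat_lit 403) (nat_lit 300)) (XT.lf (nat_lit 0) (nat_lit 3485382880) (nat_lit 912) (nat_lit 6038156709)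 (nat_lit 988) (nat_lit 371889521) (nat_lit 332) (nat_lit 5) (nat_lit 344) (nat_lit 5) (nat_lit 345) (nat_lit 5) (nat_lit 438) (nat_lit 403) (nat_lit 299))) (XT.nd (nat_lit 78) (nat_lit 836) (nat_lit 0) (XT.lf (nat_lit 0) (nat_lit 1307267058) (nat_lit 988) (nat_lit 1083688862) (nat_lit 76) (nat_lit 7602368493) (nat_lit 331) (nat_lit 5) (nat_lit 344) (nat_lit 5) (nat_lit 332) (nat_lit 5) (nat_lit 439) (nat_lit 403) (nat_lit 298)) (XT.nd (nat_lit 78) (nat_lit 0) (nat_lit 0) (XT.lf (nat_lit 0) (nat_lit 3031495795) (nat_lit 912) (nat_lit 5717487806) (nat_lit 76) (nat_lit 1343827434) (nat_lit 320) (nat_lit 5) (nat_lit 332) (nat_lit 5) (nat_lit 321) (nat_lit 5) (nat_lit 440) (nat_lit 403) (nat_lit 297)) (XT.lf (nat_lit 0) (nat_lit 4792806058) (nat_lit 912) (nat_lit 272009499) (nat_lit 76) (nat_lit 5129431606) (nat_lit 320) (nat_lit 5) (nat_lit 332) (nat_lit 5) (nat_lit 321) (nat_lit 5) (nat_lit 441) (nat_lit 403)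 (nat_lit 296))))) (XT.nd (nat_lit 156) (nat_lit 836) (nat_lit 0) (XT.nd (nat_lit 78) (nat_lit 760) (nat_lit 0) (XT.lf (nat_lit 0) (nat_lit 5332520734) (nat_lit 836) (nat_lit 1271289665) (nat_lit 912) (nat_lit 3693623743) (nat_lit 309) (nat_lit 5) (nat_lit 320) (nat_lit 5) (nat_lit 321) (nat_lit 5) (nat_lit 442) (nat_lit 403) (nat_lit 295)) (XT.lf (nat_lit 0) (nat_lit 621374272) (nat_lit 760) (nat_lit 7832515543) (nat_lit 836) (nat_lit 1948749205) (nat_lit 299) (nat_lit 5) (nat_lit 309) (nat_lit 5) (nat_lit 310) (nat_lit 5) (nat_lit 443) (nat_lit 403) (nat_lit 294))) (XT.nd (nat_lit 78) (nat_lit 836) (nat_lit 0) (XT.lf (nat_lit 0) (nat_lit 6358214643) (nat_lit 760) (nat_lit 4004812102) (nat_lit 836) (nat_lit 146491172) (nat_lit 299) (nat_lit 5) (nat_lit 309) (nat_lit 5) (nat_lit 310) (nat_lit 5) (nat_lit 444) (nat_lit 403) (nat_lit 293)) (XT.nd (nat_lit 78) (nat_lit 0) (nat_lit 0) (XT.lf (nat_lit 0) (nat_lit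 1581190813) (nat_lit 760) (nat_lit 79320629) (nat_lit 836) (nat_lit 8957996114) (nat_lit 288) (nat_lit 5) (nat_lit 298) (nat_lit 5) (nat_lit 299) (nat_lit 5) (nat_lit 445) (nat_lit 403) (nat_lit 292)) (XT.lf (nat_lit 0) (nat_lit 3536088145) (nat_lit 836) (nat_lit 3291228033) (nat_lit 76) (nat_lit 3901663935) (nat_lit 288) (nat_lit 5) (nat_lit 299) (nat_lit 5) (nat_lit 289) (nat_lit 5) (nat_lit 446) (nat_lit 403) (nat_lit 291)))))) (XT.nd (nat_lit 390) (nat_lit 2052) (nat_lit 0) (XT.nd (nat_lit 156) (nat_lit 1520) (nat_lit 0) (XT.nd (nat_lit 78) (nat_lit 0) (nat_lit 0) (XT.lf (nat_lit 0) (nat_lit 2583454594) (nat_lit 760) (nat_lit 2864265858) (nat_lit 836) (nat_lit 5393980986) (nat_lit 278) (nat_lit 5) (nat_lit 288) (nat_lit 5) (nat_lit 289) (nat_lit 5) (nat_lit 447) (nat_lit 403) (nat_lit 290)) (XT.lf (nat_lit 0) (nat_lit 7408945472) (nat_lit 836) (nat_lit 2363715087) (nat_lit 76) (nat_lit 1183799427) (nat_lit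 278) (nat_lit 5) (nat_lit 289) (nat_lit 5) (nat_lit 279) (nat_lit 5) (nat_lit 448) (nat_lit 403) (nat_lit 289))) (XT.nd (nat_lit 78) (nat_lit 760) (nat_lit 0) (XT.lf (nat_lit 0) (nat_lit 3658178051) (nat_lit 760) (nat_lit 5775779336) (nat_lit 836) (nat_lit 1639074872) (nat_lit 268) (nat_lit 5) (nat_lit 278) (nat_lit 5) (nat_lit 279) (nat_lit 5) (nat_lit 449) (nat_lit 403) (nat_lit 288)) (XT.nd (nat_lit 78) (nat_lit 684) (nat_lit 0) (XT.lf (nat_lit 0) (nat_lit 301411250) (nat_lit 836) (nat_lit 1380829769) (nat_lit 76) (nat_lit 9509706225) (nat_lit 267) (nat_lit 5) (nat_lit 278) (nat_lit 5) (nat_lit 268) (nat_lit 5) (nat_lit 450) (nat_lit 403) (nat_lit 287)) (XT.lf (nat_lit 0) (nat_lit 2288743185) (nat_lit 760) (nat_lit 6522429562) (nat_lit 76) (nat_lit 2501260667) (nat_lit 258) (nat_lit 5) (nat_lit 268) (nat_lit 5) (nat_lit 259) (nat_lit 5) (nat_lit 451) (nat_lit 403) (nat_lit 286))))) (XT.nd (nat_lit 156)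 (nat_lit 1368) (nat_lit 0) (XT.nd (nat_lit 78) (nat_lit 684) (nat_lit 0) (XT.lf (nat_lit 0) (nat_lit 4318800102) (nat_lit 760) (nat_lit 362868995) (nat_lit 76) (nat_lit 6753609698) (nat_lit 258) (nat_lit 5) (nat_lit 268) (nat_lit 5) (nat_lit 259) (nat_lit 5) (nat_lit 452) (nat_lit 403) (nat_lit 285)) (XT.lf (nat_lit 0) (nat_lit 5979188528) (nat_lit 684) (nat_lit 431943636) (nat_lit 760) (nat_lit 5149024317) (nat_lit 249) (nat_lit 5) (nat_lit 258) (nat_lit 5) (nat_lit 259) (nat_lit 5) (nat_lit 453) (nat_lit 403) (nat_lit 284))) (XT.nd (nat_lit 78) (nat_lit 760) (nat_lit 0) (XT.lf (nat_lit 0) (nat_lit 730426398) (nat_lit 608) (nat_lit 7830470227) (nat_lit 684) (nat_lit 3126332087) (nat_lit 241) (nat_lit 5) (nat_lit 249) (nat_lit 5) (nat_lit 250) (nat_lit 5) (nat_lit 454) (nat_lit 403) (nat_lit 283)) (XT.nd (nat_lit 78) (nat_lit 760) (nat_lit 0) (XT.lf (nat_lit 0) (nat_lit 7221607967) (nat_lit 608) (nat_lit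 3555601818) (nat_lit 684) (nat_lit 1039170066) (nat_lit 241) (nat_lit 5) (nat_lit 249) (nat_lit 5) (nat_lit 250) (nat_lit 5) (nat_lit 455) (nat_lit 403) (nat_lit 282)) (XT.lf (nat_lit 0) (nat_lit 1076543796) (nat_lit 760) (nat_lit 10060193877) (nat_lit 76) (nat_lit 811221023) (nat_lit 231) (nat_lit 5) (nat_lit 241) (nat_lit 5) (nat_lit 232) (nat_lit 5) (nat_lit 456) (nat_lit 403) (nat_lit 281))))))) (XT.nd (nat_lit 780) (nat_lit 3116) (nat_lit 0) (XT.nd (nat_lit 390) (nat_lit 1748) (nat_lit 0) (XT.nd (nat_lit 156) (nat_lit 608) (nat_lit 0) (XT.nd (nat_lit 78) (nat_lit 608) (nat_lit 0) (XT.lf (nat_lit 0) (nat_lit 3258911160) (nat_lit 760) (nat_lit 3569187549) (nat_lit 76) (nat_lit 5253175998) (nat_lit 231) (nat_lit 5) (nat_lit 241) (nat_lit 5) (nat_lit 232) (nat_lit 5) (nat_lit 457) (nat_lit 403) (nat_lit 280)) (XT.lf (nat_lit 0) (nat_lit 3073082591) (nat_lit 608) (nat_lit 2415772376) (nat_lit 684) (nat_lit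 6728331370) (nat_lit 223) (nat_lit 5) (nat_lit 231) (nat_lit 5) (nat_lit 232) (nat_lit 5) (nat_lit 458) (nat_lit 403) (nat_lit 279))) (XT.nd (nat_lit 78) (nat_lit 608) (nat_lit 0) (XT.lf (nat_lit 0) (nat_lit 7785193583) (nat_lit 684) (nat_lit 2491494038) (nat_lit 76) (nat_lit 2078700391) (nat_lit 223) (nat_lit 5) (nat_lit 232) (nat_lit 5) (nat_lit 224) (nat_lit 5) (nat_lit 459) (nat_lit 403) (nat_lit 278)) (XT.nd (nat_lit 78) (nat_lit 0) (nat_lit 0) (XT.lf (nat_lit 0) (nat_lit 4316107520) (nat_lit 608) (nat_lit 5839834033) (nat_lit 684) (nat_lit 2339850093) (nat_lit 215) (nat_lit 5) (nat_lit 223) (nat_lit 5) (nat_lit 224) (nat_lit 5) (nat_lit 460) (nat_lit 403) (nat_lit 277)) (XT.lf (nat_lit 0) (nat_lit 11275088408) (nat_lit 608) (nat_lit 1300380644) (nat_lit 684) (nat_lit 63514437) (nat_lit 215) (nat_lit 5) (nat_lit 223) (nat_lit 5) (nat_lit 224) (nat_lit 5) (nat_lit 461) (nat_lit 403) (nat_lit 276)))))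 (XT.nd (nat_lit 156) (nat_lit 1140) (nat_lit 0) (XT.nd (nat_lit 78) (nat_lit 0) (nat_lit 0) (XT.lf (nat_lit 0) (nat_lit 2272053736) (nat_lit 608) (nat_lit 7177281543) (nat_lit 76) (nat_lit 3334551289) (nat_lit 207) (nat_lit 5) (nat_lit 215) (nat_lit 5) (nat_lit 208) (nat_lit 5) (nat_lit 462) (nat_lit 403) (nat_lit 275)) (XT.lf (nat_lit 0) (nat_lit 4656305294) (nat_lit 608) (nat_lit 224149433) (nat_lit 76) (nat_lit 8051175136) (nat_lit 207) (nat_lit 5) (nat_lit 215) (nat_lit 5) (nat_lit 208) (nat_lit 5) (nat_lit 463) (nat_lit 403) (nat_lit 274))) (XT.nd (nat_lit 78) (nat_lit 532) (nat_lit 0) (XT.lf (nat_lit 0) (nat_lit 6940885262) (nat_lit 608) (nat_lit 177712456) (nat_lit 684) (nat_lit 5963130050) (nat_lit 199) (nat_lit 5) (nat_lit 207) (nat_lit 5) (nat_lit 208) (nat_lit 5) (nat_lit 464) (nat_lit 403) (nat_lit 273)) (XT.nd (nat_lit 78) (nat_lit 0) (nat_lit 0) (XT.lf (nat_lit 0) (nat_lit 981994534) (nat_lit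 532) (nat_lit 8671460645) (nat_lit 608) (nat_lit 3580912798) (nat_lit 192) (nat_lit 5) (nat_lit 199) (nat_lit 5) (nat_lit 200) (nat_lit 5) (nat_lit 465) (nat_lit 403) (nat_lit 272)) (XT.lf (nat_lit 0) (nat_lit 8311111321) (nat_lit 532) (nat_lit 3955882235) (nat_lit 608) (nat_lit 1122514354) (nat_lit 192) (nat_lit 5) (nat_lit 199) (nat_lit 5) (nat_lit 200) (nat_lit 5) (nat_lit 466) (nat_lit 403) (nat_lit 271)))))) (XT.nd (nat_lit 390) (nat_lit 1444) (nat_lit 0) (XT.nd (nat_lit 156) (nat_lit 1064) (nat_lit 0) (XT.nd (nat_lit 78) (nat_lit 0) (nat_lit 0) (XT.lf (nat_lit 0) (nat_lit 1372903929) (nat_lit 608) (nat_lit 11311845547) (nat_lit 76) (nat_lit 862707312) (nat_lit 184) (nat_lit 5) (nat_lit 192) (nat_lit 5) (nat_lit 185) (nat_lit 5) (nat_lit 467) (nat_lit 403) (nat_lit 270)) (XT.lf (nat_lit 0) (nat_lit 3949642030) (nat_lit 608) (nat_lit 3995208394) (nat_lit 76) (nat_lit 5762643200) (nat_lit 184) (nat_lit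 5) (nat_lit 192) (nat_lit 5) (nat_lit 185) (nat_lit 5) (nat_lit 468) (nat_lit 403) (nat_lit 269))) (XT.nd (nat_lit 78) (nat_lit 532) (nat_lit 0) (XT.lf (nat_lit 0) (nat_lit 3495759898) (nat_lit 532) (nat_lit 3091053329) (nat_lit 608) (nat_lit 7283746099) (nat_lit 177) (nat_lit 5) (nat_lit 184) (nat_lit 5) (nat_lit 185) (nat_lit 5) (nat_lit 469) (nat_lit 403) (nat_lit 268)) (XT.nd (nat_lit 78) (nat_lit 532) (nat_lit 0) (XT.lf (nat_lit 0) (nat_lit 9302120958) (nat_lit 608) (nat_lit 2875883200) (nat_lit 76) (nat_lit 1858380295) (nat_lit 177) (nat_lit 5) (nat_lit 185) (nat_lit 5) (nat_lit 178) (nat_lit 5) (nat_lit 470) (nat_lit 403) (nat_lit 267)) (XT.lf (nat_lit 0) (nat_lit 4797833899) (nat_lit 532) (nat_lit 7312120675) (nat_lit 608) (nat_lit 2094812972) (nat_lit 170) (nat_lit 5) (nat_lit 177) (nat_lit 5) (nat_lit 178) (nat_lit 5) (nat_lit 471) (nat_lit 403) (nat_lit 266))))) (XT.nd (nat_lit 234) (nat_lit 912)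 (nat_lit 0) (XT.nd (nat_lit 78) (nat_lit 456) (nat_lit 0) (XT.lf (nat_lit 0) (nat_lit 595671779) (nat_lit 608) (nat_lit 1733828678) (nat_lit 76) (nat_lit 12046824283) (nat_lit 169) (nat_lit 5) (nat_lit 177) (nat_lit 5) (nat_lit 170) (nat_lit 5) (nat_lit 472) (nat_lit 403) (nat_lit 265)) (XT.nd (nat_lit 78) (nat_lit 0) (nat_lit 0) (XT.lf (nat_lit 0) (nat_lit 3356938135) (nat_lit 532) (nat_lit 8426637881) (nat_lit 76) (nat_lit 2766565220) (nat_lit 163) (nat_lit 5) (nat_lit 170) (nat_lit 5) (nat_lit 164) (nat_lit 5) (nat_lit 473) (nat_lit 403) (nat_lit 264)) (XT.lf (nat_lit 0) (nat_lit 6187601429) (nat_lit 532) (nat_lit 598694508) (nat_lit 76) (nat_lit 7940860104) (nat_lit 163) (nat_lit 5) (nat_lit 170) (nat_lit 5) (nat_lit 164) (nat_lit 5) (nat_lit 474) (nat_lit 403) (nat_lit 263)))) (XT.nd (nat_lit 78) (nat_lit 456) (nat_lit 0) (XT.lf (nat_lit 0) (nat_lit 7466602715) (nat_lit 456) (nat_lit 1644040175) (nat_lit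 532) (nat_lit 5796358259) (nat_lit 157) (nat_lit 5) (nat_lit 163) (nat_lit 5) (nat_lit 164) (nat_lit 5) (nat_lit 475) (nat_lit 403) (nat_lit 262)) (XT.nd (nat_lit 78) (nat_lit 0) (nat_lit 0) (XT.lf (nat_lit 0) (nat_lit 577884524) (nat_lit 456) (nat_lit 11532834002) (nat_lit 532) (nat_lit 2979358366) (nat_lit 151) (nat_lit 5) (nat_lit 157) (nat_lit 5) (nat_lit 158) (nat_lit 5) (nat_lit 476) (nat_lit 403) (nat_lit 261)) (XT.lf (nat_lit 0) (nat_lit 8829224798) (nat_lit 456) (nat_lit 6389848509) (nat_lit 532) (nat_lit 56780392) (nat_lit 151) (nat_lit 5) (nat_lit 157) (nat_lit 5) (nat_lit 158) (nat_lit 5) (nat_lit 477) (nat_lit 403) (nat_lit 260))))))))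
noncomputable def xc162 : XT := (XT.nd (nat_lit 1560) (nat_lit 380) (nat_lit 0) (XT.nd (nat_lit 780) (nat_lit 2204) (nat_lit 0) (XT.nd (nat_lit 390) (nat_lit 836) (nat_lit 0) (XT.nd (nat_lit 156) (nat_lit 836) (nat_lit 0) (XT.nd (nat_lit 78) (nat_lit 0) (nat_lit 0) (XT.lf (nat_lit 0) (nat_lit 1767475350) (nat_lit 456) (nat_lit 1117588525) (nat_lit 532) (nat_lit 12579924009) (nat_lit 144) (nat_lit 5) (nat_lit 150) (nat_lit 5) (nat_lit 151) (nat_lit 5) (nat_lit 478) (nat_lit 403) (nat_lit 259)) (XT.lf (nat_lit 0) (nat_lit 5943984446) (nat_lit 532) (nat_lit 5469185577) (nat_lit 76) (nat_lit 4243552033) (nat_lit 144) (nat_lit 5) (nat_lit 151) (nat_lit 5) (nat_lit 145) (nat_lit 5) (nat_lit 479) (nat_lit 403) (nat_lit 258))) (XT.nd (nat_lit 78) (nat_lit 456) (nat_lit 0) (XT.lf (nat_lit 0) (nat_lit 2938103719) (nat_lit 380) (nat_lit 6140489163) (nat_lit 456) (nat_lit 6773412552) (nat_lit 139) (nat_lit 5) (nat_lit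 144) (nat_lit 5) (nat_lit 145) (nat_lit 5) (nat_lit 480) (nat_lit 403) (nat_lit 257)) (XT.nd (nat_lit 78) (nat_lit 456) (nat_lit 0) (XT.lf (nat_lit 0) (nat_lit 11571048452) (nat_lit 380) (nat_lit 729704950) (nat_lit 456) (nat_lit 3749948499) (nat_lit 139) (nat_lit 5) (nat_lit 144) (nat_lit 5) (nat_lit 145) (nat_lit 5) (nat_lit 481) (nat_lit 403) (nat_lit 256)) (XT.lf (nat_lit 0) (nat_lit 4129841277) (nat_lit 456) (nat_lit 11503785323) (nat_lit 532) (nat_lit 618824834) (nat_lit 133) (nat_lit 5) (nat_lit 139) (nat_lit 5) (nat_lit 140) (nat_lit 5) (nat_lit 482) (nat_lit 403) (nat_lit 255))))) (XT.nd (nat_lit 156) (nat_lit 380) (nat_lit 0) (XT.nd (nat_lit 78) (nat_lit 380) (nat_lit 0) (XT.lf (nat_lit 0) (nat_lit 2564644761) (nat_lit 532) (nat_lit 3523692348) (nat_lit 76) (nat_lit 10369098960) (nat_lit 132) (nat_lit 5) (nat_lit 139) (nat_lit 5) (nat_lit 133) (nat_lit 5) (nat_lit 483) (nat_lit 403) (nat_lit 254))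 (XT.lf (nat_lit 0) (nat_lit 5296335953) (nat_lit 380) (nat_lit 530185841) (nat_lit 456) (nat_lit 10839460578) (nat_lit 127) (nat_lit 5) (nat_lit 132) (nat_lit 5) (nat_lit 133) (nat_lit 5) (nat_lit 484) (nat_lit 403) (nat_lit 253))) (XT.nd (nat_lit 78) (nat_lit 380) (nat_lit 0) (XT.lf (nat_lit 0) (nat_lit 9199521092) (nat_lit 456) (nat_lit 2587543409) (nat_lit 76) (nat_lit 5090721589) (nat_lit 127) (nat_lit 5) (nat_lit 133) (nat_lit 5) (nat_lit 128) (nat_lit 5) (nat_lit 485) (nat_lit 403) (nat_lit 252)) (XT.nd (nat_lit 78) (nat_lit 0) (nat_lit 0) (XT.lf (nat_lit 0) (nat_lit 6435084953) (nat_lit 380) (nat_lit 6239124354) (nat_lit 456) (nat_lit 4418936097) (nat_lit 122) (nat_lit 5) (nat_lit 127) (nat_lit 5) (nat_lit 128) (nat_lit 5) (nat_lit 486) (nat_lit 403) (nat_lit 251)) (XT.lf (nat_lit 0) (nat_lit 15657343158) (nat_lit 380) (nat_lit 567462542) (nat_lit 456) (nat_lit 1087881939) (nat_lit 122) (nat_lit 5)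 (nat_lit 127) (nat_lit 5) (nat_lit 128) (nat_lit 5) (nat_lit 487) (nat_lit 403) (nat_lit 250)))))) (XT.nd (nat_lit 390) (nat_lit 1064) (nat_lit 0) (XT.nd (nat_lit 156) (nat_lit 684) (nat_lit 0) (XT.nd (nat_lit 78) (nat_lit 0) (nat_lit 0) (XT.lf (nat_lit 0) (nat_lit 2352280965) (nat_lit 456) (nat_lit 9973501859) (nat_lit 76) (nat_lit 5209086204) (nat_lit 116) (nat_lit 5) (nat_lit 122) (nat_lit 5) (nat_lit 117) (nat_lit 5) (nat_lit 488) (nat_lit 403) (nat_lit 249)) (XT.lf (nat_lit 0) (nat_lit 5850902640) (nat_lit 456) (nat_lit 803271918) (nat_lit 76) (nat_lit 11107095012) (nat_lit 116) (nat_lit 5) (nat_lit 122) (nat_lit 5) (nat_lit 117) (nat_lit 5) (nat_lit 489) (nat_lit 403) (nat_lit 248))) (XT.nd (nat_lit 78) (nat_lit 304) (nat_lit 0) (XT.lf (nat_lit 0) (nat_lit 8648280880) (nat_lit 380) (nat_lit 816845466) (nat_lit 456) (nat_lit 8526162898) (nat_lit 111) (nat_lit 5) (nat_lit 116) (nat_lit 5) (nat_lit 117)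 (nat_lit 5) (nat_lit 490) (nat_lit 403) (nat_lit 247)) (XT.nd (nat_lit 78) (nat_lit 0) (nat_lit 0) (XT.lf (nat_lit 0) (nat_lit 25310710) (nat_lit 304) (nat_lit 13154821645) (nat_lit 380) (nat_lit 5045210643) (nat_lit 107) (nat_lit 5) (nat_lit 111) (nat_lit 5) (nat_lit 112) (nat_lit 5) (nat_lit 491) (nat_lit 403) (nat_lit 246)) (XT.lf (nat_lit 0) (nat_lit 9686681132) (nat_lit 304) (nat_lit 7340485282) (nat_lit 380) (nat_lit 1435760425) (nat_lit 107) (nat_lit 5) (nat_lit 111) (nat_lit 5) (nat_lit 112) (nat_lit 5) (nat_lit 492) (nat_lit 403) (nat_lit 245))))) (XT.nd (nat_lit 156) (nat_lit 608) (nat_lit 0) (XT.nd (nat_lit 78) (nat_lit 0) (nat_lit 0) (XT.lf (nat_lit 0) (nat_lit 816831669) (nat_lit 380) (nat_lit 1394685067) (nat_lit 456) (nat_lit 16493555557) (nat_lit 101) (nat_lit 5) (nat_lit 106) (nat_lit 5) (nat_lit 107) (nat_lit 5) (nat_lit 493) (nat_lit 403) (nat_lit 244)) (XT.lf (nat_lit 0) (nat_lit 5991994666)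 (nat_lit 456) (nat_lit 8285754904) (nat_lit 76) (nat_lit 4672535042) (nat_lit 101) (nat_lit 5) (nat_lit 107) (nat_lit 5) (nat_lit 102) (nat_lit 5) (nat_lit 494) (nat_lit 403) (nat_lit 243))) (XT.nd (nat_lit 78) (nat_lit 304) (nat_lit 0) (XT.lf (nat_lit 0) (nat_lit 1504185875) (nat_lit 304) (nat_lit 8352955534) (nat_lit 380) (nat_lit 9343081881) (nat_lit 97) (nat_lit 5) (nat_lit 101) (nat_lit 5) (nat_lit 102) (nat_lit 5) (nat_lit 495) (nat_lit 403) (nat_lit 242)) (XT.nd (nat_lit 78) (nat_lit 304) (nat_lit 0) (XT.lf (nat_lit 0) (nat_lit 11587254310) (nat_lit 304) (nat_lit 2258092975) (nat_lit 380) (nat_lit 5608901567) (nat_lit 97) (nat_lit 5) (nat_lit 101) (nat_lit 5) (nat_lit 102) (nat_lit 5) (nat_lit 496) (nat_lit 403) (nat_lit 241)) (XT.lf (nat_lit 0) (nat_lit 2146218553) (nat_lit 304) (nat_lit 15797050437) (nat_lit 380) (nat_lit 1769490072) (nat_lit 93) (nat_lit 5) (nat_lit 97) (nat_lit 5) (nat_lit 98)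 (nat_lit 5) (nat_lit 497) (nat_lit 403) (nat_lit 240))))))) (XT.nd (nat_lit 52572) (nat_lit 0) (nat_lit 28272) (XT.nd (nat_lit 52182) (nat_lit 0) (nat_lit 30780) (XT.nd (nat_lit 156) (nat_lit 0) (nat_lit 0) (XT.nd (nat_lit 78) (nat_lit 304) (nat_lit 0) (XT.lf (nat_lit 0) (nat_lit 2176992960) (nat_lit 380) (nat_lit 7553180325) (nat_lit 76) (nat_lit 10244821723) (nat_lit 92) (nat_lit 5) (nat_lit 97) (nat_lit 5) (nat_lit 93) (nat_lit 5) (nat_lit 498) (nat_lit 403) (nat_lit 239)) (XT.lf (nat_lit 0) (nat_lit 2669136713) (nat_lit 304) (nat_lit 3517459034) (nat_lit 380) (nat_lit 14055491318) (nat_lit 88) (nat_lit 5) (nat_lit 92) (nat_lit 5) (nat_lit 93) (nat_lit 5) (nat_lit 499) (nat_lit 403) (nat_lit 238))) (XT.nd (nat_lit 51870) (nat_lit 0) (nat_lit 31996) (XT.lf (nat_lit 0) (nat_lit 10336308034) (nat_lit 380) (nat_lit 7348522830) (nat_lit 76) (nat_lit 2828494678) (nat_lit 88) (nat_lit 5) (nat_lit 93) (nat_lit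 5) (nat_lit 89) (nat_lit 5) (nat_lit 500) (nat_lit 403) (nat_lit 237)) (XT.nd (nat_lit 78) (nat_lit 0) (nat_lit 0) (XT.lf (nat_lit 0) (nat_lit 953323726) (nat_lit 1292) (nat_lit 1412315561) (nat_lit 1292) (nat_lit 1412315561) (nat_lit 509) (nat_lit 3) (nat_lit 526) (nat_lit 3) (nat_lit 526) (nat_lit 5) (nat_lit 404) (nat_lit 404) (nat_lit 332)) (XT.lf (nat_lit 76) (nat_lit 728006469) (nat_lit 0) (nat_lit 2573967798) (nat_lit 1292) (nat_lit 4300983226) (nat_lit 510) (nat_lit 5) (nat_lit 509) (nat_lit 3) (nat_lit 526) (nat_lit 5) (nat_lit 405) (nat_lit 404) (nat_lit 331))))) (XT.nd (nat_lit 156) (nat_lit 1216) (nat_lit 0) (XT.nd (nat_lit 78) (nat_lit 0) (nat_lit 76) (XT.lf (nat_lit 76) (nat_lit 4371380829) (nat_lit 0) (nat_lit 336684936) (nat_lit 1292) (nat_lit 2943249180) (nat_lit 510) (nat_lit 5) (nat_lit 509) (nat_lit 3) (nat_lit 526) (nat_lit 5) (nat_lit 406) (nat_lit 404) (nat_lit 330)) (XT.lf (nat_lit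 76) (nat_lit 359989711) (nat_lit 0) (nat_lit 5761979641) (nat_lit 1292) (nat_lit 1579101747) (nat_lit 511) (nat_lit 5) (nat_lit 510) (nat_lit 5) (nat_lit 527) (nat_lit 5) (nat_lit 407) (nat_lit 404) (nat_lit 329))) (XT.nd (nat_lit 78) (nat_lit 1292) (nat_lit 0) (XT.lf (nat_lit 76) (nat_lit 4095954322) (nat_lit 0) (nat_lit 3457712934) (nat_lit 1292) (nat_lit 198389657) (nat_lit 511) (nat_lit 5) (nat_lit 510) (nat_lit 5) (nat_lit 527) (nat_lit 5) (nat_lit 408) (nat_lit 404) (nat_lit 328)) (XT.nd (nat_lit 78) (nat_lit 0) (nat_lit 76) (XT.lf (nat_lit 76) (nat_lit 76659046) (nat_lit 0) (nat_lit 1083629098) (nat_lit 1368) (nat_lit 6644316681) (nat_lit 494) (nat_lit 5) (nat_lit 493) (nat_lit 5) (nat_lit 511) (nat_lit 5) (nat_lit 409) (nat_lit 404) (nat_lit 327)) (XT.lf (nat_lit 0) (nat_lit 2543236605) (nat_lit 1292) (nat_lit 3953975740) (nat_lit 1368) (nat_lit 1360993479) (nat_lit 494) (nat_lit 5) (nat_lit 511)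 (nat_lit 5) (nat_lit 512) (nat_lit 5) (nat_lit 410) (nat_lit 404) (nat_lit 326)))))) (XT.nd (nat_lit 390) (nat_lit 1292) (nat_lit 0) (XT.nd (nat_lit 156) (nat_lit 1292) (nat_lit 0) (XT.nd (nat_lit 78) (nat_lit 0) (nat_lit 0) (XT.lf (nat_lit 0) (nat_lit 3928047281) (nat_lit 1292) (nat_lit 131050683) (nat_lit 1368) (nat_lit 3854319782) (nat_lit 494) (nat_lit 5) (nat_lit 511) (nat_lit 5) (nat_lit 512) (nat_lit 5) (nat_lit 411) (nat_lit 404) (nat_lit 325)) (XT.lf (nat_lit 76) (nat_lit 3799191291) (nat_lit 0) (nat_lit 1533703176) (nat_lit 1368) (nat_lit 2637015152) (nat_lit 495) (nat_lit 5) (nat_lit 494) (nat_lit 5) (nat_lit 512) (nat_lit 5) (nat_lit 412) (nat_lit 404) (nat_lit 324))) (XT.nd (nat_lit 78) (nat_lit 1368) (nat_lit 0) (XT.lf (nat_lit 0) (nat_lit 6741759642) (nat_lit 1292) (nat_lit 244058144) (nat_lit 1368) (nat_lit 1042217198) (nat_lit 495) (nat_lit 5) (nat_lit 512) (nat_lit 5) (nat_lit 513) (nat_lit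 5) (nat_lit 413) (nat_lit 404) (nat_lit 323)) (XT.nd (nat_lit 78) (nat_lit 0) (nat_lit 0) (XT.lf (nat_lit 0) (nat_lit 93881430) (nat_lit 1368) (nat_lit 4306520958) (nat_lit 1444) (nat_lit 3686857769) (nat_lit 477) (nat_lit 5) (nat_lit 495) (nat_lit 5) (nat_lit 496) (nat_lit 5) (nat_lit 414) (nat_lit 404) (nat_lit 322)) (XT.lf (nat_lit 0) (nat_lit 1455236522) (nat_lit 1368) (nat_lit 286332357) (nat_lit 1444) (nat_lit 6406535344) (nat_lit 477) (nat_lit 5) (nat_lit 495) (nat_lit 5) (nat_lit 496) (nat_lit 5) (nat_lit 415) (nat_lit 404) (nat_lit 321))))) (XT.nd (nat_lit 234) (nat_lit 1368) (nat_lit 0) (XT.nd (nat_lit 78) (nat_lit 0) (nat_lit 0) (XT.lf (nat_lit 0) (nat_lit 2845083529) (nat_lit 1368) (nat_lit 4371258272) (nat_lit 1444) (nat_lit 993818470) (nat_lit 478) (nat_lit 5) (nat_lit 496) (nat_lit 5) (nat_lit 497) (nat_lit 5) (nat_lit 416) (nat_lit 404) (nat_lit 320)) (XT.nd (nat_lit 78) (nat_lit 0) (nat_lit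 0) (XT.lf (nat_lit 0) (nat_lit 4246493311) (nat_lit 1368) (nat_lit 254126839) (nat_lit 1444) (nat_lit 3773181965) (nat_lit 478) (nat_lit 5) (nat_lit 496) (nat_lit 5) (nat_lit 497) (nat_lit 5) (nat_lit 417) (nat_lit 404) (nat_lit 319)) (XT.lf (nat_lit 76) (nat_lit 3978224419) (nat_lit 0) (nat_lit 1694416632) (nat_lit 1444) (nat_lit 2666161154) (nat_lit 479) (nat_lit 5) (nat_lit 478) (nat_lit 5) (nat_lit 497) (nat_lit 5) (nat_lit 418) (nat_lit 404) (nat_lit 318)))) (XT.nd (nat_lit 78) (nat_lit 1444) (nat_lit 0) (XT.lf (nat_lit 0) (nat_lit 7107999904) (nat_lit 1368) (nat_lit 133820220) (nat_lit 1444) (nat_lit 1163687628) (nat_lit 479) (nat_lit 5) (nat_lit 497) (nat_lit 5) (nat_lit 498) (nat_lit 5) (nat_lit 419) (nat_lit 404) (nat_lit 317)) (XT.nd (nat_lit 78) (nat_lit 0) (nat_lit 0) (XT.lf (nat_lit 0) (nat_lit 107729730) (nat_lit 1444) (nat_lit 4272142381) (nat_lit 1520) (nat_lit 4093470912) (nat_lit 460) (nat_lit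 5) (nat_lit 479) (nat_lit 5) (nat_lit 480) (nat_lit 5) (nat_lit 420) (nat_lit 404) (nat_lit 316)) (XT.lf (nat_lit 76) (nat_lit 54640098) (nat_lit 0) (nat_lit 1442506435) (nat_lit 1520) (nat_lit 7045766085) (nat_lit 461) (nat_lit 5) (nat_lit 460) (nat_lit 5) (nat_lit 480) (nat_lit 5) (nat_lit 421) (nat_lit 404) (nat_lit 315))))))))
noncomputable def xc163 : XT := (XT.nd (nat_lit 1560) (nat_lit 8056) (nat_lit 0) (XT.nd (nat_lit 780) (nat_lit 6232) (nat_lit 0) (XT.nd (nat_lit 390) (nat_lit 4484) (nat_lit 0) (XT.nd (nat_lit 156) (nat_lit 0) (nat_lit 0) (XT.nd (nat_lit 78) (nat_lit 0) (nat_lit 0) (XT.lf (nat_lit 0) (nat_lit 2925939541) (nat_lit 1444) (nat_lit 4117892796) (nat_lit 1520) (nat_lit 1569827265) (nat_lit 461) (nat_lit 5) (nat_lit 480) (nat_lit 5) (nat_lit 481) (nat_lit 5) (nat_lit 422) (nat_lit 404) (nat_lit 314)) (XT.lf (nat_lit 76) (nat_lit 314680451) (nat_lit 0) (nat_lit 4053403155) (nat_lit 1520)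 (nat_lit 4318059822) (nat_lit 462) (nat_lit 5) (nat_lit 461) (nat_lit 5) (nat_lit 481) (nat_lit 5) (nat_lit 423) (nat_lit 404) (nat_lit 313))) (XT.nd (nat_lit 78) (nat_lit 0) (nat_lit 76) (XT.lf (nat_lit 76) (nat_lit 4872066334) (nat_lit 0) (nat_lit 968214779) (nat_lit 1520) (nat_lit 2919788673) (nat_lit 462) (nat_lit 5) (nat_lit 461) (nat_lit 5) (nat_lit 481) (nat_lit 5) (nat_lit 424) (nat_lit 404) (nat_lit 312)) (XT.nd (nat_lit 78) (nat_lit 0) (nat_lit 0) (XT.lf (nat_lit 76) (nat_lit 659782626) (nat_lit 0) (nat_lit 6674707590) (nat_lit 1520) (nat_lit 1501149833) (nat_lit 463) (nat_lit 5) (nat_lit 462) (nat_lit 5) (nat_lit 482) (nat_lit 5) (nat_lit 425) (nat_lit 404) (nat_lit 311)) (XT.lf (nat_lit 76) (nat_lit 5325010316) (nat_lit 0) (nat_lit 3540551104) (nat_lit 1520) (nat_lit 47037141) (nat_lit 463) (nat_lit 5) (nat_lit 462) (nat_lit 5) (nat_lit 482) (nat_lit 5) (nat_lit 426) (nat_lit 404) (nat_lit 310)))))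 (XT.nd (nat_lit 156) (nat_lit 3040) (nat_lit 0) (XT.nd (nat_lit 78) (nat_lit 0) (nat_lit 76) (XT.lf (nat_lit 76) (nat_lit 1077571053) (nat_lit 0) (nat_lit 321583462) (nat_lit 1596) (nat_lit 7592134361) (nat_lit 443) (nat_lit 5) (nat_lit 442) (nat_lit 5) (nat_lit 463) (nat_lit 5) (nat_lit 427) (nat_lit 404) (nat_lit 309)) (XT.lf (nat_lit 0) (nat_lit 2892340918) (nat_lit 1520) (nat_lit 3226207209) (nat_lit 76) (nat_lit 2952640094) (nat_lit 443) (nat_lit 5) (nat_lit 463) (nat_lit 5) (nat_lit 444) (nat_lit 5) (nat_lit 428) (nat_lit 404) (nat_lit 308))) (XT.nd (nat_lit 78) (nat_lit 1596) (nat_lit 0) (XT.lf (nat_lit 0) (nat_lit 1553594426) (nat_lit 1520) (nat_lit 2849735218) (nat_lit 1596) (nat_lit 4749612291) (nat_lit 423) (nat_lit 5) (nat_lit 443) (nat_lit 5) (nat_lit 444) (nat_lit 5) (nat_lit 429) (nat_lit 404) (nat_lit 307)) (XT.nd (nat_lit 78) (nat_lit 1596) (nat_lit 0) (XT.lf (nat_lit 0) (nat_lit 5945575614)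 (nat_lit 1596) (nat_lit 2786559556) (nat_lit 76) (nat_lit 504189661) (nat_lit 423) (nat_lit 5) (nat_lit 444) (nat_lit 5) (nat_lit 424) (nat_lit 5) (nat_lit 430) (nat_lit 404) (nat_lit 306)) (XT.lf (nat_lit 0) (nat_lit 2111602613) (nat_lit 1596) (nat_lit 5416214025) (nat_lit 1672) (nat_lit 1793390309) (nat_lit 402) (nat_lit 5) (nat_lit 423) (nat_lit 5) (nat_lit 424) (nat_lit 5) (nat_lit 431) (nat_lit 404) (nat_lit 305)))))) (XT.nd (nat_lit 390) (nat_lit 2736) (nat_lit 0) (XT.nd (nat_lit 156) (nat_lit 1748) (nat_lit 0) (XT.nd (nat_lit 78) (nat_lit 1748) (nat_lit 0) (XT.lf (nat_lit 0) (nat_lit 7125927029) (nat_lit 1596) (nat_lit 2011374898) (nat_lit 1672) (nat_lit 270587069) (nat_lit 402) (nat_lit 5) (nat_lit 423) (nat_lit 5) (nat_lit 424) (nat_lit 5) (nat_lit 432) (nat_lit 404) (nat_lit 304)) (XT.lf (nat_lit 0) (nat_lit 1270594486) (nat_lit 1748) (nat_lit 6753436847) (nat_lit 76) (nat_lit 1472025625) (nat_lit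 379) (nat_lit 5) (nat_lit 402) (nat_lit 5) (nat_lit 380) (nat_lit 5) (nat_lit 433) (nat_lit 404) (nat_lit 303))) (XT.nd (nat_lit 78) (nat_lit 1748) (nat_lit 0) (XT.lf (nat_lit 0) (nat_lit 2845245796) (nat_lit 1748) (nat_lit 1722131055) (nat_lit 76) (nat_lit 5018463726) (nat_lit 379) (nat_lit 5) (nat_lit 402) (nat_lit 5) (nat_lit 380) (nat_lit 5) (nat_lit 434) (nat_lit 404) (nat_lit 302)) (XT.nd (nat_lit 78) (nat_lit 0) (nat_lit 0) (XT.lf (nat_lit 0) (nat_lit 3435384255) (nat_lit 1748) (nat_lit 1016282195) (nat_lit 1824) (nat_lit 5225761084) (nat_lit 356) (nat_lit 5) (nat_lit 379) (nat_lit 5) (nat_lit 380) (nat_lit 5) (nat_lit 435) (nat_lit 404) (nat_lit 301)) (XT.lf (nat_lit 0) (nat_lit 6097060561) (nat_lit 1824) (nat_lit 1088023616) (nat_lit 76) (nat_lit 2585638086) (nat_lit 356) (nat_lit 5) (nat_lit 380) (nat_lit 5) (nat_lit 357) (nat_lit 5) (nat_lit 436) (nat_lit 404) (nat_lit 300))))) (XT.nd (nat_lit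 156) (nat_lit 1824) (nat_lit 0) (XT.nd (nat_lit 78) (nat_lit 0) (nat_lit 0) (XT.lf (nat_lit 0) (nat_lit 4197984805) (nat_lit 912) (nat_lit 3590083118) (nat_lit 988) (nat_lit 2077573537) (nat_lit 344) (nat_lit 5) (nat_lit 356) (nat_lit 5) (nat_lit 357) (nat_lit 5) (nat_lit 437) (nat_lit 404) (nat_lit 299)) (XT.lf (nat_lit 0) (nat_lit 9499765725) (nat_lit 988) (nat_lit 378132380) (nat_lit 76) (nat_lit 84835961) (nat_lit 344) (nat_lit 5) (nat_lit 357) (nat_lit 5) (nat_lit 345) (nat_lit 5) (nat_lit 438) (nat_lit 404) (nat_lit 298))) (XT.nd (nat_lit 78) (nat_lit 836) (nat_lit 0) (XT.lf (nat_lit 0) (nat_lit 1204560224) (nat_lit 988) (nat_lit 5028824318) (nat_lit 76) (nat_lit 3827519019) (nat_lit 331) (nat_lit 5) (nat_lit 344) (nat_lit 5) (nat_lit 332) (nat_lit 5) (nat_lit 439) (nat_lit 404) (nat_lit 297)) (XT.nd (nat_lit 78) (nat_lit 0) (nat_lit 0) (XT.lf (nat_lit 0) (nat_lit 376993454) (nat_lit 836) (nat_lit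 2506820157) (nat_lit 912) (nat_lit 7277481878) (nat_lit 320) (nat_lit 5) (nat_lit 331) (nat_lit 5) (nat_lit 332) (nat_lit 5) (nat_lit 440) (nat_lit 404) (nat_lit 296)) (XT.lf (nat_lit 0) (nat_lit 4618870515) (nat_lit 912) (nat_lit 4332347100) (nat_lit 76) (nat_lit 1312044756) (nat_lit 320) (nat_lit 5) (nat_lit 332) (nat_lit 5) (nat_lit 321) (nat_lit 5) (nat_lit 441) (nat_lit 404) (nat_lit 295))))))) (XT.nd (nat_lit 780) (nat_lit 3344) (nat_lit 0) (XT.nd (nat_lit 390) (nat_lit 2280) (nat_lit 0) (XT.nd (nat_lit 156) (nat_lit 1596) (nat_lit 0) (XT.nd (nat_lit 78) (nat_lit 0) (nat_lit 0) (XT.lf (nat_lit 0) (nat_lit 1208488543) (nat_lit 836) (nat_lit 5184828577) (nat_lit 912) (nat_lit 3973868959) (nat_lit 309) (nat_lit 5) (nat_lit 320) (nat_lit 5) (nat_lit 321) (nat_lit 5) (nat_lit 442) (nat_lit 404) (nat_lit 294)) (XT.lf (nat_lit 0) (nat_lit 6899588201) (nat_lit 836) (nat_lit 1313239845) (nat_lit 912) (nat_lit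 2260179745) (nat_lit 309) (nat_lit 5) (nat_lit 320) (nat_lit 5) (nat_lit 321) (nat_lit 5) (nat_lit 443) (nat_lit 404) (nat_lit 293))) (XT.nd (nat_lit 78) (nat_lit 836) (nat_lit 0) (XT.lf (nat_lit 0) (nat_lit 2114892583) (nat_lit 760) (nat_lit 7965567871) (nat_lit 836) (nat_lit 500261680) (nat_lit 299) (nat_lit 5) (nat_lit 309) (nat_lit 5) (nat_lit 310) (nat_lit 5) (nat_lit 444) (nat_lit 404) (nat_lit 292)) (XT.nd (nat_lit 78) (nat_lit 760) (nat_lit 0) (XT.lf (nat_lit 0) (nat_lit 1291709443) (nat_lit 836) (nat_lit 2761395573) (nat_lit 76) (nat_lit 6637051271) (nat_lit 298) (nat_lit 5) (nat_lit 309) (nat_lit 5) (nat_lit 299) (nat_lit 5) (nat_lit 445) (nat_lit 404) (nat_lit 291)) (XT.lf (nat_lit 0) (nat_lit 3075094285) (nat_lit 760) (nat_lit 39073197) (nat_lit 836) (nat_lit 7687528784) (nat_lit 288) (nat_lit 5) (nat_lit 298) (nat_lit 5) (nat_lit 299) (nat_lit 5) (nat_lit 446) (nat_lit 404) (nat_lit 290)))))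 (XT.nd (nat_lit 156) (nat_lit 1520) (nat_lit 0) (XT.nd (nat_lit 78) (nat_lit 760) (nat_lit 0) (XT.lf (nat_lit 0) (nat_lit 4999670128) (nat_lit 836) (nat_lit 1895102119) (nat_lit 76) (nat_lit 4020172886) (nat_lit 288) (nat_lit 5) (nat_lit 299) (nat_lit 5) (nat_lit 289) (nat_lit 5) (nat_lit 447) (nat_lit 404) (nat_lit 289)) (XT.lf (nat_lit 0) (nat_lit 4087456065) (nat_lit 760) (nat_lit 2844197536) (nat_lit 836) (nat_lit 4098639764) (nat_lit 278) (nat_lit 5) (nat_lit 288) (nat_lit 5) (nat_lit 289) (nat_lit 5) (nat_lit 448) (nat_lit 404) (nat_lit 288))) (XT.nd (nat_lit 78) (nat_lit 1520) (nat_lit 0) (XT.lf (nat_lit 0) (nat_lit 8905635138) (nat_lit 836) (nat_lit 959938163) (nat_lit 76) (nat_lit 1282317702) (nat_lit 278) (nat_lit 5) (nat_lit 289) (nat_lit 5) (nat_lit 279) (nat_lit 5) (nat_lit 449) (nat_lit 404) (nat_lit 287)) (XT.nd (nat_lit 78) (nat_lit 760) (nat_lit 0) (XT.lf (nat_lit 0) (nat_lit 5172846447)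 (nat_lit 760) (nat_lit 5781218662) (nat_lit 836) (nat_lit 313085530) (nat_lit 268) (nat_lit 5) (nat_lit 278) (nat_lit 5) (nat_lit 279) (nat_lit 5) (nat_lit 450) (nat_lit 404) (nat_lit 286)) (XT.lf (nat_lit 0) (nat_lit 23255755) (nat_lit 684) (nat_lit 1598991884) (nat_lit 760) (nat_lit 9766556407) (nat_lit 258) (nat_lit 5) (nat_lit 267) (nat_lit 5) (nat_lit 268) (nat_lit 5) (nat_lit 451) (nat_lit 404) (nat_lit 285)))))) (XT.nd (nat_lit 390) (nat_lit 1976) (nat_lit 0) (XT.nd (nat_lit 156) (nat_lit 684) (nat_lit 0) (XT.nd (nat_lit 78) (nat_lit 684) (nat_lit 0) (XT.lf (nat_lit 0) (nat_lit 3633434300) (nat_lit 760) (nat_lit 5205067586) (nat_lit 76) (nat_lit 2673529341) (nat_lit 258) (nat_lit 5) (nat_lit 268) (nat_lit 5) (nat_lit 259) (nat_lit 5) (nat_lit 452) (nat_lit 404) (nat_lit 284)) (XT.lf (nat_lit 0) (nat_lit 1063240337) (nat_lit 684) (nat_lit 4622286333) (nat_lit 760) (nat_lit 5952191347) (nat_lit 249)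 (nat_lit 5) (nat_lit 258) (nat_lit 5) (nat_lit 259) (nat_lit 5) (nat_lit 453) (nat_lit 404) (nat_lit 283))) (XT.nd (nat_lit 78) (nat_lit 684) (nat_lit 0) (XT.lf (nat_lit 0) (nat_lit 7508856120) (nat_lit 684) (nat_lit 288131638) (nat_lit 760) (nat_lit 3968572781) (nat_lit 249) (nat_lit 5) (nat_lit 258) (nat_lit 5) (nat_lit 259) (nat_lit 5) (nat_lit 454) (nat_lit 404) (nat_lit 282)) (XT.nd (nat_lit 78) (nat_lit 76) (nat_lit 0) (XT.lf (nat_lit 0) (nat_lit 2170487922) (nat_lit 608) (nat_lit 7804825506) (nat_lit 684) (nat_lit 1920162141) (nat_lit 241) (nat_lit 5) (nat_lit 249) (nat_lit 5) (nat_lit 250) (nat_lit 5) (nat_lit 455) (nat_lit 404) (nat_lit 281)) (XT.lf (nat_lit 0) (nat_lit 181455270) (nat_lit 684) (nat_lit 3265360407) (nat_lit 76) (nat_lit 8580870133) (nat_lit 240) (nat_lit 5) (nat_lit 249) (nat_lit 5) (nat_lit 241) (nat_lit 5) (nat_lit 456) (nat_lit 404) (nat_lit 280))))) (XT.nd (nat_lit 234) (nat_lit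 684) (nat_lit 0) (XT.nd (nat_lit 78) (nat_lit 608) (nat_lit 0) (XT.lf (nat_lit 0) (nat_lit 2311886344) (nat_lit 760) (nat_lit 8832679987) (nat_lit 76) (nat_lit 1017478118) (nat_lit 231) (nat_lit 5) (nat_lit 241) (nat_lit 5) (nat_lit 232) (nat_lit 5) (nat_lit 457) (nat_lit 404) (nat_lit 279)) (XT.nd (nat_lit 78) (nat_lit 608) (nat_lit 0) (XT.lf (nat_lit 0) (nat_lit 4514100826) (nat_lit 760) (nat_lit 2239867606) (nat_lit 76) (nat_lit 5544546061) (nat_lit 231) (nat_lit 5) (nat_lit 241) (nat_lit 5) (nat_lit 232) (nat_lit 5) (nat_lit 458) (nat_lit 404) (nat_lit 278)) (XT.lf (nat_lit 0) (nat_lit 4526032781) (nat_lit 608) (nat_lit 2248311638) (nat_lit 684) (nat_lit 5663097401) (nat_lit 223) (nat_lit 5) (nat_lit 231) (nat_lit 5) (nat_lit 232) (nat_lit 5) (nat_lit 459) (nat_lit 404) (nat_lit 277)))) (XT.nd (nat_lit 78) (nat_lit 684) (nat_lit 0) (XT.lf (nat_lit 0) (nat_lit 9094930115) (nat_lit 684) (nat_lit 1154877037)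 (nat_lit 76) (nat_lit 2329045225) (nat_lit 223) (nat_lit 5) (nat_lit 232) (nat_lit 5) (nat_lit 224) (nat_lit 5) (nat_lit 460) (nat_lit 404) (nat_lit 276)) (XT.nd (nat_lit 78) (nat_lit 76) (nat_lit 0) (XT.lf (nat_lit 0) (nat_lit 5779755192) (nat_lit 608) (nat_lit 5719652273) (nat_lit 684) (nat_lit 1222941365) (nat_lit 215) (nat_lit 5) (nat_lit 223) (nat_lit 5) (nat_lit 224) (nat_lit 5) (nat_lit 461) (nat_lit 404) (nat_lit 275)) (XT.lf (nat_lit 0) (nat_lit 1061989956) (nat_lit 684) (nat_lit 24939984) (nat_lit 76) (nat_lit 11781792846) (nat_lit 214) (nat_lit 5) (nat_lit 223) (nat_lit 5) (nat_lit 215) (nat_lit 5) (nat_lit 462) (nat_lit 404) (nat_lit 274))))))))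
noncomputable def xc164 : XT := (XT.nd (nat_lit 1560) (nat_lit 3876) (nat_lit 0) (XT.nd (nat_lit 780) (nat_lit 2356) (nat_lit 0) (XT.nd (nat_lit 390) (nat_lit 1672) (nat_lit 0) (XT.nd (nat_lit 156) (nat_lit 532) (nat_lit 0) (XT.nd (nat_lit 78) (nat_lit 608) (nat_lit 0) (XT.lf (nat_lit 0) (nat_lit 3431737598) (nat_lit 608) (nat_lit 5942812680) (nat_lit 76) (nat_lit 3642209279) (nat_lit 207) (nat_lit 5) (nat_lit 215) (nat_lit 5) (nat_lit 208) (nat_lit 5) (nat_lit 463) (nat_lit 404) (nat_lit 273)) (XT.lf (nat_lit 0) (nat_lit 1137277783) (nat_lit 608) (nat_lit 4711932467) (nat_lit 684) (nat_lit 7318546938) (nat_lit 199) (nat_lit 5) (nat_lit 207) (nat_lit 5) (nat_lit 208) (nat_lit 5) (nat_lit 464) (nat_lit 404) (nat_lit 272))) (XT.nd (nat_lit 78) (nat_lit 532) (nat_lit 0) (XT.lf (nat_lit 0) (nat_lit 8341185783) (nat_lit 684) (nat_lit 4899986276) (nat_lit 76) (nat_lit 80086242) (nat_lit 199) (nat_lit 5) (nat_lit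 208) (nat_lit 5) (nat_lit 200) (nat_lit 5) (nat_lit 465) (nat_lit 404) (nat_lit 271)) (XT.nd (nat_lit 78) (nat_lit 0) (nat_lit 0) (XT.lf (nat_lit 0) (nat_lit 2355166811) (nat_lit 532) (nat_lit 8560334731) (nat_lit 608) (nat_lit 2561684347) (nat_lit 192) (nat_lit 5) (nat_lit 199) (nat_lit 5) (nat_lit 200) (nat_lit 5) (nat_lit 466) (nat_lit 404) (nat_lit 270)) (XT.lf (nat_lit 0) (nat_lit 9804326083) (nat_lit 532) (nat_lit 3756024265) (nat_lit 608) (nat_lit 75507086) (nat_lit 192) (nat_lit 5) (nat_lit 199) (nat_lit 5) (nat_lit 200) (nat_lit 5) (nat_lit 467) (nat_lit 404) (nat_lit 269))))) (XT.nd (nat_lit 156) (nat_lit 1064) (nat_lit 0) (XT.nd (nat_lit 78) (nat_lit 0) (nat_lit 0) (XT.lf (nat_lit 0) (nat_lit 2445629402) (nat_lit 608) (nat_lit 10185967239) (nat_lit 76) (nat_lit 1165442290) (nat_lit 184) (nat_lit 5) (nat_lit 192) (nat_lit 5) (nat_lit 185) (nat_lit 5) (nat_lit 468) (nat_lit 404) (nat_lit 268)) (XT.lf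 (nat_lit 0) (nat_lit 5053406826) (nat_lit 608) (nat_lit 2749509406) (nat_lit 76) (nat_lit 6157779232) (nat_lit 184) (nat_lit 5) (nat_lit 192) (nat_lit 5) (nat_lit 185) (nat_lit 5) (nat_lit 469) (nat_lit 404) (nat_lit 267))) (XT.nd (nat_lit 78) (nat_lit 532) (nat_lit 0) (XT.lf (nat_lit 0) (nat_lit 4882557178) (nat_lit 532) (nat_lit 2849220773) (nat_lit 608) (nat_lit 6395484273) (nat_lit 177) (nat_lit 5) (nat_lit 184) (nat_lit 5) (nat_lit 185) (nat_lit 5) (nat_lit 470) (nat_lit 404) (nat_lit 266)) (XT.nd (nat_lit 78) (nat_lit 532) (nat_lit 0) (XT.lf (nat_lit 0) (nat_lit 10483457476) (nat_lit 608) (nat_lit 1623970619) (nat_lit 76) (nat_lit 2189343146) (nat_lit 177) (nat_lit 5) (nat_lit 185) (nat_lit 5) (nat_lit 178) (nat_lit 5) (nat_lit 471) (nat_lit 404) (nat_lit 265)) (XT.lf (nat_lit 0) (nat_lit 6194606149) (nat_lit 532) (nat_lit 7141771802) (nat_lit 608) (nat_lit 1132373972) (nat_lit 170) (nat_lit 5) (nat_lit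 177) (nat_lit 5) (nat_lit 178) (nat_lit 5) (nat_lit 472) (nat_lit 404) (nat_lit 264)))))) (XT.nd (nat_lit 390) (nat_lit 912) (nat_lit 0) (XT.nd (nat_lit 156) (nat_lit 912) (nat_lit 0) (XT.nd (nat_lit 78) (nat_lit 456) (nat_lit 0) (XT.lf (nat_lit 0) (nat_lit 1579313864) (nat_lit 608) (nat_lit 479872178) (nat_lit 76) (nat_lit 12584820693) (nat_lit 169) (nat_lit 5) (nat_lit 177) (nat_lit 5) (nat_lit 170) (nat_lit 5) (nat_lit 473) (nat_lit 404) (nat_lit 263)) (XT.lf (nat_lit 0) (nat_lit 4387135914) (nat_lit 532) (nat_lit 7297466042) (nat_lit 76) (nat_lit 3136879034) (nat_lit 163) (nat_lit 5) (nat_lit 170) (nat_lit 5) (nat_lit 164) (nat_lit 5) (nat_lit 474) (nat_lit 404) (nat_lit 262))) (XT.nd (nat_lit 78) (nat_lit 456) (nat_lit 0) (XT.lf (nat_lit 0) (nat_lit 670383205) (nat_lit 456) (nat_lit 6589498330) (nat_lit 532) (nat_lit 7742453055) (nat_lit 157) (nat_lit 5) (nat_lit 163) (nat_lit 5) (nat_lit 164) (nat_lit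 5) (nat_lit 475) (nat_lit 404) (nat_lit 261)) (XT.nd (nat_lit 78) (nat_lit 456) (nat_lit 0) (XT.lf (nat_lit 0) (nat_lit 8879824050) (nat_lit 456) (nat_lit 1346899967) (nat_lit 532) (nat_lit 4959353506) (nat_lit 157) (nat_lit 5) (nat_lit 163) (nat_lit 5) (nat_lit 164) (nat_lit 5) (nat_lit 476) (nat_lit 404) (nat_lit 260)) (XT.lf (nat_lit 0) (nat_lit 1861826047) (nat_lit 456) (nat_lit 11417025838) (nat_lit 532) (nat_lit 2094129457) (nat_lit 151) (nat_lit 5) (nat_lit 157) (nat_lit 5) (nat_lit 158) (nat_lit 5) (nat_lit 477) (nat_lit 404) (nat_lit 259))))) (XT.nd (nat_lit 156) (nat_lit 380) (nat_lit 0) (XT.nd (nat_lit 78) (nat_lit 456) (nat_lit 0) (XT.lf (nat_lit 0) (nat_lit 856985385) (nat_lit 532) (nat_lit 5315237854) (nat_lit 76) (nat_lit 9390508214) (nat_lit 150) (nat_lit 5) (nat_lit 157) (nat_lit 5) (nat_lit 151) (nat_lit 5) (nat_lit 478) (nat_lit 404) (nat_lit 258)) (XT.lf (nat_lit 0) (nat_lit 3054483324)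 (nat_lit 456) (nat_lit 792625883) (nat_lit 532) (nat_lit 11908734686) (nat_lit 144) (nat_lit 5) (nat_lit 150) (nat_lit 5) (nat_lit 151) (nat_lit 5) (nat_lit 479) (nat_lit 404) (nat_lit 257))) (XT.nd (nat_lit 78) (nat_lit 380) (nat_lit 0) (XT.lf (nat_lit 0) (nat_lit 6951686734) (nat_lit 532) (nat_lit 4335581818) (nat_lit 76) (nat_lit 4664461624) (nat_lit 144) (nat_lit 5) (nat_lit 151) (nat_lit 5) (nat_lit 145) (nat_lit 5) (nat_lit 480) (nat_lit 404) (nat_lit 256)) (XT.nd (nat_lit 78) (nat_lit 0) (nat_lit 0) (XT.lf (nat_lit 0) (nat_lit 4231675715) (nat_lit 380) (nat_lit 5907900935) (nat_lit 456) (nat_lit 6011537646) (nat_lit 139) (nat_lit 5) (nat_lit 144) (nat_lit 5) (nat_lit 145) (nat_lit 5) (nat_lit 481) (nat_lit 404) (nat_lit 255)) (XT.lf (nat_lit 0) (nat_lit 13013067383) (nat_lit 380) (nat_lit 395869626) (nat_lit 456) (nat_lit 2945199275) (nat_lit 139) (nat_lit 5) (nat_lit 144) (nat_lit 5) (nat_lit 145)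 (nat_lit 5) (nat_lit 482) (nat_lit 404) (nat_lit 254))))))) (XT.nd (nat_lit 780) (nat_lit 1444) (nat_lit 0) (XT.nd (nat_lit 390) (nat_lit 1140) (nat_lit 0) (XT.nd (nat_lit 156) (nat_lit 760) (nat_lit 0) (XT.nd (nat_lit 78) (nat_lit 0) (nat_lit 0) (XT.lf (nat_lit 0) (nat_lit 238455418) (nat_lit 532) (nat_lit 11131343544) (nat_lit 76) (nat_lit 5190232672) (nat_lit 132) (nat_lit 5) (nat_lit 139) (nat_lit 5) (nat_lit 133) (nat_lit 5) (nat_lit 483) (nat_lit 404) (nat_lit 253)) (XT.lf (nat_lit 0) (nat_lit 3460426313) (nat_lit 532) (nat_lit 2388655764) (nat_lit 76) (nat_lit 10920296053) (nat_lit 132) (nat_lit 5) (nat_lit 139) (nat_lit 5) (nat_lit 133) (nat_lit 5) (nat_lit 484) (nat_lit 404) (nat_lit 252))) (XT.nd (nat_lit 78) (nat_lit 380) (nat_lit 0) (XT.lf (nat_lit 0) (nat_lit 6599842113) (nat_lit 380) (nat_lit 178915653) (nat_lit 456) (nat_lit 10203519468) (nat_lit 127) (nat_lit 5) (nat_lit 132) (nat_lit 5)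 (nat_lit 133) (nat_lit 5) (nat_lit 485) (nat_lit 404) (nat_lit 251)) (XT.nd (nat_lit 78) (nat_lit 380) (nat_lit 0) (XT.lf (nat_lit 0) (nat_lit 10205134123) (nat_lit 456) (nat_lit 1450809277) (nat_lit 76) (nat_lit 5542661377) (nat_lit 127) (nat_lit 5) (nat_lit 133) (nat_lit 5) (nat_lit 128) (nat_lit 5) (nat_lit 486) (nat_lit 404) (nat_lit 250)) (XT.lf (nat_lit 0) (nat_lit 7744452672) (nat_lit 380) (nat_lit 5996418850) (nat_lit 456) (nat_lit 3677574620) (nat_lit 122) (nat_lit 5) (nat_lit 127) (nat_lit 5) (nat_lit 128) (nat_lit 5) (nat_lit 487) (nat_lit 404) (nat_lit 249))))) (XT.nd (nat_lit 156) (nat_lit 684) (nat_lit 0) (XT.nd (nat_lit 78) (nat_lit 456) (nat_lit 0) (XT.lf (nat_lit 0) (nat_lit 17128005727) (nat_lit 380) (nat_lit 218529449) (nat_lit 456) (nat_lit 296168793) (nat_lit 122) (nat_lit 5) (nat_lit 127) (nat_lit 5) (nat_lit 128) (nat_lit 5) (nat_lit 488) (nat_lit 404) (nat_lit 248)) (XT.lf (nat_lit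 0) (nat_lit 3196301447) (nat_lit 456) (nat_lit 8998391867) (nat_lit 76) (nat_lit 5674652210) (nat_lit 116) (nat_lit 5) (nat_lit 122) (nat_lit 5) (nat_lit 117) (nat_lit 5) (nat_lit 489) (nat_lit 404) (nat_lit 247))) (XT.nd (nat_lit 78) (nat_lit 304) (nat_lit 0) (XT.lf (nat_lit 0) (nat_lit 336626609) (nat_lit 380) (nat_lit 6414827590) (nat_lit 456) (nat_lit 11349094221) (nat_lit 111) (nat_lit 5) (nat_lit 116) (nat_lit 5) (nat_lit 117) (nat_lit 5) (nat_lit 490) (nat_lit 404) (nat_lit 246)) (XT.nd (nat_lit 78) (nat_lit 304) (nat_lit 0) (XT.lf (nat_lit 0) (nat_lit 9965219565) (nat_lit 380) (nat_lit 462664098) (nat_lit 456) (nat_lit 7907491810) (nat_lit 111) (nat_lit 5) (nat_lit 116) (nat_lit 5) (nat_lit 117) (nat_lit 5) (nat_lit 491) (nat_lit 404) (nat_lit 245)) (XT.lf (nat_lit 0) (nat_lit 1175510036) (nat_lit 304) (nat_lit 13036337027) (nat_lit 380) (nat_lit 4362375397) (nat_lit 107) (nat_lit 5) (nat_lit 111)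 (nat_lit 5) (nat_lit 112) (nat_lit 5) (nat_lit 492) (nat_lit 404) (nat_lit 244)))))) (XT.nd (nat_lit 390) (nat_lit 684) (nat_lit 0) (XT.nd (nat_lit 156) (nat_lit 304) (nat_lit 0) (XT.nd (nat_lit 78) (nat_lit 456) (nat_lit 0) (XT.lf (nat_lit 0) (nat_lit 11007564864) (nat_lit 304) (nat_lit 7113195918) (nat_lit 380) (nat_lit 696103616) (nat_lit 107) (nat_lit 5) (nat_lit 111) (nat_lit 5) (nat_lit 112) (nat_lit 5) (nat_lit 493) (nat_lit 404) (nat_lit 243)) (XT.lf (nat_lit 0) (nat_lit 1963167174) (nat_lit 380) (nat_lit 1043342758) (nat_lit 456) (nat_lit 16057398687) (nat_lit 101) (nat_lit 5) (nat_lit 106) (nat_lit 5) (nat_lit 107) (nat_lit 5) (nat_lit 494) (nat_lit 404) (nat_lit 242))) (XT.nd (nat_lit 78) (nat_lit 304) (nat_lit 0) (XT.lf (nat_lit 0) (nat_lit 6850290551) (nat_lit 456) (nat_lit 7331076139) (nat_lit 76) (nat_lit 5132909530) (nat_lit 101) (nat_lit 5) (nat_lit 107) (nat_lit 5) (nat_lit 102) (nat_lit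 5) (nat_lit 495) (nat_lit 404) (nat_lit 241)) (XT.nd (nat_lit 78) (nat_lit 0) (nat_lit 0) (XT.lf (nat_lit 0) (nat_lit 2647292443) (nat_lit 304) (nat_lit 8138194740) (nat_lit 380) (nat_lit 8783876353) (nat_lit 97) (nat_lit 5) (nat_lit 101) (nat_lit 5) (nat_lit 102) (nat_lit 5) (nat_lit 496) (nat_lit 404) (nat_lit 240)) (XT.lf (nat_lit 0) (nat_lit 12910198269) (nat_lit 304) (nat_lit 1928921594) (nat_lit 380) (nat_lit 4989641201) (nat_lit 97) (nat_lit 5) (nat_lit 101) (nat_lit 5) (nat_lit 102) (nat_lit 5) (nat_lit 497) (nat_lit 404) (nat_lit 239))))) (XT.nd (nat_lit 52104) (nat_lit 0) (nat_lit 31996) (XT.nd (nat_lit 78) (nat_lit 380) (nat_lit 0) (XT.lf (nat_lit 0) (nat_lit 3285225318) (nat_lit 304) (nat_lit 15729217754) (nat_lit 380) (nat_lit 1078094162) (nat_lit 93) (nat_lit 5) (nat_lit 97) (nat_lit 5) (nat_lit 98) (nat_lit 5) (nat_lit 498) (nat_lit 404) (nat_lit 238)) (XT.nd (nat_lit 78) (nat_lit 304) (nat_lit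 0) (XT.lf (nat_lit 0) (nat_lit 2923722806) (nat_lit 380) (nat_lit 6620086453) (nat_lit 76) (nat_lit 10816399979) (nat_lit 92) (nat_lit 5) (nat_lit 97) (nat_lit 5) (nat_lit 93) (nat_lit 5) (nat_lit 499) (nat_lit 404) (nat_lit 237)) (XT.lf (nat_lit 0) (nat_lit 3799544311) (nat_lit 304) (nat_lit 3207178058) (nat_lit 380) (nat_lit 13626061021) (nat_lit 88) (nat_lit 5) (nat_lit 92) (nat_lit 5) (nat_lit 93) (nat_lit 5) (nat_lit 500) (nat_lit 404) (nat_lit 236)))) (XT.nd (nat_lit 78) (nat_lit 0) (nat_lit 0) (XT.lf (nat_lit 0) (nat_lit 2335018934) (nat_lit 1292) (nat_lit 745131372) (nat_lit 1292) (nat_lit 745131372) (nat_lit 509) (nat_lit 3) (nat_lit 526) (nat_lit 3) (nat_lit 526) (nat_lit 5) (nat_lit 405) (nat_lit 405) (nat_lit 330)) (XT.nd (nat_lit 78) (nat_lit 0) (nat_lit 0) (XT.lf (nat_lit 76) (nat_lit 2124277200) (nat_lit 0) (nat_lit 3924528580) (nat_lit 1292) (nat_lit 1650674053) (nat_lit 510) (nat_lit 5)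 (nat_lit 509) (nat_lit 3) (nat_lit 526) (nat_lit 5) (nat_lit 406) (nat_lit 405) (nat_lit 329)) (XT.lf (nat_lit 76) (nat_lit 5813426682) (nat_lit 0) (nat_lit 1617027877) (nat_lit 1292) (nat_lit 319438833) (nat_lit 510) (nat_lit 5) (nat_lit 509) (nat_lit 3) (nat_lit 526) (nat_lit 5) (nat_lit 407) (nat_lit 405) (nat_lit 328))))))))
noncomputable def xc165 : XT := (XT.nd (nat_lit 1560) (nat_lit 11704) (nat_lit 0) (XT.nd (nat_lit 780) (nat_lit 2660) (nat_lit 0) (XT.nd (nat_lit 390) (nat_lit 1216) (nat_lit 0) (XT.nd (nat_lit 156) (nat_lit 0) (nat_lit 0) (XT.nd (nat_lit 78) (nat_lit 0) (nat_lit 0) (XT.lf (nat_lit 0) (nat_lit 1007062202) (nat_lit 1292) (nat_lit 6033116851) (nat_lit 1368) (nat_lit 761380018) (nat_lit 493) (nat_lit 5) (nat_lit 510) (nat_lit 5) (nat_lit 511) (nat_lit 5) (nat_lit 408) (nat_lit 405) (nat_lit 327)) (XT.lf (nat_lit 0) (nat_lit 2346003931) (nat_lit 1292) (nat_lit 2311902434) (nat_lit 1368)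 (nat_lit 3196529136) (nat_lit 493) (nat_lit 5) (nat_lit 510) (nat_lit 5) (nat_lit 511) (nat_lit 5) (nat_lit 409) (nat_lit 405) (nat_lit 326))) (XT.nd (nat_lit 78) (nat_lit 0) (nat_lit 76) (XT.lf (nat_lit 76) (nat_lit 1484884753) (nat_lit 0) (nat_lit 2203533932) (nat_lit 1368) (nat_lit 4220439860) (nat_lit 494) (nat_lit 5) (nat_lit 493) (nat_lit 5) (nat_lit 511) (nat_lit 5) (nat_lit 410) (nat_lit 405) (nat_lit 325)) (XT.nd (nat_lit 78) (nat_lit 0) (nat_lit 0) (XT.lf (nat_lit 0) (nat_lit 5042919303) (nat_lit 1292) (nat_lit 2596132357) (nat_lit 1368) (nat_lit 325636155) (nat_lit 494) (nat_lit 5) (nat_lit 511) (nat_lit 5) (nat_lit 512) (nat_lit 5) (nat_lit 411) (nat_lit 405) (nat_lit 324)) (XT.lf (nat_lit 76) (nat_lit 1292021333) (nat_lit 0) (nat_lit 5123777481) (nat_lit 1368) (nat_lit 1606031157) (nat_lit 495) (nat_lit 5) (nat_lit 494) (nat_lit 5) (nat_lit 512) (nat_lit 5) (nat_lit 412) (nat_lit 405) (nat_lit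 323))))) (XT.nd (nat_lit 156) (nat_lit 0) (nat_lit 0) (XT.nd (nat_lit 78) (nat_lit 1292) (nat_lit 0) (XT.lf (nat_lit 76) (nat_lit 5274654977) (nat_lit 0) (nat_lit 2527711111) (nat_lit 1368) (nat_lit 278045920) (nat_lit 495) (nat_lit 5) (nat_lit 494) (nat_lit 5) (nat_lit 512) (nat_lit 5) (nat_lit 413) (nat_lit 405) (nat_lit 322)) (XT.lf (nat_lit 0) (nat_lit 1040240829) (nat_lit 1368) (nat_lit 6954657310) (nat_lit 1444) (nat_lit 145591357) (nat_lit 477) (nat_lit 5) (nat_lit 495) (nat_lit 5) (nat_lit 496) (nat_lit 5) (nat_lit 414) (nat_lit 405) (nat_lit 321))) (XT.nd (nat_lit 78) (nat_lit 0) (nat_lit 0) (XT.lf (nat_lit 0) (nat_lit 2386624899) (nat_lit 1368) (nat_lit 2943936198) (nat_lit 1444) (nat_lit 2871081983) (nat_lit 477) (nat_lit 5) (nat_lit 495) (nat_lit 5) (nat_lit 496) (nat_lit 5) (nat_lit 415) (nat_lit 405) (nat_lit 320)) (XT.nd (nat_lit 78) (nat_lit 0) (nat_lit 76) (XT.lf (nat_lit 76) (nat_lit 1143243844)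 (nat_lit 0) (nat_lit 2594467008) (nat_lit 1444) (nat_lit 4526773393) (nat_lit 478) (nat_lit 5) (nat_lit 477) (nat_lit 5) (nat_lit 496) (nat_lit 5) (nat_lit 416) (nat_lit 405) (nat_lit 319)) (XT.lf (nat_lit 0) (nat_lit 5107860036) (nat_lit 1368) (nat_lit 2996817399) (nat_lit 1444) (nat_lit 224083572) (nat_lit 478) (nat_lit 5) (nat_lit 496) (nat_lit 5) (nat_lit 497) (nat_lit 5) (nat_lit 417) (nat_lit 405) (nat_lit 318)))))) (XT.nd (nat_lit 390) (nat_lit 1368) (nat_lit 0) (XT.nd (nat_lit 156) (nat_lit 1368) (nat_lit 0) (XT.nd (nat_lit 78) (nat_lit 0) (nat_lit 0) (XT.lf (nat_lit 76) (nat_lit 1189594365) (nat_lit 0) (nat_lit 5312174836) (nat_lit 1444) (nat_lit 1892646181) (nat_lit 479) (nat_lit 5) (nat_lit 478) (nat_lit 5) (nat_lit 497) (nat_lit 5) (nat_lit 418) (nat_lit 405) (nat_lit 317)) (XT.lf (nat_lit 76) (nat_lit 5481561945) (nat_lit 0) (nat_lit 2433994035) (nat_lit 1444) (nat_lit 546005719) (nat_lit 479)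 (nat_lit 5) (nat_lit 478) (nat_lit 5) (nat_lit 497) (nat_lit 5) (nat_lit 419) (nat_lit 405) (nat_lit 316))) (XT.nd (nat_lit 78) (nat_lit 0) (nat_lit 0) (XT.lf (nat_lit 0) (nat_lit 800948132) (nat_lit 1444) (nat_lit 7211277546) (nat_lit 1520) (nat_lit 518051226) (nat_lit 460) (nat_lit 5) (nat_lit 479) (nat_lit 5) (nat_lit 480) (nat_lit 5) (nat_lit 420) (nat_lit 405) (nat_lit 315)) (XT.nd (nat_lit 78) (nat_lit 0) (nat_lit 0) (XT.lf (nat_lit 0) (nat_lit 2176504619) (nat_lit 1444) (nat_lit 2894771305) (nat_lit 1520) (nat_lit 3528856570) (nat_lit 460) (nat_lit 5) (nat_lit 479) (nat_lit 5) (nat_lit 480) (nat_lit 5) (nat_lit 421) (nat_lit 405) (nat_lit 314)) (XT.lf (nat_lit 76) (nat_lit 1508923048) (nat_lit 0) (nat_lit 2053699817) (nat_lit 1520) (nat_lit 5109118725) (nat_lit 461) (nat_lit 5) (nat_lit 460) (nat_lit 5) (nat_lit 480) (nat_lit 5) (nat_lit 422) (nat_lit 405) (nat_lit 313))))) (XT.nd (nat_lit 156) (nat_lit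 1444) (nat_lit 0) (XT.nd (nat_lit 78) (nat_lit 0) (nat_lit 0) (XT.lf (nat_lit 0) (nat_lit 4976372491) (nat_lit 1444) (nat_lit 2730642430) (nat_lit 1520) (nat_lit 1037786832) (nat_lit 461) (nat_lit 5) (nat_lit 480) (nat_lit 5) (nat_lit 481) (nat_lit 5) (nat_lit 423) (nat_lit 405) (nat_lit 312)) (XT.lf (nat_lit 76) (nat_lit 1780913808) (nat_lit 0) (nat_lit 4636867388) (nat_lit 1520) (nat_lit 2401570974) (nat_lit 462) (nat_lit 5) (nat_lit 461) (nat_lit 5) (nat_lit 481) (nat_lit 5) (nat_lit 424) (nat_lit 405) (nat_lit 311))) (XT.nd (nat_lit 78) (nat_lit 1444) (nat_lit 0) (XT.lf (nat_lit 76) (nat_lit 6400821138) (nat_lit 0) (nat_lit 1480124339) (nat_lit 1520) (nat_lit 1014605972) (nat_lit 462) (nat_lit 5) (nat_lit 461) (nat_lit 5) (nat_lit 481) (nat_lit 5) (nat_lit 425) (nat_lit 405) (nat_lit 310)) (XT.nd (nat_lit 78) (nat_lit 0) (nat_lit 0) (XT.lf (nat_lit 0) (nat_lit 395153679) (nat_lit 1520) (nat_lit 6838373631)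 (nat_lit 1596) (nat_lit 1739705162) (nat_lit 442) (nat_lit 5) (nat_lit 462) (nat_lit 5) (nat_lit 463) (nat_lit 5) (nat_lit 426) (nat_lit 405) (nat_lit 309)) (XT.lf (nat_lit 0) (nat_lit 1821518906) (nat_lit 1520) (nat_lit 2197205416) (nat_lit 1596) (nat_lit 5033584199) (nat_lit 442) (nat_lit 5) (nat_lit 462) (nat_lit 5) (nat_lit 463) (nat_lit 5) (nat_lit 427) (nat_lit 405) (nat_lit 308))))))) (XT.nd (nat_lit 780) (nat_lit 4256) (nat_lit 0) (XT.nd (nat_lit 390) (nat_lit 4408) (nat_lit 0) (XT.nd (nat_lit 156) (nat_lit 3040) (nat_lit 0) (XT.nd (nat_lit 78) (nat_lit 0) (nat_lit 76) (XT.lf (nat_lit 76) (nat_lit 2551328307) (nat_lit 0) (nat_lit 717461072) (nat_lit 1596) (nat_lit 5864344308) (nat_lit 443) (nat_lit 5) (nat_lit 442) (nat_lit 5) (nat_lit 463) (nat_lit 5) (nat_lit 428) (nat_lit 405) (nat_lit 307)) (XT.lf (nat_lit 0) (nat_lit 4753249729) (nat_lit 1520) (nat_lit 1827284940) (nat_lit 76) (nat_lit 2634890654)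 (nat_lit 443) (nat_lit 5) (nat_lit 463) (nat_lit 5) (nat_lit 444) (nat_lit 5) (nat_lit 429) (nat_lit 405) (nat_lit 306))) (XT.nd (nat_lit 78) (nat_lit 1596) (nat_lit 0) (XT.lf (nat_lit 0) (nat_lit 3038484791) (nat_lit 1520) (nat_lit 3230058436) (nat_lit 1596) (nat_lit 3030811251) (nat_lit 423) (nat_lit 5) (nat_lit 443) (nat_lit 5) (nat_lit 444) (nat_lit 5) (nat_lit 430) (nat_lit 405) (nat_lit 305)) (XT.nd (nat_lit 78) (nat_lit 1596) (nat_lit 0) (XT.lf (nat_lit 0) (nat_lit 7804729995) (nat_lit 1596) (nat_lit 1378992674) (nat_lit 76) (nat_lit 201442080) (nat_lit 423) (nat_lit 5) (nat_lit 444) (nat_lit 5) (nat_lit 424) (nat_lit 5) (nat_lit 431) (nat_lit 405) (nat_lit 304)) (XT.lf (nat_lit 0) (nat_lit 3607505778) (nat_lit 1596) (nat_lit 5786425849) (nat_lit 1672) (nat_lit 78327774) (nat_lit 402) (nat_lit 5) (nat_lit 423) (nat_lit 5) (nat_lit 424) (nat_lit 5) (nat_lit 432) (nat_lit 405) (nat_lit 303))))) (XT.nd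 (nat_lit 156) (nat_lit 2660) (nat_lit 0) (XT.nd (nat_lit 78) (nat_lit 1672) (nat_lit 0) (XT.lf (nat_lit 0) (nat_lit 1421705840) (nat_lit 1672) (nat_lit 877108655) (nat_lit 76) (nat_lit 7262367092) (nat_lit 401) (nat_lit 5) (nat_lit 423) (nat_lit 5) (nat_lit 402) (nat_lit 5) (nat_lit 433) (nat_lit 405) (nat_lit 302)) (XT.lf (nat_lit 0) (nat_lit 2964717869) (nat_lit 1748) (nat_lit 5413432272) (nat_lit 76) (nat_lit 1273454382) (nat_lit 379) (nat_lit 5) (nat_lit 402) (nat_lit 5) (nat_lit 380) (nat_lit 5) (nat_lit 434) (nat_lit 405) (nat_lit 301))) (XT.nd (nat_lit 78) (nat_lit 2660) (nat_lit 0) (XT.lf (nat_lit 0) (nat_lit 4538142372) (nat_lit 1748) (nat_lit 310423371) (nat_lit 76) (nat_lit 4895292063) (nat_lit 379) (nat_lit 5) (nat_lit 402) (nat_lit 5) (nat_lit 380) (nat_lit 5) (nat_lit 435) (nat_lit 405) (nat_lit 300)) (XT.nd (nat_lit 78) (nat_lit 912) (nat_lit 0) (XT.lf (nat_lit 0) (nat_lit 4940728099) (nat_lit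 1748) (nat_lit 1213212667) (nat_lit 1824) (nat_lit 3683809961) (nat_lit 356) (nat_lit 5) (nat_lit 379) (nat_lit 5) (nat_lit 380) (nat_lit 5) (nat_lit 436) (nat_lit 405) (nat_lit 299)) (XT.lf (nat_lit 0) (nat_lit 336797931) (nat_lit 912) (nat_lit 7464875215) (nat_lit 988) (nat_lit 2131868431) (nat_lit 344) (nat_lit 5) (nat_lit 356) (nat_lit 5) (nat_lit 357) (nat_lit 5) (nat_lit 437) (nat_lit 405) (nat_lit 298)))))) (XT.nd (nat_lit 390) (nat_lit 2432) (nat_lit 0) (XT.nd (nat_lit 156) (nat_lit 836) (nat_lit 0) (XT.nd (nat_lit 78) (nat_lit 988) (nat_lit 0) (XT.lf (nat_lit 0) (nat_lit 5714621429) (nat_lit 912) (nat_lit 3788004505) (nat_lit 988) (nat_lit 528229183) (nat_lit 344) (nat_lit 5) (nat_lit 356) (nat_lit 5) (nat_lit 357) (nat_lit 5) (nat_lit 438) (nat_lit 405) (nat_lit 297)) (XT.lf (nat_lit 0) (nat_lit 1057744948) (nat_lit 912) (nat_lit 21761230) (nat_lit 988) (nat_lit 9050745691) (nat_lit 331) (nat_lit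 5) (nat_lit 343) (nat_lit 5) (nat_lit 344) (nat_lit 5) (nat_lit 439) (nat_lit 405) (nat_lit 296))) (XT.nd (nat_lit 78) (nat_lit 836) (nat_lit 0) (XT.lf (nat_lit 0) (nat_lit 2746252918) (nat_lit 988) (nat_lit 3680957906) (nat_lit 76) (nat_lit 3803688790) (nat_lit 331) (nat_lit 5) (nat_lit 344) (nat_lit 5) (nat_lit 332) (nat_lit 5) (nat_lit 440) (nat_lit 405) (nat_lit 295)) (XT.nd (nat_lit 78) (nat_lit 0) (nat_lit 0) (XT.lf (nat_lit 0) (nat_lit 1823446993) (nat_lit 836) (nat_lit 2615229870) (nat_lit 912) (nat_lit 5895047866) (nat_lit 320) (nat_lit 5) (nat_lit 331) (nat_lit 5) (nat_lit 332) (nat_lit 5) (nat_lit 441) (nat_lit 405) (nat_lit 294)) (XT.lf (nat_lit 0) (nat_lit 6178707368) (nat_lit 912) (nat_lit 2977730622) (nat_lit 76) (nat_lit 1281904234) (nat_lit 320) (nat_lit 5) (nat_lit 332) (nat_lit 5) (nat_lit 321) (nat_lit 5) (nat_lit 442) (nat_lit 405) (nat_lit 293))))) (XT.nd (nat_lit 234) (nat_lit 760)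 (nat_lit 0) (XT.nd (nat_lit 78) (nat_lit 836) (nat_lit 0) (XT.lf (nat_lit 0) (nat_lit 2664439737) (nat_lit 836) (nat_lit 5304725527) (nat_lit 912) (nat_lit 2575585090) (nat_lit 309) (nat_lit 5) (nat_lit 320) (nat_lit 5) (nat_lit 321) (nat_lit 5) (nat_lit 443) (nat_lit 405) (nat_lit 292)) (XT.nd (nat_lit 78) (nat_lit 836) (nat_lit 0) (XT.lf (nat_lit 0) (nat_lit 8441287243) (nat_lit 836) (nat_lit 1355387366) (nat_lit 912) (nat_lit 856597802) (nat_lit 309) (nat_lit 5) (nat_lit 320) (nat_lit 5) (nat_lit 321) (nat_lit 5) (nat_lit 444) (nat_lit 405) (nat_lit 291)) (XT.lf (nat_lit 0) (nat_lit 907377050) (nat_lit 836) (nat_lit 7188731557) (nat_lit 76) (nat_lit 2667302671) (nat_lit 298) (nat_lit 5) (nat_lit 309) (nat_lit 5) (nat_lit 299) (nat_lit 5) (nat_lit 445) (nat_lit 405) (nat_lit 290)))) (XT.nd (nat_lit 78) (nat_lit 760) (nat_lit 0) (XT.lf (nat_lit 0) (nat_lit 2700829634) (nat_lit 836) (nat_lit 1401817999)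 (nat_lit 76) (nat_lit 6772888682) (nat_lit 298) (nat_lit 5) (nat_lit 309) (nat_lit 5) (nat_lit 299) (nat_lit 5) (nat_lit 446) (nat_lit 405) (nat_lit 289)) (XT.nd (nat_lit 78) (nat_lit 0) (nat_lit 0) (XT.lf (nat_lit 0) (nat_lit 4541741304) (nat_lit 836) (nat_lit 6447590480) (nat_lit 76) (nat_lit 350071) (nat_lit 288) (nat_lit 5) (nat_lit 299) (nat_lit 5) (nat_lit 289) (nat_lit 5) (nat_lit 447) (nat_lit 405) (nat_lit 288)) (XT.lf (nat_lit 0) (nat_lit 6438437290) (nat_lit 836) (nat_lit 527823006) (nat_lit 76) (nat_lit 4139480297) (nat_lit 288) (nat_lit 5) (nat_lit 299) (nat_lit 5) (nat_lit 289) (nat_lit 5) (nat_lit 448) (nat_lit 405) (nat_lit 287))))))))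
noncomputable def xc166 : XT := (XT.nd (nat_lit 1560) (nat_lit 5700) (nat_lit 0) (XT.nd (nat_lit 780) (nat_lit 3040) (nat_lit 0) (XT.nd (nat_lit 390) (nat_lit 2052) (nat_lit 0) (XT.nd (nat_lit 156) (nat_lit 760) (nat_lit 0) (XT.nd (nat_lit 78) (nat_lit 760) (nat_lit 0) (XT.lf (nat_lit 0) (nat_lit 5565141729) (nat_lit 760) (nat_lit 2826731584) (nat_lit 836) (nat_lit 2831880492) (nat_lit 278) (nat_lit 5) (nat_lit 288) (nat_lit 5) (nat_lit 289) (nat_lit 5) (nat_lit 449) (nat_lit 405) (nat_lit 286)) (XT.lf (nat_lit 0) (nat_lit 421090893) (nat_lit 760) (nat_lit 9961537389) (nat_lit 836) (nat_lit 961543233) (nat_lit 268) (nat_lit 5) (nat_lit 278) (nat_lit 5) (nat_lit 279) (nat_lit 5) (nat_lit 450) (nat_lit 405) (nat_lit 285))) (XT.nd (nat_lit 78) (nat_lit 684) (nat_lit 0) (XT.lf (nat_lit 0) (nat_lit 973720635) (nat_lit 836) (nat_lit 4810786356) (nat_lit 76) (nat_lit 5681578008) (nat_lit 267) (nat_lit 5) (nat_lit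 278) (nat_lit 5) (nat_lit 268) (nat_lit 5) (nat_lit 451) (nat_lit 405) (nat_lit 284)) (XT.nd (nat_lit 78) (nat_lit 0) (nat_lit 0) (XT.lf (nat_lit 0) (nat_lit 1417818939) (nat_lit 684) (nat_lit 1509532494) (nat_lit 760) (nat_lit 8663116174) (nat_lit 258) (nat_lit 5) (nat_lit 267) (nat_lit 5) (nat_lit 268) (nat_lit 5) (nat_lit 452) (nat_lit 405) (nat_lit 283)) (XT.lf (nat_lit 0) (nat_lit 4954580737) (nat_lit 760) (nat_lit 3917578619) (nat_lit 76) (nat_lit 2844496526) (nat_lit 258) (nat_lit 5) (nat_lit 268) (nat_lit 5) (nat_lit 259) (nat_lit 5) (nat_lit 453) (nat_lit 405) (nat_lit 282))))) (XT.nd (nat_lit 156) (nat_lit 1368) (nat_lit 0) (XT.nd (nat_lit 78) (nat_lit 0) (nat_lit 0) (XT.lf (nat_lit 0) (nat_lit 2466940262) (nat_lit 684) (nat_lit 4565270422) (nat_lit 760) (nat_lit 4812968484) (nat_lit 249) (nat_lit 5) (nat_lit 258) (nat_lit 5) (nat_lit 259) (nat_lit 5) (nat_lit 454) (nat_lit 405) (nat_lit 281))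 (XT.lf (nat_lit 0) (nat_lit 9014361790) (nat_lit 684) (nat_lit 147363253) (nat_lit 760) (nat_lit 2814349443) (nat_lit 249) (nat_lit 5) (nat_lit 258) (nat_lit 5) (nat_lit 259) (nat_lit 5) (nat_lit 455) (nat_lit 405) (nat_lit 280))) (XT.nd (nat_lit 78) (nat_lit 760) (nat_lit 0) (XT.lf (nat_lit 0) (nat_lit 3583998600) (nat_lit 608) (nat_lit 7785745040) (nat_lit 684) (nat_lit 739133831) (nat_lit 241) (nat_lit 5) (nat_lit 249) (nat_lit 5) (nat_lit 250) (nat_lit 5) (nat_lit 456) (nat_lit 405) (nat_lit 279)) (XT.nd (nat_lit 78) (nat_lit 684) (nat_lit 0) (XT.lf (nat_lit 0) (nat_lit 1364926032) (nat_lit 684) (nat_lit 1971166468) (nat_lit 76) (nat_lit 8907964716) (nat_lit 240) (nat_lit 5) (nat_lit 249) (nat_lit 5) (nat_lit 241) (nat_lit 5) (nat_lit 457) (nat_lit 405) (nat_lit 278)) (XT.lf (nat_lit 0) (nat_lit 3524801956) (nat_lit 760) (nat_lit 7636094672) (nat_lit 76) (nat_lit 1220481155) (nat_lit 231) (nat_lit 5)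 (nat_lit 241) (nat_lit 5) (nat_lit 232) (nat_lit 5) (nat_lit 458) (nat_lit 405) (nat_lit 277)))))) (XT.nd (nat_lit 390) (nat_lit 1216) (nat_lit 0) (XT.nd (nat_lit 156) (nat_lit 1216) (nat_lit 0) (XT.nd (nat_lit 78) (nat_lit 608) (nat_lit 0) (XT.lf (nat_lit 0) (nat_lit 5748184691) (nat_lit 760) (nat_lit 938352297) (nat_lit 76) (nat_lit 5834509016) (nat_lit 231) (nat_lit 5) (nat_lit 241) (nat_lit 5) (nat_lit 232) (nat_lit 5) (nat_lit 459) (nat_lit 405) (nat_lit 276)) (XT.lf (nat_lit 0) (nat_lit 5954008778) (nat_lit 608) (nat_lit 2085880538) (nat_lit 684) (nat_lit 4623148472) (nat_lit 223) (nat_lit 5) (nat_lit 231) (nat_lit 5) (nat_lit 232) (nat_lit 5) (nat_lit 460) (nat_lit 405) (nat_lit 275))) (XT.nd (nat_lit 78) (nat_lit 608) (nat_lit 0) (XT.lf (nat_lit 0) (nat_lit 156689898) (nat_lit 608) (nat_lit 10230376320) (nat_lit 684) (nat_lit 2420617566) (nat_lit 215) (nat_lit 5) (nat_lit 223) (nat_lit 5) (nat_lit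 224) (nat_lit 5) (nat_lit 461) (nat_lit 405) (nat_lit 274)) (XT.nd (nat_lit 78) (nat_lit 608) (nat_lit 0) (XT.lf (nat_lit 0) (nat_lit 7219192588) (nat_lit 608) (nat_lit 5606269039) (nat_lit 684) (nat_lit 128882573) (nat_lit 215) (nat_lit 5) (nat_lit 223) (nat_lit 5) (nat_lit 224) (nat_lit 5) (nat_lit 462) (nat_lit 405) (nat_lit 273)) (XT.lf (nat_lit 0) (nat_lit 1304445467) (nat_lit 532) (nat_lit 869457592) (nat_lit 608) (nat_lit 10929871024) (nat_lit 207) (nat_lit 5) (nat_lit 214) (nat_lit 5) (nat_lit 215) (nat_lit 5) (nat_lit 463) (nat_lit 405) (nat_lit 272))))) (XT.nd (nat_lit 156) (nat_lit 608) (nat_lit 0) (XT.nd (nat_lit 78) (nat_lit 608) (nat_lit 0) (XT.lf (nat_lit 0) (nat_lit 4571347732) (nat_lit 608) (nat_lit 4737164421) (nat_lit 76) (nat_lit 3946663388) (nat_lit 207) (nat_lit 5) (nat_lit 215) (nat_lit 5) (nat_lit 208) (nat_lit 5) (nat_lit 464) (nat_lit 405) (nat_lit 271)) (XT.lf (nat_lit 0) (nat_lit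 2475814005) (nat_lit 608) (nat_lit 4548899300) (nat_lit 684) (nat_lit 6384738749) (nat_lit 199) (nat_lit 5) (nat_lit 207) (nat_lit 5) (nat_lit 208) (nat_lit 5) (nat_lit 465) (nat_lit 405) (nat_lit 270))) (XT.nd (nat_lit 78) (nat_lit 608) (nat_lit 0) (XT.lf (nat_lit 0) (nat_lit 9547410704) (nat_lit 684) (nat_lit 3688397212) (nat_lit 76) (nat_lit 330607232) (nat_lit 199) (nat_lit 5) (nat_lit 208) (nat_lit 5) (nat_lit 200) (nat_lit 5) (nat_lit 466) (nat_lit 405) (nat_lit 269)) (XT.nd (nat_lit 78) (nat_lit 76) (nat_lit 0) (XT.lf (nat_lit 0) (nat_lit 3703243221) (nat_lit 532) (nat_lit 8458035921) (nat_lit 608) (nat_lit 1564430235) (nat_lit 192) (nat_lit 5) (nat_lit 199) (nat_lit 5) (nat_lit 200) (nat_lit 5) (nat_lit 467) (nat_lit 405) (nat_lit 268)) (XT.lf (nat_lit 0) (nat_lit 938440604) (nat_lit 608) (nat_lit 2618264064) (nat_lit 76) (nat_lit 10331138368) (nat_lit 191) (nat_lit 5) (nat_lit 199) (nat_lit 5) (nat_lit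 192) (nat_lit 5) (nat_lit 468) (nat_lit 405) (nat_lit 267))))))) (XT.nd (nat_lit 780) (nat_lit 2660) (nat_lit 0) (XT.nd (nat_lit 390) (nat_lit 1444) (nat_lit 0) (XT.nd (nat_lit 156) (nat_lit 1064) (nat_lit 0) (XT.nd (nat_lit 78) (nat_lit 0) (nat_lit 0) (XT.lf (nat_lit 0) (nat_lit 3499220378) (nat_lit 608) (nat_lit 9090075647) (nat_lit 76) (nat_lit 1463146398) (nat_lit 184) (nat_lit 5) (nat_lit 192) (nat_lit 5) (nat_lit 185) (nat_lit 5) (nat_lit 469) (nat_lit 405) (nat_lit 266)) (XT.lf (nat_lit 0) (nat_lit 6139453775) (nat_lit 608) (nat_lit 1530371225) (nat_lit 76) (nat_lit 6549949780) (nat_lit 184) (nat_lit 5) (nat_lit 192) (nat_lit 5) (nat_lit 185) (nat_lit 5) (nat_lit 470) (nat_lit 405) (nat_lit 265))) (XT.nd (nat_lit 78) (nat_lit 532) (nat_lit 0) (XT.lf (nat_lit 0) (nat_lit 6245954268) (nat_lit 532) (nat_lit 2614342806) (nat_lit 608) (nat_lit 5529606235) (nat_lit 177) (nat_lit 5) (nat_lit 184) (nat_lit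 5) (nat_lit 185) (nat_lit 5) (nat_lit 471) (nat_lit 405) (nat_lit 264)) (XT.nd (nat_lit 78) (nat_lit 532) (nat_lit 0) (XT.lf (nat_lit 0) (nat_lit 11649772241) (nat_lit 608) (nat_lit 397866559) (nat_lit 76) (nat_lit 2515516828) (nat_lit 177) (nat_lit 5) (nat_lit 185) (nat_lit 5) (nat_lit 178) (nat_lit 5) (nat_lit 472) (nat_lit 405) (nat_lit 263)) (XT.lf (nat_lit 0) (nat_lit 7568801590) (nat_lit 532) (nat_lit 6980309577) (nat_lit 608) (nat_lit 189685753) (nat_lit 170) (nat_lit 5) (nat_lit 177) (nat_lit 5) (nat_lit 178) (nat_lit 5) (nat_lit 473) (nat_lit 405) (nat_lit 262))))) (XT.nd (nat_lit 156) (nat_lit 912) (nat_lit 0) (XT.nd (nat_lit 78) (nat_lit 0) (nat_lit 0) (XT.lf (nat_lit 0) (nat_lit 759079726) (nat_lit 456) (nat_lit 1790744105) (nat_lit 532) (nat_lit 12367890555) (nat_lit 163) (nat_lit 5) (nat_lit 169) (nat_lit 5) (nat_lit 170) (nat_lit 5) (nat_lit 474) (nat_lit 405) (nat_lit 261)) (XT.lf (nat_lit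 0) (nat_lit 5400540894) (nat_lit 532) (nat_lit 6196102218) (nat_lit 76) (nat_lit 3502367970) (nat_lit 163) (nat_lit 5) (nat_lit 170) (nat_lit 5) (nat_lit 164) (nat_lit 5) (nat_lit 475) (nat_lit 405) (nat_lit 260))) (XT.nd (nat_lit 78) (nat_lit 456) (nat_lit 0) (XT.lf (nat_lit 0) (nat_lit 1922898008) (nat_lit 456) (nat_lit 6397738285) (nat_lit 532) (nat_lit 6963055138) (nat_lit 157) (nat_lit 5) (nat_lit 163) (nat_lit 5) (nat_lit 164) (nat_lit 5) (nat_lit 476) (nat_lit 405) (nat_lit 259)) (XT.nd (nat_lit 78) (nat_lit 456) (nat_lit 0) (XT.lf (nat_lit 0) (nat_lit 10272231451) (nat_lit 456) (nat_lit 1056632072) (nat_lit 532) (nat_lit 4142612166) (nat_lit 157) (nat_lit 5) (nat_lit 163) (nat_lit 5) (nat_lit 164) (nat_lit 5) (nat_lit 477) (nat_lit 405) (nat_lit 258)) (XT.lf (nat_lit 0) (nat_lit 3122038184) (nat_lit 456) (nat_lit 11312355163) (nat_lit 532) (nat_lit 1227884329) (nat_lit 151) (nat_lit 5) (nat_lit 157)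 (nat_lit 5) (nat_lit 158) (nat_lit 5) (nat_lit 478) (nat_lit 405) (nat_lit 257)))))) (XT.nd (nat_lit 390) (nat_lit 1748) (nat_lit 0) (XT.nd (nat_lit 156) (nat_lit 380) (nat_lit 0) (XT.nd (nat_lit 78) (nat_lit 456) (nat_lit 0) (XT.lf (nat_lit 0) (nat_lit 1752769660) (nat_lit 532) (nat_lit 4210520316) (nat_lit 76) (nat_lit 9892773347) (nat_lit 150) (nat_lit 5) (nat_lit 157) (nat_lit 5) (nat_lit 151) (nat_lit 5) (nat_lit 479) (nat_lit 405) (nat_lit 256)) (XT.lf (nat_lit 0) (nat_lit 4318628034) (nat_lit 456) (nat_lit 474650631) (nat_lit 532) (nat_lit 11259954552) (nat_lit 144) (nat_lit 5) (nat_lit 150) (nat_lit 5) (nat_lit 151) (nat_lit 5) (nat_lit 480) (nat_lit 405) (nat_lit 255))) (XT.nd (nat_lit 78) (nat_lit 380) (nat_lit 0) (XT.lf (nat_lit 0) (nat_lit 7945029003) (nat_lit 532) (nat_lit 3227572702) (nat_lit 76) (nat_lit 5080740620) (nat_lit 144) (nat_lit 5) (nat_lit 151) (nat_lit 5) (nat_lit 145) (nat_lit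 5) (nat_lit 481) (nat_lit 405) (nat_lit 254)) (XT.nd (nat_lit 78) (nat_lit 0) (nat_lit 0) (XT.lf (nat_lit 0) (nat_lit 5503169976) (nat_lit 380) (nat_lit 5684461481) (nat_lit 456) (nat_lit 5269270170) (nat_lit 139) (nat_lit 5) (nat_lit 144) (nat_lit 5) (nat_lit 145) (nat_lit 5) (nat_lit 482) (nat_lit 405) (nat_lit 253)) (XT.lf (nat_lit 0) (nat_lit 14436917698) (nat_lit 380) (nat_lit 68887535) (nat_lit 456) (nat_lit 2158516762) (nat_lit 139) (nat_lit 5) (nat_lit 144) (nat_lit 5) (nat_lit 145) (nat_lit 5) (nat_lit 483) (nat_lit 405) (nat_lit 252))))) (XT.nd (nat_lit 234) (nat_lit 836) (nat_lit 0) (XT.nd (nat_lit 78) (nat_lit 380) (nat_lit 0) (XT.lf (nat_lit 0) (nat_lit 1071154582) (nat_lit 532) (nat_lit 10172097443) (nat_lit 76) (nat_lit 5631110965) (nat_lit 132) (nat_lit 5) (nat_lit 139) (nat_lit 5) (nat_lit 133) (nat_lit 5) (nat_lit 484) (nat_lit 405) (nat_lit 251)) (XT.nd (nat_lit 78) (nat_lit 380) (nat_lit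 0) (XT.lf (nat_lit 0) (nat_lit 4341330973) (nat_lit 532) (nat_lit 1277729887) (nat_lit 76) (nat_lit 11469166327) (nat_lit 132) (nat_lit 5) (nat_lit 139) (nat_lit 5) (nat_lit 133) (nat_lit 5) (nat_lit 485) (nat_lit 405) (nat_lit 250)) (XT.lf (nat_lit 0) (nat_lit 7718660413) (nat_lit 456) (nat_lit 9423717580) (nat_lit 76) (nat_lit 163159627) (nat_lit 127) (nat_lit 5) (nat_lit 133) (nat_lit 5) (nat_lit 128) (nat_lit 5) (nat_lit 486) (nat_lit 405) (nat_lit 249)))) (XT.nd (nat_lit 78) (nat_lit 836) (nat_lit 0) (XT.lf (nat_lit 0) (nat_lit 11198954808) (nat_lit 456) (nat_lit 337490783) (nat_lit 76) (nat_lit 5990044167) (nat_lit 127) (nat_lit 5) (nat_lit 133) (nat_lit 5) (nat_lit 128) (nat_lit 5) (nat_lit 487) (nat_lit 405) (nat_lit 248)) (XT.nd (nat_lit 78) (nat_lit 456) (nat_lit 0) (XT.lf (nat_lit 0) (nat_lit 9034161045) (nat_lit 380) (nat_lit 5763129243) (nat_lit 456) (nat_lit 2953605735) (nat_lit 122) (nat_lit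 5) (nat_lit 127) (nat_lit 5) (nat_lit 128) (nat_lit 5) (nat_lit 488) (nat_lit 405) (nat_lit 247)) (XT.lf (nat_lit 0) (nat_lit 478293743) (nat_lit 456) (nat_lit 17372615687) (nat_lit 76) (nat_lit 128883499) (nat_lit 116) (nat_lit 5) (nat_lit 122) (nat_lit 5) (nat_lit 117) (nat_lit 5) (nat_lit 489) (nat_lit 405) (nat_lit 246))))))))
noncomputable def xc167 : XT := (XT.nd (nat_lit 53508) (nat_lit 0) (nat_lit 21812) (XT.nd (nat_lit 780) (nat_lit 76) (nat_lit 0) (XT.nd (nat_lit 390) (nat_lit 988) (nat_lit 0) (XT.nd (nat_lit 156) (nat_lit 380) (nat_lit 0) (XT.nd (nat_lit 78) (nat_lit 380) (nat_lit 0) (XT.lf (nat_lit 0) (nat_lit 4026254833) (nat_lit 456) (nat_lit 8049390050) (nat_lit 76) (nat_lit 6135496544) (nat_lit 116) (nat_lit 5) (nat_lit 122) (nat_lit 5) (nat_lit 117) (nat_lit 5) (nat_lit 490) (nat_lit 405) (nat_lit 245)) (XT.lf (nat_lit 0) (nat_lit 1464901364) (nat_lit 380) (nat_lit 6179870929) (nat_lit 456)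 (nat_lit 10802356159) (nat_lit 111) (nat_lit 5) (nat_lit 116) (nat_lit 5) (nat_lit 117) (nat_lit 5) (nat_lit 491) (nat_lit 405) (nat_lit 244))) (XT.nd (nat_lit 78) (nat_lit 380) (nat_lit 0) (XT.lf (nat_lit 0) (nat_lit 11264075155) (nat_lit 380) (nat_lit 115786778) (nat_lit 456) (nat_lit 7307092679) (nat_lit 111) (nat_lit 5) (nat_lit 116) (nat_lit 5) (nat_lit 117) (nat_lit 5) (nat_lit 492) (nat_lit 405) (nat_lit 243)) (XT.nd (nat_lit 78) (nat_lit 76) (nat_lit 0) (XT.lf (nat_lit 0) (nat_lit 2304069363) (nat_lit 304) (nat_lit 12930299974) (nat_lit 380) (nat_lit 3696317005) (nat_lit 107) (nat_lit 5) (nat_lit 111) (nat_lit 5) (nat_lit 112) (nat_lit 5) (nat_lit 493) (nat_lit 405) (nat_lit 242)) (XT.lf (nat_lit 0) (nat_lit 28135600) (nat_lit 380) (nat_lit 6867563085) (nat_lit 76) (nat_lit 12282773252) (nat_lit 106) (nat_lit 5) (nat_lit 111) (nat_lit 5) (nat_lit 107) (nat_lit 5) (nat_lit 494) (nat_lit 405) (nat_lit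 241))))) (XT.nd (nat_lit 156) (nat_lit 608) (nat_lit 0) (XT.nd (nat_lit 78) (nat_lit 0) (nat_lit 0) (XT.lf (nat_lit 0) (nat_lit 3088550154) (nat_lit 380) (nat_lit 699699799) (nat_lit 456) (nat_lit 15642264480) (nat_lit 101) (nat_lit 5) (nat_lit 106) (nat_lit 5) (nat_lit 107) (nat_lit 5) (nat_lit 495) (nat_lit 405) (nat_lit 240)) (XT.lf (nat_lit 0) (nat_lit 7697077208) (nat_lit 456) (nat_lit 6400810059) (nat_lit 76) (nat_lit 5588243409) (nat_lit 101) (nat_lit 5) (nat_lit 107) (nat_lit 5) (nat_lit 102) (nat_lit 5) (nat_lit 496) (nat_lit 405) (nat_lit 239))) (XT.nd (nat_lit 78) (nat_lit 304) (nat_lit 0) (XT.lf (nat_lit 0) (nat_lit 3770041108) (nat_lit 304) (nat_lit 7933965262) (nat_lit 380) (nat_lit 8242457413) (nat_lit 97) (nat_lit 5) (nat_lit 101) (nat_lit 5) (nat_lit 102) (nat_lit 5) (nat_lit 497) (nat_lit 405) (nat_lit 238)) (XT.nd (nat_lit 78) (nat_lit 304) (nat_lit 0) (XT.lf (nat_lit 0) (nat_lit 14217228525)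 (nat_lit 304) (nat_lit 1607702602) (nat_lit 380) (nat_lit 4386398272) (nat_lit 97) (nat_lit 5) (nat_lit 101) (nat_lit 5) (nat_lit 102) (nat_lit 5) (nat_lit 498) (nat_lit 405) (nat_lit 237)) (XT.lf (nat_lit 0) (nat_lit 4404450003) (nat_lit 304) (nat_lit 15674930817) (nat_lit 380) (nat_lit 401092309) (nat_lit 93) (nat_lit 5) (nat_lit 97) (nat_lit 5) (nat_lit 98) (nat_lit 5) (nat_lit 499) (nat_lit 405) (nat_lit 236)))))) (XT.nd (nat_lit 52338) (nat_lit 0) (nat_lit 29184) (XT.nd (nat_lit 52104) (nat_lit 0) (nat_lit 30400) (XT.nd (nat_lit 52026) (nat_lit 0) (nat_lit 31692) (XT.lf (nat_lit 0) (nat_lit 3658081524) (nat_lit 380) (nat_lit 5710429860) (nat_lit 76) (nat_lit 11385171097) (nat_lit 92) (nat_lit 5) (nat_lit 97) (nat_lit 5) (nat_lit 93) (nat_lit 5) (nat_lit 500) (nat_lit 405) (nat_lit 235)) (XT.lf (nat_lit 0) (nat_lit 3691435511) (nat_lit 1292) (nat_lit 91607912) (nat_lit 1292) (nat_lit 91607912) (nat_lit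 509) (nat_lit 3) (nat_lit 526) (nat_lit 3) (nat_lit 526) (nat_lit 5) (nat_lit 406) (nat_lit 406) (nat_lit 328))) (XT.nd (nat_lit 78) (nat_lit 0) (nat_lit 0) (XT.lf (nat_lit 0) (nat_lit 933974291) (nat_lit 1292) (nat_lit 4311413912) (nat_lit 1368) (nat_lit 2554578087) (nat_lit 492) (nat_lit 5) (nat_lit 509) (nat_lit 3) (nat_lit 510) (nat_lit 5) (nat_lit 407) (nat_lit 406) (nat_lit 327)) (XT.nd (nat_lit 78) (nat_lit 0) (nat_lit 0) (XT.lf (nat_lit 0) (nat_lit 2223131915) (nat_lit 1292) (nat_lit 635471576) (nat_lit 1368) (nat_lit 4993661674) (nat_lit 492) (nat_lit 5) (nat_lit 509) (nat_lit 3) (nat_lit 510) (nat_lit 5) (nat_lit 408) (nat_lit 406) (nat_lit 326)) (XT.lf (nat_lit 76) (nat_lit 3137831430) (nat_lit 0) (nat_lit 387680692) (nat_lit 1368) (nat_lit 4380372075) (nat_lit 493) (nat_lit 5) (nat_lit 492) (nat_lit 5) (nat_lit 510) (nat_lit 5) (nat_lit 409) (nat_lit 406) (nat_lit 325))))) (XT.nd (nat_lit 156)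 (nat_lit 1292) (nat_lit 0) (XT.nd (nat_lit 78) (nat_lit 0) (nat_lit 0) (XT.lf (nat_lit 0) (nat_lit 4839778517) (nat_lit 1292) (nat_lit 997117443) (nat_lit 1368) (nat_lit 2123985396) (nat_lit 493) (nat_lit 5) (nat_lit 510) (nat_lit 5) (nat_lit 511) (nat_lit 5) (nat_lit 410) (nat_lit 406) (nat_lit 324)) (XT.lf (nat_lit 76) (nat_lit 2866651389) (nat_lit 0) (nat_lit 3303191165) (nat_lit 1368) (nat_lit 1847367732) (nat_lit 494) (nat_lit 5) (nat_lit 493) (nat_lit 5) (nat_lit 511) (nat_lit 5) (nat_lit 411) (nat_lit 406) (nat_lit 323))) (XT.nd (nat_lit 78) (nat_lit 1292) (nat_lit 0) (XT.lf (nat_lit 76) (nat_lit 6803713247) (nat_lit 0) (nat_lit 698325817) (nat_lit 1368) (nat_lit 573137752) (nat_lit 494) (nat_lit 5) (nat_lit 493) (nat_lit 5) (nat_lit 511) (nat_lit 5) (nat_lit 412) (nat_lit 406) (nat_lit 322)) (XT.nd (nat_lit 78) (nat_lit 0) (nat_lit 0) (XT.lf (nat_lit 0) (nat_lit 716744179) (nat_lit 1368) (nat_lit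 5449144092) (nat_lit 1444) (nat_lit 1968346927) (nat_lit 476) (nat_lit 5) (nat_lit 494) (nat_lit 5) (nat_lit 495) (nat_lit 5) (nat_lit 413) (nat_lit 406) (nat_lit 321)) (XT.lf (nat_lit 0) (nat_lit 2007770857) (nat_lit 1368) (nat_lit 1482947720) (nat_lit 1444) (nat_lit 4704040371) (nat_lit 476) (nat_lit 5) (nat_lit 494) (nat_lit 5) (nat_lit 495) (nat_lit 5) (nat_lit 414) (nat_lit 406) (nat_lit 320))))))) (XT.nd (nat_lit 780) (nat_lit 6080) (nat_lit 0) (XT.nd (nat_lit 390) (nat_lit 0) (nat_lit 0) (XT.nd (nat_lit 156) (nat_lit 1292) (nat_lit 0) (XT.nd (nat_lit 78) (nat_lit 0) (nat_lit 76) (XT.lf (nat_lit 76) (nat_lit 2578568697) (nat_lit 0) (nat_lit 733184169) (nat_lit 1444) (nat_lit 4945017605) (nat_lit 477) (nat_lit 5) (nat_lit 476) (nat_lit 5) (nat_lit 495) (nat_lit 5) (nat_lit 415) (nat_lit 406) (nat_lit 319)) (XT.lf (nat_lit 0) (nat_lit 4636266125) (nat_lit 1368) (nat_lit 1610355118) (nat_lit 1444) (nat_lit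 2073531552) (nat_lit 477) (nat_lit 5) (nat_lit 495) (nat_lit 5) (nat_lit 496) (nat_lit 5) (nat_lit 416) (nat_lit 406) (nat_lit 318))) (XT.nd (nat_lit 78) (nat_lit 1368) (nat_lit 0) (XT.lf (nat_lit 76) (nat_lit 2549407605) (nat_lit 0) (nat_lit 3430772805) (nat_lit 1444) (nat_lit 2404783359) (nat_lit 478) (nat_lit 5) (nat_lit 477) (nat_lit 5) (nat_lit 496) (nat_lit 5) (nat_lit 417) (nat_lit 406) (nat_lit 317)) (XT.nd (nat_lit 78) (nat_lit 1368) (nat_lit 0) (XT.lf (nat_lit 76) (nat_lit 6796291649) (nat_lit 0) (nat_lit 537432986) (nat_lit 1444) (nat_lit 1117710135) (nat_lit 478) (nat_lit 5) (nat_lit 477) (nat_lit 5) (nat_lit 496) (nat_lit 5) (nat_lit 418) (nat_lit 406) (nat_lit 316)) (XT.lf (nat_lit 0) (nat_lit 197734535) (nat_lit 1444) (nat_lit 5911208923) (nat_lit 1520) (nat_lit 2410180733) (nat_lit 459) (nat_lit 5) (nat_lit 478) (nat_lit 5) (nat_lit 479) (nat_lit 5) (nat_lit 419) (nat_lit 406) (nat_lit 315)))))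 (XT.nd (nat_lit 156) (nat_lit 0) (nat_lit 76) (XT.nd (nat_lit 78) (nat_lit 0) (nat_lit 0) (XT.lf (nat_lit 0) (nat_lit 1512059523) (nat_lit 1444) (nat_lit 1638753980) (nat_lit 1520) (nat_lit 5437473140) (nat_lit 459) (nat_lit 5) (nat_lit 478) (nat_lit 5) (nat_lit 479) (nat_lit 5) (nat_lit 420) (nat_lit 406) (nat_lit 314)) (XT.lf (nat_lit 76) (nat_lit 2736962806) (nat_lit 0) (nat_lit 106796006) (nat_lit 1520) (nat_lit 5815269183) (nat_lit 460) (nat_lit 5) (nat_lit 459) (nat_lit 5) (nat_lit 479) (nat_lit 5) (nat_lit 421) (nat_lit 406) (nat_lit 313))) (XT.nd (nat_lit 78) (nat_lit 0) (nat_lit 0) (XT.lf (nat_lit 0) (nat_lit 4206405620) (nat_lit 1444) (nat_lit 1546655655) (nat_lit 1520) (nat_lit 2978053693) (nat_lit 460) (nat_lit 5) (nat_lit 479) (nat_lit 5) (nat_lit 480) (nat_lit 5) (nat_lit 422) (nat_lit 406) (nat_lit 312)) (XT.nd (nat_lit 78) (nat_lit 0) (nat_lit 76) (XT.lf (nat_lit 76) (nat_lit 2935862512)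 (nat_lit 0) (nat_lit 2654503969) (nat_lit 1520) (nat_lit 3214412708) (nat_lit 461) (nat_lit 5) (nat_lit 460) (nat_lit 5) (nat_lit 480) (nat_lit 5) (nat_lit 423) (nat_lit 406) (nat_lit 311)) (XT.lf (nat_lit 0) (nat_lit 6990465647) (nat_lit 1444) (nat_lit 1372713734) (nat_lit 1520) (nat_lit 516984536) (nat_lit 461) (nat_lit 5) (nat_lit 480) (nat_lit 5) (nat_lit 481) (nat_lit 5) (nat_lit 424) (nat_lit 406) (nat_lit 310)))))) (XT.nd (nat_lit 390) (nat_lit 4712) (nat_lit 0) (XT.nd (nat_lit 156) (nat_lit 0) (nat_lit 76) (XT.nd (nat_lit 78) (nat_lit 1520) (nat_lit 0) (XT.lf (nat_lit 76) (nat_lit 3219780592) (nat_lit 0) (nat_lit 5212492249) (nat_lit 1520) (nat_lit 524525458) (nat_lit 462) (nat_lit 5) (nat_lit 461) (nat_lit 5) (nat_lit 481) (nat_lit 5) (nat_lit 425) (nat_lit 406) (nat_lit 309)) (XT.lf (nat_lit 0) (nat_lit 841252435) (nat_lit 1520) (nat_lit 1136248275) (nat_lit 1596) (nat_lit 7057673710) (nat_lit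 441) (nat_lit 5) (nat_lit 461) (nat_lit 5) (nat_lit 462) (nat_lit 5) (nat_lit 426) (nat_lit 406) (nat_lit 308))) (XT.nd (nat_lit 78) (nat_lit 0) (nat_lit 0) (XT.lf (nat_lit 0) (nat_lit 2235279843) (nat_lit 1520) (nat_lit 5541981211) (nat_lit 1596) (nat_lit 1337643674) (nat_lit 442) (nat_lit 5) (nat_lit 462) (nat_lit 5) (nat_lit 463) (nat_lit 5) (nat_lit 427) (nat_lit 406) (nat_lit 307)) (XT.nd (nat_lit 78) (nat_lit 0) (nat_lit 0) (XT.lf (nat_lit 0) (nat_lit 3654246431) (nat_lit 1520) (nat_lit 836090806) (nat_lit 1596) (nat_lit 4705966088) (nat_lit 442) (nat_lit 5) (nat_lit 462) (nat_lit 5) (nat_lit 463) (nat_lit 5) (nat_lit 428) (nat_lit 406) (nat_lit 306)) (XT.lf (nat_lit 76) (nat_lit 3998169784) (nat_lit 0) (nat_lit 1106133573) (nat_lit 1596) (nat_lit 4174986883) (nat_lit 443) (nat_lit 5) (nat_lit 442) (nat_lit 5) (nat_lit 463) (nat_lit 5) (nat_lit 429) (nat_lit 406) (nat_lit 305))))) (XT.nd (nat_lit 234)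 (nat_lit 3268) (nat_lit 0) (XT.nd (nat_lit 78) (nat_lit 1596) (nat_lit 0) (XT.lf (nat_lit 0) (nat_lit 6581361621) (nat_lit 1520) (nat_lit 457211634) (nat_lit 76) (nat_lit 2325417915) (nat_lit 443) (nat_lit 5) (nat_lit 463) (nat_lit 5) (nat_lit 444) (nat_lit 5) (nat_lit 430) (nat_lit 406) (nat_lit 304)) (XT.nd (nat_lit 78) (nat_lit 76) (nat_lit 0) (XT.lf (nat_lit 0) (nat_lit 4496619420) (nat_lit 1520) (nat_lit 3605432878) (nat_lit 1596) (nat_lit 1348065995) (nat_lit 423) (nat_lit 5) (nat_lit 443) (nat_lit 5) (nat_lit 444) (nat_lit 5) (nat_lit 431) (nat_lit 406) (nat_lit 303)) (XT.lf (nat_lit 0) (nat_lit 94499803) (nat_lit 1596) (nat_lit 1344211) (nat_lit 76) (nat_lit 9442506009) (nat_lit 422) (nat_lit 5) (nat_lit 443) (nat_lit 5) (nat_lit 423) (nat_lit 5) (nat_lit 432) (nat_lit 406) (nat_lit 302)))) (XT.nd (nat_lit 78) (nat_lit 1672) (nat_lit 0) (XT.lf (nat_lit 0) (nat_lit 1582021025) (nat_lit 1672) (nat_lit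 4561235279) (nat_lit 76) (nat_lit 3484241966) (nat_lit 401) (nat_lit 5) (nat_lit 423) (nat_lit 5) (nat_lit 402) (nat_lit 5) (nat_lit 433) (nat_lit 406) (nat_lit 301)) (XT.nd (nat_lit 78) (nat_lit 0) (nat_lit 0) (XT.lf (nat_lit 0) (nat_lit 504410379) (nat_lit 1672) (nat_lit 2577306041) (nat_lit 1748) (nat_lit 6637077521) (nat_lit 379) (nat_lit 5) (nat_lit 401) (nat_lit 5) (nat_lit 402) (nat_lit 5) (nat_lit 434) (nat_lit 406) (nat_lit 300)) (XT.lf (nat_lit 0) (nat_lit 4627925619) (nat_lit 1748) (nat_lit 4103906500) (nat_lit 76) (nat_lit 1079765688) (nat_lit 379) (nat_lit 5) (nat_lit 402) (nat_lit 5) (nat_lit 380) (nat_lit 5) (nat_lit 435) (nat_lit 406) (nat_lit 299))))))))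
noncomputable def xc168 : XT := (XT.nd (nat_lit 1560) (nat_lit 6536) (nat_lit 0) (XT.nd (nat_lit 780) (nat_lit 4484) (nat_lit 0) (XT.nd (nat_lit 390) (nat_lit 1748) (nat_lit 0) (XT.nd (nat_lit 156) (nat_lit 1900) (nat_lit 0) (XT.nd (nat_lit 78) (nat_lit 0) (nat_lit 0) (XT.lf (nat_lit 0) (nat_lit 1087627113) (nat_lit 1748) (nat_lit 5120803813) (nat_lit 1824) (nat_lit 3697771818) (nat_lit 356) (nat_lit 5) (nat_lit 379) (nat_lit 5) (nat_lit 380) (nat_lit 5) (nat_lit 436) (nat_lit 406) (nat_lit 298)) (XT.lf (nat_lit 0) (nat_lit 6420392487) (nat_lit 1748) (nat_lit 1407223968) (nat_lit 1824) (nat_lit 2174954110) (nat_lit 356) (nat_lit 5) (nat_lit 379) (nat_lit 5) (nat_lit 380) (nat_lit 5) (nat_lit 437) (nat_lit 406) (nat_lit 297))) (XT.nd (nat_lit 78) (nat_lit 988) (nat_lit 0) (XT.lf (nat_lit 0) (nat_lit 1748119114) (nat_lit 912) (nat_lit 7737819507) (nat_lit 988) (nat_lit 614804012) (nat_lit 344) (nat_lit 5)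 (nat_lit 356) (nat_lit 5) (nat_lit 357) (nat_lit 5) (nat_lit 438) (nat_lit 406) (nat_lit 296)) (XT.nd (nat_lit 78) (nat_lit 912) (nat_lit 0) (XT.lf (nat_lit 0) (nat_lit 977337334) (nat_lit 988) (nat_lit 3001091154) (nat_lit 76) (nat_lit 6222062413) (nat_lit 343) (nat_lit 5) (nat_lit 356) (nat_lit 5) (nat_lit 344) (nat_lit 5) (nat_lit 439) (nat_lit 406) (nat_lit 295)) (XT.lf (nat_lit 0) (nat_lit 2467671684) (nat_lit 912) (nat_lit 121916665) (nat_lit 988) (nat_lit 7712645785) (nat_lit 331) (nat_lit 5) (nat_lit 343) (nat_lit 5) (nat_lit 344) (nat_lit 5) (nat_lit 440) (nat_lit 406) (nat_lit 294))))) (XT.nd (nat_lit 156) (nat_lit 912) (nat_lit 0) (XT.nd (nat_lit 78) (nat_lit 836) (nat_lit 0) (XT.lf (nat_lit 0) (nat_lit 4259849152) (nat_lit 988) (nat_lit 2362378968) (nat_lit 76) (nat_lit 3783279858) (nat_lit 331) (nat_lit 5) (nat_lit 344) (nat_lit 5) (nat_lit 332) (nat_lit 5) (nat_lit 441) (nat_lit 406) (nat_lit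 293)) (XT.lf (nat_lit 0) (nat_lit 3242954831) (nat_lit 836) (nat_lit 2723544955) (nat_lit 912) (nat_lit 4544298641) (nat_lit 320) (nat_lit 5) (nat_lit 331) (nat_lit 5) (nat_lit 332) (nat_lit 5) (nat_lit 442) (nat_lit 406) (nat_lit 292))) (XT.nd (nat_lit 78) (nat_lit 912) (nat_lit 0) (XT.lf (nat_lit 0) (nat_lit 7712757719) (nat_lit 912) (nat_lit 1651987830) (nat_lit 76) (nat_lit 1253350260) (nat_lit 320) (nat_lit 5) (nat_lit 332) (nat_lit 5) (nat_lit 321) (nat_lit 5) (nat_lit 443) (nat_lit 406) (nat_lit 291)) (XT.nd (nat_lit 78) (nat_lit 76) (nat_lit 0) (XT.lf (nat_lit 0) (nat_lit 4093912138) (nat_lit 836) (nat_lit 5426391336) (nat_lit 912) (nat_lit 1206718813) (nat_lit 309) (nat_lit 5) (nat_lit 320) (nat_lit 5) (nat_lit 321) (nat_lit 5) (nat_lit 444) (nat_lit 406) (nat_lit 290)) (XT.lf (nat_lit 0) (nat_lit 511993546) (nat_lit 912) (nat_lit 882331800) (nat_lit 76) (nat_lit 9443883310) (nat_lit 308) (nat_lit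 5) (nat_lit 320) (nat_lit 5) (nat_lit 309) (nat_lit 5) (nat_lit 445) (nat_lit 406) (nat_lit 289)))))) (XT.nd (nat_lit 390) (nat_lit 2204) (nat_lit 0) (XT.nd (nat_lit 156) (nat_lit 1520) (nat_lit 0) (XT.nd (nat_lit 78) (nat_lit 0) (nat_lit 0) (XT.lf (nat_lit 0) (nat_lit 2281687337) (nat_lit 836) (nat_lit 5945441987) (nat_lit 76) (nat_lit 2723684397) (nat_lit 298) (nat_lit 5) (nat_lit 309) (nat_lit 5) (nat_lit 299) (nat_lit 5) (nat_lit 446) (nat_lit 406) (nat_lit 288)) (XT.lf (nat_lit 0) (nat_lit 4084417547) (nat_lit 836) (nat_lit 69987496) (nat_lit 76) (nat_lit 6911322605) (nat_lit 298) (nat_lit 5) (nat_lit 309) (nat_lit 5) (nat_lit 299) (nat_lit 5) (nat_lit 447) (nat_lit 406) (nat_lit 287))) (XT.nd (nat_lit 78) (nat_lit 760) (nat_lit 0) (XT.lf (nat_lit 0) (nat_lit 5945099424) (nat_lit 836) (nat_lit 5198913706) (nat_lit 76) (nat_lit 38498202) (nat_lit 288) (nat_lit 5) (nat_lit 299) (nat_lit 5) (nat_lit 289)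 (nat_lit 5) (nat_lit 448) (nat_lit 406) (nat_lit 286)) (XT.nd (nat_lit 78) (nat_lit 0) (nat_lit 0) (XT.lf (nat_lit 0) (nat_lit 823030991) (nat_lit 760) (nat_lit 7036306251) (nat_lit 836) (nat_lit 3441975839) (nat_lit 278) (nat_lit 5) (nat_lit 288) (nat_lit 5) (nat_lit 289) (nat_lit 5) (nat_lit 449) (nat_lit 406) (nat_lit 285)) (XT.lf (nat_lit 0) (nat_lit 7018175189) (nat_lit 760) (nat_lit 2811803411) (nat_lit 836) (nat_lit 1592158946) (nat_lit 278) (nat_lit 5) (nat_lit 288) (nat_lit 5) (nat_lit 289) (nat_lit 5) (nat_lit 450) (nat_lit 406) (nat_lit 284))))) (XT.nd (nat_lit 156) (nat_lit 1368) (nat_lit 0) (XT.nd (nat_lit 78) (nat_lit 0) (nat_lit 0) (XT.lf (nat_lit 0) (nat_lit 295696362) (nat_lit 836) (nat_lit 9759360177) (nat_lit 76) (nat_lit 1490194271) (nat_lit 267) (nat_lit 5) (nat_lit 278) (nat_lit 5) (nat_lit 268) (nat_lit 5) (nat_lit 451) (nat_lit 406) (nat_lit 283)) (XT.lf (nat_lit 0) (nat_lit 2232025864)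 (nat_lit 836) (nat_lit 3558164610) (nat_lit 76) (nat_lit 5879793194) (nat_lit 267) (nat_lit 5) (nat_lit 278) (nat_lit 5) (nat_lit 268) (nat_lit 5) (nat_lit 452) (nat_lit 406) (nat_lit 282))) (XT.nd (nat_lit 78) (nat_lit 684) (nat_lit 0) (XT.lf (nat_lit 0) (nat_lit 2786138860) (nat_lit 684) (nat_lit 1422999549) (nat_lit 760) (nat_lit 7588040012) (nat_lit 258) (nat_lit 5) (nat_lit 267) (nat_lit 5) (nat_lit 268) (nat_lit 5) (nat_lit 453) (nat_lit 406) (nat_lit 281)) (XT.nd (nat_lit 78) (nat_lit 684) (nat_lit 0) (XT.lf (nat_lit 0) (nat_lit 6253670189) (nat_lit 760) (nat_lit 2658377022) (nat_lit 76) (nat_lit 3014320519) (nat_lit 258) (nat_lit 5) (nat_lit 268) (nat_lit 5) (nat_lit 259) (nat_lit 5) (nat_lit 454) (nat_lit 406) (nat_lit 280)) (XT.lf (nat_lit 0) (nat_lit 3845032546) (nat_lit 684) (nat_lit 4512917969) (nat_lit 760) (nat_lit 3699821194) (nat_lit 249) (nat_lit 5) (nat_lit 258) (nat_lit 5) (nat_lit 259)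 (nat_lit 5) (nat_lit 455) (nat_lit 406) (nat_lit 279))))))) (XT.nd (nat_lit 780) (nat_lit 3344) (nat_lit 0) (XT.nd (nat_lit 390) (nat_lit 1216) (nat_lit 0) (XT.nd (nat_lit 156) (nat_lit 1292) (nat_lit 0) (XT.nd (nat_lit 78) (nat_lit 684) (nat_lit 0) (XT.lf (nat_lit 0) (nat_lit 10497348514) (nat_lit 684) (nat_lit 9469478) (nat_lit 760) (nat_lit 1684943627) (nat_lit 249) (nat_lit 5) (nat_lit 258) (nat_lit 5) (nat_lit 259) (nat_lit 5) (nat_lit 456) (nat_lit 406) (nat_lit 278)) (XT.lf (nat_lit 0) (nat_lit 412678748) (nat_lit 684) (nat_lit 7357637261) (nat_lit 76) (nat_lit 4557128762) (nat_lit 240) (nat_lit 5) (nat_lit 249) (nat_lit 5) (nat_lit 241) (nat_lit 5) (nat_lit 457) (nat_lit 406) (nat_lit 277))) (XT.nd (nat_lit 78) (nat_lit 1292) (nat_lit 0) (XT.lf (nat_lit 0) (nat_lit 2526251518) (nat_lit 684) (nat_lit 703879737) (nat_lit 76) (nat_lit 9235563823) (nat_lit 240) (nat_lit 5) (nat_lit 249) (nat_lit 5) (nat_lit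 241) (nat_lit 5) (nat_lit 458) (nat_lit 406) (nat_lit 276)) (XT.nd (nat_lit 78) (nat_lit 608) (nat_lit 0) (XT.lf (nat_lit 0) (nat_lit 4716672357) (nat_lit 760) (nat_lit 6468902191) (nat_lit 76) (nat_lit 1420451595) (nat_lit 231) (nat_lit 5) (nat_lit 241) (nat_lit 5) (nat_lit 232) (nat_lit 5) (nat_lit 459) (nat_lit 406) (nat_lit 275)) (XT.lf (nat_lit 0) (nat_lit 341391771) (nat_lit 608) (nat_lit 6623359783) (nat_lit 684) (nat_lit 5784142415) (nat_lit 223) (nat_lit 5) (nat_lit 231) (nat_lit 5) (nat_lit 232) (nat_lit 5) (nat_lit 460) (nat_lit 406) (nat_lit 274))))) (XT.nd (nat_lit 156) (nat_lit 608) (nat_lit 0) (XT.nd (nat_lit 78) (nat_lit 608) (nat_lit 0) (XT.lf (nat_lit 0) (nat_lit 7358609274) (nat_lit 608) (nat_lit 1928254306) (nat_lit 684) (nat_lit 3607181148) (nat_lit 223) (nat_lit 5) (nat_lit 231) (nat_lit 5) (nat_lit 232) (nat_lit 5) (nat_lit 461) (nat_lit 406) (nat_lit 273)) (XT.lf (nat_lit 0) (nat_lit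 1457708296) (nat_lit 608) (nat_lit 10211673769) (nat_lit 684) (nat_lit 1372444016) (nat_lit 215) (nat_lit 5) (nat_lit 223) (nat_lit 5) (nat_lit 224) (nat_lit 5) (nat_lit 462) (nat_lit 406) (nat_lit 272))) (XT.nd (nat_lit 78) (nat_lit 532) (nat_lit 0) (XT.lf (nat_lit 0) (nat_lit 931248192) (nat_lit 684) (nat_lit 4561965613) (nat_lit 76) (nat_lit 7698514964) (nat_lit 214) (nat_lit 5) (nat_lit 223) (nat_lit 5) (nat_lit 215) (nat_lit 5) (nat_lit 463) (nat_lit 406) (nat_lit 271)) (XT.nd (nat_lit 78) (nat_lit 0) (nat_lit 0) (XT.lf (nat_lit 0) (nat_lit 2609102543) (nat_lit 532) (nat_lit 656760570) (nat_lit 608) (nat_lit 10078526911) (nat_lit 207) (nat_lit 5) (nat_lit 214) (nat_lit 5) (nat_lit 215) (nat_lit 5) (nat_lit 464) (nat_lit 406) (nat_lit 270)) (XT.lf (nat_lit 0) (nat_lit 5692162789) (nat_lit 608) (nat_lit 3558835322) (nat_lit 76) (nat_lit 4248212883) (nat_lit 207) (nat_lit 5) (nat_lit 215) (nat_lit 5) (nat_lit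 208) (nat_lit 5) (nat_lit 465) (nat_lit 406) (nat_lit 269)))))) (XT.nd (nat_lit 390) (nat_lit 1596) (nat_lit 0) (XT.nd (nat_lit 156) (nat_lit 1140) (nat_lit 0) (XT.nd (nat_lit 78) (nat_lit 0) (nat_lit 0) (XT.lf (nat_lit 0) (nat_lit 3790027197) (nat_lit 608) (nat_lit 4392595648) (nat_lit 684) (nat_lit 5474199067) (nat_lit 199) (nat_lit 5) (nat_lit 207) (nat_lit 5) (nat_lit 208) (nat_lit 5) (nat_lit 466) (nat_lit 406) (nat_lit 268)) (XT.lf (nat_lit 0) (nat_lit 10737398908) (nat_lit 684) (nat_lit 2503429295) (nat_lit 76) (nat_lit 576472803) (nat_lit 199) (nat_lit 5) (nat_lit 208) (nat_lit 5) (nat_lit 200) (nat_lit 5) (nat_lit 467) (nat_lit 406) (nat_lit 267))) (XT.nd (nat_lit 78) (nat_lit 608) (nat_lit 0) (XT.lf (nat_lit 0) (nat_lit 5027762790) (nat_lit 532) (nat_lit 8364311687) (nat_lit 608) (nat_lit 587945100) (nat_lit 192) (nat_lit 5) (nat_lit 199) (nat_lit 5) (nat_lit 200) (nat_lit 5) (nat_lit 468) (nat_lit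 406) (nat_lit 266)) (XT.nd (nat_lit 78) (nat_lit 532) (nat_lit 0) (XT.lf (nat_lit 0) (nat_lit 1932264912) (nat_lit 608) (nat_lit 1431300368) (nat_lit 76) (nat_lit 10782098488) (nat_lit 191) (nat_lit 5) (nat_lit 199) (nat_lit 5) (nat_lit 192) (nat_lit 5) (nat_lit 469) (nat_lit 406) (nat_lit 265)) (XT.lf (nat_lit 0) (nat_lit 4534870287) (nat_lit 608) (nat_lit 8022731699) (nat_lit 76) (nat_lit 1756149487) (nat_lit 184) (nat_lit 5) (nat_lit 192) (nat_lit 5) (nat_lit 185) (nat_lit 5) (nat_lit 470) (nat_lit 406) (nat_lit 264))))) (XT.nd (nat_lit 234) (nat_lit 532) (nat_lit 0) (XT.nd (nat_lit 78) (nat_lit 1064) (nat_lit 0) (XT.lf (nat_lit 0) (nat_lit 7208973734) (nat_lit 608) (nat_lit 336326237) (nat_lit 76) (nat_lit 6939517561) (nat_lit 184) (nat_lit 5) (nat_lit 192) (nat_lit 5) (nat_lit 185) (nat_lit 5) (nat_lit 471) (nat_lit 406) (nat_lit 263)) (XT.nd (nat_lit 78) (nat_lit 532) (nat_lit 0) (XT.lf (nat_lit 0)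 (nat_lit 7587468841) (nat_lit 532) (nat_lit 2386100652) (nat_lit 608) (nat_lit 4685000625) (nat_lit 177) (nat_lit 5) (nat_lit 184) (nat_lit 5) (nat_lit 185) (nat_lit 5) (nat_lit 472) (nat_lit 406) (nat_lit 262)) (XT.lf (nat_lit 0) (nat_lit 814570489) (nat_lit 532) (nat_lit 11992983829) (nat_lit 608) (nat_lit 2027966800) (nat_lit 170) (nat_lit 5) (nat_lit 177) (nat_lit 5) (nat_lit 178) (nat_lit 5) (nat_lit 473) (nat_lit 406) (nat_lit 261)))) (XT.nd (nat_lit 78) (nat_lit 456) (nat_lit 0) (XT.lf (nat_lit 0) (nat_lit 724739658) (nat_lit 608) (nat_lit 6097831313) (nat_lit 76) (nat_lit 8192327095) (nat_lit 169) (nat_lit 5) (nat_lit 177) (nat_lit 5) (nat_lit 170) (nat_lit 5) (nat_lit 474) (nat_lit 406) (nat_lit 260)) (XT.nd (nat_lit 78) (nat_lit 0) (nat_lit 0) (XT.lf (nat_lit 0) (nat_lit 1980580181) (nat_lit 456) (nat_lit 1525799417) (nat_lit 532) (nat_lit 11691199181) (nat_lit 163) (nat_lit 5) (nat_lit 169) (nat_lit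 5) (nat_lit 170) (nat_lit 5) (nat_lit 475) (nat_lit 406) (nat_lit 259)) (XT.lf (nat_lit 0) (nat_lit 6398269379) (nat_lit 532) (nat_lit 5121145806) (nat_lit 76) (nat_lit 3863410481) (nat_lit 163) (nat_lit 5) (nat_lit 170) (nat_lit 5) (nat_lit 164) (nat_lit 5) (nat_lit 476) (nat_lit 406) (nat_lit 258))))))))
noncomputable def xc169 : XT := (XT.nd (nat_lit 1560) (nat_lit 684) (nat_lit 0) (XT.nd (nat_lit 780) (nat_lit 2356) (nat_lit 0) (XT.nd (nat_lit 390) (nat_lit 912) (nat_lit 0) (XT.nd (nat_lit 156) (nat_lit 988) (nat_lit 0) (XT.nd (nat_lit 78) (nat_lit 0) (nat_lit 0) (XT.lf (nat_lit 0) (nat_lit 3152347065) (nat_lit 456) (nat_lit 6214706880) (nat_lit 532) (nat_lit 6204347211) (nat_lit 157) (nat_lit 5) (nat_lit 163) (nat_lit 5) (nat_lit 164) (nat_lit 5) (nat_lit 477) (nat_lit 406) (nat_lit 257)) (XT.lf (nat_lit 0) (nat_lit 11645314411) (nat_lit 456) (nat_lit 772876311) (nat_lit 532) (nat_lit 3345102616) (nat_lit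 157) (nat_lit 5) (nat_lit 163) (nat_lit 5) (nat_lit 164) (nat_lit 5) (nat_lit 478) (nat_lit 406) (nat_lit 256))) (XT.nd (nat_lit 78) (nat_lit 532) (nat_lit 0) (XT.lf (nat_lit 0) (nat_lit 4359964931) (nat_lit 456) (nat_lit 11218522304) (nat_lit 532) (nat_lit 379578005) (nat_lit 151) (nat_lit 5) (nat_lit 157) (nat_lit 5) (nat_lit 158) (nat_lit 5) (nat_lit 479) (nat_lit 406) (nat_lit 255)) (XT.nd (nat_lit 78) (nat_lit 456) (nat_lit 0) (XT.lf (nat_lit 0) (nat_lit 2632350781) (nat_lit 532) (nat_lit 3130733898) (nat_lit 76) (nat_lit 10392873112) (nat_lit 150) (nat_lit 5) (nat_lit 157) (nat_lit 5) (nat_lit 151) (nat_lit 5) (nat_lit 480) (nat_lit 406) (nat_lit 254)) (XT.lf (nat_lit 0) (nat_lit 5561339545) (nat_lit 456) (nat_lit 163278813) (nat_lit 532) (nat_lit 10632640352) (nat_lit 144) (nat_lit 5) (nat_lit 150) (nat_lit 5) (nat_lit 151) (nat_lit 5) (nat_lit 481) (nat_lit 406) (nat_lit 253))))) (XT.nd (nat_lit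 156) (nat_lit 532) (nat_lit 0) (XT.nd (nat_lit 78) (nat_lit 380) (nat_lit 0) (XT.lf (nat_lit 0) (nat_lit 8925064276) (nat_lit 532) (nat_lit 2143795867) (nat_lit 76) (nat_lit 5492803110) (nat_lit 144) (nat_lit 5) (nat_lit 151) (nat_lit 5) (nat_lit 145) (nat_lit 5) (nat_lit 482) (nat_lit 406) (nat_lit 252)) (XT.lf (nat_lit 0) (nat_lit 6754006873) (nat_lit 380) (nat_lit 5469817883) (nat_lit 456) (nat_lit 4545649202) (nat_lit 139) (nat_lit 5) (nat_lit 144) (nat_lit 5) (nat_lit 145) (nat_lit 5) (nat_lit 483) (nat_lit 406) (nat_lit 251))) (XT.nd (nat_lit 78) (nat_lit 532) (nat_lit 0) (XT.lf (nat_lit 0) (nat_lit 15594065546) (nat_lit 456) (nat_lit 1138939857) (nat_lit 76) (nat_lit 248329473) (nat_lit 139) (nat_lit 5) (nat_lit 145) (nat_lit 5) (nat_lit 140) (nat_lit 5) (nat_lit 484) (nat_lit 406) (nat_lit 250)) (XT.nd (nat_lit 78) (nat_lit 0) (nat_lit 0) (XT.lf (nat_lit 0) (nat_lit 1888358197) (nat_lit 532) (nat_lit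 9239559988) (nat_lit 76) (nat_lit 6067717844) (nat_lit 132) (nat_lit 5) (nat_lit 139) (nat_lit 5) (nat_lit 133) (nat_lit 5) (nat_lit 485) (nat_lit 406) (nat_lit 249)) (XT.lf (nat_lit 0) (nat_lit 5208334576) (nat_lit 532) (nat_lit 189579188) (nat_lit 76) (nat_lit 12016181673) (nat_lit 132) (nat_lit 5) (nat_lit 139) (nat_lit 5) (nat_lit 133) (nat_lit 5) (nat_lit 486) (nat_lit 406) (nat_lit 248)))))) (XT.nd (nat_lit 390) (nat_lit 1140) (nat_lit 0) (XT.nd (nat_lit 156) (nat_lit 456) (nat_lit 0) (XT.nd (nat_lit 78) (nat_lit 380) (nat_lit 0) (XT.lf (nat_lit 0) (nat_lit 8647266956) (nat_lit 456) (nat_lit 8492255971) (nat_lit 76) (nat_lit 496353763) (nat_lit 127) (nat_lit 5) (nat_lit 133) (nat_lit 5) (nat_lit 128) (nat_lit 5) (nat_lit 487) (nat_lit 406) (nat_lit 247)) (XT.lf (nat_lit 0) (nat_lit 763752584) (nat_lit 380) (nat_lit 11423192398) (nat_lit 456) (nat_lit 5674512963) (nat_lit 122) (nat_lit 5) (nat_lit 127)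 (nat_lit 5) (nat_lit 128) (nat_lit 5) (nat_lit 488) (nat_lit 406) (nat_lit 246))) (XT.nd (nat_lit 78) (nat_lit 456) (nat_lit 0) (XT.lf (nat_lit 0) (nat_lit 10305597168) (nat_lit 380) (nat_lit 5538889729) (nat_lit 456) (nat_lit 2246126162) (nat_lit 122) (nat_lit 5) (nat_lit 127) (nat_lit 5) (nat_lit 128) (nat_lit 5) (nat_lit 489) (nat_lit 406) (nat_lit 245)) (XT.nd (nat_lit 78) (nat_lit 0) (nat_lit 0) (XT.lf (nat_lit 0) (nat_lit 1238866831) (nat_lit 456) (nat_lit 16613235006) (nat_lit 76) (nat_lit 472001649) (nat_lit 116) (nat_lit 5) (nat_lit 122) (nat_lit 5) (nat_lit 117) (nat_lit 5) (nat_lit 490) (nat_lit 406) (nat_lit 244)) (XT.lf (nat_lit 0) (nat_lit 4843061511) (nat_lit 456) (nat_lit 7125247464) (nat_lit 76) (nat_lit 6592069690) (nat_lit 116) (nat_lit 5) (nat_lit 122) (nat_lit 5) (nat_lit 117) (nat_lit 5) (nat_lit 491) (nat_lit 406) (nat_lit 243))))) (XT.nd (nat_lit 156) (nat_lit 760) (nat_lit 0) (XT.nd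 (nat_lit 78) (nat_lit 0) (nat_lit 0) (XT.lf (nat_lit 0) (nat_lit 2572190763) (nat_lit 380) (nat_lit 5954320699) (nat_lit 456) (nat_lit 10274727824) (nat_lit 111) (nat_lit 5) (nat_lit 116) (nat_lit 5) (nat_lit 117) (nat_lit 5) (nat_lit 492) (nat_lit 406) (nat_lit 242)) (XT.lf (nat_lit 0) (nat_lit 12323467492) (nat_lit 456) (nat_lit 6501397494) (nat_lit 76) (nat_lit 221258690) (nat_lit 111) (nat_lit 5) (nat_lit 117) (nat_lit 5) (nat_lit 112) (nat_lit 5) (nat_lit 493) (nat_lit 406) (nat_lit 241))) (XT.nd (nat_lit 78) (nat_lit 456) (nat_lit 0) (XT.lf (nat_lit 0) (nat_lit 3412289472) (nat_lit 304) (nat_lit 12836384065) (nat_lit 380) (nat_lit 3046189231) (nat_lit 107) (nat_lit 5) (nat_lit 111) (nat_lit 5) (nat_lit 112) (nat_lit 5) (nat_lit 494) (nat_lit 406) (nat_lit 240)) (XT.nd (nat_lit 78) (nat_lit 380) (nat_lit 0) (XT.lf (nat_lit 0) (nat_lit 729245385) (nat_lit 380) (nat_lit 5954056520) (nat_lit 76) (nat_lit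 12864493078) (nat_lit 106) (nat_lit 5) (nat_lit 111) (nat_lit 5) (nat_lit 107) (nat_lit 5) (nat_lit 495) (nat_lit 406) (nat_lit 239)) (XT.lf (nat_lit 0) (nat_lit 4194265446) (nat_lit 380) (nat_lit 363338341) (nat_lit 456) (nat_lit 15247418324) (nat_lit 101) (nat_lit 5) (nat_lit 106) (nat_lit 5) (nat_lit 107) (nat_lit 5) (nat_lit 496) (nat_lit 406) (nat_lit 238))))))) (XT.nd (nat_lit 52806) (nat_lit 0) (nat_lit 27816) (XT.nd (nat_lit 52416) (nat_lit 0) (nat_lit 29108) (XT.nd (nat_lit 156) (nat_lit 380) (nat_lit 0) (XT.nd (nat_lit 78) (nat_lit 304) (nat_lit 0) (XT.lf (nat_lit 0) (nat_lit 8533237943) (nat_lit 456) (nat_lit 5493755515) (nat_lit 76) (nat_lit 6038989139) (nat_lit 101) (nat_lit 5) (nat_lit 107) (nat_lit 5) (nat_lit 102) (nat_lit 5) (nat_lit 497) (nat_lit 406) (nat_lit 237)) (XT.lf (nat_lit 0) (nat_lit 4873703000) (nat_lit 304) (nat_lit 7739901995) (nat_lit 380) (nat_lit 7718055823) (nat_lit 97)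 (nat_lit 5) (nat_lit 101) (nat_lit 5) (nat_lit 102) (nat_lit 5) (nat_lit 498) (nat_lit 406) (nat_lit 236))) (XT.nd (nat_lit 78) (nat_lit 380) (nat_lit 0) (XT.lf (nat_lit 0) (nat_lit 15509672183) (nat_lit 304) (nat_lit 1294030602) (nat_lit 380) (nat_lit 3798390220) (nat_lit 97) (nat_lit 5) (nat_lit 101) (nat_lit 5) (nat_lit 102) (nat_lit 5) (nat_lit 499) (nat_lit 406) (nat_lit 235)) (XT.nd (nat_lit 52104) (nat_lit 0) (nat_lit 30400) (XT.lf (nat_lit 0) (nat_lit 258883080) (nat_lit 380) (nat_lit 15373261542) (nat_lit 76) (nat_lit 5244529387) (nat_lit 92) (nat_lit 5) (nat_lit 97) (nat_lit 5) (nat_lit 93) (nat_lit 5) (nat_lit 500) (nat_lit 406) (nat_lit 234)) (XT.lf (nat_lit 0) (nat_lit 545418176) (nat_lit 0) (nat_lit 545418176) (nat_lit 1292) (nat_lit 2834939627) (nat_lit 492) (nat_lit 5) (nat_lit 492) (nat_lit 3) (nat_lit 509) (nat_lit 3) (nat_lit 407) (nat_lit 407) (nat_lit 326))))) (XT.nd (nat_lit 156) (nat_lit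 1292) (nat_lit 0) (XT.nd (nat_lit 78) (nat_lit 0) (nat_lit 0) (XT.lf (nat_lit 0) (nat_lit 3447444206) (nat_lit 1292) (nat_lit 3086260838) (nat_lit 1368) (nat_lit 1370624882) (nat_lit 492) (nat_lit 5) (nat_lit 509) (nat_lit 3) (nat_lit 510) (nat_lit 5) (nat_lit 408) (nat_lit 407) (nat_lit 325)) (XT.lf (nat_lit 76) (nat_lit 645958850) (nat_lit 0) (nat_lit 4071702665) (nat_lit 1368) (nat_lit 3240941848) (nat_lit 493) (nat_lit 5) (nat_lit 492) (nat_lit 5) (nat_lit 510) (nat_lit 5) (nat_lit 409) (nat_lit 407) (nat_lit 324))) (XT.nd (nat_lit 78) (nat_lit 1292) (nat_lit 0) (XT.lf (nat_lit 76) (nat_lit 4477797709) (nat_lit 0) (nat_lit 1524431824) (nat_lit 1368) (nat_lit 2011975885) (nat_lit 493) (nat_lit 5) (nat_lit 492) (nat_lit 5) (nat_lit 510) (nat_lit 5) (nat_lit 410) (nat_lit 407) (nat_lit 323)) (XT.nd (nat_lit 78) (nat_lit 1368) (nat_lit 0) (XT.lf (nat_lit 76) (nat_lit 294981803) (nat_lit 0) (nat_lit 6995347665)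 (nat_lit 1368) (nat_lit 781054877) (nat_lit 494) (nat_lit 5) (nat_lit 493) (nat_lit 5) (nat_lit 511) (nat_lit 5) (nat_lit 411) (nat_lit 407) (nat_lit 322)) (XT.lf (nat_lit 0) (nat_lit 471473227) (nat_lit 1368) (nat_lit 3909214769) (nat_lit 1444) (nat_lit 3748913812) (nat_lit 475) (nat_lit 5) (nat_lit 493) (nat_lit 5) (nat_lit 494) (nat_lit 5) (nat_lit 412) (nat_lit 407) (nat_lit 321)))))) (XT.nd (nat_lit 390) (nat_lit 1292) (nat_lit 0) (XT.nd (nat_lit 156) (nat_lit 0) (nat_lit 76) (XT.nd (nat_lit 78) (nat_lit 0) (nat_lit 76) (XT.lf (nat_lit 76) (nat_lit 13075320) (nat_lit 0) (nat_lit 1695444033) (nat_lit 1444) (nat_lit 6480982892) (nat_lit 476) (nat_lit 5) (nat_lit 475) (nat_lit 5) (nat_lit 494) (nat_lit 5) (nat_lit 413) (nat_lit 407) (nat_lit 320)) (XT.lf (nat_lit 0) (nat_lit 2973881163) (nat_lit 1368) (nat_lit 4208045514) (nat_lit 1444) (nat_lit 1068622512) (nat_lit 476) (nat_lit 5) (nat_lit 494) (nat_lit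 5) (nat_lit 495) (nat_lit 5) (nat_lit 414) (nat_lit 407) (nat_lit 319))) (XT.nd (nat_lit 78) (nat_lit 0) (nat_lit 0) (XT.lf (nat_lit 0) (nat_lit 4246751862) (nat_lit 1368) (nat_lit 188997400) (nat_lit 1444) (nat_lit 3877443381) (nat_lit 476) (nat_lit 5) (nat_lit 494) (nat_lit 5) (nat_lit 495) (nat_lit 5) (nat_lit 415) (nat_lit 407) (nat_lit 318)) (XT.nd (nat_lit 78) (nat_lit 0) (nat_lit 76) (XT.lf (nat_lit 76) (nat_lit 3945041389) (nat_lit 0) (nat_lit 1597195106) (nat_lit 1444) (nat_lit 2834928558) (nat_lit 477) (nat_lit 5) (nat_lit 476) (nat_lit 5) (nat_lit 495) (nat_lit 5) (nat_lit 416) (nat_lit 407) (nat_lit 317)) (XT.lf (nat_lit 0) (nat_lit 6845397375) (nat_lit 1368) (nat_lit 304173327) (nat_lit 1444) (nat_lit 1293229720) (nat_lit 477) (nat_lit 5) (nat_lit 495) (nat_lit 5) (nat_lit 496) (nat_lit 5) (nat_lit 417) (nat_lit 407) (nat_lit 316))))) (XT.nd (nat_lit 234) (nat_lit 0) (nat_lit 76) (XT.nd (nat_lit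 78) (nat_lit 1444) (nat_lit 0) (XT.lf (nat_lit 76) (nat_lit 3929979459) (nat_lit 0) (nat_lit 4253344870) (nat_lit 1444) (nat_lit 326268585) (nat_lit 478) (nat_lit 5) (nat_lit 477) (nat_lit 5) (nat_lit 496) (nat_lit 5) (nat_lit 418) (nat_lit 407) (nat_lit 315)) (XT.nd (nat_lit 78) (nat_lit 0) (nat_lit 76) (XT.lf (nat_lit 0) (nat_lit 932456008) (nat_lit 1444) (nat_lit 348641512) (nat_lit 1520) (nat_lit 7297017637) (nat_lit 458) (nat_lit 5) (nat_lit 477) (nat_lit 5) (nat_lit 478) (nat_lit 5) (nat_lit 419) (nat_lit 407) (nat_lit 314)) (XT.lf (nat_lit 0) (nat_lit 2222945280) (nat_lit 1444) (nat_lit 4659599927) (nat_lit 1520) (nat_lit 1765217734) (nat_lit 459) (nat_lit 5) (nat_lit 478) (nat_lit 5) (nat_lit 479) (nat_lit 5) (nat_lit 420) (nat_lit 407) (nat_lit 313)))) (XT.nd (nat_lit 78) (nat_lit 0) (nat_lit 0) (XT.lf (nat_lit 0) (nat_lit 3523924296) (nat_lit 1444) (nat_lit 328555359) (nat_lit 1520) (nat_lit 4866647492)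 (nat_lit 459) (nat_lit 5) (nat_lit 478) (nat_lit 5) (nat_lit 479) (nat_lit 5) (nat_lit 421) (nat_lit 407) (nat_lit 312)) (XT.nd (nat_lit 78) (nat_lit 0) (nat_lit 76) (XT.lf (nat_lit 76) (nat_lit 4125840408) (nat_lit 0) (nat_lit 726223908) (nat_lit 1520) (nat_lit 3939848222) (nat_lit 460) (nat_lit 5) (nat_lit 459) (nat_lit 5) (nat_lit 479) (nat_lit 5) (nat_lit 422) (nat_lit 407) (nat_lit 311)) (XT.lf (nat_lit 0) (nat_lit 6199771438) (nat_lit 1444) (nat_lit 226174816) (nat_lit 1520) (nat_lit 2440363701) (nat_lit 460) (nat_lit 5) (nat_lit 479) (nat_lit 5) (nat_lit 480) (nat_lit 5) (nat_lit 423) (nat_lit 407) (nat_lit 310))))))))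
noncomputable def xc170 : XT := (XT.nd (nat_lit 1560) (nat_lit 8056) (nat_lit 0) (XT.nd (nat_lit 780) (nat_lit 6156) (nat_lit 0) (XT.nd (nat_lit 390) (nat_lit 3040) (nat_lit 0) (XT.nd (nat_lit 156) (nat_lit 1444) (nat_lit 0) (XT.nd (nat_lit 78) (nat_lit 0) (nat_lit 76) (XT.lf (nat_lit 76) (nat_lit 4337102834) (nat_lit 0) (nat_lit 3245589200) (nat_lit 1520) (nat_lit 1359354181) (nat_lit 461) (nat_lit 5) (nat_lit 460) (nat_lit 5) (nat_lit 480) (nat_lit 5) (nat_lit 424) (nat_lit 407) (nat_lit 309)) (XT.lf (nat_lit 0) (nat_lit 8970495745) (nat_lit 1444) (nat_lit 42477174) (nat_lit 1520) (nat_lit 6795552) (nat_lit 461) (nat_lit 5) (nat_lit 480) (nat_lit 5) (nat_lit 481) (nat_lit 5) (nat_lit 425) (nat_lit 407) (nat_lit 308))) (XT.nd (nat_lit 78) (nat_lit 0) (nat_lit 0) (XT.lf (nat_lit 0) (nat_lit 1298057385) (nat_lit 1520) (nat_lit 4474110463) (nat_lit 1596) (nat_lit 3326166828) (nat_lit 441) (nat_lit 5) (nat_lit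 461) (nat_lit 5) (nat_lit 462) (nat_lit 5) (nat_lit 426) (nat_lit 407) (nat_lit 307)) (XT.nd (nat_lit 78) (nat_lit 0) (nat_lit 76) (XT.lf (nat_lit 76) (nat_lit 190757916) (nat_lit 0) (nat_lit 2458809586) (nat_lit 1596) (nat_lit 6529355183) (nat_lit 442) (nat_lit 5) (nat_lit 441) (nat_lit 5) (nat_lit 462) (nat_lit 5) (nat_lit 427) (nat_lit 407) (nat_lit 306)) (XT.lf (nat_lit 0) (nat_lit 4041061074) (nat_lit 1520) (nat_lit 4275312288) (nat_lit 1596) (nat_lit 944504591) (nat_lit 442) (nat_lit 5) (nat_lit 462) (nat_lit 5) (nat_lit 463) (nat_lit 5) (nat_lit 428) (nat_lit 407) (nat_lit 305))))) (XT.nd (nat_lit 156) (nat_lit 3116) (nat_lit 0) (XT.nd (nat_lit 78) (nat_lit 0) (nat_lit 0) (XT.lf (nat_lit 76) (nat_lit 504299936) (nat_lit 0) (nat_lit 4952850412) (nat_lit 1596) (nat_lit 3887400942) (nat_lit 443) (nat_lit 5) (nat_lit 442) (nat_lit 5) (nat_lit 463) (nat_lit 5) (nat_lit 429) (nat_lit 407) (nat_lit 304))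 (XT.lf (nat_lit 76) (nat_lit 5419746896) (nat_lit 0) (nat_lit 1488044096) (nat_lit 1596) (nat_lit 2521996511) (nat_lit 443) (nat_lit 5) (nat_lit 442) (nat_lit 5) (nat_lit 463) (nat_lit 5) (nat_lit 430) (nat_lit 407) (nat_lit 303))) (XT.nd (nat_lit 78) (nat_lit 1672) (nat_lit 0) (XT.lf (nat_lit 0) (nat_lit 897412129) (nat_lit 1520) (nat_lit 7487153893) (nat_lit 1596) (nat_lit 1132233710) (nat_lit 423) (nat_lit 5) (nat_lit 443) (nat_lit 5) (nat_lit 444) (nat_lit 5) (nat_lit 431) (nat_lit 407) (nat_lit 302)) (XT.nd (nat_lit 78) (nat_lit 1596) (nat_lit 0) (XT.lf (nat_lit 0) (nat_lit 296694402) (nat_lit 1596) (nat_lit 3677561725) (nat_lit 76) (nat_lit 5630969979) (nat_lit 422) (nat_lit 5) (nat_lit 443) (nat_lit 5) (nat_lit 423) (nat_lit 5) (nat_lit 432) (nat_lit 407) (nat_lit 301)) (XT.lf (nat_lit 0) (nat_lit 1355702854) (nat_lit 1596) (nat_lit 370751799) (nat_lit 1672) (nat_lit 7969081324) (nat_lit 401) (nat_lit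 5) (nat_lit 422) (nat_lit 5) (nat_lit 423) (nat_lit 5) (nat_lit 433) (nat_lit 407) (nat_lit 300)))))) (XT.nd (nat_lit 390) (nat_lit 2736) (nat_lit 0) (XT.nd (nat_lit 156) (nat_lit 1748) (nat_lit 0) (XT.nd (nat_lit 78) (nat_lit 1672) (nat_lit 0) (XT.lf (nat_lit 0) (nat_lit 3210035462) (nat_lit 1672) (nat_lit 3287317068) (nat_lit 76) (nat_lit 3289807687) (nat_lit 401) (nat_lit 5) (nat_lit 423) (nat_lit 5) (nat_lit 402) (nat_lit 5) (nat_lit 434) (nat_lit 407) (nat_lit 299)) (XT.lf (nat_lit 0) (nat_lit 1870660299) (nat_lit 1672) (nat_lit 2846568116) (nat_lit 1748) (nat_lit 5163522147) (nat_lit 379) (nat_lit 5) (nat_lit 401) (nat_lit 5) (nat_lit 402) (nat_lit 5) (nat_lit 435) (nat_lit 407) (nat_lit 298))) (XT.nd (nat_lit 78) (nat_lit 1748) (nat_lit 0) (XT.lf (nat_lit 0) (nat_lit 6262115612) (nat_lit 1748) (nat_lit 2823244898) (nat_lit 76) (nat_lit 890713385) (nat_lit 379) (nat_lit 5) (nat_lit 402) (nat_lit 5)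 (nat_lit 380) (nat_lit 5) (nat_lit 436) (nat_lit 407) (nat_lit 297)) (XT.nd (nat_lit 78) (nat_lit 0) (nat_lit 0) (XT.lf (nat_lit 0) (nat_lit 2463153994) (nat_lit 1748) (nat_lit 5389638564) (nat_lit 1824) (nat_lit 2220225245) (nat_lit 356) (nat_lit 5) (nat_lit 379) (nat_lit 5) (nat_lit 380) (nat_lit 5) (nat_lit 437) (nat_lit 407) (nat_lit 296)) (XT.lf (nat_lit 0) (nat_lit 7876030081) (nat_lit 1748) (nat_lit 1598524011) (nat_lit 1824) (nat_lit 697372790) (nat_lit 356) (nat_lit 5) (nat_lit 379) (nat_lit 5) (nat_lit 380) (nat_lit 5) (nat_lit 438) (nat_lit 407) (nat_lit 295))))) (XT.nd (nat_lit 156) (nat_lit 1748) (nat_lit 0) (XT.nd (nat_lit 78) (nat_lit 0) (nat_lit 0) (XT.lf (nat_lit 0) (nat_lit 860599658) (nat_lit 988) (nat_lit 7145046595) (nat_lit 76) (nat_lit 2266750229) (nat_lit 343) (nat_lit 5) (nat_lit 356) (nat_lit 5) (nat_lit 344) (nat_lit 5) (nat_lit 439) (nat_lit 407) (nat_lit 294)) (XT.lf (nat_lit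 0) (nat_lit 2447349982) (nat_lit 988) (nat_lit 1717428816) (nat_lit 76) (nat_lit 6209876397) (nat_lit 343) (nat_lit 5) (nat_lit 356) (nat_lit 5) (nat_lit 344) (nat_lit 5) (nat_lit 440) (nat_lit 407) (nat_lit 293))) (XT.nd (nat_lit 78) (nat_lit 836) (nat_lit 0) (XT.lf (nat_lit 0) (nat_lit 3851869252) (nat_lit 912) (nat_lit 220202952) (nat_lit 988) (nat_lit 6406772962) (nat_lit 331) (nat_lit 5) (nat_lit 343) (nat_lit 5) (nat_lit 344) (nat_lit 5) (nat_lit 441) (nat_lit 407) (nat_lit 292)) (XT.nd (nat_lit 78) (nat_lit 836) (nat_lit 0) (XT.lf (nat_lit 0) (nat_lit 5747075330) (nat_lit 988) (nat_lit 1071489200) (nat_lit 76) (nat_lit 3766209288) (nat_lit 331) (nat_lit 5) (nat_lit 344) (nat_lit 5) (nat_lit 332) (nat_lit 5) (nat_lit 442) (nat_lit 407) (nat_lit 291)) (XT.lf (nat_lit 0) (nat_lit 4637147740) (nat_lit 836) (nat_lit 2831851385) (nat_lit 912) (nat_lit 3223563908) (nat_lit 320) (nat_lit 5) (nat_lit 331)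 (nat_lit 5) (nat_lit 332) (nat_lit 5) (nat_lit 443) (nat_lit 407) (nat_lit 290))))))) (XT.nd (nat_lit 780) (nat_lit 4028) (nat_lit 0) (XT.nd (nat_lit 390) (nat_lit 1596) (nat_lit 0) (XT.nd (nat_lit 156) (nat_lit 1520) (nat_lit 0) (XT.nd (nat_lit 78) (nat_lit 912) (nat_lit 0) (XT.lf (nat_lit 0) (nat_lit 9222718567) (nat_lit 912) (nat_lit 353522968) (nat_lit 76) (nat_lit 1226329551) (nat_lit 320) (nat_lit 5) (nat_lit 332) (nat_lit 5) (nat_lit 321) (nat_lit 5) (nat_lit 444) (nat_lit 407) (nat_lit 289)) (XT.lf (nat_lit 0) (nat_lit 132607496) (nat_lit 912) (nat_lit 5416388446) (nat_lit 76) (nat_lit 5365037738) (nat_lit 308) (nat_lit 5) (nat_lit 320) (nat_lit 5) (nat_lit 309) (nat_lit 5) (nat_lit 445) (nat_lit 407) (nat_lit 288))) (XT.nd (nat_lit 78) (nat_lit 760) (nat_lit 0) (XT.lf (nat_lit 0) (nat_lit 420628764) (nat_lit 760) (nat_lit 1425235481) (nat_lit 836) (nat_lit 9181907998) (nat_lit 298) (nat_lit 5) (nat_lit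 308) (nat_lit 5) (nat_lit 309) (nat_lit 5) (nat_lit 446) (nat_lit 407) (nat_lit 287)) (XT.nd (nat_lit 78) (nat_lit 760) (nat_lit 0) (XT.lf (nat_lit 0) (nat_lit 3630822378) (nat_lit 836) (nat_lit 4731148019) (nat_lit 76) (nat_lit 2781075878) (nat_lit 298) (nat_lit 5) (nat_lit 309) (nat_lit 5) (nat_lit 299) (nat_lit 5) (nat_lit 447) (nat_lit 407) (nat_lit 286)) (XT.lf (nat_lit 0) (nat_lit 1252095791) (nat_lit 760) (nat_lit 4200081988) (nat_lit 836) (nat_lit 5808443284) (nat_lit 288) (nat_lit 5) (nat_lit 298) (nat_lit 5) (nat_lit 299) (nat_lit 5) (nat_lit 448) (nat_lit 407) (nat_lit 285))))) (XT.nd (nat_lit 156) (nat_lit 836) (nat_lit 0) (XT.nd (nat_lit 78) (nat_lit 760) (nat_lit 0) (XT.lf (nat_lit 0) (nat_lit 7325557827) (nat_lit 836) (nat_lit 3978758393) (nat_lit 76) (nat_lit 75928230) (nat_lit 288) (nat_lit 5) (nat_lit 299) (nat_lit 5) (nat_lit 289) (nat_lit 5) (nat_lit 449) (nat_lit 407) (nat_lit 284))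 (XT.lf (nat_lit 0) (nat_lit 2154913792) (nat_lit 760) (nat_lit 7106970802) (nat_lit 836) (nat_lit 2239875007) (nat_lit 278) (nat_lit 5) (nat_lit 288) (nat_lit 5) (nat_lit 289) (nat_lit 5) (nat_lit 450) (nat_lit 407) (nat_lit 283))) (XT.nd (nat_lit 78) (nat_lit 836) (nat_lit 0) (XT.lf (nat_lit 0) (nat_lit 8448168282) (nat_lit 760) (nat_lit 2799351662) (nat_lit 836) (nat_lit 377982174) (nat_lit 278) (nat_lit 5) (nat_lit 288) (nat_lit 5) (nat_lit 289) (nat_lit 5) (nat_lit 451) (nat_lit 407) (nat_lit 282)) (XT.nd (nat_lit 78) (nat_lit 0) (nat_lit 0) (XT.lf (nat_lit 0) (nat_lit 1516150305) (nat_lit 836) (nat_lit 8632157701) (nat_lit 76) (nat_lit 1602923280) (nat_lit 267) (nat_lit 5) (nat_lit 278) (nat_lit 5) (nat_lit 268) (nat_lit 5) (nat_lit 452) (nat_lit 407) (nat_lit 281)) (XT.lf (nat_lit 0) (nat_lit 3467391886) (nat_lit 836) (nat_lit 2332867433) (nat_lit 76) (nat_lit 6078688199) (nat_lit 267) (nat_lit 5)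 (nat_lit 278) (nat_lit 5) (nat_lit 268) (nat_lit 5) (nat_lit 453) (nat_lit 407) (nat_lit 280)))))) (XT.nd (nat_lit 390) (nat_lit 1976) (nat_lit 0) (XT.nd (nat_lit 156) (nat_lit 1368) (nat_lit 0) (XT.nd (nat_lit 78) (nat_lit 0) (nat_lit 0) (XT.lf (nat_lit 0) (nat_lit 4129792762) (nat_lit 684) (nat_lit 1339268465) (nat_lit 760) (nat_lit 6539936831) (nat_lit 258) (nat_lit 5) (nat_lit 267) (nat_lit 5) (nat_lit 268) (nat_lit 5) (nat_lit 454) (nat_lit 407) (nat_lit 279)) (XT.lf (nat_lit 0) (nat_lit 7532144052) (nat_lit 760) (nat_lit 1425930212) (nat_lit 76) (nat_lit 3183155624) (nat_lit 258) (nat_lit 5) (nat_lit 268) (nat_lit 5) (nat_lit 259) (nat_lit 5) (nat_lit 455) (nat_lit 407) (nat_lit 278))) (XT.nd (nat_lit 78) (nat_lit 684) (nat_lit 0) (XT.lf (nat_lit 0) (nat_lit 5199089558) (nat_lit 684) (nat_lit 4465096877) (nat_lit 760) (nat_lit 2611373692) (nat_lit 249) (nat_lit 5) (nat_lit 258) (nat_lit 5) (nat_lit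 259) (nat_lit 5) (nat_lit 456) (nat_lit 407) (nat_lit 277)) (XT.nd (nat_lit 78) (nat_lit 684) (nat_lit 0) (XT.lf (nat_lit 0) (nat_lit 11834512634) (nat_lit 760) (nat_lit 454094662) (nat_lit 76) (nat_lit 124064392) (nat_lit 249) (nat_lit 5) (nat_lit 259) (nat_lit 5) (nat_lit 250) (nat_lit 5) (nat_lit 457) (nat_lit 407) (nat_lit 276)) (XT.lf (nat_lit 0) (nat_lit 1532723466) (nat_lit 684) (nat_lit 6223701711) (nat_lit 76) (nat_lit 4794780958) (nat_lit 240) (nat_lit 5) (nat_lit 249) (nat_lit 5) (nat_lit 241) (nat_lit 5) (nat_lit 458) (nat_lit 407) (nat_lit 275))))) (XT.nd (nat_lit 234) (nat_lit 684) (nat_lit 0) (XT.nd (nat_lit 78) (nat_lit 608) (nat_lit 0) (XT.lf (nat_lit 0) (nat_lit 545161475) (nat_lit 684) (nat_lit 3125145941) (nat_lit 760) (nat_lit 9022290057) (nat_lit 231) (nat_lit 5) (nat_lit 240) (nat_lit 5) (nat_lit 241) (nat_lit 5) (nat_lit 459) (nat_lit 407) (nat_lit 274)) (XT.nd (nat_lit 78) (nat_lit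 608) (nat_lit 0) (XT.lf (nat_lit 0) (nat_lit 5888835832) (nat_lit 760) (nat_lit 5329619744) (nat_lit 76) (nat_lit 1617604204) (nat_lit 231) (nat_lit 5) (nat_lit 241) (nat_lit 5) (nat_lit 232) (nat_lit 5) (nat_lit 460) (nat_lit 407) (nat_lit 273)) (XT.lf (nat_lit 0) (nat_lit 1608533647) (nat_lit 608) (nat_lit 6560391840) (nat_lit 684) (nat_lit 4813128898) (nat_lit 223) (nat_lit 5) (nat_lit 231) (nat_lit 5) (nat_lit 232) (nat_lit 5) (nat_lit 461) (nat_lit 407) (nat_lit 272)))) (XT.nd (nat_lit 78) (nat_lit 684) (nat_lit 0) (XT.lf (nat_lit 0) (nat_lit 8741383460) (nat_lit 608) (nat_lit 1775216315) (nat_lit 684) (nat_lit 2613936177) (nat_lit 223) (nat_lit 5) (nat_lit 231) (nat_lit 5) (nat_lit 232) (nat_lit 5) (nat_lit 462) (nat_lit 407) (nat_lit 271)) (XT.nd (nat_lit 78) (nat_lit 76) (nat_lit 0) (XT.lf (nat_lit 0) (nat_lit 2734348622) (nat_lit 608) (nat_lit 10201268569) (nat_lit 684) (nat_lit 345888763) (nat_lit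 215) (nat_lit 5) (nat_lit 223) (nat_lit 5) (nat_lit 224) (nat_lit 5) (nat_lit 463) (nat_lit 407) (nat_lit 270)) (XT.lf (nat_lit 0) (nat_lit 1969658136) (nat_lit 684) (nat_lit 3416146578) (nat_lit 76) (nat_lit 8048882636) (nat_lit 214) (nat_lit 5) (nat_lit 223) (nat_lit 5) (nat_lit 215) (nat_lit 5) (nat_lit 464) (nat_lit 407) (nat_lit 269))))))))
noncomputable def xc171 : XT := (XT.nd (nat_lit 1560) (nat_lit 3192) (nat_lit 0) (XT.nd (nat_lit 780) (nat_lit 2356) (nat_lit 0) (XT.nd (nat_lit 390) (nat_lit 1596) (nat_lit 0) (XT.nd (nat_lit 156) (nat_lit 1216) (nat_lit 0) (XT.nd (nat_lit 78) (nat_lit 0) (nat_lit 0) (XT.lf (nat_lit 0) (nat_lit 3890204400) (nat_lit 532) (nat_lit 448744134) (nat_lit 608) (nat_lit 9251703049) (nat_lit 207) (nat_lit 5) (nat_lit 214) (nat_lit 5) (nat_lit 215) (nat_lit 5) (nat_lit 465) (nat_lit 407) (nat_lit 268)) (XT.lf (nat_lit 0) (nat_lit 6795421752) (nat_lit 608) (nat_lit 2406374593)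 (nat_lit 76) (nat_lit 4547148909) (nat_lit 207) (nat_lit 5) (nat_lit 215) (nat_lit 5) (nat_lit 208) (nat_lit 5) (nat_lit 466) (nat_lit 407) (nat_lit 267))) (XT.nd (nat_lit 78) (nat_lit 608) (nat_lit 0) (XT.lf (nat_lit 0) (nat_lit 5081414930) (nat_lit 608) (nat_lit 4242768170) (nat_lit 684) (nat_lit 4585764501) (nat_lit 199) (nat_lit 5) (nat_lit 207) (nat_lit 5) (nat_lit 208) (nat_lit 5) (nat_lit 467) (nat_lit 407) (nat_lit 266)) (XT.nd (nat_lit 78) (nat_lit 608) (nat_lit 0) (XT.lf (nat_lit 0) (nat_lit 11912392936) (nat_lit 684) (nat_lit 1343640267) (nat_lit 76) (nat_lit 817965184) (nat_lit 199) (nat_lit 5) (nat_lit 208) (nat_lit 5) (nat_lit 200) (nat_lit 5) (nat_lit 468) (nat_lit 407) (nat_lit 265)) (XT.lf (nat_lit 0) (nat_lit 364097984) (nat_lit 608) (nat_lit 7912379838) (nat_lit 76) (nat_lit 5963674796) (nat_lit 191) (nat_lit 5) (nat_lit 199) (nat_lit 5) (nat_lit 192) (nat_lit 5) (nat_lit 469) (nat_lit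 407) (nat_lit 264))))) (XT.nd (nat_lit 156) (nat_lit 1064) (nat_lit 0) (XT.nd (nat_lit 78) (nat_lit 532) (nat_lit 0) (XT.lf (nat_lit 0) (nat_lit 2908103113) (nat_lit 608) (nat_lit 268722053) (nat_lit 76) (nat_lit 11232589894) (nat_lit 191) (nat_lit 5) (nat_lit 199) (nat_lit 5) (nat_lit 192) (nat_lit 5) (nat_lit 470) (nat_lit 407) (nat_lit 263)) (XT.lf (nat_lit 0) (nat_lit 5553735226) (nat_lit 608) (nat_lit 6982546714) (nat_lit 76) (nat_lit 2044771285) (nat_lit 184) (nat_lit 5) (nat_lit 192) (nat_lit 5) (nat_lit 185) (nat_lit 5) (nat_lit 471) (nat_lit 407) (nat_lit 262))) (XT.nd (nat_lit 78) (nat_lit 532) (nat_lit 0) (XT.lf (nat_lit 0) (nat_lit 845128921) (nat_lit 532) (nat_lit 7423479594) (nat_lit 608) (nat_lit 6487194371) (nat_lit 177) (nat_lit 5) (nat_lit 184) (nat_lit 5) (nat_lit 185) (nat_lit 5) (nat_lit 472) (nat_lit 407) (nat_lit 261)) (XT.nd (nat_lit 78) (nat_lit 532) (nat_lit 0) (XT.lf (nat_lit 0)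 (nat_lit 8908571821) (nat_lit 532) (nat_lit 2164186938) (nat_lit 608) (nat_lit 3860594394) (nat_lit 177) (nat_lit 5) (nat_lit 184) (nat_lit 5) (nat_lit 185) (nat_lit 5) (nat_lit 473) (nat_lit 407) (nat_lit 260)) (XT.lf (nat_lit 0) (nat_lit 2009050641) (nat_lit 532) (nat_lit 11946097023) (nat_lit 608) (nat_lit 1158868748) (nat_lit 170) (nat_lit 5) (nat_lit 177) (nat_lit 5) (nat_lit 178) (nat_lit 5) (nat_lit 474) (nat_lit 407) (nat_lit 259)))))) (XT.nd (nat_lit 390) (nat_lit 1368) (nat_lit 0) (XT.nd (nat_lit 156) (nat_lit 456) (nat_lit 0) (XT.nd (nat_lit 78) (nat_lit 456) (nat_lit 0) (XT.lf (nat_lit 0) (nat_lit 1619359027) (nat_lit 608) (nat_lit 5052633262) (nat_lit 76) (nat_lit 8625229963) (nat_lit 169) (nat_lit 5) (nat_lit 177) (nat_lit 5) (nat_lit 170) (nat_lit 5) (nat_lit 475) (nat_lit 407) (nat_lit 258)) (XT.lf (nat_lit 0) (nat_lit 3179667813) (nat_lit 456) (nat_lit 1267234696) (nat_lit 532) (nat_lit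 11036855935) (nat_lit 163) (nat_lit 5) (nat_lit 169) (nat_lit 5) (nat_lit 170) (nat_lit 5) (nat_lit 476) (nat_lit 407) (nat_lit 257))) (XT.nd (nat_lit 78) (nat_lit 456) (nat_lit 0) (XT.lf (nat_lit 0) (nat_lit 7381403613) (nat_lit 532) (nat_lit 4071244178) (nat_lit 76) (nat_lit 4220374146) (nat_lit 163) (nat_lit 5) (nat_lit 170) (nat_lit 5) (nat_lit 164) (nat_lit 5) (nat_lit 477) (nat_lit 407) (nat_lit 256)) (XT.nd (nat_lit 78) (nat_lit 0) (nat_lit 0) (XT.lf (nat_lit 0) (nat_lit 4360137468) (nat_lit 456) (nat_lit 6040090819) (nat_lit 532) (nat_lit 5465334358) (nat_lit 157) (nat_lit 5) (nat_lit 163) (nat_lit 5) (nat_lit 164) (nat_lit 5) (nat_lit 478) (nat_lit 407) (nat_lit 255)) (XT.lf (nat_lit 0) (nat_lit 13000518210) (nat_lit 456) (nat_lit 495284623) (nat_lit 532) (nat_lit 2565828396) (nat_lit 157) (nat_lit 5) (nat_lit 163) (nat_lit 5) (nat_lit 164) (nat_lit 5) (nat_lit 479) (nat_lit 407) (nat_lit 254)))))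 (XT.nd (nat_lit 156) (nat_lit 836) (nat_lit 0) (XT.nd (nat_lit 78) (nat_lit 0) (nat_lit 0) (XT.lf (nat_lit 0) (nat_lit 445874632) (nat_lit 532) (nat_lit 10686375197) (nat_lit 76) (nat_lit 5128137973) (nat_lit 150) (nat_lit 5) (nat_lit 157) (nat_lit 5) (nat_lit 151) (nat_lit 5) (nat_lit 480) (nat_lit 407) (nat_lit 253)) (XT.lf (nat_lit 0) (nat_lit 3496729561) (nat_lit 532) (nat_lit 2074551167) (nat_lit 76) (nat_lit 10891238358) (nat_lit 150) (nat_lit 5) (nat_lit 157) (nat_lit 5) (nat_lit 151) (nat_lit 5) (nat_lit 481) (nat_lit 407) (nat_lit 252))) (XT.nd (nat_lit 78) (nat_lit 380) (nat_lit 0) (XT.lf (nat_lit 0) (nat_lit 6643063421) (nat_lit 532) (nat_lit 9884944183) (nat_lit 76) (nat_lit 140000338) (nat_lit 144) (nat_lit 5) (nat_lit 151) (nat_lit 5) (nat_lit 145) (nat_lit 5) (nat_lit 482) (nat_lit 407) (nat_lit 251)) (XT.nd (nat_lit 78) (nat_lit 380) (nat_lit 0) (XT.lf (nat_lit 0) (nat_lit 9892814594) (nat_lit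 532) (nat_lit 1082934483) (nat_lit 76) (nat_lit 5901051788) (nat_lit 144) (nat_lit 5) (nat_lit 151) (nat_lit 5) (nat_lit 145) (nat_lit 5) (nat_lit 483) (nat_lit 407) (nat_lit 250)) (XT.lf (nat_lit 0) (nat_lit 7985562883) (nat_lit 380) (nat_lit 5263630978) (nat_lit 456) (nat_lit 3839747143) (nat_lit 139) (nat_lit 5) (nat_lit 144) (nat_lit 5) (nat_lit 145) (nat_lit 5) (nat_lit 484) (nat_lit 407) (nat_lit 249))))))) (XT.nd (nat_lit 780) (nat_lit 1064) (nat_lit 0) (XT.nd (nat_lit 390) (nat_lit 836) (nat_lit 0) (XT.nd (nat_lit 156) (nat_lit 760) (nat_lit 0) (XT.nd (nat_lit 78) (nat_lit 532) (nat_lit 0) (XT.lf (nat_lit 0) (nat_lit 16673536647) (nat_lit 456) (nat_lit 73140879) (nat_lit 76) (nat_lit 558633643) (nat_lit 139) (nat_lit 5) (nat_lit 145) (nat_lit 5) (nat_lit 140) (nat_lit 5) (nat_lit 485) (nat_lit 407) (nat_lit 248)) (XT.lf (nat_lit 0) (nat_lit 2691004757) (nat_lit 532) (nat_lit 8332483249) (nat_lit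 76) (nat_lit 6500476142) (nat_lit 132) (nat_lit 5) (nat_lit 139) (nat_lit 5) (nat_lit 133) (nat_lit 5) (nat_lit 486) (nat_lit 407) (nat_lit 247))) (XT.nd (nat_lit 78) (nat_lit 380) (nat_lit 0) (XT.lf (nat_lit 0) (nat_lit 888744029) (nat_lit 380) (nat_lit 5179409314) (nat_lit 456) (nat_lit 11678829574) (nat_lit 127) (nat_lit 5) (nat_lit 132) (nat_lit 5) (nat_lit 133) (nat_lit 5) (nat_lit 487) (nat_lit 407) (nat_lit 246)) (XT.nd (nat_lit 78) (nat_lit 380) (nat_lit 0) (XT.lf (nat_lit 0) (nat_lit 9564381207) (nat_lit 456) (nat_lit 7585653609) (nat_lit 76) (nat_lit 823400161) (nat_lit 127) (nat_lit 5) (nat_lit 133) (nat_lit 5) (nat_lit 128) (nat_lit 5) (nat_lit 488) (nat_lit 407) (nat_lit 245)) (XT.lf (nat_lit 0) (nat_lit 1848393226) (nat_lit 380) (nat_lit 11318811050) (nat_lit 456) (nat_lit 5036481959) (nat_lit 122) (nat_lit 5) (nat_lit 127) (nat_lit 5) (nat_lit 128) (nat_lit 5) (nat_lit 489) (nat_lit 407) (nat_lit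 244))))) (XT.nd (nat_lit 156) (nat_lit 380) (nat_lit 0) (XT.nd (nat_lit 78) (nat_lit 456) (nat_lit 0) (XT.lf (nat_lit 0) (nat_lit 11560106750) (nat_lit 380) (nat_lit 5323348704) (nat_lit 456) (nat_lit 1554263133) (nat_lit 122) (nat_lit 5) (nat_lit 127) (nat_lit 5) (nat_lit 128) (nat_lit 5) (nat_lit 490) (nat_lit 407) (nat_lit 243)) (XT.lf (nat_lit 0) (nat_lit 1985488855) (nat_lit 456) (nat_lit 15881646385) (nat_lit 76) (nat_lit 808758560) (nat_lit 116) (nat_lit 5) (nat_lit 122) (nat_lit 5) (nat_lit 117) (nat_lit 5) (nat_lit 491) (nat_lit 407) (nat_lit 242))) (XT.nd (nat_lit 78) (nat_lit 380) (nat_lit 0) (XT.lf (nat_lit 0) (nat_lit 5647613612) (nat_lit 456) (nat_lit 6224758962) (nat_lit 76) (nat_lit 7044809985) (nat_lit 116) (nat_lit 5) (nat_lit 122) (nat_lit 5) (nat_lit 117) (nat_lit 5) (nat_lit 492) (nat_lit 407) (nat_lit 241)) (XT.nd (nat_lit 78) (nat_lit 0) (nat_lit 0) (XT.lf (nat_lit 0) (nat_lit 3659766231)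 (nat_lit 380) (nat_lit 5737817293) (nat_lit 456) (nat_lit 9765424747) (nat_lit 111) (nat_lit 5) (nat_lit 116) (nat_lit 5) (nat_lit 117) (nat_lit 5) (nat_lit 493) (nat_lit 407) (nat_lit 240)) (XT.lf (nat_lit 0) (nat_lit 13258878709) (nat_lit 456) (nat_lit 5603769972) (nat_lit 76) (nat_lit 550378470) (nat_lit 111) (nat_lit 5) (nat_lit 117) (nat_lit 5) (nat_lit 112) (nat_lit 5) (nat_lit 494) (nat_lit 407) (nat_lit 239)))))) (XT.nd (nat_lit 390) (nat_lit 0) (nat_lit 0) (XT.nd (nat_lit 156) (nat_lit 684) (nat_lit 0) (XT.nd (nat_lit 78) (nat_lit 76) (nat_lit 0) (XT.lf (nat_lit 0) (nat_lit 4501429843) (nat_lit 304) (nat_lit 12754278693) (nat_lit 380) (nat_lit 2411174806) (nat_lit 107) (nat_lit 5) (nat_lit 111) (nat_lit 5) (nat_lit 112) (nat_lit 5) (nat_lit 495) (nat_lit 407) (nat_lit 238)) (XT.lf (nat_lit 0) (nat_lit 1417174268) (nat_lit 380) (nat_lit 5063085914) (nat_lit 76) (nat_lit 13444797511) (nat_lit 106)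 (nat_lit 5) (nat_lit 111) (nat_lit 5) (nat_lit 107) (nat_lit 5) (nat_lit 496) (nat_lit 407) (nat_lit 237))) (XT.nd (nat_lit 78) (nat_lit 304) (nat_lit 0) (XT.lf (nat_lit 0) (nat_lit 5281557414) (nat_lit 380) (nat_lit 33854383) (nat_lit 456) (nat_lit 14872155765) (nat_lit 101) (nat_lit 5) (nat_lit 106) (nat_lit 5) (nat_lit 107) (nat_lit 5) (nat_lit 497) (nat_lit 407) (nat_lit 236)) (XT.nd (nat_lit 78) (nat_lit 304) (nat_lit 0) (XT.lf (nat_lit 0) (nat_lit 9359630490) (nat_lit 456) (nat_lit 4608752938) (nat_lit 76) (nat_lit 6485586744) (nat_lit 101) (nat_lit 5) (nat_lit 107) (nat_lit 5) (nat_lit 102) (nat_lit 5) (nat_lit 498) (nat_lit 407) (nat_lit 235)) (XT.lf (nat_lit 0) (nat_lit 5959509498) (nat_lit 304) (nat_lit 7555654886) (nat_lit 380) (nat_lit 7209930647) (nat_lit 97) (nat_lit 5) (nat_lit 101) (nat_lit 5) (nat_lit 102) (nat_lit 5) (nat_lit 499) (nat_lit 407) (nat_lit 234))))) (XT.nd (nat_lit 52338) (nat_lit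 0) (nat_lit 28652) (XT.nd (nat_lit 52182) (nat_lit 0) (nat_lit 30020) (XT.lf (nat_lit 0) (nat_lit 16788818998) (nat_lit 304) (nat_lit 987514010) (nat_lit 380) (nat_lit 3224861660) (nat_lit 97) (nat_lit 5) (nat_lit 101) (nat_lit 5) (nat_lit 102) (nat_lit 5) (nat_lit 500) (nat_lit 407) (nat_lit 233)) (XT.nd (nat_lit 78) (nat_lit 0) (nat_lit 0) (XT.lf (nat_lit 0) (nat_lit 1169786275) (nat_lit 0) (nat_lit 1169786275) (nat_lit 1292) (nat_lit 1639327675) (nat_lit 492) (nat_lit 5) (nat_lit 492) (nat_lit 3) (nat_lit 509) (nat_lit 3) (nat_lit 408) (nat_lit 408) (nat_lit 324)) (XT.lf (nat_lit 0) (nat_lit 5914307766) (nat_lit 1292) (nat_lit 1887527239) (nat_lit 1368) (nat_lit 210950907) (nat_lit 492) (nat_lit 5) (nat_lit 509) (nat_lit 3) (nat_lit 510) (nat_lit 5) (nat_lit 409) (nat_lit 408) (nat_lit 323)))) (XT.nd (nat_lit 78) (nat_lit 1368) (nat_lit 0) (XT.lf (nat_lit 76) (nat_lit 1911044351) (nat_lit 0) (nat_lit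 5259997030) (nat_lit 1368) (nat_lit 897913988) (nat_lit 493) (nat_lit 5) (nat_lit 492) (nat_lit 5) (nat_lit 510) (nat_lit 5) (nat_lit 410) (nat_lit 408) (nat_lit 322)) (XT.nd (nat_lit 78) (nat_lit 0) (nat_lit 76) (XT.lf (nat_lit 0) (nat_lit 304373647) (nat_lit 1368) (nat_lit 2333661474) (nat_lit 1444) (nat_lit 5488551550) (nat_lit 474) (nat_lit 5) (nat_lit 492) (nat_lit 5) (nat_lit 493) (nat_lit 5) (nat_lit 411) (nat_lit 408) (nat_lit 321)) (XT.lf (nat_lit 0) (nat_lit 1499140400) (nat_lit 1368) (nat_lit 6620756983) (nat_lit 1444) (nat_lit 65765779) (nat_lit 475) (nat_lit 5) (nat_lit 493) (nat_lit 5) (nat_lit 494) (nat_lit 5) (nat_lit 412) (nat_lit 408) (nat_lit 320))))))))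
noncomputable def xc172 : XT := (XT.nd (nat_lit 1560) (nat_lit 11780) (nat_lit 0) (XT.nd (nat_lit 780) (nat_lit 2736) (nat_lit 0) (XT.nd (nat_lit 390) (nat_lit 1292) (nat_lit 0) (XT.nd (nat_lit 156) (nat_lit 0) (nat_lit 76) (XT.nd (nat_lit 78) (nat_lit 0) (nat_lit 0) (XT.lf (nat_lit 0) (nat_lit 2721459385) (nat_lit 1368) (nat_lit 2707005867) (nat_lit 1444) (nat_lit 2817402787) (nat_lit 475) (nat_lit 5) (nat_lit 493) (nat_lit 5) (nat_lit 494) (nat_lit 5) (nat_lit 413) (nat_lit 408) (nat_lit 319)) (XT.lf (nat_lit 76) (nat_lit 1285306384) (nat_lit 0) (nat_lit 2662266035) (nat_lit 1444) (nat_lit 4360137245) (nat_lit 476) (nat_lit 5) (nat_lit 475) (nat_lit 5) (nat_lit 494) (nat_lit 5) (nat_lit 414) (nat_lit 408) (nat_lit 318))) (XT.nd (nat_lit 78) (nat_lit 0) (nat_lit 0) (XT.lf (nat_lit 0) (nat_lit 5189070147) (nat_lit 1368) (nat_lit 2994550273) (nat_lit 1444) (nat_lit 187369671) (nat_lit 476) (nat_lit 5) (nat_lit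 494) (nat_lit 5) (nat_lit 495) (nat_lit 5) (nat_lit 415) (nat_lit 408) (nat_lit 317)) (XT.nd (nat_lit 78) (nat_lit 0) (nat_lit 0) (XT.lf (nat_lit 76) (nat_lit 1093779681) (nat_lit 0) (nat_lit 5358451272) (nat_lit 1444) (nat_lit 1983387353) (nat_lit 477) (nat_lit 5) (nat_lit 476) (nat_lit 5) (nat_lit 495) (nat_lit 5) (nat_lit 416) (nat_lit 408) (nat_lit 316)) (XT.lf (nat_lit 76) (nat_lit 5287784314) (nat_lit 0) (nat_lit 2445505073) (nat_lit 1444) (nat_lit 768415481) (nat_lit 477) (nat_lit 5) (nat_lit 476) (nat_lit 5) (nat_lit 495) (nat_lit 5) (nat_lit 417) (nat_lit 408) (nat_lit 315))))) (XT.nd (nat_lit 156) (nat_lit 0) (nat_lit 0) (XT.nd (nat_lit 78) (nat_lit 0) (nat_lit 0) (XT.lf (nat_lit 0) (nat_lit 447531640) (nat_lit 1444) (nat_lit 7583282437) (nat_lit 1520) (nat_lit 538598676) (nat_lit 458) (nat_lit 5) (nat_lit 477) (nat_lit 5) (nat_lit 478) (nat_lit 5) (nat_lit 418) (nat_lit 408) (nat_lit 314)) (XT.lf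 (nat_lit 0) (nat_lit 1688794418) (nat_lit 1444) (nat_lit 3362964205) (nat_lit 1520) (nat_lit 3586406277) (nat_lit 458) (nat_lit 5) (nat_lit 477) (nat_lit 5) (nat_lit 478) (nat_lit 5) (nat_lit 419) (nat_lit 408) (nat_lit 313))) (XT.nd (nat_lit 78) (nat_lit 0) (nat_lit 76) (XT.lf (nat_lit 76) (nat_lit 937147893) (nat_lit 0) (nat_lit 1997712138) (nat_lit 1520) (nat_lit 5773849574) (nat_lit 459) (nat_lit 5) (nat_lit 458) (nat_lit 5) (nat_lit 478) (nat_lit 5) (nat_lit 420) (nat_lit 408) (nat_lit 312)) (XT.nd (nat_lit 78) (nat_lit 0) (nat_lit 0) (XT.lf (nat_lit 0) (nat_lit 4210172403) (nat_lit 1444) (nat_lit 3436151044) (nat_lit 1520) (nat_lit 1134271979) (nat_lit 459) (nat_lit 5) (nat_lit 478) (nat_lit 5) (nat_lit 479) (nat_lit 5) (nat_lit 421) (nat_lit 408) (nat_lit 311)) (XT.lf (nat_lit 76) (nat_lit 968398649) (nat_lit 0) (nat_lit 4536966341) (nat_lit 1520) (nat_lit 3348682896) (nat_lit 460) (nat_lit 5) (nat_lit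 459) (nat_lit 5) (nat_lit 479) (nat_lit 5) (nat_lit 422) (nat_lit 408) (nat_lit 310)))))) (XT.nd (nat_lit 390) (nat_lit 1368) (nat_lit 0) (XT.nd (nat_lit 156) (nat_lit 1444) (nat_lit 0) (XT.nd (nat_lit 78) (nat_lit 0) (nat_lit 76) (XT.lf (nat_lit 76) (nat_lit 5490689345) (nat_lit 0) (nat_lit 1334070169) (nat_lit 1520) (nat_lit 2104260003) (nat_lit 460) (nat_lit 5) (nat_lit 459) (nat_lit 5) (nat_lit 479) (nat_lit 5) (nat_lit 423) (nat_lit 408) (nat_lit 309)) (XT.lf (nat_lit 76) (nat_lit 1082434917) (nat_lit 0) (nat_lit 7083459514) (nat_lit 1520) (nat_lit 839704864) (nat_lit 461) (nat_lit 5) (nat_lit 460) (nat_lit 5) (nat_lit 480) (nat_lit 5) (nat_lit 424) (nat_lit 408) (nat_lit 308))) (XT.nd (nat_lit 78) (nat_lit 0) (nat_lit 0) (XT.lf (nat_lit 0) (nat_lit 452264583) (nat_lit 1520) (nat_lit 3372305611) (nat_lit 1596) (nat_lit 5258936638) (nat_lit 440) (nat_lit 5) (nat_lit 460) (nat_lit 5) (nat_lit 461) (nat_lit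 5) (nat_lit 425) (nat_lit 408) (nat_lit 307)) (XT.nd (nat_lit 78) (nat_lit 0) (nat_lit 76) (XT.lf (nat_lit 76) (nat_lit 1263552797) (nat_lit 0) (nat_lit 479928741) (nat_lit 1596) (nat_lit 7419701794) (nat_lit 441) (nat_lit 5) (nat_lit 440) (nat_lit 5) (nat_lit 461) (nat_lit 5) (nat_lit 426) (nat_lit 408) (nat_lit 306)) (XT.lf (nat_lit 0) (nat_lit 3079167054) (nat_lit 1520) (nat_lit 3242779601) (nat_lit 1596) (nat_lit 2922148388) (nat_lit 441) (nat_lit 5) (nat_lit 461) (nat_lit 5) (nat_lit 462) (nat_lit 5) (nat_lit 427) (nat_lit 408) (nat_lit 305))))) (XT.nd (nat_lit 156) (nat_lit 1444) (nat_lit 0) (XT.nd (nat_lit 78) (nat_lit 0) (nat_lit 76) (XT.lf (nat_lit 76) (nat_lit 1506696586) (nat_lit 0) (nat_lit 2925115287) (nat_lit 1596) (nat_lit 4895022483) (nat_lit 442) (nat_lit 5) (nat_lit 441) (nat_lit 5) (nat_lit 462) (nat_lit 5) (nat_lit 428) (nat_lit 408) (nat_lit 304)) (XT.lf (nat_lit 0) (nat_lit 5814573217)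 (nat_lit 1520) (nat_lit 3036800323) (nat_lit 1596) (nat_lit 559807643) (nat_lit 442) (nat_lit 5) (nat_lit 462) (nat_lit 5) (nat_lit 463) (nat_lit 5) (nat_lit 429) (nat_lit 408) (nat_lit 303))) (XT.nd (nat_lit 78) (nat_lit 1520) (nat_lit 0) (XT.lf (nat_lit 76) (nat_lit 1829693500) (nat_lit 0) (nat_lit 5404640608) (nat_lit 1596) (nat_lit 2262707677) (nat_lit 443) (nat_lit 5) (nat_lit 442) (nat_lit 5) (nat_lit 463) (nat_lit 5) (nat_lit 430) (nat_lit 408) (nat_lit 302)) (XT.nd (nat_lit 78) (nat_lit 1520) (nat_lit 0) (XT.lf (nat_lit 76) (nat_lit 6817659055) (nat_lit 0) (nat_lit 1863621828) (nat_lit 1596) (nat_lit 903376358) (nat_lit 443) (nat_lit 5) (nat_lit 442) (nat_lit 5) (nat_lit 463) (nat_lit 5) (nat_lit 431) (nat_lit 408) (nat_lit 301)) (XT.lf (nat_lit 0) (nat_lit 481530785) (nat_lit 1596) (nat_lit 7444983457) (nat_lit 76) (nat_lit 1747366447) (nat_lit 422) (nat_lit 5) (nat_lit 443) (nat_lit 5) (nat_lit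 423) (nat_lit 5) (nat_lit 432) (nat_lit 408) (nat_lit 300))))))) (XT.nd (nat_lit 780) (nat_lit 4864) (nat_lit 0) (XT.nd (nat_lit 390) (nat_lit 3648) (nat_lit 0) (XT.nd (nat_lit 156) (nat_lit 1672) (nat_lit 0) (XT.nd (nat_lit 78) (nat_lit 1596) (nat_lit 0) (XT.lf (nat_lit 0) (nat_lit 1892101558) (nat_lit 1596) (nat_lit 2438079957) (nat_lit 76) (nat_lit 5434399111) (nat_lit 422) (nat_lit 5) (nat_lit 443) (nat_lit 5) (nat_lit 423) (nat_lit 5) (nat_lit 433) (nat_lit 408) (nat_lit 299)) (XT.lf (nat_lit 0) (nat_lit 2687211538) (nat_lit 1596) (nat_lit 640548328) (nat_lit 1672) (nat_lit 6529409604) (nat_lit 401) (nat_lit 5) (nat_lit 422) (nat_lit 5) (nat_lit 423) (nat_lit 5) (nat_lit 434) (nat_lit 408) (nat_lit 298))) (XT.nd (nat_lit 78) (nat_lit 1672) (nat_lit 0) (XT.lf (nat_lit 0) (nat_lit 4808621040) (nat_lit 1672) (nat_lit 2040930656) (nat_lit 76) (nat_lit 3101740790) (nat_lit 401) (nat_lit 5) (nat_lit 423)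 (nat_lit 5) (nat_lit 402) (nat_lit 5) (nat_lit 435) (nat_lit 408) (nat_lit 297)) (XT.nd (nat_lit 78) (nat_lit 0) (nat_lit 0) (XT.lf (nat_lit 0) (nat_lit 3211573806) (nat_lit 1672) (nat_lit 3112761256) (nat_lit 1748) (nat_lit 3722870134) (nat_lit 379) (nat_lit 5) (nat_lit 401) (nat_lit 5) (nat_lit 402) (nat_lit 5) (nat_lit 436) (nat_lit 408) (nat_lit 296)) (XT.lf (nat_lit 0) (nat_lit 7869125976) (nat_lit 1748) (nat_lit 1569886909) (nat_lit 76) (nat_lit 706059739) (nat_lit 379) (nat_lit 5) (nat_lit 402) (nat_lit 5) (nat_lit 380) (nat_lit 5) (nat_lit 437) (nat_lit 408) (nat_lit 295))))) (XT.nd (nat_lit 156) (nat_lit 1824) (nat_lit 0) (XT.nd (nat_lit 78) (nat_lit 76) (nat_lit 0) (XT.lf (nat_lit 0) (nat_lit 3813622706) (nat_lit 1748) (nat_lit 5657387769) (nat_lit 1824) (nat_lit 773374454) (nat_lit 356) (nat_lit 5) (nat_lit 379) (nat_lit 5) (nat_lit 380) (nat_lit 5) (nat_lit 438) (nat_lit 408) (nat_lit 294)) (XT.lf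 (nat_lit 0) (nat_lit 740849252) (nat_lit 1824) (nat_lit 1041493784) (nat_lit 76) (nat_lit 8563421737) (nat_lit 355) (nat_lit 5) (nat_lit 379) (nat_lit 5) (nat_lit 356) (nat_lit 5) (nat_lit 439) (nat_lit 408) (nat_lit 293))) (XT.nd (nat_lit 78) (nat_lit 912) (nat_lit 0) (XT.lf (nat_lit 0) (nat_lit 2299837045) (nat_lit 988) (nat_lit 5970610114) (nat_lit 76) (nat_lit 2178136935) (nat_lit 343) (nat_lit 5) (nat_lit 356) (nat_lit 5) (nat_lit 344) (nat_lit 5) (nat_lit 440) (nat_lit 408) (nat_lit 292)) (XT.nd (nat_lit 78) (nat_lit 912) (nat_lit 0) (XT.lf (nat_lit 0) (nat_lit 3890439525) (nat_lit 988) (nat_lit 460270124) (nat_lit 76) (nat_lit 6202752063) (nat_lit 343) (nat_lit 5) (nat_lit 356) (nat_lit 5) (nat_lit 344) (nat_lit 5) (nat_lit 441) (nat_lit 408) (nat_lit 291)) (XT.lf (nat_lit 0) (nat_lit 5211917147) (nat_lit 912) (nat_lit 316733072) (nat_lit 988) (nat_lit 5131481144) (nat_lit 331) (nat_lit 5) (nat_lit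 343) (nat_lit 5) (nat_lit 344) (nat_lit 5) (nat_lit 442) (nat_lit 408) (nat_lit 290)))))) (XT.nd (nat_lit 390) (nat_lit 2356) (nat_lit 0) (XT.nd (nat_lit 156) (nat_lit 1672) (nat_lit 0) (XT.nd (nat_lit 78) (nat_lit 0) (nat_lit 0) (XT.lf (nat_lit 0) (nat_lit 195825140) (nat_lit 836) (nat_lit 7015049815) (nat_lit 912) (nat_lit 3557844651) (nat_lit 320) (nat_lit 5) (nat_lit 331) (nat_lit 5) (nat_lit 332) (nat_lit 5) (nat_lit 443) (nat_lit 408) (nat_lit 289)) (XT.lf (nat_lit 0) (nat_lit 6007604854) (nat_lit 836) (nat_lit 2940233445) (nat_lit 912) (nat_lit 1931229432) (nat_lit 320) (nat_lit 5) (nat_lit 331) (nat_lit 5) (nat_lit 332) (nat_lit 5) (nat_lit 444) (nat_lit 408) (nat_lit 288))) (XT.nd (nat_lit 78) (nat_lit 836) (nat_lit 0) (XT.lf (nat_lit 0) (nat_lit 931423023) (nat_lit 836) (nat_lit 9784859320) (nat_lit 912) (nat_lit 275415449) (nat_lit 309) (nat_lit 5) (nat_lit 320) (nat_lit 5) (nat_lit 321) (nat_lit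 5) (nat_lit 445) (nat_lit 408) (nat_lit 287)) (XT.nd (nat_lit 78) (nat_lit 760) (nat_lit 0) (XT.lf (nat_lit 0) (nat_lit 1430259478) (nat_lit 912) (nat_lit 4235411726) (nat_lit 76) (nat_lit 5440029460) (nat_lit 308) (nat_lit 5) (nat_lit 320) (nat_lit 5) (nat_lit 309) (nat_lit 5) (nat_lit 446) (nat_lit 408) (nat_lit 286)) (XT.lf (nat_lit 0) (nat_lit 1709863563) (nat_lit 760) (nat_lit 1450841593) (nat_lit 836) (nat_lit 8061364360) (nat_lit 298) (nat_lit 5) (nat_lit 308) (nat_lit 5) (nat_lit 309) (nat_lit 5) (nat_lit 447) (nat_lit 408) (nat_lit 285))))) (XT.nd (nat_lit 234) (nat_lit 1596) (nat_lit 0) (XT.nd (nat_lit 78) (nat_lit 760) (nat_lit 0) (XT.lf (nat_lit 0) (nat_lit 4956323577) (nat_lit 836) (nat_lit 3544338062) (nat_lit 76) (nat_lit 2839501888) (nat_lit 298) (nat_lit 5) (nat_lit 309) (nat_lit 5) (nat_lit 299) (nat_lit 5) (nat_lit 448) (nat_lit 408) (nat_lit 284)) (XT.nd (nat_lit 78) (nat_lit 0) (nat_lit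 0) (XT.lf (nat_lit 0) (nat_lit 2550140145) (nat_lit 760) (nat_lit 4247664749) (nat_lit 836) (nat_lit 4662624390) (nat_lit 288) (nat_lit 5) (nat_lit 298) (nat_lit 5) (nat_lit 299) (nat_lit 5) (nat_lit 449) (nat_lit 408) (nat_lit 283)) (XT.lf (nat_lit 0) (nat_lit 8684637626) (nat_lit 836) (nat_lit 2785617695) (nat_lit 76) (nat_lit 112683303) (nat_lit 288) (nat_lit 5) (nat_lit 299) (nat_lit 5) (nat_lit 289) (nat_lit 5) (nat_lit 450) (nat_lit 408) (nat_lit 282)))) (XT.nd (nat_lit 78) (nat_lit 836) (nat_lit 0) (XT.lf (nat_lit 0) (nat_lit 3462354803) (nat_lit 760) (nat_lit 7181769221) (nat_lit 836) (nat_lit 1063084320) (nat_lit 278) (nat_lit 5) (nat_lit 288) (nat_lit 5) (nat_lit 289) (nat_lit 5) (nat_lit 451) (nat_lit 408) (nat_lit 281)) (XT.nd (nat_lit 78) (nat_lit 760) (nat_lit 0) (XT.lf (nat_lit 0) (nat_lit 801442904) (nat_lit 836) (nat_lit 1982497101) (nat_lit 76) (nat_lit 9049862340) (nat_lit 277) (nat_lit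 5) (nat_lit 288) (nat_lit 5) (nat_lit 278) (nat_lit 5) (nat_lit 452) (nat_lit 408) (nat_lit 280)) (XT.lf (nat_lit 0) (nat_lit 2713851257) (nat_lit 836) (nat_lit 7533761179) (nat_lit 76) (nat_lit 1714686786) (nat_lit 267) (nat_lit 5) (nat_lit 278) (nat_lit 5) (nat_lit 268) (nat_lit 5) (nat_lit 453) (nat_lit 408) (nat_lit 279))))))))
noncomputable def xc173 : XT := (XT.nd (nat_lit 1560) (nat_lit 5016) (nat_lit 0) (XT.nd (nat_lit 780) (nat_lit 3496) (nat_lit 0) (XT.nd (nat_lit 390) (nat_lit 1292) (nat_lit 0) (XT.nd (nat_lit 156) (nat_lit 1368) (nat_lit 0) (XT.nd (nat_lit 78) (nat_lit 684) (nat_lit 0) (XT.lf (nat_lit 0) (nat_lit 4681227907) (nat_lit 836) (nat_lit 1133407452) (nat_lit 76) (nat_lit 6278404159) (nat_lit 267) (nat_lit 5) (nat_lit 278) (nat_lit 5) (nat_lit 268) (nat_lit 5) (nat_lit 454) (nat_lit 408) (nat_lit 278)) (XT.lf (nat_lit 0) (nat_lit 5450307806) (nat_lit 684) (nat_lit 1258219275) (nat_lit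 760) (nat_lit 5517463767) (nat_lit 258) (nat_lit 5) (nat_lit 267) (nat_lit 5) (nat_lit 268) (nat_lit 5) (nat_lit 455) (nat_lit 408) (nat_lit 277))) (XT.nd (nat_lit 78) (nat_lit 1368) (nat_lit 0) (XT.lf (nat_lit 0) (nat_lit 8791399447) (nat_lit 760) (nat_lit 218756438) (nat_lit 76) (nat_lit 3351152354) (nat_lit 258) (nat_lit 5) (nat_lit 268) (nat_lit 5) (nat_lit 259) (nat_lit 5) (nat_lit 456) (nat_lit 408) (nat_lit 276)) (XT.nd (nat_lit 78) (nat_lit 684) (nat_lit 0) (XT.lf (nat_lit 0) (nat_lit 6530634172) (nat_lit 684) (nat_lit 4421681157) (nat_lit 760) (nat_lit 1546296354) (nat_lit 249) (nat_lit 5) (nat_lit 258) (nat_lit 5) (nat_lit 259) (nat_lit 5) (nat_lit 457) (nat_lit 408) (nat_lit 275)) (XT.lf (nat_lit 0) (nat_lit 504935999) (nat_lit 684) (nat_lit 11870500031) (nat_lit 76) (nat_lit 263286300) (nat_lit 240) (nat_lit 5) (nat_lit 249) (nat_lit 5) (nat_lit 241) (nat_lit 5) (nat_lit 458) (nat_lit 408) (nat_lit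 274))))) (XT.nd (nat_lit 156) (nat_lit 608) (nat_lit 0) (XT.nd (nat_lit 78) (nat_lit 684) (nat_lit 0) (XT.lf (nat_lit 0) (nat_lit 2631996874) (nat_lit 684) (nat_lit 5116833670) (nat_lit 76) (nat_lit 5031497050) (nat_lit 240) (nat_lit 5) (nat_lit 249) (nat_lit 5) (nat_lit 241) (nat_lit 5) (nat_lit 459) (nat_lit 408) (nat_lit 273)) (XT.lf (nat_lit 0) (nat_lit 1779305845) (nat_lit 684) (nat_lit 3020015438) (nat_lit 760) (nat_lit 8125496098) (nat_lit 231) (nat_lit 5) (nat_lit 240) (nat_lit 5) (nat_lit 241) (nat_lit 5) (nat_lit 460) (nat_lit 408) (nat_lit 272))) (XT.nd (nat_lit 78) (nat_lit 608) (nat_lit 0) (XT.lf (nat_lit 0) (nat_lit 7042589123) (nat_lit 760) (nat_lit 4216815281) (nat_lit 76) (nat_lit 1812147346) (nat_lit 231) (nat_lit 5) (nat_lit 241) (nat_lit 5) (nat_lit 232) (nat_lit 5) (nat_lit 461) (nat_lit 408) (nat_lit 271)) (XT.nd (nat_lit 78) (nat_lit 0) (nat_lit 0) (XT.lf (nat_lit 0) (nat_lit 2852078829)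 (nat_lit 608) (nat_lit 6503753522) (nat_lit 684) (nat_lit 3864892854) (nat_lit 223) (nat_lit 5) (nat_lit 231) (nat_lit 5) (nat_lit 232) (nat_lit 5) (nat_lit 462) (nat_lit 408) (nat_lit 270)) (XT.lf (nat_lit 0) (nat_lit 10103833197) (nat_lit 608) (nat_lit 1626557744) (nat_lit 684) (nat_lit 1642196644) (nat_lit 223) (nat_lit 5) (nat_lit 231) (nat_lit 5) (nat_lit 232) (nat_lit 5) (nat_lit 463) (nat_lit 408) (nat_lit 269)))))) (XT.nd (nat_lit 390) (nat_lit 1672) (nat_lit 0) (XT.nd (nat_lit 156) (nat_lit 1140) (nat_lit 0) (XT.nd (nat_lit 78) (nat_lit 0) (nat_lit 0) (XT.lf (nat_lit 0) (nat_lit 651609778) (nat_lit 684) (nat_lit 9543007524) (nat_lit 76) (nat_lit 3332097923) (nat_lit 214) (nat_lit 5) (nat_lit 223) (nat_lit 5) (nat_lit 215) (nat_lit 5) (nat_lit 464) (nat_lit 408) (nat_lit 268)) (XT.lf (nat_lit 0) (nat_lit 2989236786) (nat_lit 684) (nat_lit 2295447645) (nat_lit 76) (nat_lit 8398631312) (nat_lit 214)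 (nat_lit 5) (nat_lit 223) (nat_lit 5) (nat_lit 215) (nat_lit 5) (nat_lit 465) (nat_lit 408) (nat_lit 267))) (XT.nd (nat_lit 78) (nat_lit 608) (nat_lit 0) (XT.lf (nat_lit 0) (nat_lit 5149207840) (nat_lit 532) (nat_lit 245154958) (nat_lit 608) (nat_lit 8448276518) (nat_lit 207) (nat_lit 5) (nat_lit 214) (nat_lit 5) (nat_lit 215) (nat_lit 5) (nat_lit 466) (nat_lit 408) (nat_lit 266)) (XT.nd (nat_lit 78) (nat_lit 608) (nat_lit 0) (XT.lf (nat_lit 0) (nat_lit 7882325677) (nat_lit 608) (nat_lit 1278379983) (nat_lit 76) (nat_lit 4843754871) (nat_lit 207) (nat_lit 5) (nat_lit 215) (nat_lit 5) (nat_lit 208) (nat_lit 5) (nat_lit 467) (nat_lit 408) (nat_lit 265)) (XT.lf (nat_lit 0) (nat_lit 6351427685) (nat_lit 608) (nat_lit 4099173523) (nat_lit 684) (nat_lit 3718311637) (nat_lit 199) (nat_lit 5) (nat_lit 207) (nat_lit 5) (nat_lit 208) (nat_lit 5) (nat_lit 468) (nat_lit 408) (nat_lit 264))))) (XT.nd (nat_lit 156) (nat_lit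 1064) (nat_lit 0) (XT.nd (nat_lit 78) (nat_lit 608) (nat_lit 0) (XT.lf (nat_lit 0) (nat_lit 13073599320) (nat_lit 684) (nat_lit 207635705) (nat_lit 76) (nat_lit 1055357671) (nat_lit 199) (nat_lit 5) (nat_lit 208) (nat_lit 5) (nat_lit 200) (nat_lit 5) (nat_lit 469) (nat_lit 408) (nat_lit 263)) (XT.lf (nat_lit 0) (nat_lit 1290196515) (nat_lit 608) (nat_lit 6902780060) (nat_lit 76) (nat_lit 6313192837) (nat_lit 191) (nat_lit 5) (nat_lit 199) (nat_lit 5) (nat_lit 192) (nat_lit 5) (nat_lit 470) (nat_lit 408) (nat_lit 262))) (XT.nd (nat_lit 78) (nat_lit 532) (nat_lit 0) (XT.lf (nat_lit 0) (nat_lit 882425075) (nat_lit 532) (nat_lit 2990369949) (nat_lit 608) (nat_lit 10806275851) (nat_lit 184) (nat_lit 5) (nat_lit 191) (nat_lit 5) (nat_lit 192) (nat_lit 5) (nat_lit 471) (nat_lit 408) (nat_lit 261)) (XT.nd (nat_lit 78) (nat_lit 532) (nat_lit 0) (XT.lf (nat_lit 0) (nat_lit 6556935587) (nat_lit 608) (nat_lit 5968180328)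 (nat_lit 76) (nat_lit 2329321851) (nat_lit 184) (nat_lit 5) (nat_lit 192) (nat_lit 5) (nat_lit 185) (nat_lit 5) (nat_lit 472) (nat_lit 408) (nat_lit 260)) (XT.lf (nat_lit 0) (nat_lit 2008456600) (nat_lit 532) (nat_lit 7307600434) (nat_lit 608) (nat_lit 5716834099) (nat_lit 177) (nat_lit 5) (nat_lit 184) (nat_lit 5) (nat_lit 185) (nat_lit 5) (nat_lit 473) (nat_lit 408) (nat_lit 259))))))) (XT.nd (nat_lit 780) (nat_lit 2508) (nat_lit 0) (XT.nd (nat_lit 390) (nat_lit 1444) (nat_lit 0) (XT.nd (nat_lit 156) (nat_lit 532) (nat_lit 0) (XT.nd (nat_lit 78) (nat_lit 532) (nat_lit 0) (XT.lf (nat_lit 0) (nat_lit 10210689435) (nat_lit 532) (nat_lit 1948305233) (nat_lit 608) (nat_lit 3055351224) (nat_lit 177) (nat_lit 5) (nat_lit 184) (nat_lit 5) (nat_lit 185) (nat_lit 5) (nat_lit 474) (nat_lit 408) (nat_lit 258)) (XT.lf (nat_lit 0) (nat_lit 3181669890) (nat_lit 532) (nat_lit 11909407196) (nat_lit 608) (nat_lit 307711840)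 (nat_lit 170) (nat_lit 5) (nat_lit 177) (nat_lit 5) (nat_lit 178) (nat_lit 5) (nat_lit 475) (nat_lit 408) (nat_lit 257))) (XT.nd (nat_lit 78) (nat_lit 456) (nat_lit 0) (XT.lf (nat_lit 0) (nat_lit 2497694474) (nat_lit 608) (nat_lit 4031853288) (nat_lit 76) (nat_lit 9056343103) (nat_lit 169) (nat_lit 5) (nat_lit 177) (nat_lit 5) (nat_lit 170) (nat_lit 5) (nat_lit 476) (nat_lit 408) (nat_lit 256)) (XT.nd (nat_lit 78) (nat_lit 0) (nat_lit 0) (XT.lf (nat_lit 0) (nat_lit 4357713331) (nat_lit 456) (nat_lit 1014724037) (nat_lit 532) (nat_lit 10403914440) (nat_lit 163) (nat_lit 5) (nat_lit 169) (nat_lit 5) (nat_lit 170) (nat_lit 5) (nat_lit 477) (nat_lit 408) (nat_lit 255)) (XT.lf (nat_lit 0) (nat_lit 8350993282) (nat_lit 532) (nat_lit 3045090684) (nat_lit 76) (nat_lit 4573616168) (nat_lit 163) (nat_lit 5) (nat_lit 170) (nat_lit 5) (nat_lit 164) (nat_lit 5) (nat_lit 478) (nat_lit 408) (nat_lit 254))))) (XT.nd (nat_lit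 156) (nat_lit 988) (nat_lit 0) (XT.nd (nat_lit 78) (nat_lit 0) (nat_lit 0) (XT.lf (nat_lit 0) (nat_lit 5547631896) (nat_lit 456) (nat_lit 5873589484) (nat_lit 532) (nat_lit 4745056464) (nat_lit 157) (nat_lit 5) (nat_lit 163) (nat_lit 5) (nat_lit 164) (nat_lit 5) (nat_lit 479) (nat_lit 408) (nat_lit 253)) (XT.lf (nat_lit 0) (nat_lit 14339245906) (nat_lit 456) (nat_lit 223520559) (nat_lit 532) (nat_lit 1803826747) (nat_lit 157) (nat_lit 5) (nat_lit 163) (nat_lit 5) (nat_lit 164) (nat_lit 5) (nat_lit 480) (nat_lit 408) (nat_lit 252))) (XT.nd (nat_lit 78) (nat_lit 456) (nat_lit 0) (XT.lf (nat_lit 0) (nat_lit 1250607580) (nat_lit 532) (nat_lit 9803242497) (nat_lit 76) (nat_lit 5515512286) (nat_lit 150) (nat_lit 5) (nat_lit 157) (nat_lit 5) (nat_lit 151) (nat_lit 5) (nat_lit 481) (nat_lit 408) (nat_lit 251)) (XT.nd (nat_lit 78) (nat_lit 456) (nat_lit 0) (XT.lf (nat_lit 0) (nat_lit 4346875383) (nat_lit 532) (nat_lit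 1040689049) (nat_lit 76) (nat_lit 11388290138) (nat_lit 150) (nat_lit 5) (nat_lit 157) (nat_lit 5) (nat_lit 151) (nat_lit 5) (nat_lit 482) (nat_lit 408) (nat_lit 250)) (XT.lf (nat_lit 0) (nat_lit 7549698251) (nat_lit 532) (nat_lit 9000547673) (nat_lit 76) (nat_lit 435342125) (nat_lit 144) (nat_lit 5) (nat_lit 151) (nat_lit 5) (nat_lit 145) (nat_lit 5) (nat_lit 483) (nat_lit 408) (nat_lit 249)))))) (XT.nd (nat_lit 390) (nat_lit 1216) (nat_lit 0) (XT.nd (nat_lit 156) (nat_lit 912) (nat_lit 0) (XT.nd (nat_lit 78) (nat_lit 380) (nat_lit 0) (XT.lf (nat_lit 0) (nat_lit 10849272415) (nat_lit 532) (nat_lit 43715335) (nat_lit 76) (nat_lit 6305878490) (nat_lit 144) (nat_lit 5) (nat_lit 151) (nat_lit 5) (nat_lit 145) (nat_lit 5) (nat_lit 484) (nat_lit 408) (nat_lit 248)) (XT.lf (nat_lit 0) (nat_lit 9199172519) (nat_lit 380) (nat_lit 5065574817) (nat_lit 456) (nat_lit 3150668341) (nat_lit 139) (nat_lit 5) (nat_lit 144)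 (nat_lit 5) (nat_lit 145) (nat_lit 5) (nat_lit 485) (nat_lit 408) (nat_lit 247))) (XT.nd (nat_lit 78) (nat_lit 380) (nat_lit 0) (XT.lf (nat_lit 0) (nat_lit 113429235) (nat_lit 532) (nat_lit 16652376400) (nat_lit 76) (nat_lit 870426296) (nat_lit 132) (nat_lit 5) (nat_lit 139) (nat_lit 5) (nat_lit 133) (nat_lit 5) (nat_lit 486) (nat_lit 408) (nat_lit 246)) (XT.nd (nat_lit 78) (nat_lit 380) (nat_lit 0) (XT.lf (nat_lit 0) (nat_lit 3480003048) (nat_lit 532) (nat_lit 7449663538) (nat_lit 76) (nat_lit 6929797411) (nat_lit 132) (nat_lit 5) (nat_lit 139) (nat_lit 5) (nat_lit 133) (nat_lit 5) (nat_lit 487) (nat_lit 408) (nat_lit 245)) (XT.lf (nat_lit 0) (nat_lit 1949083882) (nat_lit 380) (nat_lit 4967964489) (nat_lit 456) (nat_lit 11170053105) (nat_lit 127) (nat_lit 5) (nat_lit 132) (nat_lit 5) (nat_lit 133) (nat_lit 5) (nat_lit 488) (nat_lit 408) (nat_lit 244))))) (XT.nd (nat_lit 234) (nat_lit 836) (nat_lit 0) (XT.nd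 (nat_lit 78) (nat_lit 380) (nat_lit 0) (XT.lf (nat_lit 0) (nat_lit 10470940757) (nat_lit 456) (nat_lit 6702718967) (nat_lit 76) (nat_lit 1144673357) (nat_lit 127) (nat_lit 5) (nat_lit 133) (nat_lit 5) (nat_lit 128) (nat_lit 5) (nat_lit 489) (nat_lit 408) (nat_lit 243)) (XT.nd (nat_lit 78) (nat_lit 0) (nat_lit 0) (XT.lf (nat_lit 0) (nat_lit 2913201912) (nat_lit 380) (nat_lit 11225266860) (nat_lit 456) (nat_lit 4414872822) (nat_lit 122) (nat_lit 5) (nat_lit 127) (nat_lit 5) (nat_lit 128) (nat_lit 5) (nat_lit 490) (nat_lit 408) (nat_lit 242)) (XT.lf (nat_lit 0) (nat_lit 12798995964) (nat_lit 380) (nat_lit 5116168217) (nat_lit 456) (nat_lit 877173124) (nat_lit 122) (nat_lit 5) (nat_lit 127) (nat_lit 5) (nat_lit 128) (nat_lit 5) (nat_lit 491) (nat_lit 408) (nat_lit 241)))) (XT.nd (nat_lit 78) (nat_lit 380) (nat_lit 0) (XT.lf (nat_lit 0) (nat_lit 2719013211) (nat_lit 456) (nat_lit 15176736713) (nat_lit 76) (nat_lit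 1139540496) (nat_lit 116) (nat_lit 5) (nat_lit 122) (nat_lit 5) (nat_lit 117) (nat_lit 5) (nat_lit 492) (nat_lit 408) (nat_lit 240)) (XT.nd (nat_lit 78) (nat_lit 380) (nat_lit 0) (XT.lf (nat_lit 0) (nat_lit 6440776255) (nat_lit 456) (nat_lit 5346761396) (nat_lit 76) (nat_lit 7494144189) (nat_lit 116) (nat_lit 5) (nat_lit 122) (nat_lit 5) (nat_lit 117) (nat_lit 5) (nat_lit 493) (nat_lit 408) (nat_lit 239)) (XT.lf (nat_lit 0) (nat_lit 4728858953) (nat_lit 380) (nat_lit 5530015180) (nat_lit 456) (nat_lit 9273692072) (nat_lit 111) (nat_lit 5) (nat_lit 116) (nat_lit 5) (nat_lit 117) (nat_lit 5) (nat_lit 494) (nat_lit 408) (nat_lit 238))))))))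
noncomputable def xc174 : XT := (XT.nd (nat_lit 53742) (nat_lit 0) (nat_lit 17784) (XT.nd (nat_lit 52962) (nat_lit 0) (nat_lit 27360) (XT.nd (nat_lit 390) (nat_lit 304) (nat_lit 0) (XT.nd (nat_lit 156) (nat_lit 456) (nat_lit 0) (XT.nd (nat_lit 78) (nat_lit 304) (nat_lit 0) (XT.lf (nat_lit 0) (nat_lit 14186245698) (nat_lit 456) (nat_lit 4728095013) (nat_lit 76) (nat_lit 873472359) (nat_lit 111) (nat_lit 5) (nat_lit 117) (nat_lit 5) (nat_lit 112) (nat_lit 5) (nat_lit 495) (nat_lit 408) (nat_lit 237)) (XT.lf (nat_lit 0) (nat_lit 5572710440) (nat_lit 304) (nat_lit 12683688514) (nat_lit 380) (nat_lit 1790484220) (nat_lit 107) (nat_lit 5) (nat_lit 111) (nat_lit 5) (nat_lit 112) (nat_lit 5) (nat_lit 496) (nat_lit 408) (nat_lit 236))) (XT.nd (nat_lit 78) (nat_lit 380) (nat_lit 0) (XT.lf (nat_lit 0) (nat_lit 2092714962) (nat_lit 380) (nat_lit 4193517436) (nat_lit 76) (nat_lit 14024164984) (nat_lit 106) (nat_lit 5)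 (nat_lit 111) (nat_lit 5) (nat_lit 107) (nat_lit 5) (nat_lit 497) (nat_lit 408) (nat_lit 235)) (XT.nd (nat_lit 78) (nat_lit 0) (nat_lit 0) (XT.lf (nat_lit 0) (nat_lit 6064366213) (nat_lit 456) (nat_lit 14228535870) (nat_lit 76) (nat_lit 285350652) (nat_lit 101) (nat_lit 5) (nat_lit 107) (nat_lit 5) (nat_lit 102) (nat_lit 5) (nat_lit 498) (nat_lit 408) (nat_lit 234)) (XT.lf (nat_lit 0) (nat_lit 10177088178) (nat_lit 456) (nat_lit 3744682624) (nat_lit 76) (nat_lit 6928464397) (nat_lit 101) (nat_lit 5) (nat_lit 107) (nat_lit 5) (nat_lit 102) (nat_lit 5) (nat_lit 499) (nat_lit 408) (nat_lit 233))))) (XT.nd (nat_lit 52338) (nat_lit 0) (nat_lit 28576) (XT.nd (nat_lit 52260) (nat_lit 0) (nat_lit 30020) (XT.lf (nat_lit 0) (nat_lit 7028653974) (nat_lit 304) (nat_lit 7380888371) (nat_lit 380) (nat_lit 6717368119) (nat_lit 97) (nat_lit 5) (nat_lit 101) (nat_lit 5) (nat_lit 102) (nat_lit 5) (nat_lit 500) (nat_lit 408)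 (nat_lit 232)) (XT.lf (nat_lit 0) (nat_lit 1782820348) (nat_lit 0) (nat_lit 1782820348) (nat_lit 1292) (nat_lit 468432237) (nat_lit 492) (nat_lit 5) (nat_lit 492) (nat_lit 3) (nat_lit 509) (nat_lit 3) (nat_lit 409) (nat_lit 409) (nat_lit 322))) (XT.nd (nat_lit 78) (nat_lit 0) (nat_lit 76) (XT.lf (nat_lit 0) (nat_lit 215406516) (nat_lit 1444) (nat_lit 721272193) (nat_lit 1444) (nat_lit 7188509364) (nat_lit 473) (nat_lit 3) (nat_lit 492) (nat_lit 3) (nat_lit 492) (nat_lit 5) (nat_lit 410) (nat_lit 409) (nat_lit 321)) (XT.nd (nat_lit 78) (nat_lit 0) (nat_lit 0) (XT.lf (nat_lit 0) (nat_lit 1380133558) (nat_lit 1368) (nat_lit 5039681567) (nat_lit 1444) (nat_lit 1763413436) (nat_lit 474) (nat_lit 5) (nat_lit 492) (nat_lit 5) (nat_lit 493) (nat_lit 5) (nat_lit 411) (nat_lit 409) (nat_lit 320)) (XT.lf (nat_lit 0) (nat_lit 2549670921) (nat_lit 1368) (nat_lit 1169117819) (nat_lit 1444) (nat_lit 4524030797) (nat_lit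 474) (nat_lit 5) (nat_lit 492) (nat_lit 5) (nat_lit 493) (nat_lit 5) (nat_lit 412) (nat_lit 409) (nat_lit 319)))))) (XT.nd (nat_lit 390) (nat_lit 0) (nat_lit 0) (XT.nd (nat_lit 156) (nat_lit 1292) (nat_lit 0) (XT.nd (nat_lit 78) (nat_lit 0) (nat_lit 76) (XT.lf (nat_lit 76) (nat_lit 2799902805) (nat_lit 0) (nat_lit 931895092) (nat_lit 1444) (nat_lit 4572040062) (nat_lit 475) (nat_lit 5) (nat_lit 474) (nat_lit 5) (nat_lit 493) (nat_lit 5) (nat_lit 413) (nat_lit 409) (nat_lit 318)) (XT.lf (nat_lit 0) (nat_lit 4929441718) (nat_lit 1368) (nat_lit 1530472016) (nat_lit 1444) (nat_lit 1906344748) (nat_lit 475) (nat_lit 5) (nat_lit 493) (nat_lit 5) (nat_lit 494) (nat_lit 5) (nat_lit 414) (nat_lit 409) (nat_lit 317))) (XT.nd (nat_lit 78) (nat_lit 1368) (nat_lit 0) (XT.lf (nat_lit 76) (nat_lit 2533589941) (nat_lit 0) (nat_lit 3612198323) (nat_lit 1444) (nat_lit 2284262996) (nat_lit 476) (nat_lit 5) (nat_lit 475) (nat_lit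 5) (nat_lit 494) (nat_lit 5) (nat_lit 415) (nat_lit 409) (nat_lit 316)) (XT.nd (nat_lit 78) (nat_lit 1368) (nat_lit 0) (XT.lf (nat_lit 76) (nat_lit 6683856434) (nat_lit 0) (nat_lit 685447960) (nat_lit 1444) (nat_lit 1126177120) (nat_lit 476) (nat_lit 5) (nat_lit 475) (nat_lit 5) (nat_lit 494) (nat_lit 5) (nat_lit 416) (nat_lit 409) (nat_lit 315)) (XT.lf (nat_lit 0) (nat_lit 57757381) (nat_lit 1444) (nat_lit 6207834220) (nat_lit 1520) (nat_lit 2296571191) (nat_lit 457) (nat_lit 5) (nat_lit 476) (nat_lit 5) (nat_lit 477) (nat_lit 5) (nat_lit 417) (nat_lit 409) (nat_lit 314))))) (XT.nd (nat_lit 156) (nat_lit 0) (nat_lit 76) (XT.nd (nat_lit 78) (nat_lit 0) (nat_lit 0) (XT.lf (nat_lit 0) (nat_lit 1240495429) (nat_lit 1444) (nat_lit 2030260944) (nat_lit 1520) (nat_lit 5359485763) (nat_lit 457) (nat_lit 5) (nat_lit 476) (nat_lit 5) (nat_lit 477) (nat_lit 5) (nat_lit 418) (nat_lit 409) (nat_lit 313)) (XT.lf (nat_lit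 76) (nat_lit 2244212028) (nat_lit 0) (nat_lit 191181841) (nat_lit 1520) (nat_lit 6264536150) (nat_lit 458) (nat_lit 5) (nat_lit 457) (nat_lit 5) (nat_lit 477) (nat_lit 5) (nat_lit 419) (nat_lit 409) (nat_lit 312))) (XT.nd (nat_lit 78) (nat_lit 0) (nat_lit 0) (XT.lf (nat_lit 0) (nat_lit 3661462774) (nat_lit 1444) (nat_lit 2174859397) (nat_lit 1520) (nat_lit 2934560768) (nat_lit 458) (nat_lit 5) (nat_lit 477) (nat_lit 5) (nat_lit 478) (nat_lit 5) (nat_lit 420) (nat_lit 409) (nat_lit 311)) (XT.nd (nat_lit 78) (nat_lit 0) (nat_lit 76) (XT.lf (nat_lit 76) (nat_lit 2202995968) (nat_lit 0) (nat_lit 2699533265) (nat_lit 1520) (nat_lit 3940932566) (nat_lit 459) (nat_lit 5) (nat_lit 458) (nat_lit 5) (nat_lit 478) (nat_lit 5) (nat_lit 421) (nat_lit 409) (nat_lit 310)) (XT.lf (nat_lit 0) (nat_lit 6161704011) (nat_lit 1444) (nat_lit 2239359952) (nat_lit 1520) (nat_lit 516578614) (nat_lit 459) (nat_lit 5) (nat_lit 478)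 (nat_lit 5) (nat_lit 479) (nat_lit 5) (nat_lit 422) (nat_lit 409) (nat_lit 309))))))) (XT.nd (nat_lit 780) (nat_lit 6840) (nat_lit 0) (XT.nd (nat_lit 390) (nat_lit 1444) (nat_lit 0) (XT.nd (nat_lit 156) (nat_lit 1444) (nat_lit 0) (XT.nd (nat_lit 78) (nat_lit 0) (nat_lit 0) (XT.lf (nat_lit 76) (nat_lit 2244954984) (nat_lit 0) (nat_lit 5209393690) (nat_lit 1520) (nat_lit 1538808335) (nat_lit 460) (nat_lit 5) (nat_lit 459) (nat_lit 5) (nat_lit 479) (nat_lit 5) (nat_lit 423) (nat_lit 409) (nat_lit 308)) (XT.lf (nat_lit 76) (nat_lit 6833040741) (nat_lit 0) (nat_lit 1931033946) (nat_lit 1520) (nat_lit 306297930) (nat_lit 460) (nat_lit 5) (nat_lit 459) (nat_lit 5) (nat_lit 479) (nat_lit 5) (nat_lit 424) (nat_lit 409) (nat_lit 307))) (XT.nd (nat_lit 78) (nat_lit 0) (nat_lit 0) (XT.lf (nat_lit 0) (nat_lit 939656832) (nat_lit 1520) (nat_lit 6786131126) (nat_lit 1596) (nat_lit 1423210665) (nat_lit 440) (nat_lit 5)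 (nat_lit 460) (nat_lit 5) (nat_lit 461) (nat_lit 5) (nat_lit 425) (nat_lit 409) (nat_lit 306)) (XT.nd (nat_lit 78) (nat_lit 0) (nat_lit 0) (XT.lf (nat_lit 0) (nat_lit 2211234048) (nat_lit 1520) (nat_lit 2175108997) (nat_lit 1596) (nat_lit 4842732084) (nat_lit 440) (nat_lit 5) (nat_lit 460) (nat_lit 5) (nat_lit 461) (nat_lit 5) (nat_lit 426) (nat_lit 409) (nat_lit 305)) (XT.lf (nat_lit 76) (nat_lit 2545146561) (nat_lit 0) (nat_lit 956973423) (nat_lit 1596) (nat_lit 5808769916) (nat_lit 441) (nat_lit 5) (nat_lit 440) (nat_lit 5) (nat_lit 461) (nat_lit 5) (nat_lit 427) (nat_lit 409) (nat_lit 304))))) (XT.nd (nat_lit 156) (nat_lit 1520) (nat_lit 0) (XT.nd (nat_lit 78) (nat_lit 0) (nat_lit 0) (XT.lf (nat_lit 0) (nat_lit 4827744361) (nat_lit 1520) (nat_lit 2038110903) (nat_lit 1596) (nat_lit 2528321290) (nat_lit 441) (nat_lit 5) (nat_lit 461) (nat_lit 5) (nat_lit 462) (nat_lit 5) (nat_lit 428) (nat_lit 409) (nat_lit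 303)) (XT.lf (nat_lit 76) (nat_lit 2798002675) (nat_lit 0) (nat_lit 3384549454) (nat_lit 1596) (nat_lit 3296537117) (nat_lit 442) (nat_lit 5) (nat_lit 441) (nat_lit 5) (nat_lit 462) (nat_lit 5) (nat_lit 429) (nat_lit 409) (nat_lit 302))) (XT.nd (nat_lit 78) (nat_lit 1596) (nat_lit 0) (XT.lf (nat_lit 0) (nat_lit 7557826351) (nat_lit 1520) (nat_lit 1824931359) (nat_lit 1596) (nat_lit 183088532) (nat_lit 442) (nat_lit 5) (nat_lit 462) (nat_lit 5) (nat_lit 463) (nat_lit 5) (nat_lit 430) (nat_lit 409) (nat_lit 301)) (XT.nd (nat_lit 78) (nat_lit 1596) (nat_lit 0) (XT.lf (nat_lit 76) (nat_lit 3130519939) (nat_lit 0) (nat_lit 5851769548) (nat_lit 1596) (nat_lit 671628416) (nat_lit 443) (nat_lit 5) (nat_lit 442) (nat_lit 5) (nat_lit 463) (nat_lit 5) (nat_lit 431) (nat_lit 409) (nat_lit 300)) (XT.lf (nat_lit 0) (nat_lit 673849454) (nat_lit 1596) (nat_lit 1554911286) (nat_lit 1672) (nat_lit 7515084592) (nat_lit 421)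 (nat_lit 5) (nat_lit 442) (nat_lit 5) (nat_lit 443) (nat_lit 5) (nat_lit 432) (nat_lit 409) (nat_lit 299)))))) (XT.nd (nat_lit 390) (nat_lit 3648) (nat_lit 0) (XT.nd (nat_lit 156) (nat_lit 3268) (nat_lit 0) (XT.nd (nat_lit 78) (nat_lit 0) (nat_lit 0) (XT.lf (nat_lit 0) (nat_lit 2049468526) (nat_lit 1596) (nat_lit 6306595869) (nat_lit 76) (nat_lit 1479186062) (nat_lit 422) (nat_lit 5) (nat_lit 443) (nat_lit 5) (nat_lit 423) (nat_lit 5) (nat_lit 433) (nat_lit 409) (nat_lit 298)) (XT.lf (nat_lit 0) (nat_lit 3457695672) (nat_lit 1596) (nat_lit 1224795226) (nat_lit 76) (nat_lit 5245903060) (nat_lit 422) (nat_lit 5) (nat_lit 443) (nat_lit 5) (nat_lit 423) (nat_lit 5) (nat_lit 434) (nat_lit 409) (nat_lit 297))) (XT.nd (nat_lit 78) (nat_lit 1672) (nat_lit 0) (XT.lf (nat_lit 0) (nat_lit 3994699164) (nat_lit 1596) (nat_lit 905552194) (nat_lit 1672) (nat_lit 5123037640) (nat_lit 401) (nat_lit 5) (nat_lit 422) (nat_lit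 5) (nat_lit 423) (nat_lit 5) (nat_lit 435) (nat_lit 409) (nat_lit 296)) (XT.nd (nat_lit 78) (nat_lit 1672) (nat_lit 0) (XT.lf (nat_lit 0) (nat_lit 6379596294) (nat_lit 1672) (nat_lit 820568230) (nat_lit 76) (nat_lit 2919770366) (nat_lit 401) (nat_lit 5) (nat_lit 423) (nat_lit 5) (nat_lit 402) (nat_lit 5) (nat_lit 436) (nat_lit 409) (nat_lit 295)) (XT.lf (nat_lit 0) (nat_lit 4528689078) (nat_lit 1672) (nat_lit 3376152369) (nat_lit 1748) (nat_lit 2313357471) (nat_lit 379) (nat_lit 5) (nat_lit 401) (nat_lit 5) (nat_lit 402) (nat_lit 5) (nat_lit 437) (nat_lit 409) (nat_lit 294))))) (XT.nd (nat_lit 234) (nat_lit 912) (nat_lit 0) (XT.nd (nat_lit 78) (nat_lit 2736) (nat_lit 0) (XT.lf (nat_lit 0) (nat_lit 9450737688) (nat_lit 1748) (nat_lit 342323779) (nat_lit 76) (nat_lit 525575096) (nat_lit 379) (nat_lit 5) (nat_lit 402) (nat_lit 5) (nat_lit 380) (nat_lit 5) (nat_lit 438) (nat_lit 409) (nat_lit 293)) (XT.nd (nat_lit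 78) (nat_lit 912) (nat_lit 0) (XT.lf (nat_lit 0) (nat_lit 636053278) (nat_lit 1824) (nat_lit 5283959125) (nat_lit 76) (nat_lit 4500251860) (nat_lit 355) (nat_lit 5) (nat_lit 379) (nat_lit 5) (nat_lit 356) (nat_lit 5) (nat_lit 439) (nat_lit 409) (nat_lit 292)) (XT.lf (nat_lit 0) (nat_lit 185498061) (nat_lit 912) (nat_lit 1958185708) (nat_lit 988) (nat_lit 8380432214) (nat_lit 343) (nat_lit 5) (nat_lit 355) (nat_lit 5) (nat_lit 356) (nat_lit 5) (nat_lit 440) (nat_lit 409) (nat_lit 291)))) (XT.nd (nat_lit 78) (nat_lit 912) (nat_lit 0) (XT.lf (nat_lit 0) (nat_lit 3712640201) (nat_lit 988) (nat_lit 4823838720) (nat_lit 76) (nat_lit 2092952751) (nat_lit 343) (nat_lit 5) (nat_lit 356) (nat_lit 5) (nat_lit 344) (nat_lit 5) (nat_lit 441) (nat_lit 409) (nat_lit 290)) (XT.nd (nat_lit 78) (nat_lit 0) (nat_lit 0) (XT.lf (nat_lit 0) (nat_lit 782138831) (nat_lit 912) (nat_lit 4531193938) (nat_lit 988) (nat_lit 5423523964)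 (nat_lit 331) (nat_lit 5) (nat_lit 343) (nat_lit 5) (nat_lit 344) (nat_lit 5) (nat_lit 442) (nat_lit 409) (nat_lit 289)) (XT.lf (nat_lit 0) (nat_lit 6549345138) (nat_lit 912) (nat_lit 411616427) (nat_lit 988) (nat_lit 3885180281) (nat_lit 331) (nat_lit 5) (nat_lit 343) (nat_lit 5) (nat_lit 344) (nat_lit 5) (nat_lit 443) (nat_lit 409) (nat_lit 288))))))))
noncomputable def xc175 : XT := (XT.nd (nat_lit 1638) (nat_lit 6384) (nat_lit 0) (XT.nd (nat_lit 780) (nat_lit 4104) (nat_lit 0) (XT.nd (nat_lit 390) (nat_lit 1596) (nat_lit 0) (XT.nd (nat_lit 156) (nat_lit 1672) (nat_lit 0) (XT.nd (nat_lit 78) (nat_lit 0) (nat_lit 0) (XT.lf (nat_lit 0) (nat_lit 1452402584) (nat_lit 836) (nat_lit 7206081235) (nat_lit 912) (nat_lit 2298799825) (nat_lit 320) (nat_lit 5) (nat_lit 331) (nat_lit 5) (nat_lit 332) (nat_lit 5) (nat_lit 444) (nat_lit 409) (nat_lit 287)) (XT.lf (nat_lit 0) (nat_lit 7355855913) (nat_lit 836) (nat_lit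 3048773824) (nat_lit 912) (nat_lit 665734688) (nat_lit 320) (nat_lit 5) (nat_lit 331) (nat_lit 5) (nat_lit 332) (nat_lit 5) (nat_lit 445) (nat_lit 409) (nat_lit 286))) (XT.nd (nat_lit 78) (nat_lit 760) (nat_lit 0) (XT.lf (nat_lit 0) (nat_lit 992368285) (nat_lit 912) (nat_lit 8995632313) (nat_lit 76) (nat_lit 1197475777) (nat_lit 308) (nat_lit 5) (nat_lit 320) (nat_lit 5) (nat_lit 309) (nat_lit 5) (nat_lit 446) (nat_lit 409) (nat_lit 285)) (XT.nd (nat_lit 78) (nat_lit 760) (nat_lit 0) (XT.lf (nat_lit 0) (nat_lit 2703578077) (nat_lit 912) (nat_lit 3080880735) (nat_lit 76) (nat_lit 5517775616) (nat_lit 308) (nat_lit 5) (nat_lit 320) (nat_lit 5) (nat_lit 309) (nat_lit 5) (nat_lit 447) (nat_lit 409) (nat_lit 284)) (XT.lf (nat_lit 0) (nat_lit 2975147170) (nat_lit 760) (nat_lit 1477072384) (nat_lit 836) (nat_lit 6969052818) (nat_lit 298) (nat_lit 5) (nat_lit 308) (nat_lit 5) (nat_lit 309) (nat_lit 5) (nat_lit 448)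 (nat_lit 409) (nat_lit 283))))) (XT.nd (nat_lit 156) (nat_lit 836) (nat_lit 0) (XT.nd (nat_lit 78) (nat_lit 760) (nat_lit 0) (XT.lf (nat_lit 0) (nat_lit 6259683757) (nat_lit 836) (nat_lit 2383551508) (nat_lit 76) (nat_lit 2898987515) (nat_lit 298) (nat_lit 5) (nat_lit 309) (nat_lit 5) (nat_lit 299) (nat_lit 5) (nat_lit 449) (nat_lit 409) (nat_lit 282)) (XT.lf (nat_lit 0) (nat_lit 3824713149) (nat_lit 760) (nat_lit 4297613354) (nat_lit 836) (nat_lit 3542893641) (nat_lit 288) (nat_lit 5) (nat_lit 298) (nat_lit 5) (nat_lit 299) (nat_lit 5) (nat_lit 450) (nat_lit 409) (nat_lit 281))) (XT.nd (nat_lit 78) (nat_lit 836) (nat_lit 0) (XT.lf (nat_lit 0) (nat_lit 10023813502) (nat_lit 836) (nat_lit 1618035291) (nat_lit 76) (nat_lit 148805201) (nat_lit 288) (nat_lit 5) (nat_lit 299) (nat_lit 5) (nat_lit 289) (nat_lit 5) (nat_lit 451) (nat_lit 409) (nat_lit 280)) (XT.nd (nat_lit 78) (nat_lit 0) (nat_lit 0) (XT.lf (nat_lit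 0) (nat_lit 88628594) (nat_lit 836) (nat_lit 7171455202) (nat_lit 76) (nat_lit 4657625326) (nat_lit 277) (nat_lit 5) (nat_lit 288) (nat_lit 5) (nat_lit 278) (nat_lit 5) (nat_lit 452) (nat_lit 409) (nat_lit 279)) (XT.lf (nat_lit 0) (nat_lit 1953504320) (nat_lit 836) (nat_lit 815034183) (nat_lit 76) (nat_lit 9278622051) (nat_lit 277) (nat_lit 5) (nat_lit 288) (nat_lit 5) (nat_lit 278) (nat_lit 5) (nat_lit 453) (nat_lit 409) (nat_lit 278)))))) (XT.nd (nat_lit 390) (nat_lit 1976) (nat_lit 0) (XT.nd (nat_lit 156) (nat_lit 684) (nat_lit 0) (XT.nd (nat_lit 78) (nat_lit 684) (nat_lit 0) (XT.lf (nat_lit 0) (nat_lit 3890175520) (nat_lit 836) (nat_lit 6462752746) (nat_lit 76) (nat_lit 1825590518) (nat_lit 267) (nat_lit 5) (nat_lit 278) (nat_lit 5) (nat_lit 268) (nat_lit 5) (nat_lit 454) (nat_lit 409) (nat_lit 277)) (XT.lf (nat_lit 0) (nat_lit 42207026) (nat_lit 684) (nat_lit 5832965786) (nat_lit 760) (nat_lit 6437147092)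 (nat_lit 258) (nat_lit 5) (nat_lit 267) (nat_lit 5) (nat_lit 268) (nat_lit 5) (nat_lit 455) (nat_lit 409) (nat_lit 276))) (XT.nd (nat_lit 78) (nat_lit 684) (nat_lit 0) (XT.lf (nat_lit 0) (nat_lit 6749163241) (nat_lit 684) (nat_lit 1179736449) (nat_lit 760) (nat_lit 4519324191) (nat_lit 258) (nat_lit 5) (nat_lit 267) (nat_lit 5) (nat_lit 268) (nat_lit 5) (nat_lit 456) (nat_lit 409) (nat_lit 275)) (XT.nd (nat_lit 78) (nat_lit 0) (nat_lit 0) (XT.lf (nat_lit 0) (nat_lit 977396095) (nat_lit 684) (nat_lit 9061740983) (nat_lit 760) (nat_lit 2547407424) (nat_lit 249) (nat_lit 5) (nat_lit 258) (nat_lit 5) (nat_lit 259) (nat_lit 5) (nat_lit 457) (nat_lit 409) (nat_lit 274)) (XT.lf (nat_lit 0) (nat_lit 7841141918) (nat_lit 684) (nat_lit 4382550711) (nat_lit 760) (nat_lit 503303778) (nat_lit 249) (nat_lit 5) (nat_lit 258) (nat_lit 5) (nat_lit 259) (nat_lit 5) (nat_lit 458) (nat_lit 409) (nat_lit 273))))) (XT.nd (nat_lit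 234) (nat_lit 608) (nat_lit 0) (XT.nd (nat_lit 78) (nat_lit 684) (nat_lit 0) (XT.lf (nat_lit 0) (nat_lit 1562700345) (nat_lit 684) (nat_lit 10900711919) (nat_lit 76) (nat_lit 406611314) (nat_lit 240) (nat_lit 5) (nat_lit 249) (nat_lit 5) (nat_lit 241) (nat_lit 5) (nat_lit 459) (nat_lit 409) (nat_lit 272)) (XT.nd (nat_lit 78) (nat_lit 684) (nat_lit 0) (XT.lf (nat_lit 0) (nat_lit 3711759974) (nat_lit 684) (nat_lit 4035642782) (nat_lit 76) (nat_lit 5267479233) (nat_lit 240) (nat_lit 5) (nat_lit 249) (nat_lit 5) (nat_lit 241) (nat_lit 5) (nat_lit 460) (nat_lit 409) (nat_lit 271)) (XT.lf (nat_lit 0) (nat_lit 2990633158) (nat_lit 684) (nat_lit 2919291735) (nat_lit 760) (nat_lit 7252596792) (nat_lit 231) (nat_lit 5) (nat_lit 240) (nat_lit 5) (nat_lit 241) (nat_lit 5) (nat_lit 461) (nat_lit 409) (nat_lit 270)))) (XT.nd (nat_lit 78) (nat_lit 608) (nat_lit 0) (XT.lf (nat_lit 0) (nat_lit 8179189247) (nat_lit 760) (nat_lit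 3129105396) (nat_lit 76) (nat_lit 2004283275) (nat_lit 231) (nat_lit 5) (nat_lit 241) (nat_lit 5) (nat_lit 232) (nat_lit 5) (nat_lit 462) (nat_lit 409) (nat_lit 269)) (XT.nd (nat_lit 78) (nat_lit 0) (nat_lit 0) (XT.lf (nat_lit 0) (nat_lit 4073455767) (nat_lit 608) (nat_lit 6453276733) (nat_lit 684) (nat_lit 2938251244) (nat_lit 223) (nat_lit 5) (nat_lit 231) (nat_lit 5) (nat_lit 232) (nat_lit 5) (nat_lit 463) (nat_lit 409) (nat_lit 268)) (XT.lf (nat_lit 0) (nat_lit 11447415117) (nat_lit 608) (nat_lit 1482077272) (nat_lit 684) (nat_lit 690786198) (nat_lit 223) (nat_lit 5) (nat_lit 231) (nat_lit 5) (nat_lit 232) (nat_lit 5) (nat_lit 464) (nat_lit 409) (nat_lit 267))))))) (XT.nd (nat_lit 780) (nat_lit 2888) (nat_lit 0) (XT.nd (nat_lit 390) (nat_lit 1672) (nat_lit 0) (XT.nd (nat_lit 156) (nat_lit 1140) (nat_lit 0) (XT.nd (nat_lit 78) (nat_lit 0) (nat_lit 0) (XT.lf (nat_lit 0) (nat_lit 1625608137) (nat_lit 684)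 (nat_lit 8568159964) (nat_lit 76) (nat_lit 3583809512) (nat_lit 214) (nat_lit 5) (nat_lit 223) (nat_lit 5) (nat_lit 215) (nat_lit 5) (nat_lit 465) (nat_lit 409) (nat_lit 266)) (XT.lf (nat_lit 0) (nat_lit 3991145211) (nat_lit 684) (nat_lit 1198505901) (nat_lit 76) (nat_lit 8748044753) (nat_lit 214) (nat_lit 5) (nat_lit 223) (nat_lit 5) (nat_lit 215) (nat_lit 5) (nat_lit 466) (nat_lit 409) (nat_lit 265))) (XT.nd (nat_lit 78) (nat_lit 608) (nat_lit 0) (XT.lf (nat_lit 0) (nat_lit 6387523939) (nat_lit 532) (nat_lit 45748119) (nat_lit 608) (nat_lit 7667164586) (nat_lit 207) (nat_lit 5) (nat_lit 214) (nat_lit 5) (nat_lit 215) (nat_lit 5) (nat_lit 467) (nat_lit 409) (nat_lit 264)) (XT.nd (nat_lit 78) (nat_lit 608) (nat_lit 0) (XT.lf (nat_lit 0) (nat_lit 8954039367) (nat_lit 608) (nat_lit 173495735) (nat_lit 76) (nat_lit 5138306808) (nat_lit 207) (nat_lit 5) (nat_lit 215) (nat_lit 5) (nat_lit 208) (nat_lit 5) (nat_lit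 468) (nat_lit 409) (nat_lit 263)) (XT.lf (nat_lit 0) (nat_lit 7601470903) (nat_lit 608) (nat_lit 3961577976) (nat_lit 684) (nat_lit 2870755385) (nat_lit 199) (nat_lit 5) (nat_lit 207) (nat_lit 5) (nat_lit 208) (nat_lit 5) (nat_lit 469) (nat_lit 409) (nat_lit 262))))) (XT.nd (nat_lit 156) (nat_lit 1064) (nat_lit 0) (XT.nd (nat_lit 78) (nat_lit 76) (nat_lit 0) (XT.lf (nat_lit 0) (nat_lit 917972376) (nat_lit 532) (nat_lit 13310177936) (nat_lit 608) (nat_lit 376902730) (nat_lit 192) (nat_lit 5) (nat_lit 199) (nat_lit 5) (nat_lit 200) (nat_lit 5) (nat_lit 470) (nat_lit 409) (nat_lit 261)) (XT.lf (nat_lit 0) (nat_lit 2199138249) (nat_lit 608) (nat_lit 5918337223) (nat_lit 76) (nat_lit 6660760562) (nat_lit 191) (nat_lit 5) (nat_lit 199) (nat_lit 5) (nat_lit 192) (nat_lit 5) (nat_lit 471) (nat_lit 409) (nat_lit 260))) (XT.nd (nat_lit 78) (nat_lit 532) (nat_lit 0) (XT.lf (nat_lit 0) (nat_lit 2015187157) (nat_lit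 532) (nat_lit 2808125202) (nat_lit 608) (nat_lit 10131492421) (nat_lit 184) (nat_lit 5) (nat_lit 191) (nat_lit 5) (nat_lit 192) (nat_lit 5) (nat_lit 472) (nat_lit 409) (nat_lit 259)) (XT.nd (nat_lit 78) (nat_lit 532) (nat_lit 0) (XT.lf (nat_lit 0) (nat_lit 7545557629) (nat_lit 608) (nat_lit 4978338513) (nat_lit 76) (nat_lit 2610102003) (nat_lit 184) (nat_lit 5) (nat_lit 192) (nat_lit 5) (nat_lit 185) (nat_lit 5) (nat_lit 473) (nat_lit 409) (nat_lit 258)) (XT.lf (nat_lit 0) (nat_lit 3150533749) (nat_lit 532) (nat_lit 7199668675) (nat_lit 608) (nat_lit 4966018763) (nat_lit 177) (nat_lit 5) (nat_lit 184) (nat_lit 5) (nat_lit 185) (nat_lit 5) (nat_lit 474) (nat_lit 409) (nat_lit 257)))))) (XT.nd (nat_lit 390) (nat_lit 1824) (nat_lit 0) (XT.nd (nat_lit 156) (nat_lit 456) (nat_lit 0) (XT.nd (nat_lit 78) (nat_lit 608) (nat_lit 0) (XT.lf (nat_lit 0) (nat_lit 11495205201) (nat_lit 532) (nat_lit 1738169605) (nat_lit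 608) (nat_lit 2268269995) (nat_lit 177) (nat_lit 5) (nat_lit 184) (nat_lit 5) (nat_lit 185) (nat_lit 5) (nat_lit 475) (nat_lit 409) (nat_lit 256)) (XT.lf (nat_lit 0) (nat_lit 519611378) (nat_lit 608) (nat_lit 11359587670) (nat_lit 76) (nat_lit 3810669324) (nat_lit 169) (nat_lit 5) (nat_lit 177) (nat_lit 5) (nat_lit 170) (nat_lit 5) (nat_lit 476) (nat_lit 409) (nat_lit 255))) (XT.nd (nat_lit 78) (nat_lit 456) (nat_lit 0) (XT.lf (nat_lit 0) (nat_lit 3360747428) (nat_lit 608) (nat_lit 3034219843) (nat_lit 76) (nat_lit 9486036421) (nat_lit 169) (nat_lit 5) (nat_lit 177) (nat_lit 5) (nat_lit 170) (nat_lit 5) (nat_lit 477) (nat_lit 409) (nat_lit 254)) (XT.nd (nat_lit 78) (nat_lit 0) (nat_lit 0) (XT.lf (nat_lit 0) (nat_lit 5516044223) (nat_lit 456) (nat_lit 767952627) (nat_lit 532) (nat_lit 9791463496) (nat_lit 163) (nat_lit 5) (nat_lit 169) (nat_lit 5) (nat_lit 170) (nat_lit 5) (nat_lit 478) (nat_lit 409) (nat_lit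 253)) (XT.lf (nat_lit 0) (nat_lit 9308056975) (nat_lit 532) (nat_lit 2041422738) (nat_lit 76) (nat_lit 4923483858) (nat_lit 163) (nat_lit 5) (nat_lit 170) (nat_lit 5) (nat_lit 164) (nat_lit 5) (nat_lit 479) (nat_lit 409) (nat_lit 252))))) (XT.nd (nat_lit 234) (nat_lit 836) (nat_lit 0) (XT.nd (nat_lit 78) (nat_lit 532) (nat_lit 0) (XT.lf (nat_lit 0) (nat_lit 6716150545) (nat_lit 456) (nat_lit 5714914454) (nat_lit 532) (nat_lit 4042586793) (nat_lit 157) (nat_lit 5) (nat_lit 163) (nat_lit 5) (nat_lit 164) (nat_lit 5) (nat_lit 480) (nat_lit 409) (nat_lit 251)) (XT.nd (nat_lit 78) (nat_lit 532) (nat_lit 0) (XT.lf (nat_lit 0) (nat_lit 15620396546) (nat_lit 532) (nat_lit 1015703503) (nat_lit 76) (nat_lit 42180646) (nat_lit 157) (nat_lit 5) (nat_lit 164) (nat_lit 5) (nat_lit 158) (nat_lit 5) (nat_lit 481) (nat_lit 409) (nat_lit 250)) (XT.lf (nat_lit 0) (nat_lit 2040532703) (nat_lit 532) (nat_lit 8945039560) (nat_lit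 76) (nat_lit 5899574505) (nat_lit 150) (nat_lit 5) (nat_lit 157) (nat_lit 5) (nat_lit 151) (nat_lit 5) (nat_lit 482) (nat_lit 409) (nat_lit 249)))) (XT.nd (nat_lit 78) (nat_lit 836) (nat_lit 0) (XT.lf (nat_lit 0) (nat_lit 5183727569) (nat_lit 532) (nat_lit 27906961) (nat_lit 76) (nat_lit 11884440228) (nat_lit 150) (nat_lit 5) (nat_lit 157) (nat_lit 5) (nat_lit 151) (nat_lit 5) (nat_lit 483) (nat_lit 409) (nat_lit 248)) (XT.nd (nat_lit 78) (nat_lit 380) (nat_lit 0) (XT.lf (nat_lit 0) (nat_lit 8444419206) (nat_lit 532) (nat_lit 8140482315) (nat_lit 76) (nat_lit 725230994) (nat_lit 144) (nat_lit 5) (nat_lit 151) (nat_lit 5) (nat_lit 145) (nat_lit 5) (nat_lit 484) (nat_lit 409) (nat_lit 247)) (XT.lf (nat_lit 0) (nat_lit 988051488) (nat_lit 380) (nat_lit 10813765569) (nat_lit 456) (nat_lit 5726028310) (nat_lit 139) (nat_lit 5) (nat_lit 144) (nat_lit 5) (nat_lit 145) (nat_lit 5) (nat_lit 485) (nat_lit 409) (nat_lit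 246))))))))
noncomputable def xc176 : XT := (XT.nd (nat_lit 53898) (nat_lit 0) (nat_lit 22800) (XT.nd (nat_lit 780) (nat_lit 760) (nat_lit 0) (XT.nd (nat_lit 390) (nat_lit 1216) (nat_lit 0) (XT.nd (nat_lit 156) (nat_lit 380) (nat_lit 0) (XT.nd (nat_lit 78) (nat_lit 532) (nat_lit 0) (XT.lf (nat_lit 0) (nat_lit 10396130189) (nat_lit 380) (nat_lit 4875336159) (nat_lit 456) (nat_lit 2477547775) (nat_lit 139) (nat_lit 5) (nat_lit 144) (nat_lit 5) (nat_lit 145) (nat_lit 5) (nat_lit 486) (nat_lit 409) (nat_lit 245)) (XT.lf (nat_lit 0) (nat_lit 836460757) (nat_lit 532) (nat_lit 15956532383) (nat_lit 76) (nat_lit 1181277710) (nat_lit 132) (nat_lit 5) (nat_lit 139) (nat_lit 5) (nat_lit 133) (nat_lit 5) (nat_lit 487) (nat_lit 409) (nat_lit 244))) (XT.nd (nat_lit 78) (nat_lit 380) (nat_lit 0) (XT.lf (nat_lit 0) (nat_lit 4256233440) (nat_lit 532) (nat_lit 6589939608) (nat_lit 76) (nat_lit 7356082466) (nat_lit 132) (nat_lit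 5) (nat_lit 139) (nat_lit 5) (nat_lit 133) (nat_lit 5) (nat_lit 488) (nat_lit 409) (nat_lit 243)) (XT.nd (nat_lit 78) (nat_lit 0) (nat_lit 0) (XT.lf (nat_lit 0) (nat_lit 2990146463) (nat_lit 380) (nat_lit 4764523884) (nat_lit 456) (nat_lit 10679927581) (nat_lit 127) (nat_lit 5) (nat_lit 132) (nat_lit 5) (nat_lit 133) (nat_lit 5) (nat_lit 489) (nat_lit 409) (nat_lit 242)) (XT.lf (nat_lit 0) (nat_lit 11367856617) (nat_lit 456) (nat_lit 5842302264) (nat_lit 76) (nat_lit 1460536060) (nat_lit 127) (nat_lit 5) (nat_lit 133) (nat_lit 5) (nat_lit 128) (nat_lit 5) (nat_lit 490) (nat_lit 409) (nat_lit 241))))) (XT.nd (nat_lit 156) (nat_lit 836) (nat_lit 0) (XT.nd (nat_lit 78) (nat_lit 0) (nat_lit 0) (XT.lf (nat_lit 0) (nat_lit 3959394460) (nat_lit 380) (nat_lit 11142274686) (nat_lit 456) (nat_lit 3808880797) (nat_lit 122) (nat_lit 5) (nat_lit 127) (nat_lit 5) (nat_lit 128) (nat_lit 5) (nat_lit 491) (nat_lit 409) (nat_lit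 240)) (XT.lf (nat_lit 0) (nat_lit 14023533246) (nat_lit 380) (nat_lit 4917023433) (nat_lit 456) (nat_lit 214040625) (nat_lit 122) (nat_lit 5) (nat_lit 127) (nat_lit 5) (nat_lit 128) (nat_lit 5) (nat_lit 492) (nat_lit 409) (nat_lit 239))) (XT.nd (nat_lit 78) (nat_lit 380) (nat_lit 0) (XT.lf (nat_lit 0) (nat_lit 3440266389) (nat_lit 456) (nat_lit 14497435423) (nat_lit 76) (nat_lit 1464721507) (nat_lit 116) (nat_lit 5) (nat_lit 122) (nat_lit 5) (nat_lit 117) (nat_lit 5) (nat_lit 493) (nat_lit 409) (nat_lit 238)) (XT.nd (nat_lit 78) (nat_lit 380) (nat_lit 0) (XT.lf (nat_lit 0) (nat_lit 7223388754) (nat_lit 456) (nat_lit 4490131894) (nat_lit 76) (nat_lit 7940488054) (nat_lit 116) (nat_lit 5) (nat_lit 122) (nat_lit 5) (nat_lit 117) (nat_lit 5) (nat_lit 494) (nat_lit 409) (nat_lit 237)) (XT.lf (nat_lit 0) (nat_lit 5780661620) (nat_lit 380) (nat_lit 5330582364) (nat_lit 456) (nat_lit 8798803389) (nat_lit 111) (nat_lit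 5) (nat_lit 116) (nat_lit 5) (nat_lit 117) (nat_lit 5) (nat_lit 495) (nat_lit 409) (nat_lit 236)))))) (XT.nd (nat_lit 52728) (nat_lit 0) (nat_lit 28272) (XT.nd (nat_lit 156) (nat_lit 456) (nat_lit 0) (XT.nd (nat_lit 78) (nat_lit 304) (nat_lit 0) (XT.lf (nat_lit 0) (nat_lit 15106446404) (nat_lit 456) (nat_lit 3873262106) (nat_lit 76) (nat_lit 1190909434) (nat_lit 111) (nat_lit 5) (nat_lit 117) (nat_lit 5) (nat_lit 112) (nat_lit 5) (nat_lit 496) (nat_lit 409) (nat_lit 235)) (XT.lf (nat_lit 0) (nat_lit 6627313438) (nat_lit 304) (nat_lit 12624332918) (nat_lit 380) (nat_lit 1183354572) (nat_lit 107) (nat_lit 5) (nat_lit 111) (nat_lit 5) (nat_lit 112) (nat_lit 5) (nat_lit 497) (nat_lit 409) (nat_lit 234))) (XT.nd (nat_lit 78) (nat_lit 380) (nat_lit 0) (XT.lf (nat_lit 0) (nat_lit 2756635014) (nat_lit 380) (nat_lit 3344256108) (nat_lit 76) (nat_lit 14603063818) (nat_lit 106) (nat_lit 5) (nat_lit 111) (nat_lit 5)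 (nat_lit 107) (nat_lit 5) (nat_lit 498) (nat_lit 409) (nat_lit 233)) (XT.nd (nat_lit 52416) (nat_lit 0) (nat_lit 28272) (XT.lf (nat_lit 0) (nat_lit 6803560477) (nat_lit 456) (nat_lit 13575611123) (nat_lit 76) (nat_lit 598083075) (nat_lit 101) (nat_lit 5) (nat_lit 107) (nat_lit 5) (nat_lit 102) (nat_lit 5) (nat_lit 499) (nat_lit 409) (nat_lit 232)) (XT.lf (nat_lit 0) (nat_lit 670233619) (nat_lit 1444) (nat_lit 1710487486) (nat_lit 1444) (nat_lit 1710487486) (nat_lit 473) (nat_lit 3) (nat_lit 492) (nat_lit 3) (nat_lit 492) (nat_lit 5) (nat_lit 410) (nat_lit 410) (nat_lit 320))))) (XT.nd (nat_lit 156) (nat_lit 0) (nat_lit 76) (XT.nd (nat_lit 78) (nat_lit 0) (nat_lit 76) (XT.lf (nat_lit 76) (nat_lit 412234281) (nat_lit 0) (nat_lit 2048917758) (nat_lit 1444) (nat_lit 5780196375) (nat_lit 474) (nat_lit 5) (nat_lit 473) (nat_lit 3) (nat_lit 492) (nat_lit 5) (nat_lit 411) (nat_lit 410) (nat_lit 319)) (XT.lf (nat_lit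 0) (nat_lit 3603039955) (nat_lit 1368) (nat_lit 3953007664) (nat_lit 1444) (nat_lit 745454465) (nat_lit 474) (nat_lit 5) (nat_lit 492) (nat_lit 5) (nat_lit 493) (nat_lit 5) (nat_lit 412) (nat_lit 410) (nat_lit 318))) (XT.nd (nat_lit 78) (nat_lit 0) (nat_lit 0) (XT.lf (nat_lit 0) (nat_lit 4752922895) (nat_lit 1368) (nat_lit 28316319) (nat_lit 1444) (nat_lit 3581935688) (nat_lit 474) (nat_lit 5) (nat_lit 492) (nat_lit 5) (nat_lit 493) (nat_lit 5) (nat_lit 413) (nat_lit 410) (nat_lit 317)) (XT.nd (nat_lit 78) (nat_lit 0) (nat_lit 76) (XT.lf (nat_lit 76) (nat_lit 4012425613) (nat_lit 0) (nat_lit 1911574575) (nat_lit 1444) (nat_lit 2502135895) (nat_lit 475) (nat_lit 5) (nat_lit 474) (nat_lit 5) (nat_lit 493) (nat_lit 5) (nat_lit 414) (nat_lit 410) (nat_lit 316)) (XT.lf (nat_lit 0) (nat_lit 7097958605) (nat_lit 1368) (nat_lit 378196057) (nat_lit 1444) (nat_lit 1014631106) (nat_lit 475) (nat_lit 5) (nat_lit 493)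 (nat_lit 5) (nat_lit 494) (nat_lit 5) (nat_lit 415) (nat_lit 410) (nat_lit 315))))))) (XT.nd (nat_lit 780) (nat_lit 2888) (nat_lit 0) (XT.nd (nat_lit 390) (nat_lit 1292) (nat_lit 0) (XT.nd (nat_lit 156) (nat_lit 0) (nat_lit 76) (XT.nd (nat_lit 78) (nat_lit 1444) (nat_lit 0) (XT.lf (nat_lit 76) (nat_lit 3759364998) (nat_lit 0) (nat_lit 4546309809) (nat_lit 1444) (nat_lit 250866178) (nat_lit 476) (nat_lit 5) (nat_lit 475) (nat_lit 5) (nat_lit 494) (nat_lit 5) (nat_lit 416) (nat_lit 410) (nat_lit 314)) (XT.lf (nat_lit 0) (nat_lit 877947637) (nat_lit 1444) (nat_lit 660285947) (nat_lit 1520) (nat_lit 7085756452) (nat_lit 456) (nat_lit 5) (nat_lit 475) (nat_lit 5) (nat_lit 476) (nat_lit 5) (nat_lit 417) (nat_lit 410) (nat_lit 313))) (XT.nd (nat_lit 78) (nat_lit 0) (nat_lit 0) (XT.lf (nat_lit 0) (nat_lit 2033422093) (nat_lit 1444) (nat_lit 5113511318) (nat_lit 1520) (nat_lit 1545689688) (nat_lit 457) (nat_lit 5)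 (nat_lit 476) (nat_lit 5) (nat_lit 477) (nat_lit 5) (nat_lit 418) (nat_lit 410) (nat_lit 312)) (XT.nd (nat_lit 78) (nat_lit 0) (nat_lit 0) (XT.lf (nat_lit 0) (nat_lit 3201099028) (nat_lit 1444) (nat_lit 876278333) (nat_lit 1520) (nat_lit 4685486335) (nat_lit 457) (nat_lit 5) (nat_lit 476) (nat_lit 5) (nat_lit 477) (nat_lit 5) (nat_lit 419) (nat_lit 410) (nat_lit 311)) (XT.lf (nat_lit 76) (nat_lit 3475824968) (nat_lit 0) (nat_lit 913818760) (nat_lit 1520) (nat_lit 4444931494) (nat_lit 458) (nat_lit 5) (nat_lit 457) (nat_lit 5) (nat_lit 477) (nat_lit 5) (nat_lit 420) (nat_lit 410) (nat_lit 310))))) (XT.nd (nat_lit 156) (nat_lit 1444) (nat_lit 0) (XT.nd (nat_lit 78) (nat_lit 0) (nat_lit 0) (XT.lf (nat_lit 0) (nat_lit 5598294940) (nat_lit 1444) (nat_lit 1011739811) (nat_lit 1520) (nat_lit 2297775595) (nat_lit 458) (nat_lit 5) (nat_lit 477) (nat_lit 5) (nat_lit 478) (nat_lit 5) (nat_lit 421) (nat_lit 410) (nat_lit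 309)) (XT.lf (nat_lit 76) (nat_lit 3445734394) (nat_lit 0) (nat_lit 3389689718) (nat_lit 1520) (nat_lit 2147015730) (nat_lit 459) (nat_lit 5) (nat_lit 458) (nat_lit 5) (nat_lit 478) (nat_lit 5) (nat_lit 422) (nat_lit 410) (nat_lit 308))) (XT.nd (nat_lit 78) (nat_lit 1444) (nat_lit 0) (XT.lf (nat_lit 76) (nat_lit 7990559129) (nat_lit 0) (nat_lit 89779402) (nat_lit 1520) (nat_lit 978578000) (nat_lit 459) (nat_lit 5) (nat_lit 458) (nat_lit 5) (nat_lit 478) (nat_lit 5) (nat_lit 423) (nat_lit 410) (nat_lit 307)) (XT.nd (nat_lit 78) (nat_lit 0) (nat_lit 0) (XT.lf (nat_lit 0) (nat_lit 231309431) (nat_lit 1520) (nat_lit 5639820291) (nat_lit 1596) (nat_lit 3265362649) (nat_lit 439) (nat_lit 5) (nat_lit 459) (nat_lit 5) (nat_lit 460) (nat_lit 5) (nat_lit 424) (nat_lit 410) (nat_lit 306)) (XT.lf (nat_lit 0) (nat_lit 1437074147) (nat_lit 1520) (nat_lit 1071074568) (nat_lit 1596) (nat_lit 6707660557) (nat_lit 439) (nat_lit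 5) (nat_lit 459) (nat_lit 5) (nat_lit 460) (nat_lit 5) (nat_lit 425) (nat_lit 410) (nat_lit 305)))))) (XT.nd (nat_lit 390) (nat_lit 2964) (nat_lit 0) (XT.nd (nat_lit 156) (nat_lit 0) (nat_lit 0) (XT.nd (nat_lit 78) (nat_lit 0) (nat_lit 0) (XT.lf (nat_lit 0) (nat_lit 2674061904) (nat_lit 1520) (nat_lit 5682007939) (nat_lit 1596) (nat_lit 940514793) (nat_lit 440) (nat_lit 5) (nat_lit 460) (nat_lit 5) (nat_lit 461) (nat_lit 5) (nat_lit 426) (nat_lit 410) (nat_lit 304)) (XT.lf (nat_lit 0) (nat_lit 3937431214) (nat_lit 1520) (nat_lit 1003076070) (nat_lit 1596) (nat_lit 4438449387) (nat_lit 440) (nat_lit 5) (nat_lit 460) (nat_lit 5) (nat_lit 461) (nat_lit 5) (nat_lit 427) (nat_lit 410) (nat_lit 303))) (XT.nd (nat_lit 78) (nat_lit 0) (nat_lit 76) (XT.lf (nat_lit 76) (nat_lit 3803587658) (nat_lit 0) (nat_lit 1425407497) (nat_lit 1596) (nat_lit 4233936171) (nat_lit 441) (nat_lit 5) (nat_lit 440) (nat_lit 5) (nat_lit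 461) (nat_lit 5) (nat_lit 428) (nat_lit 410) (nat_lit 302)) (XT.nd (nat_lit 78) (nat_lit 0) (nat_lit 0) (XT.lf (nat_lit 0) (nat_lit 6545785182) (nat_lit 1520) (nat_lit 858646006) (nat_lit 1596) (nat_lit 2144179847) (nat_lit 441) (nat_lit 5) (nat_lit 461) (nat_lit 5) (nat_lit 462) (nat_lit 5) (nat_lit 429) (nat_lit 410) (nat_lit 301)) (XT.lf (nat_lit 76) (nat_lit 4066162033) (nat_lit 0) (nat_lit 3837603633) (nat_lit 1596) (nat_lit 1731954771) (nat_lit 442) (nat_lit 5) (nat_lit 441) (nat_lit 5) (nat_lit 462) (nat_lit 5) (nat_lit 430) (nat_lit 410) (nat_lit 300))))) (XT.nd (nat_lit 234) (nat_lit 1520) (nat_lit 0) (XT.nd (nat_lit 78) (nat_lit 1520) (nat_lit 0) (XT.lf (nat_lit 76) (nat_lit 9085417066) (nat_lit 0) (nat_lit 188574931) (nat_lit 1596) (nat_lit 450891240) (nat_lit 442) (nat_lit 5) (nat_lit 441) (nat_lit 5) (nat_lit 462) (nat_lit 5) (nat_lit 431) (nat_lit 410) (nat_lit 299)) (XT.nd (nat_lit 78) (nat_lit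 0) (nat_lit 0) (XT.lf (nat_lit 0) (nat_lit 876088849) (nat_lit 1596) (nat_lit 5412708014) (nat_lit 1672) (nat_lit 3526303349) (nat_lit 421) (nat_lit 5) (nat_lit 442) (nat_lit 5) (nat_lit 443) (nat_lit 5) (nat_lit 432) (nat_lit 410) (nat_lit 298)) (XT.lf (nat_lit 0) (nat_lit 2209056969) (nat_lit 1596) (nat_lit 373548689) (nat_lit 1672) (nat_lit 7324758732) (nat_lit 421) (nat_lit 5) (nat_lit 442) (nat_lit 5) (nat_lit 443) (nat_lit 5) (nat_lit 433) (nat_lit 410) (nat_lit 297)))) (XT.nd (nat_lit 78) (nat_lit 1596) (nat_lit 0) (XT.lf (nat_lit 0) (nat_lit 3588254056) (nat_lit 1596) (nat_lit 5195427462) (nat_lit 76) (nat_lit 1217412888) (nat_lit 422) (nat_lit 5) (nat_lit 443) (nat_lit 5) (nat_lit 423) (nat_lit 5) (nat_lit 434) (nat_lit 410) (nat_lit 296)) (XT.nd (nat_lit 78) (nat_lit 1596) (nat_lit 0) (XT.lf (nat_lit 0) (nat_lit 4995277194) (nat_lit 1596) (nat_lit 36251596) (nat_lit 76) (nat_lit 5065177106) (nat_lit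 422) (nat_lit 5) (nat_lit 443) (nat_lit 5) (nat_lit 423) (nat_lit 5) (nat_lit 435) (nat_lit 410) (nat_lit 295)) (XT.lf (nat_lit 0) (nat_lit 5279652157) (nat_lit 1596) (nat_lit 1166063179) (nat_lit 1672) (nat_lit 3748220273) (nat_lit 401) (nat_lit 5) (nat_lit 422) (nat_lit 5) (nat_lit 423) (nat_lit 5) (nat_lit 436) (nat_lit 410) (nat_lit 294))))))))
noncomputable def xc177 : XT := (XT.nd (nat_lit 1560) (nat_lit 6764) (nat_lit 0) (XT.nd (nat_lit 780) (nat_lit 4636) (nat_lit 0) (XT.nd (nat_lit 390) (nat_lit 1824) (nat_lit 0) (XT.nd (nat_lit 156) (nat_lit 2736) (nat_lit 0) (XT.nd (nat_lit 78) (nat_lit 0) (nat_lit 0) (XT.lf (nat_lit 0) (nat_lit 380214833) (nat_lit 1672) (nat_lit 7546976435) (nat_lit 1748) (nat_lit 2365889328) (nat_lit 379) (nat_lit 5) (nat_lit 401) (nat_lit 5) (nat_lit 402) (nat_lit 5) (nat_lit 437) (nat_lit 410) (nat_lit 293)) (XT.lf (nat_lit 0) (nat_lit 5823495651) (nat_lit 1672) (nat_lit 3637000952)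 (nat_lit 1748) (nat_lit 933278920) (nat_lit 379) (nat_lit 5) (nat_lit 401) (nat_lit 5) (nat_lit 402) (nat_lit 5) (nat_lit 438) (nat_lit 410) (nat_lit 292))) (XT.nd (nat_lit 78) (nat_lit 912) (nat_lit 0) (XT.lf (nat_lit 0) (nat_lit 510854219) (nat_lit 1824) (nat_lit 9627714013) (nat_lit 76) (nat_lit 358062265) (nat_lit 355) (nat_lit 5) (nat_lit 379) (nat_lit 5) (nat_lit 356) (nat_lit 5) (nat_lit 439) (nat_lit 410) (nat_lit 291)) (XT.nd (nat_lit 78) (nat_lit 912) (nat_lit 0) (XT.lf (nat_lit 0) (nat_lit 2008395084) (nat_lit 1824) (nat_lit 4168668817) (nat_lit 76) (nat_lit 4423625257) (nat_lit 355) (nat_lit 5) (nat_lit 379) (nat_lit 5) (nat_lit 356) (nat_lit 5) (nat_lit 440) (nat_lit 410) (nat_lit 290)) (XT.lf (nat_lit 0) (nat_lit 1402144818) (nat_lit 912) (nat_lit 2125249325) (nat_lit 988) (nat_lit 7179614899) (nat_lit 343) (nat_lit 5) (nat_lit 355) (nat_lit 5) (nat_lit 356) (nat_lit 5) (nat_lit 441) (nat_lit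 410) (nat_lit 289))))) (XT.nd (nat_lit 156) (nat_lit 912) (nat_lit 0) (XT.nd (nat_lit 78) (nat_lit 912) (nat_lit 0) (XT.lf (nat_lit 0) (nat_lit 5100624661) (nat_lit 988) (nat_lit 3703299351) (nat_lit 76) (nat_lit 2011064283) (nat_lit 343) (nat_lit 5) (nat_lit 356) (nat_lit 5) (nat_lit 344) (nat_lit 5) (nat_lit 442) (nat_lit 410) (nat_lit 288)) (XT.lf (nat_lit 0) (nat_lit 2006791066) (nat_lit 912) (nat_lit 4708630261) (nat_lit 988) (nat_lit 4209513575) (nat_lit 331) (nat_lit 5) (nat_lit 343) (nat_lit 5) (nat_lit 344) (nat_lit 5) (nat_lit 443) (nat_lit 410) (nat_lit 287))) (XT.nd (nat_lit 78) (nat_lit 912) (nat_lit 0) (XT.lf (nat_lit 0) (nat_lit 7865635431) (nat_lit 912) (nat_lit 504958995) (nat_lit 988) (nat_lit 2666334016) (nat_lit 331) (nat_lit 5) (nat_lit 343) (nat_lit 5) (nat_lit 344) (nat_lit 5) (nat_lit 444) (nat_lit 410) (nat_lit 286)) (XT.nd (nat_lit 78) (nat_lit 76) (nat_lit 0) (XT.lf (nat_lit 0)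 (nat_lit 2685469226) (nat_lit 836) (nat_lit 7398963359) (nat_lit 912) (nat_lit 1066227456) (nat_lit 320) (nat_lit 5) (nat_lit 331) (nat_lit 5) (nat_lit 332) (nat_lit 5) (nat_lit 445) (nat_lit 410) (nat_lit 285)) (XT.lf (nat_lit 0) (nat_lit 566895661) (nat_lit 912) (nat_lit 2586853881) (nat_lit 76) (nat_lit 8112683584) (nat_lit 319) (nat_lit 5) (nat_lit 331) (nat_lit 5) (nat_lit 320) (nat_lit 5) (nat_lit 446) (nat_lit 410) (nat_lit 284)))))) (XT.nd (nat_lit 390) (nat_lit 2280) (nat_lit 0) (XT.nd (nat_lit 156) (nat_lit 1520) (nat_lit 0) (XT.nd (nat_lit 78) (nat_lit 0) (nat_lit 0) (XT.lf (nat_lit 0) (nat_lit 2232522915) (nat_lit 912) (nat_lit 7960604542) (nat_lit 76) (nat_lit 1190979769) (nat_lit 308) (nat_lit 5) (nat_lit 320) (nat_lit 5) (nat_lit 309) (nat_lit 5) (nat_lit 447) (nat_lit 410) (nat_lit 283)) (XT.lf (nat_lit 0) (nat_lit 3954029310) (nat_lit 912) (nat_lit 1951380294) (nat_lit 76) (nat_lit 5598282576)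 (nat_lit 308) (nat_lit 5) (nat_lit 320) (nat_lit 5) (nat_lit 309) (nat_lit 5) (nat_lit 448) (nat_lit 410) (nat_lit 282))) (XT.nd (nat_lit 78) (nat_lit 760) (nat_lit 0) (XT.lf (nat_lit 0) (nat_lit 4217931866) (nat_lit 760) (nat_lit 1503935976) (nat_lit 836) (nat_lit 5903571485) (nat_lit 298) (nat_lit 5) (nat_lit 308) (nat_lit 5) (nat_lit 309) (nat_lit 5) (nat_lit 449) (nat_lit 410) (nat_lit 281)) (XT.nd (nat_lit 78) (nat_lit 760) (nat_lit 0) (XT.lf (nat_lit 0) (nat_lit 7542349278) (nat_lit 836) (nat_lit 1247376598) (nat_lit 76) (nat_lit 2959558183) (nat_lit 298) (nat_lit 5) (nat_lit 309) (nat_lit 5) (nat_lit 299) (nat_lit 5) (nat_lit 450) (nat_lit 410) (nat_lit 280)) (XT.lf (nat_lit 0) (nat_lit 5077264892) (nat_lit 760) (nat_lit 4349920207) (nat_lit 836) (nat_lit 2447869894) (nat_lit 288) (nat_lit 5) (nat_lit 298) (nat_lit 5) (nat_lit 299) (nat_lit 5) (nat_lit 451) (nat_lit 410) (nat_lit 279))))) (XT.nd (nat_lit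 156) (nat_lit 1444) (nat_lit 0) (XT.nd (nat_lit 78) (nat_lit 836) (nat_lit 0) (XT.lf (nat_lit 0) (nat_lit 11344515765) (nat_lit 836) (nat_lit 474603266) (nat_lit 76) (nat_lit 184334392) (nat_lit 288) (nat_lit 5) (nat_lit 299) (nat_lit 5) (nat_lit 289) (nat_lit 5) (nat_lit 452) (nat_lit 410) (nat_lit 278)) (XT.lf (nat_lit 0) (nat_lit 1204158575) (nat_lit 836) (nat_lit 6131440326) (nat_lit 76) (nat_lit 4797603778) (nat_lit 277) (nat_lit 5) (nat_lit 288) (nat_lit 5) (nat_lit 278) (nat_lit 5) (nat_lit 453) (nat_lit 410) (nat_lit 277))) (XT.nd (nat_lit 78) (nat_lit 684) (nat_lit 0) (XT.lf (nat_lit 0) (nat_lit 333275294) (nat_lit 760) (nat_lit 2753381985) (nat_lit 836) (nat_lit 9178990832) (nat_lit 267) (nat_lit 5) (nat_lit 277) (nat_lit 5) (nat_lit 278) (nat_lit 5) (nat_lit 454) (nat_lit 410) (nat_lit 276)) (XT.nd (nat_lit 78) (nat_lit 684) (nat_lit 0) (XT.lf (nat_lit 0) (nat_lit 5046455807) (nat_lit 836) (nat_lit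 5417763610) (nat_lit 76) (nat_lit 1935737465) (nat_lit 267) (nat_lit 5) (nat_lit 278) (nat_lit 5) (nat_lit 268) (nat_lit 5) (nat_lit 455) (nat_lit 410) (nat_lit 275)) (XT.lf (nat_lit 0) (nat_lit 1209570067) (nat_lit 684) (nat_lit 5848010189) (nat_lit 760) (nat_lit 5479136258) (nat_lit 258) (nat_lit 5) (nat_lit 267) (nat_lit 5) (nat_lit 268) (nat_lit 5) (nat_lit 456) (nat_lit 410) (nat_lit 274))))))) (XT.nd (nat_lit 780) (nat_lit 3420) (nat_lit 0) (XT.nd (nat_lit 390) (nat_lit 1976) (nat_lit 0) (XT.nd (nat_lit 156) (nat_lit 684) (nat_lit 0) (XT.nd (nat_lit 78) (nat_lit 684) (nat_lit 0) (XT.lf (nat_lit 0) (nat_lit 8027792486) (nat_lit 684) (nat_lit 1103708714) (nat_lit 760) (nat_lit 3544265797) (nat_lit 258) (nat_lit 5) (nat_lit 267) (nat_lit 5) (nat_lit 268) (nat_lit 5) (nat_lit 457) (nat_lit 410) (nat_lit 273)) (XT.lf (nat_lit 0) (nat_lit 2153703882) (nat_lit 684) (nat_lit 9117912989) (nat_lit 760) (nat_lit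 1545494294) (nat_lit 249) (nat_lit 5) (nat_lit 258) (nat_lit 5) (nat_lit 259) (nat_lit 5) (nat_lit 458) (nat_lit 410) (nat_lit 272))) (XT.nd (nat_lit 78) (nat_lit 608) (nat_lit 0) (XT.lf (nat_lit 0) (nat_lit 512042312) (nat_lit 760) (nat_lit 3832112738) (nat_lit 76) (nat_lit 8616564669) (nat_lit 248) (nat_lit 5) (nat_lit 258) (nat_lit 5) (nat_lit 249) (nat_lit 5) (nat_lit 459) (nat_lit 410) (nat_lit 271)) (XT.nd (nat_lit 78) (nat_lit 0) (nat_lit 0) (XT.lf (nat_lit 0) (nat_lit 2600937844) (nat_lit 684) (nat_lit 9958405018) (nat_lit 76) (nat_lit 547441817) (nat_lit 240) (nat_lit 5) (nat_lit 249) (nat_lit 5) (nat_lit 241) (nat_lit 5) (nat_lit 460) (nat_lit 410) (nat_lit 270)) (XT.lf (nat_lit 0) (nat_lit 4773233892) (nat_lit 684) (nat_lit 2978785894) (nat_lit 76) (nat_lit 5502925168) (nat_lit 240) (nat_lit 5) (nat_lit 249) (nat_lit 5) (nat_lit 241) (nat_lit 5) (nat_lit 461) (nat_lit 410) (nat_lit 269))))) (XT.nd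 (nat_lit 156) (nat_lit 1292) (nat_lit 0) (XT.nd (nat_lit 78) (nat_lit 0) (nat_lit 0) (XT.lf (nat_lit 0) (nat_lit 4180531553) (nat_lit 684) (nat_lit 2822810199) (nat_lit 760) (nat_lit 6402445703) (nat_lit 231) (nat_lit 5) (nat_lit 240) (nat_lit 5) (nat_lit 241) (nat_lit 5) (nat_lit 462) (nat_lit 410) (nat_lit 268)) (XT.lf (nat_lit 0) (nat_lit 9299855252) (nat_lit 760) (nat_lit 2065153294) (nat_lit 76) (nat_lit 2194208408) (nat_lit 231) (nat_lit 5) (nat_lit 241) (nat_lit 5) (nat_lit 232) (nat_lit 5) (nat_lit 463) (nat_lit 410) (nat_lit 267))) (XT.nd (nat_lit 78) (nat_lit 684) (nat_lit 0) (XT.lf (nat_lit 0) (nat_lit 5274047682) (nat_lit 608) (nat_lit 6408801457) (nat_lit 684) (nat_lit 2032060995) (nat_lit 223) (nat_lit 5) (nat_lit 231) (nat_lit 5) (nat_lit 232) (nat_lit 5) (nat_lit 464) (nat_lit 410) (nat_lit 266)) (XT.nd (nat_lit 78) (nat_lit 608) (nat_lit 0) (XT.lf (nat_lit 0) (nat_lit 238266227) (nat_lit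 684) (nat_lit 1101715649) (nat_lit 76) (nat_lit 12533677516) (nat_lit 222) (nat_lit 5) (nat_lit 231) (nat_lit 5) (nat_lit 223) (nat_lit 5) (nat_lit 465) (nat_lit 410) (nat_lit 265)) (XT.lf (nat_lit 0) (nat_lit 2581770976) (nat_lit 684) (nat_lit 7619081304) (nat_lit 76) (nat_lit 3833368854) (nat_lit 214) (nat_lit 5) (nat_lit 223) (nat_lit 5) (nat_lit 215) (nat_lit 5) (nat_lit 466) (nat_lit 410) (nat_lit 264)))))) (XT.nd (nat_lit 390) (nat_lit 1672) (nat_lit 0) (XT.nd (nat_lit 156) (nat_lit 1216) (nat_lit 0) (XT.nd (nat_lit 78) (nat_lit 532) (nat_lit 0) (XT.lf (nat_lit 0) (nat_lit 4976507993) (nat_lit 684) (nat_lit 124003608) (nat_lit 76) (nat_lit 9097400894) (nat_lit 214) (nat_lit 5) (nat_lit 223) (nat_lit 5) (nat_lit 215) (nat_lit 5) (nat_lit 467) (nat_lit 410) (nat_lit 263)) (XT.lf (nat_lit 0) (nat_lit 7457778822) (nat_lit 608) (nat_lit 6758581867) (nat_lit 76) (nat_lit 147749735) (nat_lit 207) (nat_lit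 5) (nat_lit 215) (nat_lit 5) (nat_lit 208) (nat_lit 5) (nat_lit 468) (nat_lit 410) (nat_lit 262))) (XT.nd (nat_lit 78) (nat_lit 608) (nat_lit 0) (XT.lf (nat_lit 0) (nat_lit 921677338) (nat_lit 608) (nat_lit 9095999790) (nat_lit 684) (nat_lit 4515380553) (nat_lit 199) (nat_lit 5) (nat_lit 207) (nat_lit 5) (nat_lit 208) (nat_lit 5) (nat_lit 469) (nat_lit 410) (nat_lit 261)) (XT.nd (nat_lit 78) (nat_lit 608) (nat_lit 0) (XT.lf (nat_lit 0) (nat_lit 8832906958) (nat_lit 608) (nat_lit 3829757038) (nat_lit 684) (nat_lit 2042047381) (nat_lit 199) (nat_lit 5) (nat_lit 207) (nat_lit 5) (nat_lit 208) (nat_lit 5) (nat_lit 470) (nat_lit 410) (nat_lit 260)) (XT.lf (nat_lit 0) (nat_lit 486422601) (nat_lit 608) (nat_lit 12857837570) (nat_lit 76) (nat_lit 1535241140) (nat_lit 191) (nat_lit 5) (nat_lit 199) (nat_lit 5) (nat_lit 192) (nat_lit 5) (nat_lit 471) (nat_lit 410) (nat_lit 259))))) (XT.nd (nat_lit 234) (nat_lit 1140)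 (nat_lit 0) (XT.nd (nat_lit 78) (nat_lit 532) (nat_lit 0) (XT.lf (nat_lit 0) (nat_lit 3091965501) (nat_lit 608) (nat_lit 4957793512) (nat_lit 76) (nat_lit 7006686143) (nat_lit 191) (nat_lit 5) (nat_lit 199) (nat_lit 5) (nat_lit 192) (nat_lit 5) (nat_lit 472) (nat_lit 410) (nat_lit 258)) (XT.nd (nat_lit 78) (nat_lit 0) (nat_lit 0) (XT.lf (nat_lit 0) (nat_lit 3127303260) (nat_lit 532) (nat_lit 2631634739) (nat_lit 608) (nat_lit 9477808404) (nat_lit 184) (nat_lit 5) (nat_lit 191) (nat_lit 5) (nat_lit 192) (nat_lit 5) (nat_lit 473) (nat_lit 410) (nat_lit 257)) (XT.lf (nat_lit 0) (nat_lit 8520654989) (nat_lit 608) (nat_lit 4011771661) (nat_lit 76) (nat_lit 2887403730) (nat_lit 184) (nat_lit 5) (nat_lit 192) (nat_lit 5) (nat_lit 185) (nat_lit 5) (nat_lit 474) (nat_lit 410) (nat_lit 256)))) (XT.nd (nat_lit 78) (nat_lit 608) (nat_lit 0) (XT.lf (nat_lit 0) (nat_lit 4272664010) (nat_lit 532) (nat_lit 7099444663) (nat_lit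 608) (nat_lit 4233782027) (nat_lit 177) (nat_lit 5) (nat_lit 184) (nat_lit 5) (nat_lit 185) (nat_lit 5) (nat_lit 475) (nat_lit 410) (nat_lit 255)) (XT.nd (nat_lit 78) (nat_lit 608) (nat_lit 0) (XT.lf (nat_lit 0) (nat_lit 12763461840) (nat_lit 532) (nat_lit 1533504188) (nat_lit 608) (nat_lit 1498383326) (nat_lit 177) (nat_lit 5) (nat_lit 184) (nat_lit 5) (nat_lit 185) (nat_lit 5) (nat_lit 476) (nat_lit 410) (nat_lit 254)) (XT.lf (nat_lit 0) (nat_lit 1327159550) (nat_lit 608) (nat_lit 10529651472) (nat_lit 76) (nat_lit 4130575314) (nat_lit 169) (nat_lit 5) (nat_lit 177) (nat_lit 5) (nat_lit 170) (nat_lit 5) (nat_lit 477) (nat_lit 410) (nat_lit 253))))))))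
noncomputable def xc178 : XT := (XT.nd (nat_lit 1560) (nat_lit 380) (nat_lit 0) (XT.nd (nat_lit 780) (nat_lit 2128) (nat_lit 0) (XT.nd (nat_lit 390) (nat_lit 1368) (nat_lit 0) (XT.nd (nat_lit 156) (nat_lit 456) (nat_lit 0) (XT.nd (nat_lit 78) (nat_lit 456) (nat_lit 0) (XT.lf (nat_lit 0) (nat_lit 4209487813) (nat_lit 608) (nat_lit 2058504287) (nat_lit 76) (nat_lit 9914671467) (nat_lit 169) (nat_lit 5) (nat_lit 177) (nat_lit 5) (nat_lit 170) (nat_lit 5) (nat_lit 478) (nat_lit 410) (nat_lit 252)) (XT.lf (nat_lit 0) (nat_lit 6655946639) (nat_lit 456) (nat_lit 526616282) (nat_lit 532) (nat_lit 9198625684) (nat_lit 163) (nat_lit 5) (nat_lit 169) (nat_lit 5) (nat_lit 170) (nat_lit 5) (nat_lit 479) (nat_lit 410) (nat_lit 251))) (XT.nd (nat_lit 78) (nat_lit 456) (nat_lit 0) (XT.lf (nat_lit 0) (nat_lit 10253583576) (nat_lit 532) (nat_lit 1059019974) (nat_lit 76) (nat_lit 5270315095) (nat_lit 163) (nat_lit 5) (nat_lit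 170) (nat_lit 5) (nat_lit 164) (nat_lit 5) (nat_lit 480) (nat_lit 410) (nat_lit 250)) (XT.nd (nat_lit 78) (nat_lit 0) (nat_lit 0) (XT.lf (nat_lit 0) (nat_lit 7866972990) (nat_lit 456) (nat_lit 5563789041) (nat_lit 532) (nat_lit 3357030609) (nat_lit 157) (nat_lit 5) (nat_lit 163) (nat_lit 5) (nat_lit 164) (nat_lit 5) (nat_lit 481) (nat_lit 410) (nat_lit 249)) (XT.lf (nat_lit 0) (nat_lit 16670842750) (nat_lit 532) (nat_lit 26107459) (nat_lit 76) (nat_lit 299830752) (nat_lit 157) (nat_lit 5) (nat_lit 164) (nat_lit 5) (nat_lit 158) (nat_lit 5) (nat_lit 482) (nat_lit 410) (nat_lit 248))))) (XT.nd (nat_lit 156) (nat_lit 380) (nat_lit 0) (XT.nd (nat_lit 78) (nat_lit 456) (nat_lit 0) (XT.lf (nat_lit 0) (nat_lit 2816553826) (nat_lit 532) (nat_lit 8110611069) (nat_lit 76) (nat_lit 6280687845) (nat_lit 150) (nat_lit 5) (nat_lit 157) (nat_lit 5) (nat_lit 151) (nat_lit 5) (nat_lit 483) (nat_lit 410) (nat_lit 247)) (XT.lf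 (nat_lit 0) (nat_lit 977819256) (nat_lit 456) (nat_lit 5036726092) (nat_lit 532) (nat_lit 11408621026) (nat_lit 144) (nat_lit 5) (nat_lit 150) (nat_lit 5) (nat_lit 151) (nat_lit 5) (nat_lit 484) (nat_lit 410) (nat_lit 246))) (XT.nd (nat_lit 78) (nat_lit 380) (nat_lit 0) (XT.lf (nat_lit 0) (nat_lit 9328154755) (nat_lit 532) (nat_lit 7303603081) (nat_lit 76) (nat_lit 1009998999) (nat_lit 144) (nat_lit 5) (nat_lit 151) (nat_lit 5) (nat_lit 145) (nat_lit 5) (nat_lit 485) (nat_lit 410) (nat_lit 245)) (XT.nd (nat_lit 78) (nat_lit 0) (nat_lit 0) (XT.lf (nat_lit 0) (nat_lit 2000924498) (nat_lit 380) (nat_lit 10744207395) (nat_lit 456) (nat_lit 5118848942) (nat_lit 139) (nat_lit 5) (nat_lit 144) (nat_lit 5) (nat_lit 145) (nat_lit 5) (nat_lit 486) (nat_lit 410) (nat_lit 244)) (XT.lf (nat_lit 0) (nat_lit 11577691988) (nat_lit 380) (nat_lit 4692613976) (nat_lit 456) (nat_lit 1819549775) (nat_lit 139) (nat_lit 5) (nat_lit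 144) (nat_lit 5) (nat_lit 145) (nat_lit 5) (nat_lit 487) (nat_lit 410) (nat_lit 243)))))) (XT.nd (nat_lit 390) (nat_lit 836) (nat_lit 0) (XT.nd (nat_lit 156) (nat_lit 760) (nat_lit 0) (XT.nd (nat_lit 78) (nat_lit 0) (nat_lit 0) (XT.lf (nat_lit 0) (nat_lit 1545964807) (nat_lit 532) (nat_lit 15286724598) (nat_lit 76) (nat_lit 1486951408) (nat_lit 132) (nat_lit 5) (nat_lit 139) (nat_lit 5) (nat_lit 133) (nat_lit 5) (nat_lit 488) (nat_lit 410) (nat_lit 242)) (XT.lf (nat_lit 0) (nat_lit 5020549123) (nat_lit 532) (nat_lit 5752190918) (nat_lit 76) (nat_lit 7779721903) (nat_lit 132) (nat_lit 5) (nat_lit 139) (nat_lit 5) (nat_lit 133) (nat_lit 5) (nat_lit 489) (nat_lit 410) (nat_lit 241))) (XT.nd (nat_lit 78) (nat_lit 380) (nat_lit 0) (XT.lf (nat_lit 0) (nat_lit 4013118273) (nat_lit 380) (nat_lit 4568772555) (nat_lit 456) (nat_lit 10207706653) (nat_lit 127) (nat_lit 5) (nat_lit 132) (nat_lit 5) (nat_lit 133) (nat_lit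 5) (nat_lit 490) (nat_lit 410) (nat_lit 240)) (XT.nd (nat_lit 78) (nat_lit 380) (nat_lit 0) (XT.lf (nat_lit 0) (nat_lit 12256014447) (nat_lit 456) (nat_lit 5003293751) (nat_lit 76) (nat_lit 1771339664) (nat_lit 127) (nat_lit 5) (nat_lit 133) (nat_lit 5) (nat_lit 128) (nat_lit 5) (nat_lit 491) (nat_lit 410) (nat_lit 239)) (XT.lf (nat_lit 0) (nat_lit 4988148390) (nat_lit 380) (nat_lit 11069563172) (nat_lit 456) (nat_lit 3217729038) (nat_lit 122) (nat_lit 5) (nat_lit 127) (nat_lit 5) (nat_lit 128) (nat_lit 5) (nat_lit 492) (nat_lit 410) (nat_lit 238))))) (XT.nd (nat_lit 156) (nat_lit 380) (nat_lit 0) (XT.nd (nat_lit 78) (nat_lit 380) (nat_lit 0) (XT.lf (nat_lit 0) (nat_lit 430205838) (nat_lit 456) (nat_lit 4292509383) (nat_lit 76) (nat_lit 14801858264) (nat_lit 121) (nat_lit 5) (nat_lit 127) (nat_lit 5) (nat_lit 122) (nat_lit 5) (nat_lit 493) (nat_lit 410) (nat_lit 237)) (XT.lf (nat_lit 0) (nat_lit 4150049142)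 (nat_lit 456) (nat_lit 13842712828) (nat_lit 76) (nat_lit 1784663958) (nat_lit 116) (nat_lit 5) (nat_lit 122) (nat_lit 5) (nat_lit 117) (nat_lit 5) (nat_lit 494) (nat_lit 410) (nat_lit 236))) (XT.nd (nat_lit 78) (nat_lit 380) (nat_lit 0) (XT.lf (nat_lit 0) (nat_lit 7996265770) (nat_lit 456) (nat_lit 3653786195) (nat_lit 76) (nat_lit 8384246856) (nat_lit 116) (nat_lit 5) (nat_lit 122) (nat_lit 5) (nat_lit 117) (nat_lit 5) (nat_lit 495) (nat_lit 410) (nat_lit 235)) (XT.nd (nat_lit 78) (nat_lit 0) (nat_lit 0) (XT.lf (nat_lit 0) (nat_lit 6816330108) (nat_lit 380) (nat_lit 5139199855) (nat_lit 456) (nat_lit 8340059614) (nat_lit 111) (nat_lit 5) (nat_lit 116) (nat_lit 5) (nat_lit 117) (nat_lit 5) (nat_lit 496) (nat_lit 410) (nat_lit 234)) (XT.lf (nat_lit 0) (nat_lit 16020335994) (nat_lit 456) (nat_lit 3038198698) (nat_lit 76) (nat_lit 1503047141) (nat_lit 111) (nat_lit 5) (nat_lit 117) (nat_lit 5) (nat_lit 112)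 (nat_lit 5) (nat_lit 497) (nat_lit 410) (nat_lit 233))))))) (XT.nd (nat_lit 53196) (nat_lit 0) (nat_lit 25232) (XT.nd (nat_lit 52806) (nat_lit 0) (nat_lit 26600) (XT.nd (nat_lit 52572) (nat_lit 0) (nat_lit 27892) (XT.nd (nat_lit 78) (nat_lit 76) (nat_lit 0) (XT.lf (nat_lit 0) (nat_lit 7666384879) (nat_lit 304) (nat_lit 12575945522) (nat_lit 380) (nat_lit 589048449) (nat_lit 107) (nat_lit 5) (nat_lit 111) (nat_lit 5) (nat_lit 112) (nat_lit 5) (nat_lit 498) (nat_lit 410) (nat_lit 232)) (XT.lf (nat_lit 0) (nat_lit 3409677895) (nat_lit 380) (nat_lit 2514244194) (nat_lit 76) (nat_lit 15181952790) (nat_lit 106) (nat_lit 5) (nat_lit 111) (nat_lit 5) (nat_lit 107) (nat_lit 5) (nat_lit 499) (nat_lit 410) (nat_lit 231))) (XT.nd (nat_lit 78) (nat_lit 0) (nat_lit 0) (XT.lf (nat_lit 0) (nat_lit 1781070103) (nat_lit 1444) (nat_lit 1184635769) (nat_lit 1444) (nat_lit 1184635769) (nat_lit 473) (nat_lit 3) (nat_lit 492)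 (nat_lit 3) (nat_lit 492) (nat_lit 5) (nat_lit 411) (nat_lit 411) (nat_lit 318)) (XT.nd (nat_lit 78) (nat_lit 0) (nat_lit 0) (XT.lf (nat_lit 76) (nat_lit 1533232671) (nat_lit 0) (nat_lit 3136194226) (nat_lit 1444) (nat_lit 3692111595) (nat_lit 474) (nat_lit 5) (nat_lit 473) (nat_lit 3) (nat_lit 492) (nat_lit 5) (nat_lit 412) (nat_lit 411) (nat_lit 317)) (XT.lf (nat_lit 76) (nat_lit 5531501753) (nat_lit 0) (nat_lit 255314076) (nat_lit 1444) (nat_lit 2637054687) (nat_lit 474) (nat_lit 5) (nat_lit 473) (nat_lit 3) (nat_lit 492) (nat_lit 5) (nat_lit 413) (nat_lit 411) (nat_lit 316))))) (XT.nd (nat_lit 156) (nat_lit 1368) (nat_lit 0) (XT.nd (nat_lit 78) (nat_lit 0) (nat_lit 0) (XT.lf (nat_lit 76) (nat_lit 1104581315) (nat_lit 0) (nat_lit 5819255445) (nat_lit 1444) (nat_lit 1563685210) (nat_lit 475) (nat_lit 5) (nat_lit 474) (nat_lit 5) (nat_lit 493) (nat_lit 5) (nat_lit 414) (nat_lit 411) (nat_lit 315)) (XT.lf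 (nat_lit 76) (nat_lit 5204289612) (nat_lit 0) (nat_lit 2873529232) (nat_lit 1444) (nat_lit 474761304) (nat_lit 475) (nat_lit 5) (nat_lit 474) (nat_lit 5) (nat_lit 493) (nat_lit 5) (nat_lit 415) (nat_lit 411) (nat_lit 314))) (XT.nd (nat_lit 78) (nat_lit 0) (nat_lit 0) (XT.lf (nat_lit 0) (nat_lit 606976997) (nat_lit 1444) (nat_lit 7862184433) (nat_lit 1520) (nat_lit 150125359) (nat_lit 456) (nat_lit 5) (nat_lit 475) (nat_lit 5) (nat_lit 476) (nat_lit 5) (nat_lit 416) (nat_lit 411) (nat_lit 313)) (XT.nd (nat_lit 78) (nat_lit 0) (nat_lit 0) (XT.lf (nat_lit 0) (nat_lit 1719612539) (nat_lit 1444) (nat_lit 3734484115) (nat_lit 1520) (nat_lit 3232872820) (nat_lit 456) (nat_lit 5) (nat_lit 475) (nat_lit 5) (nat_lit 476) (nat_lit 5) (nat_lit 417) (nat_lit 411) (nat_lit 312)) (XT.lf (nat_lit 76) (nat_lit 466920340) (nat_lit 0) (nat_lit 2365088476) (nat_lit 1520) (nat_lit 5924463568) (nat_lit 457) (nat_lit 5) (nat_lit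 456) (nat_lit 5) (nat_lit 476) (nat_lit 5) (nat_lit 418) (nat_lit 411) (nat_lit 311)))))) (XT.nd (nat_lit 390) (nat_lit 1444) (nat_lit 0) (XT.nd (nat_lit 156) (nat_lit 0) (nat_lit 0) (XT.nd (nat_lit 78) (nat_lit 0) (nat_lit 0) (XT.lf (nat_lit 0) (nat_lit 3971927486) (nat_lit 1444) (nat_lit 4044617006) (nat_lit 1520) (nat_lit 810731773) (nat_lit 457) (nat_lit 5) (nat_lit 476) (nat_lit 5) (nat_lit 477) (nat_lit 5) (nat_lit 419) (nat_lit 411) (nat_lit 310)) (XT.lf (nat_lit 76) (nat_lit 257777425) (nat_lit 0) (nat_lit 4869641707) (nat_lit 1520) (nat_lit 3772237681) (nat_lit 458) (nat_lit 5) (nat_lit 457) (nat_lit 5) (nat_lit 477) (nat_lit 5) (nat_lit 420) (nat_lit 411) (nat_lit 309))) (XT.nd (nat_lit 78) (nat_lit 0) (nat_lit 76) (XT.lf (nat_lit 76) (nat_lit 4685988045) (nat_lit 0) (nat_lit 1622996021) (nat_lit 1520) (nat_lit 2664457403) (nat_lit 458) (nat_lit 5) (nat_lit 457) (nat_lit 5) (nat_lit 477) (nat_lit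 5) (nat_lit 421) (nat_lit 411) (nat_lit 308)) (XT.nd (nat_lit 78) (nat_lit 0) (nat_lit 0) (XT.lf (nat_lit 76) (nat_lit 129485998) (nat_lit 0) (nat_lit 7372852488) (nat_lit 1520) (nat_lit 1546615625) (nat_lit 459) (nat_lit 5) (nat_lit 458) (nat_lit 5) (nat_lit 478) (nat_lit 5) (nat_lit 422) (nat_lit 411) (nat_lit 307)) (XT.lf (nat_lit 76) (nat_lit 4666781440) (nat_lit 0) (nat_lit 4068946206) (nat_lit 1520) (nat_lit 389941160) (nat_lit 459) (nat_lit 5) (nat_lit 458) (nat_lit 5) (nat_lit 478) (nat_lit 5) (nat_lit 423) (nat_lit 411) (nat_lit 306))))) (XT.nd (nat_lit 234) (nat_lit 0) (nat_lit 152) (XT.nd (nat_lit 78) (nat_lit 0) (nat_lit 76) (XT.lf (nat_lit 76) (nat_lit 71483122) (nat_lit 0) (nat_lit 685498193) (nat_lit 1596) (nat_lit 8447299003) (nat_lit 439) (nat_lit 5) (nat_lit 438) (nat_lit 5) (nat_lit 459) (nat_lit 5) (nat_lit 424) (nat_lit 411) (nat_lit 305)) (XT.nd (nat_lit 78) (nat_lit 0) (nat_lit 0)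 (XT.lf (nat_lit 0) (nat_lit 1947112621) (nat_lit 1520) (nat_lit 4567346616) (nat_lit 1596) (nat_lit 2769457720) (nat_lit 439) (nat_lit 5) (nat_lit 459) (nat_lit 5) (nat_lit 460) (nat_lit 5) (nat_lit 425) (nat_lit 411) (nat_lit 304)) (XT.lf (nat_lit 76) (nat_lit 70457493) (nat_lit 0) (nat_lit 3073440104) (nat_lit 1596) (nat_lit 6221605710) (nat_lit 440) (nat_lit 5) (nat_lit 439) (nat_lit 5) (nat_lit 460) (nat_lit 5) (nat_lit 426) (nat_lit 411) (nat_lit 303)))) (XT.nd (nat_lit 78) (nat_lit 0) (nat_lit 0) (XT.lf (nat_lit 0) (nat_lit 4376535775) (nat_lit 1520) (nat_lit 4603947012) (nat_lit 1596) (nat_lit 468013973) (nat_lit 440) (nat_lit 5) (nat_lit 460) (nat_lit 5) (nat_lit 461) (nat_lit 5) (nat_lit 427) (nat_lit 411) (nat_lit 302)) (XT.nd (nat_lit 78) (nat_lit 0) (nat_lit 0) (XT.lf (nat_lit 76) (nat_lit 147126395) (nat_lit 0) (nat_lit 5486668129) (nat_lit 1596) (nat_lit 3899369656) (nat_lit 441) (nat_lit 5)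 (nat_lit 440) (nat_lit 5) (nat_lit 461) (nat_lit 5) (nat_lit 428) (nat_lit 411) (nat_lit 301)) (XT.lf (nat_lit 76) (nat_lit 5040307399) (nat_lit 0) (nat_lit 1885763595) (nat_lit 1596) (nat_lit 2693269697) (nat_lit 441) (nat_lit 5) (nat_lit 440) (nat_lit 5) (nat_lit 461) (nat_lit 5) (nat_lit 429) (nat_lit 411) (nat_lit 300))))))))
noncomputable def xc179 : XT := (XT.nd (nat_lit 1560) (nat_lit 8284) (nat_lit 0) (XT.nd (nat_lit 780) (nat_lit 5320) (nat_lit 0) (XT.nd (nat_lit 390) (nat_lit 3192) (nat_lit 0) (XT.nd (nat_lit 156) (nat_lit 1596) (nat_lit 0) (XT.nd (nat_lit 78) (nat_lit 0) (nat_lit 0) (XT.lf (nat_lit 76) (nat_lit 300972592) (nat_lit 0) (nat_lit 7936204067) (nat_lit 1596) (nat_lit 1470217334) (nat_lit 442) (nat_lit 5) (nat_lit 441) (nat_lit 5) (nat_lit 462) (nat_lit 5) (nat_lit 430) (nat_lit 411) (nat_lit 299)) (XT.lf (nat_lit 76) (nat_lit 5312613403) (nat_lit 0) (nat_lit 4284754772) (nat_lit 1596)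 (nat_lit 199395590) (nat_lit 442) (nat_lit 5) (nat_lit 441) (nat_lit 5) (nat_lit 462) (nat_lit 5) (nat_lit 431) (nat_lit 411) (nat_lit 298))) (XT.nd (nat_lit 78) (nat_lit 0) (nat_lit 76) (XT.lf (nat_lit 76) (nat_lit 520919272) (nat_lit 0) (nat_lit 544903438) (nat_lit 1672) (nat_lit 8822300673) (nat_lit 421) (nat_lit 5) (nat_lit 420) (nat_lit 5) (nat_lit 442) (nat_lit 5) (nat_lit 432) (nat_lit 411) (nat_lit 297)) (XT.nd (nat_lit 78) (nat_lit 0) (nat_lit 0) (XT.lf (nat_lit 0) (nat_lit 2385503298) (nat_lit 1596) (nat_lit 4332275093) (nat_lit 1672) (nat_lit 3262880835) (nat_lit 421) (nat_lit 5) (nat_lit 442) (nat_lit 5) (nat_lit 443) (nat_lit 5) (nat_lit 433) (nat_lit 411) (nat_lit 296)) (XT.lf (nat_lit 76) (nat_lit 794783557) (nat_lit 0) (nat_lit 2926254687) (nat_lit 1672) (nat_lit 6354230041) (nat_lit 422) (nat_lit 5) (nat_lit 421) (nat_lit 5) (nat_lit 443) (nat_lit 5) (nat_lit 434) (nat_lit 411) (nat_lit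 295))))) (XT.nd (nat_lit 156) (nat_lit 1748) (nat_lit 0) (XT.nd (nat_lit 78) (nat_lit 1596) (nat_lit 0) (XT.lf (nat_lit 0) (nat_lit 5099654047) (nat_lit 1596) (nat_lit 4110081566) (nat_lit 76) (nat_lit 961717994) (nat_lit 422) (nat_lit 5) (nat_lit 443) (nat_lit 5) (nat_lit 423) (nat_lit 5) (nat_lit 435) (nat_lit 411) (nat_lit 294)) (XT.lf (nat_lit 0) (nat_lit 1143962373) (nat_lit 1596) (nat_lit 5370054500) (nat_lit 1672) (nat_lit 3755393528) (nat_lit 401) (nat_lit 5) (nat_lit 422) (nat_lit 5) (nat_lit 423) (nat_lit 5) (nat_lit 436) (nat_lit 411) (nat_lit 293))) (XT.nd (nat_lit 78) (nat_lit 1748) (nat_lit 0) (XT.lf (nat_lit 0) (nat_lit 6543510301) (nat_lit 1596) (nat_lit 1422371699) (nat_lit 1672) (nat_lit 2403271068) (nat_lit 401) (nat_lit 5) (nat_lit 422) (nat_lit 5) (nat_lit 423) (nat_lit 5) (nat_lit 437) (nat_lit 411) (nat_lit 292)) (XT.nd (nat_lit 78) (nat_lit 76) (nat_lit 0) (XT.lf (nat_lit 0) (nat_lit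 1568439513) (nat_lit 1672) (nat_lit 7887450803) (nat_lit 1748) (nat_lit 1014828978) (nat_lit 379) (nat_lit 5) (nat_lit 401) (nat_lit 5) (nat_lit 402) (nat_lit 5) (nat_lit 438) (nat_lit 411) (nat_lit 291)) (XT.lf (nat_lit 0) (nat_lit 413519008) (nat_lit 1748) (nat_lit 3479265503) (nat_lit 76) (nat_lit 6681142589) (nat_lit 378) (nat_lit 5) (nat_lit 401) (nat_lit 5) (nat_lit 379) (nat_lit 5) (nat_lit 439) (nat_lit 411) (nat_lit 290)))))) (XT.nd (nat_lit 390) (nat_lit 1748) (nat_lit 0) (XT.nd (nat_lit 156) (nat_lit 1824) (nat_lit 0) (XT.nd (nat_lit 78) (nat_lit 0) (nat_lit 0) (XT.lf (nat_lit 0) (nat_lit 1854032813) (nat_lit 1824) (nat_lit 8623239381) (nat_lit 76) (nat_lit 201859157) (nat_lit 355) (nat_lit 5) (nat_lit 379) (nat_lit 5) (nat_lit 356) (nat_lit 5) (nat_lit 440) (nat_lit 411) (nat_lit 289)) (XT.lf (nat_lit 0) (nat_lit 3355387996) (nat_lit 1824) (nat_lit 3078484436) (nat_lit 76) (nat_lit 4351936632)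 (nat_lit 355) (nat_lit 5) (nat_lit 379) (nat_lit 5) (nat_lit 356) (nat_lit 5) (nat_lit 441) (nat_lit 411) (nat_lit 288))) (XT.nd (nat_lit 78) (nat_lit 912) (nat_lit 0) (XT.lf (nat_lit 0) (nat_lit 2596024697) (nat_lit 912) (nat_lit 2290687706) (nat_lit 988) (nat_lit 6007918886) (nat_lit 343) (nat_lit 5) (nat_lit 355) (nat_lit 5) (nat_lit 356) (nat_lit 5) (nat_lit 442) (nat_lit 411) (nat_lit 287)) (XT.nd (nat_lit 78) (nat_lit 912) (nat_lit 0) (XT.lf (nat_lit 0) (nat_lit 6465355009) (nat_lit 988) (nat_lit 2607607414) (nat_lit 76) (nat_lit 1932343313) (nat_lit 343) (nat_lit 5) (nat_lit 356) (nat_lit 5) (nat_lit 344) (nat_lit 5) (nat_lit 443) (nat_lit 411) (nat_lit 286)) (XT.lf (nat_lit 0) (nat_lit 3208989035) (nat_lit 912) (nat_lit 4886244278) (nat_lit 988) (nat_lit 3022576522) (nat_lit 331) (nat_lit 5) (nat_lit 343) (nat_lit 5) (nat_lit 344) (nat_lit 5) (nat_lit 444) (nat_lit 411) (nat_lit 285))))) (XT.nd (nat_lit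 156) (nat_lit 836) (nat_lit 0) (XT.nd (nat_lit 78) (nat_lit 912) (nat_lit 0) (XT.lf (nat_lit 0) (nat_lit 9162224755) (nat_lit 912) (nat_lit 596863480) (nat_lit 988) (nat_lit 1473457437) (nat_lit 331) (nat_lit 5) (nat_lit 343) (nat_lit 5) (nat_lit 344) (nat_lit 5) (nat_lit 445) (nat_lit 411) (nat_lit 284)) (XT.lf (nat_lit 0) (nat_lit 139494953) (nat_lit 912) (nat_lit 7453378658) (nat_lit 76) (nat_lit 3756012654) (nat_lit 319) (nat_lit 5) (nat_lit 331) (nat_lit 5) (nat_lit 320) (nat_lit 5) (nat_lit 446) (nat_lit 411) (nat_lit 283))) (XT.nd (nat_lit 78) (nat_lit 836) (nat_lit 0) (XT.lf (nat_lit 0) (nat_lit 1767237025) (nat_lit 912) (nat_lit 1487556777) (nat_lit 76) (nat_lit 8212528575) (nat_lit 319) (nat_lit 5) (nat_lit 331) (nat_lit 5) (nat_lit 320) (nat_lit 5) (nat_lit 447) (nat_lit 411) (nat_lit 282)) (XT.nd (nat_lit 78) (nat_lit 0) (nat_lit 0) (XT.lf (nat_lit 0) (nat_lit 3450094620) (nat_lit 912) (nat_lit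 6952053833) (nat_lit 76) (nat_lit 1185536078) (nat_lit 308) (nat_lit 5) (nat_lit 320) (nat_lit 5) (nat_lit 309) (nat_lit 5) (nat_lit 448) (nat_lit 411) (nat_lit 281)) (XT.lf (nat_lit 0) (nat_lit 5183032687) (nat_lit 912) (nat_lit 845542410) (nat_lit 76) (nat_lit 5681558731) (nat_lit 308) (nat_lit 5) (nat_lit 320) (nat_lit 5) (nat_lit 309) (nat_lit 5) (nat_lit 449) (nat_lit 411) (nat_lit 280))))))) (XT.nd (nat_lit 780) (nat_lit 3800) (nat_lit 0) (XT.nd (nat_lit 390) (nat_lit 2128) (nat_lit 0) (XT.nd (nat_lit 156) (nat_lit 1596) (nat_lit 0) (XT.nd (nat_lit 78) (nat_lit 0) (nat_lit 0) (XT.lf (nat_lit 0) (nat_lit 5439623983) (nat_lit 760) (nat_lit 1531440823) (nat_lit 836) (nat_lit 4863566801) (nat_lit 298) (nat_lit 5) (nat_lit 308) (nat_lit 5) (nat_lit 309) (nat_lit 5) (nat_lit 450) (nat_lit 411) (nat_lit 279)) (XT.lf (nat_lit 0) (nat_lit 8805722067) (nat_lit 836) (nat_lit 134448371) (nat_lit 76) (nat_lit 3021239655)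 (nat_lit 298) (nat_lit 5) (nat_lit 309) (nat_lit 5) (nat_lit 299) (nat_lit 5) (nat_lit 451) (nat_lit 411) (nat_lit 278))) (XT.nd (nat_lit 78) (nat_lit 836) (nat_lit 0) (XT.lf (nat_lit 0) (nat_lit 6309199924) (nat_lit 760) (nat_lit 4404579689) (nat_lit 836) (nat_lit 1376218276) (nat_lit 288) (nat_lit 5) (nat_lit 298) (nat_lit 5) (nat_lit 299) (nat_lit 5) (nat_lit 452) (nat_lit 411) (nat_lit 277)) (XT.nd (nat_lit 78) (nat_lit 0) (nat_lit 0) (XT.lf (nat_lit 0) (nat_lit 425411614) (nat_lit 836) (nat_lit 11569490780) (nat_lit 76) (nat_lit 226359115) (nat_lit 277) (nat_lit 5) (nat_lit 288) (nat_lit 5) (nat_lit 278) (nat_lit 5) (nat_lit 453) (nat_lit 411) (nat_lit 276)) (XT.lf (nat_lit 0) (nat_lit 2298750598) (nat_lit 836) (nat_lit 5116579725) (nat_lit 76) (nat_lit 4938563490) (nat_lit 277) (nat_lit 5) (nat_lit 288) (nat_lit 5) (nat_lit 278) (nat_lit 5) (nat_lit 454) (nat_lit 411) (nat_lit 275))))) (XT.nd (nat_lit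 156) (nat_lit 1368) (nat_lit 0) (XT.nd (nat_lit 78) (nat_lit 0) (nat_lit 0) (XT.lf (nat_lit 0) (nat_lit 1469946725) (nat_lit 760) (nat_lit 2735298929) (nat_lit 836) (nat_lit 8284026605) (nat_lit 267) (nat_lit 5) (nat_lit 277) (nat_lit 5) (nat_lit 278) (nat_lit 5) (nat_lit 455) (nat_lit 411) (nat_lit 274)) (XT.lf (nat_lit 0) (nat_lit 6183983131) (nat_lit 836) (nat_lit 4397472024) (nat_lit 76) (nat_lit 2045228009) (nat_lit 267) (nat_lit 5) (nat_lit 278) (nat_lit 5) (nat_lit 268) (nat_lit 5) (nat_lit 456) (nat_lit 411) (nat_lit 273))) (XT.nd (nat_lit 78) (nat_lit 684) (nat_lit 0) (XT.lf (nat_lit 0) (nat_lit 2354983018) (nat_lit 684) (nat_lit 5867301310) (nat_lit 760) (nat_lit 4544165182) (nat_lit 258) (nat_lit 5) (nat_lit 267) (nat_lit 5) (nat_lit 268) (nat_lit 5) (nat_lit 457) (nat_lit 411) (nat_lit 272)) (XT.nd (nat_lit 78) (nat_lit 684) (nat_lit 0) (XT.lf (nat_lit 0) (nat_lit 9287585149) (nat_lit 684) (nat_lit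 1030028886) (nat_lit 760) (nat_lit 2591078759) (nat_lit 258) (nat_lit 5) (nat_lit 267) (nat_lit 5) (nat_lit 268) (nat_lit 5) (nat_lit 458) (nat_lit 411) (nat_lit 271)) (XT.lf (nat_lit 0) (nat_lit 3308619430) (nat_lit 684) (nat_lit 9180064777) (nat_lit 760) (nat_lit 564426789) (nat_lit 249) (nat_lit 5) (nat_lit 258) (nat_lit 5) (nat_lit 259) (nat_lit 5) (nat_lit 459) (nat_lit 411) (nat_lit 270)))))) (XT.nd (nat_lit 390) (nat_lit 2432) (nat_lit 0) (XT.nd (nat_lit 156) (nat_lit 684) (nat_lit 0) (XT.nd (nat_lit 78) (nat_lit 608) (nat_lit 0) (XT.lf (nat_lit 0) (nat_lit 1501405831) (nat_lit 760) (nat_lit 2805212410) (nat_lit 76) (nat_lit 8893243518) (nat_lit 248) (nat_lit 5) (nat_lit 258) (nat_lit 5) (nat_lit 249) (nat_lit 5) (nat_lit 460) (nat_lit 411) (nat_lit 269)) (XT.lf (nat_lit 0) (nat_lit 3620837698) (nat_lit 684) (nat_lit 9042308664) (nat_lit 76) (nat_lit 685936094) (nat_lit 240) (nat_lit 5) (nat_lit 249)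 (nat_lit 5) (nat_lit 241) (nat_lit 5) (nat_lit 461) (nat_lit 411) (nat_lit 268))) (XT.nd (nat_lit 78) (nat_lit 684) (nat_lit 0) (XT.lf (nat_lit 0) (nat_lit 5817601605) (nat_lit 684) (nat_lit 1944965087) (nat_lit 76) (nat_lit 5738028222) (nat_lit 240) (nat_lit 5) (nat_lit 249) (nat_lit 5) (nat_lit 241) (nat_lit 5) (nat_lit 462) (nat_lit 411) (nat_lit 267)) (XT.nd (nat_lit 78) (nat_lit 0) (nat_lit 0) (XT.lf (nat_lit 0) (nat_lit 5350345310) (nat_lit 684) (nat_lit 2730412722) (nat_lit 760) (nat_lit 5573936538) (nat_lit 231) (nat_lit 5) (nat_lit 240) (nat_lit 5) (nat_lit 241) (nat_lit 5) (nat_lit 463) (nat_lit 411) (nat_lit 266)) (XT.lf (nat_lit 0) (nat_lit 10405769908) (nat_lit 760) (nat_lit 1023666847) (nat_lit 76) (nat_lit 2382113594) (nat_lit 231) (nat_lit 5) (nat_lit 241) (nat_lit 5) (nat_lit 232) (nat_lit 5) (nat_lit 464) (nat_lit 411) (nat_lit 265))))) (XT.nd (nat_lit 234) (nat_lit 1140) (nat_lit 0) (XT.nd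 (nat_lit 78) (nat_lit 684) (nat_lit 0) (XT.lf (nat_lit 0) (nat_lit 6455194534) (nat_lit 608) (nat_lit 6370175477) (nat_lit 684) (nat_lit 1145217330) (nat_lit 223) (nat_lit 5) (nat_lit 231) (nat_lit 5) (nat_lit 232) (nat_lit 5) (nat_lit 465) (nat_lit 411) (nat_lit 264)) (XT.nd (nat_lit 78) (nat_lit 608) (nat_lit 0) (XT.lf (nat_lit 0) (nat_lit 1140404839) (nat_lit 684) (nat_lit 56823445) (nat_lit 76) (nat_lit 12935530341) (nat_lit 222) (nat_lit 5) (nat_lit 231) (nat_lit 5) (nat_lit 223) (nat_lit 5) (nat_lit 466) (nat_lit 411) (nat_lit 263)) (XT.lf (nat_lit 0) (nat_lit 3521190590) (nat_lit 684) (nat_lit 6694529194) (nat_lit 76) (nat_lit 4081011962) (nat_lit 214) (nat_lit 5) (nat_lit 223) (nat_lit 5) (nat_lit 215) (nat_lit 5) (nat_lit 467) (nat_lit 411) (nat_lit 262)))) (XT.nd (nat_lit 78) (nat_lit 608) (nat_lit 0) (XT.lf (nat_lit 0) (nat_lit 941684063) (nat_lit 532) (nat_lit 5010844789) (nat_lit 608) (nat_lit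 8511402153) (nat_lit 207) (nat_lit 5) (nat_lit 214) (nat_lit 5) (nat_lit 215) (nat_lit 5) (nat_lit 468) (nat_lit 411) (nat_lit 261)) (XT.nd (nat_lit 78) (nat_lit 608) (nat_lit 0) (XT.lf (nat_lit 0) (nat_lit 8468280314) (nat_lit 608) (nat_lit 5828503480) (nat_lit 76) (nat_lit 336980031) (nat_lit 207) (nat_lit 5) (nat_lit 215) (nat_lit 5) (nat_lit 208) (nat_lit 5) (nat_lit 469) (nat_lit 411) (nat_lit 260)) (XT.lf (nat_lit 0) (nat_lit 1998352686) (nat_lit 608) (nat_lit 9071005573) (nat_lit 684) (nat_lit 3736940015) (nat_lit 199) (nat_lit 5) (nat_lit 207) (nat_lit 5) (nat_lit 208) (nat_lit 5) (nat_lit 470) (nat_lit 411) (nat_lit 259))))))))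
noncomputable def xc180 : XT := (XT.nd (nat_lit 1560) (nat_lit 1900) (nat_lit 0) (XT.nd (nat_lit 780) (nat_lit 2356) (nat_lit 0) (XT.nd (nat_lit 390) (nat_lit 1596) (nat_lit 0) (XT.nd (nat_lit 156) (nat_lit 532) (nat_lit 0) (XT.nd (nat_lit 78) (nat_lit 608) (nat_lit 0) (XT.lf (nat_lit 0) (nat_lit 10047057058) (nat_lit 608) (nat_lit 3703495108) (nat_lit 684) (nat_lit 1231174457) (nat_lit 199) (nat_lit 5) (nat_lit 207) (nat_lit 5) (nat_lit 208) (nat_lit 5) (nat_lit 471) (nat_lit 411) (nat_lit 258)) (XT.lf (nat_lit 0) (nat_lit 1328351531) (nat_lit 608) (nat_lit 12057238973) (nat_lit 76) (nat_lit 1774485541) (nat_lit 191) (nat_lit 5) (nat_lit 199) (nat_lit 5) (nat_lit 192) (nat_lit 5) (nat_lit 472) (nat_lit 411) (nat_lit 257))) (XT.nd (nat_lit 78) (nat_lit 532) (nat_lit 0) (XT.lf (nat_lit 0) (nat_lit 3969687632) (nat_lit 608) (nat_lit 4019934335) (nat_lit 76) (nat_lit 7351270432) (nat_lit 191) (nat_lit 5) (nat_lit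 199) (nat_lit 5) (nat_lit 192) (nat_lit 5) (nat_lit 473) (nat_lit 411) (nat_lit 256)) (XT.nd (nat_lit 78) (nat_lit 0) (nat_lit 0) (XT.lf (nat_lit 0) (nat_lit 4220041906) (nat_lit 532) (nat_lit 2460648666) (nat_lit 608) (nat_lit 8844302417) (nat_lit 184) (nat_lit 5) (nat_lit 191) (nat_lit 5) (nat_lit 192) (nat_lit 5) (nat_lit 474) (nat_lit 411) (nat_lit 255)) (XT.lf (nat_lit 0) (nat_lit 9483250141) (nat_lit 608) (nat_lit 3067272740) (nat_lit 76) (nat_lit 3161510597) (nat_lit 184) (nat_lit 5) (nat_lit 192) (nat_lit 5) (nat_lit 185) (nat_lit 5) (nat_lit 475) (nat_lit 411) (nat_lit 254))))) (XT.nd (nat_lit 156) (nat_lit 1064) (nat_lit 0) (XT.nd (nat_lit 78) (nat_lit 0) (nat_lit 0) (XT.lf (nat_lit 0) (nat_lit 5376109972) (nat_lit 532) (nat_lit 7006699430) (nat_lit 608) (nat_lit 3519190933) (nat_lit 177) (nat_lit 5) (nat_lit 184) (nat_lit 5) (nat_lit 185) (nat_lit 5) (nat_lit 476) (nat_lit 411) (nat_lit 253))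 (XT.lf (nat_lit 0) (nat_lit 14016763117) (nat_lit 532) (nat_lit 1334042775) (nat_lit 608) (nat_lit 744756154) (nat_lit 177) (nat_lit 5) (nat_lit 184) (nat_lit 5) (nat_lit 185) (nat_lit 5) (nat_lit 477) (nat_lit 411) (nat_lit 252))) (XT.nd (nat_lit 78) (nat_lit 456) (nat_lit 0) (XT.lf (nat_lit 0) (nat_lit 2119904150) (nat_lit 608) (nat_lit 9724166117) (nat_lit 76) (nat_lit 4447416544) (nat_lit 169) (nat_lit 5) (nat_lit 177) (nat_lit 5) (nat_lit 170) (nat_lit 5) (nat_lit 478) (nat_lit 411) (nat_lit 251)) (XT.nd (nat_lit 78) (nat_lit 456) (nat_lit 0) (XT.lf (nat_lit 0) (nat_lit 5044855421) (nat_lit 608) (nat_lit 1103519094) (nat_lit 76) (nat_lit 10342601880) (nat_lit 169) (nat_lit 5) (nat_lit 177) (nat_lit 5) (nat_lit 170) (nat_lit 5) (nat_lit 479) (nat_lit 411) (nat_lit 250)) (XT.lf (nat_lit 0) (nat_lit 7778667198) (nat_lit 456) (nat_lit 290421006) (nat_lit 532) (nat_lit 8624556019) (nat_lit 163) (nat_lit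 5) (nat_lit 169) (nat_lit 5) (nat_lit 170) (nat_lit 5) (nat_lit 480) (nat_lit 411) (nat_lit 249)))))) (XT.nd (nat_lit 390) (nat_lit 912) (nat_lit 0) (XT.nd (nat_lit 156) (nat_lit 988) (nat_lit 0) (XT.nd (nat_lit 78) (nat_lit 456) (nat_lit 0) (XT.lf (nat_lit 0) (nat_lit 11188533624) (nat_lit 532) (nat_lit 96702471) (nat_lit 76) (nat_lit 5614438774) (nat_lit 163) (nat_lit 5) (nat_lit 170) (nat_lit 5) (nat_lit 164) (nat_lit 5) (nat_lit 481) (nat_lit 411) (nat_lit 248)) (XT.lf (nat_lit 0) (nat_lit 9001339972) (nat_lit 456) (nat_lit 5419947846) (nat_lit 532) (nat_lit 2687523854) (nat_lit 157) (nat_lit 5) (nat_lit 163) (nat_lit 5) (nat_lit 164) (nat_lit 5) (nat_lit 482) (nat_lit 411) (nat_lit 247))) (XT.nd (nat_lit 78) (nat_lit 456) (nat_lit 0) (XT.lf (nat_lit 0) (nat_lit 392521478) (nat_lit 532) (nat_lit 16368083815) (nat_lit 76) (nat_lit 561455079) (nat_lit 150) (nat_lit 5) (nat_lit 157) (nat_lit 5) (nat_lit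 151) (nat_lit 5) (nat_lit 483) (nat_lit 411) (nat_lit 246)) (XT.nd (nat_lit 78) (nat_lit 456) (nat_lit 0) (XT.lf (nat_lit 0) (nat_lit 3579546252) (nat_lit 532) (nat_lit 7298842818) (nat_lit 76) (nat_lit 6659206110) (nat_lit 150) (nat_lit 5) (nat_lit 157) (nat_lit 5) (nat_lit 151) (nat_lit 5) (nat_lit 484) (nat_lit 411) (nat_lit 245)) (XT.lf (nat_lit 0) (nat_lit 1964948347) (nat_lit 456) (nat_lit 4868975277) (nat_lit 532) (nat_lit 10923448461) (nat_lit 144) (nat_lit 5) (nat_lit 150) (nat_lit 5) (nat_lit 151) (nat_lit 5) (nat_lit 485) (nat_lit 411) (nat_lit 244))))) (XT.nd (nat_lit 156) (nat_lit 532) (nat_lit 0) (XT.nd (nat_lit 78) (nat_lit 380) (nat_lit 0) (XT.lf (nat_lit 0) (nat_lit 10201806628) (nat_lit 532) (nat_lit 6488805400) (nat_lit 76) (nat_lit 1289967708) (nat_lit 144) (nat_lit 5) (nat_lit 151) (nat_lit 5) (nat_lit 145) (nat_lit 5) (nat_lit 486) (nat_lit 411) (nat_lit 243)) (XT.lf (nat_lit 0) (nat_lit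 2995491219) (nat_lit 380) (nat_lit 10684357321) (nat_lit 456) (nat_lit 4527550474) (nat_lit 139) (nat_lit 5) (nat_lit 144) (nat_lit 5) (nat_lit 145) (nat_lit 5) (nat_lit 487) (nat_lit 411) (nat_lit 242))) (XT.nd (nat_lit 78) (nat_lit 532) (nat_lit 0) (XT.lf (nat_lit 0) (nat_lit 12745077428) (nat_lit 380) (nat_lit 4517118979) (nat_lit 456) (nat_lit 1175866803) (nat_lit 139) (nat_lit 5) (nat_lit 144) (nat_lit 5) (nat_lit 145) (nat_lit 5) (nat_lit 488) (nat_lit 411) (nat_lit 241)) (XT.nd (nat_lit 78) (nat_lit 0) (nat_lit 0) (XT.lf (nat_lit 0) (nat_lit 2242757646) (nat_lit 532) (nat_lit 14641922342) (nat_lit 76) (nat_lit 1787786306) (nat_lit 132) (nat_lit 5) (nat_lit 139) (nat_lit 5) (nat_lit 133) (nat_lit 5) (nat_lit 489) (nat_lit 411) (nat_lit 240)) (XT.lf (nat_lit 0) (nat_lit 5773777305) (nat_lit 532) (nat_lit 4935335964) (nat_lit 76) (nat_lit 8201096606) (nat_lit 132) (nat_lit 5) (nat_lit 139) (nat_lit 5)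 (nat_lit 133) (nat_lit 5) (nat_lit 490) (nat_lit 411) (nat_lit 239))))))) (XT.nd (nat_lit 53274) (nat_lit 0) (nat_lit 25156) (XT.nd (nat_lit 390) (nat_lit 684) (nat_lit 0) (XT.nd (nat_lit 156) (nat_lit 836) (nat_lit 0) (XT.nd (nat_lit 78) (nat_lit 0) (nat_lit 0) (XT.lf (nat_lit 0) (nat_lit 5019148498) (nat_lit 380) (nat_lit 4380407708) (nat_lit 456) (nat_lit 9752672513) (nat_lit 127) (nat_lit 5) (nat_lit 132) (nat_lit 5) (nat_lit 133) (nat_lit 5) (nat_lit 491) (nat_lit 411) (nat_lit 238)) (XT.lf (nat_lit 0) (nat_lit 13136275736) (nat_lit 456) (nat_lit 4184622065) (nat_lit 76) (nat_lit 2077424746) (nat_lit 127) (nat_lit 5) (nat_lit 133) (nat_lit 5) (nat_lit 128) (nat_lit 5) (nat_lit 492) (nat_lit 411) (nat_lit 237))) (XT.nd (nat_lit 78) (nat_lit 456) (nat_lit 0) (XT.lf (nat_lit 0) (nat_lit 6000604593) (nat_lit 380) (nat_lit 11006874266) (nat_lit 456) (nat_lit 2640667457) (nat_lit 122) (nat_lit 5) (nat_lit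 127) (nat_lit 5) (nat_lit 128) (nat_lit 5) (nat_lit 493) (nat_lit 411) (nat_lit 236)) (XT.nd (nat_lit 78) (nat_lit 380) (nat_lit 0) (XT.lf (nat_lit 0) (nat_lit 1059401987) (nat_lit 456) (nat_lit 3475093068) (nat_lit 76) (nat_lit 15367936187) (nat_lit 121) (nat_lit 5) (nat_lit 127) (nat_lit 5) (nat_lit 122) (nat_lit 5) (nat_lit 494) (nat_lit 411) (nat_lit 235)) (XT.lf (nat_lit 0) (nat_lit 4849137615) (nat_lit 456) (nat_lit 13211578519) (nat_lit 76) (nat_lit 2099719042) (nat_lit 116) (nat_lit 5) (nat_lit 122) (nat_lit 5) (nat_lit 117) (nat_lit 5) (nat_lit 495) (nat_lit 411) (nat_lit 234))))) (XT.nd (nat_lit 156) (nat_lit 304) (nat_lit 0) (XT.nd (nat_lit 78) (nat_lit 380) (nat_lit 0) (XT.lf (nat_lit 0) (nat_lit 8760198429) (nat_lit 456) (nat_lit 2836677051) (nat_lit 76) (nat_lit 8825815914) (nat_lit 116) (nat_lit 5) (nat_lit 122) (nat_lit 5) (nat_lit 117) (nat_lit 5) (nat_lit 496) (nat_lit 411) (nat_lit 233))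 (XT.lf (nat_lit 0) (nat_lit 7836985099) (nat_lit 380) (nat_lit 4955561172) (nat_lit 456) (nat_lit 7896787909) (nat_lit 111) (nat_lit 5) (nat_lit 116) (nat_lit 5) (nat_lit 117) (nat_lit 5) (nat_lit 497) (nat_lit 411) (nat_lit 232))) (XT.nd (nat_lit 78) (nat_lit 304) (nat_lit 0) (XT.lf (nat_lit 0) (nat_lit 16928747964) (nat_lit 456) (nat_lit 2221868621) (nat_lit 76) (nat_lit 1810231805) (nat_lit 111) (nat_lit 5) (nat_lit 117) (nat_lit 5) (nat_lit 112) (nat_lit 5) (nat_lit 498) (nat_lit 411) (nat_lit 231)) (XT.nd (nat_lit 52572) (nat_lit 0) (nat_lit 27816) (XT.lf (nat_lit 0) (nat_lit 8691036272) (nat_lit 304) (nat_lit 12538273684) (nat_lit 380) (nat_lit 6852857) (nat_lit 107) (nat_lit 5) (nat_lit 111) (nat_lit 5) (nat_lit 112) (nat_lit 5) (nat_lit 499) (nat_lit 411) (nat_lit 230)) (XT.lf (nat_lit 0) (nat_lit 2871508702) (nat_lit 1444) (nat_lit 670014887) (nat_lit 1444) (nat_lit 670014887) (nat_lit 473) (nat_lit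 3) (nat_lit 492) (nat_lit 3) (nat_lit 492) (nat_lit 5) (nat_lit 412) (nat_lit 412) (nat_lit 316)))))) (XT.nd (nat_lit 390) (nat_lit 1292) (nat_lit 0) (XT.nd (nat_lit 156) (nat_lit 1368) (nat_lit 0) (XT.nd (nat_lit 78) (nat_lit 0) (nat_lit 0) (XT.lf (nat_lit 76) (nat_lit 2633441446) (nat_lit 0) (nat_lit 4204587193) (nat_lit 1444) (nat_lit 1647837037) (nat_lit 474) (nat_lit 5) (nat_lit 473) (nat_lit 3) (nat_lit 492) (nat_lit 5) (nat_lit 413) (nat_lit 412) (nat_lit 315)) (XT.lf (nat_lit 76) (nat_lit 6690704456) (nat_lit 0) (nat_lit 1246370438) (nat_lit 1444) (nat_lit 613210693) (nat_lit 474) (nat_lit 5) (nat_lit 473) (nat_lit 3) (nat_lit 492) (nat_lit 5) (nat_lit 414) (nat_lit 412) (nat_lit 314))) (XT.nd (nat_lit 78) (nat_lit 0) (nat_lit 0) (XT.lf (nat_lit 0) (nat_lit 435931422) (nat_lit 1444) (nat_lit 6402394748) (nat_lit 1520) (nat_lit 1777635294) (nat_lit 455) (nat_lit 5) (nat_lit 474) (nat_lit 5) (nat_lit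 475) (nat_lit 5) (nat_lit 415) (nat_lit 412) (nat_lit 313)) (XT.nd (nat_lit 78) (nat_lit 0) (nat_lit 0) (XT.lf (nat_lit 0) (nat_lit 1492655526) (nat_lit 1444) (nat_lit 2316181655) (nat_lit 1520) (nat_lit 4874153476) (nat_lit 455) (nat_lit 5) (nat_lit 474) (nat_lit 5) (nat_lit 475) (nat_lit 5) (nat_lit 416) (nat_lit 412) (nat_lit 312)) (XT.lf (nat_lit 76) (nat_lit 1861992480) (nat_lit 0) (nat_lit 695107827) (nat_lit 1520) (nat_lit 6194545132) (nat_lit 456) (nat_lit 5) (nat_lit 455) (nat_lit 5) (nat_lit 475) (nat_lit 5) (nat_lit 417) (nat_lit 412) (nat_lit 311))))) (XT.nd (nat_lit 234) (nat_lit 1368) (nat_lit 0) (XT.nd (nat_lit 78) (nat_lit 0) (nat_lit 0) (XT.lf (nat_lit 0) (nat_lit 3649564270) (nat_lit 1444) (nat_lit 2697126481) (nat_lit 1520) (nat_lit 2474864365) (nat_lit 456) (nat_lit 5) (nat_lit 475) (nat_lit 5) (nat_lit 476) (nat_lit 5) (nat_lit 418) (nat_lit 412) (nat_lit 310)) (XT.nd (nat_lit 78) (nat_lit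 0) (nat_lit 76) (XT.lf (nat_lit 76) (nat_lit 1580989962) (nat_lit 0) (nat_lit 3173223325) (nat_lit 1520) (nat_lit 4138859064) (nat_lit 457) (nat_lit 5) (nat_lit 456) (nat_lit 5) (nat_lit 476) (nat_lit 5) (nat_lit 419) (nat_lit 412) (nat_lit 309)) (XT.lf (nat_lit 0) (nat_lit 5875507665) (nat_lit 1444) (nat_lit 2999822553) (nat_lit 1520) (nat_lit 90814431) (nat_lit 457) (nat_lit 5) (nat_lit 476) (nat_lit 5) (nat_lit 477) (nat_lit 5) (nat_lit 420) (nat_lit 412) (nat_lit 308)))) (XT.nd (nat_lit 78) (nat_lit 1444) (nat_lit 0) (XT.lf (nat_lit 76) (nat_lit 1381213932) (nat_lit 0) (nat_lit 5644388351) (nat_lit 1520) (nat_lit 2014964080) (nat_lit 458) (nat_lit 5) (nat_lit 457) (nat_lit 5) (nat_lit 477) (nat_lit 5) (nat_lit 421) (nat_lit 412) (nat_lit 307)) (XT.nd (nat_lit 78) (nat_lit 1444) (nat_lit 0) (XT.lf (nat_lit 76) (nat_lit 5876061686) (nat_lit 0) (nat_lit 2319528304) (nat_lit 1520) (nat_lit 920963851) (nat_lit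 458) (nat_lit 5) (nat_lit 457) (nat_lit 5) (nat_lit 477) (nat_lit 5) (nat_lit 422) (nat_lit 412) (nat_lit 306)) (XT.lf (nat_lit 0) (nat_lit 184717736) (nat_lit 1520) (nat_lit 7933825477) (nat_lit 1596) (nat_lit 1075659956) (nat_lit 438) (nat_lit 5) (nat_lit 458) (nat_lit 5) (nat_lit 459) (nat_lit 5) (nat_lit 423) (nat_lit 412) (nat_lit 305))))))))
noncomputable def xc181 : XT := (XT.nd (nat_lit 1560) (nat_lit 8512) (nat_lit 0) (XT.nd (nat_lit 780) (nat_lit 5852) (nat_lit 0) (XT.nd (nat_lit 390) (nat_lit 1368) (nat_lit 0) (XT.nd (nat_lit 156) (nat_lit 0) (nat_lit 76) (XT.nd (nat_lit 78) (nat_lit 0) (nat_lit 0) (XT.lf (nat_lit 0) (nat_lit 1314903751) (nat_lit 1520) (nat_lit 3414316535) (nat_lit 1596) (nat_lit 4543783276) (nat_lit 438) (nat_lit 5) (nat_lit 458) (nat_lit 5) (nat_lit 459) (nat_lit 5) (nat_lit 424) (nat_lit 412) (nat_lit 304)) (XT.lf (nat_lit 76) (nat_lit 1196637089) (nat_lit 0) (nat_lit 1256728153)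 (nat_lit 1596) (nat_lit 6900315286) (nat_lit 439) (nat_lit 5) (nat_lit 438) (nat_lit 5) (nat_lit 459) (nat_lit 5) (nat_lit 425) (nat_lit 412) (nat_lit 303))) (XT.nd (nat_lit 78) (nat_lit 0) (nat_lit 0) (XT.lf (nat_lit 0) (nat_lit 3630784785) (nat_lit 1520) (nat_lit 3519448949) (nat_lit 1596) (nat_lit 2285427246) (nat_lit 439) (nat_lit 5) (nat_lit 459) (nat_lit 5) (nat_lit 460) (nat_lit 5) (nat_lit 426) (nat_lit 412) (nat_lit 302)) (XT.nd (nat_lit 78) (nat_lit 0) (nat_lit 76) (XT.lf (nat_lit 76) (nat_lit 1203616211) (nat_lit 0) (nat_lit 3622987712) (nat_lit 1596) (nat_lit 4692793551) (nat_lit 440) (nat_lit 5) (nat_lit 439) (nat_lit 5) (nat_lit 460) (nat_lit 5) (nat_lit 427) (nat_lit 412) (nat_lit 301)) (XT.lf (nat_lit 0) (nat_lit 6049026729) (nat_lit 1520) (nat_lit 3550600072) (nat_lit 1596) (nat_lit 5141345) (nat_lit 440) (nat_lit 5) (nat_lit 460) (nat_lit 5) (nat_lit 461) (nat_lit 5) (nat_lit 428) (nat_lit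 412) (nat_lit 300))))) (XT.nd (nat_lit 156) (nat_lit 1520) (nat_lit 0) (XT.nd (nat_lit 78) (nat_lit 0) (nat_lit 0) (XT.lf (nat_lit 76) (nat_lit 1287959107) (nat_lit 0) (nat_lit 6019781832) (nat_lit 1596) (nat_lit 2383881366) (nat_lit 441) (nat_lit 5) (nat_lit 440) (nat_lit 5) (nat_lit 461) (nat_lit 5) (nat_lit 429) (nat_lit 412) (nat_lit 299)) (XT.lf (nat_lit 76) (nat_lit 6256692158) (nat_lit 0) (nat_lit 2338557633) (nat_lit 1596) (nat_lit 1184904028) (nat_lit 441) (nat_lit 5) (nat_lit 440) (nat_lit 5) (nat_lit 461) (nat_lit 5) (nat_lit 430) (nat_lit 412) (nat_lit 298))) (XT.nd (nat_lit 78) (nat_lit 0) (nat_lit 0) (XT.lf (nat_lit 0) (nat_lit 36363959) (nat_lit 1596) (nat_lit 8421456507) (nat_lit 1672) (nat_lit 1412666541) (nat_lit 420) (nat_lit 5) (nat_lit 441) (nat_lit 5) (nat_lit 442) (nat_lit 5) (nat_lit 431) (nat_lit 412) (nat_lit 297)) (XT.nd (nat_lit 78) (nat_lit 0) (nat_lit 0) (XT.lf (nat_lit 0) (nat_lit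 1285870019) (nat_lit 1596) (nat_lit 3431967003) (nat_lit 1672) (nat_lit 5244251569) (nat_lit 420) (nat_lit 5) (nat_lit 441) (nat_lit 5) (nat_lit 442) (nat_lit 5) (nat_lit 432) (nat_lit 412) (nat_lit 296)) (XT.lf (nat_lit 76) (nat_lit 1664379933) (nat_lit 0) (nat_lit 887553057) (nat_lit 1672) (nat_lit 7503769596) (nat_lit 421) (nat_lit 5) (nat_lit 420) (nat_lit 5) (nat_lit 442) (nat_lit 5) (nat_lit 433) (nat_lit 412) (nat_lit 295)))))) (XT.nd (nat_lit 390) (nat_lit 4408) (nat_lit 0) (XT.nd (nat_lit 156) (nat_lit 1520) (nat_lit 0) (XT.nd (nat_lit 78) (nat_lit 0) (nat_lit 0) (XT.lf (nat_lit 0) (nat_lit 3867174025) (nat_lit 1596) (nat_lit 3276391682) (nat_lit 1672) (nat_lit 3007157502) (nat_lit 421) (nat_lit 5) (nat_lit 442) (nat_lit 5) (nat_lit 443) (nat_lit 5) (nat_lit 434) (nat_lit 412) (nat_lit 294)) (XT.lf (nat_lit 76) (nat_lit 1945691504) (nat_lit 0) (nat_lit 3262980544) (nat_lit 1672) (nat_lit 5038984413)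 (nat_lit 422) (nat_lit 5) (nat_lit 421) (nat_lit 5) (nat_lit 443) (nat_lit 5) (nat_lit 435) (nat_lit 412) (nat_lit 293))) (XT.nd (nat_lit 78) (nat_lit 1596) (nat_lit 0) (XT.lf (nat_lit 0) (nat_lit 6585379260) (nat_lit 1596) (nat_lit 3049208952) (nat_lit 76) (nat_lit 711783619) (nat_lit 422) (nat_lit 5) (nat_lit 443) (nat_lit 5) (nat_lit 423) (nat_lit 5) (nat_lit 436) (nat_lit 412) (nat_lit 292)) (XT.nd (nat_lit 78) (nat_lit 0) (nat_lit 0) (XT.lf (nat_lit 0) (nat_lit 2302395641) (nat_lit 1596) (nat_lit 5705874469) (nat_lit 1672) (nat_lit 2438429232) (nat_lit 401) (nat_lit 5) (nat_lit 422) (nat_lit 5) (nat_lit 423) (nat_lit 5) (nat_lit 437) (nat_lit 412) (nat_lit 291)) (XT.lf (nat_lit 0) (nat_lit 7787668762) (nat_lit 1596) (nat_lit 1674759211) (nat_lit 1672) (nat_lit 1086559856) (nat_lit 401) (nat_lit 5) (nat_lit 422) (nat_lit 5) (nat_lit 423) (nat_lit 5) (nat_lit 438) (nat_lit 412) (nat_lit 290))))) (XT.nd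 (nat_lit 156) (nat_lit 2660) (nat_lit 0) (XT.nd (nat_lit 78) (nat_lit 0) (nat_lit 0) (XT.lf (nat_lit 0) (nat_lit 304899892) (nat_lit 1748) (nat_lit 7920428858) (nat_lit 76) (nat_lit 2427637827) (nat_lit 378) (nat_lit 5) (nat_lit 401) (nat_lit 5) (nat_lit 379) (nat_lit 5) (nat_lit 439) (nat_lit 412) (nat_lit 289)) (XT.lf (nat_lit 0) (nat_lit 1722230165) (nat_lit 1748) (nat_lit 2418286306) (nat_lit 76) (nat_lit 6618122978) (nat_lit 378) (nat_lit 5) (nat_lit 401) (nat_lit 5) (nat_lit 379) (nat_lit 5) (nat_lit 440) (nat_lit 412) (nat_lit 288))) (XT.nd (nat_lit 78) (nat_lit 912) (nat_lit 0) (XT.lf (nat_lit 0) (nat_lit 3172314459) (nat_lit 1824) (nat_lit 7645157348) (nat_lit 76) (nat_lit 48875624) (nat_lit 355) (nat_lit 5) (nat_lit 379) (nat_lit 5) (nat_lit 356) (nat_lit 5) (nat_lit 441) (nat_lit 412) (nat_lit 287)) (XT.nd (nat_lit 78) (nat_lit 912) (nat_lit 0) (XT.lf (nat_lit 0) (nat_lit 4678575157) (nat_lit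 1824) (nat_lit 2012067045) (nat_lit 76) (nat_lit 4285033486) (nat_lit 355) (nat_lit 5) (nat_lit 379) (nat_lit 5) (nat_lit 356) (nat_lit 5) (nat_lit 442) (nat_lit 412) (nat_lit 286)) (XT.lf (nat_lit 0) (nat_lit 3768511303) (nat_lit 912) (nat_lit 2454661201) (nat_lit 988) (nat_lit 4863863200) (nat_lit 343) (nat_lit 5) (nat_lit 355) (nat_lit 5) (nat_lit 356) (nat_lit 5) (nat_lit 443) (nat_lit 412) (nat_lit 285))))))) (XT.nd (nat_lit 780) (nat_lit 4332) (nat_lit 0) (XT.nd (nat_lit 390) (nat_lit 2356) (nat_lit 0) (XT.nd (nat_lit 156) (nat_lit 912) (nat_lit 0) (XT.nd (nat_lit 78) (nat_lit 912) (nat_lit 0) (XT.lf (nat_lit 0) (nat_lit 7808347091) (nat_lit 988) (nat_lit 1535424764) (nat_lit 76) (nat_lit 1856666596) (nat_lit 343) (nat_lit 5) (nat_lit 356) (nat_lit 5) (nat_lit 344) (nat_lit 5) (nat_lit 444) (nat_lit 412) (nat_lit 284)) (XT.lf (nat_lit 0) (nat_lit 4390106674) (nat_lit 912) (nat_lit 5064170443) (nat_lit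 988) (nat_lit 1861260152) (nat_lit 331) (nat_lit 5) (nat_lit 343) (nat_lit 5) (nat_lit 344) (nat_lit 5) (nat_lit 445) (nat_lit 412) (nat_lit 283))) (XT.nd (nat_lit 78) (nat_lit 912) (nat_lit 0) (XT.lf (nat_lit 0) (nat_lit 10440506367) (nat_lit 912) (nat_lit 687429455) (nat_lit 988) (nat_lit 305114918) (nat_lit 331) (nat_lit 5) (nat_lit 343) (nat_lit 5) (nat_lit 344) (nat_lit 5) (nat_lit 446) (nat_lit 412) (nat_lit 282)) (XT.nd (nat_lit 78) (nat_lit 0) (nat_lit 0) (XT.lf (nat_lit 0) (nat_lit 1307974509) (nat_lit 912) (nat_lit 6473981348) (nat_lit 76) (nat_lit 3769947926) (nat_lit 319) (nat_lit 5) (nat_lit 331) (nat_lit 5) (nat_lit 320) (nat_lit 5) (nat_lit 447) (nat_lit 412) (nat_lit 281)) (XT.lf (nat_lit 0) (nat_lit 2945414763) (nat_lit 912) (nat_lit 410969792) (nat_lit 76) (nat_lit 8316793871) (nat_lit 319) (nat_lit 5) (nat_lit 331) (nat_lit 5) (nat_lit 320) (nat_lit 5) (nat_lit 448) (nat_lit 412) (nat_lit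 280))))) (XT.nd (nat_lit 156) (nat_lit 760) (nat_lit 0) (XT.nd (nat_lit 78) (nat_lit 760) (nat_lit 0) (XT.lf (nat_lit 0) (nat_lit 4646471798) (nat_lit 912) (nat_lit 5968677763) (nat_lit 76) (nat_lit 1181119842) (nat_lit 308) (nat_lit 5) (nat_lit 320) (nat_lit 5) (nat_lit 309) (nat_lit 5) (nat_lit 449) (nat_lit 412) (nat_lit 279)) (XT.lf (nat_lit 0) (nat_lit 241118014) (nat_lit 760) (nat_lit 6152410712) (nat_lit 836) (nat_lit 5528061941) (nat_lit 298) (nat_lit 5) (nat_lit 308) (nat_lit 5) (nat_lit 309) (nat_lit 5) (nat_lit 450) (nat_lit 412) (nat_lit 278))) (XT.nd (nat_lit 78) (nat_lit 760) (nat_lit 0) (XT.lf (nat_lit 0) (nat_lit 6641585898) (nat_lit 760) (nat_lit 1559595715) (nat_lit 836) (nat_lit 3847731530) (nat_lit 298) (nat_lit 5) (nat_lit 308) (nat_lit 5) (nat_lit 309) (nat_lit 5) (nat_lit 451) (nat_lit 412) (nat_lit 277)) (XT.nd (nat_lit 78) (nat_lit 0) (nat_lit 0) (XT.lf (nat_lit 0) (nat_lit 969265407)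 (nat_lit 760) (nat_lit 9088189286) (nat_lit 836) (nat_lit 2121085761) (nat_lit 288) (nat_lit 5) (nat_lit 298) (nat_lit 5) (nat_lit 299) (nat_lit 5) (nat_lit 452) (nat_lit 412) (nat_lit 276)) (XT.lf (nat_lit 0) (nat_lit 7521879246) (nat_lit 760) (nat_lit 4461588120) (nat_lit 836) (nat_lit 326648240) (nat_lit 288) (nat_lit 5) (nat_lit 298) (nat_lit 5) (nat_lit 299) (nat_lit 5) (nat_lit 453) (nat_lit 412) (nat_lit 275)))))) (XT.nd (nat_lit 390) (nat_lit 2052) (nat_lit 0) (XT.nd (nat_lit 156) (nat_lit 1444) (nat_lit 0) (XT.nd (nat_lit 78) (nat_lit 0) (nat_lit 0) (XT.lf (nat_lit 0) (nat_lit 1483438328) (nat_lit 836) (nat_lit 10685694902) (nat_lit 76) (nat_lit 275011431) (nat_lit 277) (nat_lit 5) (nat_lit 288) (nat_lit 5) (nat_lit 278) (nat_lit 5) (nat_lit 454) (nat_lit 412) (nat_lit 274)) (XT.lf (nat_lit 0) (nat_lit 3373665298) (nat_lit 836) (nat_lit 4125592011) (nat_lit 76) (nat_lit 5080594695) (nat_lit 277)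 (nat_lit 5) (nat_lit 288) (nat_lit 5) (nat_lit 278) (nat_lit 5) (nat_lit 455) (nat_lit 412) (nat_lit 273))) (XT.nd (nat_lit 78) (nat_lit 684) (nat_lit 0) (XT.lf (nat_lit 0) (nat_lit 2585472077) (nat_lit 760) (nat_lit 2719694744) (nat_lit 836) (nat_lit 7413044274) (nat_lit 267) (nat_lit 5) (nat_lit 277) (nat_lit 5) (nat_lit 278) (nat_lit 5) (nat_lit 456) (nat_lit 412) (nat_lit 272)) (XT.nd (nat_lit 78) (nat_lit 684) (nat_lit 0) (XT.lf (nat_lit 0) (nat_lit 7304008631) (nat_lit 836) (nat_lit 3400601340) (nat_lit 76) (nat_lit 2154160054) (nat_lit 267) (nat_lit 5) (nat_lit 278) (nat_lit 5) (nat_lit 268) (nat_lit 5) (nat_lit 457) (nat_lit 412) (nat_lit 271)) (XT.lf (nat_lit 0) (nat_lit 3479765829) (nat_lit 684) (nat_lit 5890770864) (nat_lit 760) (nat_lit 3631055981) (nat_lit 258) (nat_lit 5) (nat_lit 267) (nat_lit 5) (nat_lit 268) (nat_lit 5) (nat_lit 458) (nat_lit 412) (nat_lit 270))))) (XT.nd (nat_lit 234) (nat_lit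 1292) (nat_lit 0) (XT.nd (nat_lit 78) (nat_lit 760) (nat_lit 0) (XT.lf (nat_lit 0) (nat_lit 10529888961) (nat_lit 684) (nat_lit 958593707) (nat_lit 760) (nat_lit 1658593957) (nat_lit 258) (nat_lit 5) (nat_lit 267) (nat_lit 5) (nat_lit 268) (nat_lit 5) (nat_lit 459) (nat_lit 412) (nat_lit 269)) (XT.nd (nat_lit 78) (nat_lit 0) (nat_lit 0) (XT.lf (nat_lit 0) (nat_lit 391759473) (nat_lit 760) (nat_lit 8853738979) (nat_lit 76) (nat_lit 4049070743) (nat_lit 248) (nat_lit 5) (nat_lit 258) (nat_lit 5) (nat_lit 249) (nat_lit 5) (nat_lit 460) (nat_lit 412) (nat_lit 268)) (XT.lf (nat_lit 0) (nat_lit 2472536094) (nat_lit 760) (nat_lit 1800625978) (nat_lit 76) (nat_lit 9171404002) (nat_lit 248) (nat_lit 5) (nat_lit 258) (nat_lit 5) (nat_lit 249) (nat_lit 5) (nat_lit 461) (nat_lit 412) (nat_lit 267)))) (XT.nd (nat_lit 78) (nat_lit 684) (nat_lit 0) (XT.lf (nat_lit 0) (nat_lit 4623551545) (nat_lit 684) (nat_lit 8151197460)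 (nat_lit 76) (nat_lit 822247513) (nat_lit 240) (nat_lit 5) (nat_lit 249) (nat_lit 5) (nat_lit 241) (nat_lit 5) (nat_lit 462) (nat_lit 412) (nat_lit 266)) (XT.nd (nat_lit 78) (nat_lit 684) (nat_lit 0) (XT.lf (nat_lit 0) (nat_lit 6846009612) (nat_lit 684) (nat_lit 932925784) (nat_lit 76) (nat_lit 5972977704) (nat_lit 240) (nat_lit 5) (nat_lit 249) (nat_lit 5) (nat_lit 241) (nat_lit 5) (nat_lit 463) (nat_lit 412) (nat_lit 265)) (XT.lf (nat_lit 0) (nat_lit 6501376752) (nat_lit 684) (nat_lit 2641947465) (nat_lit 760) (nat_lit 4766001506) (nat_lit 231) (nat_lit 5) (nat_lit 240) (nat_lit 5) (nat_lit 241) (nat_lit 5) (nat_lit 464) (nat_lit 412) (nat_lit 264))))))))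
noncomputable def xc182 : XT := (XT.nd (nat_lit 1560) (nat_lit 2964) (nat_lit 0) (XT.nd (nat_lit 780) (nat_lit 3116) (nat_lit 0) (XT.nd (nat_lit 390) (nat_lit 1216) (nat_lit 0) (XT.nd (nat_lit 156) (nat_lit 1216) (nat_lit 0) (XT.nd (nat_lit 78) (nat_lit 608) (nat_lit 0) (XT.lf (nat_lit 0) (nat_lit 11498081337) (nat_lit 760) (nat_lit 3396708) (nat_lit 76) (nat_lit 2568184372) (nat_lit 231) (nat_lit 5) (nat_lit 241) (nat_lit 5) (nat_lit 232) (nat_lit 5) (nat_lit 465) (nat_lit 412) (nat_lit 263)) (XT.lf (nat_lit 0) (nat_lit 7618194904) (nat_lit 608) (nat_lit 6337254102) (nat_lit 684) (nat_lit 276652160) (nat_lit 223) (nat_lit 5) (nat_lit 231) (nat_lit 5) (nat_lit 232) (nat_lit 5) (nat_lit 466) (nat_lit 412) (nat_lit 262))) (XT.nd (nat_lit 78) (nat_lit 532) (nat_lit 0) (XT.lf (nat_lit 0) (nat_lit 980394596) (nat_lit 608) (nat_lit 1051710901) (nat_lit 684) (nat_lit 12365520522) (nat_lit 214) (nat_lit 5) (nat_lit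 222) (nat_lit 5) (nat_lit 223) (nat_lit 5) (nat_lit 467) (nat_lit 412) (nat_lit 261)) (XT.nd (nat_lit 78) (nat_lit 532) (nat_lit 0) (XT.lf (nat_lit 0) (nat_lit 4444924854) (nat_lit 684) (nat_lit 5793304691) (nat_lit 76) (nat_lit 4326968737) (nat_lit 214) (nat_lit 5) (nat_lit 223) (nat_lit 5) (nat_lit 215) (nat_lit 5) (nat_lit 468) (nat_lit 412) (nat_lit 260)) (XT.lf (nat_lit 0) (nat_lit 1988822863) (nat_lit 532) (nat_lit 4926011879) (nat_lit 608) (nat_lit 7821115766) (nat_lit 207) (nat_lit 5) (nat_lit 214) (nat_lit 5) (nat_lit 215) (nat_lit 5) (nat_lit 469) (nat_lit 412) (nat_lit 259))))) (XT.nd (nat_lit 156) (nat_lit 608) (nat_lit 0) (XT.nd (nat_lit 78) (nat_lit 608) (nat_lit 0) (XT.lf (nat_lit 0) (nat_lit 9465544724) (nat_lit 608) (nat_lit 4921188482) (nat_lit 76) (nat_lit 522761635) (nat_lit 207) (nat_lit 5) (nat_lit 215) (nat_lit 5) (nat_lit 208) (nat_lit 5) (nat_lit 470) (nat_lit 412) (nat_lit 258))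 (XT.lf (nat_lit 0) (nat_lit 3055468721) (nat_lit 608) (nat_lit 9053546202) (nat_lit 684) (nat_lit 2976665216) (nat_lit 199) (nat_lit 5) (nat_lit 207) (nat_lit 5) (nat_lit 208) (nat_lit 5) (nat_lit 471) (nat_lit 412) (nat_lit 257))) (XT.nd (nat_lit 78) (nat_lit 608) (nat_lit 0) (XT.lf (nat_lit 0) (nat_lit 11245203083) (nat_lit 608) (nat_lit 3582585126) (nat_lit 684) (nat_lit 437157163) (nat_lit 199) (nat_lit 5) (nat_lit 207) (nat_lit 5) (nat_lit 208) (nat_lit 5) (nat_lit 472) (nat_lit 412) (nat_lit 256)) (XT.nd (nat_lit 78) (nat_lit 0) (nat_lit 0) (XT.lf (nat_lit 0) (nat_lit 2154803680) (nat_lit 608) (nat_lit 11281702333) (nat_lit 76) (nat_lit 2010416983) (nat_lit 191) (nat_lit 5) (nat_lit 199) (nat_lit 5) (nat_lit 192) (nat_lit 5) (nat_lit 473) (nat_lit 412) (nat_lit 255)) (XT.lf (nat_lit 0) (nat_lit 4833282481) (nat_lit 608) (nat_lit 3103586532) (nat_lit 76) (nat_lit 7694807343) (nat_lit 191) (nat_lit 5)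 (nat_lit 199) (nat_lit 5) (nat_lit 192) (nat_lit 5) (nat_lit 474) (nat_lit 412) (nat_lit 254)))))) (XT.nd (nat_lit 390) (nat_lit 1444) (nat_lit 0) (XT.nd (nat_lit 156) (nat_lit 1140) (nat_lit 0) (XT.nd (nat_lit 78) (nat_lit 0) (nat_lit 0) (XT.lf (nat_lit 0) (nat_lit 5294631691) (nat_lit 532) (nat_lit 2294926260) (nat_lit 608) (nat_lit 8230086817) (nat_lit 184) (nat_lit 5) (nat_lit 191) (nat_lit 5) (nat_lit 192) (nat_lit 5) (nat_lit 475) (nat_lit 412) (nat_lit 253)) (XT.lf (nat_lit 0) (nat_lit 10434335802) (nat_lit 608) (nat_lit 2143675524) (nat_lit 76) (nat_lit 3432698125) (nat_lit 184) (nat_lit 5) (nat_lit 192) (nat_lit 5) (nat_lit 185) (nat_lit 5) (nat_lit 476) (nat_lit 412) (nat_lit 252))) (XT.nd (nat_lit 78) (nat_lit 608) (nat_lit 0) (XT.lf (nat_lit 0) (nat_lit 6462094956) (nat_lit 532) (nat_lit 6921214304) (nat_lit 608) (nat_lit 2821344518) (nat_lit 177) (nat_lit 5) (nat_lit 184) (nat_lit 5) (nat_lit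 185) (nat_lit 5) (nat_lit 477) (nat_lit 412) (nat_lit 251)) (XT.nd (nat_lit 78) (nat_lit 608) (nat_lit 0) (XT.lf (nat_lit 0) (nat_lit 15256375620) (nat_lit 532) (nat_lit 1139528420) (nat_lit 608) (nat_lit 6484382) (nat_lit 177) (nat_lit 5) (nat_lit 184) (nat_lit 5) (nat_lit 185) (nat_lit 5) (nat_lit 478) (nat_lit 412) (nat_lit 250)) (XT.lf (nat_lit 0) (nat_lit 2898751107) (nat_lit 608) (nat_lit 8942026616) (nat_lit 76) (nat_lit 4761499172) (nat_lit 169) (nat_lit 5) (nat_lit 177) (nat_lit 5) (nat_lit 170) (nat_lit 5) (nat_lit 479) (nat_lit 412) (nat_lit 249))))) (XT.nd (nat_lit 156) (nat_lit 988) (nat_lit 0) (XT.nd (nat_lit 78) (nat_lit 456) (nat_lit 0) (XT.lf (nat_lit 0) (nat_lit 5867761229) (nat_lit 608) (nat_lit 168116120) (nat_lit 76) (nat_lit 10770173817) (nat_lit 169) (nat_lit 5) (nat_lit 177) (nat_lit 5) (nat_lit 170) (nat_lit 5) (nat_lit 480) (nat_lit 412) (nat_lit 248)) (XT.lf (nat_lit 0) (nat_lit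 8885414731) (nat_lit 456) (nat_lit 59082557) (nat_lit 532) (nat_lit 8068440663) (nat_lit 163) (nat_lit 5) (nat_lit 169) (nat_lit 5) (nat_lit 170) (nat_lit 5) (nat_lit 481) (nat_lit 412) (nat_lit 247))) (XT.nd (nat_lit 78) (nat_lit 532) (nat_lit 0) (XT.lf (nat_lit 0) (nat_lit 857922771) (nat_lit 456) (nat_lit 11261488037) (nat_lit 532) (nat_lit 5103822672) (nat_lit 157) (nat_lit 5) (nat_lit 163) (nat_lit 5) (nat_lit 164) (nat_lit 5) (nat_lit 482) (nat_lit 412) (nat_lit 246)) (XT.nd (nat_lit 78) (nat_lit 532) (nat_lit 0) (XT.lf (nat_lit 0) (nat_lit 10120455124) (nat_lit 456) (nat_lit 5283136330) (nat_lit 532) (nat_lit 2033231879) (nat_lit 157) (nat_lit 5) (nat_lit 163) (nat_lit 5) (nat_lit 164) (nat_lit 5) (nat_lit 483) (nat_lit 412) (nat_lit 245)) (XT.lf (nat_lit 0) (nat_lit 1093177153) (nat_lit 532) (nat_lit 15740562675) (nat_lit 76) (nat_lit 820629777) (nat_lit 150) (nat_lit 5) (nat_lit 157) (nat_lit 5)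 (nat_lit 151) (nat_lit 5) (nat_lit 484) (nat_lit 412) (nat_lit 244))))))) (XT.nd (nat_lit 780) (nat_lit 836) (nat_lit 0) (XT.nd (nat_lit 390) (nat_lit 1292) (nat_lit 0) (XT.nd (nat_lit 156) (nat_lit 380) (nat_lit 0) (XT.nd (nat_lit 78) (nat_lit 456) (nat_lit 0) (XT.lf (nat_lit 0) (nat_lit 4330358005) (nat_lit 532) (nat_lit 6508660051) (nat_lit 76) (nat_lit 7035474150) (nat_lit 150) (nat_lit 5) (nat_lit 157) (nat_lit 5) (nat_lit 151) (nat_lit 5) (nat_lit 485) (nat_lit 412) (nat_lit 243)) (XT.lf (nat_lit 0) (nat_lit 2934247992) (nat_lit 456) (nat_lit 4708295058) (nat_lit 532) (nat_lit 10456272500) (nat_lit 144) (nat_lit 5) (nat_lit 150) (nat_lit 5) (nat_lit 151) (nat_lit 5) (nat_lit 486) (nat_lit 412) (nat_lit 242))) (XT.nd (nat_lit 78) (nat_lit 380) (nat_lit 0) (XT.lf (nat_lit 0) (nat_lit 11066251044) (nat_lit 532) (nat_lit 5695023508) (nat_lit 76) (nat_lit 1565448655) (nat_lit 144) (nat_lit 5) (nat_lit 151)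 (nat_lit 5) (nat_lit 145) (nat_lit 5) (nat_lit 487) (nat_lit 412) (nat_lit 241)) (XT.nd (nat_lit 78) (nat_lit 0) (nat_lit 0) (XT.lf (nat_lit 0) (nat_lit 3972883004) (nat_lit 380) (nat_lit 10633978511) (nat_lit 456) (nat_lit 3951362300) (nat_lit 139) (nat_lit 5) (nat_lit 144) (nat_lit 5) (nat_lit 145) (nat_lit 5) (nat_lit 488) (nat_lit 412) (nat_lit 240)) (XT.lf (nat_lit 0) (nat_lit 13899471094) (nat_lit 380) (nat_lit 4348573165) (nat_lit 456) (nat_lit 545718272) (nat_lit 139) (nat_lit 5) (nat_lit 144) (nat_lit 5) (nat_lit 145) (nat_lit 5) (nat_lit 489) (nat_lit 412) (nat_lit 239))))) (XT.nd (nat_lit 156) (nat_lit 760) (nat_lit 0) (XT.nd (nat_lit 78) (nat_lit 0) (nat_lit 0) (XT.lf (nat_lit 0) (nat_lit 2927629661) (nat_lit 532) (nat_lit 14021134541) (nat_lit 76) (nat_lit 2084110920) (nat_lit 132) (nat_lit 5) (nat_lit 139) (nat_lit 5) (nat_lit 133) (nat_lit 5) (nat_lit 490) (nat_lit 412) (nat_lit 238)) (XT.lf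 (nat_lit 0) (nat_lit 6516720362) (nat_lit 532) (nat_lit 4138330676) (nat_lit 76) (nat_lit 8620578231) (nat_lit 132) (nat_lit 5) (nat_lit 139) (nat_lit 5) (nat_lit 133) (nat_lit 5) (nat_lit 491) (nat_lit 412) (nat_lit 237))) (XT.nd (nat_lit 78) (nat_lit 380) (nat_lit 0) (XT.lf (nat_lit 0) (nat_lit 6009350633) (nat_lit 380) (nat_lit 4199138220) (nat_lit 456) (nat_lit 9314134774) (nat_lit 127) (nat_lit 5) (nat_lit 132) (nat_lit 5) (nat_lit 133) (nat_lit 5) (nat_lit 492) (nat_lit 412) (nat_lit 236)) (XT.nd (nat_lit 78) (nat_lit 380) (nat_lit 0) (XT.lf (nat_lit 0) (nat_lit 14009478952) (nat_lit 456) (nat_lit 3385252645) (nat_lit 76) (nat_lit 2379121538) (nat_lit 127) (nat_lit 5) (nat_lit 133) (nat_lit 5) (nat_lit 128) (nat_lit 5) (nat_lit 493) (nat_lit 412) (nat_lit 235)) (XT.lf (nat_lit 0) (nat_lit 6997868929) (nat_lit 380) (nat_lit 10953962761) (nat_lit 456) (nat_lit 2076971615) (nat_lit 122) (nat_lit 5) (nat_lit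 127) (nat_lit 5) (nat_lit 128) (nat_lit 5) (nat_lit 494) (nat_lit 412) (nat_lit 234)))))) (XT.nd (nat_lit 52962) (nat_lit 0) (nat_lit 26068) (XT.nd (nat_lit 156) (nat_lit 380) (nat_lit 0) (XT.nd (nat_lit 78) (nat_lit 380) (nat_lit 0) (XT.lf (nat_lit 0) (nat_lit 1677083715) (nat_lit 456) (nat_lit 2676403367) (nat_lit 76) (nat_lit 15934849655) (nat_lit 121) (nat_lit 5) (nat_lit 127) (nat_lit 5) (nat_lit 122) (nat_lit 5) (nat_lit 495) (nat_lit 412) (nat_lit 233)) (XT.lf (nat_lit 0) (nat_lit 5538284430) (nat_lit 456) (nat_lit 12603079827) (nat_lit 76) (nat_lit 2410227267) (nat_lit 116) (nat_lit 5) (nat_lit 122) (nat_lit 5) (nat_lit 117) (nat_lit 5) (nat_lit 496) (nat_lit 412) (nat_lit 232))) (XT.nd (nat_lit 78) (nat_lit 380) (nat_lit 0) (XT.lf (nat_lit 0) (nat_lit 9515955400) (nat_lit 456) (nat_lit 2037792687) (nat_lit 76) (nat_lit 9265581100) (nat_lit 116) (nat_lit 5) (nat_lit 122) (nat_lit 5) (nat_lit 117)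 (nat_lit 5) (nat_lit 497) (nat_lit 412) (nat_lit 231)) (XT.nd (nat_lit 78) (nat_lit 0) (nat_lit 0) (XT.lf (nat_lit 0) (nat_lit 8843713641) (nat_lit 380) (nat_lit 4779371858) (nat_lit 456) (nat_lit 7468340643) (nat_lit 111) (nat_lit 5) (nat_lit 116) (nat_lit 5) (nat_lit 117) (nat_lit 5) (nat_lit 498) (nat_lit 412) (nat_lit 230)) (XT.lf (nat_lit 0) (nat_lit 17832495213) (nat_lit 456) (nat_lit 1423270574) (nat_lit 76) (nat_lit 2112799110) (nat_lit 111) (nat_lit 5) (nat_lit 117) (nat_lit 5) (nat_lit 112) (nat_lit 5) (nat_lit 499) (nat_lit 412) (nat_lit 229))))) (XT.nd (nat_lit 234) (nat_lit 0) (nat_lit 76) (XT.nd (nat_lit 78) (nat_lit 1444) (nat_lit 0) (XT.lf (nat_lit 0) (nat_lit 3942796236) (nat_lit 1444) (nat_lit 166004960) (nat_lit 1444) (nat_lit 166004960) (nat_lit 473) (nat_lit 3) (nat_lit 492) (nat_lit 3) (nat_lit 492) (nat_lit 5) (nat_lit 413) (nat_lit 413) (nat_lit 314)) (XT.nd (nat_lit 78) (nat_lit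 0) (nat_lit 0) (XT.lf (nat_lit 0) (nat_lit 350417096) (nat_lit 1444) (nat_lit 4902528083) (nat_lit 1520) (nat_lit 3361354115) (nat_lit 454) (nat_lit 5) (nat_lit 473) (nat_lit 3) (nat_lit 474) (nat_lit 5) (nat_lit 414) (nat_lit 413) (nat_lit 313)) (XT.lf (nat_lit 0) (nat_lit 1352499839) (nat_lit 1444) (nat_lit 857386459) (nat_lit 1520) (nat_lit 6470798034) (nat_lit 454) (nat_lit 5) (nat_lit 473) (nat_lit 3) (nat_lit 474) (nat_lit 5) (nat_lit 415) (nat_lit 413) (nat_lit 312)))) (XT.nd (nat_lit 78) (nat_lit 0) (nat_lit 0) (XT.lf (nat_lit 0) (nat_lit 2376572545) (nat_lit 1444) (nat_lit 5456000901) (nat_lit 1520) (nat_lit 915801388) (nat_lit 455) (nat_lit 5) (nat_lit 474) (nat_lit 5) (nat_lit 475) (nat_lit 5) (nat_lit 416) (nat_lit 413) (nat_lit 311)) (XT.nd (nat_lit 78) (nat_lit 0) (nat_lit 0) (XT.lf (nat_lit 0) (nat_lit 3416550298) (nat_lit 1444) (nat_lit 1309131030) (nat_lit 1520) (nat_lit 4091845750) (nat_lit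 455) (nat_lit 5) (nat_lit 474) (nat_lit 5) (nat_lit 475) (nat_lit 5) (nat_lit 417) (nat_lit 413) (nat_lit 310)) (XT.lf (nat_lit 76) (nat_lit 2945676494) (nat_lit 0) (nat_lit 1526263620) (nat_lit 1520) (nat_lit 4416246085) (nat_lit 456) (nat_lit 5) (nat_lit 455) (nat_lit 5) (nat_lit 475) (nat_lit 5) (nat_lit 418) (nat_lit 413) (nat_lit 309))))))))
noncomputable def xc183 : XT := (XT.nd (nat_lit 1560) (nat_lit 10868) (nat_lit 0) (XT.nd (nat_lit 780) (nat_lit 2736) (nat_lit 0) (XT.nd (nat_lit 390) (nat_lit 0) (nat_lit 76) (XT.nd (nat_lit 156) (nat_lit 1444) (nat_lit 0) (XT.nd (nat_lit 78) (nat_lit 0) (nat_lit 0) (XT.lf (nat_lit 0) (nat_lit 5544508150) (nat_lit 1444) (nat_lit 1682203847) (nat_lit 1520) (nat_lit 1733640861) (nat_lit 456) (nat_lit 5) (nat_lit 475) (nat_lit 5) (nat_lit 476) (nat_lit 5) (nat_lit 419) (nat_lit 413) (nat_lit 308)) (XT.lf (nat_lit 76) (nat_lit 2674442917) (nat_lit 0) (nat_lit 3967976796)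 (nat_lit 1520) (nat_lit 2391480752) (nat_lit 457) (nat_lit 5) (nat_lit 456) (nat_lit 5) (nat_lit 476) (nat_lit 5) (nat_lit 420) (nat_lit 413) (nat_lit 307))) (XT.nd (nat_lit 78) (nat_lit 1444) (nat_lit 0) (XT.lf (nat_lit 76) (nat_lit 7127283037) (nat_lit 0) (nat_lit 623088270) (nat_lit 1520) (nat_lit 1358801234) (nat_lit 457) (nat_lit 5) (nat_lit 456) (nat_lit 5) (nat_lit 476) (nat_lit 5) (nat_lit 421) (nat_lit 413) (nat_lit 306)) (XT.nd (nat_lit 78) (nat_lit 1520) (nat_lit 0) (XT.lf (nat_lit 76) (nat_lit 2483694956) (nat_lit 0) (nat_lit 6408327454) (nat_lit 1520) (nat_lit 293711696) (nat_lit 458) (nat_lit 5) (nat_lit 457) (nat_lit 5) (nat_lit 477) (nat_lit 5) (nat_lit 422) (nat_lit 413) (nat_lit 305)) (XT.lf (nat_lit 0) (nat_lit 777298422) (nat_lit 1520) (nat_lit 2221689990) (nat_lit 1596) (nat_lit 6264849540) (nat_lit 437) (nat_lit 5) (nat_lit 457) (nat_lit 5) (nat_lit 458) (nat_lit 5) (nat_lit 423) (nat_lit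 413) (nat_lit 304))))) (XT.nd (nat_lit 156) (nat_lit 0) (nat_lit 0) (XT.nd (nat_lit 78) (nat_lit 0) (nat_lit 0) (XT.lf (nat_lit 0) (nat_lit 1862360427) (nat_lit 1520) (nat_lit 6983515529) (nat_lit 1596) (nat_lit 497671798) (nat_lit 438) (nat_lit 5) (nat_lit 458) (nat_lit 5) (nat_lit 459) (nat_lit 5) (nat_lit 424) (nat_lit 413) (nat_lit 303)) (XT.lf (nat_lit 0) (nat_lit 2982327646) (nat_lit 1520) (nat_lit 2395361241) (nat_lit 1596) (nat_lit 4046912513) (nat_lit 438) (nat_lit 5) (nat_lit 458) (nat_lit 5) (nat_lit 459) (nat_lit 5) (nat_lit 425) (nat_lit 413) (nat_lit 302))) (XT.nd (nat_lit 78) (nat_lit 0) (nat_lit 76) (XT.lf (nat_lit 76) (nat_lit 2300658550) (nat_lit 0) (nat_lit 1817733531) (nat_lit 1596) (nat_lit 5389023536) (nat_lit 439) (nat_lit 5) (nat_lit 438) (nat_lit 5) (nat_lit 459) (nat_lit 5) (nat_lit 426) (nat_lit 413) (nat_lit 301)) (XT.nd (nat_lit 78) (nat_lit 0) (nat_lit 0) (XT.lf (nat_lit 0)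 (nat_lit 5284263526) (nat_lit 1520) (nat_lit 2494831586) (nat_lit 1596) (nat_lit 1812662484) (nat_lit 439) (nat_lit 5) (nat_lit 459) (nat_lit 5) (nat_lit 460) (nat_lit 5) (nat_lit 427) (nat_lit 413) (nat_lit 300)) (XT.lf (nat_lit 76) (nat_lit 2315490889) (nat_lit 0) (nat_lit 4164573578) (nat_lit 1596) (nat_lit 3197602640) (nat_lit 440) (nat_lit 5) (nat_lit 439) (nat_lit 5) (nat_lit 460) (nat_lit 5) (nat_lit 428) (nat_lit 413) (nat_lit 299)))))) (XT.nd (nat_lit 390) (nat_lit 1368) (nat_lit 0) (XT.nd (nat_lit 156) (nat_lit 1520) (nat_lit 0) (XT.nd (nat_lit 78) (nat_lit 0) (nat_lit 76) (XT.lf (nat_lit 76) (nat_lit 7241759523) (nat_lit 0) (nat_lit 454613695) (nat_lit 1596) (nat_lit 2069002434) (nat_lit 440) (nat_lit 5) (nat_lit 439) (nat_lit 5) (nat_lit 460) (nat_lit 5) (nat_lit 429) (nat_lit 413) (nat_lit 298)) (XT.lf (nat_lit 76) (nat_lit 2407422810) (nat_lit 0) (nat_lit 6547117436) (nat_lit 1596) (nat_lit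 899959912) (nat_lit 441) (nat_lit 5) (nat_lit 440) (nat_lit 5) (nat_lit 461) (nat_lit 5) (nat_lit 430) (nat_lit 413) (nat_lit 297))) (XT.nd (nat_lit 78) (nat_lit 0) (nat_lit 76) (XT.lf (nat_lit 0) (nat_lit 289123320) (nat_lit 1596) (nat_lit 2493226047) (nat_lit 1672) (nat_lit 7163021846) (nat_lit 419) (nat_lit 5) (nat_lit 440) (nat_lit 5) (nat_lit 441) (nat_lit 5) (nat_lit 431) (nat_lit 413) (nat_lit 296)) (XT.nd (nat_lit 78) (nat_lit 0) (nat_lit 0) (XT.lf (nat_lit 0) (nat_lit 1494528602) (nat_lit 1596) (nat_lit 7471703415) (nat_lit 1672) (nat_lit 1071628595) (nat_lit 420) (nat_lit 5) (nat_lit 441) (nat_lit 5) (nat_lit 442) (nat_lit 5) (nat_lit 432) (nat_lit 413) (nat_lit 295)) (XT.lf (nat_lit 0) (nat_lit 2740447580) (nat_lit 1596) (nat_lit 2404349262) (nat_lit 1672) (nat_lit 4987086329) (nat_lit 420) (nat_lit 5) (nat_lit 441) (nat_lit 5) (nat_lit 442) (nat_lit 5) (nat_lit 433) (nat_lit 413) (nat_lit 294)))))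 (XT.nd (nat_lit 156) (nat_lit 1444) (nat_lit 0) (XT.nd (nat_lit 78) (nat_lit 0) (nat_lit 76) (XT.lf (nat_lit 76) (nat_lit 2786712395) (nat_lit 0) (nat_lit 1224173351) (nat_lit 1672) (nat_lit 6216919680) (nat_lit 421) (nat_lit 5) (nat_lit 420) (nat_lit 5) (nat_lit 442) (nat_lit 5) (nat_lit 434) (nat_lit 413) (nat_lit 293)) (XT.lf (nat_lit 0) (nat_lit 5322795727) (nat_lit 1596) (nat_lit 2243756392) (nat_lit 1672) (nat_lit 2758783783) (nat_lit 421) (nat_lit 5) (nat_lit 442) (nat_lit 5) (nat_lit 443) (nat_lit 5) (nat_lit 435) (nat_lit 413) (nat_lit 292))) (XT.nd (nat_lit 78) (nat_lit 1520) (nat_lit 0) (XT.lf (nat_lit 76) (nat_lit 3075543699) (nat_lit 0) (nat_lit 3595638042) (nat_lit 1672) (nat_lit 3753441313) (nat_lit 422) (nat_lit 5) (nat_lit 421) (nat_lit 5) (nat_lit 443) (nat_lit 5) (nat_lit 436) (nat_lit 413) (nat_lit 291)) (XT.nd (nat_lit 78) (nat_lit 1596) (nat_lit 0) (XT.lf (nat_lit 0) (nat_lit 8047086971)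 (nat_lit 1596) (nat_lit 2011505852) (nat_lit 76) (nat_lit 467302707) (nat_lit 422) (nat_lit 5) (nat_lit 443) (nat_lit 5) (nat_lit 423) (nat_lit 5) (nat_lit 437) (nat_lit 413) (nat_lit 290)) (XT.lf (nat_lit 0) (nat_lit 3439902627) (nat_lit 1596) (nat_lit 6039541054) (nat_lit 1672) (nat_lit 1149181508) (nat_lit 401) (nat_lit 5) (nat_lit 422) (nat_lit 5) (nat_lit 423) (nat_lit 5) (nat_lit 438) (nat_lit 413) (nat_lit 289))))))) (XT.nd (nat_lit 780) (nat_lit 4636) (nat_lit 0) (XT.nd (nat_lit 390) (nat_lit 2736) (nat_lit 0) (XT.nd (nat_lit 156) (nat_lit 1748) (nat_lit 0) (XT.nd (nat_lit 78) (nat_lit 1672) (nat_lit 0) (XT.lf (nat_lit 0) (nat_lit 200820837) (nat_lit 1672) (nat_lit 1721330155) (nat_lit 76) (nat_lit 8811311602) (nat_lit 400) (nat_lit 5) (nat_lit 422) (nat_lit 5) (nat_lit 401) (nat_lit 5) (nat_lit 439) (nat_lit 413) (nat_lit 288)) (XT.lf (nat_lit 0) (nat_lit 1585939828) (nat_lit 1748) (nat_lit 6970440860)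 (nat_lit 76) (nat_lit 2283403855) (nat_lit 378) (nat_lit 5) (nat_lit 401) (nat_lit 5) (nat_lit 379) (nat_lit 5) (nat_lit 440) (nat_lit 413) (nat_lit 287))) (XT.nd (nat_lit 78) (nat_lit 1748) (nat_lit 0) (XT.lf (nat_lit 0) (nat_lit 3006617845) (nat_lit 1748) (nat_lit 1379988723) (nat_lit 76) (nat_lit 6561478840) (nat_lit 378) (nat_lit 5) (nat_lit 401) (nat_lit 5) (nat_lit 379) (nat_lit 5) (nat_lit 441) (nat_lit 413) (nat_lit 286)) (XT.nd (nat_lit 78) (nat_lit 0) (nat_lit 0) (XT.lf (nat_lit 0) (nat_lit 4365462635) (nat_lit 1748) (nat_lit 102413443) (nat_lit 1824) (nat_lit 6590442302) (nat_lit 355) (nat_lit 5) (nat_lit 378) (nat_lit 5) (nat_lit 379) (nat_lit 5) (nat_lit 442) (nat_lit 413) (nat_lit 285)) (XT.lf (nat_lit 0) (nat_lit 5979450969) (nat_lit 1824) (nat_lit 968122420) (nat_lit 76) (nat_lit 4222770028) (nat_lit 355) (nat_lit 5) (nat_lit 379) (nat_lit 5) (nat_lit 356) (nat_lit 5) (nat_lit 443) (nat_lit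 413) (nat_lit 284))))) (XT.nd (nat_lit 156) (nat_lit 1824) (nat_lit 0) (XT.nd (nat_lit 78) (nat_lit 0) (nat_lit 0) (XT.lf (nat_lit 0) (nat_lit 4920934693) (nat_lit 912) (nat_lit 2617325880) (nat_lit 988) (nat_lit 3746017374) (nat_lit 343) (nat_lit 5) (nat_lit 355) (nat_lit 5) (nat_lit 356) (nat_lit 5) (nat_lit 444) (nat_lit 413) (nat_lit 283)) (XT.lf (nat_lit 0) (nat_lit 9131070147) (nat_lit 988) (nat_lit 485457752) (nat_lit 76) (nat_lit 1783915669) (nat_lit 343) (nat_lit 5) (nat_lit 356) (nat_lit 5) (nat_lit 344) (nat_lit 5) (nat_lit 445) (nat_lit 413) (nat_lit 282))) (XT.nd (nat_lit 78) (nat_lit 912) (nat_lit 0) (XT.lf (nat_lit 0) (nat_lit 5551474608) (nat_lit 912) (nat_lit 5242540819) (nat_lit 988) (nat_lit 724160190) (nat_lit 331) (nat_lit 5) (nat_lit 343) (nat_lit 5) (nat_lit 344) (nat_lit 5) (nat_lit 446) (nat_lit 413) (nat_lit 281)) (XT.nd (nat_lit 78) (nat_lit 0) (nat_lit 0) (XT.lf (nat_lit 0) (nat_lit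 58643208) (nat_lit 836) (nat_lit 770801679) (nat_lit 912) (nat_lit 10808941932) (nat_lit 319) (nat_lit 5) (nat_lit 330) (nat_lit 5) (nat_lit 331) (nat_lit 5) (nat_lit 447) (nat_lit 413) (nat_lit 280)) (XT.lf (nat_lit 0) (nat_lit 2454558507) (nat_lit 912) (nat_lit 5518815758) (nat_lit 76) (nat_lit 3786537791) (nat_lit 319) (nat_lit 5) (nat_lit 331) (nat_lit 5) (nat_lit 320) (nat_lit 5) (nat_lit 448) (nat_lit 413) (nat_lit 279)))))) (XT.nd (nat_lit 390) (nat_lit 2280) (nat_lit 0) (XT.nd (nat_lit 156) (nat_lit 1520) (nat_lit 0) (XT.nd (nat_lit 78) (nat_lit 0) (nat_lit 0) (XT.lf (nat_lit 0) (nat_lit 652749401) (nat_lit 836) (nat_lit 3454267137) (nat_lit 912) (nat_lit 7776962455) (nat_lit 308) (nat_lit 5) (nat_lit 319) (nat_lit 5) (nat_lit 320) (nat_lit 5) (nat_lit 449) (nat_lit 413) (nat_lit 278)) (XT.lf (nat_lit 0) (nat_lit 5822999163) (nat_lit 912) (nat_lit 5009218997) (nat_lit 76) (nat_lit 1177707486) (nat_lit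 308) (nat_lit 5) (nat_lit 320) (nat_lit 5) (nat_lit 309) (nat_lit 5) (nat_lit 450) (nat_lit 413) (nat_lit 277))) (XT.nd (nat_lit 78) (nat_lit 760) (nat_lit 0) (XT.lf (nat_lit 0) (nat_lit 1317675114) (nat_lit 760) (nat_lit 6273033510) (nat_lit 836) (nat_lit 4547342192) (nat_lit 298) (nat_lit 5) (nat_lit 308) (nat_lit 5) (nat_lit 309) (nat_lit 5) (nat_lit 451) (nat_lit 413) (nat_lit 276)) (XT.nd (nat_lit 78) (nat_lit 760) (nat_lit 0) (XT.lf (nat_lit 0) (nat_lit 7825137949) (nat_lit 760) (nat_lit 1588409770) (nat_lit 836) (nat_lit 2854802840) (nat_lit 298) (nat_lit 5) (nat_lit 308) (nat_lit 5) (nat_lit 309) (nat_lit 5) (nat_lit 452) (nat_lit 413) (nat_lit 275)) (XT.lf (nat_lit 0) (nat_lit 2053842209) (nat_lit 760) (nat_lit 9239479383) (nat_lit 836) (nat_lit 1107532573) (nat_lit 288) (nat_lit 5) (nat_lit 298) (nat_lit 5) (nat_lit 299) (nat_lit 5) (nat_lit 453) (nat_lit 413) (nat_lit 274))))) (XT.nd (nat_lit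 234) (nat_lit 1444) (nat_lit 0) (XT.nd (nat_lit 78) (nat_lit 760) (nat_lit 0) (XT.lf (nat_lit 0) (nat_lit 692880293) (nat_lit 836) (nat_lit 3823413833) (nat_lit 76) (nat_lit 8019092332) (nat_lit 287) (nat_lit 5) (nat_lit 298) (nat_lit 5) (nat_lit 288) (nat_lit 5) (nat_lit 454) (nat_lit 413) (nat_lit 273)) (XT.nd (nat_lit 78) (nat_lit 0) (nat_lit 0) (XT.lf (nat_lit 0) (nat_lit 2521871495) (nat_lit 836) (nat_lit 9827527126) (nat_lit 76) (nat_lit 322923361) (nat_lit 277) (nat_lit 5) (nat_lit 288) (nat_lit 5) (nat_lit 278) (nat_lit 5) (nat_lit 455) (nat_lit 413) (nat_lit 272)) (XT.lf (nat_lit 0) (nat_lit 4430123310) (nat_lit 836) (nat_lit 3157239465) (nat_lit 76) (nat_lit 5223786688) (nat_lit 277) (nat_lit 5) (nat_lit 288) (nat_lit 5) (nat_lit 278) (nat_lit 5) (nat_lit 456) (nat_lit 413) (nat_lit 271)))) (XT.nd (nat_lit 78) (nat_lit 684) (nat_lit 0) (XT.lf (nat_lit 0) (nat_lit 3681132324) (nat_lit 760) (nat_lit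 2706508703) (nat_lit 836) (nat_lit 6564897179) (nat_lit 267) (nat_lit 5) (nat_lit 277) (nat_lit 5) (nat_lit 278) (nat_lit 5) (nat_lit 457) (nat_lit 413) (nat_lit 270)) (XT.nd (nat_lit 78) (nat_lit 684) (nat_lit 0) (XT.lf (nat_lit 0) (nat_lit 8407745317) (nat_lit 836) (nat_lit 2425918129) (nat_lit 76) (nat_lit 2262629149) (nat_lit 267) (nat_lit 5) (nat_lit 278) (nat_lit 5) (nat_lit 268) (nat_lit 5) (nat_lit 458) (nat_lit 413) (nat_lit 269)) (XT.lf (nat_lit 0) (nat_lit 4585196546) (nat_lit 684) (nat_lit 5918355146) (nat_lit 760) (nat_lit 2738670848) (nat_lit 258) (nat_lit 5) (nat_lit 267) (nat_lit 5) (nat_lit 268) (nat_lit 5) (nat_lit 459) (nat_lit 413) (nat_lit 268))))))))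
noncomputable def xc184 : XT := (XT.nd (nat_lit 1560) (nat_lit 4940) (nat_lit 0) (XT.nd (nat_lit 780) (nat_lit 2888) (nat_lit 0) (XT.nd (nat_lit 390) (nat_lit 1292) (nat_lit 0) (XT.nd (nat_lit 156) (nat_lit 1292) (nat_lit 0) (XT.nd (nat_lit 78) (nat_lit 760) (nat_lit 0) (XT.lf (nat_lit 0) (nat_lit 11756011642) (nat_lit 684) (nat_lit 889303684) (nat_lit 760) (nat_lit 745681275) (nat_lit 258) (nat_lit 5) (nat_lit 267) (nat_lit 5) (nat_lit 268) (nat_lit 5) (nat_lit 460) (nat_lit 413) (nat_lit 267)) (XT.lf (nat_lit 0) (nat_lit 1322243826) (nat_lit 760) (nat_lit 7990920935) (nat_lit 76) (nat_lit 4228381190) (nat_lit 248) (nat_lit 5) (nat_lit 258) (nat_lit 5) (nat_lit 249) (nat_lit 5) (nat_lit 461) (nat_lit 413) (nat_lit 266))) (XT.nd (nat_lit 78) (nat_lit 1292) (nat_lit 0) (XT.lf (nat_lit 0) (nat_lit 3426544818) (nat_lit 760) (nat_lit 817135730) (nat_lit 76) (nat_lit 9451233094) (nat_lit 248) (nat_lit 5) (nat_lit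 258) (nat_lit 5) (nat_lit 249) (nat_lit 5) (nat_lit 462) (nat_lit 413) (nat_lit 265)) (XT.nd (nat_lit 78) (nat_lit 684) (nat_lit 0) (XT.lf (nat_lit 0) (nat_lit 5610195100) (nat_lit 684) (nat_lit 7283889444) (nat_lit 76) (nat_lit 956524735) (nat_lit 240) (nat_lit 5) (nat_lit 249) (nat_lit 5) (nat_lit 241) (nat_lit 5) (nat_lit 463) (nat_lit 413) (nat_lit 264)) (XT.lf (nat_lit 0) (nat_lit 59323110) (nat_lit 684) (nat_lit 7800631588) (nat_lit 760) (nat_lit 6149021148) (nat_lit 231) (nat_lit 5) (nat_lit 240) (nat_lit 5) (nat_lit 241) (nat_lit 5) (nat_lit 464) (nat_lit 413) (nat_lit 263))))) (XT.nd (nat_lit 156) (nat_lit 684) (nat_lit 0) (XT.nd (nat_lit 78) (nat_lit 608) (nat_lit 0) (XT.lf (nat_lit 0) (nat_lit 7634888077) (nat_lit 684) (nat_lit 2557268622) (nat_lit 760) (nat_lit 3977609731) (nat_lit 231) (nat_lit 5) (nat_lit 240) (nat_lit 5) (nat_lit 241) (nat_lit 5) (nat_lit 465) (nat_lit 413) (nat_lit 262))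 (XT.lf (nat_lit 0) (nat_lit 1010113314) (nat_lit 608) (nat_lit 11574349597) (nat_lit 684) (nat_lit 1749046230) (nat_lit 223) (nat_lit 5) (nat_lit 231) (nat_lit 5) (nat_lit 232) (nat_lit 5) (nat_lit 466) (nat_lit 413) (nat_lit 261))) (XT.nd (nat_lit 78) (nat_lit 608) (nat_lit 0) (XT.lf (nat_lit 0) (nat_lit 567130597) (nat_lit 684) (nat_lit 5738963569) (nat_lit 76) (nat_lit 8193371480) (nat_lit 222) (nat_lit 5) (nat_lit 231) (nat_lit 5) (nat_lit 223) (nat_lit 5) (nat_lit 467) (nat_lit 413) (nat_lit 260)) (XT.nd (nat_lit 78) (nat_lit 0) (nat_lit 0) (XT.lf (nat_lit 0) (nat_lit 1998776775) (nat_lit 608) (nat_lit 909489745) (nat_lit 684) (nat_lit 11760207632) (nat_lit 214) (nat_lit 5) (nat_lit 222) (nat_lit 5) (nat_lit 223) (nat_lit 5) (nat_lit 468) (nat_lit 413) (nat_lit 259)) (XT.lf (nat_lit 0) (nat_lit 5353998718) (nat_lit 684) (nat_lit 4914250478) (nat_lit 76) (nat_lit 4571463260) (nat_lit 214) (nat_lit 5)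 (nat_lit 223) (nat_lit 5) (nat_lit 215) (nat_lit 5) (nat_lit 469) (nat_lit 413) (nat_lit 258)))))) (XT.nd (nat_lit 390) (nat_lit 1140) (nat_lit 0) (XT.nd (nat_lit 156) (nat_lit 1216) (nat_lit 0) (XT.nd (nat_lit 78) (nat_lit 0) (nat_lit 0) (XT.lf (nat_lit 0) (nat_lit 3016974099) (nat_lit 532) (nat_lit 4846668021) (nat_lit 608) (nat_lit 7150438476) (nat_lit 207) (nat_lit 5) (nat_lit 214) (nat_lit 5) (nat_lit 215) (nat_lit 5) (nat_lit 470) (nat_lit 413) (nat_lit 257)) (XT.lf (nat_lit 0) (nat_lit 10450606103) (nat_lit 608) (nat_lit 4035485889) (nat_lit 76) (nat_lit 705306452) (nat_lit 207) (nat_lit 5) (nat_lit 215) (nat_lit 5) (nat_lit 208) (nat_lit 5) (nat_lit 471) (nat_lit 413) (nat_lit 256))) (XT.nd (nat_lit 78) (nat_lit 608) (nat_lit 0) (XT.lf (nat_lit 0) (nat_lit 4094229942) (nat_lit 608) (nat_lit 9043460377) (nat_lit 684) (nat_lit 2233609517) (nat_lit 199) (nat_lit 5) (nat_lit 207) (nat_lit 5) (nat_lit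 208) (nat_lit 5) (nat_lit 472) (nat_lit 413) (nat_lit 255)) (XT.nd (nat_lit 78) (nat_lit 532) (nat_lit 0) (XT.lf (nat_lit 0) (nat_lit 336480015) (nat_lit 684) (nat_lit 3128090277) (nat_lit 76) (nat_lit 12089851374) (nat_lit 198) (nat_lit 5) (nat_lit 207) (nat_lit 5) (nat_lit 199) (nat_lit 5) (nat_lit 473) (nat_lit 413) (nat_lit 254)) (XT.lf (nat_lit 0) (nat_lit 2966724358) (nat_lit 608) (nat_lit 10530133939) (nat_lit 76) (nat_lit 2243283658) (nat_lit 191) (nat_lit 5) (nat_lit 199) (nat_lit 5) (nat_lit 192) (nat_lit 5) (nat_lit 474) (nat_lit 413) (nat_lit 253))))) (XT.nd (nat_lit 156) (nat_lit 608) (nat_lit 0) (XT.nd (nat_lit 78) (nat_lit 532) (nat_lit 0) (XT.lf (nat_lit 0) (nat_lit 5683697743) (nat_lit 608) (nat_lit 2207616654) (nat_lit 76) (nat_lit 8037584210) (nat_lit 191) (nat_lit 5) (nat_lit 199) (nat_lit 5) (nat_lit 192) (nat_lit 5) (nat_lit 475) (nat_lit 413) (nat_lit 252)) (XT.lf (nat_lit 0) (nat_lit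 6352263028) (nat_lit 532) (nat_lit 2134235609) (nat_lit 608) (nat_lit 7634306346) (nat_lit 184) (nat_lit 5) (nat_lit 191) (nat_lit 5) (nat_lit 192) (nat_lit 5) (nat_lit 476) (nat_lit 413) (nat_lit 251))) (XT.nd (nat_lit 78) (nat_lit 608) (nat_lit 0) (XT.lf (nat_lit 0) (nat_lit 11374876284) (nat_lit 608) (nat_lit 1239852887) (nat_lit 76) (nat_lit 3701234168) (nat_lit 184) (nat_lit 5) (nat_lit 192) (nat_lit 5) (nat_lit 185) (nat_lit 5) (nat_lit 477) (nat_lit 413) (nat_lit 250)) (XT.nd (nat_lit 78) (nat_lit 76) (nat_lit 0) (XT.lf (nat_lit 0) (nat_lit 7531804737) (nat_lit 532) (nat_lit 6842780541) (nat_lit 608) (nat_lit 2139372491) (nat_lit 177) (nat_lit 5) (nat_lit 184) (nat_lit 5) (nat_lit 185) (nat_lit 5) (nat_lit 478) (nat_lit 413) (nat_lit 249)) (XT.lf (nat_lit 0) (nat_lit 707898834) (nat_lit 608) (nat_lit 237063850) (nat_lit 76) (nat_lit 15770881260) (nat_lit 176) (nat_lit 5) (nat_lit 184) (nat_lit 5)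 (nat_lit 177) (nat_lit 5) (nat_lit 479) (nat_lit 413) (nat_lit 248))))))) (XT.nd (nat_lit 780) (nat_lit 2128) (nat_lit 0) (XT.nd (nat_lit 390) (nat_lit 1368) (nat_lit 0) (XT.nd (nat_lit 156) (nat_lit 456) (nat_lit 0) (XT.nd (nat_lit 78) (nat_lit 456) (nat_lit 0) (XT.lf (nat_lit 0) (nat_lit 3664577796) (nat_lit 608) (nat_lit 8182167781) (nat_lit 76) (nat_lit 5073121214) (nat_lit 169) (nat_lit 5) (nat_lit 177) (nat_lit 5) (nat_lit 170) (nat_lit 5) (nat_lit 480) (nat_lit 413) (nat_lit 247)) (XT.lf (nat_lit 0) (nat_lit 758766413) (nat_lit 456) (nat_lit 5925248678) (nat_lit 532) (nat_lit 10443886372) (nat_lit 163) (nat_lit 5) (nat_lit 169) (nat_lit 5) (nat_lit 170) (nat_lit 5) (nat_lit 481) (nat_lit 413) (nat_lit 246))) (XT.nd (nat_lit 78) (nat_lit 456) (nat_lit 0) (XT.lf (nat_lit 0) (nat_lit 9810776654) (nat_lit 532) (nat_lit 7362910370) (nat_lit 76) (nat_lit 165474883) (nat_lit 163) (nat_lit 5) (nat_lit 170)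 (nat_lit 5) (nat_lit 164) (nat_lit 5) (nat_lit 482) (nat_lit 413) (nat_lit 245)) (XT.nd (nat_lit 78) (nat_lit 0) (nat_lit 0) (XT.lf (nat_lit 0) (nat_lit 1795756082) (nat_lit 456) (nat_lit 11246315373) (nat_lit 532) (nat_lit 4511739860) (nat_lit 157) (nat_lit 5) (nat_lit 163) (nat_lit 5) (nat_lit 164) (nat_lit 5) (nat_lit 483) (nat_lit 413) (nat_lit 244)) (XT.lf (nat_lit 0) (nat_lit 11225486634) (nat_lit 456) (nat_lit 5153110405) (nat_lit 532) (nat_lit 1393348217) (nat_lit 157) (nat_lit 5) (nat_lit 163) (nat_lit 5) (nat_lit 164) (nat_lit 5) (nat_lit 484) (nat_lit 413) (nat_lit 243))))) (XT.nd (nat_lit 156) (nat_lit 836) (nat_lit 0) (XT.nd (nat_lit 78) (nat_lit 0) (nat_lit 0) (XT.lf (nat_lit 0) (nat_lit 1780943469) (nat_lit 532) (nat_lit 15137570377) (nat_lit 76) (nat_lit 1075359939) (nat_lit 150) (nat_lit 5) (nat_lit 157) (nat_lit 5) (nat_lit 151) (nat_lit 5) (nat_lit 485) (nat_lit 413) (nat_lit 242)) (XT.lf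 (nat_lit 0) (nat_lit 5069811021) (nat_lit 532) (nat_lit 5739025848) (nat_lit 76) (nat_lit 7409828307) (nat_lit 150) (nat_lit 5) (nat_lit 157) (nat_lit 5) (nat_lit 151) (nat_lit 5) (nat_lit 486) (nat_lit 413) (nat_lit 241))) (XT.nd (nat_lit 78) (nat_lit 380) (nat_lit 0) (XT.lf (nat_lit 0) (nat_lit 3886820570) (nat_lit 456) (nat_lit 4554422009) (nat_lit 532) (nat_lit 10006377447) (nat_lit 144) (nat_lit 5) (nat_lit 150) (nat_lit 5) (nat_lit 151) (nat_lit 5) (nat_lit 487) (nat_lit 413) (nat_lit 240)) (XT.nd (nat_lit 78) (nat_lit 380) (nat_lit 0) (XT.lf (nat_lit 0) (nat_lit 11922339890) (nat_lit 532) (nat_lit 4921228861) (nat_lit 76) (nat_lit 1836743780) (nat_lit 144) (nat_lit 5) (nat_lit 151) (nat_lit 5) (nat_lit 145) (nat_lit 5) (nat_lit 488) (nat_lit 413) (nat_lit 239)) (XT.lf (nat_lit 0) (nat_lit 4934195681) (nat_lit 380) (nat_lit 10592846126) (nat_lit 456) (nat_lit 3389540657) (nat_lit 139) (nat_lit 5) (nat_lit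 144) (nat_lit 5) (nat_lit 145) (nat_lit 5) (nat_lit 489) (nat_lit 413) (nat_lit 238)))))) (XT.nd (nat_lit 390) (nat_lit 1216) (nat_lit 0) (XT.nd (nat_lit 156) (nat_lit 380) (nat_lit 0) (XT.nd (nat_lit 78) (nat_lit 456) (nat_lit 0) (XT.lf (nat_lit 0) (nat_lit 70710875) (nat_lit 456) (nat_lit 4115523996) (nat_lit 76) (nat_lit 14970838876) (nat_lit 138) (nat_lit 5) (nat_lit 144) (nat_lit 5) (nat_lit 139) (nat_lit 5) (nat_lit 490) (nat_lit 413) (nat_lit 237)) (XT.lf (nat_lit 0) (nat_lit 3601346481) (nat_lit 532) (nat_lit 13423408206) (nat_lit 76) (nat_lit 2376243818) (nat_lit 132) (nat_lit 5) (nat_lit 139) (nat_lit 5) (nat_lit 133) (nat_lit 5) (nat_lit 491) (nat_lit 413) (nat_lit 236))) (XT.nd (nat_lit 78) (nat_lit 380) (nat_lit 0) (XT.lf (nat_lit 0) (nat_lit 7250156953) (nat_lit 532) (nat_lit 3360166871) (nat_lit 76) (nat_lit 9038529678) (nat_lit 132) (nat_lit 5) (nat_lit 139) (nat_lit 5) (nat_lit 133) (nat_lit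 5) (nat_lit 492) (nat_lit 413) (nat_lit 235)) (XT.nd (nat_lit 78) (nat_lit 0) (nat_lit 0) (XT.lf (nat_lit 0) (nat_lit 6984804048) (nat_lit 380) (nat_lit 4024684189) (nat_lit 456) (nat_lit 8891429398) (nat_lit 127) (nat_lit 5) (nat_lit 132) (nat_lit 5) (nat_lit 133) (nat_lit 5) (nat_lit 493) (nat_lit 413) (nat_lit 234)) (XT.lf (nat_lit 0) (nat_lit 14876440639) (nat_lit 456) (nat_lit 2604186205) (nat_lit 76) (nat_lit 2676750390) (nat_lit 127) (nat_lit 5) (nat_lit 133) (nat_lit 5) (nat_lit 128) (nat_lit 5) (nat_lit 494) (nat_lit 413) (nat_lit 233))))) (XT.nd (nat_lit 234) (nat_lit 380) (nat_lit 0) (XT.nd (nat_lit 78) (nat_lit 456) (nat_lit 0) (XT.lf (nat_lit 0) (nat_lit 7981013778) (nat_lit 380) (nat_lit 10910595851) (nat_lit 456) (nat_lit 1525941661) (nat_lit 122) (nat_lit 5) (nat_lit 127) (nat_lit 5) (nat_lit 128) (nat_lit 5) (nat_lit 495) (nat_lit 413) (nat_lit 232)) (XT.nd (nat_lit 78) (nat_lit 380) (nat_lit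 0) (XT.lf (nat_lit 0) (nat_lit 2283956500) (nat_lit 456) (nat_lit 1895452808) (nat_lit 76) (nat_lit 16503022567) (nat_lit 121) (nat_lit 5) (nat_lit 127) (nat_lit 5) (nat_lit 122) (nat_lit 5) (nat_lit 496) (nat_lit 413) (nat_lit 231)) (XT.lf (nat_lit 0) (nat_lit 6218219728) (nat_lit 456) (nat_lit 12016300340) (nat_lit 76) (nat_lit 2716518937) (nat_lit 116) (nat_lit 5) (nat_lit 122) (nat_lit 5) (nat_lit 117) (nat_lit 5) (nat_lit 497) (nat_lit 413) (nat_lit 230)))) (XT.nd (nat_lit 78) (nat_lit 380) (nat_lit 0) (XT.lf (nat_lit 0) (nat_lit 10264283929) (nat_lit 456) (nat_lit 1256155322) (nat_lit 76) (nat_lit 9703919315) (nat_lit 116) (nat_lit 5) (nat_lit 122) (nat_lit 5) (nat_lit 117) (nat_lit 5) (nat_lit 498) (nat_lit 413) (nat_lit 229)) (XT.nd (nat_lit 52728) (nat_lit 0) (nat_lit 26068) (XT.lf (nat_lit 0) (nat_lit 9837570651) (nat_lit 380) (nat_lit 4610349012) (nat_lit 456) (nat_lit 7054094400) (nat_lit 111)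 (nat_lit 5) (nat_lit 116) (nat_lit 5) (nat_lit 117) (nat_lit 5) (nat_lit 499) (nat_lit 413) (nat_lit 228)) (XT.lf (nat_lit 0) (nat_lit 325835643) (nat_lit 0) (nat_lit 325835643) (nat_lit 1444) (nat_lit 3688310990) (nat_lit 454) (nat_lit 5) (nat_lit 454) (nat_lit 3) (nat_lit 473) (nat_lit 3) (nat_lit 414) (nat_lit 414) (nat_lit 312))))))))
noncomputable def xc185 : XT := (XT.nd (nat_lit 1560) (nat_lit 10032) (nat_lit 0) (XT.nd (nat_lit 780) (nat_lit 1292) (nat_lit 0) (XT.nd (nat_lit 390) (nat_lit 1368) (nat_lit 0) (XT.nd (nat_lit 156) (nat_lit 0) (nat_lit 76) (XT.nd (nat_lit 78) (nat_lit 0) (nat_lit 0) (XT.lf (nat_lit 0) (nat_lit 2288573997) (nat_lit 1444) (nat_lit 3985553843) (nat_lit 1520) (nat_lit 2472567059) (nat_lit 454) (nat_lit 5) (nat_lit 473) (nat_lit 3) (nat_lit 474) (nat_lit 5) (nat_lit 415) (nat_lit 414) (nat_lit 311)) (XT.lf (nat_lit 76) (nat_lit 122190719) (nat_lit 0) (nat_lit 3151435361) (nat_lit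 1520) (nat_lit 5541547855) (nat_lit 455) (nat_lit 5) (nat_lit 454) (nat_lit 5) (nat_lit 474) (nat_lit 5) (nat_lit 416) (nat_lit 414) (nat_lit 310))) (XT.nd (nat_lit 78) (nat_lit 0) (nat_lit 0) (XT.lf (nat_lit 0) (nat_lit 4281007587) (nat_lit 1444) (nat_lit 4532401058) (nat_lit 1520) (nat_lit 71577420) (nat_lit 455) (nat_lit 5) (nat_lit 474) (nat_lit 5) (nat_lit 475) (nat_lit 5) (nat_lit 417) (nat_lit 414) (nat_lit 309)) (XT.nd (nat_lit 78) (nat_lit 0) (nat_lit 0) (XT.lf (nat_lit 0) (nat_lit 5305375020) (nat_lit 1444) (nat_lit 322843199) (nat_lit 1520) (nat_lit 3328055218) (nat_lit 455) (nat_lit 5) (nat_lit 474) (nat_lit 5) (nat_lit 475) (nat_lit 5) (nat_lit 418) (nat_lit 414) (nat_lit 308)) (XT.lf (nat_lit 76) (nat_lit 4010399485) (nat_lit 0) (nat_lit 2342307574) (nat_lit 1520) (nat_lit 2676245410) (nat_lit 456) (nat_lit 5) (nat_lit 455) (nat_lit 5) (nat_lit 475) (nat_lit 5) (nat_lit 419) (nat_lit 414) (nat_lit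 307))))) (XT.nd (nat_lit 156) (nat_lit 1520) (nat_lit 0) (XT.nd (nat_lit 78) (nat_lit 0) (nat_lit 0) (XT.lf (nat_lit 0) (nat_lit 7406602269) (nat_lit 1444) (nat_lit 688488098) (nat_lit 1520) (nat_lit 1008297538) (nat_lit 456) (nat_lit 5) (nat_lit 475) (nat_lit 5) (nat_lit 476) (nat_lit 5) (nat_lit 420) (nat_lit 414) (nat_lit 306)) (XT.lf (nat_lit 76) (nat_lit 3748532655) (nat_lit 0) (nat_lit 4750228493) (nat_lit 1520) (nat_lit 680222042) (nat_lit 457) (nat_lit 5) (nat_lit 456) (nat_lit 5) (nat_lit 476) (nat_lit 5) (nat_lit 421) (nat_lit 414) (nat_lit 305))) (XT.nd (nat_lit 78) (nat_lit 0) (nat_lit 76) (XT.lf (nat_lit 0) (nat_lit 334178087) (nat_lit 1520) (nat_lit 988239399) (nat_lit 1596) (nat_lit 7933997198) (nat_lit 436) (nat_lit 5) (nat_lit 456) (nat_lit 5) (nat_lit 457) (nat_lit 5) (nat_lit 422) (nat_lit 414) (nat_lit 304)) (XT.nd (nat_lit 78) (nat_lit 0) (nat_lit 0) (XT.lf (nat_lit 0) (nat_lit 1375285715)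 (nat_lit 1520) (nat_lit 5777749616) (nat_lit 1596) (nat_lit 2181972998) (nat_lit 437) (nat_lit 5) (nat_lit 457) (nat_lit 5) (nat_lit 458) (nat_lit 5) (nat_lit 423) (nat_lit 414) (nat_lit 303)) (XT.lf (nat_lit 0) (nat_lit 2431023333) (nat_lit 1520) (nat_lit 1230452018) (nat_lit 1596) (nat_lit 5753836063) (nat_lit 437) (nat_lit 5) (nat_lit 457) (nat_lit 5) (nat_lit 458) (nat_lit 5) (nat_lit 424) (nat_lit 414) (nat_lit 302)))))) (XT.nd (nat_lit 390) (nat_lit 1368) (nat_lit 0) (XT.nd (nat_lit 156) (nat_lit 0) (nat_lit 76) (XT.nd (nat_lit 78) (nat_lit 0) (nat_lit 76) (XT.lf (nat_lit 76) (nat_lit 3439497444) (nat_lit 0) (nat_lit 69508368) (nat_lit 1596) (nat_lit 5988205604) (nat_lit 438) (nat_lit 5) (nat_lit 437) (nat_lit 5) (nat_lit 458) (nat_lit 5) (nat_lit 425) (nat_lit 414) (nat_lit 301)) (XT.lf (nat_lit 0) (nat_lit 4619373103) (nat_lit 1520) (nat_lit 1398245758) (nat_lit 1596) (nat_lit 3562927245) (nat_lit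 438) (nat_lit 5) (nat_lit 458) (nat_lit 5) (nat_lit 459) (nat_lit 5) (nat_lit 426) (nat_lit 414) (nat_lit 300))) (XT.nd (nat_lit 78) (nat_lit 0) (nat_lit 76) (XT.lf (nat_lit 76) (nat_lit 3384819280) (nat_lit 0) (nat_lit 2369150500) (nat_lit 1596) (nat_lit 3911550204) (nat_lit 439) (nat_lit 5) (nat_lit 438) (nat_lit 5) (nat_lit 459) (nat_lit 5) (nat_lit 427) (nat_lit 414) (nat_lit 299)) (XT.nd (nat_lit 78) (nat_lit 0) (nat_lit 0) (XT.lf (nat_lit 0) (nat_lit 6909425003) (nat_lit 1520) (nat_lit 1492242305) (nat_lit 1596) (nat_lit 1350575377) (nat_lit 439) (nat_lit 5) (nat_lit 459) (nat_lit 5) (nat_lit 460) (nat_lit 5) (nat_lit 428) (nat_lit 414) (nat_lit 298)) (XT.lf (nat_lit 76) (nat_lit 3407362369) (nat_lit 0) (nat_lit 4698774422) (nat_lit 1596) (nat_lit 1734212533) (nat_lit 440) (nat_lit 5) (nat_lit 439) (nat_lit 5) (nat_lit 460) (nat_lit 5) (nat_lit 429) (nat_lit 414) (nat_lit 297))))) (XT.nd (nat_lit 156)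 (nat_lit 0) (nat_lit 0) (XT.nd (nat_lit 78) (nat_lit 1520) (nat_lit 0) (XT.lf (nat_lit 76) (nat_lit 8411655167) (nat_lit 0) (nat_lit 905773981) (nat_lit 1596) (nat_lit 612988209) (nat_lit 440) (nat_lit 5) (nat_lit 439) (nat_lit 5) (nat_lit 460) (nat_lit 5) (nat_lit 430) (nat_lit 414) (nat_lit 296)) (XT.lf (nat_lit 0) (nat_lit 546898123) (nat_lit 1596) (nat_lit 6518629678) (nat_lit 1672) (nat_lit 2956237810) (nat_lit 419) (nat_lit 5) (nat_lit 440) (nat_lit 5) (nat_lit 441) (nat_lit 5) (nat_lit 431) (nat_lit 414) (nat_lit 295))) (XT.nd (nat_lit 78) (nat_lit 0) (nat_lit 76) (XT.lf (nat_lit 0) (nat_lit 1719237193) (nat_lit 1596) (nat_lit 1492669766) (nat_lit 1672) (nat_lit 6903015060) (nat_lit 419) (nat_lit 5) (nat_lit 440) (nat_lit 5) (nat_lit 441) (nat_lit 5) (nat_lit 432) (nat_lit 414) (nat_lit 294)) (XT.nd (nat_lit 78) (nat_lit 0) (nat_lit 0) (XT.lf (nat_lit 0) (nat_lit 2925262469) (nat_lit 1596) (nat_lit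 6546375639) (nat_lit 1672) (nat_lit 738109920) (nat_lit 420) (nat_lit 5) (nat_lit 441) (nat_lit 5) (nat_lit 442) (nat_lit 5) (nat_lit 433) (nat_lit 414) (nat_lit 293)) (XT.lf (nat_lit 0) (nat_lit 4168632311) (nat_lit 1596) (nat_lit 1398748166) (nat_lit 1672) (nat_lit 4738836637) (nat_lit 420) (nat_lit 5) (nat_lit 441) (nat_lit 5) (nat_lit 442) (nat_lit 5) (nat_lit 434) (nat_lit 414) (nat_lit 292))))))) (XT.nd (nat_lit 780) (nat_lit 4256) (nat_lit 0) (XT.nd (nat_lit 390) (nat_lit 4332) (nat_lit 0) (XT.nd (nat_lit 156) (nat_lit 1520) (nat_lit 0) (XT.nd (nat_lit 78) (nat_lit 0) (nat_lit 76) (XT.lf (nat_lit 76) (nat_lit 3889202566) (nat_lit 0) (nat_lit 1555143971) (nat_lit 1672) (nat_lit 4960130326) (nat_lit 421) (nat_lit 5) (nat_lit 420) (nat_lit 5) (nat_lit 442) (nat_lit 5) (nat_lit 435) (nat_lit 414) (nat_lit 291)) (XT.lf (nat_lit 0) (nat_lit 6754009640) (nat_lit 1596) (nat_lit 1233111410) (nat_lit 1672)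 (nat_lit 2517422677) (nat_lit 421) (nat_lit 5) (nat_lit 442) (nat_lit 5) (nat_lit 443) (nat_lit 5) (nat_lit 436) (nat_lit 414) (nat_lit 290))) (XT.nd (nat_lit 78) (nat_lit 1596) (nat_lit 0) (XT.lf (nat_lit 76) (nat_lit 4185630473) (nat_lit 0) (nat_lit 3924565305) (nat_lit 1672) (nat_lit 2496019955) (nat_lit 422) (nat_lit 5) (nat_lit 421) (nat_lit 5) (nat_lit 443) (nat_lit 5) (nat_lit 437) (nat_lit 414) (nat_lit 289)) (XT.nd (nat_lit 78) (nat_lit 1672) (nat_lit 0) (XT.lf (nat_lit 0) (nat_lit 9486383311) (nat_lit 1596) (nat_lit 995712056) (nat_lit 76) (nat_lit 227978457) (nat_lit 422) (nat_lit 5) (nat_lit 443) (nat_lit 5) (nat_lit 423) (nat_lit 5) (nat_lit 438) (nat_lit 414) (nat_lit 288)) (XT.lf (nat_lit 0) (nat_lit 112400619) (nat_lit 1672) (nat_lit 6258200725) (nat_lit 76) (nat_lit 4444622180) (nat_lit 400) (nat_lit 5) (nat_lit 422) (nat_lit 5) (nat_lit 401) (nat_lit 5) (nat_lit 439) (nat_lit 414) (nat_lit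 287))))) (XT.nd (nat_lit 156) (nat_lit 2660) (nat_lit 0) (XT.nd (nat_lit 78) (nat_lit 1672) (nat_lit 0) (XT.lf (nat_lit 0) (nat_lit 1449143726) (nat_lit 1672) (nat_lit 709986350) (nat_lit 76) (nat_lit 8763387672) (nat_lit 400) (nat_lit 5) (nat_lit 422) (nat_lit 5) (nat_lit 401) (nat_lit 5) (nat_lit 440) (nat_lit 414) (nat_lit 286)) (XT.lf (nat_lit 0) (nat_lit 2843093014) (nat_lit 1748) (nat_lit 6044493492) (nat_lit 76) (nat_lit 2143771347) (nat_lit 378) (nat_lit 5) (nat_lit 401) (nat_lit 5) (nat_lit 379) (nat_lit 5) (nat_lit 441) (nat_lit 414) (nat_lit 285))) (XT.nd (nat_lit 78) (nat_lit 2660) (nat_lit 0) (XT.lf (nat_lit 0) (nat_lit 4268156466) (nat_lit 1748) (nat_lit 363121649) (nat_lit 76) (nat_lit 6511041177) (nat_lit 378) (nat_lit 5) (nat_lit 401) (nat_lit 5) (nat_lit 379) (nat_lit 5) (nat_lit 442) (nat_lit 414) (nat_lit 284)) (XT.nd (nat_lit 78) (nat_lit 912) (nat_lit 0) (XT.lf (nat_lit 0) (nat_lit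 5490367244) (nat_lit 1748) (nat_lit 251452391) (nat_lit 1824) (nat_lit 5513287411) (nat_lit 355) (nat_lit 5) (nat_lit 378) (nat_lit 5) (nat_lit 379) (nat_lit 5) (nat_lit 443) (nat_lit 414) (nat_lit 283)) (XT.lf (nat_lit 0) (nat_lit 55326451) (nat_lit 912) (nat_lit 7204495963) (nat_lit 988) (nat_lit 4110039694) (nat_lit 343) (nat_lit 5) (nat_lit 355) (nat_lit 5) (nat_lit 356) (nat_lit 5) (nat_lit 444) (nat_lit 414) (nat_lit 282)))))) (XT.nd (nat_lit 390) (nat_lit 2432) (nat_lit 0) (XT.nd (nat_lit 156) (nat_lit 912) (nat_lit 0) (XT.nd (nat_lit 78) (nat_lit 912) (nat_lit 0) (XT.lf (nat_lit 0) (nat_lit 6054583263) (nat_lit 912) (nat_lit 2778833733) (nat_lit 988) (nat_lit 2652999341) (nat_lit 343) (nat_lit 5) (nat_lit 355) (nat_lit 5) (nat_lit 356) (nat_lit 5) (nat_lit 445) (nat_lit 414) (nat_lit 281)) (XT.lf (nat_lit 0) (nat_lit 550768074) (nat_lit 912) (nat_lit 9887756746) (nat_lit 988) (nat_lit 1166784540)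 (nat_lit 331) (nat_lit 5) (nat_lit 343) (nat_lit 5) (nat_lit 344) (nat_lit 5) (nat_lit 446) (nat_lit 414) (nat_lit 280))) (XT.nd (nat_lit 78) (nat_lit 836) (nat_lit 0) (XT.lf (nat_lit 0) (nat_lit 384965306) (nat_lit 988) (nat_lit 5033936594) (nat_lit 76) (nat_lit 6306833406) (nat_lit 330) (nat_lit 5) (nat_lit 343) (nat_lit 5) (nat_lit 331) (nat_lit 5) (nat_lit 447) (nat_lit 414) (nat_lit 279)) (XT.nd (nat_lit 78) (nat_lit 0) (nat_lit 0) (XT.lf (nat_lit 0) (nat_lit 1100228595) (nat_lit 836) (nat_lit 844639905) (nat_lit 912) (nat_lit 9903700231) (nat_lit 319) (nat_lit 5) (nat_lit 330) (nat_lit 5) (nat_lit 331) (nat_lit 5) (nat_lit 448) (nat_lit 414) (nat_lit 278)) (XT.lf (nat_lit 0) (nat_lit 3580566735) (nat_lit 912) (nat_lit 4586664952) (nat_lit 76) (nat_lit 3805743082) (nat_lit 319) (nat_lit 5) (nat_lit 331) (nat_lit 5) (nat_lit 320) (nat_lit 5) (nat_lit 449) (nat_lit 414) (nat_lit 277))))) (XT.nd (nat_lit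 234) (nat_lit 836) (nat_lit 0) (XT.nd (nat_lit 78) (nat_lit 760) (nat_lit 0) (XT.lf (nat_lit 0) (nat_lit 1701472779) (nat_lit 836) (nat_lit 3550209373) (nat_lit 912) (nat_lit 6848140438) (nat_lit 308) (nat_lit 5) (nat_lit 319) (nat_lit 5) (nat_lit 320) (nat_lit 5) (nat_lit 450) (nat_lit 414) (nat_lit 276)) (XT.nd (nat_lit 78) (nat_lit 760) (nat_lit 0) (XT.lf (nat_lit 0) (nat_lit 6980979646) (nat_lit 912) (nat_lit 4072463430) (nat_lit 76) (nat_lit 1175276675) (nat_lit 308) (nat_lit 5) (nat_lit 320) (nat_lit 5) (nat_lit 309) (nat_lit 5) (nat_lit 451) (nat_lit 414) (nat_lit 275)) (XT.lf (nat_lit 0) (nat_lit 2374146591) (nat_lit 760) (nat_lit 6396162945) (nat_lit 836) (nat_lit 3589383820) (nat_lit 298) (nat_lit 5) (nat_lit 308) (nat_lit 5) (nat_lit 309) (nat_lit 5) (nat_lit 452) (nat_lit 414) (nat_lit 274)))) (XT.nd (nat_lit 78) (nat_lit 836) (nat_lit 0) (XT.lf (nat_lit 0) (nat_lit 8991560290) (nat_lit 760)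 (nat_lit 1617892441) (nat_lit 836) (nat_lit 1883560449) (nat_lit 298) (nat_lit 5) (nat_lit 308) (nat_lit 5) (nat_lit 309) (nat_lit 5) (nat_lit 453) (nat_lit 414) (nat_lit 273)) (XT.nd (nat_lit 78) (nat_lit 76) (nat_lit 0) (XT.lf (nat_lit 0) (nat_lit 3118747862) (nat_lit 760) (nat_lit 9394978612) (nat_lit 836) (nat_lit 114713114) (nat_lit 288) (nat_lit 5) (nat_lit 298) (nat_lit 5) (nat_lit 299) (nat_lit 5) (nat_lit 454) (nat_lit 414) (nat_lit 272)) (XT.lf (nat_lit 0) (nat_lit 1688756129) (nat_lit 836) (nat_lit 2882557982) (nat_lit 76) (nat_lit 8194619823) (nat_lit 287) (nat_lit 5) (nat_lit 298) (nat_lit 5) (nat_lit 288) (nat_lit 5) (nat_lit 455) (nat_lit 414) (nat_lit 271))))))))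
noncomputable def xc186 : XT := (XT.nd (nat_lit 1560) (nat_lit 5244) (nat_lit 0) (XT.nd (nat_lit 780) (nat_lit 3040) (nat_lit 0) (XT.nd (nat_lit 390) (nat_lit 2052) (nat_lit 0) (XT.nd (nat_lit 156) (nat_lit 1444) (nat_lit 0) (XT.nd (nat_lit 78) (nat_lit 0) (nat_lit 0) (XT.lf (nat_lit 0) (nat_lit 3541901774) (nat_lit 836) (nat_lit 8993818466) (nat_lit 76) (nat_lit 370146631) (nat_lit 277) (nat_lit 5) (nat_lit 288) (nat_lit 5) (nat_lit 278) (nat_lit 5) (nat_lit 456) (nat_lit 414) (nat_lit 270)) (XT.lf (nat_lit 0) (nat_lit 5469307001) (nat_lit 836) (nat_lit 2210326212) (nat_lit 76) (nat_lit 5368227915) (nat_lit 277) (nat_lit 5) (nat_lit 288) (nat_lit 5) (nat_lit 278) (nat_lit 5) (nat_lit 457) (nat_lit 414) (nat_lit 269))) (XT.nd (nat_lit 78) (nat_lit 684) (nat_lit 0) (XT.lf (nat_lit 0) (nat_lit 4758167893) (nat_lit 760) (nat_lit 2695683154) (nat_lit 836) (nat_lit 5738478878) (nat_lit 267) (nat_lit 5) (nat_lit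 277) (nat_lit 5) (nat_lit 278) (nat_lit 5) (nat_lit 458) (nat_lit 414) (nat_lit 268)) (XT.nd (nat_lit 78) (nat_lit 684) (nat_lit 0) (XT.lf (nat_lit 0) (nat_lit 9496369767) (nat_lit 836) (nat_lit 1472230381) (nat_lit 76) (nat_lit 2370728612) (nat_lit 267) (nat_lit 5) (nat_lit 278) (nat_lit 5) (nat_lit 268) (nat_lit 5) (nat_lit 459) (nat_lit 414) (nat_lit 267)) (XT.lf (nat_lit 0) (nat_lit 5672513126) (nat_lit 684) (nat_lit 5949994899) (nat_lit 760) (nat_lit 1865910382) (nat_lit 258) (nat_lit 5) (nat_lit 267) (nat_lit 5) (nat_lit 268) (nat_lit 5) (nat_lit 460) (nat_lit 414) (nat_lit 266))))) (XT.nd (nat_lit 156) (nat_lit 1292) (nat_lit 0) (XT.nd (nat_lit 78) (nat_lit 684) (nat_lit 0) (XT.lf (nat_lit 0) (nat_lit 146801133) (nat_lit 760) (nat_lit 674276697) (nat_lit 76) (nat_lit 12819436462) (nat_lit 257) (nat_lit 5) (nat_lit 267) (nat_lit 5) (nat_lit 258) (nat_lit 5) (nat_lit 461) (nat_lit 414) (nat_lit 265))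 (XT.lf (nat_lit 0) (nat_lit 2235510273) (nat_lit 760) (nat_lit 7151226837) (nat_lit 76) (nat_lit 4407459610) (nat_lit 248) (nat_lit 5) (nat_lit 258) (nat_lit 5) (nat_lit 249) (nat_lit 5) (nat_lit 462) (nat_lit 414) (nat_lit 264))) (XT.nd (nat_lit 78) (nat_lit 684) (nat_lit 0) (XT.lf (nat_lit 0) (nat_lit 148381842) (nat_lit 608) (nat_lit 4217090179) (nat_lit 684) (nat_lit 9585496950) (nat_lit 240) (nat_lit 5) (nat_lit 248) (nat_lit 5) (nat_lit 249) (nat_lit 5) (nat_lit 463) (nat_lit 414) (nat_lit 263)) (XT.nd (nat_lit 78) (nat_lit 684) (nat_lit 0) (XT.lf (nat_lit 0) (nat_lit 6581849717) (nat_lit 684) (nat_lit 6439244314) (nat_lit 76) (nat_lit 1088911932) (nat_lit 240) (nat_lit 5) (nat_lit 249) (nat_lit 5) (nat_lit 241) (nat_lit 5) (nat_lit 464) (nat_lit 414) (nat_lit 262)) (XT.lf (nat_lit 0) (nat_lit 1044317209) (nat_lit 684) (nat_lit 7821822854) (nat_lit 760) (nat_lit 5405617448) (nat_lit 231) (nat_lit 5)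 (nat_lit 240) (nat_lit 5) (nat_lit 241) (nat_lit 5) (nat_lit 465) (nat_lit 414) (nat_lit 261)))))) (XT.nd (nat_lit 390) (nat_lit 1748) (nat_lit 0) (XT.nd (nat_lit 156) (nat_lit 684) (nat_lit 0) (XT.nd (nat_lit 78) (nat_lit 608) (nat_lit 0) (XT.lf (nat_lit 0) (nat_lit 8752103129) (nat_lit 684) (nat_lit 2476236185) (nat_lit 760) (nat_lit 3207765726) (nat_lit 231) (nat_lit 5) (nat_lit 240) (nat_lit 5) (nat_lit 241) (nat_lit 5) (nat_lit 466) (nat_lit 414) (nat_lit 260)) (XT.lf (nat_lit 0) (nat_lit 2004579325) (nat_lit 608) (nat_lit 11654758869) (nat_lit 684) (nat_lit 943975519) (nat_lit 223) (nat_lit 5) (nat_lit 231) (nat_lit 5) (nat_lit 232) (nat_lit 5) (nat_lit 467) (nat_lit 414) (nat_lit 259))) (XT.nd (nat_lit 78) (nat_lit 608) (nat_lit 0) (XT.lf (nat_lit 0) (nat_lit 1391251843) (nat_lit 684) (nat_lit 4887394622) (nat_lit 76) (nat_lit 8494166636) (nat_lit 222) (nat_lit 5) (nat_lit 231) (nat_lit 5) (nat_lit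 223) (nat_lit 5) (nat_lit 468) (nat_lit 414) (nat_lit 258)) (XT.nd (nat_lit 78) (nat_lit 0) (nat_lit 0) (XT.lf (nat_lit 0) (nat_lit 2998742975) (nat_lit 608) (nat_lit 770763570) (nat_lit 684) (nat_lit 11175896886) (nat_lit 214) (nat_lit 5) (nat_lit 222) (nat_lit 5) (nat_lit 223) (nat_lit 5) (nat_lit 469) (nat_lit 414) (nat_lit 257)) (XT.lf (nat_lit 0) (nat_lit 6249405651) (nat_lit 684) (nat_lit 4056249149) (nat_lit 76) (nat_lit 4814714082) (nat_lit 214) (nat_lit 5) (nat_lit 223) (nat_lit 5) (nat_lit 215) (nat_lit 5) (nat_lit 470) (nat_lit 414) (nat_lit 256))))) (XT.nd (nat_lit 156) (nat_lit 1216) (nat_lit 0) (XT.nd (nat_lit 78) (nat_lit 0) (nat_lit 0) (XT.lf (nat_lit 0) (nat_lit 4027308561) (nat_lit 532) (nat_lit 4772643965) (nat_lit 608) (nat_lit 6498464926) (nat_lit 207) (nat_lit 5) (nat_lit 214) (nat_lit 5) (nat_lit 215) (nat_lit 5) (nat_lit 471) (nat_lit 414) (nat_lit 255)) (XT.lf (nat_lit 0) (nat_lit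 11424468748) (nat_lit 608) (nat_lit 3170284071) (nat_lit 76) (nat_lit 884819718) (nat_lit 207) (nat_lit 5) (nat_lit 215) (nat_lit 5) (nat_lit 208) (nat_lit 5) (nat_lit 472) (nat_lit 414) (nat_lit 254))) (XT.nd (nat_lit 78) (nat_lit 608) (nat_lit 0) (XT.lf (nat_lit 0) (nat_lit 5115802975) (nat_lit 608) (nat_lit 9040595685) (nat_lit 684) (nat_lit 1506858213) (nat_lit 199) (nat_lit 5) (nat_lit 207) (nat_lit 5) (nat_lit 208) (nat_lit 5) (nat_lit 473) (nat_lit 414) (nat_lit 253)) (XT.nd (nat_lit 78) (nat_lit 532) (nat_lit 0) (XT.lf (nat_lit 0) (nat_lit 1089588181) (nat_lit 684) (nat_lit 2259133650) (nat_lit 76) (nat_lit 12501524414) (nat_lit 198) (nat_lit 5) (nat_lit 207) (nat_lit 5) (nat_lit 199) (nat_lit 5) (nat_lit 474) (nat_lit 414) (nat_lit 252)) (XT.lf (nat_lit 0) (nat_lit 3765029053) (nat_lit 608) (nat_lit 9801480139) (nat_lit 76) (nat_lit 2473326509) (nat_lit 191) (nat_lit 5) (nat_lit 199) (nat_lit 5)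 (nat_lit 192) (nat_lit 5) (nat_lit 475) (nat_lit 414) (nat_lit 251))))))) (XT.nd (nat_lit 780) (nat_lit 2660) (nat_lit 0) (XT.nd (nat_lit 390) (nat_lit 912) (nat_lit 0) (XT.nd (nat_lit 156) (nat_lit 1140) (nat_lit 0) (XT.nd (nat_lit 78) (nat_lit 532) (nat_lit 0) (XT.lf (nat_lit 0) (nat_lit 6521852294) (nat_lit 608) (nat_lit 1330929301) (nat_lit 76) (nat_lit 8379882147) (nat_lit 191) (nat_lit 5) (nat_lit 199) (nat_lit 5) (nat_lit 192) (nat_lit 5) (nat_lit 476) (nat_lit 414) (nat_lit 250)) (XT.lf (nat_lit 0) (nat_lit 7394089818) (nat_lit 532) (nat_lit 1978353254) (nat_lit 608) (nat_lit 7056136834) (nat_lit 184) (nat_lit 5) (nat_lit 191) (nat_lit 5) (nat_lit 192) (nat_lit 5) (nat_lit 477) (nat_lit 414) (nat_lit 249))) (XT.nd (nat_lit 78) (nat_lit 1140) (nat_lit 0) (XT.lf (nat_lit 0) (nat_lit 12305808801) (nat_lit 608) (nat_lit 354715164) (nat_lit 76) (nat_lit 3967379267) (nat_lit 184) (nat_lit 5) (nat_lit 192)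 (nat_lit 5) (nat_lit 185) (nat_lit 5) (nat_lit 478) (nat_lit 414) (nat_lit 248)) (XT.nd (nat_lit 78) (nat_lit 608) (nat_lit 0) (XT.lf (nat_lit 0) (nat_lit 8586389200) (nat_lit 532) (nat_lit 6771198965) (nat_lit 608) (nat_lit 1472433954) (nat_lit 177) (nat_lit 5) (nat_lit 184) (nat_lit 5) (nat_lit 185) (nat_lit 5) (nat_lit 479) (nat_lit 414) (nat_lit 247)) (XT.lf (nat_lit 0) (nat_lit 662526340) (nat_lit 532) (nat_lit 750516151) (nat_lit 608) (nat_lit 15623005863) (nat_lit 169) (nat_lit 5) (nat_lit 176) (nat_lit 5) (nat_lit 177) (nat_lit 5) (nat_lit 480) (nat_lit 414) (nat_lit 246))))) (XT.nd (nat_lit 156) (nat_lit 456) (nat_lit 0) (XT.nd (nat_lit 78) (nat_lit 456) (nat_lit 0) (XT.lf (nat_lit 0) (nat_lit 4418234275) (nat_lit 608) (nat_lit 7443562608) (nat_lit 76) (nat_lit 5382572929) (nat_lit 169) (nat_lit 5) (nat_lit 177) (nat_lit 5) (nat_lit 170) (nat_lit 5) (nat_lit 481) (nat_lit 414) (nat_lit 245)) (XT.lf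 (nat_lit 0) (nat_lit 1670254423) (nat_lit 456) (nat_lit 5820284861) (nat_lit 532) (nat_lit 9966181944) (nat_lit 163) (nat_lit 5) (nat_lit 169) (nat_lit 5) (nat_lit 170) (nat_lit 5) (nat_lit 482) (nat_lit 414) (nat_lit 244))) (XT.nd (nat_lit 78) (nat_lit 456) (nat_lit 0) (XT.lf (nat_lit 0) (nat_lit 10668065520) (nat_lit 532) (nat_lit 6619384225) (nat_lit 76) (nat_lit 384998064) (nat_lit 163) (nat_lit 5) (nat_lit 170) (nat_lit 5) (nat_lit 164) (nat_lit 5) (nat_lit 483) (nat_lit 414) (nat_lit 243)) (XT.nd (nat_lit 78) (nat_lit 0) (nat_lit 0) (XT.lf (nat_lit 0) (nat_lit 2716595133) (nat_lit 456) (nat_lit 11240174375) (nat_lit 532) (nat_lit 3934770441) (nat_lit 157) (nat_lit 5) (nat_lit 163) (nat_lit 5) (nat_lit 164) (nat_lit 5) (nat_lit 484) (nat_lit 414) (nat_lit 242)) (XT.lf (nat_lit 0) (nat_lit 12317568846) (nat_lit 456) (nat_lit 5029636039) (nat_lit 532) (nat_lit 767093401) (nat_lit 157) (nat_lit 5) (nat_lit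 163) (nat_lit 5) (nat_lit 164) (nat_lit 5) (nat_lit 485) (nat_lit 414) (nat_lit 241)))))) (XT.nd (nat_lit 390) (nat_lit 1292) (nat_lit 0) (XT.nd (nat_lit 156) (nat_lit 836) (nat_lit 0) (XT.nd (nat_lit 78) (nat_lit 0) (nat_lit 0) (XT.lf (nat_lit 0) (nat_lit 2456607295) (nat_lit 532) (nat_lit 14558157662) (nat_lit 76) (nat_lit 1325930543) (nat_lit 150) (nat_lit 5) (nat_lit 157) (nat_lit 5) (nat_lit 151) (nat_lit 5) (nat_lit 486) (nat_lit 414) (nat_lit 240)) (XT.lf (nat_lit 0) (nat_lit 5798702297) (nat_lit 532) (nat_lit 4988939579) (nat_lit 76) (nat_lit 7782596838) (nat_lit 150) (nat_lit 5) (nat_lit 157) (nat_lit 5) (nat_lit 151) (nat_lit 5) (nat_lit 487) (nat_lit 414) (nat_lit 239))) (XT.nd (nat_lit 78) (nat_lit 380) (nat_lit 0) (XT.lf (nat_lit 0) (nat_lit 4823733855) (nat_lit 456) (nat_lit 4407103154) (nat_lit 532) (nat_lit 9573075064) (nat_lit 144) (nat_lit 5) (nat_lit 150) (nat_lit 5) (nat_lit 151) (nat_lit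 5) (nat_lit 488) (nat_lit 414) (nat_lit 238)) (XT.nd (nat_lit 78) (nat_lit 380) (nat_lit 0) (XT.lf (nat_lit 0) (nat_lit 12770901860) (nat_lit 532) (nat_lit 4166428605) (nat_lit 76) (nat_lit 2104145853) (nat_lit 144) (nat_lit 5) (nat_lit 151) (nat_lit 5) (nat_lit 145) (nat_lit 5) (nat_lit 489) (nat_lit 414) (nat_lit 237)) (XT.lf (nat_lit 0) (nat_lit 5880491107) (nat_lit 380) (nat_lit 10560746922) (nat_lit 456) (nat_lit 2841367525) (nat_lit 139) (nat_lit 5) (nat_lit 144) (nat_lit 5) (nat_lit 145) (nat_lit 5) (nat_lit 490) (nat_lit 414) (nat_lit 236))))) (XT.nd (nat_lit 234) (nat_lit 760) (nat_lit 0) (XT.nd (nat_lit 78) (nat_lit 456) (nat_lit 0) (XT.lf (nat_lit 0) (nat_lit 668091237) (nat_lit 456) (nat_lit 3358696412) (nat_lit 76) (nat_lit 15501281941) (nat_lit 138) (nat_lit 5) (nat_lit 144) (nat_lit 5) (nat_lit 139) (nat_lit 5) (nat_lit 491) (nat_lit 414) (nat_lit 235)) (XT.nd (nat_lit 78) (nat_lit 0) (nat_lit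 0) (XT.lf (nat_lit 0) (nat_lit 4264650062) (nat_lit 532) (nat_lit 12847826940) (nat_lit 76) (nat_lit 2664494069) (nat_lit 132) (nat_lit 5) (nat_lit 139) (nat_lit 5) (nat_lit 133) (nat_lit 5) (nat_lit 492) (nat_lit 414) (nat_lit 234)) (XT.lf (nat_lit 0) (nat_lit 7974843083) (nat_lit 532) (nat_lit 2599870767) (nat_lit 76) (nat_lit 9455305541) (nat_lit 132) (nat_lit 5) (nat_lit 139) (nat_lit 5) (nat_lit 133) (nat_lit 5) (nat_lit 493) (nat_lit 414) (nat_lit 233)))) (XT.nd (nat_lit 78) (nat_lit 380) (nat_lit 0) (XT.lf (nat_lit 0) (nat_lit 7946555495) (nat_lit 380) (nat_lit 3856776494) (nat_lit 456) (nat_lit 8483917664) (nat_lit 127) (nat_lit 5) (nat_lit 132) (nat_lit 5) (nat_lit 133) (nat_lit 5) (nat_lit 494) (nat_lit 414) (nat_lit 232)) (XT.nd (nat_lit 78) (nat_lit 380) (nat_lit 0) (XT.lf (nat_lit 0) (nat_lit 15737956484) (nat_lit 456) (nat_lit 1840457267) (nat_lit 76) (nat_lit 2970622212) (nat_lit 127) (nat_lit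 5) (nat_lit 133) (nat_lit 5) (nat_lit 128) (nat_lit 5) (nat_lit 495) (nat_lit 414) (nat_lit 231)) (XT.lf (nat_lit 0) (nat_lit 8951079526) (nat_lit 380) (nat_lit 10876552707) (nat_lit 456) (nat_lit 986901298) (nat_lit 122) (nat_lit 5) (nat_lit 127) (nat_lit 5) (nat_lit 128) (nat_lit 5) (nat_lit 496) (nat_lit 414) (nat_lit 230))))))))
noncomputable def xc187 : XT := (XT.nd (nat_lit 54288) (nat_lit 0) (nat_lit 14592) (XT.nd (nat_lit 53508) (nat_lit 0) (nat_lit 22952) (XT.nd (nat_lit 53118) (nat_lit 0) (nat_lit 25688) (XT.nd (nat_lit 156) (nat_lit 0) (nat_lit 0) (XT.nd (nat_lit 78) (nat_lit 380) (nat_lit 0) (XT.lf (nat_lit 0) (nat_lit 2880703595) (nat_lit 456) (nat_lit 1131287059) (nat_lit 76) (nat_lit 17072871482) (nat_lit 121) (nat_lit 5) (nat_lit 127) (nat_lit 5) (nat_lit 122) (nat_lit 5) (nat_lit 497) (nat_lit 414) (nat_lit 229)) (XT.lf (nat_lit 0) (nat_lit 6889652184) (nat_lit 456) (nat_lit 11450358485)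 (nat_lit 76) (nat_lit 3018914603) (nat_lit 116) (nat_lit 5) (nat_lit 122) (nat_lit 5) (nat_lit 117) (nat_lit 5) (nat_lit 498) (nat_lit 414) (nat_lit 228))) (XT.nd (nat_lit 52806) (nat_lit 0) (nat_lit 25688) (XT.lf (nat_lit 0) (nat_lit 11005910844) (nat_lit 456) (nat_lit 490819741) (nat_lit 76) (nat_lit 10141198963) (nat_lit 116) (nat_lit 5) (nat_lit 122) (nat_lit 5) (nat_lit 117) (nat_lit 5) (nat_lit 499) (nat_lit 414) (nat_lit 227)) (XT.nd (nat_lit 78) (nat_lit 0) (nat_lit 0) (XT.lf (nat_lit 0) (nat_lit 807214642) (nat_lit 0) (nat_lit 807214642) (nat_lit 1444) (nat_lit 2792736868) (nat_lit 454) (nat_lit 5) (nat_lit 454) (nat_lit 3) (nat_lit 473) (nat_lit 3) (nat_lit 415) (nat_lit 415) (nat_lit 310)) (XT.lf (nat_lit 0) (nat_lit 4190505185) (nat_lit 1444) (nat_lit 3089654768) (nat_lit 1520) (nat_lit 1603127456) (nat_lit 454) (nat_lit 5) (nat_lit 473) (nat_lit 3) (nat_lit 474) (nat_lit 5) (nat_lit 416) (nat_lit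 415) (nat_lit 309))))) (XT.nd (nat_lit 156) (nat_lit 0) (nat_lit 76) (XT.nd (nat_lit 78) (nat_lit 0) (nat_lit 0) (XT.lf (nat_lit 76) (nat_lit 1093826197) (nat_lit 0) (nat_lit 4071329459) (nat_lit 1520) (nat_lit 3788606308) (nat_lit 455) (nat_lit 5) (nat_lit 454) (nat_lit 5) (nat_lit 474) (nat_lit 5) (nat_lit 417) (nat_lit 415) (nat_lit 308)) (XT.lf (nat_lit 76) (nat_lit 5390314542) (nat_lit 0) (nat_lit 766084888) (nat_lit 1520) (nat_lit 2869320032) (nat_lit 455) (nat_lit 5) (nat_lit 454) (nat_lit 5) (nat_lit 474) (nat_lit 5) (nat_lit 418) (nat_lit 415) (nat_lit 307))) (XT.nd (nat_lit 78) (nat_lit 0) (nat_lit 0) (XT.lf (nat_lit 76) (nat_lit 652411419) (nat_lit 0) (nat_lit 6513108716) (nat_lit 1520) (nat_lit 1933650088) (nat_lit 456) (nat_lit 5) (nat_lit 455) (nat_lit 5) (nat_lit 475) (nat_lit 5) (nat_lit 419) (nat_lit 415) (nat_lit 306)) (XT.nd (nat_lit 78) (nat_lit 0) (nat_lit 76) (XT.lf (nat_lit 76) (nat_lit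 5057360129) (nat_lit 0) (nat_lit 3144169759) (nat_lit 1520) (nat_lit 972440834) (nat_lit 456) (nat_lit 5) (nat_lit 455) (nat_lit 5) (nat_lit 475) (nat_lit 5) (nat_lit 420) (nat_lit 415) (nat_lit 305)) (XT.lf (nat_lit 76) (nat_lit 288998600) (nat_lit 0) (nat_lit 8950814656) (nat_lit 1520) (nat_lit 10837472) (nat_lit 457) (nat_lit 5) (nat_lit 456) (nat_lit 5) (nat_lit 476) (nat_lit 5) (nat_lit 421) (nat_lit 415) (nat_lit 304)))))) (XT.nd (nat_lit 390) (nat_lit 1368) (nat_lit 0) (XT.nd (nat_lit 156) (nat_lit 0) (nat_lit 76) (XT.nd (nat_lit 78) (nat_lit 0) (nat_lit 0) (XT.lf (nat_lit 0) (nat_lit 983879063) (nat_lit 1520) (nat_lit 4530349655) (nat_lit 1596) (nat_lit 3813991603) (nat_lit 436) (nat_lit 5) (nat_lit 456) (nat_lit 5) (nat_lit 457) (nat_lit 5) (nat_lit 422) (nat_lit 415) (nat_lit 303)) (XT.lf (nat_lit 0) (nat_lit 1976749773) (nat_lit 1520) (nat_lit 23489373) (nat_lit 1596) (nat_lit 7407546351) (nat_lit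 436) (nat_lit 5) (nat_lit 456) (nat_lit 5) (nat_lit 457) (nat_lit 5) (nat_lit 423) (nat_lit 415) (nat_lit 302))) (XT.nd (nat_lit 78) (nat_lit 0) (nat_lit 0) (XT.lf (nat_lit 0) (nat_lit 3008849216) (nat_lit 1520) (nat_lit 4877940127) (nat_lit 1596) (nat_lit 1601778666) (nat_lit 437) (nat_lit 5) (nat_lit 457) (nat_lit 5) (nat_lit 458) (nat_lit 5) (nat_lit 424) (nat_lit 415) (nat_lit 301)) (XT.nd (nat_lit 78) (nat_lit 0) (nat_lit 0) (XT.lf (nat_lit 0) (nat_lit 4054210258) (nat_lit 1520) (nat_lit 259605685) (nat_lit 1596) (nat_lit 5257311027) (nat_lit 437) (nat_lit 5) (nat_lit 457) (nat_lit 5) (nat_lit 458) (nat_lit 5) (nat_lit 425) (nat_lit 415) (nat_lit 300)) (XT.lf (nat_lit 76) (nat_lit 4497193718) (nat_lit 0) (nat_lit 632105452) (nat_lit 1596) (nat_lit 4525874461) (nat_lit 438) (nat_lit 5) (nat_lit 437) (nat_lit 5) (nat_lit 458) (nat_lit 5) (nat_lit 426) (nat_lit 415) (nat_lit 299))))) (XT.nd (nat_lit 156)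 (nat_lit 1520) (nat_lit 0) (XT.nd (nat_lit 78) (nat_lit 0) (nat_lit 0) (XT.lf (nat_lit 0) (nat_lit 6227907148) (nat_lit 1520) (nat_lit 421767471) (nat_lit 1596) (nat_lit 3091198941) (nat_lit 438) (nat_lit 5) (nat_lit 458) (nat_lit 5) (nat_lit 459) (nat_lit 5) (nat_lit 427) (nat_lit 415) (nat_lit 298)) (XT.lf (nat_lit 76) (nat_lit 4450350689) (nat_lit 0) (nat_lit 2911595311) (nat_lit 1596) (nat_lit 2466084743) (nat_lit 439) (nat_lit 5) (nat_lit 438) (nat_lit 5) (nat_lit 459) (nat_lit 5) (nat_lit 428) (nat_lit 415) (nat_lit 297))) (XT.nd (nat_lit 78) (nat_lit 1596) (nat_lit 0) (XT.lf (nat_lit 0) (nat_lit 8508086597) (nat_lit 1520) (nat_lit 510470550) (nat_lit 1596) (nat_lit 898597692) (nat_lit 439) (nat_lit 5) (nat_lit 459) (nat_lit 5) (nat_lit 460) (nat_lit 5) (nat_lit 429) (nat_lit 415) (nat_lit 296)) (XT.nd (nat_lit 78) (nat_lit 1596) (nat_lit 0) (XT.lf (nat_lit 76) (nat_lit 4480470846) (nat_lit 0) (nat_lit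 5226149923) (nat_lit 1596) (nat_lit 300863181) (nat_lit 440) (nat_lit 5) (nat_lit 439) (nat_lit 5) (nat_lit 460) (nat_lit 5) (nat_lit 430) (nat_lit 415) (nat_lit 295)) (XT.lf (nat_lit 0) (nat_lit 803324891) (nat_lit 1596) (nat_lit 540075809) (nat_lit 1672) (nat_lit 8756428753) (nat_lit 418) (nat_lit 5) (nat_lit 439) (nat_lit 5) (nat_lit 440) (nat_lit 5) (nat_lit 431) (nat_lit 415) (nat_lit 294))))))) (XT.nd (nat_lit 780) (nat_lit 5320) (nat_lit 0) (XT.nd (nat_lit 390) (nat_lit 3116) (nat_lit 0) (XT.nd (nat_lit 156) (nat_lit 0) (nat_lit 76) (XT.nd (nat_lit 78) (nat_lit 0) (nat_lit 0) (XT.lf (nat_lit 0) (nat_lit 1954239425) (nat_lit 1596) (nat_lit 5619177957) (nat_lit 1672) (nat_lit 2620002544) (nat_lit 419) (nat_lit 5) (nat_lit 440) (nat_lit 5) (nat_lit 441) (nat_lit 5) (nat_lit 432) (nat_lit 415) (nat_lit 293)) (XT.lf (nat_lit 0) (nat_lit 3122644820) (nat_lit 1596) (nat_lit 512891481) (nat_lit 1672) (nat_lit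 6653467496) (nat_lit 419) (nat_lit 5) (nat_lit 440) (nat_lit 5) (nat_lit 441) (nat_lit 5) (nat_lit 433) (nat_lit 415) (nat_lit 292))) (XT.nd (nat_lit 78) (nat_lit 0) (nat_lit 0) (XT.lf (nat_lit 0) (nat_lit 4330214560) (nat_lit 1596) (nat_lit 5644275621) (nat_lit 1672) (nat_lit 411704060) (nat_lit 420) (nat_lit 5) (nat_lit 441) (nat_lit 5) (nat_lit 442) (nat_lit 5) (nat_lit 434) (nat_lit 415) (nat_lit 291)) (XT.nd (nat_lit 78) (nat_lit 0) (nat_lit 0) (XT.lf (nat_lit 0) (nat_lit 5572050881) (nat_lit 1596) (nat_lit 413951040) (nat_lit 1672) (nat_lit 4499134882) (nat_lit 420) (nat_lit 5) (nat_lit 441) (nat_lit 5) (nat_lit 442) (nat_lit 5) (nat_lit 435) (nat_lit 415) (nat_lit 290)) (XT.lf (nat_lit 76) (nat_lit 4973095733) (nat_lit 0) (nat_lit 1880832733) (nat_lit 1672) (nat_lit 3731836059) (nat_lit 421) (nat_lit 5) (nat_lit 420) (nat_lit 5) (nat_lit 442) (nat_lit 5) (nat_lit 436) (nat_lit 415) (nat_lit 289)))))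 (XT.nd (nat_lit 156) (nat_lit 3268) (nat_lit 0) (XT.nd (nat_lit 78) (nat_lit 0) (nat_lit 0) (XT.lf (nat_lit 0) (nat_lit 8162405863) (nat_lit 1596) (nat_lit 243240660) (nat_lit 1672) (nat_lit 2282749232) (nat_lit 421) (nat_lit 5) (nat_lit 442) (nat_lit 5) (nat_lit 443) (nat_lit 5) (nat_lit 437) (nat_lit 415) (nat_lit 288)) (XT.lf (nat_lit 76) (nat_lit 5277201501) (nat_lit 0) (nat_lit 4250090927) (nat_lit 1672) (nat_lit 1265192387) (nat_lit 422) (nat_lit 5) (nat_lit 421) (nat_lit 5) (nat_lit 443) (nat_lit 5) (nat_lit 438) (nat_lit 415) (nat_lit 287))) (XT.nd (nat_lit 78) (nat_lit 1596) (nat_lit 0) (XT.lf (nat_lit 0) (nat_lit 5832968) (nat_lit 1672) (nat_lit 690060) (nat_lit 1748) (nat_lit 10892433835) (nat_lit 399) (nat_lit 5) (nat_lit 421) (nat_lit 5) (nat_lit 422) (nat_lit 5) (nat_lit 439) (nat_lit 415) (nat_lit 286)) (XT.nd (nat_lit 78) (nat_lit 1672) (nat_lit 0) (XT.lf (nat_lit 0) (nat_lit 1334556938)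 (nat_lit 1672) (nat_lit 5358099633) (nat_lit 76) (nat_lit 4313759563) (nat_lit 400) (nat_lit 5) (nat_lit 422) (nat_lit 5) (nat_lit 401) (nat_lit 5) (nat_lit 440) (nat_lit 415) (nat_lit 285)) (XT.lf (nat_lit 0) (nat_lit 284709810) (nat_lit 1672) (nat_lit 2391253851) (nat_lit 1748) (nat_lit 8440348001) (nat_lit 378) (nat_lit 5) (nat_lit 400) (nat_lit 5) (nat_lit 401) (nat_lit 5) (nat_lit 441) (nat_lit 415) (nat_lit 284)))))) (XT.nd (nat_lit 390) (nat_lit 2660) (nat_lit 0) (XT.nd (nat_lit 156) (nat_lit 912) (nat_lit 0) (XT.nd (nat_lit 78) (nat_lit 1748) (nat_lit 0) (XT.lf (nat_lit 0) (nat_lit 4077804152) (nat_lit 1748) (nat_lit 5141396255) (nat_lit 76) (nat_lit 2008541636) (nat_lit 378) (nat_lit 5) (nat_lit 401) (nat_lit 5) (nat_lit 379) (nat_lit 5) (nat_lit 442) (nat_lit 415) (nat_lit 283)) (XT.lf (nat_lit 0) (nat_lit 641944057) (nat_lit 1748) (nat_lit 4870497659) (nat_lit 1824) (nat_lit 5828872990) (nat_lit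 355) (nat_lit 5) (nat_lit 378) (nat_lit 5) (nat_lit 379) (nat_lit 5) (nat_lit 443) (nat_lit 415) (nat_lit 282))) (XT.nd (nat_lit 78) (nat_lit 912) (nat_lit 0) (XT.lf (nat_lit 0) (nat_lit 6597478852) (nat_lit 1748) (nat_lit 397764291) (nat_lit 1824) (nat_lit 4461534959) (nat_lit 355) (nat_lit 5) (nat_lit 378) (nat_lit 5) (nat_lit 379) (nat_lit 5) (nat_lit 444) (nat_lit 415) (nat_lit 281)) (XT.nd (nat_lit 78) (nat_lit 0) (nat_lit 0) (XT.lf (nat_lit 0) (nat_lit 1071364231) (nat_lit 912) (nat_lit 7455606800) (nat_lit 988) (nat_lit 3047202860) (nat_lit 343) (nat_lit 5) (nat_lit 355) (nat_lit 5) (nat_lit 356) (nat_lit 5) (nat_lit 445) (nat_lit 415) (nat_lit 280)) (XT.lf (nat_lit 0) (nat_lit 7170705568) (nat_lit 912) (nat_lit 2939332877) (nat_lit 988) (nat_lit 1583473419) (nat_lit 343) (nat_lit 5) (nat_lit 355) (nat_lit 5) (nat_lit 356) (nat_lit 5) (nat_lit 446) (nat_lit 415) (nat_lit 279))))) (XT.nd (nat_lit 234)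 (nat_lit 836) (nat_lit 0) (XT.nd (nat_lit 78) (nat_lit 912) (nat_lit 0) (XT.lf (nat_lit 0) (nat_lit 1573428467) (nat_lit 912) (nat_lit 10158152651) (nat_lit 988) (nat_lit 83527400) (nat_lit 331) (nat_lit 5) (nat_lit 343) (nat_lit 5) (nat_lit 344) (nat_lit 5) (nat_lit 447) (nat_lit 415) (nat_lit 278)) (XT.nd (nat_lit 78) (nat_lit 836) (nat_lit 0) (XT.lf (nat_lit 0) (nat_lit 1463330952) (nat_lit 988) (nat_lit 4127980693) (nat_lit 76) (nat_lit 6346927853) (nat_lit 330) (nat_lit 5) (nat_lit 343) (nat_lit 5) (nat_lit 331) (nat_lit 5) (nat_lit 448) (nat_lit 415) (nat_lit 277)) (XT.lf (nat_lit 0) (nat_lit 2122245204) (nat_lit 836) (nat_lit 917686289) (nat_lit 912) (nat_lit 9023899822) (nat_lit 319) (nat_lit 5) (nat_lit 330) (nat_lit 5) (nat_lit 331) (nat_lit 5) (nat_lit 449) (nat_lit 415) (nat_lit 276)))) (XT.nd (nat_lit 78) (nat_lit 836) (nat_lit 0) (XT.lf (nat_lit 0) (nat_lit 4687277125) (nat_lit 912) (nat_lit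 3676353728) (nat_lit 76) (nat_lit 3827527431) (nat_lit 319) (nat_lit 5) (nat_lit 331) (nat_lit 5) (nat_lit 320) (nat_lit 5) (nat_lit 450) (nat_lit 415) (nat_lit 275)) (XT.nd (nat_lit 78) (nat_lit 0) (nat_lit 0) (XT.lf (nat_lit 0) (nat_lit 2730954360) (nat_lit 836) (nat_lit 3647027568) (nat_lit 912) (nat_lit 5942849050) (nat_lit 308) (nat_lit 5) (nat_lit 319) (nat_lit 5) (nat_lit 320) (nat_lit 5) (nat_lit 451) (nat_lit 415) (nat_lit 274)) (XT.lf (nat_lit 0) (nat_lit 8121676229) (nat_lit 912) (nat_lit 3157238394) (nat_lit 76) (nat_lit 1173806275) (nat_lit 308) (nat_lit 5) (nat_lit 320) (nat_lit 5) (nat_lit 309) (nat_lit 5) (nat_lit 452) (nat_lit 415) (nat_lit 273))))))))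
noncomputable def xc188 : XT := (XT.nd (nat_lit 1560) (nat_lit 5700) (nat_lit 0) (XT.nd (nat_lit 780) (nat_lit 3116) (nat_lit 0) (XT.nd (nat_lit 390) (nat_lit 2204) (nat_lit 0) (XT.nd (nat_lit 156) (nat_lit 1596) (nat_lit 0) (XT.nd (nat_lit 78) (nat_lit 0) (nat_lit 0) (XT.lf (nat_lit 0) (nat_lit 3411746760) (nat_lit 760) (nat_lit 6521845494) (nat_lit 836) (nat_lit 2652996548) (nat_lit 298) (nat_lit 5) (nat_lit 308) (nat_lit 5) (nat_lit 309) (nat_lit 5) (nat_lit 453) (nat_lit 415) (nat_lit 272)) (XT.lf (nat_lit 0) (nat_lit 10142094670) (nat_lit 760) (nat_lit 1648053515) (nat_lit 836) (nat_lit 932824846) (nat_lit 298) (nat_lit 5) (nat_lit 308) (nat_lit 5) (nat_lit 309) (nat_lit 5) (nat_lit 454) (nat_lit 415) (nat_lit 271))) (XT.nd (nat_lit 78) (nat_lit 760) (nat_lit 0) (XT.lf (nat_lit 0) (nat_lit 847290167) (nat_lit 836) (nat_lit 8701749276) (nat_lit 76) (nat_lit 3312219178) (nat_lit 287) (nat_lit 5) (nat_lit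 298) (nat_lit 5) (nat_lit 288) (nat_lit 5) (nat_lit 455) (nat_lit 415) (nat_lit 270)) (XT.nd (nat_lit 78) (nat_lit 760) (nat_lit 0) (XT.lf (nat_lit 0) (nat_lit 2666416518) (nat_lit 836) (nat_lit 1962388950) (nat_lit 76) (nat_lit 8373069741) (nat_lit 287) (nat_lit 5) (nat_lit 298) (nat_lit 5) (nat_lit 288) (nat_lit 5) (nat_lit 456) (nat_lit 415) (nat_lit 269)) (XT.lf (nat_lit 0) (nat_lit 4544682186) (nat_lit 836) (nat_lit 8183441853) (nat_lit 76) (nat_lit 416731420) (nat_lit 277) (nat_lit 5) (nat_lit 288) (nat_lit 5) (nat_lit 278) (nat_lit 5) (nat_lit 457) (nat_lit 415) (nat_lit 268))))) (XT.nd (nat_lit 156) (nat_lit 1444) (nat_lit 0) (XT.nd (nat_lit 78) (nat_lit 760) (nat_lit 0) (XT.lf (nat_lit 0) (nat_lit 6492362138) (nat_lit 836) (nat_lit 1283696480) (nat_lit 76) (nat_lit 5514006058) (nat_lit 277) (nat_lit 5) (nat_lit 288) (nat_lit 5) (nat_lit 278) (nat_lit 5) (nat_lit 458) (nat_lit 415) (nat_lit 267))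 (XT.lf (nat_lit 0) (nat_lit 5817780427) (nat_lit 760) (nat_lit 2687163403) (nat_lit 836) (nat_lit 4932721500) (nat_lit 267) (nat_lit 5) (nat_lit 277) (nat_lit 5) (nat_lit 278) (nat_lit 5) (nat_lit 459) (nat_lit 415) (nat_lit 266))) (XT.nd (nat_lit 78) (nat_lit 1444) (nat_lit 0) (XT.lf (nat_lit 0) (nat_lit 10571023753) (nat_lit 836) (nat_lit 538385763) (nat_lit 76) (nat_lit 2478549644) (nat_lit 267) (nat_lit 5) (nat_lit 278) (nat_lit 5) (nat_lit 268) (nat_lit 5) (nat_lit 460) (nat_lit 415) (nat_lit 265)) (XT.nd (nat_lit 78) (nat_lit 760) (nat_lit 0) (XT.lf (nat_lit 0) (nat_lit 6742915185) (nat_lit 684) (nat_lit 5985635176) (nat_lit 760) (nat_lit 1011711978) (nat_lit 258) (nat_lit 5) (nat_lit 267) (nat_lit 5) (nat_lit 268) (nat_lit 5) (nat_lit 461) (nat_lit 415) (nat_lit 264)) (XT.lf (nat_lit 0) (nat_lit 265810107) (nat_lit 684) (nat_lit 748225619) (nat_lit 760) (nat_lit 12881567861) (nat_lit 248) (nat_lit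 5) (nat_lit 257) (nat_lit 5) (nat_lit 258) (nat_lit 5) (nat_lit 462) (nat_lit 415) (nat_lit 263)))))) (XT.nd (nat_lit 390) (nat_lit 1824) (nat_lit 0) (XT.nd (nat_lit 156) (nat_lit 684) (nat_lit 0) (XT.nd (nat_lit 78) (nat_lit 608) (nat_lit 0) (XT.lf (nat_lit 0) (nat_lit 3132605688) (nat_lit 760) (nat_lit 6333551145) (nat_lit 76) (nat_lit 4586449629) (nat_lit 248) (nat_lit 5) (nat_lit 258) (nat_lit 5) (nat_lit 249) (nat_lit 5) (nat_lit 463) (nat_lit 415) (nat_lit 262)) (XT.lf (nat_lit 0) (nat_lit 1105729311) (nat_lit 608) (nat_lit 4188920391) (nat_lit 684) (nat_lit 8918083158) (nat_lit 240) (nat_lit 5) (nat_lit 248) (nat_lit 5) (nat_lit 249) (nat_lit 5) (nat_lit 464) (nat_lit 415) (nat_lit 261))) (XT.nd (nat_lit 78) (nat_lit 684) (nat_lit 0) (XT.lf (nat_lit 0) (nat_lit 7539563907) (nat_lit 684) (nat_lit 5616161726) (nat_lit 76) (nat_lit 1219548976) (nat_lit 240) (nat_lit 5) (nat_lit 249) (nat_lit 5) (nat_lit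 241) (nat_lit 5) (nat_lit 465) (nat_lit 415) (nat_lit 260)) (XT.nd (nat_lit 78) (nat_lit 0) (nat_lit 0) (XT.lf (nat_lit 0) (nat_lit 2010808741) (nat_lit 684) (nat_lit 7848673224) (nat_lit 760) (nat_lit 4680988425) (nat_lit 231) (nat_lit 5) (nat_lit 240) (nat_lit 5) (nat_lit 241) (nat_lit 5) (nat_lit 466) (nat_lit 415) (nat_lit 259)) (XT.lf (nat_lit 0) (nat_lit 9854209101) (nat_lit 684) (nat_lit 2398715725) (nat_lit 760) (nat_lit 2455507931) (nat_lit 231) (nat_lit 5) (nat_lit 240) (nat_lit 5) (nat_lit 241) (nat_lit 5) (nat_lit 467) (nat_lit 415) (nat_lit 258))))) (XT.nd (nat_lit 156) (nat_lit 1140) (nat_lit 0) (XT.nd (nat_lit 78) (nat_lit 76) (nat_lit 0) (XT.lf (nat_lit 0) (nat_lit 2981102807) (nat_lit 608) (nat_lit 11742642860) (nat_lit 684) (nat_lit 155423622) (nat_lit 223) (nat_lit 5) (nat_lit 231) (nat_lit 5) (nat_lit 232) (nat_lit 5) (nat_lit 468) (nat_lit 415) (nat_lit 257)) (XT.lf (nat_lit 0) (nat_lit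 2200294330) (nat_lit 684) (nat_lit 4056318775) (nat_lit 76) (nat_lit 8795660626) (nat_lit 222) (nat_lit 5) (nat_lit 231) (nat_lit 5) (nat_lit 223) (nat_lit 5) (nat_lit 469) (nat_lit 415) (nat_lit 256))) (XT.nd (nat_lit 78) (nat_lit 532) (nat_lit 0) (XT.lf (nat_lit 0) (nat_lit 3981430891) (nat_lit 608) (nat_lit 635356111) (nat_lit 684) (nat_lit 10611722688) (nat_lit 214) (nat_lit 5) (nat_lit 222) (nat_lit 5) (nat_lit 223) (nat_lit 5) (nat_lit 470) (nat_lit 415) (nat_lit 255)) (XT.nd (nat_lit 78) (nat_lit 532) (nat_lit 0) (XT.lf (nat_lit 0) (nat_lit 7132109026) (nat_lit 684) (nat_lit 3218221558) (nat_lit 76) (nat_lit 5056934504) (nat_lit 214) (nat_lit 5) (nat_lit 223) (nat_lit 5) (nat_lit 215) (nat_lit 5) (nat_lit 471) (nat_lit 415) (nat_lit 254)) (XT.lf (nat_lit 0) (nat_lit 5020960251) (nat_lit 532) (nat_lit 4703777913) (nat_lit 608) (nat_lit 5864322037) (nat_lit 207) (nat_lit 5) (nat_lit 214) (nat_lit 5)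 (nat_lit 215) (nat_lit 5) (nat_lit 472) (nat_lit 415) (nat_lit 253))))))) (XT.nd (nat_lit 780) (nat_lit 2812) (nat_lit 0) (XT.nd (nat_lit 390) (nat_lit 1672) (nat_lit 0) (XT.nd (nat_lit 156) (nat_lit 608) (nat_lit 0) (XT.nd (nat_lit 78) (nat_lit 608) (nat_lit 0) (XT.lf (nat_lit 0) (nat_lit 12388108568) (nat_lit 608) (nat_lit 2324509114) (nat_lit 76) (nat_lit 1061500288) (nat_lit 207) (nat_lit 5) (nat_lit 215) (nat_lit 5) (nat_lit 208) (nat_lit 5) (nat_lit 473) (nat_lit 415) (nat_lit 252)) (XT.lf (nat_lit 0) (nat_lit 6121318222) (nat_lit 608) (nat_lit 9044808310) (nat_lit 684) (nat_lit 795527197) (nat_lit 199) (nat_lit 5) (nat_lit 207) (nat_lit 5) (nat_lit 208) (nat_lit 5) (nat_lit 474) (nat_lit 415) (nat_lit 251))) (XT.nd (nat_lit 78) (nat_lit 532) (nat_lit 0) (XT.lf (nat_lit 0) (nat_lit 1828775720) (nat_lit 684) (nat_lit 1408969887) (nat_lit 76) (nat_lit 12914834422) (nat_lit 198) (nat_lit 5) (nat_lit 207)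 (nat_lit 5) (nat_lit 199) (nat_lit 5) (nat_lit 475) (nat_lit 415) (nat_lit 250)) (XT.nd (nat_lit 78) (nat_lit 0) (nat_lit 0) (XT.lf (nat_lit 0) (nat_lit 4550604729) (nat_lit 608) (nat_lit 9094725736) (nat_lit 76) (nat_lit 2700779561) (nat_lit 191) (nat_lit 5) (nat_lit 199) (nat_lit 5) (nat_lit 192) (nat_lit 5) (nat_lit 476) (nat_lit 415) (nat_lit 249)) (XT.lf (nat_lit 0) (nat_lit 7348637472) (nat_lit 608) (nat_lit 472465529) (nat_lit 76) (nat_lit 8721976380) (nat_lit 191) (nat_lit 5) (nat_lit 199) (nat_lit 5) (nat_lit 192) (nat_lit 5) (nat_lit 477) (nat_lit 415) (nat_lit 248))))) (XT.nd (nat_lit 156) (nat_lit 608) (nat_lit 0) (XT.nd (nat_lit 78) (nat_lit 532) (nat_lit 0) (XT.lf (nat_lit 0) (nat_lit 8421231062) (nat_lit 532) (nat_lit 1827063854) (nat_lit 608) (nat_lit 6494783946) (nat_lit 184) (nat_lit 5) (nat_lit 191) (nat_lit 5) (nat_lit 192) (nat_lit 5) (nat_lit 478) (nat_lit 415) (nat_lit 247)) (XT.lf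 (nat_lit 0) (nat_lit 519606165) (nat_lit 532) (nat_lit 12711812194) (nat_lit 608) (nat_lit 3715154461) (nat_lit 177) (nat_lit 5) (nat_lit 184) (nat_lit 5) (nat_lit 185) (nat_lit 5) (nat_lit 479) (nat_lit 415) (nat_lit 246))) (XT.nd (nat_lit 78) (nat_lit 608) (nat_lit 0) (XT.lf (nat_lit 0) (nat_lit 9626963936) (nat_lit 532) (nat_lit 6706279627) (nat_lit 608) (nat_lit 819716171) (nat_lit 177) (nat_lit 5) (nat_lit 184) (nat_lit 5) (nat_lit 185) (nat_lit 5) (nat_lit 480) (nat_lit 415) (nat_lit 245)) (XT.nd (nat_lit 78) (nat_lit 0) (nat_lit 0) (XT.lf (nat_lit 0) (nat_lit 1548080722) (nat_lit 532) (nat_lit 558905534) (nat_lit 608) (nat_lit 15256188020) (nat_lit 169) (nat_lit 5) (nat_lit 176) (nat_lit 5) (nat_lit 177) (nat_lit 5) (nat_lit 481) (nat_lit 415) (nat_lit 244)) (XT.lf (nat_lit 0) (nat_lit 5160544485) (nat_lit 608) (nat_lit 6725220743) (nat_lit 76) (nat_lit 5690137201) (nat_lit 169) (nat_lit 5) (nat_lit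 177) (nat_lit 5) (nat_lit 170) (nat_lit 5) (nat_lit 482) (nat_lit 415) (nat_lit 243)))))) (XT.nd (nat_lit 390) (nat_lit 1368) (nat_lit 0) (XT.nd (nat_lit 156) (nat_lit 988) (nat_lit 0) (XT.nd (nat_lit 78) (nat_lit 0) (nat_lit 0) (XT.lf (nat_lit 0) (nat_lit 2565167280) (nat_lit 456) (nat_lit 5721899333) (nat_lit 532) (nat_lit 9505584248) (nat_lit 163) (nat_lit 5) (nat_lit 169) (nat_lit 5) (nat_lit 170) (nat_lit 5) (nat_lit 483) (nat_lit 415) (nat_lit 242)) (XT.lf (nat_lit 0) (nat_lit 11516829880) (nat_lit 532) (nat_lit 5895577799) (nat_lit 76) (nat_lit 600515868) (nat_lit 163) (nat_lit 5) (nat_lit 170) (nat_lit 5) (nat_lit 164) (nat_lit 5) (nat_lit 484) (nat_lit 415) (nat_lit 241))) (XT.nd (nat_lit 78) (nat_lit 532) (nat_lit 0) (XT.lf (nat_lit 0) (nat_lit 3621488289) (nat_lit 456) (nat_lit 11242883182) (nat_lit 532) (nat_lit 3372169986) (nat_lit 157) (nat_lit 5) (nat_lit 163) (nat_lit 5) (nat_lit 164) (nat_lit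 5) (nat_lit 485) (nat_lit 415) (nat_lit 240)) (XT.nd (nat_lit 78) (nat_lit 532) (nat_lit 0) (XT.lf (nat_lit 0) (nat_lit 13397803805) (nat_lit 456) (nat_lit 4912488877) (nat_lit 532) (nat_lit 153713834) (nat_lit 157) (nat_lit 5) (nat_lit 163) (nat_lit 5) (nat_lit 164) (nat_lit 5) (nat_lit 486) (nat_lit 415) (nat_lit 239)) (XT.lf (nat_lit 0) (nat_lit 3120930672) (nat_lit 532) (nat_lit 14001412202) (nat_lit 76) (nat_lit 1572617747) (nat_lit 150) (nat_lit 5) (nat_lit 157) (nat_lit 5) (nat_lit 151) (nat_lit 5) (nat_lit 487) (nat_lit 415) (nat_lit 238))))) (XT.nd (nat_lit 234) (nat_lit 912) (nat_lit 0) (XT.nd (nat_lit 78) (nat_lit 456) (nat_lit 0) (XT.lf (nat_lit 0) (nat_lit 6517805001) (nat_lit 532) (nat_lit 4257435416) (nat_lit 76) (nat_lit 8154100338) (nat_lit 150) (nat_lit 5) (nat_lit 157) (nat_lit 5) (nat_lit 151) (nat_lit 5) (nat_lit 488) (nat_lit 415) (nat_lit 237)) (XT.nd (nat_lit 78) (nat_lit 0) (nat_lit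 0) (XT.lf (nat_lit 0) (nat_lit 5746022519) (nat_lit 456) (nat_lit 4266095567) (nat_lit 532) (nat_lit 9155703488) (nat_lit 144) (nat_lit 5) (nat_lit 150) (nat_lit 5) (nat_lit 151) (nat_lit 5) (nat_lit 489) (nat_lit 415) (nat_lit 236)) (XT.lf (nat_lit 0) (nat_lit 13612743553) (nat_lit 532) (nat_lit 3429664103) (nat_lit 76) (nat_lit 2367938878) (nat_lit 144) (nat_lit 5) (nat_lit 151) (nat_lit 5) (nat_lit 145) (nat_lit 5) (nat_lit 490) (nat_lit 415) (nat_lit 235)))) (XT.nd (nat_lit 78) (nat_lit 532) (nat_lit 0) (XT.lf (nat_lit 0) (nat_lit 6812798654) (nat_lit 380) (nat_lit 10537478847) (nat_lit 456) (nat_lit 2306149561) (nat_lit 139) (nat_lit 5) (nat_lit 144) (nat_lit 5) (nat_lit 145) (nat_lit 5) (nat_lit 491) (nat_lit 415) (nat_lit 234)) (XT.nd (nat_lit 78) (nat_lit 456) (nat_lit 0) (XT.lf (nat_lit 0) (nat_lit 1254277114) (nat_lit 456) (nat_lit 2619317030) (nat_lit 76) (nat_lit 16033362836) (nat_lit 138) (nat_lit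 5) (nat_lit 144) (nat_lit 5) (nat_lit 139) (nat_lit 5) (nat_lit 492) (nat_lit 415) (nat_lit 233)) (XT.lf (nat_lit 0) (nat_lit 4918259720) (nat_lit 532) (nat_lit 12293509517) (nat_lit 76) (nat_lit 2949161665) (nat_lit 132) (nat_lit 5) (nat_lit 139) (nat_lit 5) (nat_lit 133) (nat_lit 5) (nat_lit 493) (nat_lit 415) (nat_lit 232))))))))
noncomputable def xc189 : XT := (XT.nd (nat_lit 54366) (nat_lit 0) (nat_lit 15428) (XT.nd (nat_lit 53586) (nat_lit 0) (nat_lit 24244) (XT.nd (nat_lit 390) (nat_lit 380) (nat_lit 0) (XT.nd (nat_lit 156) (nat_lit 456) (nat_lit 0) (XT.nd (nat_lit 78) (nat_lit 380) (nat_lit 0) (XT.lf (nat_lit 0) (nat_lit 8691513138) (nat_lit 532) (nat_lit 1856501554) (nat_lit 76) (nat_lit 9871252548) (nat_lit 132) (nat_lit 5) (nat_lit 139) (nat_lit 5) (nat_lit 133) (nat_lit 5) (nat_lit 494) (nat_lit 415) (nat_lit 231)) (XT.lf (nat_lit 0) (nat_lit 8895620559) (nat_lit 380) (nat_lit 3695156373) (nat_lit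 456) (nat_lit 8090985174) (nat_lit 127) (nat_lit 5) (nat_lit 132) (nat_lit 5) (nat_lit 133) (nat_lit 5) (nat_lit 495) (nat_lit 415) (nat_lit 230))) (XT.nd (nat_lit 78) (nat_lit 456) (nat_lit 0) (XT.lf (nat_lit 0) (nat_lit 16594802342) (nat_lit 456) (nat_lit 1093132751) (nat_lit 76) (nat_lit 3261038900) (nat_lit 127) (nat_lit 5) (nat_lit 133) (nat_lit 5) (nat_lit 128) (nat_lit 5) (nat_lit 496) (nat_lit 415) (nat_lit 229)) (XT.nd (nat_lit 78) (nat_lit 76) (nat_lit 0) (XT.lf (nat_lit 0) (nat_lit 9909076005) (nat_lit 380) (nat_lit 10851624072) (nat_lit 456) (nat_lit 459196806) (nat_lit 122) (nat_lit 5) (nat_lit 127) (nat_lit 5) (nat_lit 128) (nat_lit 5) (nat_lit 497) (nat_lit 415) (nat_lit 228)) (XT.lf (nat_lit 0) (nat_lit 3467986992) (nat_lit 456) (nat_lit 382983539) (nat_lit 76) (nat_lit 17644806098) (nat_lit 121) (nat_lit 5) (nat_lit 127) (nat_lit 5) (nat_lit 122) (nat_lit 5) (nat_lit 498) (nat_lit 415) (nat_lit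 227))))) (XT.nd (nat_lit 52962) (nat_lit 0) (nat_lit 25688) (XT.nd (nat_lit 52884) (nat_lit 0) (nat_lit 25688) (XT.lf (nat_lit 0) (nat_lit 7553269968) (nat_lit 456) (nat_lit 10904406157) (nat_lit 76) (nat_lit 3317725505) (nat_lit 116) (nat_lit 5) (nat_lit 122) (nat_lit 5) (nat_lit 117) (nat_lit 5) (nat_lit 499) (nat_lit 415) (nat_lit 226)) (XT.lf (nat_lit 0) (nat_lit 1279781739) (nat_lit 0) (nat_lit 1279781739) (nat_lit 1444) (nat_lit 1916891930) (nat_lit 454) (nat_lit 5) (nat_lit 454) (nat_lit 3) (nat_lit 473) (nat_lit 3) (nat_lit 416) (nat_lit 416) (nat_lit 308))) (XT.nd (nat_lit 78) (nat_lit 0) (nat_lit 0) (XT.lf (nat_lit 0) (nat_lit 6058398053) (nat_lit 1444) (nat_lit 2213721843) (nat_lit 1520) (nat_lit 751980716) (nat_lit 454) (nat_lit 5) (nat_lit 473) (nat_lit 3) (nat_lit 474) (nat_lit 5) (nat_lit 417) (nat_lit 416) (nat_lit 307)) (XT.nd (nat_lit 78) (nat_lit 0) (nat_lit 0) (XT.lf (nat_lit 76) (nat_lit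 2047259492) (nat_lit 0) (nat_lit 4976348312) (nat_lit 1520) (nat_lit 2072978489) (nat_lit 455) (nat_lit 5) (nat_lit 454) (nat_lit 5) (nat_lit 474) (nat_lit 5) (nat_lit 418) (nat_lit 416) (nat_lit 306)) (XT.lf (nat_lit 76) (nat_lit 6411411784) (nat_lit 0) (nat_lit 1588849981) (nat_lit 1520) (nat_lit 1170431976) (nat_lit 455) (nat_lit 5) (nat_lit 454) (nat_lit 5) (nat_lit 474) (nat_lit 5) (nat_lit 419) (nat_lit 416) (nat_lit 305)))))) (XT.nd (nat_lit 390) (nat_lit 0) (nat_lit 152) (XT.nd (nat_lit 156) (nat_lit 0) (nat_lit 0) (XT.nd (nat_lit 78) (nat_lit 1520) (nat_lit 0) (XT.lf (nat_lit 76) (nat_lit 1613256367) (nat_lit 0) (nat_lit 7383582688) (nat_lit 1520) (nat_lit 249451046) (nat_lit 456) (nat_lit 5) (nat_lit 455) (nat_lit 5) (nat_lit 475) (nat_lit 5) (nat_lit 420) (nat_lit 416) (nat_lit 304)) (XT.lf (nat_lit 0) (nat_lit 688056677) (nat_lit 1520) (nat_lit 3240077095) (nat_lit 1596) (nat_lit 5395045903)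 (nat_lit 435) (nat_lit 5) (nat_lit 455) (nat_lit 5) (nat_lit 456) (nat_lit 5) (nat_lit 421) (nat_lit 416) (nat_lit 303))) (XT.nd (nat_lit 78) (nat_lit 0) (nat_lit 76) (XT.lf (nat_lit 76) (nat_lit 1243063342) (nat_lit 0) (nat_lit 384411392) (nat_lit 1596) (nat_lit 7774383047) (nat_lit 436) (nat_lit 5) (nat_lit 435) (nat_lit 5) (nat_lit 456) (nat_lit 5) (nat_lit 422) (nat_lit 416) (nat_lit 302)) (XT.nd (nat_lit 78) (nat_lit 0) (nat_lit 0) (XT.lf (nat_lit 0) (nat_lit 2607368531) (nat_lit 1520) (nat_lit 3655746046) (nat_lit 1596) (nat_lit 3218574581) (nat_lit 436) (nat_lit 5) (nat_lit 456) (nat_lit 5) (nat_lit 457) (nat_lit 5) (nat_lit 423) (nat_lit 416) (nat_lit 301)) (XT.lf (nat_lit 76) (nat_lit 934582965) (nat_lit 0) (nat_lit 2660134331) (nat_lit 1596) (nat_lit 5968655918) (nat_lit 437) (nat_lit 5) (nat_lit 436) (nat_lit 5) (nat_lit 457) (nat_lit 5) (nat_lit 424) (nat_lit 416) (nat_lit 300))))) (XT.nd (nat_lit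 156) (nat_lit 0) (nat_lit 0) (XT.nd (nat_lit 78) (nat_lit 0) (nat_lit 0) (XT.lf (nat_lit 0) (nat_lit 4612718806) (nat_lit 1520) (nat_lit 3999562288) (nat_lit 1596) (nat_lit 1034204674) (nat_lit 437) (nat_lit 5) (nat_lit 457) (nat_lit 5) (nat_lit 458) (nat_lit 5) (nat_lit 425) (nat_lit 416) (nat_lit 299)) (XT.lf (nat_lit 76) (nat_lit 701199182) (nat_lit 0) (nat_lit 4952072054) (nat_lit 1596) (nat_lit 4077958200) (nat_lit 438) (nat_lit 5) (nat_lit 437) (nat_lit 5) (nat_lit 458) (nat_lit 5) (nat_lit 426) (nat_lit 416) (nat_lit 298))) (XT.nd (nat_lit 78) (nat_lit 0) (nat_lit 76) (XT.lf (nat_lit 76) (nat_lit 5537643480) (nat_lit 0) (nat_lit 1184162129) (nat_lit 1596) (nat_lit 3095731382) (nat_lit 438) (nat_lit 5) (nat_lit 437) (nat_lit 5) (nat_lit 458) (nat_lit 5) (nat_lit 427) (nat_lit 416) (nat_lit 297)) (XT.nd (nat_lit 78) (nat_lit 0) (nat_lit 0) (XT.lf (nat_lit 76) (nat_lit 542349641) (nat_lit 0) (nat_lit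 7270909706) (nat_lit 1596) (nat_lit 2092292563) (nat_lit 439) (nat_lit 5) (nat_lit 438) (nat_lit 5) (nat_lit 459) (nat_lit 5) (nat_lit 428) (nat_lit 416) (nat_lit 296)) (XT.lf (nat_lit 76) (nat_lit 5498445576) (nat_lit 0) (nat_lit 3445665166) (nat_lit 1596) (nat_lit 1050876963) (nat_lit 439) (nat_lit 5) (nat_lit 438) (nat_lit 5) (nat_lit 459) (nat_lit 5) (nat_lit 429) (nat_lit 416) (nat_lit 295))))))) (XT.nd (nat_lit 780) (nat_lit 7524) (nat_lit 0) (XT.nd (nat_lit 390) (nat_lit 0) (nat_lit 152) (XT.nd (nat_lit 156) (nat_lit 0) (nat_lit 0) (XT.nd (nat_lit 78) (nat_lit 1596) (nat_lit 0) (XT.lf (nat_lit 76) (nat_lit 457656582) (nat_lit 0) (nat_lit 9627324300) (nat_lit 1596) (nat_lit 1495015) (nat_lit 440) (nat_lit 5) (nat_lit 439) (nat_lit 5) (nat_lit 460) (nat_lit 5) (nat_lit 430) (nat_lit 416) (nat_lit 294)) (XT.lf (nat_lit 0) (nat_lit 1089666527) (nat_lit 1596) (nat_lit 4650264719) (nat_lit 1672) (nat_lit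 4439038858) (nat_lit 418) (nat_lit 5) (nat_lit 439) (nat_lit 5) (nat_lit 440) (nat_lit 5) (nat_lit 431) (nat_lit 416) (nat_lit 293))) (XT.nd (nat_lit 78) (nat_lit 0) (nat_lit 76) (XT.lf (nat_lit 76) (nat_lit 420615768) (nat_lit 0) (nat_lit 1766724361) (nat_lit 1672) (nat_lit 8086290732) (nat_lit 419) (nat_lit 5) (nat_lit 418) (nat_lit 5) (nat_lit 440) (nat_lit 5) (nat_lit 432) (nat_lit 416) (nat_lit 292)) (XT.nd (nat_lit 78) (nat_lit 0) (nat_lit 0) (XT.lf (nat_lit 0) (nat_lit 3335503511) (nat_lit 1596) (nat_lit 4741726535) (nat_lit 1672) (nat_lit 2292394884) (nat_lit 419) (nat_lit 5) (nat_lit 440) (nat_lit 5) (nat_lit 441) (nat_lit 5) (nat_lit 433) (nat_lit 416) (nat_lit 291)) (XT.lf (nat_lit 76) (nat_lit 453221219) (nat_lit 0) (nat_lit 4050681165) (nat_lit 1672) (nat_lit 5963701660) (nat_lit 420) (nat_lit 5) (nat_lit 419) (nat_lit 5) (nat_lit 441) (nat_lit 5) (nat_lit 434) (nat_lit 416) (nat_lit 290)))))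 (XT.nd (nat_lit 156) (nat_lit 0) (nat_lit 0) (XT.nd (nat_lit 78) (nat_lit 0) (nat_lit 0) (XT.lf (nat_lit 0) (nat_lit 5710981522) (nat_lit 1596) (nat_lit 4764247320) (nat_lit 1672) (nat_lit 92018056) (nat_lit 420) (nat_lit 5) (nat_lit 441) (nat_lit 5) (nat_lit 442) (nat_lit 5) (nat_lit 435) (nat_lit 416) (nat_lit 289)) (XT.lf (nat_lit 76) (nat_lit 558540209) (nat_lit 0) (nat_lit 6397365034) (nat_lit 1672) (nat_lit 3712713503) (nat_lit 421) (nat_lit 5) (nat_lit 420) (nat_lit 5) (nat_lit 442) (nat_lit 5) (nat_lit 436) (nat_lit 416) (nat_lit 288))) (XT.nd (nat_lit 78) (nat_lit 0) (nat_lit 76) (XT.lf (nat_lit 76) (nat_lit 6039598319) (nat_lit 0) (nat_lit 2201596142) (nat_lit 1672) (nat_lit 2530524228) (nat_lit 421) (nat_lit 5) (nat_lit 420) (nat_lit 5) (nat_lit 442) (nat_lit 5) (nat_lit 437) (nat_lit 416) (nat_lit 287)) (XT.nd (nat_lit 78) (nat_lit 0) (nat_lit 0) (XT.lf (nat_lit 76) (nat_lit 736693824) (nat_lit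 0) (nat_lit 8817614878) (nat_lit 1672) (nat_lit 1322539347) (nat_lit 422) (nat_lit 5) (nat_lit 421) (nat_lit 5) (nat_lit 443) (nat_lit 5) (nat_lit 438) (nat_lit 416) (nat_lit 286)) (XT.lf (nat_lit 76) (nat_lit 6351467579) (nat_lit 0) (nat_lit 4572534418) (nat_lit 1672) (nat_lit 59481272) (nat_lit 422) (nat_lit 5) (nat_lit 421) (nat_lit 5) (nat_lit 443) (nat_lit 5) (nat_lit 439) (nat_lit 416) (nat_lit 285)))))) (XT.nd (nat_lit 390) (nat_lit 2736) (nat_lit 0) (XT.nd (nat_lit 156) (nat_lit 3344) (nat_lit 0) (XT.nd (nat_lit 78) (nat_lit 0) (nat_lit 76) (XT.lf (nat_lit 76) (nat_lit 978383425) (nat_lit 0) (nat_lit 224967516) (nat_lit 1748) (nat_lit 9888937334) (nat_lit 400) (nat_lit 5) (nat_lit 399) (nat_lit 5) (nat_lit 422) (nat_lit 5) (nat_lit 440) (nat_lit 416) (nat_lit 284)) (XT.lf (nat_lit 0) (nat_lit 2533785857) (nat_lit 1672) (nat_lit 4479808814) (nat_lit 76) (nat_lit 4188813050) (nat_lit 400) (nat_lit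 5) (nat_lit 422) (nat_lit 5) (nat_lit 401) (nat_lit 5) (nat_lit 441) (nat_lit 416) (nat_lit 283))) (XT.nd (nat_lit 78) (nat_lit 1748) (nat_lit 0) (XT.lf (nat_lit 0) (nat_lit 1269373576) (nat_lit 1672) (nat_lit 2616012321) (nat_lit 1748) (nat_lit 7429461409) (nat_lit 378) (nat_lit 5) (nat_lit 400) (nat_lit 5) (nat_lit 401) (nat_lit 5) (nat_lit 442) (nat_lit 416) (nat_lit 282)) (XT.nd (nat_lit 78) (nat_lit 1748) (nat_lit 0) (XT.lf (nat_lit 0) (nat_lit 5291472191) (nat_lit 1748) (nat_lit 4259999741) (nat_lit 76) (nat_lit 1877523371) (nat_lit 378) (nat_lit 5) (nat_lit 401) (nat_lit 5) (nat_lit 379) (nat_lit 5) (nat_lit 443) (nat_lit 416) (nat_lit 281)) (XT.lf (nat_lit 0) (nat_lit 1632532216) (nat_lit 1748) (nat_lit 5106420212) (nat_lit 1824) (nat_lit 4806216919) (nat_lit 355) (nat_lit 5) (nat_lit 378) (nat_lit 5) (nat_lit 379) (nat_lit 5) (nat_lit 444) (nat_lit 416) (nat_lit 280))))) (XT.nd (nat_lit 234) (nat_lit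 1824) (nat_lit 0) (XT.nd (nat_lit 78) (nat_lit 912) (nat_lit 0) (XT.lf (nat_lit 0) (nat_lit 7688006153) (nat_lit 1748) (nat_lit 541516244) (nat_lit 1824) (nat_lit 3433870040) (nat_lit 355) (nat_lit 5) (nat_lit 378) (nat_lit 5) (nat_lit 379) (nat_lit 5) (nat_lit 445) (nat_lit 416) (nat_lit 279)) (XT.nd (nat_lit 78) (nat_lit 0) (nat_lit 0) (XT.lf (nat_lit 0) (nat_lit 2068311750) (nat_lit 912) (nat_lit 7707584101) (nat_lit 988) (nat_lit 2007572496) (nat_lit 343) (nat_lit 5) (nat_lit 355) (nat_lit 5) (nat_lit 356) (nat_lit 5) (nat_lit 446) (nat_lit 416) (nat_lit 278)) (XT.lf (nat_lit 0) (nat_lit 8270512066) (nat_lit 912) (nat_lit 3098967735) (nat_lit 988) (nat_lit 536148357) (nat_lit 343) (nat_lit 5) (nat_lit 355) (nat_lit 5) (nat_lit 356) (nat_lit 5) (nat_lit 447) (nat_lit 416) (nat_lit 277)))) (XT.nd (nat_lit 78) (nat_lit 836) (nat_lit 0) (XT.lf (nat_lit 0) (nat_lit 965592319) (nat_lit 988) (nat_lit 9459063792)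 (nat_lit 76) (nat_lit 1605186705) (nat_lit 330) (nat_lit 5) (nat_lit 343) (nat_lit 5) (nat_lit 331) (nat_lit 5) (nat_lit 448) (nat_lit 416) (nat_lit 276)) (XT.nd (nat_lit 78) (nat_lit 836) (nat_lit 0) (XT.lf (nat_lit 0) (nat_lit 2521688632) (nat_lit 988) (nat_lit 3242994523) (nat_lit 76) (nat_lit 6391165314) (nat_lit 330) (nat_lit 5) (nat_lit 343) (nat_lit 5) (nat_lit 331) (nat_lit 5) (nat_lit 449) (nat_lit 416) (nat_lit 275)) (XT.lf (nat_lit 0) (nat_lit 3125870459) (nat_lit 836) (nat_lit 990013090) (nat_lit 912) (nat_lit 8168358582) (nat_lit 319) (nat_lit 5) (nat_lit 330) (nat_lit 5) (nat_lit 331) (nat_lit 5) (nat_lit 450) (nat_lit 416) (nat_lit 274))))))))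
noncomputable def xc190 : XT := (XT.nd (nat_lit 1560) (nat_lit 5928) (nat_lit 0) (XT.nd (nat_lit 780) (nat_lit 3420) (nat_lit 0) (XT.nd (nat_lit 390) (nat_lit 2356) (nat_lit 0) (XT.nd (nat_lit 156) (nat_lit 760) (nat_lit 0) (XT.nd (nat_lit 78) (nat_lit 836) (nat_lit 0) (XT.lf (nat_lit 0) (nat_lit 5775927566) (nat_lit 912) (nat_lit 2786746890) (nat_lit 76) (nat_lit 3851857188) (nat_lit 319) (nat_lit 5) (nat_lit 331) (nat_lit 5) (nat_lit 320) (nat_lit 5) (nat_lit 451) (nat_lit 416) (nat_lit 273)) (XT.lf (nat_lit 0) (nat_lit 3742370952) (nat_lit 836) (nat_lit 3744779737) (nat_lit 912) (nat_lit 5059923835) (nat_lit 308) (nat_lit 5) (nat_lit 319) (nat_lit 5) (nat_lit 320) (nat_lit 5) (nat_lit 452) (nat_lit 416) (nat_lit 272))) (XT.nd (nat_lit 78) (nat_lit 760) (nat_lit 0) (XT.lf (nat_lit 0) (nat_lit 9246313705) (nat_lit 912) (nat_lit 2262410934) (nat_lit 76) (nat_lit 1173276313) (nat_lit 308) (nat_lit 5) (nat_lit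 320) (nat_lit 5) (nat_lit 309) (nat_lit 5) (nat_lit 453) (nat_lit 416) (nat_lit 271)) (XT.nd (nat_lit 78) (nat_lit 0) (nat_lit 0) (XT.lf (nat_lit 0) (nat_lit 4431651473) (nat_lit 760) (nat_lit 6650128703) (nat_lit 836) (nat_lit 1737030192) (nat_lit 298) (nat_lit 5) (nat_lit 308) (nat_lit 5) (nat_lit 309) (nat_lit 5) (nat_lit 454) (nat_lit 416) (nat_lit 270)) (XT.lf (nat_lit 0) (nat_lit 11277946150) (nat_lit 760) (nat_lit 1678903114) (nat_lit 836) (nat_lit 1455572) (nat_lit 298) (nat_lit 5) (nat_lit 308) (nat_lit 5) (nat_lit 309) (nat_lit 5) (nat_lit 455) (nat_lit 416) (nat_lit 269))))) (XT.nd (nat_lit 156) (nat_lit 1520) (nat_lit 0) (XT.nd (nat_lit 78) (nat_lit 0) (nat_lit 0) (XT.lf (nat_lit 0) (nat_lit 1789613683) (nat_lit 836) (nat_lit 7917137014) (nat_lit 76) (nat_lit 3392735641) (nat_lit 287) (nat_lit 5) (nat_lit 298) (nat_lit 5) (nat_lit 288) (nat_lit 5) (nat_lit 456) (nat_lit 416) (nat_lit 268)) (XT.lf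 (nat_lit 0) (nat_lit 3626977899) (nat_lit 836) (nat_lit 1061786487) (nat_lit 76) (nat_lit 8554523370) (nat_lit 287) (nat_lit 5) (nat_lit 298) (nat_lit 5) (nat_lit 288) (nat_lit 5) (nat_lit 457) (nat_lit 416) (nat_lit 267))) (XT.nd (nat_lit 78) (nat_lit 760) (nat_lit 0) (XT.lf (nat_lit 0) (nat_lit 5531329749) (nat_lit 836) (nat_lit 7395310438) (nat_lit 76) (nat_lit 462726426) (nat_lit 277) (nat_lit 5) (nat_lit 288) (nat_lit 5) (nat_lit 278) (nat_lit 5) (nat_lit 458) (nat_lit 416) (nat_lit 266)) (XT.nd (nat_lit 78) (nat_lit 760) (nat_lit 0) (XT.lf (nat_lit 0) (nat_lit 7500399497) (nat_lit 836) (nat_lit 376232907) (nat_lit 76) (nat_lit 5661208118) (nat_lit 277) (nat_lit 5) (nat_lit 288) (nat_lit 5) (nat_lit 278) (nat_lit 5) (nat_lit 459) (nat_lit 416) (nat_lit 265)) (XT.lf (nat_lit 0) (nat_lit 6861134475) (nat_lit 760) (nat_lit 2680897623) (nat_lit 836) (nat_lit 4146594158) (nat_lit 267) (nat_lit 5) (nat_lit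 277) (nat_lit 5) (nat_lit 278) (nat_lit 5) (nat_lit 460) (nat_lit 416) (nat_lit 264)))))) (XT.nd (nat_lit 390) (nat_lit 1368) (nat_lit 0) (XT.nd (nat_lit 156) (nat_lit 1368) (nat_lit 0) (XT.nd (nat_lit 78) (nat_lit 0) (nat_lit 0) (XT.lf (nat_lit 0) (nat_lit 381736596) (nat_lit 684) (nat_lit 11253557696) (nat_lit 760) (nat_lit 2206923330) (nat_lit 258) (nat_lit 5) (nat_lit 267) (nat_lit 5) (nat_lit 268) (nat_lit 5) (nat_lit 461) (nat_lit 416) (nat_lit 263)) (XT.lf (nat_lit 0) (nat_lit 7797565681) (nat_lit 684) (nat_lit 6025225213) (nat_lit 760) (nat_lit 175048282) (nat_lit 258) (nat_lit 5) (nat_lit 267) (nat_lit 5) (nat_lit 268) (nat_lit 5) (nat_lit 462) (nat_lit 416) (nat_lit 262))) (XT.nd (nat_lit 78) (nat_lit 608) (nat_lit 0) (XT.lf (nat_lit 0) (nat_lit 1196455354) (nat_lit 684) (nat_lit 672946942) (nat_lit 760) (nat_lit 12286993520) (nat_lit 248) (nat_lit 5) (nat_lit 257) (nat_lit 5) (nat_lit 258) (nat_lit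 5) (nat_lit 463) (nat_lit 416) (nat_lit 261)) (XT.nd (nat_lit 78) (nat_lit 608) (nat_lit 0) (XT.lf (nat_lit 0) (nat_lit 4014543854) (nat_lit 760) (nat_lit 5536827100) (nat_lit 76) (nat_lit 4765491988) (nat_lit 248) (nat_lit 5) (nat_lit 258) (nat_lit 5) (nat_lit 249) (nat_lit 5) (nat_lit 464) (nat_lit 416) (nat_lit 260)) (XT.lf (nat_lit 0) (nat_lit 2045163997) (nat_lit 608) (nat_lit 4164556169) (nat_lit 684) (nat_lit 8270681911) (nat_lit 240) (nat_lit 5) (nat_lit 248) (nat_lit 5) (nat_lit 249) (nat_lit 5) (nat_lit 465) (nat_lit 416) (nat_lit 259))))) (XT.nd (nat_lit 156) (nat_lit 684) (nat_lit 0) (XT.nd (nat_lit 78) (nat_lit 684) (nat_lit 0) (XT.lf (nat_lit 0) (nat_lit 8484354798) (nat_lit 684) (nat_lit 4813579661) (nat_lit 76) (nat_lit 1348571641) (nat_lit 240) (nat_lit 5) (nat_lit 249) (nat_lit 5) (nat_lit 241) (nat_lit 5) (nat_lit 466) (nat_lit 416) (nat_lit 258)) (XT.lf (nat_lit 0) (nat_lit 2959911101)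 (nat_lit 684) (nat_lit 7881092587) (nat_lit 760) (nat_lit 3974203184) (nat_lit 231) (nat_lit 5) (nat_lit 240) (nat_lit 5) (nat_lit 241) (nat_lit 5) (nat_lit 467) (nat_lit 416) (nat_lit 257))) (XT.nd (nat_lit 78) (nat_lit 684) (nat_lit 0) (XT.lf (nat_lit 0) (nat_lit 10942358171) (nat_lit 684) (nat_lit 2324578176) (nat_lit 760) (nat_lit 1719907295) (nat_lit 231) (nat_lit 5) (nat_lit 240) (nat_lit 5) (nat_lit 241) (nat_lit 5) (nat_lit 468) (nat_lit 416) (nat_lit 256)) (XT.nd (nat_lit 78) (nat_lit 0) (nat_lit 0) (XT.lf (nat_lit 0) (nat_lit 609446542) (nat_lit 684) (nat_lit 11224387008) (nat_lit 76) (nat_lit 3327257718) (nat_lit 222) (nat_lit 5) (nat_lit 231) (nat_lit 5) (nat_lit 223) (nat_lit 5) (nat_lit 469) (nat_lit 416) (nat_lit 255)) (XT.lf (nat_lit 0) (nat_lit 2995182041) (nat_lit 684) (nat_lit 3244688769) (nat_lit 76) (nat_lit 9098073892) (nat_lit 222) (nat_lit 5) (nat_lit 231) (nat_lit 5) (nat_lit 223)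 (nat_lit 5) (nat_lit 470) (nat_lit 416) (nat_lit 254))))))) (XT.nd (nat_lit 780) (nat_lit 2508) (nat_lit 0) (XT.nd (nat_lit 390) (nat_lit 1672) (nat_lit 0) (XT.nd (nat_lit 156) (nat_lit 1140) (nat_lit 0) (XT.nd (nat_lit 78) (nat_lit 0) (nat_lit 0) (XT.lf (nat_lit 0) (nat_lit 4947942493) (nat_lit 608) (nat_lit 503097133) (nat_lit 684) (nat_lit 10066852051) (nat_lit 214) (nat_lit 5) (nat_lit 222) (nat_lit 5) (nat_lit 223) (nat_lit 5) (nat_lit 471) (nat_lit 416) (nat_lit 253)) (XT.lf (nat_lit 0) (nat_lit 8003043461) (nat_lit 684) (nat_lit 2399125230) (nat_lit 76) (nat_lit 5298332845) (nat_lit 214) (nat_lit 5) (nat_lit 223) (nat_lit 5) (nat_lit 215) (nat_lit 5) (nat_lit 472) (nat_lit 416) (nat_lit 252))) (XT.nd (nat_lit 78) (nat_lit 608) (nat_lit 0) (XT.lf (nat_lit 0) (nat_lit 5999027973) (nat_lit 532) (nat_lit 4639915244) (nat_lit 608) (nat_lit 5247167698) (nat_lit 207) (nat_lit 5) (nat_lit 214) (nat_lit 5)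 (nat_lit 215) (nat_lit 5) (nat_lit 473) (nat_lit 416) (nat_lit 251)) (XT.nd (nat_lit 78) (nat_lit 608) (nat_lit 0) (XT.lf (nat_lit 0) (nat_lit 13342474396) (nat_lit 608) (nat_lit 1497123250) (nat_lit 76) (nat_lit 1235540920) (nat_lit 207) (nat_lit 5) (nat_lit 215) (nat_lit 5) (nat_lit 208) (nat_lit 5) (nat_lit 474) (nat_lit 416) (nat_lit 250)) (XT.lf (nat_lit 0) (nat_lit 7111871448) (nat_lit 608) (nat_lit 9055962754) (nat_lit 684) (nat_lit 98761674) (nat_lit 199) (nat_lit 5) (nat_lit 207) (nat_lit 5) (nat_lit 208) (nat_lit 5) (nat_lit 475) (nat_lit 416) (nat_lit 249))))) (XT.nd (nat_lit 156) (nat_lit 1064) (nat_lit 0) (XT.nd (nat_lit 78) (nat_lit 532) (nat_lit 0) (XT.lf (nat_lit 0) (nat_lit 2554889658) (nat_lit 684) (nat_lit 576570241) (nat_lit 76) (nat_lit 13330070287) (nat_lit 198) (nat_lit 5) (nat_lit 207) (nat_lit 5) (nat_lit 199) (nat_lit 5) (nat_lit 476) (nat_lit 416) (nat_lit 248)) (XT.lf (nat_lit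 0) (nat_lit 5324311070) (nat_lit 608) (nat_lit 8408892449) (nat_lit 76) (nat_lit 2925870240) (nat_lit 191) (nat_lit 5) (nat_lit 199) (nat_lit 5) (nat_lit 192) (nat_lit 5) (nat_lit 477) (nat_lit 416) (nat_lit 247))) (XT.nd (nat_lit 78) (nat_lit 532) (nat_lit 0) (XT.lf (nat_lit 0) (nat_lit 373699831) (nat_lit 532) (nat_lit 7793644782) (nat_lit 608) (nat_lit 8692863058) (nat_lit 184) (nat_lit 5) (nat_lit 191) (nat_lit 5) (nat_lit 192) (nat_lit 5) (nat_lit 478) (nat_lit 416) (nat_lit 246)) (XT.nd (nat_lit 78) (nat_lit 532) (nat_lit 0) (XT.lf (nat_lit 0) (nat_lit 9434772416) (nat_lit 532) (nat_lit 1680159855) (nat_lit 608) (nat_lit 5949481986) (nat_lit 184) (nat_lit 5) (nat_lit 191) (nat_lit 5) (nat_lit 192) (nat_lit 5) (nat_lit 479) (nat_lit 416) (nat_lit 245)) (XT.lf (nat_lit 0) (nat_lit 1381809025) (nat_lit 532) (nat_lit 12769633421) (nat_lit 608) (nat_lit 3120666901) (nat_lit 177) (nat_lit 5) (nat_lit 184)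 (nat_lit 5) (nat_lit 185) (nat_lit 5) (nat_lit 480) (nat_lit 416) (nat_lit 244)))))) (XT.nd (nat_lit 390) (nat_lit 1444) (nat_lit 0) (XT.nd (nat_lit 156) (nat_lit 456) (nat_lit 0) (XT.nd (nat_lit 78) (nat_lit 608) (nat_lit 0) (XT.lf (nat_lit 0) (nat_lit 10654611780) (nat_lit 532) (nat_lit 6647841478) (nat_lit 608) (nat_lit 180433387) (nat_lit 177) (nat_lit 5) (nat_lit 184) (nat_lit 5) (nat_lit 185) (nat_lit 5) (nat_lit 481) (nat_lit 416) (nat_lit 243)) (XT.lf (nat_lit 0) (nat_lit 2417473570) (nat_lit 532) (nat_lit 371486047) (nat_lit 608) (nat_lit 14908411012) (nat_lit 169) (nat_lit 5) (nat_lit 176) (nat_lit 5) (nat_lit 177) (nat_lit 5) (nat_lit 482) (nat_lit 416) (nat_lit 242))) (XT.nd (nat_lit 78) (nat_lit 456) (nat_lit 0) (XT.lf (nat_lit 0) (nat_lit 5892307398) (nat_lit 608) (nat_lit 6026186982) (nat_lit 76) (nat_lit 5996089900) (nat_lit 169) (nat_lit 5) (nat_lit 177) (nat_lit 5) (nat_lit 170) (nat_lit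 5) (nat_lit 483) (nat_lit 416) (nat_lit 241)) (XT.nd (nat_lit 78) (nat_lit 0) (nat_lit 0) (XT.lf (nat_lit 0) (nat_lit 3444524997) (nat_lit 456) (nat_lit 5629886699) (nat_lit 532) (nat_lit 9061400149) (nat_lit 163) (nat_lit 5) (nat_lit 169) (nat_lit 5) (nat_lit 170) (nat_lit 5) (nat_lit 484) (nat_lit 416) (nat_lit 240)) (XT.lf (nat_lit 0) (nat_lit 12357896052) (nat_lit 532) (nat_lit 5190542306) (nat_lit 76) (nat_lit 812274208) (nat_lit 163) (nat_lit 5) (nat_lit 170) (nat_lit 5) (nat_lit 164) (nat_lit 5) (nat_lit 485) (nat_lit 416) (nat_lit 239))))) (XT.nd (nat_lit 234) (nat_lit 456) (nat_lit 0) (XT.nd (nat_lit 78) (nat_lit 532) (nat_lit 0) (XT.lf (nat_lit 0) (nat_lit 4511450979) (nat_lit 456) (nat_lit 11254270373) (nat_lit 532) (nat_lit 2823219823) (nat_lit 157) (nat_lit 5) (nat_lit 163) (nat_lit 5) (nat_lit 164) (nat_lit 5) (nat_lit 486) (nat_lit 416) (nat_lit 238)) (XT.nd (nat_lit 78) (nat_lit 456) (nat_lit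 0) (XT.lf (nat_lit 0) (nat_lit 441650007) (nat_lit 532) (nat_lit 4356840165) (nat_lit 76) (nat_lit 14022649036) (nat_lit 156) (nat_lit 5) (nat_lit 163) (nat_lit 5) (nat_lit 157) (nat_lit 5) (nat_lit 487) (nat_lit 416) (nat_lit 237)) (XT.lf (nat_lit 0) (nat_lit 3774651891) (nat_lit 532) (nat_lit 13466457157) (nat_lit 76) (nat_lit 1815689281) (nat_lit 150) (nat_lit 5) (nat_lit 157) (nat_lit 5) (nat_lit 151) (nat_lit 5) (nat_lit 488) (nat_lit 416) (nat_lit 236)))) (XT.nd (nat_lit 78) (nat_lit 456) (nat_lit 0) (XT.lf (nat_lit 0) (nat_lit 7227869538) (nat_lit 532) (nat_lit 3543580900) (nat_lit 76) (nat_lit 8524652128) (nat_lit 150) (nat_lit 5) (nat_lit 157) (nat_lit 5) (nat_lit 151) (nat_lit 5) (nat_lit 489) (nat_lit 416) (nat_lit 235)) (XT.nd (nat_lit 78) (nat_lit 0) (nat_lit 0) (XT.lf (nat_lit 0) (nat_lit 6654689594) (nat_lit 456) (nat_lit 4131165988) (nat_lit 532) (nat_lit 8753626212) (nat_lit 144) (nat_lit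 5) (nat_lit 150) (nat_lit 5) (nat_lit 151) (nat_lit 5) (nat_lit 490) (nat_lit 416) (nat_lit 234)) (XT.lf (nat_lit 0) (nat_lit 14448650535) (nat_lit 532) (nat_lit 2710009526) (nat_lit 76) (nat_lit 2628398491) (nat_lit 144) (nat_lit 5) (nat_lit 151) (nat_lit 5) (nat_lit 145) (nat_lit 5) (nat_lit 491) (nat_lit 416) (nat_lit 233))))))))
noncomputable def xc191 : XT := (XT.nd (nat_lit 54600) (nat_lit 0) (nat_lit 15048) (XT.nd (nat_lit 53742) (nat_lit 0) (nat_lit 22496) (XT.nd (nat_lit 390) (nat_lit 456) (nat_lit 0) (XT.nd (nat_lit 156) (nat_lit 836) (nat_lit 0) (XT.nd (nat_lit 78) (nat_lit 76) (nat_lit 0) (XT.lf (nat_lit 0) (nat_lit 7732116646) (nat_lit 380) (nat_lit 10522850673) (nat_lit 456) (nat_lit 1783217079) (nat_lit 139) (nat_lit 5) (nat_lit 144) (nat_lit 5) (nat_lit 145) (nat_lit 5) (nat_lit 492) (nat_lit 416) (nat_lit 232)) (XT.lf (nat_lit 0) (nat_lit 1829943253) (nat_lit 456) (nat_lit 1896469508) (nat_lit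 76) (nat_lit 16567462672) (nat_lit 138) (nat_lit 5) (nat_lit 144) (nat_lit 5) (nat_lit 139) (nat_lit 5) (nat_lit 493) (nat_lit 416) (nat_lit 231))) (XT.nd (nat_lit 78) (nat_lit 380) (nat_lit 0) (XT.lf (nat_lit 0) (nat_lit 5562873144) (nat_lit 532) (nat_lit 11759608502) (nat_lit 76) (nat_lit 3230537935) (nat_lit 132) (nat_lit 5) (nat_lit 139) (nat_lit 5) (nat_lit 133) (nat_lit 5) (nat_lit 494) (nat_lit 416) (nat_lit 230)) (XT.nd (nat_lit 78) (nat_lit 380) (nat_lit 0) (XT.lf (nat_lit 0) (nat_lit 9400880881) (nat_lit 532) (nat_lit 1129150011) (nat_lit 76) (nat_lit 10286709988) (nat_lit 132) (nat_lit 5) (nat_lit 139) (nat_lit 5) (nat_lit 133) (nat_lit 5) (nat_lit 495) (nat_lit 416) (nat_lit 229)) (XT.lf (nat_lit 0) (nat_lit 9832985059) (nat_lit 380) (nat_lit 3539575022) (nat_lit 456) (nat_lit 7712040898) (nat_lit 127) (nat_lit 5) (nat_lit 132) (nat_lit 5) (nat_lit 133) (nat_lit 5) (nat_lit 496) (nat_lit 416)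 (nat_lit 228))))) (XT.nd (nat_lit 53118) (nat_lit 0) (nat_lit 25308) (XT.nd (nat_lit 78) (nat_lit 456) (nat_lit 0) (XT.lf (nat_lit 0) (nat_lit 17447735229) (nat_lit 456) (nat_lit 361310610) (nat_lit 76) (nat_lit 3548293744) (nat_lit 127) (nat_lit 5) (nat_lit 133) (nat_lit 5) (nat_lit 128) (nat_lit 5) (nat_lit 497) (nat_lit 416) (nat_lit 227)) (XT.lf (nat_lit 0) (nat_lit 57045806) (nat_lit 456) (nat_lit 10778183255) (nat_lit 76) (nat_lit 10798555254) (nat_lit 121) (nat_lit 5) (nat_lit 127) (nat_lit 5) (nat_lit 122) (nat_lit 5) (nat_lit 498) (nat_lit 416) (nat_lit 226))) (XT.nd (nat_lit 78) (nat_lit 0) (nat_lit 0) (XT.lf (nat_lit 0) (nat_lit 1744076725) (nat_lit 0) (nat_lit 1744076725) (nat_lit 1444) (nat_lit 1059709127) (nat_lit 454) (nat_lit 5) (nat_lit 454) (nat_lit 3) (nat_lit 473) (nat_lit 3) (nat_lit 417) (nat_lit 417) (nat_lit 306)) (XT.nd (nat_lit 78) (nat_lit 0) (nat_lit 0) (XT.lf (nat_lit 0) (nat_lit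 7811928260) (nat_lit 0) (nat_lit 82981178) (nat_lit 1444) (nat_lit 1274240894) (nat_lit 454) (nat_lit 5) (nat_lit 454) (nat_lit 3) (nat_lit 473) (nat_lit 3) (nat_lit 418) (nat_lit 417) (nat_lit 305)) (XT.lf (nat_lit 76) (nat_lit 2983587967) (nat_lit 0) (nat_lit 5867486450) (nat_lit 1520) (nat_lit 392600356) (nat_lit 455) (nat_lit 5) (nat_lit 454) (nat_lit 5) (nat_lit 474) (nat_lit 5) (nat_lit 419) (nat_lit 417) (nat_lit 304)))))) (XT.nd (nat_lit 390) (nat_lit 1292) (nat_lit 0) (XT.nd (nat_lit 156) (nat_lit 0) (nat_lit 76) (XT.nd (nat_lit 78) (nat_lit 0) (nat_lit 76) (XT.lf (nat_lit 0) (nat_lit 487753574) (nat_lit 1520) (nat_lit 1905689707) (nat_lit 1596) (nat_lit 6926440113) (nat_lit 434) (nat_lit 5) (nat_lit 454) (nat_lit 5) (nat_lit 455) (nat_lit 5) (nat_lit 420) (nat_lit 417) (nat_lit 303)) (XT.lf (nat_lit 0) (nat_lit 1383149427) (nat_lit 1520) (nat_lit 6850291725) (nat_lit 1596) (nat_lit 1164083025)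 (nat_lit 435) (nat_lit 5) (nat_lit 455) (nat_lit 5) (nat_lit 456) (nat_lit 5) (nat_lit 421) (nat_lit 417) (nat_lit 302))) (XT.nd (nat_lit 78) (nat_lit 0) (nat_lit 0) (XT.lf (nat_lit 0) (nat_lit 2304026112) (nat_lit 1520) (nat_lit 2389436784) (nat_lit 1596) (nat_lit 4783116876) (nat_lit 435) (nat_lit 5) (nat_lit 455) (nat_lit 5) (nat_lit 456) (nat_lit 5) (nat_lit 422) (nat_lit 417) (nat_lit 301)) (XT.nd (nat_lit 78) (nat_lit 0) (nat_lit 76) (XT.lf (nat_lit 76) (nat_lit 2177343818) (nat_lit 0) (nat_lit 1059377415) (nat_lit 1596) (nat_lit 6320640419) (nat_lit 436) (nat_lit 5) (nat_lit 435) (nat_lit 5) (nat_lit 456) (nat_lit 5) (nat_lit 423) (nat_lit 417) (nat_lit 300)) (XT.lf (nat_lit 0) (nat_lit 4201049818) (nat_lit 1520) (nat_lit 2801130670) (nat_lit 1596) (nat_lit 2637332027) (nat_lit 436) (nat_lit 5) (nat_lit 456) (nat_lit 5) (nat_lit 457) (nat_lit 5) (nat_lit 424) (nat_lit 417) (nat_lit 299))))) (XT.nd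 (nat_lit 234) (nat_lit 1444) (nat_lit 0) (XT.nd (nat_lit 78) (nat_lit 0) (nat_lit 76) (XT.lf (nat_lit 76) (nat_lit 1874901433) (nat_lit 0) (nat_lit 3309001783) (nat_lit 1596) (nat_lit 4539431093) (nat_lit 437) (nat_lit 5) (nat_lit 436) (nat_lit 5) (nat_lit 457) (nat_lit 5) (nat_lit 425) (nat_lit 417) (nat_lit 298)) (XT.nd (nat_lit 78) (nat_lit 0) (nat_lit 0) (XT.lf (nat_lit 0) (nat_lit 6188722323) (nat_lit 1520) (nat_lit 3141513702) (nat_lit 1596) (nat_lit 478562772) (nat_lit 437) (nat_lit 5) (nat_lit 457) (nat_lit 5) (nat_lit 458) (nat_lit 5) (nat_lit 426) (nat_lit 417) (nat_lit 297)) (XT.lf (nat_lit 76) (nat_lit 1647091683) (nat_lit 0) (nat_lit 5579951306) (nat_lit 1596) (nat_lit 2668673670) (nat_lit 438) (nat_lit 5) (nat_lit 437) (nat_lit 5) (nat_lit 458) (nat_lit 5) (nat_lit 427) (nat_lit 417) (nat_lit 296)))) (XT.nd (nat_lit 78) (nat_lit 1520) (nat_lit 0) (XT.lf (nat_lit 76) (nat_lit 6561992935) (nat_lit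 0) (nat_lit 1726313814) (nat_lit 1596) (nat_lit 1696034544) (nat_lit 438) (nat_lit 5) (nat_lit 437) (nat_lit 5) (nat_lit 458) (nat_lit 5) (nat_lit 428) (nat_lit 417) (nat_lit 295)) (XT.nd (nat_lit 78) (nat_lit 1596) (nat_lit 0) (XT.lf (nat_lit 76) (nat_lit 1493478862) (nat_lit 0) (nat_lit 7882835693) (nat_lit 1596) (nat_lit 698325205) (nat_lit 439) (nat_lit 5) (nat_lit 438) (nat_lit 5) (nat_lit 459) (nat_lit 5) (nat_lit 429) (nat_lit 417) (nat_lit 294)) (XT.lf (nat_lit 0) (nat_lit 331361881) (nat_lit 1596) (nat_lit 3638353556) (nat_lit 1672) (nat_lit 6196674315) (nat_lit 417) (nat_lit 5) (nat_lit 438) (nat_lit 5) (nat_lit 439) (nat_lit 5) (nat_lit 430) (nat_lit 417) (nat_lit 293))))))) (XT.nd (nat_lit 780) (nat_lit 6080) (nat_lit 0) (XT.nd (nat_lit 390) (nat_lit 1444) (nat_lit 0) (XT.nd (nat_lit 156) (nat_lit 0) (nat_lit 0) (XT.nd (nat_lit 78) (nat_lit 0) (nat_lit 0) (XT.lf (nat_lit 0) (nat_lit 1363712908)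 (nat_lit 1596) (nat_lit 8855409157) (nat_lit 1672) (nat_lit 40942984) (nat_lit 418) (nat_lit 5) (nat_lit 439) (nat_lit 5) (nat_lit 440) (nat_lit 5) (nat_lit 431) (nat_lit 417) (nat_lit 292)) (XT.lf (nat_lit 0) (nat_lit 2449908706) (nat_lit 1596) (nat_lit 3796234088) (nat_lit 1672) (nat_lit 4108817926) (nat_lit 418) (nat_lit 5) (nat_lit 439) (nat_lit 5) (nat_lit 440) (nat_lit 5) (nat_lit 432) (nat_lit 417) (nat_lit 291))) (XT.nd (nat_lit 78) (nat_lit 0) (nat_lit 76) (XT.lf (nat_lit 76) (nat_lit 1369833509) (nat_lit 0) (nat_lit 2179566508) (nat_lit 1672) (nat_lit 6902533465) (nat_lit 419) (nat_lit 5) (nat_lit 418) (nat_lit 5) (nat_lit 440) (nat_lit 5) (nat_lit 433) (nat_lit 417) (nat_lit 290)) (XT.nd (nat_lit 78) (nat_lit 0) (nat_lit 0) (XT.lf (nat_lit 0) (nat_lit 4692274419) (nat_lit 1596) (nat_lit 3885162583) (nat_lit 1672) (nat_lit 1972991234) (nat_lit 419) (nat_lit 5) (nat_lit 440) (nat_lit 5) (nat_lit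 441) (nat_lit 5) (nat_lit 434) (nat_lit 417) (nat_lit 289)) (XT.lf (nat_lit 76) (nat_lit 1407424926) (nat_lit 0) (nat_lit 4457457505) (nat_lit 1672) (nat_lit 4785883129) (nat_lit 420) (nat_lit 5) (nat_lit 419) (nat_lit 5) (nat_lit 441) (nat_lit 5) (nat_lit 435) (nat_lit 417) (nat_lit 288))))) (XT.nd (nat_lit 156) (nat_lit 1520) (nat_lit 0) (XT.nd (nat_lit 78) (nat_lit 0) (nat_lit 76) (XT.lf (nat_lit 76) (nat_lit 6846296549) (nat_lit 0) (nat_lit 224269466) (nat_lit 1672) (nat_lit 3682361147) (nat_lit 420) (nat_lit 5) (nat_lit 419) (nat_lit 5) (nat_lit 441) (nat_lit 5) (nat_lit 436) (nat_lit 417) (nat_lit 287)) (XT.lf (nat_lit 76) (nat_lit 1517790103) (nat_lit 0) (nat_lit 6802907192) (nat_lit 1672) (nat_lit 2536037820) (nat_lit 421) (nat_lit 5) (nat_lit 420) (nat_lit 5) (nat_lit 442) (nat_lit 5) (nat_lit 437) (nat_lit 417) (nat_lit 286))) (XT.nd (nat_lit 78) (nat_lit 1596) (nat_lit 0) (XT.lf (nat_lit 76) (nat_lit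 7089879590) (nat_lit 0) (nat_lit 2517779885) (nat_lit 1672) (nat_lit 1354732798) (nat_lit 421) (nat_lit 5) (nat_lit 420) (nat_lit 5) (nat_lit 442) (nat_lit 5) (nat_lit 438) (nat_lit 417) (nat_lit 285)) (XT.nd (nat_lit 78) (nat_lit 1672) (nat_lit 0) (XT.lf (nat_lit 76) (nat_lit 1701155199) (nat_lit 0) (nat_lit 9226753128) (nat_lit 1672) (nat_lit 142112720) (nat_lit 422) (nat_lit 5) (nat_lit 421) (nat_lit 5) (nat_lit 443) (nat_lit 5) (nat_lit 439) (nat_lit 417) (nat_lit 284)) (XT.lf (nat_lit 0) (nat_lit 1107819909) (nat_lit 1672) (nat_lit 3776952665) (nat_lit 1748) (nat_lit 6294348357) (nat_lit 399) (nat_lit 5) (nat_lit 421) (nat_lit 5) (nat_lit 422) (nat_lit 5) (nat_lit 440) (nat_lit 417) (nat_lit 283)))))) (XT.nd (nat_lit 390) (nat_lit 2736) (nat_lit 0) (XT.nd (nat_lit 156) (nat_lit 3344) (nat_lit 0) (XT.nd (nat_lit 78) (nat_lit 0) (nat_lit 76) (XT.lf (nat_lit 76) (nat_lit 1939028218) (nat_lit 0) (nat_lit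 439298954) (nat_lit 1748) (nat_lit 8912116154) (nat_lit 400) (nat_lit 5) (nat_lit 399) (nat_lit 5) (nat_lit 422) (nat_lit 5) (nat_lit 441) (nat_lit 417) (nat_lit 282)) (XT.lf (nat_lit 0) (nat_lit 3711468284) (nat_lit 1672) (nat_lit 3622218512) (nat_lit 76) (nat_lit 4069569603) (nat_lit 400) (nat_lit 5) (nat_lit 422) (nat_lit 5) (nat_lit 401) (nat_lit 5) (nat_lit 442) (nat_lit 417) (nat_lit 281))) (XT.nd (nat_lit 78) (nat_lit 1748) (nat_lit 0) (XT.lf (nat_lit 0) (nat_lit 2235716036) (nat_lit 1672) (nat_lit 2838395422) (nat_lit 1748) (nat_lit 6444166024) (nat_lit 378) (nat_lit 5) (nat_lit 400) (nat_lit 5) (nat_lit 401) (nat_lit 5) (nat_lit 443) (nat_lit 417) (nat_lit 280)) (XT.nd (nat_lit 78) (nat_lit 1748) (nat_lit 0) (XT.lf (nat_lit 0) (nat_lit 6485452303) (nat_lit 1748) (nat_lit 3399193932) (nat_lit 76) (nat_lit 1750532222) (nat_lit 378) (nat_lit 5) (nat_lit 401) (nat_lit 5) (nat_lit 379) (nat_lit 5) (nat_lit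 444) (nat_lit 417) (nat_lit 279)) (XT.lf (nat_lit 0) (nat_lit 2604964942) (nat_lit 1748) (nat_lit 5341682604) (nat_lit 1824) (nat_lit 3807345554) (nat_lit 355) (nat_lit 5) (nat_lit 378) (nat_lit 5) (nat_lit 379) (nat_lit 5) (nat_lit 445) (nat_lit 417) (nat_lit 278))))) (XT.nd (nat_lit 234) (nat_lit 1748) (nat_lit 0) (XT.nd (nat_lit 78) (nat_lit 988) (nat_lit 0) (XT.lf (nat_lit 0) (nat_lit 8763121259) (nat_lit 1748) (nat_lit 682870086) (nat_lit 1824) (nat_lit 2429022241) (nat_lit 355) (nat_lit 5) (nat_lit 378) (nat_lit 5) (nat_lit 379) (nat_lit 5) (nat_lit 446) (nat_lit 417) (nat_lit 277)) (XT.nd (nat_lit 78) (nat_lit 76) (nat_lit 0) (XT.lf (nat_lit 0) (nat_lit 3047317580) (nat_lit 912) (nat_lit 7960606569) (nat_lit 988) (nat_lit 989886172) (nat_lit 343) (nat_lit 5) (nat_lit 355) (nat_lit 5) (nat_lit 356) (nat_lit 5) (nat_lit 447) (nat_lit 417) (nat_lit 276)) (XT.lf (nat_lit 0) (nat_lit 483795149) (nat_lit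 988) (nat_lit 2770837563) (nat_lit 76) (nat_lit 8868135141) (nat_lit 342) (nat_lit 5) (nat_lit 355) (nat_lit 5) (nat_lit 343) (nat_lit 5) (nat_lit 448) (nat_lit 417) (nat_lit 275)))) (XT.nd (nat_lit 78) (nat_lit 836) (nat_lit 0) (XT.lf (nat_lit 0) (nat_lit 1993816970) (nat_lit 988) (nat_lit 8699670770) (nat_lit 76) (nat_lit 1556210933) (nat_lit 330) (nat_lit 5) (nat_lit 343) (nat_lit 5) (nat_lit 331) (nat_lit 5) (nat_lit 449) (nat_lit 417) (nat_lit 274)) (XT.nd (nat_lit 78) (nat_lit 836) (nat_lit 0) (XT.lf (nat_lit 0) (nat_lit 3561252605) (nat_lit 988) (nat_lit 2377879612) (nat_lit 76) (nat_lit 6439498909) (nat_lit 330) (nat_lit 5) (nat_lit 343) (nat_lit 5) (nat_lit 331) (nat_lit 5) (nat_lit 450) (nat_lit 417) (nat_lit 273)) (XT.lf (nat_lit 0) (nat_lit 4112244414) (nat_lit 836) (nat_lit 1061690586) (nat_lit 912) (nat_lit 7335936407) (nat_lit 319) (nat_lit 5) (nat_lit 330) (nat_lit 5) (nat_lit 331) (nat_lit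 5) (nat_lit 451) (nat_lit 417) (nat_lit 272))))))))
noncomputable def xc192 : XT := (XT.nd (nat_lit 1560) (nat_lit 5928) (nat_lit 0) (XT.nd (nat_lit 780) (nat_lit 3420) (nat_lit 0) (XT.nd (nat_lit 390) (nat_lit 2280) (nat_lit 0) (XT.nd (nat_lit 156) (nat_lit 836) (nat_lit 0) (XT.nd (nat_lit 78) (nat_lit 836) (nat_lit 0) (XT.lf (nat_lit 0) (nat_lit 6847717646) (nat_lit 912) (nat_lit 1916747579) (nat_lit 76) (nat_lit 3878701337) (nat_lit 319) (nat_lit 5) (nat_lit 331) (nat_lit 5) (nat_lit 320) (nat_lit 5) (nat_lit 452) (nat_lit 417) (nat_lit 271)) (XT.lf (nat_lit 0) (nat_lit 4736862263) (nat_lit 836) (nat_lit 3843523484) (nat_lit 912) (nat_lit 4198240539) (nat_lit 308) (nat_lit 5) (nat_lit 319) (nat_lit 5) (nat_lit 320) (nat_lit 5) (nat_lit 453) (nat_lit 417) (nat_lit 270))) (XT.nd (nat_lit 78) (nat_lit 836) (nat_lit 0) (XT.lf (nat_lit 0) (nat_lit 10356080377) (nat_lit 912) (nat_lit 1386886155) (nat_lit 76)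 (nat_lit 1173667938) (nat_lit 308) (nat_lit 5) (nat_lit 320) (nat_lit 5) (nat_lit 309) (nat_lit 5) (nat_lit 454) (nat_lit 417) (nat_lit 269)) (XT.nd (nat_lit 78) (nat_lit 76) (nat_lit 0) (XT.lf (nat_lit 0) (nat_lit 5434999784) (nat_lit 760) (nat_lit 6781061208) (nat_lit 836) (nat_lit 840372981) (nat_lit 298) (nat_lit 5) (nat_lit 308) (nat_lit 5) (nat_lit 309) (nat_lit 5) (nat_lit 455) (nat_lit 417) (nat_lit 268)) (XT.lf (nat_lit 0) (nat_lit 899693969) (nat_lit 836) (nat_lit 804720307) (nat_lit 76) (nat_lit 11494553370) (nat_lit 297) (nat_lit 5) (nat_lit 308) (nat_lit 5) (nat_lit 298) (nat_lit 5) (nat_lit 456) (nat_lit 417) (nat_lit 267))))) (XT.nd (nat_lit 156) (nat_lit 1520) (nat_lit 0) (XT.nd (nat_lit 78) (nat_lit 0) (nat_lit 0) (XT.lf (nat_lit 0) (nat_lit 2714850124) (nat_lit 836) (nat_lit 7154057949) (nat_lit 76) (nat_lit 3474308231) (nat_lit 287) (nat_lit 5) (nat_lit 298) (nat_lit 5) (nat_lit 288) (nat_lit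 5) (nat_lit 457) (nat_lit 417) (nat_lit 266)) (XT.lf (nat_lit 0) (nat_lit 4571521543) (nat_lit 836) (nat_lit 179667505) (nat_lit 76) (nat_lit 8739062737) (nat_lit 287) (nat_lit 5) (nat_lit 298) (nat_lit 5) (nat_lit 288) (nat_lit 5) (nat_lit 458) (nat_lit 417) (nat_lit 265))) (XT.nd (nat_lit 78) (nat_lit 760) (nat_lit 0) (XT.lf (nat_lit 0) (nat_lit 6502927046) (nat_lit 836) (nat_lit 6628375958) (nat_lit 76) (nat_lit 508178933) (nat_lit 277) (nat_lit 5) (nat_lit 288) (nat_lit 5) (nat_lit 278) (nat_lit 5) (nat_lit 459) (nat_lit 417) (nat_lit 264)) (XT.nd (nat_lit 78) (nat_lit 0) (nat_lit 0) (XT.lf (nat_lit 0) (nat_lit 519964497) (nat_lit 760) (nat_lit 7977907868) (nat_lit 836) (nat_lit 5293331951) (nat_lit 267) (nat_lit 5) (nat_lit 277) (nat_lit 5) (nat_lit 278) (nat_lit 5) (nat_lit 460) (nat_lit 417) (nat_lit 263)) (XT.lf (nat_lit 0) (nat_lit 7889359125) (nat_lit 760) (nat_lit 2676836751) (nat_lit 836) (nat_lit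 3379101424) (nat_lit 267) (nat_lit 5) (nat_lit 277) (nat_lit 5) (nat_lit 278) (nat_lit 5) (nat_lit 461) (nat_lit 417) (nat_lit 262)))))) (XT.nd (nat_lit 390) (nat_lit 1368) (nat_lit 0) (XT.nd (nat_lit 156) (nat_lit 1292) (nat_lit 0) (XT.nd (nat_lit 78) (nat_lit 76) (nat_lit 0) (XT.lf (nat_lit 0) (nat_lit 1291128379) (nat_lit 684) (nat_lit 11400077217) (nat_lit 760) (nat_lit 1410965782) (nat_lit 258) (nat_lit 5) (nat_lit 267) (nat_lit 5) (nat_lit 268) (nat_lit 5) (nat_lit 462) (nat_lit 417) (nat_lit 261)) (XT.lf (nat_lit 0) (nat_lit 636614030) (nat_lit 760) (nat_lit 5427832267) (nat_lit 76) (nat_lit 8196706489) (nat_lit 257) (nat_lit 5) (nat_lit 267) (nat_lit 5) (nat_lit 258) (nat_lit 5) (nat_lit 463) (nat_lit 417) (nat_lit 260))) (XT.nd (nat_lit 78) (nat_lit 608) (nat_lit 0) (XT.lf (nat_lit 0) (nat_lit 2109781851) (nat_lit 684) (nat_lit 599666944) (nat_lit 760) (nat_lit 11713619879) (nat_lit 248) (nat_lit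 5) (nat_lit 257) (nat_lit 5) (nat_lit 258) (nat_lit 5) (nat_lit 464) (nat_lit 417) (nat_lit 259)) (XT.nd (nat_lit 78) (nat_lit 608) (nat_lit 0) (XT.lf (nat_lit 0) (nat_lit 4882306907) (nat_lit 760) (nat_lit 4760025131) (nat_lit 76) (nat_lit 4944724710) (nat_lit 248) (nat_lit 5) (nat_lit 258) (nat_lit 5) (nat_lit 249) (nat_lit 5) (nat_lit 465) (nat_lit 417) (nat_lit 258)) (XT.lf (nat_lit 0) (nat_lit 2967766719) (nat_lit 608) (nat_lit 4143903973) (nat_lit 684) (nat_lit 7642398020) (nat_lit 240) (nat_lit 5) (nat_lit 248) (nat_lit 5) (nat_lit 249) (nat_lit 5) (nat_lit 466) (nat_lit 417) (nat_lit 257))))) (XT.nd (nat_lit 156) (nat_lit 684) (nat_lit 0) (XT.nd (nat_lit 78) (nat_lit 684) (nat_lit 0) (XT.lf (nat_lit 0) (nat_lit 9417209533) (nat_lit 684) (nat_lit 4030472843) (nat_lit 76) (nat_lit 1476111784) (nat_lit 240) (nat_lit 5) (nat_lit 249) (nat_lit 5) (nat_lit 241) (nat_lit 5) (nat_lit 467) (nat_lit 417) (nat_lit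 256)) (XT.lf (nat_lit 0) (nat_lit 3892702351) (nat_lit 684) (nat_lit 7918996924) (nat_lit 760) (nat_lit 3284362940) (nat_lit 231) (nat_lit 5) (nat_lit 240) (nat_lit 5) (nat_lit 241) (nat_lit 5) (nat_lit 468) (nat_lit 417) (nat_lit 255))) (XT.nd (nat_lit 78) (nat_lit 684) (nat_lit 0) (XT.lf (nat_lit 0) (nat_lit 12017669087) (nat_lit 684) (nat_lit 2253699627) (nat_lit 760) (nat_lit 1000065924) (nat_lit 231) (nat_lit 5) (nat_lit 240) (nat_lit 5) (nat_lit 241) (nat_lit 5) (nat_lit 469) (nat_lit 417) (nat_lit 254)) (XT.nd (nat_lit 78) (nat_lit 0) (nat_lit 0) (XT.lf (nat_lit 0) (nat_lit 1357794124) (nat_lit 684) (nat_lit 10573623394) (nat_lit 76) (nat_lit 3517822534) (nat_lit 222) (nat_lit 5) (nat_lit 231) (nat_lit 5) (nat_lit 223) (nat_lit 5) (nat_lit 470) (nat_lit 417) (nat_lit 253)) (XT.lf (nat_lit 0) (nat_lit 3776809849) (nat_lit 684) (nat_lit 2451492982) (nat_lit 76) (nat_lit 9401623273) (nat_lit 222) (nat_lit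 5) (nat_lit 231) (nat_lit 5) (nat_lit 223) (nat_lit 5) (nat_lit 471) (nat_lit 417) (nat_lit 252))))))) (XT.nd (nat_lit 780) (nat_lit 2508) (nat_lit 0) (XT.nd (nat_lit 390) (nat_lit 1596) (nat_lit 0) (XT.nd (nat_lit 156) (nat_lit 1216) (nat_lit 0) (XT.nd (nat_lit 78) (nat_lit 0) (nat_lit 0) (XT.lf (nat_lit 0) (nat_lit 5899345579) (nat_lit 608) (nat_lit 373822185) (nat_lit 684) (nat_lit 9540483315) (nat_lit 214) (nat_lit 5) (nat_lit 222) (nat_lit 5) (nat_lit 223) (nat_lit 5) (nat_lit 472) (nat_lit 417) (nat_lit 251)) (XT.lf (nat_lit 0) (nat_lit 8863116109) (nat_lit 684) (nat_lit 1597952833) (nat_lit 76) (nat_lit 5539112700) (nat_lit 214) (nat_lit 5) (nat_lit 223) (nat_lit 5) (nat_lit 215) (nat_lit 5) (nat_lit 473) (nat_lit 417) (nat_lit 250))) (XT.nd (nat_lit 78) (nat_lit 684) (nat_lit 0) (XT.lf (nat_lit 0) (nat_lit 6962576889) (nat_lit 532) (nat_lit 4580908255) (nat_lit 608) (nat_lit 4646189503) (nat_lit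 207) (nat_lit 5) (nat_lit 214) (nat_lit 5) (nat_lit 215) (nat_lit 5) (nat_lit 474) (nat_lit 417) (nat_lit 249)) (XT.nd (nat_lit 78) (nat_lit 684) (nat_lit 0) (XT.lf (nat_lit 0) (nat_lit 14288489260) (nat_lit 608) (nat_lit 687123340) (nat_lit 76) (nat_lit 1407128542) (nat_lit 207) (nat_lit 5) (nat_lit 215) (nat_lit 5) (nat_lit 208) (nat_lit 5) (nat_lit 475) (nat_lit 417) (nat_lit 248)) (XT.lf (nat_lit 0) (nat_lit 576602336) (nat_lit 684) (nat_lit 8493459922) (nat_lit 76) (nat_lit 7508053673) (nat_lit 198) (nat_lit 5) (nat_lit 207) (nat_lit 5) (nat_lit 199) (nat_lit 5) (nat_lit 476) (nat_lit 417) (nat_lit 247))))) (XT.nd (nat_lit 156) (nat_lit 1064) (nat_lit 0) (XT.nd (nat_lit 78) (nat_lit 0) (nat_lit 0) (XT.lf (nat_lit 0) (nat_lit 242237045) (nat_lit 532) (nat_lit 3028085975) (nat_lit 608) (nat_lit 13506852449) (nat_lit 191) (nat_lit 5) (nat_lit 198) (nat_lit 5) (nat_lit 199) (nat_lit 5) (nat_lit 477) (nat_lit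 417) (nat_lit 246)) (XT.lf (nat_lit 0) (nat_lit 6086981689) (nat_lit 608) (nat_lit 7743037424) (nat_lit 76) (nat_lit 3148819679) (nat_lit 191) (nat_lit 5) (nat_lit 199) (nat_lit 5) (nat_lit 192) (nat_lit 5) (nat_lit 478) (nat_lit 417) (nat_lit 245))) (XT.nd (nat_lit 78) (nat_lit 532) (nat_lit 0) (XT.lf (nat_lit 0) (nat_lit 1209719643) (nat_lit 532) (nat_lit 7769669368) (nat_lit 608) (nat_lit 8204761849) (nat_lit 184) (nat_lit 5) (nat_lit 191) (nat_lit 5) (nat_lit 192) (nat_lit 5) (nat_lit 479) (nat_lit 417) (nat_lit 244)) (XT.nd (nat_lit 78) (nat_lit 532) (nat_lit 0) (XT.lf (nat_lit 0) (nat_lit 10435767683) (nat_lit 532) (nat_lit 1537441179) (nat_lit 608) (nat_lit 5419492733) (nat_lit 184) (nat_lit 5) (nat_lit 191) (nat_lit 5) (nat_lit 192) (nat_lit 5) (nat_lit 480) (nat_lit 417) (nat_lit 243)) (XT.lf (nat_lit 0) (nat_lit 2228179093) (nat_lit 532) (nat_lit 12836238108) (nat_lit 608) (nat_lit 2540259546)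 (nat_lit 177) (nat_lit 5) (nat_lit 184) (nat_lit 5) (nat_lit 185) (nat_lit 5) (nat_lit 481) (nat_lit 417) (nat_lit 242)))))) (XT.nd (nat_lit 390) (nat_lit 1444) (nat_lit 0) (XT.nd (nat_lit 156) (nat_lit 456) (nat_lit 0) (XT.nd (nat_lit 78) (nat_lit 532) (nat_lit 0) (XT.lf (nat_lit 0) (nat_lit 440322654) (nat_lit 608) (nat_lit 6152434600) (nat_lit 76) (nat_lit 11227106847) (nat_lit 176) (nat_lit 5) (nat_lit 184) (nat_lit 5) (nat_lit 177) (nat_lit 5) (nat_lit 482) (nat_lit 417) (nat_lit 241)) (XT.lf (nat_lit 0) (nat_lit 3271696968) (nat_lit 532) (nat_lit 188029958) (nat_lit 608) (nat_lit 14579031396) (nat_lit 169) (nat_lit 5) (nat_lit 176) (nat_lit 5) (nat_lit 177) (nat_lit 5) (nat_lit 483) (nat_lit 417) (nat_lit 240))) (XT.nd (nat_lit 78) (nat_lit 456) (nat_lit 0) (XT.lf (nat_lit 0) (nat_lit 6614298127) (nat_lit 608) (nat_lit 5345539850) (nat_lit 76) (nat_lit 6300700236) (nat_lit 169) (nat_lit 5) (nat_lit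 177) (nat_lit 5) (nat_lit 170) (nat_lit 5) (nat_lit 484) (nat_lit 417) (nat_lit 239)) (XT.nd (nat_lit 78) (nat_lit 0) (nat_lit 0) (XT.lf (nat_lit 0) (nat_lit 4309315508) (nat_lit 456) (nat_lit 5544050542) (nat_lit 532) (nat_lit 8632962846) (nat_lit 163) (nat_lit 5) (nat_lit 169) (nat_lit 5) (nat_lit 170) (nat_lit 5) (nat_lit 485) (nat_lit 417) (nat_lit 238)) (XT.lf (nat_lit 0) (nat_lit 13192068173) (nat_lit 532) (nat_lit 4503362140) (nat_lit 76) (nat_lit 1020511256) (nat_lit 163) (nat_lit 5) (nat_lit 170) (nat_lit 5) (nat_lit 164) (nat_lit 5) (nat_lit 486) (nat_lit 417) (nat_lit 237))))) (XT.nd (nat_lit 234) (nat_lit 456) (nat_lit 0) (XT.nd (nat_lit 78) (nat_lit 532) (nat_lit 0) (XT.lf (nat_lit 0) (nat_lit 5387467123) (nat_lit 456) (nat_lit 11274174625) (nat_lit 532) (nat_lit 2287225970) (nat_lit 157) (nat_lit 5) (nat_lit 163) (nat_lit 5) (nat_lit 164) (nat_lit 5) (nat_lit 487) (nat_lit 417) (nat_lit 236))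 (XT.nd (nat_lit 78) (nat_lit 456) (nat_lit 0) (XT.lf (nat_lit 0) (nat_lit 1023706589) (nat_lit 532) (nat_lit 3665748760) (nat_lit 76) (nat_lit 14496411337) (nat_lit 156) (nat_lit 5) (nat_lit 163) (nat_lit 5) (nat_lit 157) (nat_lit 5) (nat_lit 488) (nat_lit 417) (nat_lit 235)) (XT.lf (nat_lit 0) (nat_lit 4418486534) (nat_lit 532) (nat_lit 12952449806) (nat_lit 76) (nat_lit 2055404815) (nat_lit 150) (nat_lit 5) (nat_lit 157) (nat_lit 5) (nat_lit 151) (nat_lit 5) (nat_lit 489) (nat_lit 417) (nat_lit 234)))) (XT.nd (nat_lit 78) (nat_lit 456) (nat_lit 0) (XT.lf (nat_lit 0) (nat_lit 7929624581) (nat_lit 532) (nat_lit 2846475563) (nat_lit 76) (nat_lit 8894558649) (nat_lit 150) (nat_lit 5) (nat_lit 157) (nat_lit 5) (nat_lit 151) (nat_lit 5) (nat_lit 490) (nat_lit 417) (nat_lit 233)) (XT.nd (nat_lit 78) (nat_lit 0) (nat_lit 0) (XT.lf (nat_lit 0) (nat_lit 7550707861) (nat_lit 456) (nat_lit 4002090452) (nat_lit 532)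 (nat_lit 8366231083) (nat_lit 144) (nat_lit 5) (nat_lit 150) (nat_lit 5) (nat_lit 151) (nat_lit 5) (nat_lit 491) (nat_lit 417) (nat_lit 232)) (XT.lf (nat_lit 0) (nat_lit 15279388358) (nat_lit 532) (nat_lit 2006570481) (nat_lit 76) (nat_lit 2885792331) (nat_lit 144) (nat_lit 5) (nat_lit 151) (nat_lit 5) (nat_lit 145) (nat_lit 5) (nat_lit 492) (nat_lit 417) (nat_lit 231))))))))
noncomputable def xc193 : XT := (XT.nd (nat_lit 54600) (nat_lit 0) (nat_lit 14972) (XT.nd (nat_lit 53820) (nat_lit 0) (nat_lit 22420) (XT.nd (nat_lit 390) (nat_lit 380) (nat_lit 0) (XT.nd (nat_lit 156) (nat_lit 836) (nat_lit 0) (XT.nd (nat_lit 78) (nat_lit 76) (nat_lit 0) (XT.lf (nat_lit 0) (nat_lit 8639413745) (nat_lit 380) (nat_lit 10516681627) (nat_lit 456) (nat_lit 1271923065) (nat_lit 139) (nat_lit 5) (nat_lit 144) (nat_lit 5) (nat_lit 145) (nat_lit 5) (nat_lit 493) (nat_lit 417) (nat_lit 230)) (XT.lf (nat_lit 0) (nat_lit 2395742999)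 (nat_lit 456) (nat_lit 1189268311) (nat_lit 76) (nat_lit 17103956657) (nat_lit 138) (nat_lit 5) (nat_lit 144) (nat_lit 5) (nat_lit 139) (nat_lit 5) (nat_lit 494) (nat_lit 417) (nat_lit 229))) (XT.nd (nat_lit 78) (nat_lit 380) (nat_lit 0) (XT.lf (nat_lit 0) (nat_lit 6199167351) (nat_lit 532) (nat_lit 11245308934) (nat_lit 76) (nat_lit 3508905937) (nat_lit 132) (nat_lit 5) (nat_lit 139) (nat_lit 5) (nat_lit 133) (nat_lit 5) (nat_lit 495) (nat_lit 417) (nat_lit 228)) (XT.nd (nat_lit 78) (nat_lit 380) (nat_lit 0) (XT.lf (nat_lit 0) (nat_lit 10103640405) (nat_lit 532) (nat_lit 416937189) (nat_lit 76) (nat_lit 10702010113) (nat_lit 132) (nat_lit 5) (nat_lit 139) (nat_lit 5) (nat_lit 133) (nat_lit 5) (nat_lit 496) (nat_lit 417) (nat_lit 227)) (XT.lf (nat_lit 0) (nat_lit 10759606400) (nat_lit 380) (nat_lit 3389793206) (nat_lit 456) (nat_lit 7346516261) (nat_lit 127) (nat_lit 5) (nat_lit 132) (nat_lit 5) (nat_lit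 133) (nat_lit 5) (nat_lit 497) (nat_lit 417) (nat_lit 226))))) (XT.nd (nat_lit 53196) (nat_lit 0) (nat_lit 23636) (XT.nd (nat_lit 53118) (nat_lit 0) (nat_lit 25232) (XT.lf (nat_lit 0) (nat_lit 360610951) (nat_lit 380) (nat_lit 17939224652) (nat_lit 456) (nat_lit 3474402206) (nat_lit 122) (nat_lit 5) (nat_lit 127) (nat_lit 5) (nat_lit 128) (nat_lit 5) (nat_lit 498) (nat_lit 417) (nat_lit 225)) (XT.lf (nat_lit 0) (nat_lit 2200622380) (nat_lit 0) (nat_lit 2200622380) (nat_lit 1444) (nat_lit 220156826) (nat_lit 454) (nat_lit 5) (nat_lit 454) (nat_lit 3) (nat_lit 473) (nat_lit 3) (nat_lit 418) (nat_lit 418) (nat_lit 304))) (XT.nd (nat_lit 78) (nat_lit 0) (nat_lit 76) (XT.lf (nat_lit 0) (nat_lit 382923636) (nat_lit 1596) (nat_lit 525939938) (nat_lit 1596) (nat_lit 8409465963) (nat_lit 433) (nat_lit 3) (nat_lit 454) (nat_lit 3) (nat_lit 454) (nat_lit 5) (nat_lit 419) (nat_lit 418) (nat_lit 303)) (XT.nd (nat_lit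 78) (nat_lit 0) (nat_lit 0) (XT.lf (nat_lit 0) (nat_lit 1238070971) (nat_lit 1520) (nat_lit 5499329045) (nat_lit 1596) (nat_lit 2657495109) (nat_lit 434) (nat_lit 5) (nat_lit 454) (nat_lit 5) (nat_lit 455) (nat_lit 5) (nat_lit 420) (nat_lit 418) (nat_lit 302)) (XT.lf (nat_lit 0) (nat_lit 2098755047) (nat_lit 1520) (nat_lit 1077764781) (nat_lit 1596) (nat_lit 6296716975) (nat_lit 434) (nat_lit 5) (nat_lit 454) (nat_lit 5) (nat_lit 455) (nat_lit 5) (nat_lit 421) (nat_lit 418) (nat_lit 301)))))) (XT.nd (nat_lit 390) (nat_lit 1368) (nat_lit 0) (XT.nd (nat_lit 156) (nat_lit 0) (nat_lit 0) (XT.nd (nat_lit 78) (nat_lit 0) (nat_lit 0) (XT.lf (nat_lit 0) (nat_lit 2981604868) (nat_lit 1520) (nat_lit 6089805546) (nat_lit 1596) (nat_lit 481649053) (nat_lit 435) (nat_lit 5) (nat_lit 455) (nat_lit 5) (nat_lit 456) (nat_lit 5) (nat_lit 422) (nat_lit 418) (nat_lit 300)) (XT.lf (nat_lit 0) (nat_lit 3890099234) (nat_lit 1520)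 (nat_lit 1557331389) (nat_lit 1596) (nat_lit 4186901143) (nat_lit 435) (nat_lit 5) (nat_lit 455) (nat_lit 5) (nat_lit 456) (nat_lit 5) (nat_lit 423) (nat_lit 418) (nat_lit 299))) (XT.nd (nat_lit 78) (nat_lit 0) (nat_lit 76) (XT.lf (nat_lit 76) (nat_lit 3094996048) (nat_lit 0) (nat_lit 1721931549) (nat_lit 1596) (nat_lit 4900311312) (nat_lit 436) (nat_lit 5) (nat_lit 435) (nat_lit 5) (nat_lit 456) (nat_lit 5) (nat_lit 424) (nat_lit 418) (nat_lit 298)) (XT.nd (nat_lit 78) (nat_lit 0) (nat_lit 0) (XT.lf (nat_lit 0) (nat_lit 5766745091) (nat_lit 1520) (nat_lit 1965447884) (nat_lit 1596) (nat_lit 2069534601) (nat_lit 436) (nat_lit 5) (nat_lit 456) (nat_lit 5) (nat_lit 457) (nat_lit 5) (nat_lit 425) (nat_lit 418) (nat_lit 297)) (XT.lf (nat_lit 76) (nat_lit 2798238378) (nat_lit 0) (nat_lit 3947716196) (nat_lit 1596) (nat_lit 3141755717) (nat_lit 437) (nat_lit 5) (nat_lit 436) (nat_lit 5) (nat_lit 457) (nat_lit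 5) (nat_lit 426) (nat_lit 418) (nat_lit 296))))) (XT.nd (nat_lit 156) (nat_lit 1444) (nat_lit 0) (XT.nd (nat_lit 78) (nat_lit 0) (nat_lit 76) (XT.lf (nat_lit 76) (nat_lit 7672375960) (nat_lit 0) (nat_lit 66687140) (nat_lit 1596) (nat_lit 2236475211) (nat_lit 437) (nat_lit 5) (nat_lit 436) (nat_lit 5) (nat_lit 457) (nat_lit 5) (nat_lit 427) (nat_lit 418) (nat_lit 295)) (XT.lf (nat_lit 76) (nat_lit 2575716444) (nat_lit 0) (nat_lit 6199852727) (nat_lit 1596) (nat_lit 1289094727) (nat_lit 438) (nat_lit 5) (nat_lit 437) (nat_lit 5) (nat_lit 458) (nat_lit 5) (nat_lit 428) (nat_lit 418) (nat_lit 294))) (XT.nd (nat_lit 78) (nat_lit 1520) (nat_lit 0) (XT.lf (nat_lit 76) (nat_lit 7571353311) (nat_lit 0) (nat_lit 2259175771) (nat_lit 1596) (nat_lit 325099925) (nat_lit 438) (nat_lit 5) (nat_lit 437) (nat_lit 5) (nat_lit 458) (nat_lit 5) (nat_lit 429) (nat_lit 418) (nat_lit 293)) (XT.nd (nat_lit 78) (nat_lit 0) (nat_lit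 0) (XT.lf (nat_lit 0) (nat_lit 659009238) (nat_lit 1596) (nat_lit 7825453596) (nat_lit 1672) (nat_lit 1763686826) (nat_lit 417) (nat_lit 5) (nat_lit 438) (nat_lit 5) (nat_lit 439) (nat_lit 5) (nat_lit 430) (nat_lit 418) (nat_lit 292)) (XT.lf (nat_lit 0) (nat_lit 1673243152) (nat_lit 1596) (nat_lit 2806507049) (nat_lit 1672) (nat_lit 5862442456) (nat_lit 417) (nat_lit 5) (nat_lit 438) (nat_lit 5) (nat_lit 439) (nat_lit 5) (nat_lit 431) (nat_lit 418) (nat_lit 291))))))) (XT.nd (nat_lit 780) (nat_lit 6080) (nat_lit 0) (XT.nd (nat_lit 390) (nat_lit 1368) (nat_lit 0) (XT.nd (nat_lit 156) (nat_lit 0) (nat_lit 76) (XT.nd (nat_lit 78) (nat_lit 0) (nat_lit 76) (XT.lf (nat_lit 76) (nat_lit 2331691428) (nat_lit 0) (nat_lit 373928281) (nat_lit 1672) (nat_lit 7732550255) (nat_lit 418) (nat_lit 5) (nat_lit 417) (nat_lit 5) (nat_lit 439) (nat_lit 5) (nat_lit 432) (nat_lit 418) (nat_lit 290)) (XT.lf (nat_lit 0) (nat_lit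 3785382128) (nat_lit 1596) (nat_lit 2961897404) (nat_lit 1672) (nat_lit 3788262922) (nat_lit 418) (nat_lit 5) (nat_lit 439) (nat_lit 5) (nat_lit 440) (nat_lit 5) (nat_lit 433) (nat_lit 418) (nat_lit 289))) (XT.nd (nat_lit 78) (nat_lit 0) (nat_lit 76) (XT.lf (nat_lit 76) (nat_lit 2301502984) (nat_lit 0) (nat_lit 2586006416) (nat_lit 1672) (nat_lit 5747347799) (nat_lit 419) (nat_lit 5) (nat_lit 418) (nat_lit 5) (nat_lit 440) (nat_lit 5) (nat_lit 434) (nat_lit 418) (nat_lit 288)) (XT.nd (nat_lit 78) (nat_lit 0) (nat_lit 0) (XT.lf (nat_lit 0) (nat_lit 6026086112) (nat_lit 1596) (nat_lit 3048411314) (nat_lit 1672) (nat_lit 1661382673) (nat_lit 419) (nat_lit 5) (nat_lit 440) (nat_lit 5) (nat_lit 441) (nat_lit 5) (nat_lit 435) (nat_lit 418) (nat_lit 287)) (XT.lf (nat_lit 76) (nat_lit 2344011796) (nat_lit 0) (nat_lit 4859719609) (nat_lit 1672) (nat_lit 3634875913) (nat_lit 420) (nat_lit 5) (nat_lit 419) (nat_lit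 5) (nat_lit 441) (nat_lit 5) (nat_lit 436) (nat_lit 418) (nat_lit 286))))) (XT.nd (nat_lit 156) (nat_lit 1520) (nat_lit 0) (XT.nd (nat_lit 78) (nat_lit 0) (nat_lit 76) (XT.lf (nat_lit 76) (nat_lit 7873848334) (nat_lit 0) (nat_lit 535728339) (nat_lit 1672) (nat_lit 2533729076) (nat_lit 420) (nat_lit 5) (nat_lit 419) (nat_lit 5) (nat_lit 441) (nat_lit 5) (nat_lit 437) (nat_lit 418) (nat_lit 285)) (XT.lf (nat_lit 76) (nat_lit 2459409929) (nat_lit 0) (nat_lit 7205780846) (nat_lit 1672) (nat_lit 1384403759) (nat_lit 421) (nat_lit 5) (nat_lit 420) (nat_lit 5) (nat_lit 442) (nat_lit 5) (nat_lit 438) (nat_lit 418) (nat_lit 284))) (XT.nd (nat_lit 78) (nat_lit 1596) (nat_lit 0) (XT.lf (nat_lit 76) (nat_lit 8125073283) (nat_lit 0) (nat_lit 2829719316) (nat_lit 1672) (nat_lit 203048221) (nat_lit 421) (nat_lit 5) (nat_lit 420) (nat_lit 5) (nat_lit 442) (nat_lit 5) (nat_lit 439) (nat_lit 418) (nat_lit 283)) (XT.nd (nat_lit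 78) (nat_lit 0) (nat_lit 0) (XT.lf (nat_lit 0) (nat_lit 1001745251) (nat_lit 1672) (nat_lit 8626567292) (nat_lit 1748) (nat_lit 1639559235) (nat_lit 399) (nat_lit 5) (nat_lit 421) (nat_lit 5) (nat_lit 422) (nat_lit 5) (nat_lit 440) (nat_lit 418) (nat_lit 282)) (XT.lf (nat_lit 0) (nat_lit 2252328381) (nat_lit 1672) (nat_lit 2941967473) (nat_lit 1748) (nat_lit 6185301111) (nat_lit 399) (nat_lit 5) (nat_lit 421) (nat_lit 5) (nat_lit 422) (nat_lit 5) (nat_lit 441) (nat_lit 418) (nat_lit 281)))))) (XT.nd (nat_lit 390) (nat_lit 2736) (nat_lit 0) (XT.nd (nat_lit 156) (nat_lit 3344) (nat_lit 0) (XT.nd (nat_lit 78) (nat_lit 0) (nat_lit 76) (XT.lf (nat_lit 76) (nat_lit 2882342736) (nat_lit 0) (nat_lit 649768985) (nat_lit 1748) (nat_lit 7961369697) (nat_lit 400) (nat_lit 5) (nat_lit 399) (nat_lit 5) (nat_lit 422) (nat_lit 5) (nat_lit 442) (nat_lit 418) (nat_lit 280)) (XT.lf (nat_lit 0) (nat_lit 4868941315) (nat_lit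 1672) (nat_lit 2784256809) (nat_lit 76) (nat_lit 3955824791) (nat_lit 400) (nat_lit 5) (nat_lit 422) (nat_lit 5) (nat_lit 401) (nat_lit 5) (nat_lit 443) (nat_lit 418) (nat_lit 279))) (XT.nd (nat_lit 78) (nat_lit 1748) (nat_lit 0) (XT.lf (nat_lit 0) (nat_lit 3184846917) (nat_lit 1672) (nat_lit 3058622436) (nat_lit 1748) (nat_lit 5483194852) (nat_lit 378) (nat_lit 5) (nat_lit 400) (nat_lit 5) (nat_lit 401) (nat_lit 5) (nat_lit 444) (nat_lit 418) (nat_lit 278)) (XT.nd (nat_lit 78) (nat_lit 1748) (nat_lit 0) (XT.lf (nat_lit 0) (nat_lit 7661057800) (nat_lit 1748) (nat_lit 2557906564) (nat_lit 76) (nat_lit 1627390601) (nat_lit 378) (nat_lit 5) (nat_lit 401) (nat_lit 5) (nat_lit 379) (nat_lit 5) (nat_lit 445) (nat_lit 418) (nat_lit 277)) (XT.lf (nat_lit 0) (nat_lit 3560353440) (nat_lit 1748) (nat_lit 5576480488) (nat_lit 1824) (nat_lit 2831016779) (nat_lit 355) (nat_lit 5) (nat_lit 378) (nat_lit 5) (nat_lit 379)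 (nat_lit 5) (nat_lit 446) (nat_lit 418) (nat_lit 276))))) (XT.nd (nat_lit 234) (nat_lit 1748) (nat_lit 0) (XT.nd (nat_lit 78) (nat_lit 988) (nat_lit 0) (XT.lf (nat_lit 0) (nat_lit 9823961329) (nat_lit 1748) (nat_lit 821982617) (nat_lit 1824) (nat_lit 1445763778) (nat_lit 355) (nat_lit 5) (nat_lit 378) (nat_lit 5) (nat_lit 379) (nat_lit 5) (nat_lit 447) (nat_lit 418) (nat_lit 275)) (XT.nd (nat_lit 78) (nat_lit 0) (nat_lit 0) (XT.lf (nat_lit 0) (nat_lit 6983936) (nat_lit 988) (nat_lit 8207819410) (nat_lit 76) (nat_lit 4002463036) (nat_lit 342) (nat_lit 5) (nat_lit 355) (nat_lit 5) (nat_lit 343) (nat_lit 5) (nat_lit 448) (nat_lit 418) (nat_lit 274)) (XT.lf (nat_lit 0) (nat_lit 1477221686) (nat_lit 988) (nat_lit 1929070345) (nat_lit 76) (nat_lit 8938704458) (nat_lit 342) (nat_lit 5) (nat_lit 355) (nat_lit 5) (nat_lit 343) (nat_lit 5) (nat_lit 449) (nat_lit 418) (nat_lit 273)))) (XT.nd (nat_lit 78) (nat_lit 836)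 (nat_lit 0) (XT.lf (nat_lit 0) (nat_lit 3003428801) (nat_lit 988) (nat_lit 7961924184) (nat_lit 76) (nat_lit 1509404062) (nat_lit 330) (nat_lit 5) (nat_lit 343) (nat_lit 5) (nat_lit 331) (nat_lit 5) (nat_lit 450) (nat_lit 418) (nat_lit 272)) (XT.nd (nat_lit 78) (nat_lit 836) (nat_lit 0) (XT.lf (nat_lit 0) (nat_lit 4583198727) (nat_lit 988) (nat_lit 1531574458) (nat_lit 76) (nat_lit 6491885858) (nat_lit 330) (nat_lit 5) (nat_lit 343) (nat_lit 5) (nat_lit 331) (nat_lit 5) (nat_lit 451) (nat_lit 418) (nat_lit 271)) (XT.lf (nat_lit 0) (nat_lit 5082471373) (nat_lit 836) (nat_lit 1132787175) (nat_lit 912) (nat_lit 6525533503) (nat_lit 319) (nat_lit 5) (nat_lit 330) (nat_lit 5) (nat_lit 331) (nat_lit 5) (nat_lit 452) (nat_lit 418) (nat_lit 270))))))))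
noncomputable def xc194 : XT := (XT.nd (nat_lit 1560) (nat_lit 5928) (nat_lit 0) (XT.nd (nat_lit 780) (nat_lit 3420) (nat_lit 0) (XT.nd (nat_lit 390) (nat_lit 1520) (nat_lit 0) (XT.nd (nat_lit 156) (nat_lit 1596) (nat_lit 0) (XT.nd (nat_lit 78) (nat_lit 836) (nat_lit 0) (XT.lf (nat_lit 0) (nat_lit 7903810338) (nat_lit 912) (nat_lit 1065295671) (nat_lit 76) (nat_lit 3908031424) (nat_lit 319) (nat_lit 5) (nat_lit 331) (nat_lit 5) (nat_lit 320) (nat_lit 5) (nat_lit 453) (nat_lit 418) (nat_lit 269)) (XT.lf (nat_lit 0) (nat_lit 5715532507) (nat_lit 836) (nat_lit 3943316054) (nat_lit 912) (nat_lit 3356713450) (nat_lit 308) (nat_lit 5) (nat_lit 319) (nat_lit 5) (nat_lit 320) (nat_lit 5) (nat_lit 454) (nat_lit 418) (nat_lit 268))) (XT.nd (nat_lit 78) (nat_lit 1596) (nat_lit 0) (XT.lf (nat_lit 0) (nat_lit 11452129703) (nat_lit 912) (nat_lit 529605617) (nat_lit 76) (nat_lit 1174963383) (nat_lit 308) (nat_lit 5) (nat_lit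 320) (nat_lit 5) (nat_lit 309) (nat_lit 5) (nat_lit 455) (nat_lit 418) (nat_lit 267)) (XT.nd (nat_lit 78) (nat_lit 760) (nat_lit 0) (XT.lf (nat_lit 0) (nat_lit 37551028) (nat_lit 836) (nat_lit 6876889730) (nat_lit 76) (nat_lit 6385092536) (nat_lit 297) (nat_lit 5) (nat_lit 308) (nat_lit 5) (nat_lit 298) (nat_lit 5) (nat_lit 456) (nat_lit 418) (nat_lit 266)) (XT.lf (nat_lit 0) (nat_lit 53820325) (nat_lit 760) (nat_lit 1730383033) (nat_lit 836) (nat_lit 11660951687) (nat_lit 287) (nat_lit 5) (nat_lit 297) (nat_lit 5) (nat_lit 298) (nat_lit 5) (nat_lit 457) (nat_lit 418) (nat_lit 265))))) (XT.nd (nat_lit 156) (nat_lit 760) (nat_lit 0) (XT.nd (nat_lit 78) (nat_lit 760) (nat_lit 0) (XT.lf (nat_lit 0) (nat_lit 3624053093) (nat_lit 836) (nat_lit 6411497234) (nat_lit 76) (nat_lit 3556979591) (nat_lit 287) (nat_lit 5) (nat_lit 298) (nat_lit 5) (nat_lit 288) (nat_lit 5) (nat_lit 458) (nat_lit 418) (nat_lit 264)) (XT.lf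 (nat_lit 0) (nat_lit 694118986) (nat_lit 760) (nat_lit 4811482772) (nat_lit 836) (nat_lit 8237158348) (nat_lit 277) (nat_lit 5) (nat_lit 287) (nat_lit 5) (nat_lit 288) (nat_lit 5) (nat_lit 459) (nat_lit 418) (nat_lit 263))) (XT.nd (nat_lit 78) (nat_lit 760) (nat_lit 0) (XT.lf (nat_lit 0) (nat_lit 7460523747) (nat_lit 836) (nat_lit 5881627168) (nat_lit 76) (nat_lit 553134879) (nat_lit 277) (nat_lit 5) (nat_lit 288) (nat_lit 5) (nat_lit 278) (nat_lit 5) (nat_lit 460) (nat_lit 418) (nat_lit 262)) (XT.nd (nat_lit 78) (nat_lit 0) (nat_lit 0) (XT.lf (nat_lit 0) (nat_lit 1403895120) (nat_lit 760) (nat_lit 8080918159) (nat_lit 836) (nat_lit 4565448966) (nat_lit 267) (nat_lit 5) (nat_lit 277) (nat_lit 5) (nat_lit 278) (nat_lit 5) (nat_lit 461) (nat_lit 418) (nat_lit 261)) (XT.lf (nat_lit 0) (nat_lit 8903549576) (nat_lit 760) (nat_lit 2674934401) (nat_lit 836) (nat_lit 2629281859) (nat_lit 267) (nat_lit 5) (nat_lit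 277) (nat_lit 5) (nat_lit 278) (nat_lit 5) (nat_lit 462) (nat_lit 418) (nat_lit 260)))))) (XT.nd (nat_lit 390) (nat_lit 1368) (nat_lit 0) (XT.nd (nat_lit 156) (nat_lit 1292) (nat_lit 0) (XT.nd (nat_lit 78) (nat_lit 76) (nat_lit 0) (XT.lf (nat_lit 0) (nat_lit 2183691672) (nat_lit 684) (nat_lit 11552577384) (nat_lit 760) (nat_lit 631711035) (nat_lit 258) (nat_lit 5) (nat_lit 267) (nat_lit 5) (nat_lit 268) (nat_lit 5) (nat_lit 463) (nat_lit 418) (nat_lit 259)) (XT.lf (nat_lit 0) (nat_lit 1430605032) (nat_lit 760) (nat_lit 4675866576) (nat_lit 76) (nat_lit 8423885050) (nat_lit 257) (nat_lit 5) (nat_lit 267) (nat_lit 5) (nat_lit 258) (nat_lit 5) (nat_lit 464) (nat_lit 418) (nat_lit 258))) (XT.nd (nat_lit 78) (nat_lit 608) (nat_lit 0) (XT.lf (nat_lit 0) (nat_lit 3006838493) (nat_lit 684) (nat_lit 528289525) (nat_lit 760) (nat_lit 11160585941) (nat_lit 248) (nat_lit 5) (nat_lit 257) (nat_lit 5) (nat_lit 258) (nat_lit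 5) (nat_lit 465) (nat_lit 418) (nat_lit 257)) (XT.nd (nat_lit 78) (nat_lit 608) (nat_lit 0) (XT.lf (nat_lit 0) (nat_lit 5736846717) (nat_lit 760) (nat_lit 4002151324) (nat_lit 76) (nat_lit 5124283259) (nat_lit 248) (nat_lit 5) (nat_lit 258) (nat_lit 5) (nat_lit 249) (nat_lit 5) (nat_lit 466) (nat_lit 418) (nat_lit 256)) (XT.lf (nat_lit 0) (nat_lit 3874584032) (nat_lit 608) (nat_lit 4126874979) (nat_lit 684) (nat_lit 7032368694) (nat_lit 240) (nat_lit 5) (nat_lit 248) (nat_lit 5) (nat_lit 249) (nat_lit 5) (nat_lit 467) (nat_lit 418) (nat_lit 255))))) (XT.nd (nat_lit 156) (nat_lit 684) (nat_lit 0) (XT.nd (nat_lit 78) (nat_lit 684) (nat_lit 0) (XT.lf (nat_lit 0) (nat_lit 10339086633) (nat_lit 684) (nat_lit 3265851224) (nat_lit 76) (nat_lit 1602297524) (nat_lit 240) (nat_lit 5) (nat_lit 249) (nat_lit 5) (nat_lit 241) (nat_lit 5) (nat_lit 468) (nat_lit 418) (nat_lit 254)) (XT.lf (nat_lit 0) (nat_lit 4810226743)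 (nat_lit 684) (nat_lit 7962308126) (nat_lit 760) (nat_lit 2610599692) (nat_lit 231) (nat_lit 5) (nat_lit 240) (nat_lit 5) (nat_lit 241) (nat_lit 5) (nat_lit 469) (nat_lit 418) (nat_lit 253))) (XT.nd (nat_lit 78) (nat_lit 684) (nat_lit 0) (XT.lf (nat_lit 0) (nat_lit 13081228690) (nat_lit 684) (nat_lit 2185961133) (nat_lit 760) (nat_lit 295115765) (nat_lit 231) (nat_lit 5) (nat_lit 240) (nat_lit 5) (nat_lit 241) (nat_lit 5) (nat_lit 470) (nat_lit 418) (nat_lit 252)) (XT.nd (nat_lit 78) (nat_lit 0) (nat_lit 0) (XT.lf (nat_lit 0) (nat_lit 2092522720) (nat_lit 684) (nat_lit 9943831584) (nat_lit 76) (nat_lit 3707382811) (nat_lit 222) (nat_lit 5) (nat_lit 231) (nat_lit 5) (nat_lit 223) (nat_lit 5) (nat_lit 471) (nat_lit 418) (nat_lit 251)) (XT.lf (nat_lit 0) (nat_lit 4546044785) (nat_lit 684) (nat_lit 1675753942) (nat_lit 76) (nat_lit 9706522235) (nat_lit 222) (nat_lit 5) (nat_lit 231) (nat_lit 5) (nat_lit 223)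 (nat_lit 5) (nat_lit 472) (nat_lit 418) (nat_lit 250))))))) (XT.nd (nat_lit 780) (nat_lit 2508) (nat_lit 0) (XT.nd (nat_lit 390) (nat_lit 1596) (nat_lit 0) (XT.nd (nat_lit 156) (nat_lit 1216) (nat_lit 0) (XT.nd (nat_lit 78) (nat_lit 0) (nat_lit 0) (XT.lf (nat_lit 0) (nat_lit 6836675279) (nat_lit 608) (nat_lit 247372360) (nat_lit 684) (nat_lit 9031844906) (nat_lit 214) (nat_lit 5) (nat_lit 222) (nat_lit 5) (nat_lit 223) (nat_lit 5) (nat_lit 473) (nat_lit 418) (nat_lit 249)) (XT.lf (nat_lit 0) (nat_lit 9713207900) (nat_lit 684) (nat_lit 813730708) (nat_lit 76) (nat_lit 5779473191) (nat_lit 214) (nat_lit 5) (nat_lit 223) (nat_lit 5) (nat_lit 215) (nat_lit 5) (nat_lit 474) (nat_lit 418) (nat_lit 248))) (XT.nd (nat_lit 78) (nat_lit 684) (nat_lit 0) (XT.lf (nat_lit 0) (nat_lit 7912639996) (nat_lit 532) (nat_lit 4526615912) (nat_lit 608) (nat_lit 4060603538) (nat_lit 207) (nat_lit 5) (nat_lit 214) (nat_lit 5) (nat_lit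 215) (nat_lit 5) (nat_lit 475) (nat_lit 418) (nat_lit 247)) (XT.nd (nat_lit 78) (nat_lit 76) (nat_lit 0) (XT.lf (nat_lit 0) (nat_lit 107875385) (nat_lit 608) (nat_lit 15119876615) (nat_lit 684) (nat_lit 1469269524) (nat_lit 199) (nat_lit 5) (nat_lit 207) (nat_lit 5) (nat_lit 208) (nat_lit 5) (nat_lit 476) (nat_lit 418) (nat_lit 246)) (XT.lf (nat_lit 0) (nat_lit 1237901840) (nat_lit 684) (nat_lit 7852386268) (nat_lit 76) (nat_lit 7806102038) (nat_lit 198) (nat_lit 5) (nat_lit 207) (nat_lit 5) (nat_lit 199) (nat_lit 5) (nat_lit 477) (nat_lit 418) (nat_lit 245))))) (XT.nd (nat_lit 156) (nat_lit 1064) (nat_lit 0) (XT.nd (nat_lit 78) (nat_lit 0) (nat_lit 0) (XT.lf (nat_lit 0) (nat_lit 1052689489) (nat_lit 532) (nat_lit 2925297451) (nat_lit 608) (nat_lit 13121599876) (nat_lit 191) (nat_lit 5) (nat_lit 198) (nat_lit 5) (nat_lit 199) (nat_lit 5) (nat_lit 478) (nat_lit 418) (nat_lit 244)) (XT.lf (nat_lit 0) (nat_lit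 6839425280) (nat_lit 608) (nat_lit 7096251812) (nat_lit 76) (nat_lit 3369843010) (nat_lit 191) (nat_lit 5) (nat_lit 199) (nat_lit 5) (nat_lit 192) (nat_lit 5) (nat_lit 479) (nat_lit 418) (nat_lit 243))) (XT.nd (nat_lit 78) (nat_lit 532) (nat_lit 0) (XT.lf (nat_lit 0) (nat_lit 2030286408) (nat_lit 532) (nat_lit 7752198174) (nat_lit 608) (nat_lit 7732603270) (nat_lit 184) (nat_lit 5) (nat_lit 191) (nat_lit 5) (nat_lit 192) (nat_lit 5) (nat_lit 480) (nat_lit 418) (nat_lit 242)) (XT.nd (nat_lit 78) (nat_lit 532) (nat_lit 0) (XT.lf (nat_lit 0) (nat_lit 11425240264) (nat_lit 532) (nat_lit 1398714923) (nat_lit 608) (nat_lit 4904104337) (nat_lit 184) (nat_lit 5) (nat_lit 191) (nat_lit 5) (nat_lit 192) (nat_lit 5) (nat_lit 481) (nat_lit 418) (nat_lit 241)) (XT.lf (nat_lit 0) (nat_lit 3059684128) (nat_lit 532) (nat_lit 12911505755) (nat_lit 608) (nat_lit 1973205554) (nat_lit 177) (nat_lit 5) (nat_lit 184) (nat_lit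 5) (nat_lit 185) (nat_lit 5) (nat_lit 482) (nat_lit 418) (nat_lit 240)))))) (XT.nd (nat_lit 390) (nat_lit 1444) (nat_lit 0) (XT.nd (nat_lit 156) (nat_lit 456) (nat_lit 0) (XT.nd (nat_lit 78) (nat_lit 532) (nat_lit 0) (XT.lf (nat_lit 0) (nat_lit 1046928958) (nat_lit 608) (nat_lit 5495772757) (nat_lit 76) (nat_lit 11621348809) (nat_lit 176) (nat_lit 5) (nat_lit 184) (nat_lit 5) (nat_lit 177) (nat_lit 5) (nat_lit 483) (nat_lit 418) (nat_lit 239)) (XT.lf (nat_lit 0) (nat_lit 4111711767) (nat_lit 532) (nat_lit 8317075) (nat_lit 608) (nat_lit 14267432634) (nat_lit 169) (nat_lit 5) (nat_lit 176) (nat_lit 5) (nat_lit 177) (nat_lit 5) (nat_lit 484) (nat_lit 418) (nat_lit 238))) (XT.nd (nat_lit 78) (nat_lit 456) (nat_lit 0) (XT.lf (nat_lit 0) (nat_lit 7327269001) (nat_lit 608) (nat_lit 4682390216) (nat_lit 76) (nat_lit 6604231098) (nat_lit 169) (nat_lit 5) (nat_lit 177) (nat_lit 5) (nat_lit 170) (nat_lit 5) (nat_lit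 485) (nat_lit 418) (nat_lit 237)) (XT.nd (nat_lit 78) (nat_lit 0) (nat_lit 0) (XT.lf (nat_lit 0) (nat_lit 5160496062) (nat_lit 456) (nat_lit 5464203092) (nat_lit 532) (nat_lit 8219630843) (nat_lit 163) (nat_lit 5) (nat_lit 169) (nat_lit 5) (nat_lit 170) (nat_lit 5) (nat_lit 486) (nat_lit 418) (nat_lit 236)) (XT.lf (nat_lit 0) (nat_lit 14020129261) (nat_lit 532) (nat_lit 3833153515) (nat_lit 76) (nat_lit 1225457779) (nat_lit 163) (nat_lit 5) (nat_lit 170) (nat_lit 5) (nat_lit 164) (nat_lit 5) (nat_lit 487) (nat_lit 418) (nat_lit 235))))) (XT.nd (nat_lit 234) (nat_lit 456) (nat_lit 0) (XT.nd (nat_lit 78) (nat_lit 532) (nat_lit 0) (XT.lf (nat_lit 0) (nat_lit 6250490518) (nat_lit 456) (nat_lit 11302444398) (nat_lit 532) (nat_lit 1763518115) (nat_lit 157) (nat_lit 5) (nat_lit 163) (nat_lit 5) (nat_lit 164) (nat_lit 5) (nat_lit 488) (nat_lit 418) (nat_lit 234)) (XT.nd (nat_lit 78) (nat_lit 456) (nat_lit 0) (XT.lf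 (nat_lit 0) (nat_lit 1595145332) (nat_lit 532) (nat_lit 2991055076) (nat_lit 76) (nat_lit 14972142447) (nat_lit 156) (nat_lit 5) (nat_lit 163) (nat_lit 5) (nat_lit 157) (nat_lit 5) (nat_lit 489) (nat_lit 418) (nat_lit 233)) (XT.lf (nat_lit 0) (nat_lit 5053128472) (nat_lit 532) (nat_lit 12458580218) (nat_lit 76) (nat_lit 2292016322) (nat_lit 150) (nat_lit 5) (nat_lit 157) (nat_lit 5) (nat_lit 151) (nat_lit 5) (nat_lit 490) (nat_lit 418) (nat_lit 232)))) (XT.nd (nat_lit 78) (nat_lit 456) (nat_lit 0) (XT.lf (nat_lit 0) (nat_lit 8623778060) (nat_lit 532) (nat_lit 2165249600) (nat_lit 76) (nat_lit 9264119833) (nat_lit 150) (nat_lit 5) (nat_lit 157) (nat_lit 5) (nat_lit 151) (nat_lit 5) (nat_lit 491) (nat_lit 418) (nat_lit 231)) (XT.nd (nat_lit 78) (nat_lit 0) (nat_lit 0) (XT.lf (nat_lit 0) (nat_lit 8435021207) (nat_lit 456) (nat_lit 3878653930) (nat_lit 532) (nat_lit 7992929356) (nat_lit 144) (nat_lit 5) (nat_lit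 150) (nat_lit 5) (nat_lit 151) (nat_lit 5) (nat_lit 492) (nat_lit 418) (nat_lit 230)) (XT.lf (nat_lit 0) (nat_lit 16105703550) (nat_lit 532) (nat_lit 1318482711) (nat_lit 76) (nat_lit 3140380409) (nat_lit 144) (nat_lit 5) (nat_lit 151) (nat_lit 5) (nat_lit 145) (nat_lit 5) (nat_lit 493) (nat_lit 418) (nat_lit 229))))))))
noncomputable def xc195 : XT := (XT.nd (nat_lit 54678) (nat_lit 0) (nat_lit 14592) (XT.nd (nat_lit 53898) (nat_lit 0) (nat_lit 21964) (XT.nd (nat_lit 53508) (nat_lit 0) (nat_lit 23256) (XT.nd (nat_lit 156) (nat_lit 836) (nat_lit 0) (XT.nd (nat_lit 78) (nat_lit 76) (nat_lit 0) (XT.lf (nat_lit 0) (nat_lit 9535630284) (nat_lit 380) (nat_lit 10518801054) (nat_lit 456) (nat_lit 771642230) (nat_lit 139) (nat_lit 5) (nat_lit 144) (nat_lit 5) (nat_lit 145) (nat_lit 5) (nat_lit 494) (nat_lit 418) (nat_lit 228)) (XT.lf (nat_lit 0) (nat_lit 2952309225) (nat_lit 456) (nat_lit 496857420) (nat_lit 76)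 (nat_lit 17643214503) (nat_lit 138) (nat_lit 5) (nat_lit 144) (nat_lit 5) (nat_lit 139) (nat_lit 5) (nat_lit 495) (nat_lit 418) (nat_lit 227))) (XT.nd (nat_lit 78) (nat_lit 380) (nat_lit 0) (XT.lf (nat_lit 0) (nat_lit 6827799626) (nat_lit 532) (nat_lit 10749827051) (nat_lit 76) (nat_lit 3784540845) (nat_lit 132) (nat_lit 5) (nat_lit 139) (nat_lit 5) (nat_lit 133) (nat_lit 5) (nat_lit 496) (nat_lit 418) (nat_lit 226)) (XT.nd (nat_lit 78) (nat_lit 0) (nat_lit 0) (XT.lf (nat_lit 0) (nat_lit 284721039) (nat_lit 380) (nat_lit 10517594622) (nat_lit 456) (nat_lit 10834606098) (nat_lit 127) (nat_lit 5) (nat_lit 132) (nat_lit 5) (nat_lit 133) (nat_lit 5) (nat_lit 497) (nat_lit 418) (nat_lit 225)) (XT.lf (nat_lit 0) (nat_lit 11676414867) (nat_lit 380) (nat_lit 3245580885) (nat_lit 456) (nat_lit 6993864258) (nat_lit 127) (nat_lit 5) (nat_lit 132) (nat_lit 5) (nat_lit 133) (nat_lit 5) (nat_lit 498) (nat_lit 418) (nat_lit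 224))))) (XT.nd (nat_lit 156) (nat_lit 0) (nat_lit 76) (XT.nd (nat_lit 78) (nat_lit 0) (nat_lit 0) (XT.lf (nat_lit 0) (nat_lit 594857344) (nat_lit 1596) (nat_lit 2051076065) (nat_lit 1596) (nat_lit 2051076065) (nat_lit 433) (nat_lit 3) (nat_lit 454) (nat_lit 3) (nat_lit 454) (nat_lit 5) (nat_lit 419) (nat_lit 419) (nat_lit 302)) (XT.lf (nat_lit 76) (nat_lit 284251095) (nat_lit 0) (nat_lit 1709102371) (nat_lit 1596) (nat_lit 7478267905) (nat_lit 434) (nat_lit 5) (nat_lit 433) (nat_lit 3) (nat_lit 454) (nat_lit 5) (nat_lit 420) (nat_lit 419) (nat_lit 301))) (XT.nd (nat_lit 78) (nat_lit 0) (nat_lit 0) (XT.lf (nat_lit 0) (nat_lit 2832681804) (nat_lit 1520) (nat_lit 4760258057) (nat_lit 1596) (nat_lit 1957456835) (nat_lit 434) (nat_lit 5) (nat_lit 454) (nat_lit 5) (nat_lit 455) (nat_lit 5) (nat_lit 421) (nat_lit 419) (nat_lit 300)) (XT.nd (nat_lit 78) (nat_lit 0) (nat_lit 0) (XT.lf (nat_lit 0) (nat_lit 3679798200)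 (nat_lit 1520) (nat_lit 266910696) (nat_lit 1596) (nat_lit 5684231534) (nat_lit 434) (nat_lit 5) (nat_lit 454) (nat_lit 5) (nat_lit 455) (nat_lit 5) (nat_lit 422) (nat_lit 419) (nat_lit 299)) (XT.lf (nat_lit 76) (nat_lit 4362748764) (nat_lit 0) (nat_lit 189515326) (nat_lit 1596) (nat_lit 5160675485) (nat_lit 435) (nat_lit 5) (nat_lit 434) (nat_lit 5) (nat_lit 455) (nat_lit 5) (nat_lit 423) (nat_lit 419) (nat_lit 298)))))) (XT.nd (nat_lit 390) (nat_lit 1444) (nat_lit 0) (XT.nd (nat_lit 156) (nat_lit 0) (nat_lit 76) (XT.nd (nat_lit 78) (nat_lit 0) (nat_lit 0) (XT.lf (nat_lit 0) (nat_lit 5448094030) (nat_lit 1520) (nat_lit 742751248) (nat_lit 1596) (nat_lit 3605627564) (nat_lit 435) (nat_lit 5) (nat_lit 455) (nat_lit 5) (nat_lit 456) (nat_lit 5) (nat_lit 424) (nat_lit 419) (nat_lit 297)) (XT.lf (nat_lit 76) (nat_lit 3997058746) (nat_lit 0) (nat_lit 2372831720) (nat_lit 1596) (nat_lit 3511637497) (nat_lit 436)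 (nat_lit 5) (nat_lit 435) (nat_lit 5) (nat_lit 456) (nat_lit 5) (nat_lit 425) (nat_lit 419) (nat_lit 296))) (XT.nd (nat_lit 78) (nat_lit 0) (nat_lit 0) (XT.lf (nat_lit 0) (nat_lit 7306219051) (nat_lit 1520) (nat_lit 1147677450) (nat_lit 1596) (nat_lit 1514477709) (nat_lit 436) (nat_lit 5) (nat_lit 456) (nat_lit 5) (nat_lit 457) (nat_lit 5) (nat_lit 426) (nat_lit 419) (nat_lit 295)) (XT.nd (nat_lit 78) (nat_lit 0) (nat_lit 0) (XT.lf (nat_lit 76) (nat_lit 3705643857) (nat_lit 0) (nat_lit 4576972689) (nat_lit 1596) (nat_lit 1773925704) (nat_lit 437) (nat_lit 5) (nat_lit 436) (nat_lit 5) (nat_lit 457) (nat_lit 5) (nat_lit 427) (nat_lit 419) (nat_lit 294)) (XT.lf (nat_lit 76) (nat_lit 8660569274) (nat_lit 0) (nat_lit 607532813) (nat_lit 1596) (nat_lit 878591846) (nat_lit 437) (nat_lit 5) (nat_lit 436) (nat_lit 5) (nat_lit 457) (nat_lit 5) (nat_lit 428) (nat_lit 419) (nat_lit 293))))) (XT.nd (nat_lit 156) (nat_lit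 0) (nat_lit 76) (XT.nd (nat_lit 78) (nat_lit 0) (nat_lit 0) (XT.lf (nat_lit 0) (nat_lit 61613692) (nat_lit 1596) (nat_lit 6750387022) (nat_lit 1672) (nat_lit 3426106087) (nat_lit 416) (nat_lit 5) (nat_lit 437) (nat_lit 5) (nat_lit 438) (nat_lit 5) (nat_lit 429) (nat_lit 419) (nat_lit 292)) (XT.lf (nat_lit 0) (nat_lit 1005340693) (nat_lit 1596) (nat_lit 1771256927) (nat_lit 1672) (nat_lit 7554715345) (nat_lit 416) (nat_lit 5) (nat_lit 437) (nat_lit 5) (nat_lit 438) (nat_lit 5) (nat_lit 430) (nat_lit 419) (nat_lit 291))) (XT.nd (nat_lit 78) (nat_lit 0) (nat_lit 0) (XT.lf (nat_lit 0) (nat_lit 1981262004) (nat_lit 1596) (nat_lit 7095086611) (nat_lit 1672) (nat_lit 1349778852) (nat_lit 417) (nat_lit 5) (nat_lit 438) (nat_lit 5) (nat_lit 439) (nat_lit 5) (nat_lit 431) (nat_lit 419) (nat_lit 290)) (XT.nd (nat_lit 78) (nat_lit 0) (nat_lit 0) (XT.lf (nat_lit 0) (nat_lit 2990112506) (nat_lit 1596) (nat_lit 1993150860)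 (nat_lit 1672) (nat_lit 5539317079) (nat_lit 417) (nat_lit 5) (nat_lit 438) (nat_lit 5) (nat_lit 439) (nat_lit 5) (nat_lit 432) (nat_lit 419) (nat_lit 289)) (XT.lf (nat_lit 76) (nat_lit 3242091282) (nat_lit 0) (nat_lit 781488661) (nat_lit 1672) (nat_lit 6597303939) (nat_lit 418) (nat_lit 5) (nat_lit 417) (nat_lit 5) (nat_lit 439) (nat_lit 5) (nat_lit 433) (nat_lit 419) (nat_lit 288))))))) (XT.nd (nat_lit 780) (nat_lit 6004) (nat_lit 0) (XT.nd (nat_lit 390) (nat_lit 1520) (nat_lit 0) (XT.nd (nat_lit 156) (nat_lit 0) (nat_lit 76) (XT.nd (nat_lit 78) (nat_lit 0) (nat_lit 0) (XT.lf (nat_lit 0) (nat_lit 5097609616) (nat_lit 1596) (nat_lit 2146220545) (nat_lit 1672) (nat_lit 3476935368) (nat_lit 418) (nat_lit 5) (nat_lit 439) (nat_lit 5) (nat_lit 440) (nat_lit 5) (nat_lit 434) (nat_lit 419) (nat_lit 287)) (XT.lf (nat_lit 76) (nat_lit 3216691833) (nat_lit 0) (nat_lit 2986485269) (nat_lit 1672) (nat_lit 4619276364)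 (nat_lit 419) (nat_lit 5) (nat_lit 418) (nat_lit 5) (nat_lit 440) (nat_lit 5) (nat_lit 435) (nat_lit 419) (nat_lit 286))) (XT.nd (nat_lit 78) (nat_lit 0) (nat_lit 0) (XT.lf (nat_lit 0) (nat_lit 7338424639) (nat_lit 1596) (nat_lit 2230434404) (nat_lit 1672) (nat_lit 1357174354) (nat_lit 419) (nat_lit 5) (nat_lit 440) (nat_lit 5) (nat_lit 441) (nat_lit 5) (nat_lit 436) (nat_lit 419) (nat_lit 285)) (XT.nd (nat_lit 78) (nat_lit 0) (nat_lit 0) (XT.lf (nat_lit 76) (nat_lit 3264054635) (nat_lit 0) (nat_lit 5257868397) (nat_lit 1672) (nat_lit 2509260398) (nat_lit 420) (nat_lit 5) (nat_lit 419) (nat_lit 5) (nat_lit 441) (nat_lit 5) (nat_lit 437) (nat_lit 419) (nat_lit 284)) (XT.lf (nat_lit 76) (nat_lit 8887367069) (nat_lit 0) (nat_lit 841496236) (nat_lit 1672) (nat_lit 1409586959) (nat_lit 420) (nat_lit 5) (nat_lit 419) (nat_lit 5) (nat_lit 441) (nat_lit 5) (nat_lit 438) (nat_lit 419) (nat_lit 283))))) (XT.nd (nat_lit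 156) (nat_lit 0) (nat_lit 76) (XT.nd (nat_lit 78) (nat_lit 1672) (nat_lit 0) (XT.lf (nat_lit 76) (nat_lit 3384476659) (nat_lit 0) (nat_lit 7606351201) (nat_lit 1672) (nat_lit 256425918) (nat_lit 421) (nat_lit 5) (nat_lit 420) (nat_lit 5) (nat_lit 442) (nat_lit 5) (nat_lit 439) (nat_lit 419) (nat_lit 282)) (XT.lf (nat_lit 0) (nat_lit 913753313) (nat_lit 1672) (nat_lit 2217854838) (nat_lit 1748) (nat_lit 8226394113) (nat_lit 398) (nat_lit 5) (nat_lit 420) (nat_lit 5) (nat_lit 421) (nat_lit 5) (nat_lit 440) (nat_lit 419) (nat_lit 281))) (XT.nd (nat_lit 78) (nat_lit 0) (nat_lit 0) (XT.lf (nat_lit 0) (nat_lit 2122125327) (nat_lit 1672) (nat_lit 7906427810) (nat_lit 1748) (nat_lit 1442022760) (nat_lit 399) (nat_lit 5) (nat_lit 421) (nat_lit 5) (nat_lit 422) (nat_lit 5) (nat_lit 441) (nat_lit 419) (nat_lit 280)) (XT.nd (nat_lit 78) (nat_lit 0) (nat_lit 0) (XT.lf (nat_lit 0) (nat_lit 3376144724) (nat_lit 1672) (nat_lit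 2125639345) (nat_lit 1748) (nat_lit 6083195701) (nat_lit 399) (nat_lit 5) (nat_lit 421) (nat_lit 5) (nat_lit 422) (nat_lit 5) (nat_lit 442) (nat_lit 419) (nat_lit 279)) (XT.lf (nat_lit 76) (nat_lit 3809399388) (nat_lit 0) (nat_lit 856616779) (nat_lit 1748) (nat_lit 7035448322) (nat_lit 400) (nat_lit 5) (nat_lit 399) (nat_lit 5) (nat_lit 422) (nat_lit 5) (nat_lit 443) (nat_lit 419) (nat_lit 278)))))) (XT.nd (nat_lit 390) (nat_lit 2736) (nat_lit 0) (XT.nd (nat_lit 156) (nat_lit 1748) (nat_lit 0) (XT.nd (nat_lit 78) (nat_lit 1672) (nat_lit 0) (XT.lf (nat_lit 0) (nat_lit 6007500134) (nat_lit 1672) (nat_lit 1964888049) (nat_lit 76) (nat_lit 3847382458) (nat_lit 400) (nat_lit 5) (nat_lit 422) (nat_lit 5) (nat_lit 401) (nat_lit 5) (nat_lit 444) (nat_lit 419) (nat_lit 277)) (XT.lf (nat_lit 0) (nat_lit 4117840817) (nat_lit 1672) (nat_lit 3276906674) (nat_lit 1748) (nat_lit 4545324635) (nat_lit 378) (nat_lit 5) (nat_lit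 400) (nat_lit 5) (nat_lit 401) (nat_lit 5) (nat_lit 445) (nat_lit 419) (nat_lit 276))) (XT.nd (nat_lit 78) (nat_lit 1748) (nat_lit 0) (XT.lf (nat_lit 0) (nat_lit 8819561974) (nat_lit 1748) (nat_lit 1735101560) (nat_lit 76) (nat_lit 1507927393) (nat_lit 378) (nat_lit 5) (nat_lit 401) (nat_lit 5) (nat_lit 379) (nat_lit 5) (nat_lit 446) (nat_lit 419) (nat_lit 275)) (XT.nd (nat_lit 78) (nat_lit 0) (nat_lit 0) (XT.lf (nat_lit 0) (nat_lit 4499773886) (nat_lit 1748) (nat_lit 5811005323) (nat_lit 1824) (nat_lit 1876030342) (nat_lit 355) (nat_lit 5) (nat_lit 378) (nat_lit 5) (nat_lit 379) (nat_lit 5) (nat_lit 447) (nat_lit 419) (nat_lit 274)) (XT.lf (nat_lit 0) (nat_lit 10871630142) (nat_lit 1748) (nat_lit 959005823) (nat_lit 1824) (nat_lit 482907707) (nat_lit 355) (nat_lit 5) (nat_lit 378) (nat_lit 5) (nat_lit 379) (nat_lit 5) (nat_lit 448) (nat_lit 419) (nat_lit 273))))) (XT.nd (nat_lit 234) (nat_lit 836) (nat_lit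 0) (XT.nd (nat_lit 78) (nat_lit 912) (nat_lit 0) (XT.lf (nat_lit 0) (nat_lit 971585020) (nat_lit 988) (nat_lit 7492383673) (nat_lit 76) (nat_lit 3977812899) (nat_lit 342) (nat_lit 5) (nat_lit 355) (nat_lit 5) (nat_lit 343) (nat_lit 5) (nat_lit 449) (nat_lit 419) (nat_lit 272)) (XT.nd (nat_lit 78) (nat_lit 912) (nat_lit 0) (XT.lf (nat_lit 0) (nat_lit 2452316517) (nat_lit 988) (nat_lit 1105306531) (nat_lit 76) (nat_lit 9014832079) (nat_lit 342) (nat_lit 5) (nat_lit 355) (nat_lit 5) (nat_lit 343) (nat_lit 5) (nat_lit 450) (nat_lit 419) (nat_lit 271)) (XT.lf (nat_lit 0) (nat_lit 3995576857) (nat_lit 988) (nat_lit 7244826642) (nat_lit 76) (nat_lit 1464687213) (nat_lit 330) (nat_lit 5) (nat_lit 343) (nat_lit 5) (nat_lit 331) (nat_lit 5) (nat_lit 451) (nat_lit 419) (nat_lit 270)))) (XT.nd (nat_lit 78) (nat_lit 836) (nat_lit 0) (XT.lf (nat_lit 0) (nat_lit 5588666113) (nat_lit 988) (nat_lit 703052981) (nat_lit 76)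 (nat_lit 6548287368) (nat_lit 330) (nat_lit 5) (nat_lit 343) (nat_lit 5) (nat_lit 331) (nat_lit 5) (nat_lit 452) (nat_lit 419) (nat_lit 269)) (XT.nd (nat_lit 78) (nat_lit 0) (nat_lit 0) (XT.lf (nat_lit 0) (nat_lit 6037621445) (nat_lit 836) (nat_lit 1203369464) (nat_lit 912) (nat_lit 5736088739) (nat_lit 319) (nat_lit 5) (nat_lit 330) (nat_lit 5) (nat_lit 331) (nat_lit 5) (nat_lit 453) (nat_lit 419) (nat_lit 268)) (XT.lf (nat_lit 0) (nat_lit 8945333623) (nat_lit 912) (nat_lit 231366233) (nat_lit 76) (nat_lit 3939821483) (nat_lit 319) (nat_lit 5) (nat_lit 331) (nat_lit 5) (nat_lit 320) (nat_lit 5) (nat_lit 454) (nat_lit 419) (nat_lit 267))))))))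
noncomputable def xc196 : XT := (XT.nd (nat_lit 1560) (nat_lit 5700) (nat_lit 0) (XT.nd (nat_lit 780) (nat_lit 3268) (nat_lit 0) (XT.nd (nat_lit 390) (nat_lit 2280) (nat_lit 0) (XT.nd (nat_lit 156) (nat_lit 836) (nat_lit 0) (XT.nd (nat_lit 78) (nat_lit 760) (nat_lit 0) (XT.lf (nat_lit 0) (nat_lit 6679451960) (nat_lit 836) (nat_lit 4044214381) (nat_lit 912) (nat_lit 2534293797) (nat_lit 308) (nat_lit 5) (nat_lit 319) (nat_lit 5) (nat_lit 320) (nat_lit 5) (nat_lit 455) (nat_lit 419) (nat_lit 266)) (XT.lf (nat_lit 0) (nat_lit 314579965) (nat_lit 760) (nat_lit 12223044366) (nat_lit 836) (nat_lit 864608429) (nat_lit 298) (nat_lit 5) (nat_lit 308) (nat_lit 5) (nat_lit 309) (nat_lit 5) (nat_lit 456) (nat_lit 419) (nat_lit 265))) (XT.nd (nat_lit 78) (nat_lit 760) (nat_lit 0) (XT.lf (nat_lit 0) (nat_lit 887484472) (nat_lit 836) (nat_lit 6157634215) (nat_lit 76) (nat_lit 6502969031) (nat_lit 297) (nat_lit 5) (nat_lit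 308) (nat_lit 5) (nat_lit 298) (nat_lit 5) (nat_lit 457) (nat_lit 419) (nat_lit 264)) (XT.nd (nat_lit 78) (nat_lit 0) (nat_lit 0) (XT.lf (nat_lit 0) (nat_lit 906053242) (nat_lit 760) (nat_lit 1751892243) (nat_lit 836) (nat_lit 11038907780) (nat_lit 287) (nat_lit 5) (nat_lit 297) (nat_lit 5) (nat_lit 298) (nat_lit 5) (nat_lit 458) (nat_lit 419) (nat_lit 263)) (XT.lf (nat_lit 0) (nat_lit 4518243080) (nat_lit 836) (nat_lit 5688475858) (nat_lit 76) (nat_lit 3640792380) (nat_lit 287) (nat_lit 5) (nat_lit 298) (nat_lit 5) (nat_lit 288) (nat_lit 5) (nat_lit 459) (nat_lit 419) (nat_lit 262))))) (XT.nd (nat_lit 156) (nat_lit 1520) (nat_lit 0) (XT.nd (nat_lit 78) (nat_lit 0) (nat_lit 0) (XT.lf (nat_lit 0) (nat_lit 1553652349) (nat_lit 760) (nat_lit 4873148958) (nat_lit 836) (nat_lit 7574165762) (nat_lit 277) (nat_lit 5) (nat_lit 287) (nat_lit 5) (nat_lit 288) (nat_lit 5) (nat_lit 460) (nat_lit 419) (nat_lit 261))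 (XT.lf (nat_lit 0) (nat_lit 8405138068) (nat_lit 836) (nat_lit 5154088327) (nat_lit 76) (nat_lit 597638913) (nat_lit 277) (nat_lit 5) (nat_lit 288) (nat_lit 5) (nat_lit 278) (nat_lit 5) (nat_lit 461) (nat_lit 419) (nat_lit 260))) (XT.nd (nat_lit 78) (nat_lit 760) (nat_lit 0) (XT.lf (nat_lit 0) (nat_lit 2271584070) (nat_lit 760) (nat_lit 8188184478) (nat_lit 836) (nat_lit 3855383834) (nat_lit 267) (nat_lit 5) (nat_lit 277) (nat_lit 5) (nat_lit 278) (nat_lit 5) (nat_lit 462) (nat_lit 419) (nat_lit 259)) (XT.nd (nat_lit 78) (nat_lit 760) (nat_lit 0) (XT.lf (nat_lit 0) (nat_lit 9904768653) (nat_lit 760) (nat_lit 2675146772) (nat_lit 836) (nat_lit 1896206603) (nat_lit 267) (nat_lit 5) (nat_lit 277) (nat_lit 5) (nat_lit 278) (nat_lit 5) (nat_lit 463) (nat_lit 419) (nat_lit 258)) (XT.lf (nat_lit 0) (nat_lit 130045370) (nat_lit 760) (nat_lit 11580141322) (nat_lit 76) (nat_lit 2929531589) (nat_lit 257) (nat_lit 5)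 (nat_lit 267) (nat_lit 5) (nat_lit 258) (nat_lit 5) (nat_lit 464) (nat_lit 419) (nat_lit 257)))))) (XT.nd (nat_lit 390) (nat_lit 1976) (nat_lit 0) (XT.nd (nat_lit 156) (nat_lit 608) (nat_lit 0) (XT.nd (nat_lit 78) (nat_lit 684) (nat_lit 0) (XT.lf (nat_lit 0) (nat_lit 2210138625) (nat_lit 760) (nat_lit 3942276702) (nat_lit 76) (nat_lit 8653151324) (nat_lit 257) (nat_lit 5) (nat_lit 267) (nat_lit 5) (nat_lit 258) (nat_lit 5) (nat_lit 465) (nat_lit 419) (nat_lit 256)) (XT.lf (nat_lit 0) (nat_lit 3888640973) (nat_lit 684) (nat_lit 458721946) (nat_lit 760) (nat_lit 10627063388) (nat_lit 248) (nat_lit 5) (nat_lit 257) (nat_lit 5) (nat_lit 258) (nat_lit 5) (nat_lit 466) (nat_lit 419) (nat_lit 255))) (XT.nd (nat_lit 78) (nat_lit 608) (nat_lit 0) (XT.lf (nat_lit 0) (nat_lit 6579086220) (nat_lit 760) (nat_lit 3262245956) (nat_lit 76) (nat_lit 5304300695) (nat_lit 248) (nat_lit 5) (nat_lit 258) (nat_lit 5) (nat_lit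 249) (nat_lit 5) (nat_lit 467) (nat_lit 419) (nat_lit 254)) (XT.nd (nat_lit 78) (nat_lit 0) (nat_lit 0) (XT.lf (nat_lit 0) (nat_lit 4766629710) (nat_lit 608) (nat_lit 4113384918) (nat_lit 684) (nat_lit 6439762235) (nat_lit 240) (nat_lit 5) (nat_lit 248) (nat_lit 5) (nat_lit 249) (nat_lit 5) (nat_lit 468) (nat_lit 419) (nat_lit 253)) (XT.lf (nat_lit 0) (nat_lit 11250917299) (nat_lit 684) (nat_lit 2518758525) (nat_lit 76) (nat_lit 1727253417) (nat_lit 240) (nat_lit 5) (nat_lit 249) (nat_lit 5) (nat_lit 241) (nat_lit 5) (nat_lit 469) (nat_lit 419) (nat_lit 252))))) (XT.nd (nat_lit 156) (nat_lit 1216) (nat_lit 0) (XT.nd (nat_lit 78) (nat_lit 76) (nat_lit 0) (XT.lf (nat_lit 0) (nat_lit 5713496201) (nat_lit 684) (nat_lit 8010953811) (nat_lit 760) (nat_lit 1952074943) (nat_lit 231) (nat_lit 5) (nat_lit 240) (nat_lit 5) (nat_lit 241) (nat_lit 5) (nat_lit 470) (nat_lit 419) (nat_lit 251)) (XT.lf (nat_lit 0) (nat_lit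 390591886) (nat_lit 760) (nat_lit 1728035551) (nat_lit 76) (nat_lit 13740880420) (nat_lit 230) (nat_lit 5) (nat_lit 240) (nat_lit 5) (nat_lit 231) (nat_lit 5) (nat_lit 471) (nat_lit 419) (nat_lit 250))) (XT.nd (nat_lit 78) (nat_lit 608) (nat_lit 0) (XT.lf (nat_lit 0) (nat_lit 2814469977) (nat_lit 684) (nat_lit 9334111256) (nat_lit 76) (nat_lit 3896105463) (nat_lit 222) (nat_lit 5) (nat_lit 231) (nat_lit 5) (nat_lit 223) (nat_lit 5) (nat_lit 472) (nat_lit 419) (nat_lit 249)) (XT.nd (nat_lit 78) (nat_lit 608) (nat_lit 0) (XT.lf (nat_lit 0) (nat_lit 5303727252) (nat_lit 684) (nat_lit 916526903) (nat_lit 76) (nat_lit 10012981107) (nat_lit 222) (nat_lit 5) (nat_lit 231) (nat_lit 5) (nat_lit 223) (nat_lit 5) (nat_lit 473) (nat_lit 419) (nat_lit 248)) (XT.lf (nat_lit 0) (nat_lit 7760935494) (nat_lit 608) (nat_lit 123594059) (nat_lit 684) (nat_lit 8540194151) (nat_lit 214) (nat_lit 5) (nat_lit 222) (nat_lit 5) (nat_lit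 223) (nat_lit 5) (nat_lit 474) (nat_lit 419) (nat_lit 247))))))) (XT.nd (nat_lit 780) (nat_lit 2812) (nat_lit 0) (XT.nd (nat_lit 390) (nat_lit 1140) (nat_lit 0) (XT.nd (nat_lit 156) (nat_lit 1216) (nat_lit 0) (XT.nd (nat_lit 78) (nat_lit 532) (nat_lit 0) (XT.lf (nat_lit 0) (nat_lit 10554174738) (nat_lit 684) (nat_lit 45517450) (nat_lit 76) (nat_lit 6019609211) (nat_lit 214) (nat_lit 5) (nat_lit 223) (nat_lit 5) (nat_lit 215) (nat_lit 5) (nat_lit 475) (nat_lit 419) (nat_lit 246)) (XT.lf (nat_lit 0) (nat_lit 8850219563) (nat_lit 532) (nat_lit 4476903604) (nat_lit 608) (nat_lit 3489653214) (nat_lit 207) (nat_lit 5) (nat_lit 214) (nat_lit 5) (nat_lit 215) (nat_lit 5) (nat_lit 476) (nat_lit 419) (nat_lit 245))) (XT.nd (nat_lit 78) (nat_lit 608) (nat_lit 0) (XT.lf (nat_lit 0) (nat_lit 896322138) (nat_lit 608) (nat_lit 15268533839) (nat_lit 684) (nat_lit 853162243) (nat_lit 199) (nat_lit 5) (nat_lit 207) (nat_lit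 5) (nat_lit 208) (nat_lit 5) (nat_lit 477) (nat_lit 419) (nat_lit 244)) (XT.nd (nat_lit 78) (nat_lit 532) (nat_lit 0) (XT.lf (nat_lit 0) (nat_lit 1887196071) (nat_lit 684) (nat_lit 7229981040) (nat_lit 76) (nat_lit 8104368727) (nat_lit 198) (nat_lit 5) (nat_lit 207) (nat_lit 5) (nat_lit 199) (nat_lit 5) (nat_lit 478) (nat_lit 419) (nat_lit 243)) (XT.lf (nat_lit 0) (nat_lit 1848068252) (nat_lit 532) (nat_lit 2826796245) (nat_lit 608) (nat_lit 12754091829) (nat_lit 191) (nat_lit 5) (nat_lit 198) (nat_lit 5) (nat_lit 199) (nat_lit 5) (nat_lit 479) (nat_lit 419) (nat_lit 242))))) (XT.nd (nat_lit 156) (nat_lit 608) (nat_lit 0) (XT.nd (nat_lit 78) (nat_lit 532) (nat_lit 0) (XT.lf (nat_lit 0) (nat_lit 7582426739) (nat_lit 608) (nat_lit 6467659392) (nat_lit 76) (nat_lit 3589149653) (nat_lit 191) (nat_lit 5) (nat_lit 199) (nat_lit 5) (nat_lit 192) (nat_lit 5) (nat_lit 480) (nat_lit 419) (nat_lit 241)) (XT.lf (nat_lit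 0) (nat_lit 2836340398) (nat_lit 532) (nat_lit 7741090099) (nat_lit 608) (nat_lit 7275708030) (nat_lit 184) (nat_lit 5) (nat_lit 191) (nat_lit 5) (nat_lit 192) (nat_lit 5) (nat_lit 481) (nat_lit 419) (nat_lit 240))) (XT.nd (nat_lit 78) (nat_lit 608) (nat_lit 0) (XT.lf (nat_lit 0) (nat_lit 12404184542) (nat_lit 532) (nat_lit 1263795066) (nat_lit 608) (nat_lit 4402630243) (nat_lit 184) (nat_lit 5) (nat_lit 191) (nat_lit 5) (nat_lit 192) (nat_lit 5) (nat_lit 482) (nat_lit 419) (nat_lit 239)) (XT.nd (nat_lit 78) (nat_lit 76) (nat_lit 0) (XT.lf (nat_lit 0) (nat_lit 3877261368) (nat_lit 532) (nat_lit 12995324957) (nat_lit 608) (nat_lit 1418802708) (nat_lit 177) (nat_lit 5) (nat_lit 184) (nat_lit 5) (nat_lit 185) (nat_lit 5) (nat_lit 483) (nat_lit 419) (nat_lit 238)) (XT.lf (nat_lit 0) (nat_lit 1642454091) (nat_lit 608) (nat_lit 4856254788) (nat_lit 76) (nat_lit 12016885960) (nat_lit 176) (nat_lit 5) (nat_lit 184)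 (nat_lit 5) (nat_lit 177) (nat_lit 5) (nat_lit 484) (nat_lit 419) (nat_lit 237)))))) (XT.nd (nat_lit 390) (nat_lit 1368) (nat_lit 0) (XT.nd (nat_lit 156) (nat_lit 912) (nat_lit 0) (XT.nd (nat_lit 78) (nat_lit 0) (nat_lit 0) (XT.lf (nat_lit 0) (nat_lit 4771673272) (nat_lit 608) (nat_lit 13806248417) (nat_lit 76) (nat_lit 165663979) (nat_lit 169) (nat_lit 5) (nat_lit 177) (nat_lit 5) (nat_lit 170) (nat_lit 5) (nat_lit 485) (nat_lit 419) (nat_lit 236)) (XT.lf (nat_lit 0) (nat_lit 8031950590) (nat_lit 608) (nat_lit 4035879974) (nat_lit 76) (nat_lit 6906939382) (nat_lit 169) (nat_lit 5) (nat_lit 177) (nat_lit 5) (nat_lit 170) (nat_lit 5) (nat_lit 486) (nat_lit 419) (nat_lit 235))) (XT.nd (nat_lit 78) (nat_lit 456) (nat_lit 0) (XT.lf (nat_lit 0) (nat_lit 5998994568) (nat_lit 456) (nat_lit 5390164911) (nat_lit 532) (nat_lit 7820786956) (nat_lit 163) (nat_lit 5) (nat_lit 169) (nat_lit 5) (nat_lit 170) (nat_lit 5)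 (nat_lit 487) (nat_lit 419) (nat_lit 234)) (XT.nd (nat_lit 78) (nat_lit 456) (nat_lit 0) (XT.lf (nat_lit 0) (nat_lit 14842842230) (nat_lit 532) (nat_lit 3179063156) (nat_lit 76) (nat_lit 1427337462) (nat_lit 163) (nat_lit 5) (nat_lit 170) (nat_lit 5) (nat_lit 164) (nat_lit 5) (nat_lit 488) (nat_lit 419) (nat_lit 233)) (XT.lf (nat_lit 0) (nat_lit 7101446169) (nat_lit 456) (nat_lit 11338937614) (nat_lit 532) (nat_lit 1251448633) (nat_lit 157) (nat_lit 5) (nat_lit 163) (nat_lit 5) (nat_lit 164) (nat_lit 5) (nat_lit 489) (nat_lit 419) (nat_lit 232))))) (XT.nd (nat_lit 234) (nat_lit 836) (nat_lit 0) (XT.nd (nat_lit 78) (nat_lit 456) (nat_lit 0) (XT.lf (nat_lit 0) (nat_lit 2156618223) (nat_lit 532) (nat_lit 2331913607) (nat_lit 76) (nat_lit 15450173227) (nat_lit 156) (nat_lit 5) (nat_lit 163) (nat_lit 5) (nat_lit 157) (nat_lit 5) (nat_lit 490) (nat_lit 419) (nat_lit 231)) (XT.nd (nat_lit 78) (nat_lit 0) (nat_lit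 0) (XT.lf (nat_lit 0) (nat_lit 5679250834) (nat_lit 532) (nat_lit 11984069985) (nat_lit 76) (nat_lit 2525768424) (nat_lit 150) (nat_lit 5) (nat_lit 157) (nat_lit 5) (nat_lit 151) (nat_lit 5) (nat_lit 491) (nat_lit 419) (nat_lit 230)) (XT.lf (nat_lit 0) (nat_lit 9311018124) (nat_lit 532) (nat_lit 1499062595) (nat_lit 76) (nat_lit 9633629460) (nat_lit 150) (nat_lit 5) (nat_lit 157) (nat_lit 5) (nat_lit 151) (nat_lit 5) (nat_lit 492) (nat_lit 419) (nat_lit 229)))) (XT.nd (nat_lit 78) (nat_lit 380) (nat_lit 0) (XT.lf (nat_lit 0) (nat_lit 9308545918) (nat_lit 456) (nat_lit 3760649989) (nat_lit 532) (nat_lit 7633154775) (nat_lit 144) (nat_lit 5) (nat_lit 150) (nat_lit 5) (nat_lit 151) (nat_lit 5) (nat_lit 493) (nat_lit 419) (nat_lit 228)) (XT.nd (nat_lit 78) (nat_lit 380) (nat_lit 0) (XT.lf (nat_lit 0) (nat_lit 16928324565) (nat_lit 532) (nat_lit 644910823) (nat_lit 76) (nat_lit 3392415461) (nat_lit 144) (nat_lit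 5) (nat_lit 151) (nat_lit 5) (nat_lit 145) (nat_lit 5) (nat_lit 494) (nat_lit 419) (nat_lit 227)) (XT.lf (nat_lit 0) (nat_lit 10421679553) (nat_lit 380) (nat_lit 10529048081) (nat_lit 456) (nat_lit 281770099) (nat_lit 139) (nat_lit 5) (nat_lit 144) (nat_lit 5) (nat_lit 145) (nat_lit 5) (nat_lit 495) (nat_lit 419) (nat_lit 226))))))))
noncomputable def xc197 : XT := (XT.nd (nat_lit 54756) (nat_lit 0) (nat_lit 12996) (XT.nd (nat_lit 53976) (nat_lit 0) (nat_lit 21888) (XT.nd (nat_lit 53586) (nat_lit 0) (nat_lit 23332) (XT.nd (nat_lit 156) (nat_lit 380) (nat_lit 0) (XT.nd (nat_lit 78) (nat_lit 0) (nat_lit 0) (XT.lf (nat_lit 0) (nat_lit 184004163) (nat_lit 456) (nat_lit 3317445736) (nat_lit 532) (nat_lit 18002791329) (nat_lit 132) (nat_lit 5) (nat_lit 138) (nat_lit 5) (nat_lit 139) (nat_lit 5) (nat_lit 496) (nat_lit 419) (nat_lit 225)) (XT.lf (nat_lit 0) (nat_lit 7449408414) (nat_lit 532) (nat_lit 10272409078)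 (nat_lit 76) (nat_lit 4057710314) (nat_lit 132) (nat_lit 5) (nat_lit 139) (nat_lit 5) (nat_lit 133) (nat_lit 5) (nat_lit 497) (nat_lit 419) (nat_lit 224))) (XT.nd (nat_lit 53274) (nat_lit 0) (nat_lit 23256) (XT.lf (nat_lit 0) (nat_lit 978274616) (nat_lit 380) (nat_lit 10520095352) (nat_lit 456) (nat_lit 10561511624) (nat_lit 127) (nat_lit 5) (nat_lit 132) (nat_lit 5) (nat_lit 133) (nat_lit 5) (nat_lit 498) (nat_lit 419) (nat_lit 223)) (XT.nd (nat_lit 78) (nat_lit 0) (nat_lit 0) (XT.lf (nat_lit 0) (nat_lit 1391522045) (nat_lit 1596) (nat_lit 1691616298) (nat_lit 1596) (nat_lit 1691616298) (nat_lit 433) (nat_lit 3) (nat_lit 454) (nat_lit 3) (nat_lit 454) (nat_lit 5) (nat_lit 420) (nat_lit 420) (nat_lit 300)) (XT.lf (nat_lit 76) (nat_lit 1085629203) (nat_lit 0) (nat_lit 2491517409) (nat_lit 1596) (nat_lit 6052048916) (nat_lit 434) (nat_lit 5) (nat_lit 433) (nat_lit 3) (nat_lit 454) (nat_lit 5) (nat_lit 421)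 (nat_lit 420) (nat_lit 299))))) (XT.nd (nat_lit 156) (nat_lit 0) (nat_lit 0) (XT.nd (nat_lit 78) (nat_lit 0) (nat_lit 0) (XT.lf (nat_lit 0) (nat_lit 4398225687) (nat_lit 1520) (nat_lit 4039375589) (nat_lit 1596) (nat_lit 1272665010) (nat_lit 434) (nat_lit 5) (nat_lit 454) (nat_lit 5) (nat_lit 455) (nat_lit 5) (nat_lit 422) (nat_lit 420) (nat_lit 298)) (XT.lf (nat_lit 76) (nat_lit 534851676) (nat_lit 0) (nat_lit 4701319264) (nat_lit 1596) (nat_lit 4556791059) (nat_lit 435) (nat_lit 5) (nat_lit 434) (nat_lit 5) (nat_lit 455) (nat_lit 5) (nat_lit 423) (nat_lit 420) (nat_lit 297))) (XT.nd (nat_lit 78) (nat_lit 0) (nat_lit 76) (XT.lf (nat_lit 76) (nat_lit 5244825927) (nat_lit 0) (nat_lit 853942159) (nat_lit 1596) (nat_lit 3778397869) (nat_lit 435) (nat_lit 5) (nat_lit 434) (nat_lit 5) (nat_lit 455) (nat_lit 5) (nat_lit 424) (nat_lit 420) (nat_lit 296)) (XT.nd (nat_lit 78) (nat_lit 0) (nat_lit 0) (XT.lf (nat_lit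 76) (nat_lit 56014535) (nat_lit 0) (nat_lit 6924120179) (nat_lit 1596) (nat_lit 2982900873) (nat_lit 436) (nat_lit 5) (nat_lit 435) (nat_lit 5) (nat_lit 456) (nat_lit 5) (nat_lit 425) (nat_lit 420) (nat_lit 295)) (XT.lf (nat_lit 76) (nat_lit 4884538153) (nat_lit 0) (nat_lit 3012811941) (nat_lit 1596) (nat_lit 2152919803) (nat_lit 436) (nat_lit 5) (nat_lit 435) (nat_lit 5) (nat_lit 456) (nat_lit 5) (nat_lit 426) (nat_lit 420) (nat_lit 294)))))) (XT.nd (nat_lit 390) (nat_lit 0) (nat_lit 152) (XT.nd (nat_lit 156) (nat_lit 1596) (nat_lit 0) (XT.nd (nat_lit 78) (nat_lit 0) (nat_lit 0) (XT.lf (nat_lit 0) (nat_lit 8821181435) (nat_lit 1520) (nat_lit 346833045) (nat_lit 1596) (nat_lit 971480466) (nat_lit 436) (nat_lit 5) (nat_lit 456) (nat_lit 5) (nat_lit 457) (nat_lit 5) (nat_lit 427) (nat_lit 420) (nat_lit 293)) (XT.lf (nat_lit 76) (nat_lit 4598134965) (nat_lit 0) (nat_lit 5197445408) (nat_lit 1596) (nat_lit 434293562)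 (nat_lit 437) (nat_lit 5) (nat_lit 436) (nat_lit 5) (nat_lit 457) (nat_lit 5) (nat_lit 428) (nat_lit 420) (nat_lit 292))) (XT.nd (nat_lit 78) (nat_lit 0) (nat_lit 76) (XT.lf (nat_lit 0) (nat_lit 446056167) (nat_lit 1596) (nat_lit 689196055) (nat_lit 1672) (nat_lit 9187062820) (nat_lit 415) (nat_lit 5) (nat_lit 436) (nat_lit 5) (nat_lit 437) (nat_lit 5) (nat_lit 429) (nat_lit 420) (nat_lit 291)) (XT.nd (nat_lit 78) (nat_lit 0) (nat_lit 0) (XT.lf (nat_lit 0) (nat_lit 1369310279) (nat_lit 1596) (nat_lit 6039756229) (nat_lit 1672) (nat_lit 3006869408) (nat_lit 416) (nat_lit 5) (nat_lit 437) (nat_lit 5) (nat_lit 438) (nat_lit 5) (nat_lit 430) (nat_lit 420) (nat_lit 290)) (XT.lf (nat_lit 0) (nat_lit 2306294873) (nat_lit 1596) (nat_lit 977624680) (nat_lit 1672) (nat_lit 7227614749) (nat_lit 416) (nat_lit 5) (nat_lit 437) (nat_lit 5) (nat_lit 438) (nat_lit 5) (nat_lit 431) (nat_lit 420) (nat_lit 289))))) (XT.nd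 (nat_lit 156) (nat_lit 0) (nat_lit 0) (XT.nd (nat_lit 78) (nat_lit 0) (nat_lit 0) (XT.lf (nat_lit 0) (nat_lit 3279126941) (nat_lit 1596) (nat_lit 6384550765) (nat_lit 1672) (nat_lit 945034991) (nat_lit 417) (nat_lit 5) (nat_lit 438) (nat_lit 5) (nat_lit 439) (nat_lit 5) (nat_lit 432) (nat_lit 420) (nat_lit 288)) (XT.lf (nat_lit 0) (nat_lit 4283483087) (nat_lit 1596) (nat_lit 1197290761) (nat_lit 1672) (nat_lit 5226829462) (nat_lit 417) (nat_lit 5) (nat_lit 438) (nat_lit 5) (nat_lit 439) (nat_lit 5) (nat_lit 433) (nat_lit 420) (nat_lit 287))) (XT.nd (nat_lit 78) (nat_lit 0) (nat_lit 76) (XT.lf (nat_lit 76) (nat_lit 4137158045) (nat_lit 0) (nat_lit 1181664584) (nat_lit 1672) (nat_lit 5489440982) (nat_lit 418) (nat_lit 5) (nat_lit 417) (nat_lit 5) (nat_lit 439) (nat_lit 5) (nat_lit 434) (nat_lit 420) (nat_lit 286)) (XT.nd (nat_lit 78) (nat_lit 0) (nat_lit 0) (XT.lf (nat_lit 0) (nat_lit 6388066082) (nat_lit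 1596) (nat_lit 1348204156) (nat_lit 1672) (nat_lit 3174412548) (nat_lit 418) (nat_lit 5) (nat_lit 439) (nat_lit 5) (nat_lit 440) (nat_lit 5) (nat_lit 435) (nat_lit 420) (nat_lit 285)) (XT.lf (nat_lit 76) (nat_lit 4116433963) (nat_lit 0) (nat_lit 3381430973) (nat_lit 1672) (nat_lit 3516911419) (nat_lit 419) (nat_lit 5) (nat_lit 418) (nat_lit 5) (nat_lit 440) (nat_lit 5) (nat_lit 436) (nat_lit 420) (nat_lit 284))))))) (XT.nd (nat_lit 780) (nat_lit 6080) (nat_lit 0) (XT.nd (nat_lit 390) (nat_lit 1520) (nat_lit 0) (XT.nd (nat_lit 156) (nat_lit 1596) (nat_lit 0) (XT.nd (nat_lit 78) (nat_lit 0) (nat_lit 0) (XT.lf (nat_lit 0) (nat_lit 8630730238) (nat_lit 1596) (nat_lit 1430228466) (nat_lit 1672) (nat_lit 1059984919) (nat_lit 419) (nat_lit 5) (nat_lit 440) (nat_lit 5) (nat_lit 441) (nat_lit 5) (nat_lit 437) (nat_lit 420) (nat_lit 283)) (XT.lf (nat_lit 76) (nat_lit 4168592362) (nat_lit 0) (nat_lit 5652293735) (nat_lit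 1672) (nat_lit 1407664529) (nat_lit 420) (nat_lit 5) (nat_lit 419) (nat_lit 5) (nat_lit 441) (nat_lit 5) (nat_lit 438) (nat_lit 420) (nat_lit 282))) (XT.nd (nat_lit 78) (nat_lit 1596) (nat_lit 0) (XT.lf (nat_lit 76) (nat_lit 9887915032) (nat_lit 0) (nat_lit 1141922209) (nat_lit 1672) (nat_lit 308581564) (nat_lit 420) (nat_lit 5) (nat_lit 419) (nat_lit 5) (nat_lit 441) (nat_lit 5) (nat_lit 439) (nat_lit 420) (nat_lit 281)) (XT.nd (nat_lit 78) (nat_lit 0) (nat_lit 0) (XT.lf (nat_lit 0) (nat_lit 838097684) (nat_lit 1672) (nat_lit 7161252752) (nat_lit 1748) (nat_lit 3450311531) (nat_lit 398) (nat_lit 5) (nat_lit 420) (nat_lit 5) (nat_lit 421) (nat_lit 5) (nat_lit 440) (nat_lit 420) (nat_lit 280)) (XT.lf (nat_lit 0) (nat_lit 2006755623) (nat_lit 1672) (nat_lit 1421935734) (nat_lit 1748) (nat_lit 8134342668) (nat_lit 398) (nat_lit 5) (nat_lit 420) (nat_lit 5) (nat_lit 421) (nat_lit 5) (nat_lit 441) (nat_lit 420)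 (nat_lit 279))))) (XT.nd (nat_lit 156) (nat_lit 1596) (nat_lit 0) (XT.nd (nat_lit 78) (nat_lit 0) (nat_lit 0) (XT.lf (nat_lit 0) (nat_lit 3222185260) (nat_lit 1672) (nat_lit 7206549035) (nat_lit 1748) (nat_lit 1249479458) (nat_lit 399) (nat_lit 5) (nat_lit 421) (nat_lit 5) (nat_lit 422) (nat_lit 5) (nat_lit 442) (nat_lit 420) (nat_lit 278)) (XT.lf (nat_lit 0) (nat_lit 4480547449) (nat_lit 1672) (nat_lit 1326968473) (nat_lit 1748) (nat_lit 5987816716) (nat_lit 399) (nat_lit 5) (nat_lit 421) (nat_lit 5) (nat_lit 422) (nat_lit 5) (nat_lit 443) (nat_lit 420) (nat_lit 277))) (XT.nd (nat_lit 78) (nat_lit 1596) (nat_lit 0) (XT.lf (nat_lit 76) (nat_lit 4721236932) (nat_lit 0) (nat_lit 1060074003) (nat_lit 1748) (nat_lit 6133146168) (nat_lit 400) (nat_lit 5) (nat_lit 399) (nat_lit 5) (nat_lit 422) (nat_lit 5) (nat_lit 444) (nat_lit 420) (nat_lit 276)) (XT.nd (nat_lit 78) (nat_lit 1672) (nat_lit 0) (XT.lf (nat_lit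 0) (nat_lit 7128399842) (nat_lit 1672) (nat_lit 1163111324) (nat_lit 76) (nat_lit 3744054417) (nat_lit 400) (nat_lit 5) (nat_lit 422) (nat_lit 5) (nat_lit 401) (nat_lit 5) (nat_lit 445) (nat_lit 420) (nat_lit 275)) (XT.lf (nat_lit 0) (nat_lit 5035738735) (nat_lit 1672) (nat_lit 3493455755) (nat_lit 1748) (nat_lit 3629374040) (nat_lit 378) (nat_lit 5) (nat_lit 400) (nat_lit 5) (nat_lit 401) (nat_lit 5) (nat_lit 446) (nat_lit 420) (nat_lit 274)))))) (XT.nd (nat_lit 390) (nat_lit 3344) (nat_lit 0) (XT.nd (nat_lit 156) (nat_lit 988) (nat_lit 0) (XT.nd (nat_lit 78) (nat_lit 1748) (nat_lit 0) (XT.lf (nat_lit 0) (nat_lit 9962199866) (nat_lit 1748) (nat_lit 929777510) (nat_lit 76) (nat_lit 1391977694) (nat_lit 378) (nat_lit 5) (nat_lit 401) (nat_lit 5) (nat_lit 379) (nat_lit 5) (nat_lit 447) (nat_lit 420) (nat_lit 273)) (XT.lf (nat_lit 0) (nat_lit 5424268959) (nat_lit 1748) (nat_lit 6045444600) (nat_lit 1824) (nat_lit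 941226100) (nat_lit 355) (nat_lit 5) (nat_lit 378) (nat_lit 5) (nat_lit 379) (nat_lit 5) (nat_lit 448) (nat_lit 420) (nat_lit 272))) (XT.nd (nat_lit 78) (nat_lit 912) (nat_lit 0) (XT.lf (nat_lit 0) (nat_lit 454651711) (nat_lit 1824) (nat_lit 636384423) (nat_lit 76) (nat_lit 11449496938) (nat_lit 354) (nat_lit 5) (nat_lit 378) (nat_lit 5) (nat_lit 355) (nat_lit 5) (nat_lit 449) (nat_lit 420) (nat_lit 271)) (XT.nd (nat_lit 78) (nat_lit 0) (nat_lit 0) (XT.lf (nat_lit 0) (nat_lit 1918026913) (nat_lit 988) (nat_lit 6796794854) (nat_lit 76) (nat_lit 3956735364) (nat_lit 342) (nat_lit 5) (nat_lit 355) (nat_lit 5) (nat_lit 343) (nat_lit 5) (nat_lit 450) (nat_lit 420) (nat_lit 270)) (XT.lf (nat_lit 0) (nat_lit 3410196370) (nat_lit 988) (nat_lit 298553356) (nat_lit 76) (nat_lit 9096468139) (nat_lit 342) (nat_lit 5) (nat_lit 355) (nat_lit 5) (nat_lit 343) (nat_lit 5) (nat_lit 451) (nat_lit 420) (nat_lit 269))))) (XT.nd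 (nat_lit 234) (nat_lit 1596) (nat_lit 0) (XT.nd (nat_lit 78) (nat_lit 836) (nat_lit 0) (XT.lf (nat_lit 0) (nat_lit 4971374092) (nat_lit 988) (nat_lit 6547416345) (nat_lit 76) (nat_lit 1421984676) (nat_lit 330) (nat_lit 5) (nat_lit 343) (nat_lit 5) (nat_lit 331) (nat_lit 5) (nat_lit 452) (nat_lit 420) (nat_lit 268)) (XT.nd (nat_lit 78) (nat_lit 0) (nat_lit 0) (XT.lf (nat_lit 0) (nat_lit 110121228) (nat_lit 836) (nat_lit 6469352498) (nat_lit 912) (nat_lit 6499262278) (nat_lit 319) (nat_lit 5) (nat_lit 330) (nat_lit 5) (nat_lit 331) (nat_lit 5) (nat_lit 453) (nat_lit 420) (nat_lit 267)) (XT.lf (nat_lit 0) (nat_lit 6978732048) (nat_lit 836) (nat_lit 1273502353) (nat_lit 912) (nat_lit 4966578072) (nat_lit 319) (nat_lit 5) (nat_lit 330) (nat_lit 5) (nat_lit 331) (nat_lit 5) (nat_lit 454) (nat_lit 420) (nat_lit 266)))) (XT.nd (nat_lit 78) (nat_lit 760) (nat_lit 0) (XT.lf (nat_lit 0) (nat_lit 593820019) (nat_lit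 836) (nat_lit 9383417500) (nat_lit 912) (nat_lit 3384083424) (nat_lit 308) (nat_lit 5) (nat_lit 319) (nat_lit 5) (nat_lit 320) (nat_lit 5) (nat_lit 455) (nat_lit 420) (nat_lit 265)) (XT.nd (nat_lit 78) (nat_lit 760) (nat_lit 0) (XT.lf (nat_lit 0) (nat_lit 7629658458) (nat_lit 836) (nat_lit 4146275146) (nat_lit 912) (nat_lit 1729968215) (nat_lit 308) (nat_lit 5) (nat_lit 319) (nat_lit 5) (nat_lit 320) (nat_lit 5) (nat_lit 456) (nat_lit 420) (nat_lit 264)) (XT.lf (nat_lit 0) (nat_lit 1149357377) (nat_lit 760) (nat_lit 12465630327) (nat_lit 836) (nat_lit 38304900) (nat_lit 298) (nat_lit 5) (nat_lit 308) (nat_lit 5) (nat_lit 309) (nat_lit 5) (nat_lit 457) (nat_lit 420) (nat_lit 263))))))))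
noncomputable def xc198 : XT := (XT.nd (nat_lit 1560) (nat_lit 5700) (nat_lit 0) (XT.nd (nat_lit 780) (nat_lit 3116) (nat_lit 0) (XT.nd (nat_lit 390) (nat_lit 2204) (nat_lit 0) (XT.nd (nat_lit 156) (nat_lit 760) (nat_lit 0) (XT.nd (nat_lit 78) (nat_lit 760) (nat_lit 0) (XT.lf (nat_lit 0) (nat_lit 1721441797) (nat_lit 836) (nat_lit 5457263919) (nat_lit 76) (nat_lit 6623584586) (nat_lit 297) (nat_lit 5) (nat_lit 308) (nat_lit 5) (nat_lit 298) (nat_lit 5) (nat_lit 458) (nat_lit 420) (nat_lit 262)) (XT.lf (nat_lit 0) (nat_lit 1742279374) (nat_lit 760) (nat_lit 1774340266) (nat_lit 836) (nat_lit 10437633897) (nat_lit 287) (nat_lit 5) (nat_lit 297) (nat_lit 5) (nat_lit 298) (nat_lit 5) (nat_lit 459) (nat_lit 420) (nat_lit 261))) (XT.nd (nat_lit 78) (nat_lit 760) (nat_lit 0) (XT.lf (nat_lit 0) (nat_lit 5398408909) (nat_lit 836) (nat_lit 4984049180) (nat_lit 76) (nat_lit 3725789310) (nat_lit 287) (nat_lit 5) (nat_lit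 298) (nat_lit 5) (nat_lit 288) (nat_lit 5) (nat_lit 460) (nat_lit 420) (nat_lit 260)) (XT.nd (nat_lit 78) (nat_lit 0) (nat_lit 0) (XT.lf (nat_lit 0) (nat_lit 2397538721) (nat_lit 760) (nat_lit 4937390609) (nat_lit 836) (nat_lit 6930055314) (nat_lit 277) (nat_lit 5) (nat_lit 287) (nat_lit 5) (nat_lit 288) (nat_lit 5) (nat_lit 461) (nat_lit 420) (nat_lit 259)) (XT.lf (nat_lit 0) (nat_lit 9337758173) (nat_lit 836) (nat_lit 4444817743) (nat_lit 76) (nat_lit 641734461) (nat_lit 277) (nat_lit 5) (nat_lit 288) (nat_lit 5) (nat_lit 278) (nat_lit 5) (nat_lit 462) (nat_lit 420) (nat_lit 258))))) (XT.nd (nat_lit 156) (nat_lit 1444) (nat_lit 0) (XT.nd (nat_lit 78) (nat_lit 0) (nat_lit 0) (XT.lf (nat_lit 0) (nat_lit 3124023678) (nat_lit 760) (nat_lit 8299706680) (nat_lit 836) (nat_lit 3162235733) (nat_lit 267) (nat_lit 5) (nat_lit 277) (nat_lit 5) (nat_lit 278) (nat_lit 5) (nat_lit 463) (nat_lit 420) (nat_lit 257)) (XT.lf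 (nat_lit 0) (nat_lit 10894048268) (nat_lit 760) (nat_lit 2677432562) (nat_lit 836) (nat_lit 1178978012) (nat_lit 267) (nat_lit 5) (nat_lit 277) (nat_lit 5) (nat_lit 278) (nat_lit 5) (nat_lit 464) (nat_lit 420) (nat_lit 256))) (XT.nd (nat_lit 78) (nat_lit 684) (nat_lit 0) (XT.lf (nat_lit 0) (nat_lit 868843819) (nat_lit 760) (nat_lit 11000854731) (nat_lit 76) (nat_lit 3047718861) (nat_lit 257) (nat_lit 5) (nat_lit 267) (nat_lit 5) (nat_lit 258) (nat_lit 5) (nat_lit 465) (nat_lit 420) (nat_lit 255)) (XT.nd (nat_lit 78) (nat_lit 684) (nat_lit 0) (XT.lf (nat_lit 0) (nat_lit 2976103694) (nat_lit 760) (nat_lit 3226132612) (nat_lit 76) (nat_lit 8884642429) (nat_lit 257) (nat_lit 5) (nat_lit 267) (nat_lit 5) (nat_lit 258) (nat_lit 5) (nat_lit 466) (nat_lit 420) (nat_lit 254)) (XT.lf (nat_lit 0) (nat_lit 4756173222) (nat_lit 684) (nat_lit 390874692) (nat_lit 760) (nat_lit 10112255298) (nat_lit 248) (nat_lit 5) (nat_lit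 257) (nat_lit 5) (nat_lit 258) (nat_lit 5) (nat_lit 467) (nat_lit 420) (nat_lit 253)))))) (XT.nd (nat_lit 390) (nat_lit 1748) (nat_lit 0) (XT.nd (nat_lit 156) (nat_lit 760) (nat_lit 0) (XT.nd (nat_lit 78) (nat_lit 608) (nat_lit 0) (XT.lf (nat_lit 0) (nat_lit 7409920701) (nat_lit 760) (nat_lit 2539382076) (nat_lit 76) (nat_lit 5484907826) (nat_lit 248) (nat_lit 5) (nat_lit 258) (nat_lit 5) (nat_lit 249) (nat_lit 5) (nat_lit 468) (nat_lit 420) (nat_lit 252)) (XT.lf (nat_lit 0) (nat_lit 5644886177) (nat_lit 608) (nat_lit 4103353924) (nat_lit 684) (nat_lit 5863776788) (nat_lit 240) (nat_lit 5) (nat_lit 248) (nat_lit 5) (nat_lit 249) (nat_lit 5) (nat_lit 469) (nat_lit 420) (nat_lit 251))) (XT.nd (nat_lit 78) (nat_lit 760) (nat_lit 0) (XT.lf (nat_lit 0) (nat_lit 12153606668) (nat_lit 684) (nat_lit 1788270832) (nat_lit 76) (nat_lit 1851100622) (nat_lit 240) (nat_lit 5) (nat_lit 249) (nat_lit 5) (nat_lit 241) (nat_lit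 5) (nat_lit 470) (nat_lit 420) (nat_lit 250)) (XT.nd (nat_lit 78) (nat_lit 76) (nat_lit 0) (XT.lf (nat_lit 0) (nat_lit 6603491733) (nat_lit 684) (nat_lit 8064867160) (nat_lit 760) (nat_lit 1307978473) (nat_lit 231) (nat_lit 5) (nat_lit 240) (nat_lit 5) (nat_lit 241) (nat_lit 5) (nat_lit 471) (nat_lit 420) (nat_lit 249)) (XT.lf (nat_lit 0) (nat_lit 1059363029) (nat_lit 760) (nat_lit 992980271) (nat_lit 76) (nat_lit 14110818640) (nat_lit 230) (nat_lit 5) (nat_lit 240) (nat_lit 5) (nat_lit 231) (nat_lit 5) (nat_lit 472) (nat_lit 420) (nat_lit 248))))) (XT.nd (nat_lit 156) (nat_lit 1140) (nat_lit 0) (XT.nd (nat_lit 78) (nat_lit 0) (nat_lit 0) (XT.lf (nat_lit 0) (nat_lit 3524447191) (nat_lit 684) (nat_lit 8743595326) (nat_lit 76) (nat_lit 4084153482) (nat_lit 222) (nat_lit 5) (nat_lit 231) (nat_lit 5) (nat_lit 223) (nat_lit 5) (nat_lit 473) (nat_lit 420) (nat_lit 247)) (XT.lf (nat_lit 0) (nat_lit 6050672204)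 (nat_lit 684) (nat_lit 172898466) (nat_lit 76) (nat_lit 10321207308) (nat_lit 222) (nat_lit 5) (nat_lit 231) (nat_lit 5) (nat_lit 223) (nat_lit 5) (nat_lit 474) (nat_lit 420) (nat_lit 246))) (XT.nd (nat_lit 78) (nat_lit 532) (nat_lit 0) (XT.lf (nat_lit 0) (nat_lit 8673100291) (nat_lit 608) (nat_lit 2338770) (nat_lit 684) (nat_lit 8064816129) (nat_lit 214) (nat_lit 5) (nat_lit 222) (nat_lit 5) (nat_lit 223) (nat_lit 5) (nat_lit 475) (nat_lit 420) (nat_lit 245)) (XT.nd (nat_lit 78) (nat_lit 0) (nat_lit 0) (XT.lf (nat_lit 0) (nat_lit 717001050) (nat_lit 532) (nat_lit 10674502855) (nat_lit 608) (nat_lit 5547365853) (nat_lit 207) (nat_lit 5) (nat_lit 214) (nat_lit 5) (nat_lit 215) (nat_lit 5) (nat_lit 476) (nat_lit 420) (nat_lit 244)) (XT.lf (nat_lit 0) (nat_lit 9776288514) (nat_lit 532) (nat_lit 4431642920) (nat_lit 608) (nat_lit 2932608145) (nat_lit 207) (nat_lit 5) (nat_lit 214) (nat_lit 5) (nat_lit 215) (nat_lit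 5) (nat_lit 477) (nat_lit 420) (nat_lit 243))))))) (XT.nd (nat_lit 780) (nat_lit 2812) (nat_lit 0) (XT.nd (nat_lit 390) (nat_lit 1140) (nat_lit 0) (XT.nd (nat_lit 156) (nat_lit 1064) (nat_lit 0) (XT.nd (nat_lit 78) (nat_lit 76) (nat_lit 0) (XT.lf (nat_lit 0) (nat_lit 1670005257) (nat_lit 608) (nat_lit 15426134132) (nat_lit 684) (nat_lit 249798084) (nat_lit 199) (nat_lit 5) (nat_lit 207) (nat_lit 5) (nat_lit 208) (nat_lit 5) (nat_lit 478) (nat_lit 420) (nat_lit 242)) (XT.lf (nat_lit 0) (nat_lit 2525224686) (nat_lit 684) (nat_lit 6625394815) (nat_lit 76) (nat_lit 8403081099) (nat_lit 198) (nat_lit 5) (nat_lit 207) (nat_lit 5) (nat_lit 199) (nat_lit 5) (nat_lit 479) (nat_lit 420) (nat_lit 241))) (XT.nd (nat_lit 78) (nat_lit 532) (nat_lit 0) (XT.lf (nat_lit 0) (nat_lit 2629286608) (nat_lit 532) (nat_lit 2732421793) (nat_lit 608) (nat_lit 12403694961) (nat_lit 191) (nat_lit 5) (nat_lit 198) (nat_lit 5) (nat_lit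 199) (nat_lit 5) (nat_lit 480) (nat_lit 420) (nat_lit 240)) (XT.nd (nat_lit 78) (nat_lit 532) (nat_lit 0) (XT.lf (nat_lit 0) (nat_lit 8316748240) (nat_lit 608) (nat_lit 5856415256) (nat_lit 76) (nat_lit 3806943586) (nat_lit 191) (nat_lit 5) (nat_lit 199) (nat_lit 5) (nat_lit 192) (nat_lit 5) (nat_lit 481) (nat_lit 420) (nat_lit 239)) (XT.lf (nat_lit 0) (nat_lit 3628792179) (nat_lit 532) (nat_lit 7736211748) (nat_lit 608) (nat_lit 6833422013) (nat_lit 184) (nat_lit 5) (nat_lit 191) (nat_lit 5) (nat_lit 192) (nat_lit 5) (nat_lit 482) (nat_lit 420) (nat_lit 238))))) (XT.nd (nat_lit 156) (nat_lit 608) (nat_lit 0) (XT.nd (nat_lit 78) (nat_lit 532) (nat_lit 0) (XT.lf (nat_lit 0) (nat_lit 13373567226) (nat_lit 532) (nat_lit 1132502190) (nat_lit 608) (nat_lit 3914408164) (nat_lit 184) (nat_lit 5) (nat_lit 191) (nat_lit 5) (nat_lit 192) (nat_lit 5) (nat_lit 483) (nat_lit 420) (nat_lit 237)) (XT.lf (nat_lit 0) (nat_lit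 4681818857) (nat_lit 532) (nat_lit 13087593130) (nat_lit 608) (nat_lit 876372383) (nat_lit 177) (nat_lit 5) (nat_lit 184) (nat_lit 5) (nat_lit 185) (nat_lit 5) (nat_lit 484) (nat_lit 420) (nat_lit 236))) (XT.nd (nat_lit 78) (nat_lit 532) (nat_lit 0) (XT.lf (nat_lit 0) (nat_lit 2227577831) (nat_lit 608) (nat_lit 4233047873) (nat_lit 76) (nat_lit 12414000088) (nat_lit 176) (nat_lit 5) (nat_lit 184) (nat_lit 5) (nat_lit 177) (nat_lit 5) (nat_lit 485) (nat_lit 420) (nat_lit 235)) (XT.nd (nat_lit 78) (nat_lit 0) (nat_lit 0) (XT.lf (nat_lit 0) (nat_lit 5414299098) (nat_lit 608) (nat_lit 13356728243) (nat_lit 76) (nat_lit 336255358) (nat_lit 169) (nat_lit 5) (nat_lit 177) (nat_lit 5) (nat_lit 170) (nat_lit 5) (nat_lit 486) (nat_lit 420) (nat_lit 234)) (XT.lf (nat_lit 0) (nat_lit 8729052701) (nat_lit 608) (nat_lit 3405180767) (nat_lit 76) (nat_lit 7209076306) (nat_lit 169) (nat_lit 5) (nat_lit 177) (nat_lit 5) (nat_lit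 170) (nat_lit 5) (nat_lit 487) (nat_lit 420) (nat_lit 233)))))) (XT.nd (nat_lit 390) (nat_lit 1368) (nat_lit 0) (XT.nd (nat_lit 156) (nat_lit 988) (nat_lit 0) (XT.nd (nat_lit 78) (nat_lit 0) (nat_lit 0) (XT.lf (nat_lit 0) (nat_lit 6825710893) (nat_lit 456) (nat_lit 5321764593) (nat_lit 532) (nat_lit 7435837350) (nat_lit 163) (nat_lit 5) (nat_lit 169) (nat_lit 5) (nat_lit 170) (nat_lit 5) (nat_lit 488) (nat_lit 420) (nat_lit 232)) (XT.lf (nat_lit 0) (nat_lit 15660950886) (nat_lit 532) (nat_lit 2540267037) (nat_lit 76) (nat_lit 1626367225) (nat_lit 163) (nat_lit 5) (nat_lit 170) (nat_lit 5) (nat_lit 164) (nat_lit 5) (nat_lit 489) (nat_lit 420) (nat_lit 231))) (XT.nd (nat_lit 78) (nat_lit 532) (nat_lit 0) (XT.lf (nat_lit 0) (nat_lit 7941231571) (nat_lit 456) (nat_lit 11383521373) (nat_lit 532) (nat_lit 750391635) (nat_lit 157) (nat_lit 5) (nat_lit 163) (nat_lit 5) (nat_lit 164) (nat_lit 5) (nat_lit 490) (nat_lit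 420) (nat_lit 230)) (XT.nd (nat_lit 78) (nat_lit 456) (nat_lit 0) (XT.lf (nat_lit 0) (nat_lit 2708756723) (nat_lit 532) (nat_lit 1687507501) (nat_lit 76) (nat_lit 15930829836) (nat_lit 156) (nat_lit 5) (nat_lit 163) (nat_lit 5) (nat_lit 157) (nat_lit 5) (nat_lit 491) (nat_lit 420) (nat_lit 229)) (XT.lf (nat_lit 0) (nat_lit 6297506931) (nat_lit 532) (nat_lit 11528170996) (nat_lit 76) (nat_lit 2756898724) (nat_lit 150) (nat_lit 5) (nat_lit 157) (nat_lit 5) (nat_lit 151) (nat_lit 5) (nat_lit 492) (nat_lit 420) (nat_lit 228))))) (XT.nd (nat_lit 234) (nat_lit 532) (nat_lit 0) (XT.nd (nat_lit 78) (nat_lit 836) (nat_lit 0) (XT.lf (nat_lit 0) (nat_lit 9992014055) (nat_lit 532) (nat_lit 847102288) (nat_lit 76) (nat_lit 10003375511) (nat_lit 150) (nat_lit 5) (nat_lit 157) (nat_lit 5) (nat_lit 151) (nat_lit 5) (nat_lit 493) (nat_lit 420) (nat_lit 227)) (XT.nd (nat_lit 78) (nat_lit 380) (nat_lit 0) (XT.lf (nat_lit 0)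 (nat_lit 10172171937) (nat_lit 456) (nat_lit 3647880463) (nat_lit 532) (nat_lit 7286362691) (nat_lit 144) (nat_lit 5) (nat_lit 150) (nat_lit 5) (nat_lit 151) (nat_lit 5) (nat_lit 494) (nat_lit 420) (nat_lit 226)) (XT.lf (nat_lit 0) (nat_lit 15151634) (nat_lit 380) (nat_lit 17732909446) (nat_lit 456) (nat_lit 3627090021) (nat_lit 139) (nat_lit 5) (nat_lit 144) (nat_lit 5) (nat_lit 145) (nat_lit 5) (nat_lit 495) (nat_lit 420) (nat_lit 225)))) (XT.nd (nat_lit 78) (nat_lit 456) (nat_lit 0) (XT.lf (nat_lit 0) (nat_lit 195677415) (nat_lit 456) (nat_lit 10350280788) (nat_lit 76) (nat_lit 11101458523) (nat_lit 138) (nat_lit 5) (nat_lit 144) (nat_lit 5) (nat_lit 139) (nat_lit 5) (nat_lit 496) (nat_lit 420) (nat_lit 224)) (XT.nd (nat_lit 78) (nat_lit 0) (nat_lit 0) (XT.lf (nat_lit 0) (nat_lit 858131925) (nat_lit 456) (nat_lit 3187615201) (nat_lit 532) (nat_lit 17878915119) (nat_lit 132) (nat_lit 5) (nat_lit 138) (nat_lit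 5) (nat_lit 139) (nat_lit 5) (nat_lit 497) (nat_lit 420) (nat_lit 223)) (XT.lf (nat_lit 0) (nat_lit 8064614186) (nat_lit 532) (nat_lit 9812330044) (nat_lit 76) (nat_lit 4328674835) (nat_lit 132) (nat_lit 5) (nat_lit 139) (nat_lit 5) (nat_lit 133) (nat_lit 5) (nat_lit 498) (nat_lit 420) (nat_lit 222))))))))
noncomputable def xc199 : XT := (XT.nd (nat_lit 1560) (nat_lit 8360) (nat_lit 0) (XT.nd (nat_lit 780) (nat_lit 1368) (nat_lit 0) (XT.nd (nat_lit 390) (nat_lit 1368) (nat_lit 0) (XT.nd (nat_lit 156) (nat_lit 0) (nat_lit 76) (XT.nd (nat_lit 78) (nat_lit 0) (nat_lit 0) (XT.lf (nat_lit 0) (nat_lit 2173646560) (nat_lit 1596) (nat_lit 1340518512) (nat_lit 1596) (nat_lit 1340518512) (nat_lit 433) (nat_lit 3) (nat_lit 454) (nat_lit 3) (nat_lit 454) (nat_lit 5) (nat_lit 421) (nat_lit 421) (nat_lit 298)) (XT.lf (nat_lit 76) (nat_lit 1872137141) (nat_lit 0) (nat_lit 3260525949) (nat_lit 1596) (nat_lit 4658495173)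 (nat_lit 434) (nat_lit 5) (nat_lit 433) (nat_lit 3) (nat_lit 454) (nat_lit 5) (nat_lit 422) (nat_lit 421) (nat_lit 297))) (XT.nd (nat_lit 78) (nat_lit 0) (nat_lit 0) (XT.lf (nat_lit 0) (nat_lit 5936488401) (nat_lit 1520) (nat_lit 3335765150) (nat_lit 1596) (nat_lit 602288858) (nat_lit 434) (nat_lit 5) (nat_lit 454) (nat_lit 5) (nat_lit 455) (nat_lit 5) (nat_lit 423) (nat_lit 421) (nat_lit 296)) (XT.nd (nat_lit 78) (nat_lit 0) (nat_lit 0) (XT.lf (nat_lit 76) (nat_lit 1324786148) (nat_lit 0) (nat_lit 5443028517) (nat_lit 1596) (nat_lit 3191563031) (nat_lit 435) (nat_lit 5) (nat_lit 434) (nat_lit 5) (nat_lit 455) (nat_lit 5) (nat_lit 424) (nat_lit 421) (nat_lit 295)) (XT.lf (nat_lit 76) (nat_lit 6113680719) (nat_lit 0) (nat_lit 1506004206) (nat_lit 1596) (nat_lit 2426158131) (nat_lit 435) (nat_lit 5) (nat_lit 434) (nat_lit 5) (nat_lit 455) (nat_lit 5) (nat_lit 425) (nat_lit 421) (nat_lit 294))))) (XT.nd (nat_lit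 156) (nat_lit 1520) (nat_lit 0) (XT.nd (nat_lit 78) (nat_lit 0) (nat_lit 0) (XT.lf (nat_lit 76) (nat_lit 848838975) (nat_lit 0) (nat_lit 7643508060) (nat_lit 1596) (nat_lit 1641627082) (nat_lit 436) (nat_lit 5) (nat_lit 435) (nat_lit 5) (nat_lit 456) (nat_lit 5) (nat_lit 426) (nat_lit 421) (nat_lit 293)) (XT.lf (nat_lit 76) (nat_lit 5758409455) (nat_lit 0) (nat_lit 3642583353) (nat_lit 1596) (nat_lit 822515642) (nat_lit 436) (nat_lit 5) (nat_lit 435) (nat_lit 5) (nat_lit 456) (nat_lit 5) (nat_lit 427) (nat_lit 421) (nat_lit 292))) (XT.nd (nat_lit 78) (nat_lit 0) (nat_lit 0) (XT.lf (nat_lit 0) (nat_lit 1079591) (nat_lit 1596) (nat_lit 9871223939) (nat_lit 1672) (nat_lit 442773643) (nat_lit 415) (nat_lit 5) (nat_lit 436) (nat_lit 5) (nat_lit 437) (nat_lit 5) (nat_lit 428) (nat_lit 421) (nat_lit 291)) (XT.nd (nat_lit 78) (nat_lit 0) (nat_lit 0) (XT.lf (nat_lit 0) (nat_lit 867209245) (nat_lit 1596) (nat_lit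 4936759782) (nat_lit 1672) (nat_lit 4603668595) (nat_lit 415) (nat_lit 5) (nat_lit 436) (nat_lit 5) (nat_lit 437) (nat_lit 5) (nat_lit 429) (nat_lit 421) (nat_lit 290)) (XT.lf (nat_lit 76) (nat_lit 87121312) (nat_lit 0) (nat_lit 1647224494) (nat_lit 1672) (nat_lit 8768040191) (nat_lit 416) (nat_lit 5) (nat_lit 415) (nat_lit 5) (nat_lit 437) (nat_lit 5) (nat_lit 430) (nat_lit 421) (nat_lit 289)))))) (XT.nd (nat_lit 390) (nat_lit 1444) (nat_lit 0) (XT.nd (nat_lit 156) (nat_lit 0) (nat_lit 76) (XT.nd (nat_lit 78) (nat_lit 0) (nat_lit 0) (XT.lf (nat_lit 0) (nat_lit 2652429195) (nat_lit 1596) (nat_lit 5347749995) (nat_lit 1672) (nat_lit 2598188265) (nat_lit 416) (nat_lit 5) (nat_lit 437) (nat_lit 5) (nat_lit 438) (nat_lit 5) (nat_lit 431) (nat_lit 421) (nat_lit 288)) (XT.lf (nat_lit 0) (nat_lit 3583531271) (nat_lit 1596) (nat_lit 200313096) (nat_lit 1672) (nat_lit 6912541032) (nat_lit 416) (nat_lit 5) (nat_lit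 437) (nat_lit 5) (nat_lit 438) (nat_lit 5) (nat_lit 432) (nat_lit 421) (nat_lit 287))) (XT.nd (nat_lit 78) (nat_lit 0) (nat_lit 0) (XT.lf (nat_lit 0) (nat_lit 4554090197) (nat_lit 1596) (nat_lit 5692905391) (nat_lit 1672) (nat_lit 548961221) (nat_lit 417) (nat_lit 5) (nat_lit 438) (nat_lit 5) (nat_lit 439) (nat_lit 5) (nat_lit 433) (nat_lit 421) (nat_lit 286)) (XT.nd (nat_lit 78) (nat_lit 0) (nat_lit 0) (XT.lf (nat_lit 0) (nat_lit 5554820118) (nat_lit 1596) (nat_lit 417965607) (nat_lit 1672) (nat_lit 4924528336) (nat_lit 417) (nat_lit 5) (nat_lit 438) (nat_lit 5) (nat_lit 439) (nat_lit 5) (nat_lit 434) (nat_lit 421) (nat_lit 285)) (XT.lf (nat_lit 76) (nat_lit 5017887498) (nat_lit 0) (nat_lit 1574911629) (nat_lit 1672) (nat_lit 4407564061) (nat_lit 418) (nat_lit 5) (nat_lit 417) (nat_lit 5) (nat_lit 439) (nat_lit 5) (nat_lit 435) (nat_lit 421) (nat_lit 284))))) (XT.nd (nat_lit 156) (nat_lit 1596) (nat_lit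 0) (XT.nd (nat_lit 78) (nat_lit 0) (nat_lit 0) (XT.lf (nat_lit 0) (nat_lit 7658180608) (nat_lit 1596) (nat_lit 566882196) (nat_lit 1672) (nat_lit 2880286874) (nat_lit 418) (nat_lit 5) (nat_lit 439) (nat_lit 5) (nat_lit 440) (nat_lit 5) (nat_lit 436) (nat_lit 421) (nat_lit 283)) (XT.lf (nat_lit 76) (nat_lit 5001731014) (nat_lit 0) (nat_lit 3771258746) (nat_lit 1672) (nat_lit 2438892792) (nat_lit 419) (nat_lit 5) (nat_lit 418) (nat_lit 5) (nat_lit 440) (nat_lit 5) (nat_lit 437) (nat_lit 421) (nat_lit 282))) (XT.nd (nat_lit 78) (nat_lit 1672) (nat_lit 0) (XT.lf (nat_lit 0) (nat_lit 9904399347) (nat_lit 1596) (nat_lit 646823591) (nat_lit 1672) (nat_lit 769445938) (nat_lit 419) (nat_lit 5) (nat_lit 440) (nat_lit 5) (nat_lit 441) (nat_lit 5) (nat_lit 438) (nat_lit 421) (nat_lit 281)) (XT.nd (nat_lit 78) (nat_lit 1672) (nat_lit 0) (XT.lf (nat_lit 76) (nat_lit 5058631487) (nat_lit 0) (nat_lit 6043374952) (nat_lit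 1672) (nat_lit 328761806) (nat_lit 420) (nat_lit 5) (nat_lit 419) (nat_lit 5) (nat_lit 441) (nat_lit 5) (nat_lit 439) (nat_lit 421) (nat_lit 280)) (XT.lf (nat_lit 0) (nat_lit 760489334) (nat_lit 1672) (nat_lit 671751704) (nat_lit 1748) (nat_lit 10110930986) (nat_lit 397) (nat_lit 5) (nat_lit 419) (nat_lit 5) (nat_lit 420) (nat_lit 5) (nat_lit 440) (nat_lit 421) (nat_lit 279))))))) (XT.nd (nat_lit 780) (nat_lit 4180) (nat_lit 0) (XT.nd (nat_lit 390) (nat_lit 4256) (nat_lit 0) (XT.nd (nat_lit 156) (nat_lit 0) (nat_lit 76) (XT.nd (nat_lit 78) (nat_lit 0) (nat_lit 0) (XT.lf (nat_lit 0) (nat_lit 1908513799) (nat_lit 1672) (nat_lit 6480677610) (nat_lit 1748) (nat_lit 3267769401) (nat_lit 398) (nat_lit 5) (nat_lit 420) (nat_lit 5) (nat_lit 421) (nat_lit 5) (nat_lit 441) (nat_lit 421) (nat_lit 278)) (XT.lf (nat_lit 0) (nat_lit 3079885010) (nat_lit 1672) (nat_lit 642727196) (nat_lit 1748) (nat_lit 8050413482) (nat_lit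 398) (nat_lit 5) (nat_lit 420) (nat_lit 5) (nat_lit 421) (nat_lit 5) (nat_lit 442) (nat_lit 421) (nat_lit 277))) (XT.nd (nat_lit 78) (nat_lit 0) (nat_lit 0) (XT.lf (nat_lit 0) (nat_lit 4303177818) (nat_lit 1672) (nat_lit 6525990154) (nat_lit 1748) (nat_lit 1061681891) (nat_lit 399) (nat_lit 5) (nat_lit 421) (nat_lit 5) (nat_lit 422) (nat_lit 5) (nat_lit 443) (nat_lit 421) (nat_lit 276)) (XT.nd (nat_lit 78) (nat_lit 0) (nat_lit 0) (XT.lf (nat_lit 0) (nat_lit 5566774920) (nat_lit 1672) (nat_lit 544988370) (nat_lit 1748) (nat_lit 5898958192) (nat_lit 399) (nat_lit 5) (nat_lit 421) (nat_lit 5) (nat_lit 422) (nat_lit 5) (nat_lit 444) (nat_lit 421) (nat_lit 275)) (XT.lf (nat_lit 76) (nat_lit 5618861935) (nat_lit 0) (nat_lit 1260365149) (nat_lit 1748) (nat_lit 5253299365) (nat_lit 400) (nat_lit 5) (nat_lit 399) (nat_lit 5) (nat_lit 422) (nat_lit 5) (nat_lit 445) (nat_lit 421) (nat_lit 274))))) (XT.nd (nat_lit 156)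 (nat_lit 2736) (nat_lit 0) (XT.nd (nat_lit 78) (nat_lit 1672) (nat_lit 0) (XT.lf (nat_lit 0) (nat_lit 8232857214) (nat_lit 1672) (nat_lit 377959011) (nat_lit 76) (nat_lit 3645660139) (nat_lit 400) (nat_lit 5) (nat_lit 422) (nat_lit 5) (nat_lit 401) (nat_lit 5) (nat_lit 446) (nat_lit 421) (nat_lit 273)) (XT.lf (nat_lit 0) (nat_lit 5939549532) (nat_lit 1672) (nat_lit 3708471879) (nat_lit 1748) (nat_lit 2734201921) (nat_lit 378) (nat_lit 5) (nat_lit 400) (nat_lit 5) (nat_lit 401) (nat_lit 5) (nat_lit 447) (nat_lit 421) (nat_lit 272))) (XT.nd (nat_lit 78) (nat_lit 2736) (nat_lit 0) (XT.lf (nat_lit 0) (nat_lit 11090169981) (nat_lit 1748) (nat_lit 140966215) (nat_lit 76) (nat_lit 1279382563) (nat_lit 378) (nat_lit 5) (nat_lit 401) (nat_lit 5) (nat_lit 379) (nat_lit 5) (nat_lit 448) (nat_lit 421) (nat_lit 271)) (XT.nd (nat_lit 78) (nat_lit 988) (nat_lit 0) (XT.lf (nat_lit 0) (nat_lit 6334849296) (nat_lit 1748)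 (nat_lit 6279982068) (nat_lit 1824) (nat_lit 25482332) (nat_lit 355) (nat_lit 5) (nat_lit 378) (nat_lit 5) (nat_lit 379) (nat_lit 5) (nat_lit 449) (nat_lit 421) (nat_lit 270)) (XT.lf (nat_lit 0) (nat_lit 151772406) (nat_lit 912) (nat_lit 1217184470) (nat_lit 988) (nat_lit 11403772922) (nat_lit 342) (nat_lit 5) (nat_lit 354) (nat_lit 5) (nat_lit 355) (nat_lit 5) (nat_lit 450) (nat_lit 421) (nat_lit 269)))))) (XT.nd (nat_lit 390) (nat_lit 2432) (nat_lit 0) (XT.nd (nat_lit 156) (nat_lit 836) (nat_lit 0) (XT.nd (nat_lit 78) (nat_lit 912) (nat_lit 0) (XT.lf (nat_lit 0) (nat_lit 2847400709) (nat_lit 988) (nat_lit 6120123589) (nat_lit 76) (nat_lit 3939144011) (nat_lit 342) (nat_lit 5) (nat_lit 355) (nat_lit 5) (nat_lit 343) (nat_lit 5) (nat_lit 451) (nat_lit 421) (nat_lit 268)) (XT.lf (nat_lit 0) (nat_lit 498689669) (nat_lit 912) (nat_lit 3856490861) (nat_lit 988) (nat_lit 8688116186) (nat_lit 330) (nat_lit 5)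 (nat_lit 342) (nat_lit 5) (nat_lit 343) (nat_lit 5) (nat_lit 452) (nat_lit 421) (nat_lit 267))) (XT.nd (nat_lit 78) (nat_lit 836) (nat_lit 0) (XT.lf (nat_lit 0) (nat_lit 5931898938) (nat_lit 988) (nat_lit 5868765642) (nat_lit 76) (nat_lit 1381223792) (nat_lit 330) (nat_lit 5) (nat_lit 343) (nat_lit 5) (nat_lit 331) (nat_lit 5) (nat_lit 453) (nat_lit 421) (nat_lit 266)) (XT.nd (nat_lit 78) (nat_lit 0) (nat_lit 0) (XT.lf (nat_lit 0) (nat_lit 916596373) (nat_lit 836) (nat_lit 6643901802) (nat_lit 912) (nat_lit 5762352972) (nat_lit 319) (nat_lit 5) (nat_lit 330) (nat_lit 5) (nat_lit 331) (nat_lit 5) (nat_lit 454) (nat_lit 421) (nat_lit 265)) (XT.lf (nat_lit 0) (nat_lit 7906809356) (nat_lit 836) (nat_lit 1343249120) (nat_lit 912) (nat_lit 4216013014) (nat_lit 319) (nat_lit 5) (nat_lit 330) (nat_lit 5) (nat_lit 331) (nat_lit 5) (nat_lit 455) (nat_lit 421) (nat_lit 264))))) (XT.nd (nat_lit 234) (nat_lit 760) (nat_lit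 0) (XT.nd (nat_lit 78) (nat_lit 836) (nat_lit 0) (XT.lf (nat_lit 0) (nat_lit 1406301770) (nat_lit 836) (nat_lit 9591847102) (nat_lit 912) (nat_lit 2613518565) (nat_lit 308) (nat_lit 5) (nat_lit 319) (nat_lit 5) (nat_lit 320) (nat_lit 5) (nat_lit 456) (nat_lit 421) (nat_lit 263)) (XT.nd (nat_lit 78) (nat_lit 836) (nat_lit 0) (XT.lf (nat_lit 0) (nat_lit 8567158834) (nat_lit 836) (nat_lit 4249554817) (nat_lit 912) (nat_lit 942757258) (nat_lit 308) (nat_lit 5) (nat_lit 319) (nat_lit 5) (nat_lit 320) (nat_lit 5) (nat_lit 457) (nat_lit 421) (nat_lit 262)) (XT.lf (nat_lit 0) (nat_lit 761644988) (nat_lit 836) (nat_lit 11946384786) (nat_lit 76) (nat_lit 1201903195) (nat_lit 297) (nat_lit 5) (nat_lit 308) (nat_lit 5) (nat_lit 298) (nat_lit 5) (nat_lit 458) (nat_lit 421) (nat_lit 261)))) (XT.nd (nat_lit 78) (nat_lit 760) (nat_lit 0) (XT.lf (nat_lit 0) (nat_lit 2540383930) (nat_lit 836) (nat_lit 4774864618) (nat_lit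 76) (nat_lit 6746979167) (nat_lit 297) (nat_lit 5) (nat_lit 308) (nat_lit 5) (nat_lit 298) (nat_lit 5) (nat_lit 459) (nat_lit 421) (nat_lit 260)) (XT.nd (nat_lit 78) (nat_lit 0) (nat_lit 0) (XT.lf (nat_lit 0) (nat_lit 2563462011) (nat_lit 760) (nat_lit 1797726128) (nat_lit 836) (nat_lit 9856255820) (nat_lit 287) (nat_lit 5) (nat_lit 297) (nat_lit 5) (nat_lit 298) (nat_lit 5) (nat_lit 460) (nat_lit 421) (nat_lit 259)) (XT.lf (nat_lit 0) (nat_lit 6265509119) (nat_lit 836) (nat_lit 4297305525) (nat_lit 76) (nat_lit 3812013173) (nat_lit 287) (nat_lit 5) (nat_lit 298) (nat_lit 5) (nat_lit 288) (nat_lit 5) (nat_lit 461) (nat_lit 421) (nat_lit 258))))))))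
noncomputable def xc200 : XT := (XT.nd (nat_lit 1560) (nat_lit 4484) (nat_lit 0) (XT.nd (nat_lit 780) (nat_lit 3724) (nat_lit 0) (XT.nd (nat_lit 390) (nat_lit 1292) (nat_lit 0) (XT.nd (nat_lit 156) (nat_lit 1520) (nat_lit 0) (XT.nd (nat_lit 78) (nat_lit 0) (nat_lit 0) (XT.lf (nat_lit 0) (nat_lit 3226740288) (nat_lit 760) (nat_lit 5004207117) (nat_lit 836) (nat_lit 6303956532) (nat_lit 277) (nat_lit 5) (nat_lit 287) (nat_lit 5) (nat_lit 288) (nat_lit 5) (nat_lit 462) (nat_lit 421) (nat_lit 257)) (XT.lf (nat_lit 0) (nat_lit 10259343541) (nat_lit 836) (nat_lit 3752906379) (nat_lit 76) (nat_lit 685463776) (nat_lit 277) (nat_lit 5) (nat_lit 288) (nat_lit 5) (nat_lit 278) (nat_lit 5) (nat_lit 463) (nat_lit 421) (nat_lit 256))) (XT.nd (nat_lit 78) (nat_lit 760) (nat_lit 0) (XT.lf (nat_lit 0) (nat_lit 3962174978) (nat_lit 760) (nat_lit 8415487926) (nat_lit 836) (nat_lit 2485134641) (nat_lit 267) (nat_lit 5) (nat_lit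 277) (nat_lit 5) (nat_lit 278) (nat_lit 5) (nat_lit 464) (nat_lit 421) (nat_lit 255)) (XT.nd (nat_lit 78) (nat_lit 760) (nat_lit 0) (XT.lf (nat_lit 0) (nat_lit 11872390827) (nat_lit 760) (nat_lit 2681752893) (nat_lit 836) (nat_lit 476728350) (nat_lit 267) (nat_lit 5) (nat_lit 277) (nat_lit 5) (nat_lit 278) (nat_lit 5) (nat_lit 465) (nat_lit 421) (nat_lit 254)) (XT.lf (nat_lit 0) (nat_lit 1593830790) (nat_lit 760) (nat_lit 10441470233) (nat_lit 76) (nat_lit 3165955669) (nat_lit 257) (nat_lit 5) (nat_lit 267) (nat_lit 5) (nat_lit 258) (nat_lit 5) (nat_lit 466) (nat_lit 421) (nat_lit 253))))) (XT.nd (nat_lit 156) (nat_lit 608) (nat_lit 0) (XT.nd (nat_lit 78) (nat_lit 684) (nat_lit 0) (XT.lf (nat_lit 0) (nat_lit 3729361154) (nat_lit 760) (nat_lit 2526536056) (nat_lit 76) (nat_lit 9118494523) (nat_lit 257) (nat_lit 5) (nat_lit 267) (nat_lit 5) (nat_lit 258) (nat_lit 5) (nat_lit 467) (nat_lit 421) (nat_lit 252))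 (XT.lf (nat_lit 0) (nat_lit 5610388795) (nat_lit 684) (nat_lit 324661338) (nat_lit 760) (nat_lit 9615394909) (nat_lit 248) (nat_lit 5) (nat_lit 257) (nat_lit 5) (nat_lit 258) (nat_lit 5) (nat_lit 468) (nat_lit 421) (nat_lit 251))) (XT.nd (nat_lit 78) (nat_lit 608) (nat_lit 0) (XT.lf (nat_lit 0) (nat_lit 8230219035) (nat_lit 760) (nat_lit 1832664144) (nat_lit 76) (nat_lit 5666233355) (nat_lit 248) (nat_lit 5) (nat_lit 258) (nat_lit 5) (nat_lit 249) (nat_lit 5) (nat_lit 469) (nat_lit 421) (nat_lit 250)) (XT.nd (nat_lit 78) (nat_lit 0) (nat_lit 0) (XT.lf (nat_lit 0) (nat_lit 6510305885) (nat_lit 608) (nat_lit 4096706380) (nat_lit 684) (nat_lit 5303639125) (nat_lit 240) (nat_lit 5) (nat_lit 248) (nat_lit 5) (nat_lit 249) (nat_lit 5) (nat_lit 470) (nat_lit 421) (nat_lit 249)) (XT.lf (nat_lit 0) (nat_lit 13048035033) (nat_lit 684) (nat_lit 1073495242) (nat_lit 76) (nat_lit 1973957060) (nat_lit 240) (nat_lit 5)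 (nat_lit 249) (nat_lit 5) (nat_lit 241) (nat_lit 5) (nat_lit 471) (nat_lit 421) (nat_lit 248)))))) (XT.nd (nat_lit 390) (nat_lit 1748) (nat_lit 0) (XT.nd (nat_lit 156) (nat_lit 1216) (nat_lit 0) (XT.nd (nat_lit 78) (nat_lit 76) (nat_lit 0) (XT.lf (nat_lit 0) (nat_lit 7481164804) (nat_lit 684) (nat_lit 8123986758) (nat_lit 760) (nat_lit 677527154) (nat_lit 231) (nat_lit 5) (nat_lit 240) (nat_lit 5) (nat_lit 241) (nat_lit 5) (nat_lit 472) (nat_lit 421) (nat_lit 247)) (XT.lf (nat_lit 0) (nat_lit 1715843739) (nat_lit 760) (nat_lit 273109013) (nat_lit 76) (nat_lit 14484461976) (nat_lit 230) (nat_lit 5) (nat_lit 240) (nat_lit 5) (nat_lit 231) (nat_lit 5) (nat_lit 473) (nat_lit 421) (nat_lit 246))) (XT.nd (nat_lit 78) (nat_lit 608) (nat_lit 0) (XT.lf (nat_lit 0) (nat_lit 4223240455) (nat_lit 684) (nat_lit 8171448630) (nat_lit 76) (nat_lit 4271686138) (nat_lit 222) (nat_lit 5) (nat_lit 231) (nat_lit 5) (nat_lit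 223) (nat_lit 5) (nat_lit 474) (nat_lit 421) (nat_lit 245)) (XT.nd (nat_lit 78) (nat_lit 0) (nat_lit 0) (XT.lf (nat_lit 0) (nat_lit 563403886) (nat_lit 608) (nat_lit 6227924380) (nat_lit 684) (nat_lit 10071659663) (nat_lit 214) (nat_lit 5) (nat_lit 222) (nat_lit 5) (nat_lit 223) (nat_lit 5) (nat_lit 475) (nat_lit 421) (nat_lit 244)) (XT.lf (nat_lit 0) (nat_lit 9458334733) (nat_lit 684) (nat_lit 7489242066) (nat_lit 76) (nat_lit 115008742) (nat_lit 214) (nat_lit 5) (nat_lit 223) (nat_lit 5) (nat_lit 215) (nat_lit 5) (nat_lit 476) (nat_lit 421) (nat_lit 243))))) (XT.nd (nat_lit 156) (nat_lit 1216) (nat_lit 0) (XT.nd (nat_lit 78) (nat_lit 0) (nat_lit 0) (XT.lf (nat_lit 0) (nat_lit 1465718089) (nat_lit 532) (nat_lit 10755837269) (nat_lit 608) (nat_lit 5043765980) (nat_lit 207) (nat_lit 5) (nat_lit 214) (nat_lit 5) (nat_lit 215) (nat_lit 5) (nat_lit 477) (nat_lit 421) (nat_lit 242)) (XT.lf (nat_lit 0) (nat_lit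 10691791753) (nat_lit 532) (nat_lit 4390711423) (nat_lit 608) (nat_lit 2388763062) (nat_lit 207) (nat_lit 5) (nat_lit 214) (nat_lit 5) (nat_lit 215) (nat_lit 5) (nat_lit 478) (nat_lit 421) (nat_lit 241))) (XT.nd (nat_lit 78) (nat_lit 532) (nat_lit 0) (XT.lf (nat_lit 0) (nat_lit 337062028) (nat_lit 684) (nat_lit 15253300642) (nat_lit 76) (nat_lit 2090491193) (nat_lit 198) (nat_lit 5) (nat_lit 207) (nat_lit 5) (nat_lit 199) (nat_lit 5) (nat_lit 479) (nat_lit 421) (nat_lit 240)) (XT.nd (nat_lit 78) (nat_lit 532) (nat_lit 0) (XT.lf (nat_lit 0) (nat_lit 3152704087) (nat_lit 684) (nat_lit 6037808666) (nat_lit 76) (nat_lit 8702462404) (nat_lit 198) (nat_lit 5) (nat_lit 207) (nat_lit 5) (nat_lit 199) (nat_lit 5) (nat_lit 480) (nat_lit 421) (nat_lit 239)) (XT.lf (nat_lit 0) (nat_lit 3397228925) (nat_lit 532) (nat_lit 2642019887) (nat_lit 608) (nat_lit 12069801632) (nat_lit 191) (nat_lit 5) (nat_lit 198) (nat_lit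 5) (nat_lit 199) (nat_lit 5) (nat_lit 481) (nat_lit 421) (nat_lit 238))))))) (XT.nd (nat_lit 780) (nat_lit 1900) (nat_lit 0) (XT.nd (nat_lit 390) (nat_lit 1444) (nat_lit 0) (XT.nd (nat_lit 156) (nat_lit 608) (nat_lit 0) (XT.nd (nat_lit 78) (nat_lit 532) (nat_lit 0) (XT.lf (nat_lit 0) (nat_lit 9043130269) (nat_lit 608) (nat_lit 5261704534) (nat_lit 76) (nat_lit 4023423616) (nat_lit 191) (nat_lit 5) (nat_lit 199) (nat_lit 5) (nat_lit 192) (nat_lit 5) (nat_lit 482) (nat_lit 421) (nat_lit 237)) (XT.lf (nat_lit 0) (nat_lit 4408523898) (nat_lit 532) (nat_lit 7737437182) (nat_lit 608) (nat_lit 6405115273) (nat_lit 184) (nat_lit 5) (nat_lit 191) (nat_lit 5) (nat_lit 192) (nat_lit 5) (nat_lit 483) (nat_lit 421) (nat_lit 236))) (XT.nd (nat_lit 78) (nat_lit 608) (nat_lit 0) (XT.lf (nat_lit 0) (nat_lit 14334328644) (nat_lit 532) (nat_lit 1004663214) (nat_lit 608) (nat_lit 3438799091) (nat_lit 184) (nat_lit 5) (nat_lit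 191) (nat_lit 5) (nat_lit 192) (nat_lit 5) (nat_lit 484) (nat_lit 421) (nat_lit 235)) (XT.nd (nat_lit 78) (nat_lit 76) (nat_lit 0) (XT.lf (nat_lit 0) (nat_lit 5474236724) (nat_lit 532) (nat_lit 13188216268) (nat_lit 608) (nat_lit 345258559) (nat_lit 177) (nat_lit 5) (nat_lit 184) (nat_lit 5) (nat_lit 185) (nat_lit 5) (nat_lit 485) (nat_lit 421) (nat_lit 234)) (XT.lf (nat_lit 0) (nat_lit 2802958547) (nat_lit 608) (nat_lit 3625348190) (nat_lit 76) (nat_lit 12812968678) (nat_lit 176) (nat_lit 5) (nat_lit 184) (nat_lit 5) (nat_lit 177) (nat_lit 5) (nat_lit 486) (nat_lit 421) (nat_lit 233))))) (XT.nd (nat_lit 156) (nat_lit 912) (nat_lit 0) (XT.nd (nat_lit 78) (nat_lit 0) (nat_lit 0) (XT.lf (nat_lit 0) (nat_lit 6048529295) (nat_lit 608) (nat_lit 12926395350) (nat_lit 76) (nat_lit 503762952) (nat_lit 169) (nat_lit 5) (nat_lit 177) (nat_lit 5) (nat_lit 170) (nat_lit 5) (nat_lit 487) (nat_lit 421) (nat_lit 232))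 (XT.lf (nat_lit 0) (nat_lit 9419265338) (nat_lit 608) (nat_lit 2789492757) (nat_lit 76) (nat_lit 7510887721) (nat_lit 169) (nat_lit 5) (nat_lit 177) (nat_lit 5) (nat_lit 170) (nat_lit 5) (nat_lit 488) (nat_lit 421) (nat_lit 231))) (XT.nd (nat_lit 78) (nat_lit 456) (nat_lit 0) (XT.lf (nat_lit 0) (nat_lit 7641518107) (nat_lit 456) (nat_lit 5258838469) (nat_lit 532) (nat_lit 7064210629) (nat_lit 163) (nat_lit 5) (nat_lit 169) (nat_lit 5) (nat_lit 170) (nat_lit 5) (nat_lit 489) (nat_lit 421) (nat_lit 230)) (XT.nd (nat_lit 78) (nat_lit 456) (nat_lit 0) (XT.lf (nat_lit 0) (nat_lit 16475180872) (nat_lit 532) (nat_lit 1915969165) (nat_lit 76) (nat_lit 1822757521) (nat_lit 163) (nat_lit 5) (nat_lit 170) (nat_lit 5) (nat_lit 164) (nat_lit 5) (nat_lit 490) (nat_lit 421) (nat_lit 229)) (XT.lf (nat_lit 0) (nat_lit 8770717947) (nat_lit 456) (nat_lit 11436071661) (nat_lit 532) (nat_lit 259742056) (nat_lit 157) (nat_lit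 5) (nat_lit 163) (nat_lit 5) (nat_lit 164) (nat_lit 5) (nat_lit 491) (nat_lit 421) (nat_lit 228)))))) (XT.nd (nat_lit 390) (nat_lit 532) (nat_lit 0) (XT.nd (nat_lit 156) (nat_lit 836) (nat_lit 0) (XT.nd (nat_lit 78) (nat_lit 456) (nat_lit 0) (XT.lf (nat_lit 0) (nat_lit 3252172666) (nat_lit 532) (nat_lit 1057047369) (nat_lit 76) (nat_lit 16414434075) (nat_lit 156) (nat_lit 5) (nat_lit 163) (nat_lit 5) (nat_lit 157) (nat_lit 5) (nat_lit 492) (nat_lit 421) (nat_lit 227)) (XT.lf (nat_lit 0) (nat_lit 6908531157) (nat_lit 532) (nat_lit 11090164260) (nat_lit 76) (nat_lit 2985638132) (nat_lit 150) (nat_lit 5) (nat_lit 157) (nat_lit 5) (nat_lit 151) (nat_lit 5) (nat_lit 493) (nat_lit 421) (nat_lit 226))) (XT.nd (nat_lit 78) (nat_lit 836) (nat_lit 0) (XT.lf (nat_lit 0) (nat_lit 10667417167) (nat_lit 532) (nat_lit 208583397) (nat_lit 76) (nat_lit 10373640506) (nat_lit 150) (nat_lit 5) (nat_lit 157) (nat_lit 5) (nat_lit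 151) (nat_lit 5) (nat_lit 494) (nat_lit 421) (nat_lit 225)) (XT.nd (nat_lit 78) (nat_lit 380) (nat_lit 0) (XT.lf (nat_lit 0) (nat_lit 11026764069) (nat_lit 456) (nat_lit 3540155137) (nat_lit 532) (nat_lit 6952029219) (nat_lit 144) (nat_lit 5) (nat_lit 150) (nat_lit 5) (nat_lit 151) (nat_lit 5) (nat_lit 495) (nat_lit 421) (nat_lit 224)) (XT.lf (nat_lit 0) (nat_lit 670685934) (nat_lit 380) (nat_lit 17898981614) (nat_lit 456) (nat_lit 3223471657) (nat_lit 139) (nat_lit 5) (nat_lit 144) (nat_lit 5) (nat_lit 145) (nat_lit 5) (nat_lit 496) (nat_lit 421) (nat_lit 223))))) (XT.nd (nat_lit 53586) (nat_lit 0) (nat_lit 22876) (XT.nd (nat_lit 78) (nat_lit 456) (nat_lit 0) (XT.lf (nat_lit 0) (nat_lit 660292177) (nat_lit 456) (nat_lit 9908605387) (nat_lit 76) (nat_lit 11502078528) (nat_lit 138) (nat_lit 5) (nat_lit 144) (nat_lit 5) (nat_lit 139) (nat_lit 5) (nat_lit 497) (nat_lit 421) (nat_lit 222)) (XT.nd (nat_lit 53430)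 (nat_lit 0) (nat_lit 22876) (XT.lf (nat_lit 0) (nat_lit 1519707942) (nat_lit 456) (nat_lit 3062805942) (nat_lit 532) (nat_lit 17771353056) (nat_lit 132) (nat_lit 5) (nat_lit 138) (nat_lit 5) (nat_lit 139) (nat_lit 5) (nat_lit 498) (nat_lit 421) (nat_lit 221)) (XT.lf (nat_lit 0) (nat_lit 2942123406) (nat_lit 1596) (nat_lit 997346076) (nat_lit 1596) (nat_lit 997346076) (nat_lit 433) (nat_lit 3) (nat_lit 454) (nat_lit 3) (nat_lit 454) (nat_lit 5) (nat_lit 422) (nat_lit 422) (nat_lit 296)))) (XT.nd (nat_lit 78) (nat_lit 0) (nat_lit 0) (XT.lf (nat_lit 76) (nat_lit 2644677302) (nat_lit 0) (nat_lit 4016988095) (nat_lit 1596) (nat_lit 3295883915) (nat_lit 434) (nat_lit 5) (nat_lit 433) (nat_lit 3) (nat_lit 454) (nat_lit 5) (nat_lit 423) (nat_lit 422) (nat_lit 295)) (XT.nd (nat_lit 78) (nat_lit 0) (nat_lit 76) (XT.lf (nat_lit 76) (nat_lit 7394359057) (nat_lit 0) (nat_lit 55198852) (nat_lit 1596) (nat_lit 2593701164)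 (nat_lit 434) (nat_lit 5) (nat_lit 433) (nat_lit 3) (nat_lit 454) (nat_lit 5) (nat_lit 424) (nat_lit 422) (nat_lit 294)) (XT.lf (nat_lit 76) (nat_lit 2100260570) (nat_lit 0) (nat_lit 6174421641) (nat_lit 1596) (nat_lit 1855582826) (nat_lit 435) (nat_lit 5) (nat_lit 434) (nat_lit 5) (nat_lit 455) (nat_lit 5) (nat_lit 425) (nat_lit 422) (nat_lit 293))))))))
noncomputable def xc201 : XT := (XT.nd (nat_lit 1560) (nat_lit 9956) (nat_lit 0) (XT.nd (nat_lit 780) (nat_lit 1292) (nat_lit 0) (XT.nd (nat_lit 390) (nat_lit 0) (nat_lit 76) (XT.nd (nat_lit 156) (nat_lit 1520) (nat_lit 0) (XT.nd (nat_lit 78) (nat_lit 0) (nat_lit 76) (XT.lf (nat_lit 76) (nat_lit 6970247176) (nat_lit 0) (nat_lit 2146450322) (nat_lit 1596) (nat_lit 1102317111) (nat_lit 435) (nat_lit 5) (nat_lit 434) (nat_lit 5) (nat_lit 455) (nat_lit 5) (nat_lit 426) (nat_lit 422) (nat_lit 292)) (XT.lf (nat_lit 76) (nat_lit 1626777067) (nat_lit 0) (nat_lit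 8354726430) (nat_lit 1596) (nat_lit 327927706) (nat_lit 436) (nat_lit 5) (nat_lit 435) (nat_lit 5) (nat_lit 456) (nat_lit 5) (nat_lit 427) (nat_lit 422) (nat_lit 291))) (XT.nd (nat_lit 78) (nat_lit 0) (nat_lit 0) (XT.lf (nat_lit 0) (nat_lit 474852831) (nat_lit 1596) (nat_lit 3784795881) (nat_lit 1672) (nat_lit 6141578803) (nat_lit 414) (nat_lit 5) (nat_lit 435) (nat_lit 5) (nat_lit 436) (nat_lit 5) (nat_lit 428) (nat_lit 422) (nat_lit 290)) (XT.nd (nat_lit 78) (nat_lit 0) (nat_lit 76) (XT.lf (nat_lit 76) (nat_lit 1214891584) (nat_lit 0) (nat_lit 65437328) (nat_lit 1672) (nat_lit 9214677274) (nat_lit 415) (nat_lit 5) (nat_lit 414) (nat_lit 5) (nat_lit 436) (nat_lit 5) (nat_lit 429) (nat_lit 422) (nat_lit 289)) (XT.lf (nat_lit 0) (nat_lit 2138281731) (nat_lit 1596) (nat_lit 4262006078) (nat_lit 1672) (nat_lit 4189655475) (nat_lit 415) (nat_lit 5) (nat_lit 436) (nat_lit 5) (nat_lit 437) (nat_lit 5) (nat_lit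 430) (nat_lit 422) (nat_lit 288))))) (XT.nd (nat_lit 156) (nat_lit 0) (nat_lit 76) (XT.nd (nat_lit 78) (nat_lit 0) (nat_lit 76) (XT.lf (nat_lit 76) (nat_lit 857263895) (nat_lit 0) (nat_lit 2145903183) (nat_lit 1672) (nat_lit 7683826574) (nat_lit 416) (nat_lit 5) (nat_lit 415) (nat_lit 5) (nat_lit 437) (nat_lit 5) (nat_lit 431) (nat_lit 422) (nat_lit 287)) (XT.lf (nat_lit 0) (nat_lit 3912448859) (nat_lit 1596) (nat_lit 4673465704) (nat_lit 1672) (nat_lit 2199538293) (nat_lit 416) (nat_lit 5) (nat_lit 437) (nat_lit 5) (nat_lit 438) (nat_lit 5) (nat_lit 432) (nat_lit 422) (nat_lit 286))) (XT.nd (nat_lit 78) (nat_lit 0) (nat_lit 76) (XT.lf (nat_lit 76) (nat_lit 569064903) (nat_lit 0) (nat_lit 4273136720) (nat_lit 1672) (nat_lit 6043643523) (nat_lit 417) (nat_lit 5) (nat_lit 416) (nat_lit 5) (nat_lit 438) (nat_lit 5) (nat_lit 433) (nat_lit 422) (nat_lit 285)) (XT.nd (nat_lit 78) (nat_lit 0) (nat_lit 0) (XT.lf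 (nat_lit 0) (nat_lit 5807590990) (nat_lit 1596) (nat_lit 5019242941) (nat_lit 1672) (nat_lit 161079941) (nat_lit 417) (nat_lit 5) (nat_lit 438) (nat_lit 5) (nat_lit 439) (nat_lit 5) (nat_lit 434) (nat_lit 422) (nat_lit 284)) (XT.lf (nat_lit 76) (nat_lit 350348948) (nat_lit 0) (nat_lit 6457468730) (nat_lit 1672) (nat_lit 4283904941) (nat_lit 418) (nat_lit 5) (nat_lit 417) (nat_lit 5) (nat_lit 439) (nat_lit 5) (nat_lit 435) (nat_lit 422) (nat_lit 283)))))) (XT.nd (nat_lit 390) (nat_lit 0) (nat_lit 0) (XT.nd (nat_lit 156) (nat_lit 1520) (nat_lit 0) (XT.nd (nat_lit 78) (nat_lit 0) (nat_lit 76) (XT.lf (nat_lit 76) (nat_lit 5885244760) (nat_lit 0) (nat_lit 1961671063) (nat_lit 1672) (nat_lit 3350323435) (nat_lit 418) (nat_lit 5) (nat_lit 417) (nat_lit 5) (nat_lit 439) (nat_lit 5) (nat_lit 436) (nat_lit 422) (nat_lit 282)) (XT.lf (nat_lit 76) (nat_lit 201319816) (nat_lit 0) (nat_lit 8709325742) (nat_lit 1672) (nat_lit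 2394152558) (nat_lit 419) (nat_lit 5) (nat_lit 418) (nat_lit 5) (nat_lit 440) (nat_lit 5) (nat_lit 437) (nat_lit 422) (nat_lit 281))) (XT.nd (nat_lit 78) (nat_lit 1596) (nat_lit 0) (XT.lf (nat_lit 76) (nat_lit 5873553766) (nat_lit 0) (nat_lit 4156371688) (nat_lit 1672) (nat_lit 1383905889) (nat_lit 419) (nat_lit 5) (nat_lit 418) (nat_lit 5) (nat_lit 440) (nat_lit 5) (nat_lit 438) (nat_lit 422) (nat_lit 280)) (XT.nd (nat_lit 78) (nat_lit 1672) (nat_lit 0) (XT.lf (nat_lit 76) (nat_lit 122322343) (nat_lit 0) (nat_lit 11039258404) (nat_lit 1672) (nat_lit 363673224) (nat_lit 420) (nat_lit 5) (nat_lit 419) (nat_lit 5) (nat_lit 441) (nat_lit 5) (nat_lit 439) (nat_lit 422) (nat_lit 279)) (XT.lf (nat_lit 0) (nat_lit 719173204) (nat_lit 1672) (nat_lit 5707482107) (nat_lit 1748) (nat_lit 5211148285) (nat_lit 397) (nat_lit 5) (nat_lit 419) (nat_lit 5) (nat_lit 420) (nat_lit 5) (nat_lit 440) (nat_lit 422) (nat_lit 278)))))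 (XT.nd (nat_lit 156) (nat_lit 0) (nat_lit 76) (XT.nd (nat_lit 78) (nat_lit 0) (nat_lit 76) (XT.lf (nat_lit 76) (nat_lit 90430803) (nat_lit 0) (nat_lit 1715377260) (nat_lit 1748) (nat_lit 9947016093) (nat_lit 398) (nat_lit 5) (nat_lit 397) (nat_lit 5) (nat_lit 420) (nat_lit 5) (nat_lit 441) (nat_lit 422) (nat_lit 277)) (XT.lf (nat_lit 0) (nat_lit 2959423560) (nat_lit 1672) (nat_lit 5818480131) (nat_lit 1748) (nat_lit 3091344359) (nat_lit 398) (nat_lit 5) (nat_lit 420) (nat_lit 5) (nat_lit 421) (nat_lit 5) (nat_lit 442) (nat_lit 422) (nat_lit 276))) (XT.nd (nat_lit 78) (nat_lit 0) (nat_lit 76) (XT.lf (nat_lit 76) (nat_lit 122307671) (nat_lit 0) (nat_lit 4012850990) (nat_lit 1748) (nat_lit 7852868545) (nat_lit 399) (nat_lit 5) (nat_lit 398) (nat_lit 5) (nat_lit 421) (nat_lit 5) (nat_lit 443) (nat_lit 422) (nat_lit 275)) (XT.nd (nat_lit 78) (nat_lit 0) (nat_lit 0) (XT.lf (nat_lit 0) (nat_lit 5366316397) (nat_lit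 1672) (nat_lit 5863843808) (nat_lit 1748) (nat_lit 878391158) (nat_lit 399) (nat_lit 5) (nat_lit 421) (nat_lit 5) (nat_lit 422) (nat_lit 5) (nat_lit 444) (nat_lit 422) (nat_lit 274)) (XT.lf (nat_lit 76) (nat_lit 224175640) (nat_lit 0) (nat_lit 6413306963) (nat_lit 1748) (nat_lit 5593703122) (nat_lit 400) (nat_lit 5) (nat_lit 399) (nat_lit 5) (nat_lit 422) (nat_lit 5) (nat_lit 445) (nat_lit 422) (nat_lit 273))))))) (XT.nd (nat_lit 780) (nat_lit 4028) (nat_lit 0) (XT.nd (nat_lit 390) (nat_lit 2660) (nat_lit 0) (XT.nd (nat_lit 156) (nat_lit 1824) (nat_lit 0) (XT.nd (nat_lit 78) (nat_lit 1596) (nat_lit 0) (XT.lf (nat_lit 76) (nat_lit 6503250193) (nat_lit 0) (nat_lit 1457707848) (nat_lit 1748) (nat_lit 4394784299) (nat_lit 400) (nat_lit 5) (nat_lit 399) (nat_lit 5) (nat_lit 422) (nat_lit 5) (nat_lit 446) (nat_lit 422) (nat_lit 272)) (XT.lf (nat_lit 0) (nat_lit 396707515) (nat_lit 1672) (nat_lit 8927920569) (nat_lit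 1748) (nat_lit 3157894643) (nat_lit 378) (nat_lit 5) (nat_lit 400) (nat_lit 5) (nat_lit 401) (nat_lit 5) (nat_lit 447) (nat_lit 422) (nat_lit 271))) (XT.nd (nat_lit 78) (nat_lit 1824) (nat_lit 0) (XT.lf (nat_lit 0) (nat_lit 6830251348) (nat_lit 1672) (nat_lit 3922152090) (nat_lit 1748) (nat_lit 1858705645) (nat_lit 378) (nat_lit 5) (nat_lit 400) (nat_lit 5) (nat_lit 401) (nat_lit 5) (nat_lit 448) (nat_lit 422) (nat_lit 270)) (XT.nd (nat_lit 78) (nat_lit 76) (nat_lit 0) (XT.lf (nat_lit 0) (nat_lit 640671232) (nat_lit 1748) (nat_lit 11568124362) (nat_lit 1824) (nat_lit 533477208) (nat_lit 355) (nat_lit 5) (nat_lit 378) (nat_lit 5) (nat_lit 379) (nat_lit 5) (nat_lit 449) (nat_lit 422) (nat_lit 269)) (XT.lf (nat_lit 0) (nat_lit 860845698) (nat_lit 1824) (nat_lit 5648175523) (nat_lit 76) (nat_lit 6365872489) (nat_lit 354) (nat_lit 5) (nat_lit 378) (nat_lit 5) (nat_lit 355) (nat_lit 5) (nat_lit 450) (nat_lit 422)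 (nat_lit 268))))) (XT.nd (nat_lit 156) (nat_lit 1748) (nat_lit 0) (XT.nd (nat_lit 78) (nat_lit 0) (nat_lit 0) (XT.lf (nat_lit 0) (nat_lit 932884437) (nat_lit 912) (nat_lit 1337617864) (nat_lit 988) (nat_lit 10739708866) (nat_lit 342) (nat_lit 5) (nat_lit 354) (nat_lit 5) (nat_lit 355) (nat_lit 5) (nat_lit 451) (nat_lit 422) (nat_lit 267)) (XT.lf (nat_lit 0) (nat_lit 3760762851) (nat_lit 988) (nat_lit 5461473425) (nat_lit 76) (nat_lit 3924956822) (nat_lit 342) (nat_lit 5) (nat_lit 355) (nat_lit 5) (nat_lit 343) (nat_lit 5) (nat_lit 452) (nat_lit 422) (nat_lit 266))) (XT.nd (nat_lit 78) (nat_lit 836) (nat_lit 0) (XT.lf (nat_lit 0) (nat_lit 1284577594) (nat_lit 912) (nat_lit 4002365989) (nat_lit 988) (nat_lit 7999855001) (nat_lit 330) (nat_lit 5) (nat_lit 342) (nat_lit 5) (nat_lit 343) (nat_lit 5) (nat_lit 453) (nat_lit 422) (nat_lit 265)) (XT.nd (nat_lit 78) (nat_lit 836) (nat_lit 0) (XT.lf (nat_lit 0) (nat_lit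 6878196820) (nat_lit 988) (nat_lit 5207979643) (nat_lit 76) (nat_lit 1342334833) (nat_lit 330) (nat_lit 5) (nat_lit 343) (nat_lit 5) (nat_lit 331) (nat_lit 5) (nat_lit 454) (nat_lit 422) (nat_lit 264)) (XT.lf (nat_lit 0) (nat_lit 1707970130) (nat_lit 836) (nat_lit 6820188387) (nat_lit 912) (nat_lit 5044368052) (nat_lit 319) (nat_lit 5) (nat_lit 330) (nat_lit 5) (nat_lit 331) (nat_lit 5) (nat_lit 455) (nat_lit 422) (nat_lit 263)))))) (XT.nd (nat_lit 390) (nat_lit 2356) (nat_lit 0) (XT.nd (nat_lit 156) (nat_lit 836) (nat_lit 0) (XT.nd (nat_lit 78) (nat_lit 836) (nat_lit 0) (XT.lf (nat_lit 0) (nat_lit 8822829690) (nat_lit 836) (nat_lit 1412671503) (nat_lit 912) (nat_lit 3483439177) (nat_lit 319) (nat_lit 5) (nat_lit 330) (nat_lit 5) (nat_lit 331) (nat_lit 5) (nat_lit 456) (nat_lit 422) (nat_lit 262)) (XT.lf (nat_lit 0) (nat_lit 2203944675) (nat_lit 836) (nat_lit 9803639111) (nat_lit 912) (nat_lit 1860092542)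 (nat_lit 308) (nat_lit 5) (nat_lit 319) (nat_lit 5) (nat_lit 320) (nat_lit 5) (nat_lit 457) (nat_lit 422) (nat_lit 261))) (XT.nd (nat_lit 78) (nat_lit 836) (nat_lit 0) (XT.lf (nat_lit 0) (nat_lit 9492930313) (nat_lit 836) (nat_lit 4354109705) (nat_lit 912) (nat_lit 171713978) (nat_lit 308) (nat_lit 5) (nat_lit 319) (nat_lit 5) (nat_lit 320) (nat_lit 5) (nat_lit 458) (nat_lit 422) (nat_lit 260)) (XT.nd (nat_lit 78) (nat_lit 0) (nat_lit 0) (XT.lf (nat_lit 0) (nat_lit 1546008572) (nat_lit 836) (nat_lit 11409288384) (nat_lit 76) (nat_lit 1217042131) (nat_lit 297) (nat_lit 5) (nat_lit 308) (nat_lit 5) (nat_lit 298) (nat_lit 5) (nat_lit 459) (nat_lit 422) (nat_lit 259)) (XT.lf (nat_lit 0) (nat_lit 3345241300) (nat_lit 836) (nat_lit 4109553971) (nat_lit 76) (nat_lit 6873194116) (nat_lit 297) (nat_lit 5) (nat_lit 308) (nat_lit 5) (nat_lit 298) (nat_lit 5) (nat_lit 460) (nat_lit 422) (nat_lit 258))))) (XT.nd (nat_lit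 234) (nat_lit 836) (nat_lit 0) (XT.nd (nat_lit 78) (nat_lit 760) (nat_lit 0) (XT.lf (nat_lit 0) (nat_lit 3370533874) (nat_lit 760) (nat_lit 1822049601) (nat_lit 836) (nat_lit 9293931921) (nat_lit 287) (nat_lit 5) (nat_lit 297) (nat_lit 5) (nat_lit 298) (nat_lit 5) (nat_lit 461) (nat_lit 422) (nat_lit 257)) (XT.nd (nat_lit 78) (nat_lit 760) (nat_lit 0) (XT.lf (nat_lit 0) (nat_lit 7120473312) (nat_lit 836) (nat_lit 3627364824) (nat_lit 76) (nat_lit 3899506873) (nat_lit 287) (nat_lit 5) (nat_lit 298) (nat_lit 5) (nat_lit 288) (nat_lit 5) (nat_lit 462) (nat_lit 422) (nat_lit 256)) (XT.lf (nat_lit 0) (nat_lit 4042188966) (nat_lit 760) (nat_lit 5073599887) (nat_lit 836) (nat_lit 5695030002) (nat_lit 277) (nat_lit 5) (nat_lit 287) (nat_lit 5) (nat_lit 288) (nat_lit 5) (nat_lit 463) (nat_lit 422) (nat_lit 255)))) (XT.nd (nat_lit 78) (nat_lit 836) (nat_lit 0) (XT.lf (nat_lit 0) (nat_lit 11170826264) (nat_lit 836)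 (nat_lit 3077476504) (nat_lit 76) (nat_lit 728868002) (nat_lit 277) (nat_lit 5) (nat_lit 288) (nat_lit 5) (nat_lit 278) (nat_lit 5) (nat_lit 464) (nat_lit 422) (nat_lit 254)) (XT.nd (nat_lit 78) (nat_lit 76) (nat_lit 0) (XT.lf (nat_lit 0) (nat_lit 4786969059) (nat_lit 760) (nat_lit 8535534625) (nat_lit 836) (nat_lit 1823240057) (nat_lit 267) (nat_lit 5) (nat_lit 277) (nat_lit 5) (nat_lit 278) (nat_lit 5) (nat_lit 465) (nat_lit 422) (nat_lit 253)) (XT.lf (nat_lit 0) (nat_lit 208609165) (nat_lit 836) (nat_lit 2478062183) (nat_lit 76) (nat_lit 12630761544) (nat_lit 266) (nat_lit 5) (nat_lit 277) (nat_lit 5) (nat_lit 267) (nat_lit 5) (nat_lit 466) (nat_lit 422) (nat_lit 252))))))))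
noncomputable def xc202 : XT := (XT.nd (nat_lit 1560) (nat_lit 2812) (nat_lit 0) (XT.nd (nat_lit 780) (nat_lit 2888) (nat_lit 0) (XT.nd (nat_lit 390) (nat_lit 1976) (nat_lit 0) (XT.nd (nat_lit 156) (nat_lit 1292) (nat_lit 0) (XT.nd (nat_lit 78) (nat_lit 0) (nat_lit 0) (XT.lf (nat_lit 0) (nat_lit 2305840137) (nat_lit 760) (nat_lit 9901163159) (nat_lit 76) (nat_lit 3284332866) (nat_lit 257) (nat_lit 5) (nat_lit 267) (nat_lit 5) (nat_lit 258) (nat_lit 5) (nat_lit 467) (nat_lit 422) (nat_lit 251)) (XT.lf (nat_lit 0) (nat_lit 4470745173) (nat_lit 760) (nat_lit 1842619249) (nat_lit 76) (nat_lit 9354842927) (nat_lit 257) (nat_lit 5) (nat_lit 267) (nat_lit 5) (nat_lit 258) (nat_lit 5) (nat_lit 468) (nat_lit 422) (nat_lit 250))) (XT.nd (nat_lit 78) (nat_lit 608) (nat_lit 0) (XT.lf (nat_lit 0) (nat_lit 6452212208) (nat_lit 684) (nat_lit 259998426) (nat_lit 760) (nat_lit 9135744430) (nat_lit 248) (nat_lit 5) (nat_lit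 257) (nat_lit 5) (nat_lit 258) (nat_lit 5) (nat_lit 469) (nat_lit 422) (nat_lit 249)) (XT.nd (nat_lit 78) (nat_lit 608) (nat_lit 0) (XT.lf (nat_lit 0) (nat_lit 9040824877) (nat_lit 760) (nat_lit 1141226718) (nat_lit 76) (nat_lit 5848404016) (nat_lit 248) (nat_lit 5) (nat_lit 258) (nat_lit 5) (nat_lit 249) (nat_lit 5) (nat_lit 470) (nat_lit 422) (nat_lit 248)) (XT.lf (nat_lit 0) (nat_lit 7363812641) (nat_lit 608) (nat_lit 4093370782) (nat_lit 684) (nat_lit 4758603488) (nat_lit 240) (nat_lit 5) (nat_lit 248) (nat_lit 5) (nat_lit 249) (nat_lit 5) (nat_lit 471) (nat_lit 422) (nat_lit 247))))) (XT.nd (nat_lit 156) (nat_lit 1292) (nat_lit 0) (XT.nd (nat_lit 78) (nat_lit 684) (nat_lit 0) (XT.lf (nat_lit 0) (nat_lit 13935059009) (nat_lit 684) (nat_lit 373568561) (nat_lit 76) (nat_lit 2095937571) (nat_lit 240) (nat_lit 5) (nat_lit 249) (nat_lit 5) (nat_lit 241) (nat_lit 5) (nat_lit 472) (nat_lit 422) (nat_lit 246))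 (XT.lf (nat_lit 0) (nat_lit 8347438655) (nat_lit 684) (nat_lit 8188256434) (nat_lit 760) (nat_lit 59963809) (nat_lit 231) (nat_lit 5) (nat_lit 240) (nat_lit 5) (nat_lit 241) (nat_lit 5) (nat_lit 473) (nat_lit 422) (nat_lit 245))) (XT.nd (nat_lit 78) (nat_lit 608) (nat_lit 0) (XT.lf (nat_lit 0) (nat_lit 438181852) (nat_lit 608) (nat_lit 1925447960) (nat_lit 684) (nat_lit 14426691072) (nat_lit 222) (nat_lit 5) (nat_lit 230) (nat_lit 5) (nat_lit 231) (nat_lit 5) (nat_lit 474) (nat_lit 422) (nat_lit 244)) (XT.nd (nat_lit 78) (nat_lit 608) (nat_lit 0) (XT.lf (nat_lit 0) (nat_lit 4911611762) (nat_lit 684) (nat_lit 7616866642) (nat_lit 76) (nat_lit 4458859179) (nat_lit 222) (nat_lit 5) (nat_lit 231) (nat_lit 5) (nat_lit 223) (nat_lit 5) (nat_lit 475) (nat_lit 422) (nat_lit 243)) (XT.lf (nat_lit 0) (nat_lit 1287959168) (nat_lit 608) (nat_lit 6235891991) (nat_lit 684) (nat_lit 9664181215) (nat_lit 214) (nat_lit 5)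 (nat_lit 222) (nat_lit 5) (nat_lit 223) (nat_lit 5) (nat_lit 476) (nat_lit 422) (nat_lit 242)))))) (XT.nd (nat_lit 390) (nat_lit 1672) (nat_lit 0) (XT.nd (nat_lit 156) (nat_lit 684) (nat_lit 0) (XT.nd (nat_lit 78) (nat_lit 532) (nat_lit 0) (XT.lf (nat_lit 0) (nat_lit 10233239969) (nat_lit 684) (nat_lit 6928492072) (nat_lit 76) (nat_lit 230114570) (nat_lit 214) (nat_lit 5) (nat_lit 223) (nat_lit 5) (nat_lit 215) (nat_lit 5) (nat_lit 477) (nat_lit 422) (nat_lit 241)) (XT.lf (nat_lit 0) (nat_lit 2200892715) (nat_lit 532) (nat_lit 10843930136) (nat_lit 608) (nat_lit 4553957726) (nat_lit 207) (nat_lit 5) (nat_lit 214) (nat_lit 5) (nat_lit 215) (nat_lit 5) (nat_lit 478) (nat_lit 422) (nat_lit 240))) (XT.nd (nat_lit 78) (nat_lit 684) (nat_lit 0) (XT.lf (nat_lit 0) (nat_lit 11597647455) (nat_lit 532) (nat_lit 4353992437) (nat_lit 608) (nat_lit 1857436781) (nat_lit 207) (nat_lit 5) (nat_lit 214) (nat_lit 5) (nat_lit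 215) (nat_lit 5) (nat_lit 479) (nat_lit 422) (nat_lit 239)) (XT.nd (nat_lit 78) (nat_lit 0) (nat_lit 0) (XT.lf (nat_lit 0) (nat_lit 909464942) (nat_lit 684) (nat_lit 14852392100) (nat_lit 76) (nat_lit 2261045804) (nat_lit 198) (nat_lit 5) (nat_lit 207) (nat_lit 5) (nat_lit 199) (nat_lit 5) (nat_lit 480) (nat_lit 422) (nat_lit 238)) (XT.lf (nat_lit 0) (nat_lit 3770328437) (nat_lit 684) (nat_lit 5466432922) (nat_lit 76) (nat_lit 9002732032) (nat_lit 198) (nat_lit 5) (nat_lit 207) (nat_lit 5) (nat_lit 199) (nat_lit 5) (nat_lit 481) (nat_lit 422) (nat_lit 237))))) (XT.nd (nat_lit 156) (nat_lit 1140) (nat_lit 0) (XT.nd (nat_lit 78) (nat_lit 0) (nat_lit 0) (XT.lf (nat_lit 0) (nat_lit 4152751921) (nat_lit 532) (nat_lit 2555442424) (nat_lit 608) (nat_lit 11751828933) (nat_lit 191) (nat_lit 5) (nat_lit 198) (nat_lit 5) (nat_lit 199) (nat_lit 5) (nat_lit 482) (nat_lit 422) (nat_lit 236)) (XT.lf (nat_lit 0) (nat_lit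 9762292629) (nat_lit 608) (nat_lit 4682741175) (nat_lit 76) (nat_lit 4238783628) (nat_lit 191) (nat_lit 5) (nat_lit 199) (nat_lit 5) (nat_lit 192) (nat_lit 5) (nat_lit 483) (nat_lit 422) (nat_lit 235))) (XT.nd (nat_lit 78) (nat_lit 608) (nat_lit 0) (XT.lf (nat_lit 0) (nat_lit 5176390527) (nat_lit 532) (nat_lit 7744647670) (nat_lit 608) (nat_lit 5990181073) (nat_lit 184) (nat_lit 5) (nat_lit 191) (nat_lit 5) (nat_lit 192) (nat_lit 5) (nat_lit 484) (nat_lit 422) (nat_lit 234)) (XT.nd (nat_lit 78) (nat_lit 608) (nat_lit 0) (XT.lf (nat_lit 0) (nat_lit 15287383993) (nat_lit 532) (nat_lit 880111130) (nat_lit 608) (nat_lit 2975186342) (nat_lit 184) (nat_lit 5) (nat_lit 191) (nat_lit 5) (nat_lit 192) (nat_lit 5) (nat_lit 485) (nat_lit 422) (nat_lit 233)) (XT.lf (nat_lit 0) (nat_lit 172875705) (nat_lit 608) (nat_lit 13123072901) (nat_lit 76) (nat_lit 6081332619) (nat_lit 176) (nat_lit 5) (nat_lit 184) (nat_lit 5)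 (nat_lit 177) (nat_lit 5) (nat_lit 486) (nat_lit 422) (nat_lit 232))))))) (XT.nd (nat_lit 780) (nat_lit 380) (nat_lit 0) (XT.nd (nat_lit 390) (nat_lit 1444) (nat_lit 0) (XT.nd (nat_lit 156) (nat_lit 456) (nat_lit 0) (XT.nd (nat_lit 78) (nat_lit 532) (nat_lit 0) (XT.lf (nat_lit 0) (nat_lit 3369234135) (nat_lit 608) (nat_lit 3032379720) (nat_lit 76) (nat_lit 13214065219) (nat_lit 176) (nat_lit 5) (nat_lit 184) (nat_lit 5) (nat_lit 177) (nat_lit 5) (nat_lit 487) (nat_lit 422) (nat_lit 231)) (XT.lf (nat_lit 0) (nat_lit 6675021041) (nat_lit 608) (nat_lit 12514539311) (nat_lit 76) (nat_lit 668377318) (nat_lit 169) (nat_lit 5) (nat_lit 177) (nat_lit 5) (nat_lit 170) (nat_lit 5) (nat_lit 488) (nat_lit 422) (nat_lit 230))) (XT.nd (nat_lit 78) (nat_lit 456) (nat_lit 0) (XT.lf (nat_lit 0) (nat_lit 10103259625) (nat_lit 608) (nat_lit 2188043449) (nat_lit 76) (nat_lit 7812614404) (nat_lit 169) (nat_lit 5) (nat_lit 177)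 (nat_lit 5) (nat_lit 170) (nat_lit 5) (nat_lit 489) (nat_lit 422) (nat_lit 229)) (XT.nd (nat_lit 78) (nat_lit 0) (nat_lit 0) (XT.lf (nat_lit 0) (nat_lit 8447263690) (nat_lit 456) (nat_lit 5201230334) (nat_lit 532) (nat_lit 6705356944) (nat_lit 163) (nat_lit 5) (nat_lit 169) (nat_lit 5) (nat_lit 170) (nat_lit 5) (nat_lit 490) (nat_lit 422) (nat_lit 228)) (XT.lf (nat_lit 0) (nat_lit 17286240591) (nat_lit 532) (nat_lit 1305400416) (nat_lit 76) (nat_lit 2016712624) (nat_lit 163) (nat_lit 5) (nat_lit 170) (nat_lit 5) (nat_lit 164) (nat_lit 5) (nat_lit 491) (nat_lit 422) (nat_lit 227))))) (XT.nd (nat_lit 156) (nat_lit 912) (nat_lit 0) (XT.nd (nat_lit 78) (nat_lit 0) (nat_lit 0) (XT.lf (nat_lit 0) (nat_lit 218185648) (nat_lit 532) (nat_lit 11276823294) (nat_lit 76) (nat_lit 9371101648) (nat_lit 156) (nat_lit 5) (nat_lit 163) (nat_lit 5) (nat_lit 157) (nat_lit 5) (nat_lit 492) (nat_lit 422) (nat_lit 226)) (XT.lf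 (nat_lit 0) (nat_lit 3787459110) (nat_lit 532) (nat_lit 439770129) (nat_lit 76) (nat_lit 16901303729) (nat_lit 156) (nat_lit 5) (nat_lit 163) (nat_lit 5) (nat_lit 157) (nat_lit 5) (nat_lit 493) (nat_lit 422) (nat_lit 225))) (XT.nd (nat_lit 78) (nat_lit 456) (nat_lit 0) (XT.lf (nat_lit 0) (nat_lit 7512939849) (nat_lit 532) (nat_lit 10669358784) (nat_lit 76) (nat_lit 3212211173) (nat_lit 150) (nat_lit 5) (nat_lit 157) (nat_lit 5) (nat_lit 151) (nat_lit 5) (nat_lit 494) (nat_lit 422) (nat_lit 224)) (XT.nd (nat_lit 78) (nat_lit 0) (nat_lit 0) (XT.lf (nat_lit 0) (nat_lit 422798603) (nat_lit 456) (nat_lit 10917808142) (nat_lit 532) (nat_lit 10324648309) (nat_lit 144) (nat_lit 5) (nat_lit 150) (nat_lit 5) (nat_lit 151) (nat_lit 5) (nat_lit 495) (nat_lit 422) (nat_lit 223)) (XT.lf (nat_lit 0) (nat_lit 11873163147) (nat_lit 456) (nat_lit 3437291443) (nat_lit 532) (nat_lit 6629650420) (nat_lit 144) (nat_lit 5) (nat_lit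 150) (nat_lit 5) (nat_lit 151) (nat_lit 5) (nat_lit 496) (nat_lit 422) (nat_lit 222)))))) (XT.nd (nat_lit 53898) (nat_lit 0) (nat_lit 20824) (XT.nd (nat_lit 53664) (nat_lit 0) (nat_lit 22344) (XT.nd (nat_lit 53586) (nat_lit 0) (nat_lit 22344) (XT.lf (nat_lit 0) (nat_lit 1313887492) (nat_lit 380) (nat_lit 18075698251) (nat_lit 456) (nat_lit 2830270806) (nat_lit 139) (nat_lit 5) (nat_lit 144) (nat_lit 5) (nat_lit 145) (nat_lit 5) (nat_lit 497) (nat_lit 422) (nat_lit 221)) (XT.lf (nat_lit 0) (nat_lit 3697817004) (nat_lit 1596) (nat_lit 661677074) (nat_lit 1596) (nat_lit 661677074) (nat_lit 433) (nat_lit 3) (nat_lit 454) (nat_lit 3) (nat_lit 454) (nat_lit 5) (nat_lit 423) (nat_lit 423) (nat_lit 294))) (XT.nd (nat_lit 78) (nat_lit 0) (nat_lit 0) (XT.lf (nat_lit 76) (nat_lit 3404123538) (nat_lit 0) (nat_lit 4761737340) (nat_lit 1596) (nat_lit 1962550188) (nat_lit 434) (nat_lit 5) (nat_lit 433) (nat_lit 3) (nat_lit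 454) (nat_lit 5) (nat_lit 424) (nat_lit 423) (nat_lit 293)) (XT.nd (nat_lit 78) (nat_lit 0) (nat_lit 76) (XT.lf (nat_lit 76) (nat_lit 8234944954) (nat_lit 0) (nat_lit 707684676) (nat_lit 1596) (nat_lit 1273760085) (nat_lit 434) (nat_lit 5) (nat_lit 433) (nat_lit 3) (nat_lit 454) (nat_lit 5) (nat_lit 425) (nat_lit 423) (nat_lit 292)) (XT.lf (nat_lit 76) (nat_lit 2862160725) (nat_lit 0) (nat_lit 6896268929) (nat_lit 1596) (nat_lit 547239402) (nat_lit 435) (nat_lit 5) (nat_lit 434) (nat_lit 5) (nat_lit 455) (nat_lit 5) (nat_lit 426) (nat_lit 423) (nat_lit 291))))) (XT.nd (nat_lit 234) (nat_lit 0) (nat_lit 76) (XT.nd (nat_lit 78) (nat_lit 0) (nat_lit 76) (XT.lf (nat_lit 0) (nat_lit 192156496) (nat_lit 1596) (nat_lit 2582559690) (nat_lit 1672) (nat_lit 7621985508) (nat_lit 413) (nat_lit 5) (nat_lit 434) (nat_lit 5) (nat_lit 435) (nat_lit 5) (nat_lit 427) (nat_lit 423) (nat_lit 290)) (XT.nd (nat_lit 78) (nat_lit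 0) (nat_lit 0) (XT.lf (nat_lit 0) (nat_lit 947170781) (nat_lit 1596) (nat_lit 8104961031) (nat_lit 1672) (nat_lit 1437198070) (nat_lit 414) (nat_lit 5) (nat_lit 435) (nat_lit 5) (nat_lit 436) (nat_lit 5) (nat_lit 428) (nat_lit 423) (nat_lit 289)) (XT.lf (nat_lit 0) (nat_lit 1736575568) (nat_lit 1596) (nat_lit 3126007013) (nat_lit 1672) (nat_lit 5720852445) (nat_lit 414) (nat_lit 5) (nat_lit 435) (nat_lit 5) (nat_lit 436) (nat_lit 5) (nat_lit 429) (nat_lit 423) (nat_lit 288)))) (XT.nd (nat_lit 78) (nat_lit 0) (nat_lit 76) (XT.lf (nat_lit 76) (nat_lit 1968842065) (nat_lit 0) (nat_lit 569503050) (nat_lit 1672) (nat_lit 8141155625) (nat_lit 415) (nat_lit 5) (nat_lit 414) (nat_lit 5) (nat_lit 436) (nat_lit 5) (nat_lit 430) (nat_lit 423) (nat_lit 287)) (XT.nd (nat_lit 78) (nat_lit 0) (nat_lit 0) (XT.lf (nat_lit 0) (nat_lit 3386091868) (nat_lit 1596) (nat_lit 3603792817) (nat_lit 1672) (nat_lit 3787014048) (nat_lit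 415) (nat_lit 5) (nat_lit 436) (nat_lit 5) (nat_lit 437) (nat_lit 5) (nat_lit 431) (nat_lit 423) (nat_lit 286)) (XT.lf (nat_lit 76) (nat_lit 1612971416) (nat_lit 0) (nat_lit 2636470419) (nat_lit 1672) (nat_lit 6626839494) (nat_lit 416) (nat_lit 5) (nat_lit 415) (nat_lit 5) (nat_lit 437) (nat_lit 5) (nat_lit 432) (nat_lit 423) (nat_lit 285))))))))
noncomputable def xc203 : XT := (XT.nd (nat_lit 1560) (nat_lit 8436) (nat_lit 0) (XT.nd (nat_lit 780) (nat_lit 4180) (nat_lit 0) (XT.nd (nat_lit 390) (nat_lit 1444) (nat_lit 0) (XT.nd (nat_lit 156) (nat_lit 0) (nat_lit 0) (XT.nd (nat_lit 78) (nat_lit 0) (nat_lit 0) (XT.lf (nat_lit 0) (nat_lit 5150800758) (nat_lit 1596) (nat_lit 4016032200) (nat_lit 1672) (nat_lit 1810413203) (nat_lit 416) (nat_lit 5) (nat_lit 437) (nat_lit 5) (nat_lit 438) (nat_lit 5) (nat_lit 433) (nat_lit 423) (nat_lit 284)) (XT.lf (nat_lit 76) (nat_lit 1326408868) (nat_lit 0) (nat_lit 4754835877)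 (nat_lit 1672) (nat_lit 4998773622) (nat_lit 417) (nat_lit 5) (nat_lit 416) (nat_lit 5) (nat_lit 438) (nat_lit 5) (nat_lit 434) (nat_lit 423) (nat_lit 283))) (XT.nd (nat_lit 78) (nat_lit 0) (nat_lit 76) (XT.lf (nat_lit 76) (nat_lit 6820482848) (nat_lit 0) (nat_lit 221982059) (nat_lit 1672) (nat_lit 4142146820) (nat_lit 417) (nat_lit 5) (nat_lit 416) (nat_lit 5) (nat_lit 438) (nat_lit 5) (nat_lit 435) (nat_lit 423) (nat_lit 282)) (XT.nd (nat_lit 78) (nat_lit 0) (nat_lit 0) (XT.lf (nat_lit 76) (nat_lit 1109316232) (nat_lit 0) (nat_lit 6934913400) (nat_lit 1672) (nat_lit 3246649798) (nat_lit 418) (nat_lit 5) (nat_lit 417) (nat_lit 5) (nat_lit 439) (nat_lit 5) (nat_lit 436) (nat_lit 423) (nat_lit 281)) (XT.lf (nat_lit 76) (nat_lit 6740165640) (nat_lit 0) (nat_lit 2342370461) (nat_lit 1672) (nat_lit 2316414960) (nat_lit 418) (nat_lit 5) (nat_lit 417) (nat_lit 5) (nat_lit 439) (nat_lit 5) (nat_lit 437) (nat_lit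 423) (nat_lit 280))))) (XT.nd (nat_lit 156) (nat_lit 1596) (nat_lit 0) (XT.nd (nat_lit 78) (nat_lit 0) (nat_lit 0) (XT.lf (nat_lit 76) (nat_lit 962001243) (nat_lit 0) (nat_lit 9187127715) (nat_lit 1672) (nat_lit 1359913296) (nat_lit 419) (nat_lit 5) (nat_lit 418) (nat_lit 5) (nat_lit 440) (nat_lit 5) (nat_lit 438) (nat_lit 423) (nat_lit 279)) (XT.lf (nat_lit 76) (nat_lit 6732843499) (nat_lit 0) (nat_lit 4537161335) (nat_lit 1672) (nat_lit 350679778) (nat_lit 419) (nat_lit 5) (nat_lit 418) (nat_lit 5) (nat_lit 440) (nat_lit 5) (nat_lit 439) (nat_lit 423) (nat_lit 278))) (XT.nd (nat_lit 78) (nat_lit 0) (nat_lit 0) (XT.lf (nat_lit 0) (nat_lit 663440148) (nat_lit 1672) (nat_lit 10854150304) (nat_lit 1748) (nat_lit 217017201) (nat_lit 397) (nat_lit 5) (nat_lit 419) (nat_lit 5) (nat_lit 420) (nat_lit 5) (nat_lit 440) (nat_lit 423) (nat_lit 277)) (XT.nd (nat_lit 78) (nat_lit 0) (nat_lit 0) (XT.lf (nat_lit 0) (nat_lit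 1742891771) (nat_lit 1672) (nat_lit 5062385156) (nat_lit 1748) (nat_lit 5044498852) (nat_lit 397) (nat_lit 5) (nat_lit 419) (nat_lit 5) (nat_lit 420) (nat_lit 5) (nat_lit 441) (nat_lit 423) (nat_lit 276)) (XT.lf (nat_lit 76) (nat_lit 846490969) (nat_lit 0) (nat_lit 1989874575) (nat_lit 1748) (nat_lit 9131040791) (nat_lit 398) (nat_lit 5) (nat_lit 397) (nat_lit 5) (nat_lit 420) (nat_lit 5) (nat_lit 442) (nat_lit 423) (nat_lit 275)))))) (XT.nd (nat_lit 390) (nat_lit 4256) (nat_lit 0) (XT.nd (nat_lit 156) (nat_lit 0) (nat_lit 76) (XT.nd (nat_lit 78) (nat_lit 0) (nat_lit 0) (XT.lf (nat_lit 0) (nat_lit 3992025608) (nat_lit 1672) (nat_lit 5173785689) (nat_lit 1748) (nat_lit 2920779444) (nat_lit 398) (nat_lit 5) (nat_lit 420) (nat_lit 5) (nat_lit 421) (nat_lit 5) (nat_lit 443) (nat_lit 423) (nat_lit 274)) (XT.lf (nat_lit 76) (nat_lit 880810869) (nat_lit 0) (nat_lit 4296286826) (nat_lit 1748) (nat_lit 7030942596)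 (nat_lit 399) (nat_lit 5) (nat_lit 398) (nat_lit 5) (nat_lit 421) (nat_lit 5) (nat_lit 444) (nat_lit 423) (nat_lit 273))) (XT.nd (nat_lit 78) (nat_lit 0) (nat_lit 0) (XT.lf (nat_lit 0) (nat_lit 6412776733) (nat_lit 1672) (nat_lit 5219234728) (nat_lit 1748) (nat_lit 699376541) (nat_lit 399) (nat_lit 5) (nat_lit 421) (nat_lit 5) (nat_lit 422) (nat_lit 5) (nat_lit 445) (nat_lit 423) (nat_lit 272)) (XT.nd (nat_lit 78) (nat_lit 0) (nat_lit 0) (XT.lf (nat_lit 76) (nat_lit 985532702) (nat_lit 0) (nat_lit 6710333295) (nat_lit 1748) (nat_lit 4760889878) (nat_lit 400) (nat_lit 5) (nat_lit 399) (nat_lit 5) (nat_lit 422) (nat_lit 5) (nat_lit 446) (nat_lit 423) (nat_lit 271)) (XT.lf (nat_lit 76) (nat_lit 7375348088) (nat_lit 0) (nat_lit 1652313174) (nat_lit 1748) (nat_lit 3556515960) (nat_lit 400) (nat_lit 5) (nat_lit 399) (nat_lit 5) (nat_lit 422) (nat_lit 5) (nat_lit 447) (nat_lit 423) (nat_lit 270))))) (XT.nd (nat_lit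 156) (nat_lit 2736) (nat_lit 0) (XT.nd (nat_lit 78) (nat_lit 0) (nat_lit 0) (XT.lf (nat_lit 0) (nat_lit 1161416984) (nat_lit 1672) (nat_lit 9243254248) (nat_lit 1748) (nat_lit 2309111051) (nat_lit 378) (nat_lit 5) (nat_lit 400) (nat_lit 5) (nat_lit 401) (nat_lit 5) (nat_lit 448) (nat_lit 423) (nat_lit 269)) (XT.lf (nat_lit 0) (nat_lit 7708792962) (nat_lit 1672) (nat_lit 4134688531) (nat_lit 1748) (nat_lit 1001819478) (nat_lit 378) (nat_lit 5) (nat_lit 400) (nat_lit 5) (nat_lit 401) (nat_lit 5) (nat_lit 449) (nat_lit 423) (nat_lit 268))) (XT.nd (nat_lit 78) (nat_lit 912) (nat_lit 0) (XT.lf (nat_lit 0) (nat_lit 332104327) (nat_lit 1824) (nat_lit 11572228671) (nat_lit 76) (nat_lit 1074983727) (nat_lit 354) (nat_lit 5) (nat_lit 378) (nat_lit 5) (nat_lit 355) (nat_lit 5) (nat_lit 450) (nat_lit 423) (nat_lit 267)) (XT.nd (nat_lit 78) (nat_lit 912) (nat_lit 0) (XT.lf (nat_lit 0) (nat_lit 1730135650) (nat_lit 1824)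 (nat_lit 5008323378) (nat_lit 76) (nat_lit 6376410801) (nat_lit 354) (nat_lit 5) (nat_lit 378) (nat_lit 5) (nat_lit 355) (nat_lit 5) (nat_lit 451) (nat_lit 423) (nat_lit 266)) (XT.lf (nat_lit 0) (nat_lit 1699405048) (nat_lit 912) (nat_lit 1456728645) (nat_lit 988) (nat_lit 10097006393) (nat_lit 342) (nat_lit 5) (nat_lit 354) (nat_lit 5) (nat_lit 355) (nat_lit 5) (nat_lit 452) (nat_lit 423) (nat_lit 265))))))) (XT.nd (nat_lit 780) (nat_lit 4256) (nat_lit 0) (XT.nd (nat_lit 390) (nat_lit 2432) (nat_lit 0) (XT.nd (nat_lit 156) (nat_lit 836) (nat_lit 0) (XT.nd (nat_lit 78) (nat_lit 912) (nat_lit 0) (XT.lf (nat_lit 0) (nat_lit 4659136630) (nat_lit 988) (nat_lit 4819979484) (nat_lit 76) (nat_lit 3914096031) (nat_lit 342) (nat_lit 5) (nat_lit 355) (nat_lit 5) (nat_lit 343) (nat_lit 5) (nat_lit 453) (nat_lit 423) (nat_lit 264)) (XT.lf (nat_lit 0) (nat_lit 2056053586) (nat_lit 912) (nat_lit 4148489155) (nat_lit 988)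 (nat_lit 7331302015) (nat_lit 330) (nat_lit 5) (nat_lit 342) (nat_lit 5) (nat_lit 343) (nat_lit 5) (nat_lit 454) (nat_lit 423) (nat_lit 263))) (XT.nd (nat_lit 78) (nat_lit 836) (nat_lit 0) (XT.lf (nat_lit 0) (nat_lit 7811281618) (nat_lit 988) (nat_lit 4564194876) (nat_lit 76) (nat_lit 1305250892) (nat_lit 330) (nat_lit 5) (nat_lit 343) (nat_lit 5) (nat_lit 331) (nat_lit 5) (nat_lit 455) (nat_lit 423) (nat_lit 262)) (XT.nd (nat_lit 78) (nat_lit 0) (nat_lit 0) (XT.lf (nat_lit 0) (nat_lit 2485153206) (nat_lit 836) (nat_lit 6998315097) (nat_lit 912) (nat_lit 4344378846) (nat_lit 319) (nat_lit 5) (nat_lit 330) (nat_lit 5) (nat_lit 331) (nat_lit 5) (nat_lit 456) (nat_lit 423) (nat_lit 261)) (XT.lf (nat_lit 0) (nat_lit 9727740865) (nat_lit 836) (nat_lit 1481829779) (nat_lit 912) (nat_lit 2767934856) (nat_lit 319) (nat_lit 5) (nat_lit 330) (nat_lit 5) (nat_lit 331) (nat_lit 5) (nat_lit 457) (nat_lit 423) (nat_lit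 260))))) (XT.nd (nat_lit 156) (nat_lit 1520) (nat_lit 0) (XT.nd (nat_lit 78) (nat_lit 76) (nat_lit 0) (XT.lf (nat_lit 0) (nat_lit 2987659160) (nat_lit 836) (nat_lit 10018892081) (nat_lit 912) (nat_lit 1122884172) (nat_lit 308) (nat_lit 5) (nat_lit 319) (nat_lit 5) (nat_lit 320) (nat_lit 5) (nat_lit 458) (nat_lit 423) (nat_lit 259)) (XT.lf (nat_lit 0) (nat_lit 576417167) (nat_lit 912) (nat_lit 3879710774) (nat_lit 76) (nat_lit 9827636622) (nat_lit 307) (nat_lit 5) (nat_lit 319) (nat_lit 5) (nat_lit 308) (nat_lit 5) (nat_lit 459) (nat_lit 423) (nat_lit 258))) (XT.nd (nat_lit 78) (nat_lit 760) (nat_lit 0) (XT.lf (nat_lit 0) (nat_lit 2316193146) (nat_lit 836) (nat_lit 10891584016) (nat_lit 76) (nat_lit 1232829410) (nat_lit 297) (nat_lit 5) (nat_lit 308) (nat_lit 5) (nat_lit 298) (nat_lit 5) (nat_lit 460) (nat_lit 423) (nat_lit 257)) (XT.nd (nat_lit 78) (nat_lit 760) (nat_lit 0) (XT.lf (nat_lit 0) (nat_lit 4136915148)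 (nat_lit 836) (nat_lit 3460480211) (nat_lit 76) (nat_lit 7002272151) (nat_lit 297) (nat_lit 5) (nat_lit 308) (nat_lit 5) (nat_lit 298) (nat_lit 5) (nat_lit 461) (nat_lit 423) (nat_lit 256)) (XT.lf (nat_lit 0) (nat_lit 4164398438) (nat_lit 760) (nat_lit 1847311192) (nat_lit 836) (nat_lit 8749851875) (nat_lit 287) (nat_lit 5) (nat_lit 297) (nat_lit 5) (nat_lit 298) (nat_lit 5) (nat_lit 462) (nat_lit 423) (nat_lit 255)))))) (XT.nd (nat_lit 390) (nat_lit 2660) (nat_lit 0) (XT.nd (nat_lit 156) (nat_lit 836) (nat_lit 0) (XT.nd (nat_lit 78) (nat_lit 760) (nat_lit 0) (XT.lf (nat_lit 0) (nat_lit 7964203435) (nat_lit 836) (nat_lit 2973377314) (nat_lit 76) (nat_lit 3988313463) (nat_lit 287) (nat_lit 5) (nat_lit 298) (nat_lit 5) (nat_lit 288) (nat_lit 5) (nat_lit 463) (nat_lit 423) (nat_lit 254)) (XT.lf (nat_lit 0) (nat_lit 4844787717) (nat_lit 760) (nat_lit 5145572296) (nat_lit 836) (nat_lit 5102466108) (nat_lit 277)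 (nat_lit 5) (nat_lit 287) (nat_lit 5) (nat_lit 288) (nat_lit 5) (nat_lit 464) (nat_lit 423) (nat_lit 253))) (XT.nd (nat_lit 78) (nat_lit 836) (nat_lit 0) (XT.lf (nat_lit 0) (nat_lit 12073112312) (nat_lit 836) (nat_lit 2417680394) (nat_lit 76) (nat_lit 771987221) (nat_lit 277) (nat_lit 5) (nat_lit 288) (nat_lit 5) (nat_lit 278) (nat_lit 5) (nat_lit 465) (nat_lit 423) (nat_lit 252)) (XT.nd (nat_lit 78) (nat_lit 76) (nat_lit 0) (XT.lf (nat_lit 0) (nat_lit 5599308385) (nat_lit 760) (nat_lit 8659856371) (nat_lit 836) (nat_lit 1175739771) (nat_lit 267) (nat_lit 5) (nat_lit 277) (nat_lit 5) (nat_lit 278) (nat_lit 5) (nat_lit 466) (nat_lit 423) (nat_lit 251)) (XT.lf (nat_lit 0) (nat_lit 874540919) (nat_lit 836) (nat_lit 1815943742) (nat_lit 76) (nat_lit 12919725414) (nat_lit 266) (nat_lit 5) (nat_lit 277) (nat_lit 5) (nat_lit 267) (nat_lit 5) (nat_lit 467) (nat_lit 423) (nat_lit 250))))) (XT.nd (nat_lit 234) (nat_lit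 1292) (nat_lit 0) (XT.nd (nat_lit 78) (nat_lit 684) (nat_lit 0) (XT.lf (nat_lit 0) (nat_lit 3005679289) (nat_lit 760) (nat_lit 9379139826) (nat_lit 76) (nat_lit 3402939634) (nat_lit 257) (nat_lit 5) (nat_lit 267) (nat_lit 5) (nat_lit 258) (nat_lit 5) (nat_lit 468) (nat_lit 423) (nat_lit 249)) (XT.nd (nat_lit 78) (nat_lit 684) (nat_lit 0) (XT.lf (nat_lit 0) (nat_lit 5201064340) (nat_lit 760) (nat_lit 1173543598) (nat_lit 76) (nat_lit 9593822247) (nat_lit 257) (nat_lit 5) (nat_lit 267) (nat_lit 5) (nat_lit 258) (nat_lit 5) (nat_lit 469) (nat_lit 423) (nat_lit 248)) (XT.lf (nat_lit 0) (nat_lit 7282540224) (nat_lit 684) (nat_lit 196805335) (nat_lit 760) (nat_lit 8672593904) (nat_lit 248) (nat_lit 5) (nat_lit 257) (nat_lit 5) (nat_lit 258) (nat_lit 5) (nat_lit 470) (nat_lit 423) (nat_lit 247)))) (XT.nd (nat_lit 78) (nat_lit 1292) (nat_lit 0) (XT.lf (nat_lit 0) (nat_lit 9842557812) (nat_lit 760) (nat_lit 464233193)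 (nat_lit 76) (nat_lit 6031544716) (nat_lit 248) (nat_lit 5) (nat_lit 258) (nat_lit 5) (nat_lit 249) (nat_lit 5) (nat_lit 471) (nat_lit 423) (nat_lit 246)) (XT.nd (nat_lit 78) (nat_lit 684) (nat_lit 0) (XT.lf (nat_lit 0) (nat_lit 8206302887) (nat_lit 608) (nat_lit 4093279600) (nat_lit 684) (nat_lit 4227950473) (nat_lit 240) (nat_lit 5) (nat_lit 248) (nat_lit 5) (nat_lit 249) (nat_lit 5) (nat_lit 472) (nat_lit 423) (nat_lit 245)) (XT.lf (nat_lit 0) (nat_lit 316494829) (nat_lit 684) (nat_lit 14501072729) (nat_lit 760) (nat_lit 1902714129) (nat_lit 231) (nat_lit 5) (nat_lit 240) (nat_lit 5) (nat_lit 241) (nat_lit 5) (nat_lit 473) (nat_lit 423) (nat_lit 244))))))))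
noncomputable def xc204 : XT := (XT.nd (nat_lit 1560) (nat_lit 912) (nat_lit 0) (XT.nd (nat_lit 780) (nat_lit 2660) (nat_lit 0) (XT.nd (nat_lit 390) (nat_lit 1748) (nat_lit 0) (XT.nd (nat_lit 156) (nat_lit 608) (nat_lit 0) (XT.nd (nat_lit 78) (nat_lit 608) (nat_lit 0) (XT.lf (nat_lit 0) (nat_lit 538290286) (nat_lit 760) (nat_lit 7715722623) (nat_lit 76) (nat_lit 8661307071) (nat_lit 230) (nat_lit 5) (nat_lit 240) (nat_lit 5) (nat_lit 231) (nat_lit 5) (nat_lit 474) (nat_lit 423) (nat_lit 243)) (XT.lf (nat_lit 0) (nat_lit 1139424450) (nat_lit 608) (nat_lit 1862886939) (nat_lit 684) (nat_lit 14111706346) (nat_lit 222) (nat_lit 5) (nat_lit 230) (nat_lit 5) (nat_lit 231) (nat_lit 5) (nat_lit 475) (nat_lit 423) (nat_lit 242))) (XT.nd (nat_lit 78) (nat_lit 608) (nat_lit 0) (XT.lf (nat_lit 0) (nat_lit 5590300070) (nat_lit 684) (nat_lit 7079074255) (nat_lit 76) (nat_lit 4645825019) (nat_lit 222) (nat_lit 5) (nat_lit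 231) (nat_lit 5) (nat_lit 223) (nat_lit 5) (nat_lit 476) (nat_lit 423) (nat_lit 241)) (XT.nd (nat_lit 78) (nat_lit 0) (nat_lit 0) (XT.lf (nat_lit 0) (nat_lit 1999307744) (nat_lit 608) (nat_lit 6248546321) (nat_lit 684) (nat_lit 9272197980) (nat_lit 214) (nat_lit 5) (nat_lit 222) (nat_lit 5) (nat_lit 223) (nat_lit 5) (nat_lit 477) (nat_lit 423) (nat_lit 240)) (XT.lf (nat_lit 0) (nat_lit 11000898369) (nat_lit 684) (nat_lit 6384118011) (nat_lit 76) (nat_lit 343142134) (nat_lit 214) (nat_lit 5) (nat_lit 223) (nat_lit 5) (nat_lit 215) (nat_lit 5) (nat_lit 478) (nat_lit 423) (nat_lit 239))))) (XT.nd (nat_lit 156) (nat_lit 1216) (nat_lit 0) (XT.nd (nat_lit 78) (nat_lit 0) (nat_lit 0) (XT.lf (nat_lit 0) (nat_lit 2923361419) (nat_lit 532) (nat_lit 10938717352) (nat_lit 608) (nat_lit 4077290270) (nat_lit 207) (nat_lit 5) (nat_lit 214) (nat_lit 5) (nat_lit 215) (nat_lit 5) (nat_lit 479) (nat_lit 423) (nat_lit 238))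 (XT.lf (nat_lit 0) (nat_lit 12494748296) (nat_lit 532) (nat_lit 4321374848) (nat_lit 608) (nat_lit 1337971192) (nat_lit 207) (nat_lit 5) (nat_lit 214) (nat_lit 5) (nat_lit 215) (nat_lit 5) (nat_lit 480) (nat_lit 423) (nat_lit 237))) (XT.nd (nat_lit 78) (nat_lit 532) (nat_lit 0) (XT.lf (nat_lit 0) (nat_lit 1471350583) (nat_lit 684) (nat_lit 14470879239) (nat_lit 76) (nat_lit 2430012190) (nat_lit 198) (nat_lit 5) (nat_lit 207) (nat_lit 5) (nat_lit 199) (nat_lit 5) (nat_lit 481) (nat_lit 423) (nat_lit 236)) (XT.nd (nat_lit 78) (nat_lit 532) (nat_lit 0) (XT.lf (nat_lit 0) (nat_lit 4378770634) (nat_lit 684) (nat_lit 4910505990) (nat_lit 76) (nat_lit 9304105761) (nat_lit 198) (nat_lit 5) (nat_lit 207) (nat_lit 5) (nat_lit 199) (nat_lit 5) (nat_lit 482) (nat_lit 423) (nat_lit 235)) (XT.lf (nat_lit 0) (nat_lit 4896685869) (nat_lit 532) (nat_lit 2472547178) (nat_lit 608) (nat_lit 11449217749) (nat_lit 191) (nat_lit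 5) (nat_lit 198) (nat_lit 5) (nat_lit 199) (nat_lit 5) (nat_lit 483) (nat_lit 423) (nat_lit 234)))))) (XT.nd (nat_lit 390) (nat_lit 1520) (nat_lit 0) (XT.nd (nat_lit 156) (nat_lit 608) (nat_lit 0) (XT.nd (nat_lit 78) (nat_lit 532) (nat_lit 0) (XT.lf (nat_lit 0) (nat_lit 10474935401) (nat_lit 608) (nat_lit 4118766769) (nat_lit 76) (nat_lit 4453212837) (nat_lit 191) (nat_lit 5) (nat_lit 199) (nat_lit 5) (nat_lit 192) (nat_lit 5) (nat_lit 484) (nat_lit 423) (nat_lit 233)) (XT.lf (nat_lit 0) (nat_lit 5933221059) (nat_lit 532) (nat_lit 7757731459) (nat_lit 608) (nat_lit 5588034958) (nat_lit 184) (nat_lit 5) (nat_lit 191) (nat_lit 5) (nat_lit 192) (nat_lit 5) (nat_lit 485) (nat_lit 423) (nat_lit 232))) (XT.nd (nat_lit 78) (nat_lit 608) (nat_lit 0) (XT.lf (nat_lit 0) (nat_lit 16233624537) (nat_lit 532) (nat_lit 758684759) (nat_lit 608) (nat_lit 2522974641) (nat_lit 184) (nat_lit 5) (nat_lit 191) (nat_lit 5) (nat_lit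 192) (nat_lit 5) (nat_lit 486) (nat_lit 423) (nat_lit 231)) (XT.nd (nat_lit 78) (nat_lit 0) (nat_lit 0) (XT.lf (nat_lit 0) (nat_lit 676545392) (nat_lit 608) (nat_lit 12733107463) (nat_lit 76) (nat_lit 6344956494) (nat_lit 176) (nat_lit 5) (nat_lit 184) (nat_lit 5) (nat_lit 177) (nat_lit 5) (nat_lit 487) (nat_lit 423) (nat_lit 230)) (XT.lf (nat_lit 0) (nat_lit 3927022909) (nat_lit 608) (nat_lit 2453393103) (nat_lit 76) (nat_lit 13617559487) (nat_lit 176) (nat_lit 5) (nat_lit 184) (nat_lit 5) (nat_lit 177) (nat_lit 5) (nat_lit 488) (nat_lit 423) (nat_lit 229))))) (XT.nd (nat_lit 156) (nat_lit 988) (nat_lit 0) (XT.nd (nat_lit 78) (nat_lit 0) (nat_lit 0) (XT.lf (nat_lit 0) (nat_lit 7294412619) (nat_lit 608) (nat_lit 12120477976) (nat_lit 76) (nat_lit 830283029) (nat_lit 169) (nat_lit 5) (nat_lit 177) (nat_lit 5) (nat_lit 170) (nat_lit 5) (nat_lit 489) (nat_lit 423) (nat_lit 228)) (XT.lf (nat_lit 0) (nat_lit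 10781688697) (nat_lit 608) (nat_lit 1600086553) (nat_lit 76) (nat_lit 8114492344) (nat_lit 169) (nat_lit 5) (nat_lit 177) (nat_lit 5) (nat_lit 170) (nat_lit 5) (nat_lit 490) (nat_lit 423) (nat_lit 227))) (XT.nd (nat_lit 78) (nat_lit 532) (nat_lit 0) (XT.lf (nat_lit 0) (nat_lit 9243770691) (nat_lit 456) (nat_lit 5148791171) (nat_lit 532) (nat_lit 6358747150) (nat_lit 163) (nat_lit 5) (nat_lit 169) (nat_lit 5) (nat_lit 170) (nat_lit 5) (nat_lit 491) (nat_lit 423) (nat_lit 226)) (XT.nd (nat_lit 78) (nat_lit 532) (nat_lit 0) (XT.lf (nat_lit 0) (nat_lit 18094822094) (nat_lit 532) (nat_lit 707817409) (nat_lit 76) (nat_lit 2208430914) (nat_lit 163) (nat_lit 5) (nat_lit 170) (nat_lit 5) (nat_lit 164) (nat_lit 5) (nat_lit 492) (nat_lit 423) (nat_lit 225)) (XT.lf (nat_lit 0) (nat_lit 683571901) (nat_lit 532) (nat_lit 10876459575) (nat_lit 76) (nat_lit 9713995222) (nat_lit 156) (nat_lit 5) (nat_lit 163) (nat_lit 5)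 (nat_lit 157) (nat_lit 5) (nat_lit 493) (nat_lit 423) (nat_lit 224))))))) (XT.nd (nat_lit 54366) (nat_lit 0) (nat_lit 19152) (XT.nd (nat_lit 53976) (nat_lit 0) (nat_lit 20368) (XT.nd (nat_lit 156) (nat_lit 456) (nat_lit 0) (XT.nd (nat_lit 78) (nat_lit 0) (nat_lit 0) (XT.lf (nat_lit 0) (nat_lit 167255688) (nat_lit 456) (nat_lit 4149021421) (nat_lit 532) (nat_lit 17225583129) (nat_lit 150) (nat_lit 5) (nat_lit 156) (nat_lit 5) (nat_lit 157) (nat_lit 5) (nat_lit 494) (nat_lit 423) (nat_lit 223)) (XT.lf (nat_lit 0) (nat_lit 8111332123) (nat_lit 532) (nat_lit 10265090479) (nat_lit 76) (nat_lit 3436836287) (nat_lit 150) (nat_lit 5) (nat_lit 157) (nat_lit 5) (nat_lit 151) (nat_lit 5) (nat_lit 495) (nat_lit 423) (nat_lit 222))) (XT.nd (nat_lit 78) (nat_lit 0) (nat_lit 0) (XT.lf (nat_lit 0) (nat_lit 1044846533) (nat_lit 456) (nat_lit 10965902740) (nat_lit 532) (nat_lit 10078769331) (nat_lit 144) (nat_lit 5) (nat_lit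 150) (nat_lit 5) (nat_lit 151) (nat_lit 5) (nat_lit 496) (nat_lit 423) (nat_lit 221)) (XT.nd (nat_lit 53664) (nat_lit 0) (nat_lit 21964) (XT.lf (nat_lit 0) (nat_lit 12712187152) (nat_lit 456) (nat_lit 3339114169) (nat_lit 532) (nat_lit 6318741523) (nat_lit 144) (nat_lit 5) (nat_lit 150) (nat_lit 5) (nat_lit 151) (nat_lit 5) (nat_lit 497) (nat_lit 423) (nat_lit 220)) (XT.lf (nat_lit 0) (nat_lit 4441564895) (nat_lit 1596) (nat_lit 333103692) (nat_lit 1596) (nat_lit 333103692) (nat_lit 433) (nat_lit 3) (nat_lit 454) (nat_lit 3) (nat_lit 454) (nat_lit 5) (nat_lit 424) (nat_lit 424) (nat_lit 292))))) (XT.nd (nat_lit 156) (nat_lit 0) (nat_lit 76) (XT.nd (nat_lit 78) (nat_lit 1596) (nat_lit 0) (XT.lf (nat_lit 76) (nat_lit 4151322396) (nat_lit 0) (nat_lit 5495581740) (nat_lit 1596) (nat_lit 656884424) (nat_lit 434) (nat_lit 5) (nat_lit 433) (nat_lit 3) (nat_lit 454) (nat_lit 5) (nat_lit 425) (nat_lit 424) (nat_lit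 291)) (XT.lf (nat_lit 0) (nat_lit 19057302) (nat_lit 1596) (nat_lit 1328741078) (nat_lit 1672) (nat_lit 9046259046) (nat_lit 412) (nat_lit 5) (nat_lit 433) (nat_lit 3) (nat_lit 434) (nat_lit 5) (nat_lit 426) (nat_lit 424) (nat_lit 290))) (XT.nd (nat_lit 78) (nat_lit 0) (nat_lit 0) (XT.lf (nat_lit 0) (nat_lit 725385241) (nat_lit 1596) (nat_lit 6879065201) (nat_lit 1672) (nat_lit 2881091527) (nat_lit 413) (nat_lit 5) (nat_lit 434) (nat_lit 5) (nat_lit 435) (nat_lit 5) (nat_lit 427) (nat_lit 424) (nat_lit 289)) (XT.nd (nat_lit 78) (nat_lit 0) (nat_lit 76) (XT.lf (nat_lit 0) (nat_lit 1447223886) (nat_lit 1596) (nat_lit 1938437163) (nat_lit 1672) (nat_lit 7193177668) (nat_lit 413) (nat_lit 5) (nat_lit 434) (nat_lit 5) (nat_lit 435) (nat_lit 5) (nat_lit 428) (nat_lit 424) (nat_lit 288)) (XT.lf (nat_lit 0) (nat_lit 2193786432) (nat_lit 1596) (nat_lit 7546977129) (nat_lit 1672) (nat_lit 933042097) (nat_lit 414)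 (nat_lit 5) (nat_lit 435) (nat_lit 5) (nat_lit 436) (nat_lit 5) (nat_lit 429) (nat_lit 424) (nat_lit 287)))))) (XT.nd (nat_lit 390) (nat_lit 1368) (nat_lit 0) (XT.nd (nat_lit 156) (nat_lit 0) (nat_lit 76) (XT.nd (nat_lit 78) (nat_lit 0) (nat_lit 0) (XT.lf (nat_lit 0) (nat_lit 2974907311) (nat_lit 1596) (nat_lit 2482563307) (nat_lit 1672) (nat_lit 5312818578) (nat_lit 414) (nat_lit 5) (nat_lit 435) (nat_lit 5) (nat_lit 436) (nat_lit 5) (nat_lit 430) (nat_lit 424) (nat_lit 286)) (XT.lf (nat_lit 76) (nat_lit 2709538254) (nat_lit 0) (nat_lit 1064127421) (nat_lit 1672) (nat_lit 7095006039) (nat_lit 415) (nat_lit 5) (nat_lit 414) (nat_lit 5) (nat_lit 436) (nat_lit 5) (nat_lit 431) (nat_lit 424) (nat_lit 285))) (XT.nd (nat_lit 78) (nat_lit 0) (nat_lit 0) (XT.lf (nat_lit 0) (nat_lit 4612064862) (nat_lit 1596) (nat_lit 2961284491) (nat_lit 1672) (nat_lit 3395208638) (nat_lit 415) (nat_lit 5) (nat_lit 436) (nat_lit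 5) (nat_lit 437) (nat_lit 5) (nat_lit 432) (nat_lit 424) (nat_lit 284)) (XT.nd (nat_lit 78) (nat_lit 0) (nat_lit 76) (XT.lf (nat_lit 76) (nat_lit 2355113815) (nat_lit 0) (nat_lit 3119466238) (nat_lit 1672) (nat_lit 5595724216) (nat_lit 416) (nat_lit 5) (nat_lit 415) (nat_lit 5) (nat_lit 437) (nat_lit 5) (nat_lit 433) (nat_lit 424) (nat_lit 283)) (XT.lf (nat_lit 0) (nat_lit 6368871484) (nat_lit 1596) (nat_lit 3374608499) (nat_lit 1672) (nat_lit 1430324027) (nat_lit 416) (nat_lit 5) (nat_lit 437) (nat_lit 5) (nat_lit 438) (nat_lit 5) (nat_lit 434) (nat_lit 424) (nat_lit 282))))) (XT.nd (nat_lit 234) (nat_lit 1520) (nat_lit 0) (XT.nd (nat_lit 78) (nat_lit 0) (nat_lit 0) (XT.lf (nat_lit 76) (nat_lit 2069933073) (nat_lit 0) (nat_lit 5230782674) (nat_lit 1672) (nat_lit 3978273536) (nat_lit 417) (nat_lit 5) (nat_lit 416) (nat_lit 5) (nat_lit 438) (nat_lit 5) (nat_lit 435) (nat_lit 424) (nat_lit 281)) (XT.nd (nat_lit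 78) (nat_lit 0) (nat_lit 76) (XT.lf (nat_lit 76) (nat_lit 7659829787) (nat_lit 0) (nat_lit 599804131) (nat_lit 1672) (nat_lit 3126484307) (nat_lit 417) (nat_lit 5) (nat_lit 416) (nat_lit 5) (nat_lit 438) (nat_lit 5) (nat_lit 436) (nat_lit 424) (nat_lit 280)) (XT.lf (nat_lit 76) (nat_lit 1854263327) (nat_lit 0) (nat_lit 7408382233) (nat_lit 1672) (nat_lit 2232254418) (nat_lit 418) (nat_lit 5) (nat_lit 417) (nat_lit 5) (nat_lit 439) (nat_lit 5) (nat_lit 437) (nat_lit 424) (nat_lit 279)))) (XT.nd (nat_lit 78) (nat_lit 1596) (nat_lit 0) (XT.lf (nat_lit 76) (nat_lit 7583557944) (nat_lit 0) (nat_lit 2717424306) (nat_lit 1672) (nat_lit 1304578185) (nat_lit 418) (nat_lit 5) (nat_lit 417) (nat_lit 5) (nat_lit 439) (nat_lit 5) (nat_lit 438) (nat_lit 424) (nat_lit 278)) (XT.nd (nat_lit 78) (nat_lit 1672) (nat_lit 0) (XT.lf (nat_lit 76) (nat_lit 1708514461) (nat_lit 0) (nat_lit 9662695969) (nat_lit 1672) (nat_lit 347009377)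 (nat_lit 419) (nat_lit 5) (nat_lit 418) (nat_lit 5) (nat_lit 440) (nat_lit 5) (nat_lit 439) (nat_lit 424) (nat_lit 277)) (XT.lf (nat_lit 0) (nat_lit 653332208) (nat_lit 1672) (nat_lit 4256291777) (nat_lit 1748) (nat_lit 6922796892) (nat_lit 396) (nat_lit 5) (nat_lit 418) (nat_lit 5) (nat_lit 419) (nat_lit 5) (nat_lit 440) (nat_lit 424) (nat_lit 276))))))))
noncomputable def xc205 : XT := (XT.nd (nat_lit 1560) (nat_lit 7600) (nat_lit 0) (XT.nd (nat_lit 780) (nat_lit 5396) (nat_lit 0) (XT.nd (nat_lit 390) (nat_lit 1368) (nat_lit 0) (XT.nd (nat_lit 156) (nat_lit 0) (nat_lit 76) (XT.nd (nat_lit 78) (nat_lit 0) (nat_lit 76) (XT.lf (nat_lit 76) (nat_lit 1621752910) (nat_lit 0) (nat_lit 44791072) (nat_lit 1748) (nat_lit 10282373645) (nat_lit 397) (nat_lit 5) (nat_lit 396) (nat_lit 5) (nat_lit 419) (nat_lit 5) (nat_lit 441) (nat_lit 424) (nat_lit 275)) (XT.lf (nat_lit 0) (nat_lit 2747890997) (nat_lit 1672) (nat_lit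 4433868737) (nat_lit 1748) (nat_lit 4885034736) (nat_lit 397) (nat_lit 5) (nat_lit 419) (nat_lit 5) (nat_lit 420) (nat_lit 5) (nat_lit 442) (nat_lit 424) (nat_lit 274))) (XT.nd (nat_lit 78) (nat_lit 0) (nat_lit 76) (XT.lf (nat_lit 76) (nat_lit 1588383831) (nat_lit 0) (nat_lit 2260534974) (nat_lit 1748) (nat_lit 8338156394) (nat_lit 398) (nat_lit 5) (nat_lit 397) (nat_lit 5) (nat_lit 420) (nat_lit 5) (nat_lit 443) (nat_lit 424) (nat_lit 273)) (XT.nd (nat_lit 78) (nat_lit 0) (nat_lit 0) (XT.lf (nat_lit 0) (nat_lit 5007480862) (nat_lit 1672) (nat_lit 4545750403) (nat_lit 1748) (nat_lit 2755827288) (nat_lit 398) (nat_lit 5) (nat_lit 420) (nat_lit 5) (nat_lit 421) (nat_lit 5) (nat_lit 444) (nat_lit 424) (nat_lit 272)) (XT.lf (nat_lit 76) (nat_lit 1625125513) (nat_lit 0) (nat_lit 4577501697) (nat_lit 1748) (nat_lit 6230593243) (nat_lit 399) (nat_lit 5) (nat_lit 398) (nat_lit 5) (nat_lit 421) (nat_lit 5) (nat_lit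 445) (nat_lit 424) (nat_lit 271))))) (XT.nd (nat_lit 156) (nat_lit 1596) (nat_lit 0) (XT.nd (nat_lit 78) (nat_lit 0) (nat_lit 0) (XT.lf (nat_lit 0) (nat_lit 7443698558) (nat_lit 1672) (nat_lit 4591318427) (nat_lit 1748) (nat_lit 524415167) (nat_lit 399) (nat_lit 5) (nat_lit 421) (nat_lit 5) (nat_lit 422) (nat_lit 5) (nat_lit 446) (nat_lit 424) (nat_lit 270)) (XT.lf (nat_lit 76) (nat_lit 1732726582) (nat_lit 0) (nat_lit 7006746989) (nat_lit 1748) (nat_lit 3948103729) (nat_lit 400) (nat_lit 5) (nat_lit 399) (nat_lit 5) (nat_lit 422) (nat_lit 5) (nat_lit 447) (nat_lit 424) (nat_lit 269))) (XT.nd (nat_lit 78) (nat_lit 1596) (nat_lit 0) (XT.lf (nat_lit 76) (nat_lit 8236073899) (nat_lit 0) (nat_lit 1844385936) (nat_lit 1748) (nat_lit 2737446331) (nat_lit 400) (nat_lit 5) (nat_lit 399) (nat_lit 5) (nat_lit 422) (nat_lit 5) (nat_lit 448) (nat_lit 424) (nat_lit 268)) (XT.nd (nat_lit 78) (nat_lit 0) (nat_lit 0) (XT.lf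 (nat_lit 0) (nat_lit 1912034134) (nat_lit 1672) (nat_lit 9559583450) (nat_lit 1748) (nat_lit 1478763586) (nat_lit 378) (nat_lit 5) (nat_lit 400) (nat_lit 5) (nat_lit 401) (nat_lit 5) (nat_lit 449) (nat_lit 424) (nat_lit 267)) (XT.lf (nat_lit 0) (nat_lit 8576095106) (nat_lit 1672) (nat_lit 4346268691) (nat_lit 1748) (nat_lit 162513038) (nat_lit 378) (nat_lit 5) (nat_lit 400) (nat_lit 5) (nat_lit 401) (nat_lit 5) (nat_lit 450) (nat_lit 424) (nat_lit 266)))))) (XT.nd (nat_lit 390) (nat_lit 1748) (nat_lit 0) (XT.nd (nat_lit 156) (nat_lit 1824) (nat_lit 0) (XT.nd (nat_lit 78) (nat_lit 0) (nat_lit 0) (XT.lf (nat_lit 0) (nat_lit 1174112137) (nat_lit 1824) (nat_lit 11065618680) (nat_lit 76) (nat_lit 981994051) (nat_lit 354) (nat_lit 5) (nat_lit 378) (nat_lit 5) (nat_lit 355) (nat_lit 5) (nat_lit 451) (nat_lit 424) (nat_lit 265)) (XT.lf (nat_lit 0) (nat_lit 2583724366) (nat_lit 1824) (nat_lit 4384906939) (nat_lit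 76) (nat_lit 6391694555) (nat_lit 354) (nat_lit 5) (nat_lit 378) (nat_lit 5) (nat_lit 355) (nat_lit 5) (nat_lit 452) (nat_lit 424) (nat_lit 264))) (XT.nd (nat_lit 78) (nat_lit 912) (nat_lit 0) (XT.lf (nat_lit 0) (nat_lit 2452215641) (nat_lit 912) (nat_lit 1574635252) (nat_lit 988) (nat_lit 9474747511) (nat_lit 342) (nat_lit 5) (nat_lit 354) (nat_lit 5) (nat_lit 355) (nat_lit 5) (nat_lit 453) (nat_lit 424) (nat_lit 263)) (XT.nd (nat_lit 78) (nat_lit 912) (nat_lit 0) (XT.lf (nat_lit 0) (nat_lit 5543513637) (nat_lit 988) (nat_lit 4194807168) (nat_lit 76) (nat_lit 3906487978) (nat_lit 342) (nat_lit 5) (nat_lit 355) (nat_lit 5) (nat_lit 343) (nat_lit 5) (nat_lit 454) (nat_lit 424) (nat_lit 262)) (XT.lf (nat_lit 0) (nat_lit 2813999380) (nat_lit 912) (nat_lit 4294968979) (nat_lit 988) (nat_lit 6681551579) (nat_lit 330) (nat_lit 5) (nat_lit 342) (nat_lit 5) (nat_lit 343) (nat_lit 5) (nat_lit 455) (nat_lit 424) (nat_lit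 261))))) (XT.nd (nat_lit 156) (nat_lit 912) (nat_lit 0) (XT.nd (nat_lit 78) (nat_lit 836) (nat_lit 0) (XT.lf (nat_lit 0) (nat_lit 8732137067) (nat_lit 988) (nat_lit 3936578004) (nat_lit 76) (nat_lit 1269907777) (nat_lit 330) (nat_lit 5) (nat_lit 343) (nat_lit 5) (nat_lit 331) (nat_lit 5) (nat_lit 456) (nat_lit 424) (nat_lit 260)) (XT.lf (nat_lit 0) (nat_lit 3249027429) (nat_lit 836) (nat_lit 7178384188) (nat_lit 912) (nat_lit 3661488870) (nat_lit 319) (nat_lit 5) (nat_lit 330) (nat_lit 5) (nat_lit 331) (nat_lit 5) (nat_lit 457) (nat_lit 424) (nat_lit 259))) (XT.nd (nat_lit 78) (nat_lit 912) (nat_lit 0) (XT.lf (nat_lit 0) (nat_lit 10622463485) (nat_lit 836) (nat_lit 1550782834) (nat_lit 912) (nat_lit 2068609678) (nat_lit 319) (nat_lit 5) (nat_lit 330) (nat_lit 5) (nat_lit 331) (nat_lit 5) (nat_lit 458) (nat_lit 424) (nat_lit 258)) (XT.nd (nat_lit 78) (nat_lit 76) (nat_lit 0) (XT.lf (nat_lit 0) (nat_lit 3758326983)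 (nat_lit 836) (nat_lit 10237705320) (nat_lit 912) (nat_lit 401002928) (nat_lit 308) (nat_lit 5) (nat_lit 319) (nat_lit 5) (nat_lit 320) (nat_lit 5) (nat_lit 459) (nat_lit 424) (nat_lit 257)) (XT.lf (nat_lit 0) (nat_lit 1308118833) (nat_lit 912) (nat_lit 3250372844) (nat_lit 76) (nat_lit 9996158427) (nat_lit 307) (nat_lit 5) (nat_lit 319) (nat_lit 5) (nat_lit 308) (nat_lit 5) (nat_lit 460) (nat_lit 424) (nat_lit 256))))))) (XT.nd (nat_lit 780) (nat_lit 3800) (nat_lit 0) (XT.nd (nat_lit 390) (nat_lit 1520) (nat_lit 0) (XT.nd (nat_lit 156) (nat_lit 1520) (nat_lit 0) (XT.nd (nat_lit 78) (nat_lit 0) (nat_lit 0) (XT.lf (nat_lit 0) (nat_lit 3073074873) (nat_lit 836) (nat_lit 10392489383) (nat_lit 76) (nat_lit 1249264580) (nat_lit 297) (nat_lit 5) (nat_lit 308) (nat_lit 5) (nat_lit 298) (nat_lit 5) (nat_lit 461) (nat_lit 424) (nat_lit 255)) (XT.lf (nat_lit 0) (nat_lit 4916278808) (nat_lit 836) (nat_lit 2826820881)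 (nat_lit 76) (nat_lit 7134257380) (nat_lit 297) (nat_lit 5) (nat_lit 308) (nat_lit 5) (nat_lit 298) (nat_lit 5) (nat_lit 462) (nat_lit 424) (nat_lit 254))) (XT.nd (nat_lit 78) (nat_lit 760) (nat_lit 0) (XT.lf (nat_lit 0) (nat_lit 4945931204) (nat_lit 760) (nat_lit 1873512124) (nat_lit 836) (nat_lit 8223235413) (nat_lit 287) (nat_lit 5) (nat_lit 297) (nat_lit 5) (nat_lit 298) (nat_lit 5) (nat_lit 463) (nat_lit 424) (nat_lit 253)) (XT.nd (nat_lit 78) (nat_lit 760) (nat_lit 0) (XT.lf (nat_lit 0) (nat_lit 8797575024) (nat_lit 836) (nat_lit 2334522287) (nat_lit 76) (nat_lit 4078476169) (nat_lit 287) (nat_lit 5) (nat_lit 298) (nat_lit 5) (nat_lit 288) (nat_lit 5) (nat_lit 464) (nat_lit 424) (nat_lit 252)) (XT.lf (nat_lit 0) (nat_lit 5635411818) (nat_lit 760) (nat_lit 5220129659) (nat_lit 836) (nat_lit 4525483813) (nat_lit 277) (nat_lit 5) (nat_lit 287) (nat_lit 5) (nat_lit 288) (nat_lit 5) (nat_lit 465) (nat_lit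 424) (nat_lit 251))))) (XT.nd (nat_lit 156) (nat_lit 760) (nat_lit 0) (XT.nd (nat_lit 78) (nat_lit 760) (nat_lit 0) (XT.lf (nat_lit 0) (nat_lit 12967082751) (nat_lit 836) (nat_lit 1772699093) (nat_lit 76) (nat_lit 814860510) (nat_lit 277) (nat_lit 5) (nat_lit 288) (nat_lit 5) (nat_lit 278) (nat_lit 5) (nat_lit 466) (nat_lit 424) (nat_lit 250)) (XT.lf (nat_lit 0) (nat_lit 6400068048) (nat_lit 760) (nat_lit 8788465892) (nat_lit 836) (nat_lit 541848677) (nat_lit 267) (nat_lit 5) (nat_lit 277) (nat_lit 5) (nat_lit 278) (nat_lit 5) (nat_lit 467) (nat_lit 424) (nat_lit 249))) (XT.nd (nat_lit 78) (nat_lit 684) (nat_lit 0) (XT.lf (nat_lit 0) (nat_lit 1528094377) (nat_lit 836) (nat_lit 1168218321) (nat_lit 76) (nat_lit 13213057100) (nat_lit 266) (nat_lit 5) (nat_lit 277) (nat_lit 5) (nat_lit 267) (nat_lit 5) (nat_lit 468) (nat_lit 424) (nat_lit 248)) (XT.nd (nat_lit 78) (nat_lit 0) (nat_lit 0) (XT.lf (nat_lit 0)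 (nat_lit 3694130388) (nat_lit 760) (nat_lit 8874636313) (nat_lit 76) (nat_lit 3521863585) (nat_lit 257) (nat_lit 5) (nat_lit 267) (nat_lit 5) (nat_lit 258) (nat_lit 5) (nat_lit 469) (nat_lit 424) (nat_lit 247)) (XT.lf (nat_lit 0) (nat_lit 5921102796) (nat_lit 760) (nat_lit 518498480) (nat_lit 76) (nat_lit 9835566495) (nat_lit 257) (nat_lit 5) (nat_lit 267) (nat_lit 5) (nat_lit 258) (nat_lit 5) (nat_lit 470) (nat_lit 424) (nat_lit 246)))))) (XT.nd (nat_lit 390) (nat_lit 1748) (nat_lit 0) (XT.nd (nat_lit 156) (nat_lit 760) (nat_lit 0) (XT.nd (nat_lit 78) (nat_lit 608) (nat_lit 0) (XT.lf (nat_lit 0) (nat_lit 8102243097) (nat_lit 684) (nat_lit 135004168) (nat_lit 760) (nat_lit 8225260109) (nat_lit 248) (nat_lit 5) (nat_lit 257) (nat_lit 5) (nat_lit 258) (nat_lit 5) (nat_lit 471) (nat_lit 424) (nat_lit 245)) (XT.lf (nat_lit 0) (nat_lit 201771686) (nat_lit 608) (nat_lit 10435752812) (nat_lit 684) (nat_lit 6015317016)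 (nat_lit 240) (nat_lit 5) (nat_lit 248) (nat_lit 5) (nat_lit 249) (nat_lit 5) (nat_lit 472) (nat_lit 424) (nat_lit 244))) (XT.nd (nat_lit 78) (nat_lit 760) (nat_lit 0) (XT.lf (nat_lit 0) (nat_lit 9038646932) (nat_lit 608) (nat_lit 4096369146) (nat_lit 684) (nat_lit 3710985947) (nat_lit 240) (nat_lit 5) (nat_lit 248) (nat_lit 5) (nat_lit 249) (nat_lit 5) (nat_lit 473) (nat_lit 424) (nat_lit 243)) (XT.nd (nat_lit 78) (nat_lit 76) (nat_lit 0) (XT.lf (nat_lit 0) (nat_lit 998140550) (nat_lit 684) (nat_lit 14698548652) (nat_lit 760) (nat_lit 1346055699) (nat_lit 231) (nat_lit 5) (nat_lit 240) (nat_lit 5) (nat_lit 241) (nat_lit 5) (nat_lit 474) (nat_lit 424) (nat_lit 242)) (XT.lf (nat_lit 0) (nat_lit 1124460942) (nat_lit 760) (nat_lit 7200040041) (nat_lit 76) (nat_lit 8917341430) (nat_lit 230) (nat_lit 5) (nat_lit 240) (nat_lit 5) (nat_lit 231) (nat_lit 5) (nat_lit 475) (nat_lit 424) (nat_lit 241))))) (XT.nd (nat_lit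 234) (nat_lit 532) (nat_lit 0) (XT.nd (nat_lit 78) (nat_lit 608) (nat_lit 0) (XT.lf (nat_lit 0) (nat_lit 1827802098) (nat_lit 608) (nat_lit 1802999368) (nat_lit 684) (nat_lit 13813857287) (nat_lit 222) (nat_lit 5) (nat_lit 230) (nat_lit 5) (nat_lit 231) (nat_lit 5) (nat_lit 476) (nat_lit 424) (nat_lit 240)) (XT.nd (nat_lit 78) (nat_lit 608) (nat_lit 0) (XT.lf (nat_lit 0) (nat_lit 6260022327) (nat_lit 684) (nat_lit 6557324599) (nat_lit 76) (nat_lit 4832732923) (nat_lit 222) (nat_lit 5) (nat_lit 231) (nat_lit 5) (nat_lit 223) (nat_lit 5) (nat_lit 477) (nat_lit 424) (nat_lit 239)) (XT.lf (nat_lit 0) (nat_lit 2698261020) (nat_lit 608) (nat_lit 6265805299) (nat_lit 684) (nat_lit 8895101705) (nat_lit 214) (nat_lit 5) (nat_lit 222) (nat_lit 5) (nat_lit 223) (nat_lit 5) (nat_lit 478) (nat_lit 424) (nat_lit 238)))) (XT.nd (nat_lit 78) (nat_lit 532) (nat_lit 0) (XT.lf (nat_lit 0) (nat_lit 11762048210) (nat_lit 684)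 (nat_lit 5855376014) (nat_lit 76) (nat_lit 454219963) (nat_lit 214) (nat_lit 5) (nat_lit 223) (nat_lit 5) (nat_lit 215) (nat_lit 5) (nat_lit 479) (nat_lit 424) (nat_lit 237)) (XT.nd (nat_lit 78) (nat_lit 0) (nat_lit 0) (XT.lf (nat_lit 0) (nat_lit 3633934424) (nat_lit 532) (nat_lit 11040141270) (nat_lit 608) (nat_lit 3613135757) (nat_lit 207) (nat_lit 5) (nat_lit 214) (nat_lit 5) (nat_lit 215) (nat_lit 5) (nat_lit 480) (nat_lit 424) (nat_lit 236)) (XT.lf (nat_lit 0) (nat_lit 13383962651) (nat_lit 532) (nat_lit 4292752904) (nat_lit 608) (nat_lit 829730305) (nat_lit 207) (nat_lit 5) (nat_lit 214) (nat_lit 5) (nat_lit 215) (nat_lit 5) (nat_lit 481) (nat_lit 424) (nat_lit 235))))))))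
noncomputable def xc206 : XT := (XT.nd (nat_lit 55224) (nat_lit 0) (nat_lit 19152) (XT.nd (nat_lit 780) (nat_lit 1900) (nat_lit 0) (XT.nd (nat_lit 390) (nat_lit 1140) (nat_lit 0) (XT.nd (nat_lit 156) (nat_lit 1064) (nat_lit 0) (XT.nd (nat_lit 78) (nat_lit 0) (nat_lit 0) (XT.lf (nat_lit 0) (nat_lit 2023361544) (nat_lit 684) (nat_lit 14108085460) (nat_lit 76) (nat_lit 2597552717) (nat_lit 198) (nat_lit 5) (nat_lit 207) (nat_lit 5) (nat_lit 199) (nat_lit 5) (nat_lit 482) (nat_lit 424) (nat_lit 234)) (XT.lf (nat_lit 0) (nat_lit 4978683252) (nat_lit 684) (nat_lit 4369293205) (nat_lit 76) (nat_lit 9606795996) (nat_lit 198) (nat_lit 5) (nat_lit 207) (nat_lit 5) (nat_lit 199) (nat_lit 5) (nat_lit 483) (nat_lit 424) (nat_lit 233))) (XT.nd (nat_lit 78) (nat_lit 532) (nat_lit 0) (XT.lf (nat_lit 0) (nat_lit 5629835762) (nat_lit 532) (nat_lit 2393197568) (nat_lit 608) (nat_lit 11161431860) (nat_lit 191) (nat_lit 5) (nat_lit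 198) (nat_lit 5) (nat_lit 199) (nat_lit 5) (nat_lit 484) (nat_lit 424) (nat_lit 232)) (XT.nd (nat_lit 78) (nat_lit 532) (nat_lit 0) (XT.lf (nat_lit 0) (nat_lit 11181739875) (nat_lit 608) (nat_lit 3569049420) (nat_lit 76) (nat_lit 4666896025) (nat_lit 191) (nat_lit 5) (nat_lit 199) (nat_lit 5) (nat_lit 192) (nat_lit 5) (nat_lit 485) (nat_lit 424) (nat_lit 231)) (XT.lf (nat_lit 0) (nat_lit 6679819660) (nat_lit 532) (nat_lit 7776583545) (nat_lit 608) (nat_lit 5198113866) (nat_lit 184) (nat_lit 5) (nat_lit 191) (nat_lit 5) (nat_lit 192) (nat_lit 5) (nat_lit 486) (nat_lit 424) (nat_lit 230))))) (XT.nd (nat_lit 156) (nat_lit 532) (nat_lit 0) (XT.nd (nat_lit 78) (nat_lit 608) (nat_lit 0) (XT.lf (nat_lit 0) (nat_lit 17173918773) (nat_lit 532) (nat_lit 640228510) (nat_lit 608) (nat_lit 2081589240) (nat_lit 184) (nat_lit 5) (nat_lit 191) (nat_lit 5) (nat_lit 192) (nat_lit 5) (nat_lit 487) (nat_lit 424) (nat_lit 229))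 (XT.lf (nat_lit 0) (nat_lit 1170864625) (nat_lit 608) (nat_lit 12360677249) (nat_lit 76) (nat_lit 6608338922) (nat_lit 176) (nat_lit 5) (nat_lit 184) (nat_lit 5) (nat_lit 177) (nat_lit 5) (nat_lit 488) (nat_lit 424) (nat_lit 228))) (XT.nd (nat_lit 78) (nat_lit 532) (nat_lit 0) (XT.lf (nat_lit 0) (nat_lit 4476924470) (nat_lit 608) (nat_lit 1887664530) (nat_lit 76) (nat_lit 14023717832) (nat_lit 176) (nat_lit 5) (nat_lit 184) (nat_lit 5) (nat_lit 177) (nat_lit 5) (nat_lit 489) (nat_lit 424) (nat_lit 227)) (XT.nd (nat_lit 78) (nat_lit 0) (nat_lit 0) (XT.lf (nat_lit 0) (nat_lit 7907324283) (nat_lit 608) (nat_lit 11743556393) (nat_lit 76) (nat_lit 989658937) (nat_lit 169) (nat_lit 5) (nat_lit 177) (nat_lit 5) (nat_lit 170) (nat_lit 5) (nat_lit 490) (nat_lit 424) (nat_lit 226)) (XT.lf (nat_lit 0) (nat_lit 11455188561) (nat_lit 608) (nat_lit 1024900890) (nat_lit 76) (nat_lit 8416753021) (nat_lit 169) (nat_lit 5)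 (nat_lit 177) (nat_lit 5) (nat_lit 170) (nat_lit 5) (nat_lit 491) (nat_lit 424) (nat_lit 225)))))) (XT.nd (nat_lit 390) (nat_lit 456) (nat_lit 0) (XT.nd (nat_lit 156) (nat_lit 988) (nat_lit 0) (XT.nd (nat_lit 78) (nat_lit 0) (nat_lit 0) (XT.lf (nat_lit 0) (nat_lit 10031838846) (nat_lit 456) (nat_lit 5101378905) (nat_lit 532) (nat_lit 6023871984) (nat_lit 163) (nat_lit 5) (nat_lit 169) (nat_lit 5) (nat_lit 170) (nat_lit 5) (nat_lit 492) (nat_lit 424) (nat_lit 224)) (XT.lf (nat_lit 0) (nat_lit 18901601937) (nat_lit 532) (nat_lit 122501424) (nat_lit 76) (nat_lit 2398105143) (nat_lit 163) (nat_lit 5) (nat_lit 170) (nat_lit 5) (nat_lit 164) (nat_lit 5) (nat_lit 493) (nat_lit 424) (nat_lit 223))) (XT.nd (nat_lit 78) (nat_lit 456) (nat_lit 0) (XT.lf (nat_lit 0) (nat_lit 1140363812) (nat_lit 532) (nat_lit 10492393050) (nat_lit 76) (nat_lit 10057709518) (nat_lit 156) (nat_lit 5) (nat_lit 163) (nat_lit 5) (nat_lit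 157) (nat_lit 5) (nat_lit 494) (nat_lit 424) (nat_lit 222)) (XT.nd (nat_lit 78) (nat_lit 0) (nat_lit 0) (XT.lf (nat_lit 0) (nat_lit 768238652) (nat_lit 456) (nat_lit 4072676096) (nat_lit 532) (nat_lit 17122841508) (nat_lit 150) (nat_lit 5) (nat_lit 156) (nat_lit 5) (nat_lit 157) (nat_lit 5) (nat_lit 495) (nat_lit 424) (nat_lit 221)) (XT.lf (nat_lit 0) (nat_lit 8704290673) (nat_lit 532) (nat_lit 9876721124) (nat_lit 76) (nat_lit 3659726118) (nat_lit 150) (nat_lit 5) (nat_lit 157) (nat_lit 5) (nat_lit 151) (nat_lit 5) (nat_lit 496) (nat_lit 424) (nat_lit 220))))) (XT.nd (nat_lit 53820) (nat_lit 0) (nat_lit 20368) (XT.nd (nat_lit 53742) (nat_lit 0) (nat_lit 21964) (XT.lf (nat_lit 0) (nat_lit 1655508897) (nat_lit 456) (nat_lit 11021570693) (nat_lit 532) (nat_lit 9845538928) (nat_lit 144) (nat_lit 5) (nat_lit 150) (nat_lit 5) (nat_lit 151) (nat_lit 5) (nat_lit 497) (nat_lit 424) (nat_lit 219)) (XT.lf (nat_lit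 0) (nat_lit 5174178922) (nat_lit 1596) (nat_lit 11231622) (nat_lit 1596) (nat_lit 11231622) (nat_lit 433) (nat_lit 3) (nat_lit 454) (nat_lit 3) (nat_lit 454) (nat_lit 5) (nat_lit 425) (nat_lit 425) (nat_lit 290))) (XT.nd (nat_lit 78) (nat_lit 0) (nat_lit 0) (XT.lf (nat_lit 0) (nat_lit 614503469) (nat_lit 1596) (nat_lit 5600677926) (nat_lit 1672) (nat_lit 4268467204) (nat_lit 412) (nat_lit 5) (nat_lit 433) (nat_lit 3) (nat_lit 434) (nat_lit 5) (nat_lit 426) (nat_lit 425) (nat_lit 289)) (XT.nd (nat_lit 78) (nat_lit 0) (nat_lit 76) (XT.lf (nat_lit 0) (nat_lit 1270162097) (nat_lit 1596) (nat_lit 697975376) (nat_lit 1672) (nat_lit 8608014104) (nat_lit 412) (nat_lit 5) (nat_lit 433) (nat_lit 3) (nat_lit 434) (nat_lit 5) (nat_lit 427) (nat_lit 425) (nat_lit 288)) (XT.lf (nat_lit 0) (nat_lit 1966583398) (nat_lit 1596) (nat_lit 6334515406) (nat_lit 1672) (nat_lit 2368862817) (nat_lit 413) (nat_lit 5) (nat_lit 434)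 (nat_lit 5) (nat_lit 435) (nat_lit 5) (nat_lit 428) (nat_lit 425) (nat_lit 287))))))) (XT.nd (nat_lit 780) (nat_lit 1292) (nat_lit 0) (XT.nd (nat_lit 390) (nat_lit 0) (nat_lit 152) (XT.nd (nat_lit 156) (nat_lit 0) (nat_lit 76) (XT.nd (nat_lit 78) (nat_lit 0) (nat_lit 76) (XT.lf (nat_lit 0) (nat_lit 2678806062) (nat_lit 1596) (nat_lit 1308449927) (nat_lit 1672) (nat_lit 6778364222) (nat_lit 413) (nat_lit 5) (nat_lit 434) (nat_lit 5) (nat_lit 435) (nat_lit 5) (nat_lit 429) (nat_lit 425) (nat_lit 286)) (XT.lf (nat_lit 0) (nat_lit 3417662387) (nat_lit 1596) (nat_lit 7005795253) (nat_lit 1672) (nat_lit 439496158) (nat_lit 414) (nat_lit 5) (nat_lit 435) (nat_lit 5) (nat_lit 436) (nat_lit 5) (nat_lit 430) (nat_lit 425) (nat_lit 285))) (XT.nd (nat_lit 78) (nat_lit 0) (nat_lit 0) (XT.lf (nat_lit 0) (nat_lit 4191268424) (nat_lit 1596) (nat_lit 1853664163) (nat_lit 1672) (nat_lit 4916911439) (nat_lit 414) (nat_lit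 5) (nat_lit 435) (nat_lit 5) (nat_lit 436) (nat_lit 5) (nat_lit 431) (nat_lit 425) (nat_lit 284)) (XT.nd (nat_lit 78) (nat_lit 0) (nat_lit 76) (XT.lf (nat_lit 76) (nat_lit 3437815281) (nat_lit 0) (nat_lit 1549879702) (nat_lit 1672) (nat_lit 6074879346) (nat_lit 415) (nat_lit 5) (nat_lit 414) (nat_lit 5) (nat_lit 436) (nat_lit 5) (nat_lit 432) (nat_lit 425) (nat_lit 283)) (XT.lf (nat_lit 0) (nat_lit 5817581011) (nat_lit 1596) (nat_lit 2333674173) (nat_lit 1672) (nat_lit 3013722489) (nat_lit 415) (nat_lit 5) (nat_lit 436) (nat_lit 5) (nat_lit 437) (nat_lit 5) (nat_lit 433) (nat_lit 425) (nat_lit 282))))) (XT.nd (nat_lit 156) (nat_lit 0) (nat_lit 76) (XT.nd (nat_lit 78) (nat_lit 0) (nat_lit 76) (XT.lf (nat_lit 76) (nat_lit 3084533440) (nat_lit 0) (nat_lit 3595414203) (nat_lit 1672) (nat_lit 4589172661) (nat_lit 416) (nat_lit 5) (nat_lit 415) (nat_lit 5) (nat_lit 437) (nat_lit 5) (nat_lit 434) (nat_lit 425)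 (nat_lit 281)) (XT.lf (nat_lit 0) (nat_lit 7568004691) (nat_lit 1596) (nat_lit 2748382535) (nat_lit 1672) (nat_lit 1058798405) (nat_lit 416) (nat_lit 5) (nat_lit 437) (nat_lit 5) (nat_lit 438) (nat_lit 5) (nat_lit 435) (nat_lit 425) (nat_lit 280))) (XT.nd (nat_lit 78) (nat_lit 0) (nat_lit 0) (XT.lf (nat_lit 76) (nat_lit 2800485933) (nat_lit 0) (nat_lit 5701459534) (nat_lit 1672) (nat_lit 2980872879) (nat_lit 417) (nat_lit 5) (nat_lit 416) (nat_lit 5) (nat_lit 438) (nat_lit 5) (nat_lit 436) (nat_lit 425) (nat_lit 279)) (XT.nd (nat_lit 78) (nat_lit 0) (nat_lit 76) (XT.lf (nat_lit 76) (nat_lit 8488667754) (nat_lit 0) (nat_lit 970683750) (nat_lit 1672) (nat_lit 2133164849) (nat_lit 417) (nat_lit 5) (nat_lit 416) (nat_lit 5) (nat_lit 438) (nat_lit 5) (nat_lit 437) (nat_lit 425) (nat_lit 278)) (XT.lf (nat_lit 76) (nat_lit 2586043682) (nat_lit 0) (nat_lit 7878320893) (nat_lit 1672) (nat_lit 1239482766) (nat_lit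 418) (nat_lit 5) (nat_lit 417) (nat_lit 5) (nat_lit 439) (nat_lit 5) (nat_lit 438) (nat_lit 425) (nat_lit 277)))))) (XT.nd (nat_lit 390) (nat_lit 0) (nat_lit 76) (XT.nd (nat_lit 156) (nat_lit 0) (nat_lit 0) (XT.nd (nat_lit 78) (nat_lit 1596) (nat_lit 0) (XT.lf (nat_lit 76) (nat_lit 8416302719) (nat_lit 0) (nat_lit 3087234572) (nat_lit 1672) (nat_lit 313594514) (nat_lit 418) (nat_lit 5) (nat_lit 417) (nat_lit 5) (nat_lit 439) (nat_lit 5) (nat_lit 439) (nat_lit 425) (nat_lit 276)) (XT.lf (nat_lit 0) (nat_lit 637294870) (nat_lit 1672) (nat_lit 9494872186) (nat_lit 1748) (nat_lit 1800145585) (nat_lit 396) (nat_lit 5) (nat_lit 418) (nat_lit 5) (nat_lit 419) (nat_lit 5) (nat_lit 440) (nat_lit 425) (nat_lit 275))) (XT.nd (nat_lit 78) (nat_lit 0) (nat_lit 0) (XT.lf (nat_lit 0) (nat_lit 1633656032) (nat_lit 1672) (nat_lit 3642663502) (nat_lit 1748) (nat_lit 6772830619) (nat_lit 396) (nat_lit 5) (nat_lit 418) (nat_lit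 5) (nat_lit 419) (nat_lit 5) (nat_lit 441) (nat_lit 425) (nat_lit 274)) (XT.nd (nat_lit 78) (nat_lit 0) (nat_lit 76) (XT.lf (nat_lit 76) (nat_lit 2348345012) (nat_lit 0) (nat_lit 304328131) (nat_lit 1748) (nat_lit 9515604129) (nat_lit 397) (nat_lit 5) (nat_lit 396) (nat_lit 5) (nat_lit 419) (nat_lit 5) (nat_lit 442) (nat_lit 425) (nat_lit 273)) (XT.lf (nat_lit 0) (nat_lit 3735318435) (nat_lit 1672) (nat_lit 3821119619) (nat_lit 1748) (nat_lit 4732491204) (nat_lit 397) (nat_lit 5) (nat_lit 419) (nat_lit 5) (nat_lit 420) (nat_lit 5) (nat_lit 443) (nat_lit 425) (nat_lit 272))))) (XT.nd (nat_lit 234) (nat_lit 0) (nat_lit 152) (XT.nd (nat_lit 78) (nat_lit 0) (nat_lit 76) (XT.lf (nat_lit 76) (nat_lit 2316963352) (nat_lit 0) (nat_lit 2527643894) (nat_lit 1748) (nat_lit 7567294365) (nat_lit 398) (nat_lit 5) (nat_lit 397) (nat_lit 5) (nat_lit 420) (nat_lit 5) (nat_lit 444) (nat_lit 425) (nat_lit 271)) (XT.nd (nat_lit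 78) (nat_lit 0) (nat_lit 0) (XT.lf (nat_lit 0) (nat_lit 6006914160) (nat_lit 1672) (nat_lit 3933559875) (nat_lit 1748) (nat_lit 2596249731) (nat_lit 398) (nat_lit 5) (nat_lit 420) (nat_lit 5) (nat_lit 421) (nat_lit 5) (nat_lit 445) (nat_lit 425) (nat_lit 270)) (XT.lf (nat_lit 76) (nat_lit 2356107866) (nat_lit 0) (nat_lit 4856757551) (nat_lit 1748) (nat_lit 5450775846) (nat_lit 399) (nat_lit 5) (nat_lit 398) (nat_lit 5) (nat_lit 421) (nat_lit 5) (nat_lit 446) (nat_lit 425) (nat_lit 269)))) (XT.nd (nat_lit 78) (nat_lit 0) (nat_lit 0) (XT.lf (nat_lit 0) (nat_lit 8460187187) (nat_lit 1672) (nat_lit 3979279939) (nat_lit 1748) (nat_lit 353291682) (nat_lit 399) (nat_lit 5) (nat_lit 421) (nat_lit 5) (nat_lit 422) (nat_lit 5) (nat_lit 447) (nat_lit 425) (nat_lit 268)) (XT.nd (nat_lit 78) (nat_lit 0) (nat_lit 0) (XT.lf (nat_lit 76) (nat_lit 2466615280) (nat_lit 0) (nat_lit 7302790261) (nat_lit 1748) (nat_lit 3154320756)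 (nat_lit 400) (nat_lit 5) (nat_lit 399) (nat_lit 5) (nat_lit 422) (nat_lit 5) (nat_lit 448) (nat_lit 425) (nat_lit 267)) (XT.lf (nat_lit 76) (nat_lit 9086319069) (nat_lit 0) (nat_lit 2034124960) (nat_lit 1748) (nat_lit 1936562858) (nat_lit 400) (nat_lit 5) (nat_lit 399) (nat_lit 5) (nat_lit 422) (nat_lit 5) (nat_lit 449) (nat_lit 425) (nat_lit 266))))))))
noncomputable def xc207 : XT := (XT.nd (nat_lit 1638) (nat_lit 6688) (nat_lit 0) (XT.nd (nat_lit 780) (nat_lit 4712) (nat_lit 0) (XT.nd (nat_lit 390) (nat_lit 1748) (nat_lit 0) (XT.nd (nat_lit 156) (nat_lit 2660) (nat_lit 0) (XT.nd (nat_lit 78) (nat_lit 76) (nat_lit 0) (XT.lf (nat_lit 0) (nat_lit 2649418234) (nat_lit 1672) (nat_lit 9877134325) (nat_lit 1748) (nat_lit 665845887) (nat_lit 378) (nat_lit 5) (nat_lit 400) (nat_lit 5) (nat_lit 401) (nat_lit 5) (nat_lit 450) (nat_lit 425) (nat_lit 265)) (XT.lf (nat_lit 0) (nat_lit 651551425) (nat_lit 1748) (nat_lit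 3901151961) (nat_lit 76) (nat_lit 8777128052) (nat_lit 377) (nat_lit 5) (nat_lit 400) (nat_lit 5) (nat_lit 378) (nat_lit 5) (nat_lit 451) (nat_lit 425) (nat_lit 264))) (XT.nd (nat_lit 78) (nat_lit 912) (nat_lit 0) (XT.lf (nat_lit 0) (nat_lit 2000521834) (nat_lit 1824) (nat_lit 10577536047) (nat_lit 76) (nat_lit 891590342) (nat_lit 354) (nat_lit 5) (nat_lit 378) (nat_lit 5) (nat_lit 355) (nat_lit 5) (nat_lit 452) (nat_lit 425) (nat_lit 263)) (XT.nd (nat_lit 78) (nat_lit 912) (nat_lit 0) (XT.lf (nat_lit 0) (nat_lit 3422582631) (nat_lit 1824) (nat_lit 3777119777) (nat_lit 76) (nat_lit 6411642574) (nat_lit 354) (nat_lit 5) (nat_lit 378) (nat_lit 5) (nat_lit 355) (nat_lit 5) (nat_lit 453) (nat_lit 425) (nat_lit 262)) (XT.lf (nat_lit 0) (nat_lit 3192169693) (nat_lit 912) (nat_lit 1691452864) (nat_lit 988) (nat_lit 8872048103) (nat_lit 342) (nat_lit 5) (nat_lit 354) (nat_lit 5) (nat_lit 355) (nat_lit 5) (nat_lit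 454) (nat_lit 425) (nat_lit 261))))) (XT.nd (nat_lit 156) (nat_lit 836) (nat_lit 0) (XT.nd (nat_lit 78) (nat_lit 912) (nat_lit 0) (XT.lf (nat_lit 0) (nat_lit 6414855146) (nat_lit 988) (nat_lit 3585150923) (nat_lit 76) (nat_lit 3902062977) (nat_lit 342) (nat_lit 5) (nat_lit 355) (nat_lit 5) (nat_lit 343) (nat_lit 5) (nat_lit 455) (nat_lit 425) (nat_lit 260)) (XT.lf (nat_lit 0) (nat_lit 3559268911) (nat_lit 912) (nat_lit 4441912228) (nat_lit 988) (nat_lit 6049730404) (nat_lit 330) (nat_lit 5) (nat_lit 342) (nat_lit 5) (nat_lit 343) (nat_lit 5) (nat_lit 456) (nat_lit 425) (nat_lit 259))) (XT.nd (nat_lit 78) (nat_lit 836) (nat_lit 0) (XT.lf (nat_lit 0) (nat_lit 9641718118) (nat_lit 988) (nat_lit 3324324588) (nat_lit 76) (nat_lit 1236243906) (nat_lit 330) (nat_lit 5) (nat_lit 343) (nat_lit 5) (nat_lit 331) (nat_lit 5) (nat_lit 457) (nat_lit 425) (nat_lit 258)) (XT.nd (nat_lit 78) (nat_lit 0) (nat_lit 0) (XT.lf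 (nat_lit 0) (nat_lit 4000447000) (nat_lit 836) (nat_lit 7360497421) (nat_lit 912) (nat_lit 2994832495) (nat_lit 319) (nat_lit 5) (nat_lit 330) (nat_lit 5) (nat_lit 331) (nat_lit 5) (nat_lit 458) (nat_lit 425) (nat_lit 257)) (XT.lf (nat_lit 0) (nat_lit 11507892189) (nat_lit 836) (nat_lit 1619588245) (nat_lit 912) (nat_lit 1384603290) (nat_lit 319) (nat_lit 5) (nat_lit 330) (nat_lit 5) (nat_lit 331) (nat_lit 5) (nat_lit 459) (nat_lit 425) (nat_lit 256)))))) (XT.nd (nat_lit 390) (nat_lit 2280) (nat_lit 0) (XT.nd (nat_lit 156) (nat_lit 1520) (nat_lit 0) (XT.nd (nat_lit 78) (nat_lit 0) (nat_lit 0) (XT.lf (nat_lit 0) (nat_lit 302393700) (nat_lit 912) (nat_lit 10155756034) (nat_lit 76) (nat_lit 4212379560) (nat_lit 307) (nat_lit 5) (nat_lit 319) (nat_lit 5) (nat_lit 308) (nat_lit 5) (nat_lit 460) (nat_lit 425) (nat_lit 255)) (XT.lf (nat_lit 0) (nat_lit 2026489325) (nat_lit 912) (nat_lit 2635899192) (nat_lit 76)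 (nat_lit 10169139143) (nat_lit 307) (nat_lit 5) (nat_lit 319) (nat_lit 5) (nat_lit 308) (nat_lit 5) (nat_lit 461) (nat_lit 425) (nat_lit 254))) (XT.nd (nat_lit 78) (nat_lit 760) (nat_lit 0) (XT.lf (nat_lit 0) (nat_lit 3817502408) (nat_lit 836) (nat_lit 9911251980) (nat_lit 76) (nat_lit 1266347701) (nat_lit 297) (nat_lit 5) (nat_lit 308) (nat_lit 5) (nat_lit 298) (nat_lit 5) (nat_lit 462) (nat_lit 425) (nat_lit 253)) (XT.nd (nat_lit 78) (nat_lit 760) (nat_lit 0) (XT.lf (nat_lit 0) (nat_lit 5684178930) (nat_lit 836) (nat_lit 2207781621) (nat_lit 76) (nat_lit 7269195301) (nat_lit 297) (nat_lit 5) (nat_lit 308) (nat_lit 5) (nat_lit 298) (nat_lit 5) (nat_lit 463) (nat_lit 425) (nat_lit 252)) (XT.lf (nat_lit 0) (nat_lit 5715980928) (nat_lit 760) (nat_lit 1900654328) (nat_lit 836) (nat_lit 7713331129) (nat_lit 287) (nat_lit 5) (nat_lit 297) (nat_lit 5) (nat_lit 298) (nat_lit 5) (nat_lit 464) (nat_lit 425) (nat_lit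 251))))) (XT.nd (nat_lit 234) (nat_lit 1520) (nat_lit 0) (XT.nd (nat_lit 78) (nat_lit 760) (nat_lit 0) (XT.lf (nat_lit 0) (nat_lit 9621438405) (nat_lit 836) (nat_lit 1710006876) (nat_lit 76) (nat_lit 4170038422) (nat_lit 287) (nat_lit 5) (nat_lit 298) (nat_lit 5) (nat_lit 288) (nat_lit 5) (nat_lit 465) (nat_lit 425) (nat_lit 250)) (XT.nd (nat_lit 78) (nat_lit 0) (nat_lit 0) (XT.lf (nat_lit 0) (nat_lit 6414910083) (nat_lit 760) (nat_lit 5297279192) (nat_lit 836) (nat_lit 3963329498) (nat_lit 277) (nat_lit 5) (nat_lit 287) (nat_lit 5) (nat_lit 288) (nat_lit 5) (nat_lit 466) (nat_lit 425) (nat_lit 249)) (XT.lf (nat_lit 0) (nat_lit 13853594910) (nat_lit 836) (nat_lit 1141741205) (nat_lit 76) (nat_lit 857525986) (nat_lit 277) (nat_lit 5) (nat_lit 288) (nat_lit 5) (nat_lit 278) (nat_lit 5) (nat_lit 467) (nat_lit 425) (nat_lit 248)))) (XT.nd (nat_lit 78) (nat_lit 684) (nat_lit 0) (XT.lf (nat_lit 0) (nat_lit 78153744)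 (nat_lit 836) (nat_lit 8842700797) (nat_lit 76) (nat_lit 7111418792) (nat_lit 266) (nat_lit 5) (nat_lit 277) (nat_lit 5) (nat_lit 267) (nat_lit 5) (nat_lit 468) (nat_lit 425) (nat_lit 247)) (XT.nd (nat_lit 78) (nat_lit 684) (nat_lit 0) (XT.lf (nat_lit 0) (nat_lit 2170019817) (nat_lit 836) (nat_lit 534100666) (nat_lit 76) (nat_lit 13510898766) (nat_lit 266) (nat_lit 5) (nat_lit 277) (nat_lit 5) (nat_lit 267) (nat_lit 5) (nat_lit 469) (nat_lit 425) (nat_lit 246)) (XT.lf (nat_lit 0) (nat_lit 4371951398) (nat_lit 760) (nat_lit 8386917285) (nat_lit 76) (nat_lit 3641190859) (nat_lit 257) (nat_lit 5) (nat_lit 267) (nat_lit 5) (nat_lit 258) (nat_lit 5) (nat_lit 470) (nat_lit 425) (nat_lit 245))))))) (XT.nd (nat_lit 780) (nat_lit 3420) (nat_lit 0) (XT.nd (nat_lit 390) (nat_lit 1292) (nat_lit 0) (XT.nd (nat_lit 156) (nat_lit 1292) (nat_lit 0) (XT.nd (nat_lit 78) (nat_lit 0) (nat_lit 0) (XT.lf (nat_lit 0) (nat_lit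 124938527) (nat_lit 684) (nat_lit 6507493981) (nat_lit 760) (nat_lit 9956081856) (nat_lit 248) (nat_lit 5) (nat_lit 257) (nat_lit 5) (nat_lit 258) (nat_lit 5) (nat_lit 471) (nat_lit 425) (nat_lit 244)) (XT.lf (nat_lit 0) (nat_lit 8912165764) (nat_lit 684) (nat_lit 74519636) (nat_lit 760) (nat_lit 7793085503) (nat_lit 248) (nat_lit 5) (nat_lit 257) (nat_lit 5) (nat_lit 258) (nat_lit 5) (nat_lit 472) (nat_lit 425) (nat_lit 243))) (XT.nd (nat_lit 78) (nat_lit 684) (nat_lit 0) (XT.lf (nat_lit 0) (nat_lit 860922793) (nat_lit 608) (nat_lit 10567236451) (nat_lit 684) (nat_lit 5545894401) (nat_lit 240) (nat_lit 5) (nat_lit 248) (nat_lit 5) (nat_lit 249) (nat_lit 5) (nat_lit 473) (nat_lit 425) (nat_lit 242)) (XT.nd (nat_lit 78) (nat_lit 684) (nat_lit 0) (XT.lf (nat_lit 0) (nat_lit 9861690138) (nat_lit 608) (nat_lit 4102579453) (nat_lit 684) (nat_lit 3207040024) (nat_lit 240) (nat_lit 5) (nat_lit 248) (nat_lit 5)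 (nat_lit 249) (nat_lit 5) (nat_lit 474) (nat_lit 425) (nat_lit 241)) (XT.lf (nat_lit 0) (nat_lit 1667195848) (nat_lit 684) (nat_lit 14903567748) (nat_lit 760) (nat_lit 801357521) (nat_lit 231) (nat_lit 5) (nat_lit 240) (nat_lit 5) (nat_lit 241) (nat_lit 5) (nat_lit 475) (nat_lit 425) (nat_lit 240))))) (XT.nd (nat_lit 156) (nat_lit 608) (nat_lit 0) (XT.nd (nat_lit 78) (nat_lit 608) (nat_lit 0) (XT.lf (nat_lit 0) (nat_lit 1700011340) (nat_lit 760) (nat_lit 6700060609) (nat_lit 76) (nat_lit 9175280931) (nat_lit 230) (nat_lit 5) (nat_lit 240) (nat_lit 5) (nat_lit 231) (nat_lit 5) (nat_lit 476) (nat_lit 425) (nat_lit 239)) (XT.lf (nat_lit 0) (nat_lit 2504101661) (nat_lit 608) (nat_lit 1745686316) (nat_lit 684) (nat_lit 13532576583) (nat_lit 222) (nat_lit 5) (nat_lit 230) (nat_lit 5) (nat_lit 231) (nat_lit 5) (nat_lit 477) (nat_lit 425) (nat_lit 238))) (XT.nd (nat_lit 78) (nat_lit 608) (nat_lit 0) (XT.lf (nat_lit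 0) (nat_lit 6921474461) (nat_lit 684) (nat_lit 6050897906) (nat_lit 76) (nat_lit 5019729184) (nat_lit 222) (nat_lit 5) (nat_lit 231) (nat_lit 5) (nat_lit 223) (nat_lit 5) (nat_lit 478) (nat_lit 425) (nat_lit 237)) (XT.nd (nat_lit 78) (nat_lit 0) (nat_lit 0) (XT.lf (nat_lit 0) (nat_lit 3385604865) (nat_lit 608) (nat_lit 6287592043) (nat_lit 684) (nat_lit 8532307627) (nat_lit 214) (nat_lit 5) (nat_lit 222) (nat_lit 5) (nat_lit 223) (nat_lit 5) (nat_lit 479) (nat_lit 425) (nat_lit 236)) (XT.lf (nat_lit 0) (nat_lit 12517408237) (nat_lit 684) (nat_lit 5341548934) (nat_lit 76) (nat_lit 563472554) (nat_lit 214) (nat_lit 5) (nat_lit 223) (nat_lit 5) (nat_lit 215) (nat_lit 5) (nat_lit 480) (nat_lit 425) (nat_lit 235)))))) (XT.nd (nat_lit 390) (nat_lit 1672) (nat_lit 0) (XT.nd (nat_lit 156) (nat_lit 1216) (nat_lit 0) (XT.nd (nat_lit 78) (nat_lit 0) (nat_lit 0) (XT.lf (nat_lit 0) (nat_lit 4333396827) (nat_lit 532)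 (nat_lit 11148150527) (nat_lit 608) (nat_lit 3160888363) (nat_lit 207) (nat_lit 5) (nat_lit 214) (nat_lit 5) (nat_lit 215) (nat_lit 5) (nat_lit 481) (nat_lit 425) (nat_lit 234)) (XT.lf (nat_lit 0) (nat_lit 14266135742) (nat_lit 532) (nat_lit 4268026032) (nat_lit 608) (nat_lit 332099314) (nat_lit 207) (nat_lit 5) (nat_lit 214) (nat_lit 5) (nat_lit 215) (nat_lit 5) (nat_lit 482) (nat_lit 425) (nat_lit 233))) (XT.nd (nat_lit 78) (nat_lit 532) (nat_lit 0) (XT.lf (nat_lit 0) (nat_lit 2566120153) (nat_lit 684) (nat_lit 13763361968) (nat_lit 76) (nat_lit 2763825457) (nat_lit 198) (nat_lit 5) (nat_lit 207) (nat_lit 5) (nat_lit 199) (nat_lit 5) (nat_lit 483) (nat_lit 425) (nat_lit 232)) (XT.nd (nat_lit 78) (nat_lit 532) (nat_lit 0) (XT.lf (nat_lit 0) (nat_lit 5570699445) (nat_lit 684) (nat_lit 3842085734) (nat_lit 76) (nat_lit 9911012001) (nat_lit 198) (nat_lit 5) (nat_lit 207) (nat_lit 5) (nat_lit 199) (nat_lit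 5) (nat_lit 484) (nat_lit 425) (nat_lit 231)) (XT.lf (nat_lit 0) (nat_lit 6352982434) (nat_lit 532) (nat_lit 2317262449) (nat_lit 608) (nat_lit 10887957071) (nat_lit 191) (nat_lit 5) (nat_lit 198) (nat_lit 5) (nat_lit 199) (nat_lit 5) (nat_lit 485) (nat_lit 425) (nat_lit 230))))) (XT.nd (nat_lit 234) (nat_lit 1140) (nat_lit 0) (XT.nd (nat_lit 78) (nat_lit 532) (nat_lit 0) (XT.lf (nat_lit 0) (nat_lit 11883369450) (nat_lit 608) (nat_lit 3032882653) (nat_lit 76) (nat_lit 4880013773) (nat_lit 191) (nat_lit 5) (nat_lit 199) (nat_lit 5) (nat_lit 192) (nat_lit 5) (nat_lit 486) (nat_lit 425) (nat_lit 229)) (XT.nd (nat_lit 78) (nat_lit 0) (nat_lit 0) (XT.lf (nat_lit 0) (nat_lit 7416966784) (nat_lit 532) (nat_lit 7801105468) (nat_lit 608) (nat_lit 4819875267) (nat_lit 184) (nat_lit 5) (nat_lit 191) (nat_lit 5) (nat_lit 192) (nat_lit 5) (nat_lit 487) (nat_lit 425) (nat_lit 228)) (XT.lf (nat_lit 0) (nat_lit 18109113551)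 (nat_lit 532) (nat_lit 524592151) (nat_lit 608) (nat_lit 1650475068) (nat_lit 184) (nat_lit 5) (nat_lit 191) (nat_lit 5) (nat_lit 192) (nat_lit 5) (nat_lit 488) (nat_lit 425) (nat_lit 227)))) (XT.nd (nat_lit 78) (nat_lit 532) (nat_lit 0) (XT.lf (nat_lit 0) (nat_lit 1656400646) (nat_lit 608) (nat_lit 12005149190) (nat_lit 76) (nat_lit 6871689185) (nat_lit 176) (nat_lit 5) (nat_lit 184) (nat_lit 5) (nat_lit 177) (nat_lit 5) (nat_lit 489) (nat_lit 425) (nat_lit 226)) (XT.nd (nat_lit 78) (nat_lit 532) (nat_lit 0) (XT.lf (nat_lit 0) (nat_lit 5019520536) (nat_lit 608) (nat_lit 1334494680) (nat_lit 76) (nat_lit 14432803448) (nat_lit 176) (nat_lit 5) (nat_lit 184) (nat_lit 5) (nat_lit 177) (nat_lit 5) (nat_lit 490) (nat_lit 425) (nat_lit 225)) (XT.lf (nat_lit 0) (nat_lit 8514359092) (nat_lit 608) (nat_lit 11383145762) (nat_lit 76) (nat_lit 1146678420) (nat_lit 169) (nat_lit 5) (nat_lit 177) (nat_lit 5) (nat_lit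 170) (nat_lit 5) (nat_lit 491) (nat_lit 425) (nat_lit 224))))))))
noncomputable def xc208 : XT := (XT.nd (nat_lit 55302) (nat_lit 0) (nat_lit 12844) (XT.nd (nat_lit 54522) (nat_lit 0) (nat_lit 19988) (XT.nd (nat_lit 390) (nat_lit 0) (nat_lit 0) (XT.nd (nat_lit 156) (nat_lit 988) (nat_lit 0) (XT.nd (nat_lit 78) (nat_lit 456) (nat_lit 0) (XT.lf (nat_lit 0) (nat_lit 12124378923) (nat_lit 608) (nat_lit 461789339) (nat_lit 76) (nat_lit 8719623674) (nat_lit 169) (nat_lit 5) (nat_lit 177) (nat_lit 5) (nat_lit 170) (nat_lit 5) (nat_lit 492) (nat_lit 425) (nat_lit 223)) (XT.lf (nat_lit 0) (nat_lit 10812245654) (nat_lit 456) (nat_lit 5058858146) (nat_lit 532) (nat_lit 5700241283) (nat_lit 163) (nat_lit 5) (nat_lit 169) (nat_lit 5) (nat_lit 170) (nat_lit 5) (nat_lit 493) (nat_lit 425) (nat_lit 222))) (XT.nd (nat_lit 78) (nat_lit 532) (nat_lit 0) (XT.lf (nat_lit 0) (nat_lit 457239415) (nat_lit 456) (nat_lit 19252971299)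 (nat_lit 532) (nat_lit 2131651983) (nat_lit 157) (nat_lit 5) (nat_lit 163) (nat_lit 5) (nat_lit 164) (nat_lit 5) (nat_lit 494) (nat_lit 425) (nat_lit 221)) (XT.nd (nat_lit 78) (nat_lit 456) (nat_lit 0) (XT.lf (nat_lit 0) (nat_lit 1589084653) (nat_lit 532) (nat_lit 10124005889) (nat_lit 76) (nat_lit 10402495381) (nat_lit 156) (nat_lit 5) (nat_lit 163) (nat_lit 5) (nat_lit 157) (nat_lit 5) (nat_lit 495) (nat_lit 425) (nat_lit 220)) (XT.lf (nat_lit 0) (nat_lit 1358034270) (nat_lit 456) (nat_lit 4000990678) (nat_lit 532) (nat_lit 17035412445) (nat_lit 150) (nat_lit 5) (nat_lit 156) (nat_lit 5) (nat_lit 157) (nat_lit 5) (nat_lit 496) (nat_lit 425) (nat_lit 219))))) (XT.nd (nat_lit 53898) (nat_lit 0) (nat_lit 19912) (XT.nd (nat_lit 53820) (nat_lit 0) (nat_lit 19912) (XT.lf (nat_lit 0) (nat_lit 9292382550) (nat_lit 532) (nat_lit 9503637357) (nat_lit 76) (nat_lit 3881087792) (nat_lit 150) (nat_lit 5) (nat_lit 157)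 (nat_lit 5) (nat_lit 151) (nat_lit 5) (nat_lit 497) (nat_lit 425) (nat_lit 218)) (XT.lf (nat_lit 0) (nat_lit 302318399) (nat_lit 0) (nat_lit 302318399) (nat_lit 1596) (nat_lit 4683009947) (nat_lit 412) (nat_lit 5) (nat_lit 412) (nat_lit 3) (nat_lit 433) (nat_lit 3) (nat_lit 426) (nat_lit 426) (nat_lit 288))) (XT.nd (nat_lit 78) (nat_lit 0) (nat_lit 0) (XT.lf (nat_lit 0) (nat_lit 1852993194) (nat_lit 1596) (nat_lit 5068239990) (nat_lit 1672) (nat_lit 3746807015) (nat_lit 412) (nat_lit 5) (nat_lit 433) (nat_lit 3) (nat_lit 434) (nat_lit 5) (nat_lit 427) (nat_lit 426) (nat_lit 287)) (XT.nd (nat_lit 78) (nat_lit 0) (nat_lit 76) (XT.lf (nat_lit 0) (nat_lit 2497721864) (nat_lit 1596) (nat_lit 80119693) (nat_lit 1672) (nat_lit 8185047393) (nat_lit 412) (nat_lit 5) (nat_lit 433) (nat_lit 3) (nat_lit 434) (nat_lit 5) (nat_lit 428) (nat_lit 426) (nat_lit 286)) (XT.lf (nat_lit 0) (nat_lit 3184971632) (nat_lit 1596)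 (nat_lit 5805562598) (nat_lit 1672) (nat_lit 1868517525) (nat_lit 413) (nat_lit 5) (nat_lit 434) (nat_lit 5) (nat_lit 435) (nat_lit 5) (nat_lit 429) (nat_lit 426) (nat_lit 285)))))) (XT.nd (nat_lit 390) (nat_lit 0) (nat_lit 152) (XT.nd (nat_lit 156) (nat_lit 0) (nat_lit 76) (XT.nd (nat_lit 78) (nat_lit 0) (nat_lit 0) (XT.lf (nat_lit 0) (nat_lit 3888319994) (nat_lit 1596) (nat_lit 691831557) (nat_lit 1672) (nat_lit 6376948615) (nat_lit 413) (nat_lit 5) (nat_lit 434) (nat_lit 5) (nat_lit 435) (nat_lit 5) (nat_lit 430) (nat_lit 426) (nat_lit 284)) (XT.lf (nat_lit 76) (nat_lit 4575868457) (nat_lit 0) (nat_lit 44616235) (nat_lit 1672) (nat_lit 6436339101) (nat_lit 414) (nat_lit 5) (nat_lit 413) (nat_lit 5) (nat_lit 435) (nat_lit 5) (nat_lit 431) (nat_lit 426) (nat_lit 283))) (XT.nd (nat_lit 78) (nat_lit 0) (nat_lit 0) (XT.lf (nat_lit 0) (nat_lit 5387034361) (nat_lit 1596) (nat_lit 1238535976) (nat_lit 1672) (nat_lit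 4532585778) (nat_lit 414) (nat_lit 5) (nat_lit 435) (nat_lit 5) (nat_lit 436) (nat_lit 5) (nat_lit 432) (nat_lit 426) (nat_lit 282)) (XT.nd (nat_lit 78) (nat_lit 0) (nat_lit 76) (XT.lf (nat_lit 76) (nat_lit 4154482258) (nat_lit 0) (nat_lit 2027311102) (nat_lit 1672) (nat_lit 5079473036) (nat_lit 415) (nat_lit 5) (nat_lit 414) (nat_lit 5) (nat_lit 436) (nat_lit 5) (nat_lit 433) (nat_lit 426) (nat_lit 281)) (XT.lf (nat_lit 0) (nat_lit 7003977664) (nat_lit 1596) (nat_lit 1720182329) (nat_lit 1672) (nat_lit 2642056990) (nat_lit 415) (nat_lit 5) (nat_lit 436) (nat_lit 5) (nat_lit 437) (nat_lit 5) (nat_lit 434) (nat_lit 426) (nat_lit 280))))) (XT.nd (nat_lit 156) (nat_lit 0) (nat_lit 76) (XT.nd (nat_lit 78) (nat_lit 0) (nat_lit 76) (XT.lf (nat_lit 76) (nat_lit 3802046244) (nat_lit 0) (nat_lit 4064822142) (nat_lit 1672) (nat_lit 3605921474) (nat_lit 416) (nat_lit 5) (nat_lit 415) (nat_lit 5) (nat_lit 437) (nat_lit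 5) (nat_lit 435) (nat_lit 426) (nat_lit 279)) (XT.lf (nat_lit 0) (nat_lit 8749502980) (nat_lit 1596) (nat_lit 2136569973) (nat_lit 1672) (nat_lit 695379887) (nat_lit 416) (nat_lit 5) (nat_lit 437) (nat_lit 5) (nat_lit 438) (nat_lit 5) (nat_lit 436) (nat_lit 426) (nat_lit 278))) (XT.nd (nat_lit 78) (nat_lit 0) (nat_lit 0) (XT.lf (nat_lit 76) (nat_lit 3518889152) (nat_lit 0) (nat_lit 6167335328) (nat_lit 1672) (nat_lit 2005344117) (nat_lit 417) (nat_lit 5) (nat_lit 416) (nat_lit 5) (nat_lit 438) (nat_lit 5) (nat_lit 437) (nat_lit 426) (nat_lit 277)) (XT.nd (nat_lit 78) (nat_lit 0) (nat_lit 76) (XT.lf (nat_lit 76) (nat_lit 9307846502) (nat_lit 0) (nat_lit 1335045075) (nat_lit 1672) (nat_lit 1160978910) (nat_lit 417) (nat_lit 5) (nat_lit 416) (nat_lit 5) (nat_lit 438) (nat_lit 5) (nat_lit 438) (nat_lit 426) (nat_lit 276)) (XT.lf (nat_lit 76) (nat_lit 3305483788) (nat_lit 0) (nat_lit 8345163566) (nat_lit 1672)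 (nat_lit 267139838) (nat_lit 418) (nat_lit 5) (nat_lit 417) (nat_lit 5) (nat_lit 439) (nat_lit 5) (nat_lit 439) (nat_lit 426) (nat_lit 275))))))) (XT.nd (nat_lit 780) (nat_lit 5776) (nat_lit 0) (XT.nd (nat_lit 390) (nat_lit 0) (nat_lit 152) (XT.nd (nat_lit 156) (nat_lit 0) (nat_lit 76) (XT.nd (nat_lit 78) (nat_lit 0) (nat_lit 76) (XT.lf (nat_lit 0) (nat_lit 649088514) (nat_lit 1672) (nat_lit 2798747037) (nat_lit 1748) (nat_lit 8585811231) (nat_lit 395) (nat_lit 5) (nat_lit 417) (nat_lit 5) (nat_lit 418) (nat_lit 5) (nat_lit 440) (nat_lit 426) (nat_lit 274)) (XT.lf (nat_lit 0) (nat_lit 1598332120) (nat_lit 1672) (nat_lit 8999716581) (nat_lit 1748) (nat_lit 1553381623) (nat_lit 396) (nat_lit 5) (nat_lit 418) (nat_lit 5) (nat_lit 419) (nat_lit 5) (nat_lit 441) (nat_lit 426) (nat_lit 273))) (XT.nd (nat_lit 78) (nat_lit 0) (nat_lit 0) (XT.lf (nat_lit 0) (nat_lit 2596026558) (nat_lit 1672) (nat_lit 3043896136)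 (nat_lit 1748) (nat_lit 6631064807) (nat_lit 396) (nat_lit 5) (nat_lit 418) (nat_lit 5) (nat_lit 419) (nat_lit 5) (nat_lit 442) (nat_lit 426) (nat_lit 272)) (XT.nd (nat_lit 78) (nat_lit 0) (nat_lit 76) (XT.lf (nat_lit 76) (nat_lit 3062513992) (nat_lit 0) (nat_lit 559012576) (nat_lit 1748) (nat_lit 8771259359) (nat_lit 397) (nat_lit 5) (nat_lit 396) (nat_lit 5) (nat_lit 419) (nat_lit 5) (nat_lit 443) (nat_lit 426) (nat_lit 271)) (XT.lf (nat_lit 0) (nat_lit 4706285490) (nat_lit 1672) (nat_lit 3223352764) (nat_lit 1748) (nat_lit 4586614090) (nat_lit 397) (nat_lit 5) (nat_lit 419) (nat_lit 5) (nat_lit 420) (nat_lit 5) (nat_lit 444) (nat_lit 426) (nat_lit 270))))) (XT.nd (nat_lit 156) (nat_lit 0) (nat_lit 76) (XT.nd (nat_lit 78) (nat_lit 0) (nat_lit 76) (XT.lf (nat_lit 76) (nat_lit 3033056411) (nat_lit 0) (nat_lit 2791478414) (nat_lit 1748) (nat_lit 6817424223) (nat_lit 398) (nat_lit 5) (nat_lit 397) (nat_lit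 5) (nat_lit 420) (nat_lit 5) (nat_lit 445) (nat_lit 426) (nat_lit 269)) (XT.lf (nat_lit 0) (nat_lit 6991415842) (nat_lit 1672) (nat_lit 3336427981) (nat_lit 1748) (nat_lit 2441817456) (nat_lit 398) (nat_lit 5) (nat_lit 420) (nat_lit 5) (nat_lit 421) (nat_lit 5) (nat_lit 446) (nat_lit 426) (nat_lit 268))) (XT.nd (nat_lit 78) (nat_lit 0) (nat_lit 76) (XT.lf (nat_lit 76) (nat_lit 3074587041) (nat_lit 0) (nat_lit 5134309676) (nat_lit 1748) (nat_lit 4690482191) (nat_lit 399) (nat_lit 5) (nat_lit 398) (nat_lit 5) (nat_lit 421) (nat_lit 5) (nat_lit 447) (nat_lit 426) (nat_lit 267)) (XT.nd (nat_lit 78) (nat_lit 0) (nat_lit 0) (XT.lf (nat_lit 0) (nat_lit 9463315054) (nat_lit 1672) (nat_lit 3382332612) (nat_lit 1748) (nat_lit 185797934) (nat_lit 399) (nat_lit 5) (nat_lit 421) (nat_lit 5) (nat_lit 422) (nat_lit 5) (nat_lit 448) (nat_lit 426) (nat_lit 266)) (XT.lf (nat_lit 76) (nat_lit 3188029637) (nat_lit 0) (nat_lit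 7598700287) (nat_lit 1748) (nat_lit 2378551878) (nat_lit 400) (nat_lit 5) (nat_lit 399) (nat_lit 5) (nat_lit 422) (nat_lit 5) (nat_lit 449) (nat_lit 426) (nat_lit 265)))))) (XT.nd (nat_lit 390) (nat_lit 2660) (nat_lit 0) (XT.nd (nat_lit 156) (nat_lit 1748) (nat_lit 0) (XT.nd (nat_lit 78) (nat_lit 1672) (nat_lit 0) (XT.lf (nat_lit 76) (nat_lit 9926949422) (nat_lit 0) (nat_lit 2221723363) (nat_lit 1748) (nat_lit 1152886965) (nat_lit 400) (nat_lit 5) (nat_lit 399) (nat_lit 5) (nat_lit 422) (nat_lit 5) (nat_lit 450) (nat_lit 426) (nat_lit 264)) (XT.lf (nat_lit 0) (nat_lit 128902094) (nat_lit 1748) (nat_lit 10066362439) (nat_lit 76) (nat_lit 3244634329) (nat_lit 377) (nat_lit 5) (nat_lit 400) (nat_lit 5) (nat_lit 378) (nat_lit 5) (nat_lit 451) (nat_lit 426) (nat_lit 263))) (XT.nd (nat_lit 78) (nat_lit 1748) (nat_lit 0) (XT.lf (nat_lit 0) (nat_lit 1448070255) (nat_lit 1748) (nat_lit 3309500684) (nat_lit 76) (nat_lit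 8822743653) (nat_lit 377) (nat_lit 5) (nat_lit 400) (nat_lit 5) (nat_lit 378) (nat_lit 5) (nat_lit 452) (nat_lit 426) (nat_lit 262)) (XT.nd (nat_lit 78) (nat_lit 0) (nat_lit 0) (XT.lf (nat_lit 0) (nat_lit 2812281073) (nat_lit 1824) (nat_lit 10107238435) (nat_lit 76) (nat_lit 803651686) (nat_lit 354) (nat_lit 5) (nat_lit 378) (nat_lit 5) (nat_lit 355) (nat_lit 5) (nat_lit 453) (nat_lit 426) (nat_lit 261)) (XT.lf (nat_lit 0) (nat_lit 4247650757) (nat_lit 1824) (nat_lit 3184183414) (nat_lit 76) (nat_lit 6436178893) (nat_lit 354) (nat_lit 5) (nat_lit 378) (nat_lit 5) (nat_lit 355) (nat_lit 5) (nat_lit 454) (nat_lit 426) (nat_lit 260))))) (XT.nd (nat_lit 234) (nat_lit 836) (nat_lit 0) (XT.nd (nat_lit 78) (nat_lit 912) (nat_lit 0) (XT.lf (nat_lit 0) (nat_lit 3920093959) (nat_lit 912) (nat_lit 1807293559) (nat_lit 988) (nat_lit 8288056580) (nat_lit 342) (nat_lit 5) (nat_lit 354) (nat_lit 5) (nat_lit 355) (nat_lit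 5) (nat_lit 455) (nat_lit 426) (nat_lit 259)) (XT.nd (nat_lit 78) (nat_lit 912) (nat_lit 0) (XT.lf (nat_lit 0) (nat_lit 7274093460) (nat_lit 988) (nat_lit 2990233038) (nat_lit 76) (nat_lit 3900755178) (nat_lit 342) (nat_lit 5) (nat_lit 355) (nat_lit 5) (nat_lit 343) (nat_lit 5) (nat_lit 456) (nat_lit 426) (nat_lit 258)) (XT.lf (nat_lit 0) (nat_lit 4292689530) (nat_lit 912) (nat_lit 4589423933) (nat_lit 988) (nat_lit 5434996247) (nat_lit 330) (nat_lit 5) (nat_lit 342) (nat_lit 5) (nat_lit 343) (nat_lit 5) (nat_lit 457) (nat_lit 426) (nat_lit 257)))) (XT.nd (nat_lit 78) (nat_lit 836) (nat_lit 0) (XT.lf (nat_lit 0) (nat_lit 10540952239) (nat_lit 988) (nat_lit 2726657893) (nat_lit 76) (nat_lit 1204200208) (nat_lit 330) (nat_lit 5) (nat_lit 343) (nat_lit 5) (nat_lit 331) (nat_lit 5) (nat_lit 458) (nat_lit 426) (nat_lit 256)) (XT.nd (nat_lit 78) (nat_lit 0) (nat_lit 0) (XT.lf (nat_lit 0) (nat_lit 4740239698) (nat_lit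 836) (nat_lit 7544756148) (nat_lit 912) (nat_lit 2343573674) (nat_lit 319) (nat_lit 5) (nat_lit 330) (nat_lit 5) (nat_lit 331) (nat_lit 5) (nat_lit 459) (nat_lit 426) (nat_lit 255)) (XT.lf (nat_lit 0) (nat_lit 12384896854) (nat_lit 836) (nat_lit 1688302342) (nat_lit 912) (nat_lit 715084110) (nat_lit 319) (nat_lit 5) (nat_lit 330) (nat_lit 5) (nat_lit 331) (nat_lit 5) (nat_lit 460) (nat_lit 426) (nat_lit 254))))))))
noncomputable def xc209 : XT := (XT.nd (nat_lit 1560) (nat_lit 4864) (nat_lit 0) (XT.nd (nat_lit 780) (nat_lit 3268) (nat_lit 0) (XT.nd (nat_lit 390) (nat_lit 2280) (nat_lit 0) (XT.nd (nat_lit 156) (nat_lit 1520) (nat_lit 0) (XT.nd (nat_lit 78) (nat_lit 0) (nat_lit 0) (XT.lf (nat_lit 0) (nat_lit 987076980) (nat_lit 912) (nat_lit 9692713205) (nat_lit 76) (nat_lit 4270212982) (nat_lit 307) (nat_lit 5) (nat_lit 319) (nat_lit 5) (nat_lit 308) (nat_lit 5) (nat_lit 461) (nat_lit 426) (nat_lit 253))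 (XT.lf (nat_lit 0) (nat_lit 2732347941) (nat_lit 912) (nat_lit 2035521146) (nat_lit 76) (nat_lit 10346625682) (nat_lit 307) (nat_lit 5) (nat_lit 319) (nat_lit 5) (nat_lit 308) (nat_lit 5) (nat_lit 462) (nat_lit 426) (nat_lit 252))) (XT.nd (nat_lit 78) (nat_lit 760) (nat_lit 0) (XT.lf (nat_lit 0) (nat_lit 4550298089) (nat_lit 836) (nat_lit 9447147924) (nat_lit 76) (nat_lit 1284079335) (nat_lit 297) (nat_lit 5) (nat_lit 308) (nat_lit 5) (nat_lit 298) (nat_lit 5) (nat_lit 463) (nat_lit 426) (nat_lit 251)) (XT.nd (nat_lit 78) (nat_lit 760) (nat_lit 0) (XT.lf (nat_lit 0) (nat_lit 6441436659) (nat_lit 836) (nat_lit 1602595004) (nat_lit 76) (nat_lit 7407132815) (nat_lit 297) (nat_lit 5) (nat_lit 308) (nat_lit 5) (nat_lit 298) (nat_lit 5) (nat_lit 464) (nat_lit 426) (nat_lit 250)) (XT.lf (nat_lit 0) (nat_lit 6475370809) (nat_lit 760) (nat_lit 1928740426) (nat_lit 836) (nat_lit 7219415330) (nat_lit 287) (nat_lit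 5) (nat_lit 297) (nat_lit 5) (nat_lit 298) (nat_lit 5) (nat_lit 465) (nat_lit 426) (nat_lit 249))))) (XT.nd (nat_lit 156) (nat_lit 1520) (nat_lit 0) (XT.nd (nat_lit 78) (nat_lit 760) (nat_lit 0) (XT.lf (nat_lit 0) (nat_lit 10436619845) (nat_lit 836) (nat_lit 1099064898) (nat_lit 76) (nat_lit 4263043891) (nat_lit 287) (nat_lit 5) (nat_lit 298) (nat_lit 5) (nat_lit 288) (nat_lit 5) (nat_lit 466) (nat_lit 426) (nat_lit 248)) (XT.lf (nat_lit 0) (nat_lit 7184106044) (nat_lit 760) (nat_lit 5377029985) (nat_lit 836) (nat_lit 3415275834) (nat_lit 277) (nat_lit 5) (nat_lit 287) (nat_lit 5) (nat_lit 288) (nat_lit 5) (nat_lit 467) (nat_lit 426) (nat_lit 247))) (XT.nd (nat_lit 78) (nat_lit 1520) (nat_lit 0) (XT.lf (nat_lit 0) (nat_lit 14733483517) (nat_lit 836) (nat_lit 524041745) (nat_lit 76) (nat_lit 900020860) (nat_lit 277) (nat_lit 5) (nat_lit 288) (nat_lit 5) (nat_lit 278) (nat_lit 5) (nat_lit 468) (nat_lit 426)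 (nat_lit 246)) (XT.nd (nat_lit 78) (nat_lit 684) (nat_lit 0) (XT.lf (nat_lit 0) (nat_lit 679092851) (nat_lit 836) (nat_lit 8374964596) (nat_lit 76) (nat_lit 7286569251) (nat_lit 266) (nat_lit 5) (nat_lit 277) (nat_lit 5) (nat_lit 267) (nat_lit 5) (nat_lit 469) (nat_lit 426) (nat_lit 245)) (XT.lf (nat_lit 0) (nat_lit 88326936) (nat_lit 684) (nat_lit 2713290315) (nat_lit 760) (nat_lit 13725639833) (nat_lit 257) (nat_lit 5) (nat_lit 266) (nat_lit 5) (nat_lit 267) (nat_lit 5) (nat_lit 470) (nat_lit 426) (nat_lit 244)))))) (XT.nd (nat_lit 390) (nat_lit 1976) (nat_lit 0) (XT.nd (nat_lit 156) (nat_lit 608) (nat_lit 0) (XT.nd (nat_lit 78) (nat_lit 684) (nat_lit 0) (XT.lf (nat_lit 0) (nat_lit 5039877163) (nat_lit 760) (nat_lit 7915274859) (nat_lit 76) (nat_lit 3761006221) (nat_lit 257) (nat_lit 5) (nat_lit 267) (nat_lit 5) (nat_lit 258) (nat_lit 5) (nat_lit 471) (nat_lit 426) (nat_lit 243)) (XT.lf (nat_lit 0) (nat_lit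 762611617) (nat_lit 684) (nat_lit 6575698159) (nat_lit 760) (nat_lit 9570223288) (nat_lit 248) (nat_lit 5) (nat_lit 257) (nat_lit 5) (nat_lit 258) (nat_lit 5) (nat_lit 472) (nat_lit 426) (nat_lit 242))) (XT.nd (nat_lit 78) (nat_lit 608) (nat_lit 0) (XT.lf (nat_lit 0) (nat_lit 9713129000) (nat_lit 684) (nat_lit 15278949) (nat_lit 760) (nat_lit 7375437208) (nat_lit 248) (nat_lit 5) (nat_lit 257) (nat_lit 5) (nat_lit 258) (nat_lit 5) (nat_lit 473) (nat_lit 426) (nat_lit 241)) (XT.nd (nat_lit 78) (nat_lit 0) (nat_lit 0) (XT.lf (nat_lit 0) (nat_lit 1507817982) (nat_lit 608) (nat_lit 10704348753) (nat_lit 684) (nat_lit 5089983227) (nat_lit 240) (nat_lit 5) (nat_lit 248) (nat_lit 5) (nat_lit 249) (nat_lit 5) (nat_lit 474) (nat_lit 426) (nat_lit 240)) (XT.lf (nat_lit 0) (nat_lit 10676254072) (nat_lit 608) (nat_lit 4111854152) (nat_lit 684) (nat_lit 2715466058) (nat_lit 240) (nat_lit 5) (nat_lit 248) (nat_lit 5)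 (nat_lit 249) (nat_lit 5) (nat_lit 475) (nat_lit 426) (nat_lit 239))))) (XT.nd (nat_lit 156) (nat_lit 1216) (nat_lit 0) (XT.nd (nat_lit 78) (nat_lit 76) (nat_lit 0) (XT.lf (nat_lit 0) (nat_lit 2324427200) (nat_lit 684) (nat_lit 15116141337) (nat_lit 760) (nat_lit 267962052) (nat_lit 231) (nat_lit 5) (nat_lit 240) (nat_lit 5) (nat_lit 241) (nat_lit 5) (nat_lit 476) (nat_lit 426) (nat_lit 238)) (XT.lf (nat_lit 0) (nat_lit 2265596707) (nat_lit 760) (nat_lit 6215088126) (nat_lit 76) (nat_lit 9435288542) (nat_lit 230) (nat_lit 5) (nat_lit 240) (nat_lit 5) (nat_lit 231) (nat_lit 5) (nat_lit 477) (nat_lit 426) (nat_lit 237))) (XT.nd (nat_lit 78) (nat_lit 608) (nat_lit 0) (XT.lf (nat_lit 0) (nat_lit 3169085194) (nat_lit 608) (nat_lit 1690852792) (nat_lit 684) (nat_lit 13267320916) (nat_lit 222) (nat_lit 5) (nat_lit 230) (nat_lit 5) (nat_lit 231) (nat_lit 5) (nat_lit 478) (nat_lit 426) (nat_lit 236)) (XT.nd (nat_lit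 78) (nat_lit 608) (nat_lit 0) (XT.lf (nat_lit 0) (nat_lit 7575332331) (nat_lit 684) (nat_lit 5559100423) (nat_lit 76) (nat_lit 5206957296) (nat_lit 222) (nat_lit 5) (nat_lit 231) (nat_lit 5) (nat_lit 223) (nat_lit 5) (nat_lit 479) (nat_lit 426) (nat_lit 235)) (XT.lf (nat_lit 0) (nat_lit 4062100723) (nat_lit 608) (nat_lit 6313834694) (nat_lit 684) (nat_lit 8183253557) (nat_lit 214) (nat_lit 5) (nat_lit 222) (nat_lit 5) (nat_lit 223) (nat_lit 5) (nat_lit 480) (nat_lit 426) (nat_lit 234))))))) (XT.nd (nat_lit 780) (nat_lit 1976) (nat_lit 0) (XT.nd (nat_lit 390) (nat_lit 1672) (nat_lit 0) (XT.nd (nat_lit 156) (nat_lit 684) (nat_lit 0) (XT.nd (nat_lit 78) (nat_lit 532) (nat_lit 0) (XT.lf (nat_lit 0) (nat_lit 13267678607) (nat_lit 684) (nat_lit 4841945272) (nat_lit 76) (nat_lit 671020544) (nat_lit 214) (nat_lit 5) (nat_lit 223) (nat_lit 5) (nat_lit 215) (nat_lit 5) (nat_lit 481) (nat_lit 426) (nat_lit 233)) (XT.lf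 (nat_lit 0) (nat_lit 5022509703) (nat_lit 532) (nat_lit 11262699880) (nat_lit 608) (nat_lit 2719963388) (nat_lit 207) (nat_lit 5) (nat_lit 214) (nat_lit 5) (nat_lit 215) (nat_lit 5) (nat_lit 482) (nat_lit 426) (nat_lit 232))) (XT.nd (nat_lit 78) (nat_lit 608) (nat_lit 0) (XT.lf (nat_lit 0) (nat_lit 153476666) (nat_lit 608) (nat_lit 4092592078) (nat_lit 76) (nat_lit 14987584174) (nat_lit 206) (nat_lit 5) (nat_lit 214) (nat_lit 5) (nat_lit 207) (nat_lit 5) (nat_lit 483) (nat_lit 426) (nat_lit 231)) (XT.nd (nat_lit 78) (nat_lit 0) (nat_lit 0) (XT.lf (nat_lit 0) (nat_lit 3100229348) (nat_lit 684) (nat_lit 13436086723) (nat_lit 76) (nat_lit 2928984403) (nat_lit 198) (nat_lit 5) (nat_lit 207) (nat_lit 5) (nat_lit 199) (nat_lit 5) (nat_lit 484) (nat_lit 426) (nat_lit 230)) (XT.lf (nat_lit 0) (nat_lit 6155433818) (nat_lit 684) (nat_lit 3328199523) (nat_lit 76) (nat_lit 10216960120) (nat_lit 198) (nat_lit 5) (nat_lit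 207) (nat_lit 5) (nat_lit 199) (nat_lit 5) (nat_lit 485) (nat_lit 426) (nat_lit 229))))) (XT.nd (nat_lit 156) (nat_lit 1140) (nat_lit 0) (XT.nd (nat_lit 78) (nat_lit 0) (nat_lit 0) (XT.lf (nat_lit 0) (nat_lit 7066883641) (nat_lit 532) (nat_lit 2244615897) (nat_lit 608) (nat_lit 10628300386) (nat_lit 191) (nat_lit 5) (nat_lit 198) (nat_lit 5) (nat_lit 199) (nat_lit 5) (nat_lit 486) (nat_lit 426) (nat_lit 228)) (XT.lf (nat_lit 0) (nat_lit 12580470496) (nat_lit 608) (nat_lit 2509584370) (nat_lit 76) (nat_lit 5092742678) (nat_lit 191) (nat_lit 5) (nat_lit 199) (nat_lit 5) (nat_lit 192) (nat_lit 5) (nat_lit 487) (nat_lit 426) (nat_lit 227))) (XT.nd (nat_lit 78) (nat_lit 608) (nat_lit 0) (XT.lf (nat_lit 0) (nat_lit 8145420240) (nat_lit 532) (nat_lit 7831205097) (nat_lit 608) (nat_lit 4452796343) (nat_lit 184) (nat_lit 5) (nat_lit 191) (nat_lit 5) (nat_lit 192) (nat_lit 5) (nat_lit 488) (nat_lit 426) (nat_lit 226))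 (XT.nd (nat_lit 78) (nat_lit 608) (nat_lit 0) (XT.lf (nat_lit 0) (nat_lit 19040035156) (nat_lit 532) (nat_lit 411630581) (nat_lit 608) (nat_lit 1229095914) (nat_lit 184) (nat_lit 5) (nat_lit 191) (nat_lit 5) (nat_lit 192) (nat_lit 5) (nat_lit 489) (nat_lit 426) (nat_lit 225)) (XT.lf (nat_lit 0) (nat_lit 2133702753) (nat_lit 608) (nat_lit 11665915762) (nat_lit 76) (nat_lit 7135212439) (nat_lit 176) (nat_lit 5) (nat_lit 184) (nat_lit 5) (nat_lit 177) (nat_lit 5) (nat_lit 490) (nat_lit 426) (nat_lit 224)))))) (XT.nd (nat_lit 390) (nat_lit 532) (nat_lit 0) (XT.nd (nat_lit 156) (nat_lit 912) (nat_lit 0) (XT.nd (nat_lit 78) (nat_lit 532) (nat_lit 0) (XT.lf (nat_lit 0) (nat_lit 5555375746) (nat_lit 608) (nat_lit 793207698) (nat_lit 76) (nat_lit 14845076645) (nat_lit 176) (nat_lit 5) (nat_lit 184) (nat_lit 5) (nat_lit 177) (nat_lit 5) (nat_lit 491) (nat_lit 426) (nat_lit 223)) (XT.lf (nat_lit 0) (nat_lit 9116103717)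 (nat_lit 608) (nat_lit 11038642434) (nat_lit 76) (nat_lit 1301509628) (nat_lit 169) (nat_lit 5) (nat_lit 177) (nat_lit 5) (nat_lit 170) (nat_lit 5) (nat_lit 492) (nat_lit 426) (nat_lit 222))) (XT.nd (nat_lit 78) (nat_lit 456) (nat_lit 0) (XT.lf (nat_lit 0) (nat_lit 91117188) (nat_lit 456) (nat_lit 12699338399) (nat_lit 532) (nat_lit 8932801963) (nat_lit 163) (nat_lit 5) (nat_lit 169) (nat_lit 5) (nat_lit 170) (nat_lit 5) (nat_lit 493) (nat_lit 426) (nat_lit 221)) (XT.nd (nat_lit 78) (nat_lit 456) (nat_lit 0) (XT.lf (nat_lit 0) (nat_lit 11585747421) (nat_lit 456) (nat_lit 5021099960) (nat_lit 532) (nat_lit 5387383229) (nat_lit 163) (nat_lit 5) (nat_lit 169) (nat_lit 5) (nat_lit 170) (nat_lit 5) (nat_lit 494) (nat_lit 426) (nat_lit 220)) (XT.lf (nat_lit 0) (nat_lit 1027563950) (nat_lit 456) (nat_lit 19491498026) (nat_lit 532) (nat_lit 1751173520) (nat_lit 157) (nat_lit 5) (nat_lit 163) (nat_lit 5) (nat_lit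 164) (nat_lit 5) (nat_lit 495) (nat_lit 426) (nat_lit 219))))) (XT.nd (nat_lit 54054) (nat_lit 0) (nat_lit 19912) (XT.nd (nat_lit 78) (nat_lit 456) (nat_lit 0) (XT.lf (nat_lit 0) (nat_lit 2030241168) (nat_lit 532) (nat_lit 9770704555) (nat_lit 76) (nat_lit 10748599568) (nat_lit 156) (nat_lit 5) (nat_lit 163) (nat_lit 5) (nat_lit 157) (nat_lit 5) (nat_lit 496) (nat_lit 426) (nat_lit 218)) (XT.nd (nat_lit 53898) (nat_lit 0) (nat_lit 19912) (XT.lf (nat_lit 0) (nat_lit 1937319950) (nat_lit 456) (nat_lit 3933818123) (nat_lit 532) (nat_lit 16962927794) (nat_lit 150) (nat_lit 5) (nat_lit 156) (nat_lit 5) (nat_lit 157) (nat_lit 5) (nat_lit 497) (nat_lit 426) (nat_lit 217)) (XT.lf (nat_lit 0) (nat_lit 609882726) (nat_lit 0) (nat_lit 609882726) (nat_lit 1596) (nat_lit 4161202246) (nat_lit 412) (nat_lit 5) (nat_lit 412) (nat_lit 3) (nat_lit 433) (nat_lit 3) (nat_lit 427) (nat_lit 427) (nat_lit 286)))) (XT.nd (nat_lit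 78) (nat_lit 0) (nat_lit 0) (XT.lf (nat_lit 0) (nat_lit 3068637887) (nat_lit 1596) (nat_lit 4550178133) (nat_lit 1672) (nat_lit 3238285319) (nat_lit 412) (nat_lit 5) (nat_lit 433) (nat_lit 3) (nat_lit 434) (nat_lit 5) (nat_lit 428) (nat_lit 427) (nat_lit 285)) (XT.nd (nat_lit 78) (nat_lit 0) (nat_lit 76) (XT.lf (nat_lit 76) (nat_lit 532543350) (nat_lit 0) (nat_lit 3174065898) (nat_lit 1672) (nat_lit 7247645128) (nat_lit 413) (nat_lit 5) (nat_lit 412) (nat_lit 5) (nat_lit 434) (nat_lit 5) (nat_lit 429) (nat_lit 427) (nat_lit 284)) (XT.lf (nat_lit 0) (nat_lit 4381943428) (nat_lit 1596) (nat_lit 5291490154) (nat_lit 1672) (nat_lit 1379434061) (nat_lit 413) (nat_lit 5) (nat_lit 434) (nat_lit 5) (nat_lit 435) (nat_lit 5) (nat_lit 430) (nat_lit 427) (nat_lit 283))))))))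
noncomputable def xc210 : XT := (XT.nd (nat_lit 1560) (nat_lit 10488) (nat_lit 0) (XT.nd (nat_lit 780) (nat_lit 0) (nat_lit 0) (XT.nd (nat_lit 390) (nat_lit 1368) (nat_lit 0) (XT.nd (nat_lit 156) (nat_lit 0) (nat_lit 76) (XT.nd (nat_lit 78) (nat_lit 0) (nat_lit 0) (XT.lf (nat_lit 0) (nat_lit 5077137730) (nat_lit 1596) (nat_lit 87841035) (nat_lit 1672) (nat_lit 5988356397) (nat_lit 413) (nat_lit 5) (nat_lit 434) (nat_lit 5) (nat_lit 435) (nat_lit 5) (nat_lit 431) (nat_lit 427) (nat_lit 282)) (XT.lf (nat_lit 76) (nat_lit 5281148326) (nat_lit 0) (nat_lit 524997029) (nat_lit 1672) (nat_lit 5449277365) (nat_lit 414) (nat_lit 5) (nat_lit 413) (nat_lit 5) (nat_lit 435) (nat_lit 5) (nat_lit 432) (nat_lit 427) (nat_lit 281))) (XT.nd (nat_lit 78) (nat_lit 0) (nat_lit 0) (XT.lf (nat_lit 0) (nat_lit 6563537609) (nat_lit 1596) (nat_lit 636431003) (nat_lit 1672) (nat_lit 4159316032) (nat_lit 414) (nat_lit 5) (nat_lit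 435) (nat_lit 5) (nat_lit 436) (nat_lit 5) (nat_lit 433) (nat_lit 427) (nat_lit 280)) (XT.nd (nat_lit 78) (nat_lit 0) (nat_lit 76) (XT.lf (nat_lit 76) (nat_lit 4860323413) (nat_lit 0) (nat_lit 2496955562) (nat_lit 1672) (nat_lit 4107529339) (nat_lit 415) (nat_lit 5) (nat_lit 414) (nat_lit 5) (nat_lit 436) (nat_lit 5) (nat_lit 434) (nat_lit 427) (nat_lit 279)) (XT.lf (nat_lit 0) (nat_lit 8172551098) (nat_lit 1596) (nat_lit 1120055671) (nat_lit 1672) (nat_lit 2279730937) (nat_lit 415) (nat_lit 5) (nat_lit 436) (nat_lit 5) (nat_lit 437) (nat_lit 5) (nat_lit 435) (nat_lit 427) (nat_lit 278))))) (XT.nd (nat_lit 156) (nat_lit 1520) (nat_lit 0) (XT.nd (nat_lit 78) (nat_lit 0) (nat_lit 76) (XT.lf (nat_lit 76) (nat_lit 4508442932) (nat_lit 0) (nat_lit 4528182844) (nat_lit 1672) (nat_lit 2644750169) (nat_lit 416) (nat_lit 5) (nat_lit 415) (nat_lit 5) (nat_lit 437) (nat_lit 5) (nat_lit 436) (nat_lit 427) (nat_lit 277))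 (XT.lf (nat_lit 0) (nat_lit 9914629713) (nat_lit 1596) (nat_lit 1538413049) (nat_lit 1672) (nat_lit 339627272) (nat_lit 416) (nat_lit 5) (nat_lit 437) (nat_lit 5) (nat_lit 438) (nat_lit 5) (nat_lit 437) (nat_lit 427) (nat_lit 276))) (XT.nd (nat_lit 78) (nat_lit 1596) (nat_lit 0) (XT.lf (nat_lit 76) (nat_lit 4225938889) (nat_lit 0) (nat_lit 6628866006) (nat_lit 1672) (nat_lit 1050500768) (nat_lit 417) (nat_lit 5) (nat_lit 416) (nat_lit 5) (nat_lit 438) (nat_lit 5) (nat_lit 438) (nat_lit 427) (nat_lit 275)) (XT.nd (nat_lit 78) (nat_lit 1596) (nat_lit 0) (XT.lf (nat_lit 76) (nat_lit 10118191622) (nat_lit 0) (nat_lit 1693298890) (nat_lit 1672) (nat_lit 208757086) (nat_lit 417) (nat_lit 5) (nat_lit 416) (nat_lit 5) (nat_lit 438) (nat_lit 5) (nat_lit 439) (nat_lit 427) (nat_lit 274)) (XT.lf (nat_lit 0) (nat_lit 676933978) (nat_lit 1672) (nat_lit 8127856957) (nat_lit 1748) (nat_lit 3331907782) (nat_lit 395) (nat_lit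 5) (nat_lit 417) (nat_lit 5) (nat_lit 418) (nat_lit 5) (nat_lit 440) (nat_lit 427) (nat_lit 273)))))) (XT.nd (nat_lit 390) (nat_lit 0) (nat_lit 152) (XT.nd (nat_lit 156) (nat_lit 0) (nat_lit 76) (XT.nd (nat_lit 78) (nat_lit 0) (nat_lit 76) (XT.lf (nat_lit 0) (nat_lit 1589367299) (nat_lit 1672) (nat_lit 2212640235) (nat_lit 1748) (nat_lit 8453214535) (nat_lit 395) (nat_lit 5) (nat_lit 417) (nat_lit 5) (nat_lit 418) (nat_lit 5) (nat_lit 441) (nat_lit 427) (nat_lit 272)) (XT.lf (nat_lit 0) (nat_lit 2541766807) (nat_lit 1672) (nat_lit 8521259308) (nat_lit 1748) (nat_lit 1312662565) (nat_lit 396) (nat_lit 5) (nat_lit 418) (nat_lit 5) (nat_lit 419) (nat_lit 5) (nat_lit 442) (nat_lit 427) (nat_lit 271))) (XT.nd (nat_lit 78) (nat_lit 0) (nat_lit 0) (XT.lf (nat_lit 0) (nat_lit 3541543211) (nat_lit 1672) (nat_lit 2459233270) (nat_lit 1748) (nat_lit 6497228562) (nat_lit 396) (nat_lit 5) (nat_lit 418) (nat_lit 5) (nat_lit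 419) (nat_lit 5) (nat_lit 443) (nat_lit 427) (nat_lit 270)) (XT.nd (nat_lit 78) (nat_lit 0) (nat_lit 76) (XT.lf (nat_lit 76) (nat_lit 3765058081) (nat_lit 0) (nat_lit 809137352) (nat_lit 1748) (nat_lit 8048321559) (nat_lit 397) (nat_lit 5) (nat_lit 396) (nat_lit 5) (nat_lit 419) (nat_lit 5) (nat_lit 444) (nat_lit 427) (nat_lit 269)) (XT.lf (nat_lit 0) (nat_lit 5661868991) (nat_lit 1672) (nat_lit 2639810163) (nat_lit 1748) (nat_lit 4447159388) (nat_lit 397) (nat_lit 5) (nat_lit 419) (nat_lit 5) (nat_lit 420) (nat_lit 5) (nat_lit 445) (nat_lit 427) (nat_lit 268))))) (XT.nd (nat_lit 156) (nat_lit 0) (nat_lit 76) (XT.nd (nat_lit 78) (nat_lit 0) (nat_lit 76) (XT.lf (nat_lit 76) (nat_lit 3737463974) (nat_lit 0) (nat_lit 3052307638) (nat_lit 1748) (nat_lit 6087551996) (nat_lit 398) (nat_lit 5) (nat_lit 397) (nat_lit 5) (nat_lit 420) (nat_lit 5) (nat_lit 446) (nat_lit 427) (nat_lit 267)) (XT.lf (nat_lit 0) (nat_lit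 7962043274) (nat_lit 1672) (nat_lit 2753595707) (nat_lit 1748) (nat_lit 2292309640) (nat_lit 398) (nat_lit 5) (nat_lit 420) (nat_lit 5) (nat_lit 421) (nat_lit 5) (nat_lit 447) (nat_lit 427) (nat_lit 266))) (XT.nd (nat_lit 78) (nat_lit 0) (nat_lit 76) (XT.lf (nat_lit 76) (nat_lit 3781366189) (nat_lit 0) (nat_lit 5410407033) (nat_lit 1748) (nat_lit 3948738998) (nat_lit 399) (nat_lit 5) (nat_lit 398) (nat_lit 5) (nat_lit 421) (nat_lit 5) (nat_lit 448) (nat_lit 427) (nat_lit 265)) (XT.nd (nat_lit 78) (nat_lit 0) (nat_lit 0) (XT.lf (nat_lit 0) (nat_lit 10454123188) (nat_lit 1672) (nat_lit 2799716937) (nat_lit 1748) (nat_lit 21732672) (nat_lit 399) (nat_lit 5) (nat_lit 421) (nat_lit 5) (nat_lit 422) (nat_lit 5) (nat_lit 449) (nat_lit 427) (nat_lit 264)) (XT.lf (nat_lit 76) (nat_lit 3897774515) (nat_lit 0) (nat_lit 7894709492) (nat_lit 1748) (nat_lit 1619841396) (nat_lit 400) (nat_lit 5) (nat_lit 399) (nat_lit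 5) (nat_lit 422) (nat_lit 5) (nat_lit 450) (nat_lit 427) (nat_lit 263))))))) (XT.nd (nat_lit 780) (nat_lit 4712) (nat_lit 0) (XT.nd (nat_lit 390) (nat_lit 2660) (nat_lit 0) (XT.nd (nat_lit 156) (nat_lit 1748) (nat_lit 0) (XT.nd (nat_lit 78) (nat_lit 1672) (nat_lit 0) (XT.lf (nat_lit 76) (nat_lit 10758806338) (nat_lit 0) (nat_lit 2407368810) (nat_lit 1748) (nat_lit 385472626) (nat_lit 400) (nat_lit 5) (nat_lit 399) (nat_lit 5) (nat_lit 422) (nat_lit 5) (nat_lit 451) (nat_lit 427) (nat_lit 262)) (XT.lf (nat_lit 0) (nat_lit 899605432) (nat_lit 1748) (nat_lit 9611146241) (nat_lit 76) (nat_lit 3182147642) (nat_lit 377) (nat_lit 5) (nat_lit 400) (nat_lit 5) (nat_lit 378) (nat_lit 5) (nat_lit 452) (nat_lit 427) (nat_lit 261))) (XT.nd (nat_lit 78) (nat_lit 1748) (nat_lit 0) (XT.lf (nat_lit 0) (nat_lit 2230095676) (nat_lit 1748) (nat_lit 2732020652) (nat_lit 76) (nat_lit 8874316787) (nat_lit 377) (nat_lit 5) (nat_lit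 400) (nat_lit 5) (nat_lit 378) (nat_lit 5) (nat_lit 453) (nat_lit 427) (nat_lit 260)) (XT.nd (nat_lit 78) (nat_lit 0) (nat_lit 0) (XT.lf (nat_lit 0) (nat_lit 3610307550) (nat_lit 1824) (nat_lit 9654011872) (nat_lit 76) (nat_lit 718061453) (nat_lit 354) (nat_lit 5) (nat_lit 378) (nat_lit 5) (nat_lit 355) (nat_lit 5) (nat_lit 454) (nat_lit 427) (nat_lit 259)) (XT.lf (nat_lit 0) (nat_lit 5059839905) (nat_lit 1824) (nat_lit 2605346169) (nat_lit 76) (nat_lit 6465232601) (nat_lit 354) (nat_lit 5) (nat_lit 378) (nat_lit 5) (nat_lit 355) (nat_lit 5) (nat_lit 455) (nat_lit 427) (nat_lit 258))))) (XT.nd (nat_lit 156) (nat_lit 1748) (nat_lit 0) (XT.nd (nat_lit 78) (nat_lit 0) (nat_lit 0) (XT.lf (nat_lit 0) (nat_lit 4636789640) (nat_lit 912) (nat_lit 1922266456) (nat_lit 988) (nat_lit 7721952577) (nat_lit 342) (nat_lit 5) (nat_lit 354) (nat_lit 5) (nat_lit 355) (nat_lit 5) (nat_lit 456) (nat_lit 427) (nat_lit 257))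 (XT.lf (nat_lit 0) (nat_lit 8122133202) (nat_lit 988) (nat_lit 2409302496) (nat_lit 76) (nat_lit 3902502443) (nat_lit 342) (nat_lit 5) (nat_lit 355) (nat_lit 5) (nat_lit 343) (nat_lit 5) (nat_lit 457) (nat_lit 427) (nat_lit 256))) (XT.nd (nat_lit 78) (nat_lit 836) (nat_lit 0) (XT.lf (nat_lit 0) (nat_lit 5015063159) (nat_lit 912) (nat_lit 4737607510) (nat_lit 988) (nat_lit 4836536652) (nat_lit 330) (nat_lit 5) (nat_lit 342) (nat_lit 5) (nat_lit 343) (nat_lit 5) (nat_lit 458) (nat_lit 427) (nat_lit 255)) (XT.nd (nat_lit 78) (nat_lit 836) (nat_lit 0) (XT.lf (nat_lit 0) (nat_lit 11430740679) (nat_lit 988) (nat_lit 2142827741) (nat_lit 76) (nat_lit 1173720029) (nat_lit 330) (nat_lit 5) (nat_lit 343) (nat_lit 5) (nat_lit 331) (nat_lit 5) (nat_lit 459) (nat_lit 427) (nat_lit 254)) (XT.lf (nat_lit 0) (nat_lit 5469208043) (nat_lit 836) (nat_lit 7731261400) (nat_lit 912) (nat_lit 1706904709) (nat_lit 319) (nat_lit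 5) (nat_lit 330) (nat_lit 5) (nat_lit 331) (nat_lit 5) (nat_lit 460) (nat_lit 427) (nat_lit 253)))))) (XT.nd (nat_lit 390) (nat_lit 3040) (nat_lit 0) (XT.nd (nat_lit 156) (nat_lit 760) (nat_lit 0) (XT.nd (nat_lit 78) (nat_lit 912) (nat_lit 0) (XT.lf (nat_lit 0) (nat_lit 13254323763) (nat_lit 836) (nat_lit 1756980280) (nat_lit 912) (nat_lit 59248108) (nat_lit 319) (nat_lit 5) (nat_lit 330) (nat_lit 5) (nat_lit 331) (nat_lit 5) (nat_lit 461) (nat_lit 427) (nat_lit 252)) (XT.lf (nat_lit 0) (nat_lit 1659101687) (nat_lit 912) (nat_lit 9246277244) (nat_lit 76) (nat_lit 4330228767) (nat_lit 307) (nat_lit 5) (nat_lit 319) (nat_lit 5) (nat_lit 308) (nat_lit 5) (nat_lit 462) (nat_lit 427) (nat_lit 251))) (XT.nd (nat_lit 78) (nat_lit 760) (nat_lit 0) (XT.lf (nat_lit 0) (nat_lit 3426488201) (nat_lit 912) (nat_lit 1448496055) (nat_lit 76) (nat_lit 10528667534) (nat_lit 307) (nat_lit 5) (nat_lit 319) (nat_lit 5) (nat_lit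 308) (nat_lit 5) (nat_lit 463) (nat_lit 427) (nat_lit 250)) (XT.nd (nat_lit 78) (nat_lit 0) (nat_lit 0) (XT.lf (nat_lit 0) (nat_lit 5272259100) (nat_lit 836) (nat_lit 8999480833) (nat_lit 76) (nat_lit 1302460538) (nat_lit 297) (nat_lit 5) (nat_lit 308) (nat_lit 5) (nat_lit 298) (nat_lit 5) (nat_lit 464) (nat_lit 427) (nat_lit 249)) (XT.lf (nat_lit 0) (nat_lit 7188848774) (nat_lit 836) (nat_lit 1010519404) (nat_lit 76) (nat_lit 7548118232) (nat_lit 297) (nat_lit 5) (nat_lit 308) (nat_lit 5) (nat_lit 298) (nat_lit 5) (nat_lit 465) (nat_lit 427) (nat_lit 248))))) (XT.nd (nat_lit 234) (nat_lit 1520) (nat_lit 0) (XT.nd (nat_lit 78) (nat_lit 760) (nat_lit 0) (XT.lf (nat_lit 0) (nat_lit 7224899622) (nat_lit 760) (nat_lit 1957773723) (nat_lit 836) (nat_lit 6740790928) (nat_lit 287) (nat_lit 5) (nat_lit 297) (nat_lit 5) (nat_lit 298) (nat_lit 5) (nat_lit 466) (nat_lit 427) (nat_lit 247)) (XT.nd (nat_lit 78) (nat_lit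 760) (nat_lit 0) (XT.lf (nat_lit 0) (nat_lit 11243922669) (nat_lit 836) (nat_lit 500955734) (nat_lit 76) (nat_lit 4357536507) (nat_lit 287) (nat_lit 5) (nat_lit 298) (nat_lit 5) (nat_lit 288) (nat_lit 5) (nat_lit 467) (nat_lit 427) (nat_lit 246)) (XT.lf (nat_lit 0) (nat_lit 7943799084) (nat_lit 760) (nat_lit 5459392970) (nat_lit 836) (nat_lit 2880620708) (nat_lit 277) (nat_lit 5) (nat_lit 287) (nat_lit 5) (nat_lit 288) (nat_lit 5) (nat_lit 468) (nat_lit 427) (nat_lit 245)))) (XT.nd (nat_lit 78) (nat_lit 760) (nat_lit 0) (XT.lf (nat_lit 0) (nat_lit 82217271) (nat_lit 760) (nat_lit 15525878326) (nat_lit 836) (nat_lit 860698017) (nat_lit 267) (nat_lit 5) (nat_lit 277) (nat_lit 5) (nat_lit 278) (nat_lit 5) (nat_lit 469) (nat_lit 427) (nat_lit 244)) (XT.nd (nat_lit 78) (nat_lit 684) (nat_lit 0) (XT.lf (nat_lit 0) (nat_lit 1268776238) (nat_lit 836) (nat_lit 7922903894) (nat_lit 76) (nat_lit 7463944314) (nat_lit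 266) (nat_lit 5) (nat_lit 277) (nat_lit 5) (nat_lit 267) (nat_lit 5) (nat_lit 470) (nat_lit 427) (nat_lit 243)) (XT.lf (nat_lit 0) (nat_lit 705577416) (nat_lit 684) (nat_lit 2720873732) (nat_lit 760) (nat_lit 13419688032) (nat_lit 257) (nat_lit 5) (nat_lit 266) (nat_lit 5) (nat_lit 267) (nat_lit 5) (nat_lit 471) (nat_lit 427) (nat_lit 242))))))))
noncomputable def xc211 : XT := (XT.nd (nat_lit 1560) (nat_lit 1444) (nat_lit 0) (XT.nd (nat_lit 780) (nat_lit 2888) (nat_lit 0) (XT.nd (nat_lit 390) (nat_lit 1976) (nat_lit 0) (XT.nd (nat_lit 156) (nat_lit 608) (nat_lit 0) (XT.nd (nat_lit 78) (nat_lit 684) (nat_lit 0) (XT.lf (nat_lit 0) (nat_lit 5698620437) (nat_lit 760) (nat_lit 7459027519) (nat_lit 76) (nat_lit 3881393150) (nat_lit 257) (nat_lit 5) (nat_lit 267) (nat_lit 5) (nat_lit 258) (nat_lit 5) (nat_lit 472) (nat_lit 427) (nat_lit 241)) (XT.lf (nat_lit 0) (nat_lit 1388373575) (nat_lit 684) (nat_lit 6647671848)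 (nat_lit 760) (nat_lit 9199363044) (nat_lit 248) (nat_lit 5) (nat_lit 257) (nat_lit 5) (nat_lit 258) (nat_lit 5) (nat_lit 473) (nat_lit 427) (nat_lit 240))) (XT.nd (nat_lit 78) (nat_lit 608) (nat_lit 0) (XT.lf (nat_lit 0) (nat_lit 10463420048) (nat_lit 760) (nat_lit 6929195561) (nat_lit 76) (nat_lit 42227113) (nat_lit 248) (nat_lit 5) (nat_lit 258) (nat_lit 5) (nat_lit 249) (nat_lit 5) (nat_lit 474) (nat_lit 427) (nat_lit 239)) (XT.nd (nat_lit 78) (nat_lit 0) (nat_lit 0) (XT.lf (nat_lit 0) (nat_lit 2143199960) (nat_lit 608) (nat_lit 10847085836) (nat_lit 684) (nat_lit 4646964494) (nat_lit 240) (nat_lit 5) (nat_lit 248) (nat_lit 5) (nat_lit 249) (nat_lit 5) (nat_lit 475) (nat_lit 427) (nat_lit 238)) (XT.lf (nat_lit 0) (nat_lit 11483137602) (nat_lit 608) (nat_lit 4124140361) (nat_lit 684) (nat_lit 2235639695) (nat_lit 240) (nat_lit 5) (nat_lit 248) (nat_lit 5) (nat_lit 249) (nat_lit 5) (nat_lit 476) (nat_lit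 427) (nat_lit 237))))) (XT.nd (nat_lit 156) (nat_lit 1216) (nat_lit 0) (XT.nd (nat_lit 78) (nat_lit 0) (nat_lit 0) (XT.lf (nat_lit 0) (nat_lit 251425265) (nat_lit 760) (nat_lit 15083173918) (nat_lit 76) (nat_lit 2717464408) (nat_lit 230) (nat_lit 5) (nat_lit 240) (nat_lit 5) (nat_lit 231) (nat_lit 5) (nat_lit 477) (nat_lit 427) (nat_lit 236)) (XT.lf (nat_lit 0) (nat_lit 2821851682) (nat_lit 760) (nat_lit 5744451696) (nat_lit 76) (nat_lit 9697525640) (nat_lit 230) (nat_lit 5) (nat_lit 240) (nat_lit 5) (nat_lit 231) (nat_lit 5) (nat_lit 478) (nat_lit 427) (nat_lit 235))) (XT.nd (nat_lit 78) (nat_lit 608) (nat_lit 0) (XT.lf (nat_lit 0) (nat_lit 3823491023) (nat_lit 608) (nat_lit 1638407593) (nat_lit 684) (nat_lit 13017570066) (nat_lit 222) (nat_lit 5) (nat_lit 230) (nat_lit 5) (nat_lit 231) (nat_lit 5) (nat_lit 479) (nat_lit 427) (nat_lit 234)) (XT.nd (nat_lit 78) (nat_lit 608) (nat_lit 0) (XT.lf (nat_lit 0)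 (nat_lit 8222252647) (nat_lit 684) (nat_lit 5081263360) (nat_lit 76) (nat_lit 5394558119) (nat_lit 222) (nat_lit 5) (nat_lit 231) (nat_lit 5) (nat_lit 223) (nat_lit 5) (nat_lit 480) (nat_lit 427) (nat_lit 233)) (XT.lf (nat_lit 0) (nat_lit 4728486682) (nat_lit 608) (nat_lit 6344466261) (nat_lit 684) (nat_lit 7847398999) (nat_lit 214) (nat_lit 5) (nat_lit 222) (nat_lit 5) (nat_lit 223) (nat_lit 5) (nat_lit 481) (nat_lit 427) (nat_lit 232)))))) (XT.nd (nat_lit 390) (nat_lit 1672) (nat_lit 0) (XT.nd (nat_lit 156) (nat_lit 684) (nat_lit 0) (XT.nd (nat_lit 78) (nat_lit 532) (nat_lit 0) (XT.lf (nat_lit 0) (nat_lit 14013541797) (nat_lit 684) (nat_lit 4355898134) (nat_lit 76) (nat_lit 776980880) (nat_lit 214) (nat_lit 5) (nat_lit 223) (nat_lit 5) (nat_lit 215) (nat_lit 5) (nat_lit 482) (nat_lit 427) (nat_lit 231)) (XT.lf (nat_lit 0) (nat_lit 5702011164) (nat_lit 532) (nat_lit 11383750055) (nat_lit 608) (nat_lit 2289796390)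 (nat_lit 207) (nat_lit 5) (nat_lit 214) (nat_lit 5) (nat_lit 215) (nat_lit 5) (nat_lit 483) (nat_lit 427) (nat_lit 230))) (XT.nd (nat_lit 78) (nat_lit 608) (nat_lit 0) (XT.lf (nat_lit 0) (nat_lit 625380603) (nat_lit 608) (nat_lit 3600302780) (nat_lit 76) (nat_lit 15383052649) (nat_lit 206) (nat_lit 5) (nat_lit 214) (nat_lit 5) (nat_lit 207) (nat_lit 5) (nat_lit 484) (nat_lit 427) (nat_lit 229)) (XT.nd (nat_lit 78) (nat_lit 0) (nat_lit 0) (XT.lf (nat_lit 0) (nat_lit 3626273527) (nat_lit 684) (nat_lit 13125663432) (nat_lit 76) (nat_lit 3093179658) (nat_lit 198) (nat_lit 5) (nat_lit 207) (nat_lit 5) (nat_lit 199) (nat_lit 5) (nat_lit 485) (nat_lit 427) (nat_lit 228)) (XT.lf (nat_lit 0) (nat_lit 6733483271) (nat_lit 684) (nat_lit 2826974272) (nat_lit 76) (nat_lit 10524843996) (nat_lit 198) (nat_lit 5) (nat_lit 207) (nat_lit 5) (nat_lit 199) (nat_lit 5) (nat_lit 486) (nat_lit 427) (nat_lit 227))))) (XT.nd (nat_lit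 156) (nat_lit 1140) (nat_lit 0) (XT.nd (nat_lit 78) (nat_lit 0) (nat_lit 0) (XT.lf (nat_lit 0) (nat_lit 7772275100) (nat_lit 532) (nat_lit 2175137010) (nat_lit 608) (nat_lit 10381989206) (nat_lit 191) (nat_lit 5) (nat_lit 198) (nat_lit 5) (nat_lit 199) (nat_lit 5) (nat_lit 487) (nat_lit 427) (nat_lit 226)) (XT.lf (nat_lit 0) (nat_lit 13273673194) (nat_lit 608) (nat_lit 1998495842) (nat_lit 76) (nat_lit 5305255577) (nat_lit 191) (nat_lit 5) (nat_lit 199) (nat_lit 5) (nat_lit 192) (nat_lit 5) (nat_lit 488) (nat_lit 427) (nat_lit 225))) (XT.nd (nat_lit 78) (nat_lit 608) (nat_lit 0) (XT.lf (nat_lit 0) (nat_lit 8865916227) (nat_lit 532) (nat_lit 7866796441) (nat_lit 608) (nat_lit 4096373196) (nat_lit 184) (nat_lit 5) (nat_lit 191) (nat_lit 5) (nat_lit 192) (nat_lit 5) (nat_lit 489) (nat_lit 427) (nat_lit 224)) (XT.nd (nat_lit 78) (nat_lit 608) (nat_lit 0) (XT.lf (nat_lit 0) (nat_lit 19967490351) (nat_lit 532)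 (nat_lit 301203627) (nat_lit 608) (nat_lit 816933642) (nat_lit 184) (nat_lit 5) (nat_lit 191) (nat_lit 5) (nat_lit 192) (nat_lit 5) (nat_lit 490) (nat_lit 427) (nat_lit 223)) (XT.lf (nat_lit 0) (nat_lit 2603303082) (nat_lit 608) (nat_lit 11342394004) (nat_lit 76) (nat_lit 7399109950) (nat_lit 176) (nat_lit 5) (nat_lit 184) (nat_lit 5) (nat_lit 177) (nat_lit 5) (nat_lit 491) (nat_lit 427) (nat_lit 222))))))) (XT.nd (nat_lit 54756) (nat_lit 0) (nat_lit 18012) (XT.nd (nat_lit 54366) (nat_lit 0) (nat_lit 19380) (XT.nd (nat_lit 156) (nat_lit 912) (nat_lit 0) (XT.nd (nat_lit 78) (nat_lit 532) (nat_lit 0) (XT.lf (nat_lit 0) (nat_lit 6085038431) (nat_lit 608) (nat_lit 263150212) (nat_lit 76) (nat_lit 15260795101) (nat_lit 176) (nat_lit 5) (nat_lit 184) (nat_lit 5) (nat_lit 177) (nat_lit 5) (nat_lit 492) (nat_lit 427) (nat_lit 221)) (XT.lf (nat_lit 0) (nat_lit 9713129215) (nat_lit 608) (nat_lit 10709466952) (nat_lit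 76) (nat_lit 1454315714) (nat_lit 169) (nat_lit 5) (nat_lit 177) (nat_lit 5) (nat_lit 170) (nat_lit 5) (nat_lit 493) (nat_lit 427) (nat_lit 220))) (XT.nd (nat_lit 78) (nat_lit 456) (nat_lit 0) (XT.lf (nat_lit 0) (nat_lit 639269781) (nat_lit 456) (nat_lit 12817114041) (nat_lit 532) (nat_lit 8692964983) (nat_lit 163) (nat_lit 5) (nat_lit 169) (nat_lit 5) (nat_lit 170) (nat_lit 5) (nat_lit 494) (nat_lit 427) (nat_lit 219)) (XT.nd (nat_lit 78) (nat_lit 456) (nat_lit 0) (XT.lf (nat_lit 0) (nat_lit 12353080261) (nat_lit 456) (nat_lit 4987981639) (nat_lit 532) (nat_lit 5084843620) (nat_lit 163) (nat_lit 5) (nat_lit 169) (nat_lit 5) (nat_lit 170) (nat_lit 5) (nat_lit 495) (nat_lit 427) (nat_lit 218)) (XT.lf (nat_lit 0) (nat_lit 1587503681) (nat_lit 456) (nat_lit 19740485330) (nat_lit 532) (nat_lit 1379515424) (nat_lit 157) (nat_lit 5) (nat_lit 163) (nat_lit 5) (nat_lit 164) (nat_lit 5) (nat_lit 496) (nat_lit 427)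 (nat_lit 217))))) (XT.nd (nat_lit 156) (nat_lit 0) (nat_lit 0) (XT.nd (nat_lit 78) (nat_lit 0) (nat_lit 0) (XT.lf (nat_lit 0) (nat_lit 911890029) (nat_lit 0) (nat_lit 911890029) (nat_lit 1596) (nat_lit 3652857761) (nat_lit 412) (nat_lit 5) (nat_lit 412) (nat_lit 3) (nat_lit 433) (nat_lit 3) (nat_lit 428) (nat_lit 428) (nat_lit 284)) (XT.lf (nat_lit 0) (nat_lit 4262829588) (nat_lit 1596) (nat_lit 4045808131) (nat_lit 1672) (nat_lit 2742249568) (nat_lit 412) (nat_lit 5) (nat_lit 433) (nat_lit 3) (nat_lit 434) (nat_lit 5) (nat_lit 429) (nat_lit 428) (nat_lit 283))) (XT.nd (nat_lit 78) (nat_lit 0) (nat_lit 76) (XT.lf (nat_lit 76) (nat_lit 1134650851) (nat_lit 0) (nat_lit 3760537518) (nat_lit 1672) (nat_lit 6255176176) (nat_lit 413) (nat_lit 5) (nat_lit 412) (nat_lit 5) (nat_lit 434) (nat_lit 5) (nat_lit 430) (nat_lit 428) (nat_lit 282)) (XT.nd (nat_lit 78) (nat_lit 0) (nat_lit 0) (XT.lf (nat_lit 0) (nat_lit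 5558848313) (nat_lit 1596) (nat_lit 4791607062) (nat_lit 1672) (nat_lit 901011771) (nat_lit 413) (nat_lit 5) (nat_lit 434) (nat_lit 5) (nat_lit 435) (nat_lit 5) (nat_lit 431) (nat_lit 428) (nat_lit 281)) (XT.lf (nat_lit 76) (nat_lit 510939376) (nat_lit 0) (nat_lit 5738966324) (nat_lit 1672) (nat_lit 5104412318) (nat_lit 414) (nat_lit 5) (nat_lit 413) (nat_lit 5) (nat_lit 435) (nat_lit 5) (nat_lit 432) (nat_lit 428) (nat_lit 280)))))) (XT.nd (nat_lit 390) (nat_lit 1444) (nat_lit 0) (XT.nd (nat_lit 156) (nat_lit 0) (nat_lit 76) (XT.nd (nat_lit 78) (nat_lit 0) (nat_lit 76) (XT.lf (nat_lit 76) (nat_lit 5976700647) (nat_lit 0) (nat_lit 996366317) (nat_lit 1672) (nat_lit 4485801822) (nat_lit 414) (nat_lit 5) (nat_lit 413) (nat_lit 5) (nat_lit 435) (nat_lit 5) (nat_lit 433) (nat_lit 428) (nat_lit 279)) (XT.lf (nat_lit 0) (nat_lit 7722069569) (nat_lit 1596) (nat_lit 46626278) (nat_lit 1672) (nat_lit 3796595526)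 (nat_lit 414) (nat_lit 5) (nat_lit 435) (nat_lit 5) (nat_lit 436) (nat_lit 5) (nat_lit 434) (nat_lit 428) (nat_lit 278))) (XT.nd (nat_lit 78) (nat_lit 0) (nat_lit 76) (XT.lf (nat_lit 76) (nat_lit 5556099192) (nat_lit 0) (nat_lit 2959330504) (nat_lit 1672) (nat_lit 3157833369) (nat_lit 415) (nat_lit 5) (nat_lit 414) (nat_lit 5) (nat_lit 436) (nat_lit 5) (nat_lit 435) (nat_lit 428) (nat_lit 277)) (XT.nd (nat_lit 78) (nat_lit 0) (nat_lit 0) (XT.lf (nat_lit 0) (nat_lit 9324558329) (nat_lit 1596) (nat_lit 532566066) (nat_lit 1672) (nat_lit 1926279810) (nat_lit 415) (nat_lit 5) (nat_lit 436) (nat_lit 5) (nat_lit 437) (nat_lit 5) (nat_lit 436) (nat_lit 428) (nat_lit 276)) (XT.lf (nat_lit 76) (nat_lit 5204490070) (nat_lit 0) (nat_lit 4985974738) (nat_lit 1672) (nat_lit 1704479337) (nat_lit 416) (nat_lit 5) (nat_lit 415) (nat_lit 5) (nat_lit 437) (nat_lit 5) (nat_lit 437) (nat_lit 428) (nat_lit 275))))) (XT.nd (nat_lit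 234) (nat_lit 0) (nat_lit 76) (XT.nd (nat_lit 78) (nat_lit 1596) (nat_lit 0) (XT.lf (nat_lit 76) (nat_lit 11055665098) (nat_lit 0) (nat_lit 9004129) (nat_lit 1672) (nat_lit 944233791) (nat_lit 416) (nat_lit 5) (nat_lit 415) (nat_lit 5) (nat_lit 437) (nat_lit 5) (nat_lit 438) (nat_lit 428) (nat_lit 274)) (XT.nd (nat_lit 78) (nat_lit 1672) (nat_lit 0) (XT.lf (nat_lit 76) (nat_lit 4922406873) (nat_lit 0) (nat_lit 7086495202) (nat_lit 1672) (nat_lit 115195683) (nat_lit 417) (nat_lit 5) (nat_lit 416) (nat_lit 5) (nat_lit 438) (nat_lit 5) (nat_lit 439) (nat_lit 428) (nat_lit 273)) (XT.lf (nat_lit 0) (nat_lit 715127922) (nat_lit 1672) (nat_lit 1325916370) (nat_lit 1748) (nat_lit 10200578849) (nat_lit 394) (nat_lit 5) (nat_lit 416) (nat_lit 5) (nat_lit 417) (nat_lit 5) (nat_lit 440) (nat_lit 428) (nat_lit 272)))) (XT.nd (nat_lit 78) (nat_lit 0) (nat_lit 0) (XT.lf (nat_lit 0) (nat_lit 1599587377) (nat_lit 1672) (nat_lit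 7660922191) (nat_lit 1748) (nat_lit 3100199938) (nat_lit 395) (nat_lit 5) (nat_lit 417) (nat_lit 5) (nat_lit 418) (nat_lit 5) (nat_lit 441) (nat_lit 428) (nat_lit 271)) (XT.nd (nat_lit 78) (nat_lit 0) (nat_lit 76) (XT.lf (nat_lit 0) (nat_lit 2512443587) (nat_lit 1672) (nat_lit 1639744114) (nat_lit 1748) (nat_lit 8329782747) (nat_lit 395) (nat_lit 5) (nat_lit 417) (nat_lit 5) (nat_lit 418) (nat_lit 5) (nat_lit 442) (nat_lit 428) (nat_lit 270)) (XT.lf (nat_lit 0) (nat_lit 3468676772) (nat_lit 1672) (nat_lit 8058801368) (nat_lit 1748) (nat_lit 1077682933) (nat_lit 396) (nat_lit 5) (nat_lit 418) (nat_lit 5) (nat_lit 419) (nat_lit 5) (nat_lit 443) (nat_lit 428) (nat_lit 269))))))))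
noncomputable def xc212 : XT := (XT.nd (nat_lit 1560) (nat_lit 7600) (nat_lit 0) (XT.nd (nat_lit 780) (nat_lit 5244) (nat_lit 0) (XT.nd (nat_lit 390) (nat_lit 1520) (nat_lit 0) (XT.nd (nat_lit 156) (nat_lit 0) (nat_lit 76) (XT.nd (nat_lit 78) (nat_lit 0) (nat_lit 0) (XT.lf (nat_lit 0) (nat_lit 4471270770) (nat_lit 1672) (nat_lit 1887944283) (nat_lit 1748) (nat_lit 6371062464) (nat_lit 396) (nat_lit 5) (nat_lit 418) (nat_lit 5) (nat_lit 419) (nat_lit 5) (nat_lit 444) (nat_lit 428) (nat_lit 268)) (XT.lf (nat_lit 76) (nat_lit 4456750832) (nat_lit 0) (nat_lit 1054986116) (nat_lit 1748) (nat_lit 7345809532) (nat_lit 397) (nat_lit 5) (nat_lit 396) (nat_lit 5) (nat_lit 419) (nat_lit 5) (nat_lit 445) (nat_lit 428) (nat_lit 267))) (XT.nd (nat_lit 78) (nat_lit 0) (nat_lit 0) (XT.lf (nat_lit 0) (nat_lit 6603112706) (nat_lit 1672) (nat_lit 2069759714) (nat_lit 1748) (nat_lit 4313892864) (nat_lit 397) (nat_lit 5) (nat_lit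 419) (nat_lit 5) (nat_lit 420) (nat_lit 5) (nat_lit 446) (nat_lit 428) (nat_lit 266)) (XT.nd (nat_lit 78) (nat_lit 0) (nat_lit 76) (XT.lf (nat_lit 76) (nat_lit 4430962230) (nat_lit 0) (nat_lit 3310393060) (nat_lit 1748) (nat_lit 5376718729) (nat_lit 398) (nat_lit 5) (nat_lit 397) (nat_lit 5) (nat_lit 420) (nat_lit 5) (nat_lit 447) (nat_lit 428) (nat_lit 265)) (XT.lf (nat_lit 0) (nat_lit 8919822312) (nat_lit 1672) (nat_lit 2184330027) (nat_lit 1748) (nat_lit 2147513614) (nat_lit 398) (nat_lit 5) (nat_lit 420) (nat_lit 5) (nat_lit 421) (nat_lit 5) (nat_lit 448) (nat_lit 428) (nat_lit 264))))) (XT.nd (nat_lit 156) (nat_lit 1672) (nat_lit 0) (XT.nd (nat_lit 78) (nat_lit 0) (nat_lit 0) (XT.lf (nat_lit 76) (nat_lit 4477223623) (nat_lit 0) (nat_lit 5685292570) (nat_lit 1748) (nat_lit 3224606476) (nat_lit 399) (nat_lit 5) (nat_lit 398) (nat_lit 5) (nat_lit 421) (nat_lit 5) (nat_lit 449) (nat_lit 428) (nat_lit 263))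 (XT.lf (nat_lit 76) (nat_lit 11293590468) (nat_lit 0) (nat_lit 140947293) (nat_lit 1748) (nat_lit 2090667256) (nat_lit 399) (nat_lit 5) (nat_lit 398) (nat_lit 5) (nat_lit 421) (nat_lit 5) (nat_lit 450) (nat_lit 428) (nat_lit 262))) (XT.nd (nat_lit 78) (nat_lit 1748) (nat_lit 0) (XT.lf (nat_lit 76) (nat_lit 4596629935) (nat_lit 0) (nat_lit 8191045819) (nat_lit 1748) (nat_lit 877265598) (nat_lit 400) (nat_lit 5) (nat_lit 399) (nat_lit 5) (nat_lit 422) (nat_lit 5) (nat_lit 451) (nat_lit 428) (nat_lit 261)) (XT.nd (nat_lit 78) (nat_lit 0) (nat_lit 76) (XT.lf (nat_lit 0) (nat_lit 361787045) (nat_lit 1748) (nat_lit 2227028944) (nat_lit 1824) (nat_lit 11218493059) (nat_lit 376) (nat_lit 5) (nat_lit 399) (nat_lit 5) (nat_lit 400) (nat_lit 5) (nat_lit 452) (nat_lit 428) (nat_lit 260)) (XT.lf (nat_lit 0) (nat_lit 1655895595) (nat_lit 1748) (nat_lit 9172320101) (nat_lit 76) (nat_lit 3123357518) (nat_lit 377) (nat_lit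 5) (nat_lit 400) (nat_lit 5) (nat_lit 378) (nat_lit 5) (nat_lit 453) (nat_lit 428) (nat_lit 259)))))) (XT.nd (nat_lit 390) (nat_lit 2660) (nat_lit 0) (XT.nd (nat_lit 156) (nat_lit 912) (nat_lit 0) (XT.nd (nat_lit 78) (nat_lit 1748) (nat_lit 0) (XT.lf (nat_lit 0) (nat_lit 2998519211) (nat_lit 1748) (nat_lit 2167985512) (nat_lit 76) (nat_lit 8931770695) (nat_lit 377) (nat_lit 5) (nat_lit 400) (nat_lit 5) (nat_lit 378) (nat_lit 5) (nat_lit 454) (nat_lit 428) (nat_lit 258)) (XT.lf (nat_lit 0) (nat_lit 4395490302) (nat_lit 1824) (nat_lit 9217169645) (nat_lit 76) (nat_lit 634707123) (nat_lit 354) (nat_lit 5) (nat_lit 378) (nat_lit 5) (nat_lit 355) (nat_lit 5) (nat_lit 455) (nat_lit 428) (nat_lit 257))) (XT.nd (nat_lit 78) (nat_lit 912) (nat_lit 0) (XT.lf (nat_lit 0) (nat_lit 5860033371) (nat_lit 1824) (nat_lit 2039882049) (nat_lit 76) (nat_lit 6498737686) (nat_lit 354) (nat_lit 5) (nat_lit 378) (nat_lit 5) (nat_lit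 355) (nat_lit 5) (nat_lit 456) (nat_lit 428) (nat_lit 256)) (XT.nd (nat_lit 78) (nat_lit 0) (nat_lit 0) (XT.lf (nat_lit 0) (nat_lit 5343033509) (nat_lit 912) (nat_lit 2036477861) (nat_lit 988) (nat_lit 7172945710) (nat_lit 342) (nat_lit 5) (nat_lit 354) (nat_lit 5) (nat_lit 355) (nat_lit 5) (nat_lit 457) (nat_lit 428) (nat_lit 255)) (XT.lf (nat_lit 0) (nat_lit 8959852561) (nat_lit 988) (nat_lit 1841633873) (nat_lit 76) (nat_lit 3907246227) (nat_lit 342) (nat_lit 5) (nat_lit 355) (nat_lit 5) (nat_lit 343) (nat_lit 5) (nat_lit 458) (nat_lit 428) (nat_lit 254))))) (XT.nd (nat_lit 156) (nat_lit 1748) (nat_lit 0) (XT.nd (nat_lit 78) (nat_lit 0) (nat_lit 0) (XT.lf (nat_lit 0) (nat_lit 5727167420) (nat_lit 912) (nat_lit 4886564869) (nat_lit 988) (nat_lit 4253567731) (nat_lit 330) (nat_lit 5) (nat_lit 342) (nat_lit 5) (nat_lit 343) (nat_lit 5) (nat_lit 459) (nat_lit 428) (nat_lit 253)) (XT.lf (nat_lit 0) (nat_lit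 12311959678) (nat_lit 988) (nat_lit 1572109412) (nat_lit 76) (nat_lit 1144749040) (nat_lit 330) (nat_lit 5) (nat_lit 343) (nat_lit 5) (nat_lit 331) (nat_lit 5) (nat_lit 460) (nat_lit 428) (nat_lit 252))) (XT.nd (nat_lit 78) (nat_lit 912) (nat_lit 0) (XT.lf (nat_lit 0) (nat_lit 6188130411) (nat_lit 836) (nat_lit 7920113973) (nat_lit 912) (nat_lit 1084045074) (nat_lit 319) (nat_lit 5) (nat_lit 330) (nat_lit 5) (nat_lit 331) (nat_lit 5) (nat_lit 461) (nat_lit 428) (nat_lit 251)) (XT.nd (nat_lit 78) (nat_lit 836) (nat_lit 0) (XT.lf (nat_lit 0) (nat_lit 576027251) (nat_lit 912) (nat_lit 1245783408) (nat_lit 76) (nat_lit 13537104018) (nat_lit 318) (nat_lit 5) (nat_lit 330) (nat_lit 5) (nat_lit 319) (nat_lit 5) (nat_lit 462) (nat_lit 428) (nat_lit 250)) (XT.lf (nat_lit 0) (nat_lit 2319237937) (nat_lit 912) (nat_lit 8815775814) (nat_lit 76) (nat_lit 4392430733) (nat_lit 307) (nat_lit 5) (nat_lit 319) (nat_lit 5)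 (nat_lit 308) (nat_lit 5) (nat_lit 463) (nat_lit 428) (nat_lit 249))))))) (XT.nd (nat_lit 780) (nat_lit 3800) (nat_lit 0) (XT.nd (nat_lit 390) (nat_lit 1520) (nat_lit 0) (XT.nd (nat_lit 156) (nat_lit 1520) (nat_lit 0) (XT.nd (nat_lit 78) (nat_lit 760) (nat_lit 0) (XT.lf (nat_lit 0) (nat_lit 4109678961) (nat_lit 912) (nat_lit 874106197) (nat_lit 76) (nat_lit 10715316759) (nat_lit 307) (nat_lit 5) (nat_lit 319) (nat_lit 5) (nat_lit 308) (nat_lit 5) (nat_lit 464) (nat_lit 428) (nat_lit 248)) (XT.lf (nat_lit 0) (nat_lit 5984158578) (nat_lit 836) (nat_lit 8567580745) (nat_lit 76) (nat_lit 1321492847) (nat_lit 297) (nat_lit 5) (nat_lit 308) (nat_lit 5) (nat_lit 298) (nat_lit 5) (nat_lit 465) (nat_lit 428) (nat_lit 247))) (XT.nd (nat_lit 78) (nat_lit 1520) (nat_lit 0) (XT.lf (nat_lit 0) (nat_lit 7927188784) (nat_lit 836) (nat_lit 430837925) (nat_lit 76) (nat_lit 7692201282) (nat_lit 297) (nat_lit 5) (nat_lit 308)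 (nat_lit 5) (nat_lit 298) (nat_lit 5) (nat_lit 466) (nat_lit 428) (nat_lit 246)) (XT.nd (nat_lit 78) (nat_lit 760) (nat_lit 0) (XT.lf (nat_lit 0) (nat_lit 7965342825) (nat_lit 760) (nat_lit 1987758194) (nat_lit 836) (nat_lit 6276786381) (nat_lit 287) (nat_lit 5) (nat_lit 297) (nat_lit 5) (nat_lit 298) (nat_lit 5) (nat_lit 467) (nat_lit 428) (nat_lit 245)) (XT.lf (nat_lit 0) (nat_lit 86166836) (nat_lit 760) (nat_lit 11958520946) (nat_lit 836) (nat_lit 4367953111) (nat_lit 277) (nat_lit 5) (nat_lit 287) (nat_lit 5) (nat_lit 288) (nat_lit 5) (nat_lit 468) (nat_lit 428) (nat_lit 244))))) (XT.nd (nat_lit 156) (nat_lit 760) (nat_lit 0) (XT.nd (nat_lit 78) (nat_lit 760) (nat_lit 0) (XT.lf (nat_lit 0) (nat_lit 8694765529) (nat_lit 760) (nat_lit 5544380892) (nat_lit 836) (nat_lit 2358686175) (nat_lit 277) (nat_lit 5) (nat_lit 287) (nat_lit 5) (nat_lit 288) (nat_lit 5) (nat_lit 469) (nat_lit 428) (nat_lit 243)) (XT.lf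 (nat_lit 0) (nat_lit 683480393) (nat_lit 760) (nat_lit 15797579698) (nat_lit 836) (nat_lit 305600589) (nat_lit 267) (nat_lit 5) (nat_lit 277) (nat_lit 5) (nat_lit 278) (nat_lit 5) (nat_lit 470) (nat_lit 428) (nat_lit 242))) (XT.nd (nat_lit 78) (nat_lit 684) (nat_lit 0) (XT.lf (nat_lit 0) (nat_lit 1847882568) (nat_lit 836) (nat_lit 7485860248) (nat_lit 76) (nat_lit 7643638115) (nat_lit 266) (nat_lit 5) (nat_lit 277) (nat_lit 5) (nat_lit 267) (nat_lit 5) (nat_lit 471) (nat_lit 428) (nat_lit 241)) (XT.nd (nat_lit 78) (nat_lit 0) (nat_lit 0) (XT.lf (nat_lit 0) (nat_lit 1311272914) (nat_lit 684) (nat_lit 2730421551) (nat_lit 760) (nat_lit 13130157343) (nat_lit 257) (nat_lit 5) (nat_lit 266) (nat_lit 5) (nat_lit 267) (nat_lit 5) (nat_lit 472) (nat_lit 428) (nat_lit 240)) (XT.lf (nat_lit 0) (nat_lit 6348872863) (nat_lit 760) (nat_lit 7017519069) (nat_lit 76) (nat_lit 4002433937) (nat_lit 257) (nat_lit 5) (nat_lit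 267) (nat_lit 5) (nat_lit 258) (nat_lit 5) (nat_lit 473) (nat_lit 428) (nat_lit 239)))))) (XT.nd (nat_lit 390) (nat_lit 1748) (nat_lit 0) (XT.nd (nat_lit 156) (nat_lit 1368) (nat_lit 0) (XT.nd (nat_lit 78) (nat_lit 0) (nat_lit 0) (XT.lf (nat_lit 0) (nat_lit 2002943936) (nat_lit 684) (nat_lit 6723397032) (nat_lit 760) (nat_lit 8842919018) (nat_lit 248) (nat_lit 5) (nat_lit 257) (nat_lit 5) (nat_lit 258) (nat_lit 5) (nat_lit 474) (nat_lit 428) (nat_lit 238)) (XT.lf (nat_lit 0) (nat_lit 11192243547) (nat_lit 760) (nat_lit 6482203026) (nat_lit 76) (nat_lit 98441943) (nat_lit 248) (nat_lit 5) (nat_lit 258) (nat_lit 5) (nat_lit 249) (nat_lit 5) (nat_lit 475) (nat_lit 428) (nat_lit 237))) (XT.nd (nat_lit 78) (nat_lit 760) (nat_lit 0) (XT.lf (nat_lit 0) (nat_lit 2767787929) (nat_lit 608) (nat_lit 10995448264) (nat_lit 684) (nat_lit 4216241348) (nat_lit 240) (nat_lit 5) (nat_lit 248) (nat_lit 5) (nat_lit 249) (nat_lit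 5) (nat_lit 476) (nat_lit 428) (nat_lit 236)) (XT.nd (nat_lit 78) (nat_lit 760) (nat_lit 0) (XT.lf (nat_lit 0) (nat_lit 12283117972) (nat_lit 608) (nat_lit 4139388572) (nat_lit 684) (nat_lit 1766957944) (nat_lit 240) (nat_lit 5) (nat_lit 248) (nat_lit 5) (nat_lit 249) (nat_lit 5) (nat_lit 477) (nat_lit 428) (nat_lit 235)) (XT.lf (nat_lit 0) (nat_lit 757378320) (nat_lit 760) (nat_lit 14801564659) (nat_lit 76) (nat_lit 2843903232) (nat_lit 230) (nat_lit 5) (nat_lit 240) (nat_lit 5) (nat_lit 231) (nat_lit 5) (nat_lit 478) (nat_lit 428) (nat_lit 234))))) (XT.nd (nat_lit 234) (nat_lit 1140) (nat_lit 0) (XT.nd (nat_lit 78) (nat_lit 608) (nat_lit 0) (XT.lf (nat_lit 0) (nat_lit 3369391215) (nat_lit 760) (nat_lit 5287504713) (nat_lit 76) (nat_lit 9962152168) (nat_lit 230) (nat_lit 5) (nat_lit 240) (nat_lit 5) (nat_lit 231) (nat_lit 5) (nat_lit 479) (nat_lit 428) (nat_lit 233)) (XT.nd (nat_lit 78) (nat_lit 0) (nat_lit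 0) (XT.lf (nat_lit 0) (nat_lit 4468034782) (nat_lit 608) (nat_lit 1588263158) (nat_lit 684) (nat_lit 12782826053) (nat_lit 222) (nat_lit 5) (nat_lit 230) (nat_lit 5) (nat_lit 231) (nat_lit 5) (nat_lit 480) (nat_lit 428) (nat_lit 232)) (XT.lf (nat_lit 0) (nat_lit 8862873852) (nat_lit 684) (nat_lit 4616741885) (nat_lit 76) (nat_lit 5582670039) (nat_lit 222) (nat_lit 5) (nat_lit 231) (nat_lit 5) (nat_lit 223) (nat_lit 5) (nat_lit 481) (nat_lit 428) (nat_lit 231)))) (XT.nd (nat_lit 78) (nat_lit 532) (nat_lit 0) (XT.lf (nat_lit 0) (nat_lit 5385478509) (nat_lit 608) (nat_lit 6379424475) (nat_lit 684) (nat_lit 7524224306) (nat_lit 214) (nat_lit 5) (nat_lit 222) (nat_lit 5) (nat_lit 223) (nat_lit 5) (nat_lit 482) (nat_lit 428) (nat_lit 230)) (XT.nd (nat_lit 78) (nat_lit 532) (nat_lit 0) (XT.lf (nat_lit 0) (nat_lit 14755663476) (nat_lit 684) (nat_lit 3882764228) (nat_lit 76) (nat_lit 881466986) (nat_lit 214) (nat_lit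 5) (nat_lit 223) (nat_lit 5) (nat_lit 215) (nat_lit 5) (nat_lit 483) (nat_lit 428) (nat_lit 229)) (XT.lf (nat_lit 0) (nat_lit 6372617389) (nat_lit 532) (nat_lit 11511267595) (nat_lit 608) (nat_lit 1869842352) (nat_lit 207) (nat_lit 5) (nat_lit 214) (nat_lit 5) (nat_lit 215) (nat_lit 5) (nat_lit 484) (nat_lit 428) (nat_lit 228))))))))
noncomputable def xc213 : XT := (XT.nd (nat_lit 55614) (nat_lit 0) (nat_lit 14516) (XT.nd (nat_lit 780) (nat_lit 456) (nat_lit 0) (XT.nd (nat_lit 390) (nat_lit 1672) (nat_lit 0) (XT.nd (nat_lit 156) (nat_lit 532) (nat_lit 0) (XT.nd (nat_lit 78) (nat_lit 608) (nat_lit 0) (XT.lf (nat_lit 0) (nat_lit 1088517207) (nat_lit 608) (nat_lit 3120462296) (nat_lit 76) (nat_lit 15782713695) (nat_lit 206) (nat_lit 5) (nat_lit 214) (nat_lit 5) (nat_lit 207) (nat_lit 5) (nat_lit 485) (nat_lit 428) (nat_lit 227)) (XT.lf (nat_lit 0) (nat_lit 4144819366) (nat_lit 684) (nat_lit 12831520582) (nat_lit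 76) (nat_lit 3256557637) (nat_lit 198) (nat_lit 5) (nat_lit 207) (nat_lit 5) (nat_lit 199) (nat_lit 5) (nat_lit 486) (nat_lit 428) (nat_lit 226))) (XT.nd (nat_lit 78) (nat_lit 532) (nat_lit 0) (XT.lf (nat_lit 0) (nat_lit 7305427808) (nat_lit 684) (nat_lit 2337772465) (nat_lit 76) (nat_lit 10834864784) (nat_lit 198) (nat_lit 5) (nat_lit 207) (nat_lit 5) (nat_lit 199) (nat_lit 5) (nat_lit 487) (nat_lit 428) (nat_lit 225)) (XT.nd (nat_lit 78) (nat_lit 0) (nat_lit 0) (XT.lf (nat_lit 0) (nat_lit 8469871491) (nat_lit 532) (nat_lit 2108709718) (nat_lit 608) (nat_lit 10148570562) (nat_lit 191) (nat_lit 5) (nat_lit 198) (nat_lit 5) (nat_lit 199) (nat_lit 5) (nat_lit 488) (nat_lit 428) (nat_lit 224)) (XT.lf (nat_lit 0) (nat_lit 13963592341) (nat_lit 608) (nat_lit 1498980739) (nat_lit 76) (nat_lit 5517721747) (nat_lit 191) (nat_lit 5) (nat_lit 199) (nat_lit 5) (nat_lit 192) (nat_lit 5) (nat_lit 489) (nat_lit 428) (nat_lit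 223))))) (XT.nd (nat_lit 156) (nat_lit 1140) (nat_lit 0) (XT.nd (nat_lit 78) (nat_lit 0) (nat_lit 0) (XT.lf (nat_lit 0) (nat_lit 9579170328) (nat_lit 532) (nat_lit 7907799463) (nat_lit 608) (nat_lit 3750120082) (nat_lit 184) (nat_lit 5) (nat_lit 191) (nat_lit 5) (nat_lit 192) (nat_lit 5) (nat_lit 490) (nat_lit 428) (nat_lit 222)) (XT.lf (nat_lit 0) (nat_lit 20892267390) (nat_lit 532) (nat_lit 193175830) (nat_lit 608) (nat_lit 413487433) (nat_lit 184) (nat_lit 5) (nat_lit 191) (nat_lit 5) (nat_lit 192) (nat_lit 5) (nat_lit 491) (nat_lit 428) (nat_lit 221))) (XT.nd (nat_lit 78) (nat_lit 532) (nat_lit 0) (XT.lf (nat_lit 0) (nat_lit 3065717349) (nat_lit 608) (nat_lit 11034024589) (nat_lit 76) (nat_lit 7663579330) (nat_lit 176) (nat_lit 5) (nat_lit 184) (nat_lit 5) (nat_lit 177) (nat_lit 5) (nat_lit 492) (nat_lit 428) (nat_lit 220)) (XT.nd (nat_lit 78) (nat_lit 0) (nat_lit 0) (XT.lf (nat_lit 0) (nat_lit 259715841)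 (nat_lit 532) (nat_lit 6351011768) (nat_lit 608) (nat_lit 15422184528) (nat_lit 169) (nat_lit 5) (nat_lit 176) (nat_lit 5) (nat_lit 177) (nat_lit 5) (nat_lit 493) (nat_lit 428) (nat_lit 219)) (XT.lf (nat_lit 0) (nat_lit 10305991784) (nat_lit 608) (nat_lit 10395063125) (nat_lit 76) (nat_lit 1605255059) (nat_lit 169) (nat_lit 5) (nat_lit 177) (nat_lit 5) (nat_lit 170) (nat_lit 5) (nat_lit 494) (nat_lit 428) (nat_lit 218)))))) (XT.nd (nat_lit 54444) (nat_lit 0) (nat_lit 19000) (XT.nd (nat_lit 54210) (nat_lit 0) (nat_lit 18924) (XT.nd (nat_lit 78) (nat_lit 0) (nat_lit 0) (XT.lf (nat_lit 0) (nat_lit 1177170757) (nat_lit 456) (nat_lit 12942534439) (nat_lit 532) (nat_lit 8464581858) (nat_lit 163) (nat_lit 5) (nat_lit 169) (nat_lit 5) (nat_lit 170) (nat_lit 5) (nat_lit 495) (nat_lit 428) (nat_lit 217)) (XT.lf (nat_lit 0) (nat_lit 13114961063) (nat_lit 456) (nat_lit 4959386485) (nat_lit 532) (nat_lit 4792185174)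 (nat_lit 163) (nat_lit 5) (nat_lit 169) (nat_lit 5) (nat_lit 170) (nat_lit 5) (nat_lit 496) (nat_lit 428) (nat_lit 216))) (XT.nd (nat_lit 78) (nat_lit 0) (nat_lit 0) (XT.lf (nat_lit 0) (nat_lit 1208683817) (nat_lit 0) (nat_lit 1208683817) (nat_lit 1596) (nat_lit 3157317712) (nat_lit 412) (nat_lit 5) (nat_lit 412) (nat_lit 3) (nat_lit 433) (nat_lit 3) (nat_lit 429) (nat_lit 429) (nat_lit 282)) (XT.nd (nat_lit 78) (nat_lit 0) (nat_lit 0) (XT.lf (nat_lit 0) (nat_lit 5436916384) (nat_lit 1596) (nat_lit 3554469810) (nat_lit 1672) (nat_lit 2258069707) (nat_lit 412) (nat_lit 5) (nat_lit 433) (nat_lit 3) (nat_lit 434) (nat_lit 5) (nat_lit 430) (nat_lit 429) (nat_lit 281)) (XT.lf (nat_lit 76) (nat_lit 1725833520) (nat_lit 0) (nat_lit 4338430221) (nat_lit 1672) (nat_lit 5287025321) (nat_lit 413) (nat_lit 5) (nat_lit 412) (nat_lit 5) (nat_lit 434) (nat_lit 5) (nat_lit 431) (nat_lit 429) (nat_lit 280))))) (XT.nd (nat_lit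 156) (nat_lit 0) (nat_lit 0) (XT.nd (nat_lit 78) (nat_lit 0) (nat_lit 0) (XT.lf (nat_lit 0) (nat_lit 6716993768) (nat_lit 1596) (nat_lit 4305246879) (nat_lit 1672) (nat_lit 432670058) (nat_lit 413) (nat_lit 5) (nat_lit 434) (nat_lit 5) (nat_lit 435) (nat_lit 5) (nat_lit 432) (nat_lit 429) (nat_lit 279)) (XT.lf (nat_lit 76) (nat_lit 1099520275) (nat_lit 0) (nat_lit 6305578344) (nat_lit 1672) (nat_lit 4155068123) (nat_lit 414) (nat_lit 5) (nat_lit 413) (nat_lit 5) (nat_lit 435) (nat_lit 5) (nat_lit 433) (nat_lit 429) (nat_lit 278))) (XT.nd (nat_lit 78) (nat_lit 0) (nat_lit 76) (XT.lf (nat_lit 76) (nat_lit 6663256338) (nat_lit 0) (nat_lit 1459266872) (nat_lit 1672) (nat_lit 3544701740) (nat_lit 414) (nat_lit 5) (nat_lit 413) (nat_lit 5) (nat_lit 435) (nat_lit 5) (nat_lit 434) (nat_lit 429) (nat_lit 277)) (XT.nd (nat_lit 78) (nat_lit 0) (nat_lit 0) (XT.lf (nat_lit 76) (nat_lit 538641821) (nat_lit 0) (nat_lit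 8328737763) (nat_lit 1672) (nat_lit 2908791114) (nat_lit 415) (nat_lit 5) (nat_lit 414) (nat_lit 5) (nat_lit 436) (nat_lit 5) (nat_lit 435) (nat_lit 429) (nat_lit 276)) (XT.lf (nat_lit 76) (nat_lit 6242547310) (nat_lit 0) (nat_lit 3414937558) (nat_lit 1672) (nat_lit 2229211339) (nat_lit 415) (nat_lit 5) (nat_lit 414) (nat_lit 5) (nat_lit 436) (nat_lit 5) (nat_lit 436) (nat_lit 429) (nat_lit 275))))))) (XT.nd (nat_lit 780) (nat_lit 3040) (nat_lit 0) (XT.nd (nat_lit 390) (nat_lit 0) (nat_lit 76) (XT.nd (nat_lit 156) (nat_lit 1596) (nat_lit 0) (XT.nd (nat_lit 78) (nat_lit 0) (nat_lit 0) (XT.lf (nat_lit 76) (nat_lit 43561852) (nat_lit 0) (nat_lit 10417939842) (nat_lit 1672) (nat_lit 1537976073) (nat_lit 416) (nat_lit 5) (nat_lit 415) (nat_lit 5) (nat_lit 437) (nat_lit 5) (nat_lit 437) (nat_lit 429) (nat_lit 274)) (XT.lf (nat_lit 76) (nat_lit 5890931160) (nat_lit 0) (nat_lit 5438662551) (nat_lit 1672) (nat_lit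 783968928) (nat_lit 416) (nat_lit 5) (nat_lit 415) (nat_lit 5) (nat_lit 437) (nat_lit 5) (nat_lit 438) (nat_lit 429) (nat_lit 273))) (XT.nd (nat_lit 78) (nat_lit 1596) (nat_lit 0) (XT.lf (nat_lit 76) (nat_lit 11847711035) (nat_lit 0) (nat_lit 355231582) (nat_lit 1672) (nat_lit 27236119) (nat_lit 416) (nat_lit 5) (nat_lit 415) (nat_lit 5) (nat_lit 437) (nat_lit 5) (nat_lit 439) (nat_lit 429) (nat_lit 272)) (XT.nd (nat_lit 78) (nat_lit 0) (nat_lit 0) (XT.lf (nat_lit 0) (nat_lit 791166436) (nat_lit 1672) (nat_lit 6744179241) (nat_lit 1748) (nat_lit 4812565903) (nat_lit 394) (nat_lit 5) (nat_lit 416) (nat_lit 5) (nat_lit 417) (nat_lit 5) (nat_lit 440) (nat_lit 429) (nat_lit 271)) (XT.lf (nat_lit 0) (nat_lit 1618768721) (nat_lit 1672) (nat_lit 763432171) (nat_lit 1748) (nat_lit 10085937661) (nat_lit 394) (nat_lit 5) (nat_lit 416) (nat_lit 5) (nat_lit 417) (nat_lit 5) (nat_lit 441) (nat_lit 429) (nat_lit 270)))))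 (XT.nd (nat_lit 156) (nat_lit 0) (nat_lit 76) (XT.nd (nat_lit 78) (nat_lit 0) (nat_lit 0) (XT.lf (nat_lit 0) (nat_lit 2505391812) (nat_lit 1672) (nat_lit 7209092668) (nat_lit 1748) (nat_lit 2875443075) (nat_lit 395) (nat_lit 5) (nat_lit 417) (nat_lit 5) (nat_lit 418) (nat_lit 5) (nat_lit 442) (nat_lit 429) (nat_lit 269)) (XT.lf (nat_lit 0) (nat_lit 3419371564) (nat_lit 1672) (nat_lit 1079354714) (nat_lit 1748) (nat_lit 8215240303) (nat_lit 395) (nat_lit 5) (nat_lit 417) (nat_lit 5) (nat_lit 418) (nat_lit 5) (nat_lit 443) (nat_lit 429) (nat_lit 268))) (XT.nd (nat_lit 78) (nat_lit 0) (nat_lit 0) (XT.lf (nat_lit 0) (nat_lit 4380105890) (nat_lit 1672) (nat_lit 7611669893) (nat_lit 1748) (nat_lit 848147701) (nat_lit 396) (nat_lit 5) (nat_lit 418) (nat_lit 5) (nat_lit 419) (nat_lit 5) (nat_lit 444) (nat_lit 429) (nat_lit 267)) (XT.nd (nat_lit 78) (nat_lit 0) (nat_lit 0) (XT.lf (nat_lit 0) (nat_lit 5386240875)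 (nat_lit 1672) (nat_lit 1329323264) (nat_lit 1748) (nat_lit 6252318134) (nat_lit 396) (nat_lit 5) (nat_lit 418) (nat_lit 5) (nat_lit 419) (nat_lit 5) (nat_lit 445) (nat_lit 429) (nat_lit 266)) (XT.lf (nat_lit 76) (nat_lit 5138342202) (nat_lit 0) (nat_lit 1296833644) (nat_lit 1748) (nat_lit 6662777186) (nat_lit 397) (nat_lit 5) (nat_lit 396) (nat_lit 5) (nat_lit 419) (nat_lit 5) (nat_lit 446) (nat_lit 429) (nat_lit 265)))))) (XT.nd (nat_lit 390) (nat_lit 3268) (nat_lit 0) (XT.nd (nat_lit 156) (nat_lit 0) (nat_lit 76) (XT.nd (nat_lit 78) (nat_lit 0) (nat_lit 0) (XT.lf (nat_lit 0) (nat_lit 7531028801) (nat_lit 1672) (nat_lit 1512494151) (nat_lit 1748) (nat_lit 4186589684) (nat_lit 397) (nat_lit 5) (nat_lit 419) (nat_lit 5) (nat_lit 420) (nat_lit 5) (nat_lit 447) (nat_lit 429) (nat_lit 264)) (XT.lf (nat_lit 76) (nat_lit 5114303675) (nat_lit 0) (nat_lit 3565988916) (nat_lit 1748) (nat_lit 4683999061) (nat_lit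 398) (nat_lit 5) (nat_lit 397) (nat_lit 5) (nat_lit 420) (nat_lit 5) (nat_lit 448) (nat_lit 429) (nat_lit 263))) (XT.nd (nat_lit 78) (nat_lit 0) (nat_lit 0) (XT.lf (nat_lit 0) (nat_lit 9865748721) (nat_lit 1672) (nat_lit 1627922822) (nat_lit 1748) (nat_lit 2007224536) (nat_lit 398) (nat_lit 5) (nat_lit 420) (nat_lit 5) (nat_lit 421) (nat_lit 5) (nat_lit 449) (nat_lit 429) (nat_lit 262)) (XT.nd (nat_lit 78) (nat_lit 0) (nat_lit 0) (XT.lf (nat_lit 76) (nat_lit 5162913915) (nat_lit 0) (nat_lit 5959203531) (nat_lit 1748) (nat_lit 2517176939) (nat_lit 399) (nat_lit 5) (nat_lit 398) (nat_lit 5) (nat_lit 421) (nat_lit 5) (nat_lit 450) (nat_lit 429) (nat_lit 261)) (XT.lf (nat_lit 76) (nat_lit 12103918963) (nat_lit 0) (nat_lit 300830072) (nat_lit 1748) (nat_lit 1375694654) (nat_lit 399) (nat_lit 5) (nat_lit 398) (nat_lit 5) (nat_lit 421) (nat_lit 5) (nat_lit 451) (nat_lit 429) (nat_lit 260))))) (XT.nd (nat_lit 234)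 (nat_lit 1672) (nat_lit 0) (XT.nd (nat_lit 78) (nat_lit 1748) (nat_lit 0) (XT.lf (nat_lit 76) (nat_lit 5285352161) (nat_lit 0) (nat_lit 8487932995) (nat_lit 1748) (nat_lit 149931416) (nat_lit 400) (nat_lit 5) (nat_lit 399) (nat_lit 5) (nat_lit 422) (nat_lit 5) (nat_lit 452) (nat_lit 429) (nat_lit 259)) (XT.nd (nat_lit 78) (nat_lit 0) (nat_lit 76) (XT.lf (nat_lit 0) (nat_lit 1089719125) (nat_lit 1748) (nat_lit 1676494050) (nat_lit 1824) (nat_lit 11302418200) (nat_lit 376) (nat_lit 5) (nat_lit 399) (nat_lit 5) (nat_lit 400) (nat_lit 5) (nat_lit 453) (nat_lit 429) (nat_lit 258)) (XT.lf (nat_lit 0) (nat_lit 2398642548) (nat_lit 1748) (nat_lit 8749221843) (nat_lit 76) (nat_lit 3068145817) (nat_lit 377) (nat_lit 5) (nat_lit 400) (nat_lit 5) (nat_lit 378) (nat_lit 5) (nat_lit 454) (nat_lit 429) (nat_lit 257)))) (XT.nd (nat_lit 78) (nat_lit 1748) (nat_lit 0) (XT.lf (nat_lit 0) (nat_lit 3754204342) (nat_lit 1748)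 (nat_lit 1616693594) (nat_lit 76) (nat_lit 8995034686) (nat_lit 377) (nat_lit 5) (nat_lit 400) (nat_lit 5) (nat_lit 378) (nat_lit 5) (nat_lit 455) (nat_lit 429) (nat_lit 256)) (XT.nd (nat_lit 78) (nat_lit 0) (nat_lit 0) (XT.lf (nat_lit 0) (nat_lit 5168690959) (nat_lit 1824) (nat_lit 8796051230) (nat_lit 76) (nat_lit 553480121) (nat_lit 354) (nat_lit 5) (nat_lit 378) (nat_lit 5) (nat_lit 355) (nat_lit 5) (nat_lit 456) (nat_lit 429) (nat_lit 255)) (XT.lf (nat_lit 0) (nat_lit 6649087814) (nat_lit 1824) (nat_lit 1487089683) (nat_lit 76) (nat_lit 6536632886) (nat_lit 354) (nat_lit 5) (nat_lit 378) (nat_lit 5) (nat_lit 355) (nat_lit 5) (nat_lit 457) (nat_lit 429) (nat_lit 254))))))))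
noncomputable def xc214 : XT := (XT.nd (nat_lit 1560) (nat_lit 5852) (nat_lit 0) (XT.nd (nat_lit 780) (nat_lit 3572) (nat_lit 0) (XT.nd (nat_lit 390) (nat_lit 2432) (nat_lit 0) (XT.nd (nat_lit 156) (nat_lit 1748) (nat_lit 0) (XT.nd (nat_lit 78) (nat_lit 0) (nat_lit 0) (XT.lf (nat_lit 0) (nat_lit 6039578989) (nat_lit 912) (nat_lit 2150031405) (nat_lit 988) (nat_lit 6640274367) (nat_lit 342) (nat_lit 5) (nat_lit 354) (nat_lit 5) (nat_lit 355) (nat_lit 5) (nat_lit 458) (nat_lit 429) (nat_lit 253)) (XT.lf (nat_lit 0) (nat_lit 9788104489) (nat_lit 988) (nat_lit 1286526265) (nat_lit 76) (nat_lit 3914931458) (nat_lit 342) (nat_lit 5) (nat_lit 355) (nat_lit 5) (nat_lit 343) (nat_lit 5) (nat_lit 459) (nat_lit 429) (nat_lit 252))) (XT.nd (nat_lit 78) (nat_lit 836) (nat_lit 0) (XT.lf (nat_lit 0) (nat_lit 6429756710) (nat_lit 912) (nat_lit 5036396520) (nat_lit 988) (nat_lit 3685332998) (nat_lit 330) (nat_lit 5) (nat_lit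 342) (nat_lit 5) (nat_lit 343) (nat_lit 5) (nat_lit 460) (nat_lit 429) (nat_lit 251)) (XT.nd (nat_lit 78) (nat_lit 836) (nat_lit 0) (XT.lf (nat_lit 0) (nat_lit 13185461642) (nat_lit 988) (nat_lit 1013802576) (nat_lit 76) (nat_lit 1117235150) (nat_lit 330) (nat_lit 5) (nat_lit 343) (nat_lit 5) (nat_lit 331) (nat_lit 5) (nat_lit 461) (nat_lit 429) (nat_lit 250)) (XT.lf (nat_lit 0) (nat_lit 6897762115) (nat_lit 836) (nat_lit 8111414508) (nat_lit 912) (nat_lit 474240268) (nat_lit 319) (nat_lit 5) (nat_lit 330) (nat_lit 5) (nat_lit 331) (nat_lit 5) (nat_lit 462) (nat_lit 429) (nat_lit 249))))) (XT.nd (nat_lit 156) (nat_lit 1520) (nat_lit 0) (XT.nd (nat_lit 78) (nat_lit 836) (nat_lit 0) (XT.lf (nat_lit 0) (nat_lit 1198531775) (nat_lit 912) (nat_lit 687868265) (nat_lit 76) (nat_lit 13767143562) (nat_lit 318) (nat_lit 5) (nat_lit 330) (nat_lit 5) (nat_lit 319) (nat_lit 5) (nat_lit 463) (nat_lit 429) (nat_lit 248))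 (XT.lf (nat_lit 0) (nat_lit 2968231516) (nat_lit 912) (nat_lit 8400562135) (nat_lit 76) (nat_lit 4456824322) (nat_lit 307) (nat_lit 5) (nat_lit 319) (nat_lit 5) (nat_lit 308) (nat_lit 5) (nat_lit 464) (nat_lit 429) (nat_lit 247))) (XT.nd (nat_lit 78) (nat_lit 1520) (nat_lit 0) (XT.lf (nat_lit 0) (nat_lit 4782665502) (nat_lit 912) (nat_lit 311657737) (nat_lit 76) (nat_lit 10906627970) (nat_lit 307) (nat_lit 5) (nat_lit 319) (nat_lit 5) (nat_lit 308) (nat_lit 5) (nat_lit 465) (nat_lit 429) (nat_lit 246)) (XT.nd (nat_lit 78) (nat_lit 760) (nat_lit 0) (XT.lf (nat_lit 0) (nat_lit 6686746686) (nat_lit 836) (nat_lit 8150803078) (nat_lit 76) (nat_lit 1341178277) (nat_lit 297) (nat_lit 5) (nat_lit 308) (nat_lit 5) (nat_lit 298) (nat_lit 5) (nat_lit 466) (nat_lit 429) (nat_lit 245)) (XT.lf (nat_lit 0) (nat_lit 138965205) (nat_lit 760) (nat_lit 8519145036) (nat_lit 836) (nat_lit 7701370173) (nat_lit 287) (nat_lit 5)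 (nat_lit 297) (nat_lit 5) (nat_lit 298) (nat_lit 5) (nat_lit 467) (nat_lit 429) (nat_lit 244)))))) (XT.nd (nat_lit 390) (nat_lit 1976) (nat_lit 0) (XT.nd (nat_lit 156) (nat_lit 836) (nat_lit 0) (XT.nd (nat_lit 78) (nat_lit 760) (nat_lit 0) (XT.lf (nat_lit 0) (nat_lit 8697453614) (nat_lit 760) (nat_lit 2018698476) (nat_lit 836) (nat_lit 5826754667) (nat_lit 287) (nat_lit 5) (nat_lit 297) (nat_lit 5) (nat_lit 298) (nat_lit 5) (nat_lit 468) (nat_lit 429) (nat_lit 243)) (XT.lf (nat_lit 0) (nat_lit 668371020) (nat_lit 760) (nat_lit 12173965936) (nat_lit 836) (nat_lit 3887128892) (nat_lit 277) (nat_lit 5) (nat_lit 287) (nat_lit 5) (nat_lit 288) (nat_lit 5) (nat_lit 469) (nat_lit 429) (nat_lit 242))) (XT.nd (nat_lit 78) (nat_lit 836) (nat_lit 0) (XT.lf (nat_lit 0) (nat_lit 9437759709) (nat_lit 760) (nat_lit 5632008285) (nat_lit 836) (nat_lit 1848817466) (nat_lit 277) (nat_lit 5) (nat_lit 287) (nat_lit 5) (nat_lit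 288) (nat_lit 5) (nat_lit 470) (nat_lit 429) (nat_lit 241)) (XT.nd (nat_lit 78) (nat_lit 0) (nat_lit 0) (XT.lf (nat_lit 0) (nat_lit 235248904) (nat_lit 836) (nat_lit 15839394828) (nat_lit 76) (nat_lit 1036657301) (nat_lit 266) (nat_lit 5) (nat_lit 277) (nat_lit 5) (nat_lit 267) (nat_lit 5) (nat_lit 471) (nat_lit 429) (nat_lit 240)) (XT.lf (nat_lit 0) (nat_lit 2417068983) (nat_lit 836) (nat_lit 7063199787) (nat_lit 76) (nat_lit 7825744745) (nat_lit 266) (nat_lit 5) (nat_lit 277) (nat_lit 5) (nat_lit 267) (nat_lit 5) (nat_lit 472) (nat_lit 429) (nat_lit 239))))) (XT.nd (nat_lit 156) (nat_lit 1292) (nat_lit 0) (XT.nd (nat_lit 78) (nat_lit 0) (nat_lit 0) (XT.lf (nat_lit 0) (nat_lit 1906110396) (nat_lit 684) (nat_lit 2741902670) (nat_lit 760) (nat_lit 12856500927) (nat_lit 257) (nat_lit 5) (nat_lit 266) (nat_lit 5) (nat_lit 267) (nat_lit 5) (nat_lit 473) (nat_lit 429) (nat_lit 238)) (XT.lf (nat_lit 0) (nat_lit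 6991305931) (nat_lit 760) (nat_lit 6590117623) (nat_lit 76) (nat_lit 4124209762) (nat_lit 257) (nat_lit 5) (nat_lit 267) (nat_lit 5) (nat_lit 258) (nat_lit 5) (nat_lit 474) (nat_lit 429) (nat_lit 237))) (XT.nd (nat_lit 78) (nat_lit 608) (nat_lit 0) (XT.lf (nat_lit 0) (nat_lit 2607019433) (nat_lit 684) (nat_lit 6802858963) (nat_lit 760) (nat_lit 8500331718) (nat_lit 248) (nat_lit 5) (nat_lit 257) (nat_lit 5) (nat_lit 258) (nat_lit 5) (nat_lit 475) (nat_lit 429) (nat_lit 236)) (XT.nd (nat_lit 78) (nat_lit 608) (nat_lit 0) (XT.lf (nat_lit 0) (nat_lit 11915468559) (nat_lit 760) (nat_lit 6049009287) (nat_lit 76) (nat_lit 153630975) (nat_lit 248) (nat_lit 5) (nat_lit 258) (nat_lit 5) (nat_lit 249) (nat_lit 5) (nat_lit 476) (nat_lit 429) (nat_lit 235)) (XT.lf (nat_lit 0) (nat_lit 3382278606) (nat_lit 608) (nat_lit 11149440959) (nat_lit 684) (nat_lit 3797238190) (nat_lit 240) (nat_lit 5) (nat_lit 248) (nat_lit 5)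 (nat_lit 249) (nat_lit 5) (nat_lit 477) (nat_lit 429) (nat_lit 234))))))) (XT.nd (nat_lit 780) (nat_lit 2660) (nat_lit 0) (XT.nd (nat_lit 390) (nat_lit 1824) (nat_lit 0) (XT.nd (nat_lit 156) (nat_lit 608) (nat_lit 0) (XT.nd (nat_lit 78) (nat_lit 760) (nat_lit 0) (XT.lf (nat_lit 0) (nat_lit 13076951821) (nat_lit 608) (nat_lit 4157552548) (nat_lit 684) (nat_lit 1308838294) (nat_lit 240) (nat_lit 5) (nat_lit 248) (nat_lit 5) (nat_lit 249) (nat_lit 5) (nat_lit 478) (nat_lit 429) (nat_lit 233)) (XT.lf (nat_lit 0) (nat_lit 1253998926) (nat_lit 760) (nat_lit 14536972405) (nat_lit 76) (nat_lit 2970071508) (nat_lit 230) (nat_lit 5) (nat_lit 240) (nat_lit 5) (nat_lit 231) (nat_lit 5) (nat_lit 479) (nat_lit 429) (nat_lit 232))) (XT.nd (nat_lit 78) (nat_lit 608) (nat_lit 0) (XT.lf (nat_lit 0) (nat_lit 3908811430) (nat_lit 760) (nat_lit 4843623879) (nat_lit 76) (nat_lit 10229326791) (nat_lit 230) (nat_lit 5) (nat_lit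 240) (nat_lit 5) (nat_lit 231) (nat_lit 5) (nat_lit 480) (nat_lit 429) (nat_lit 231)) (XT.nd (nat_lit 78) (nat_lit 0) (nat_lit 0) (XT.lf (nat_lit 0) (nat_lit 5103410413) (nat_lit 608) (nat_lit 1540335432) (nat_lit 684) (nat_lit 12562612319) (nat_lit 222) (nat_lit 5) (nat_lit 230) (nat_lit 5) (nat_lit 231) (nat_lit 5) (nat_lit 481) (nat_lit 429) (nat_lit 230)) (XT.lf (nat_lit 0) (nat_lit 9497816981) (nat_lit 684) (nat_lit 4164914149) (nat_lit 76) (nat_lit 5771429128) (nat_lit 222) (nat_lit 5) (nat_lit 231) (nat_lit 5) (nat_lit 223) (nat_lit 5) (nat_lit 482) (nat_lit 429) (nat_lit 229))))) (XT.nd (nat_lit 156) (nat_lit 1216) (nat_lit 0) (XT.nd (nat_lit 78) (nat_lit 0) (nat_lit 0) (XT.lf (nat_lit 0) (nat_lit 6033770636) (nat_lit 608) (nat_lit 6418651652) (nat_lit 684) (nat_lit 7213229867) (nat_lit 214) (nat_lit 5) (nat_lit 222) (nat_lit 5) (nat_lit 223) (nat_lit 5) (nat_lit 483) (nat_lit 429) (nat_lit 228))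 (XT.lf (nat_lit 0) (nat_lit 15494693357) (nat_lit 684) (nat_lit 3421922906) (nat_lit 76) (nat_lit 984588912) (nat_lit 214) (nat_lit 5) (nat_lit 223) (nat_lit 5) (nat_lit 215) (nat_lit 5) (nat_lit 484) (nat_lit 429) (nat_lit 227))) (XT.nd (nat_lit 78) (nat_lit 684) (nat_lit 0) (XT.lf (nat_lit 0) (nat_lit 7035023602) (nat_lit 532) (nat_lit 11645224722) (nat_lit 608) (nat_lit 1459574871) (nat_lit 207) (nat_lit 5) (nat_lit 214) (nat_lit 5) (nat_lit 215) (nat_lit 5) (nat_lit 485) (nat_lit 429) (nat_lit 226)) (XT.nd (nat_lit 78) (nat_lit 608) (nat_lit 0) (XT.lf (nat_lit 0) (nat_lit 1543418071) (nat_lit 608) (nat_lit 2652453876) (nat_lit 76) (nat_lit 16186795489) (nat_lit 206) (nat_lit 5) (nat_lit 214) (nat_lit 5) (nat_lit 207) (nat_lit 5) (nat_lit 486) (nat_lit 429) (nat_lit 225)) (XT.lf (nat_lit 0) (nat_lit 4656416608) (nat_lit 684) (nat_lit 12553110510) (nat_lit 76) (nat_lit 3419261249) (nat_lit 198) (nat_lit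 5) (nat_lit 207) (nat_lit 5) (nat_lit 199) (nat_lit 5) (nat_lit 487) (nat_lit 429) (nat_lit 224)))))) (XT.nd (nat_lit 390) (nat_lit 1596) (nat_lit 0) (XT.nd (nat_lit 156) (nat_lit 532) (nat_lit 0) (XT.nd (nat_lit 78) (nat_lit 532) (nat_lit 0) (XT.lf (nat_lit 0) (nat_lit 7871831320) (nat_lit 684) (nat_lit 1859978421) (nat_lit 76) (nat_lit 11147221353) (nat_lit 198) (nat_lit 5) (nat_lit 207) (nat_lit 5) (nat_lit 199) (nat_lit 5) (nat_lit 488) (nat_lit 429) (nat_lit 223)) (XT.lf (nat_lit 0) (nat_lit 9160367431) (nat_lit 532) (nat_lit 2045222598) (nat_lit 608) (nat_lit 9927610382) (nat_lit 191) (nat_lit 5) (nat_lit 198) (nat_lit 5) (nat_lit 199) (nat_lit 5) (nat_lit 489) (nat_lit 429) (nat_lit 222))) (XT.nd (nat_lit 78) (nat_lit 532) (nat_lit 0) (XT.lf (nat_lit 0) (nat_lit 14650828128) (nat_lit 608) (nat_lit 1010424194) (nat_lit 76) (nat_lit 5730307111) (nat_lit 191) (nat_lit 5) (nat_lit 199) (nat_lit 5) (nat_lit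 192) (nat_lit 5) (nat_lit 490) (nat_lit 429) (nat_lit 221)) (XT.nd (nat_lit 78) (nat_lit 0) (nat_lit 0) (XT.lf (nat_lit 0) (nat_lit 10285878472) (nat_lit 532) (nat_lit 7954139893) (nat_lit 608) (nat_lit 3413568678) (nat_lit 184) (nat_lit 5) (nat_lit 191) (nat_lit 5) (nat_lit 192) (nat_lit 5) (nat_lit 491) (nat_lit 429) (nat_lit 220)) (XT.lf (nat_lit 0) (nat_lit 21815136990) (nat_lit 532) (nat_lit 87416249) (nat_lit 608) (nat_lit 18273060) (nat_lit 184) (nat_lit 5) (nat_lit 191) (nat_lit 5) (nat_lit 192) (nat_lit 5) (nat_lit 492) (nat_lit 429) (nat_lit 219))))) (XT.nd (nat_lit 234) (nat_lit 456) (nat_lit 0) (XT.nd (nat_lit 78) (nat_lit 532) (nat_lit 0) (XT.lf (nat_lit 0) (nat_lit 3521445581) (nat_lit 608) (nat_lit 10740270926) (nat_lit 76) (nat_lit 7928814757) (nat_lit 176) (nat_lit 5) (nat_lit 184) (nat_lit 5) (nat_lit 177) (nat_lit 5) (nat_lit 493) (nat_lit 429) (nat_lit 218)) (XT.nd (nat_lit 78) (nat_lit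 0) (nat_lit 0) (XT.lf (nat_lit 0) (nat_lit 775959877) (nat_lit 532) (nat_lit 6356980637) (nat_lit 608) (nat_lit 15332665044) (nat_lit 169) (nat_lit 5) (nat_lit 176) (nat_lit 5) (nat_lit 177) (nat_lit 5) (nat_lit 494) (nat_lit 429) (nat_lit 217)) (XT.lf (nat_lit 0) (nat_lit 10895233482) (nat_lit 608) (nat_lit 10094897138) (nat_lit 76) (nat_lit 1754481490) (nat_lit 169) (nat_lit 5) (nat_lit 177) (nat_lit 5) (nat_lit 170) (nat_lit 5) (nat_lit 495) (nat_lit 429) (nat_lit 216)))) (XT.nd (nat_lit 54210) (nat_lit 0) (nat_lit 18924) (XT.lf (nat_lit 0) (nat_lit 1705438874) (nat_lit 456) (nat_lit 13075547101) (nat_lit 532) (nat_lit 8247250633) (nat_lit 163) (nat_lit 5) (nat_lit 169) (nat_lit 5) (nat_lit 170) (nat_lit 5) (nat_lit 496) (nat_lit 429) (nat_lit 215)) (XT.nd (nat_lit 78) (nat_lit 0) (nat_lit 0) (XT.lf (nat_lit 0) (nat_lit 1500596812) (nat_lit 0) (nat_lit 1500596812) (nat_lit 1596) (nat_lit 2673946186) (nat_lit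 412) (nat_lit 5) (nat_lit 412) (nat_lit 3) (nat_lit 433) (nat_lit 3) (nat_lit 430) (nat_lit 430) (nat_lit 280)) (XT.lf (nat_lit 0) (nat_lit 6592204311) (nat_lit 1596) (nat_lit 3075526061) (nat_lit 1672) (nat_lit 1785137240) (nat_lit 412) (nat_lit 5) (nat_lit 433) (nat_lit 3) (nat_lit 434) (nat_lit 5) (nat_lit 431) (nat_lit 430) (nat_lit 279))))))))
noncomputable def xc215 : XT := (XT.nd (nat_lit 1560) (nat_lit 9652) (nat_lit 0) (XT.nd (nat_lit 780) (nat_lit 0) (nat_lit 76) (XT.nd (nat_lit 390) (nat_lit 1444) (nat_lit 0) (XT.nd (nat_lit 156) (nat_lit 0) (nat_lit 76) (XT.nd (nat_lit 78) (nat_lit 0) (nat_lit 0) (XT.lf (nat_lit 76) (nat_lit 2306764696) (nat_lit 0) (nat_lit 4908361024) (nat_lit 1672) (nat_lit 4341963849) (nat_lit 413) (nat_lit 5) (nat_lit 412) (nat_lit 5) (nat_lit 434) (nat_lit 5) (nat_lit 432) (nat_lit 430) (nat_lit 278)) (XT.lf (nat_lit 76) (nat_lit 7831319111) (nat_lit 0) (nat_lit 26500014)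 (nat_lit 1672) (nat_lit 3805438771) (nat_lit 413) (nat_lit 5) (nat_lit 412) (nat_lit 5) (nat_lit 434) (nat_lit 5) (nat_lit 433) (nat_lit 430) (nat_lit 277))) (XT.nd (nat_lit 78) (nat_lit 0) (nat_lit 0) (XT.lf (nat_lit 76) (nat_lit 1677414287) (nat_lit 0) (nat_lit 6865977390) (nat_lit 1672) (nat_lit 3227565448) (nat_lit 414) (nat_lit 5) (nat_lit 413) (nat_lit 5) (nat_lit 435) (nat_lit 5) (nat_lit 434) (nat_lit 430) (nat_lit 276)) (XT.nd (nat_lit 78) (nat_lit 0) (nat_lit 76) (XT.lf (nat_lit 76) (nat_lit 7341525001) (nat_lit 0) (nat_lit 1914224249) (nat_lit 1672) (nat_lit 2624807502) (nat_lit 414) (nat_lit 5) (nat_lit 413) (nat_lit 5) (nat_lit 435) (nat_lit 5) (nat_lit 435) (nat_lit 430) (nat_lit 275)) (XT.lf (nat_lit 76) (nat_lit 1113459887) (nat_lit 0) (nat_lit 8883960013) (nat_lit 1672) (nat_lit 1994634880) (nat_lit 415) (nat_lit 5) (nat_lit 414) (nat_lit 5) (nat_lit 436) (nat_lit 5) (nat_lit 436) (nat_lit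 430) (nat_lit 274))))) (XT.nd (nat_lit 156) (nat_lit 1596) (nat_lit 0) (XT.nd (nat_lit 78) (nat_lit 0) (nat_lit 76) (XT.lf (nat_lit 76) (nat_lit 6920383775) (nat_lit 0) (nat_lit 3864263265) (nat_lit 1672) (nat_lit 1320528845) (nat_lit 415) (nat_lit 5) (nat_lit 414) (nat_lit 5) (nat_lit 436) (nat_lit 5) (nat_lit 437) (nat_lit 430) (nat_lit 273)) (XT.lf (nat_lit 76) (nat_lit 615365725) (nat_lit 0) (nat_lit 10972346009) (nat_lit 1672) (nat_lit 632853246) (nat_lit 416) (nat_lit 5) (nat_lit 415) (nat_lit 5) (nat_lit 437) (nat_lit 5) (nat_lit 438) (nat_lit 430) (nat_lit 272))) (XT.nd (nat_lit 78) (nat_lit 0) (nat_lit 0) (XT.lf (nat_lit 0) (nat_lit 116337344) (nat_lit 1672) (nat_lit 5769579900) (nat_lit 1748) (nat_lit 6451369631) (nat_lit 393) (nat_lit 5) (nat_lit 415) (nat_lit 5) (nat_lit 416) (nat_lit 5) (nat_lit 439) (nat_lit 430) (nat_lit 271)) (XT.nd (nat_lit 78) (nat_lit 0) (nat_lit 76) (XT.lf (nat_lit 76)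 (nat_lit 173428411) (nat_lit 0) (nat_lit 688024365) (nat_lit 1748) (nat_lit 11595025472) (nat_lit 394) (nat_lit 5) (nat_lit 393) (nat_lit 5) (nat_lit 416) (nat_lit 5) (nat_lit 440) (nat_lit 430) (nat_lit 270)) (XT.lf (nat_lit 0) (nat_lit 1678890001) (nat_lit 1672) (nat_lit 6301609369) (nat_lit 1748) (nat_lit 4596412550) (nat_lit 394) (nat_lit 5) (nat_lit 416) (nat_lit 5) (nat_lit 417) (nat_lit 5) (nat_lit 441) (nat_lit 430) (nat_lit 269)))))) (XT.nd (nat_lit 390) (nat_lit 0) (nat_lit 152) (XT.nd (nat_lit 156) (nat_lit 0) (nat_lit 76) (XT.nd (nat_lit 78) (nat_lit 0) (nat_lit 76) (XT.lf (nat_lit 0) (nat_lit 2505948249) (nat_lit 1672) (nat_lit 212569974) (nat_lit 1748) (nat_lit 9981377326) (nat_lit 394) (nat_lit 5) (nat_lit 416) (nat_lit 5) (nat_lit 417) (nat_lit 5) (nat_lit 442) (nat_lit 430) (nat_lit 268)) (XT.lf (nat_lit 0) (nat_lit 3395381125) (nat_lit 1672) (nat_lit 6771721304) (nat_lit 1748) (nat_lit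 2657326349) (nat_lit 395) (nat_lit 5) (nat_lit 417) (nat_lit 5) (nat_lit 418) (nat_lit 5) (nat_lit 443) (nat_lit 430) (nat_lit 267))) (XT.nd (nat_lit 78) (nat_lit 0) (nat_lit 76) (XT.lf (nat_lit 0) (nat_lit 4311172207) (nat_lit 1672) (nat_lit 530791596) (nat_lit 1748) (nat_lit 8109323944) (nat_lit 395) (nat_lit 5) (nat_lit 417) (nat_lit 5) (nat_lit 418) (nat_lit 5) (nat_lit 444) (nat_lit 430) (nat_lit 266)) (XT.nd (nat_lit 78) (nat_lit 0) (nat_lit 0) (XT.lf (nat_lit 0) (nat_lit 5277065547) (nat_lit 1672) (nat_lit 7179217109) (nat_lit 1748) (nat_lit 623771851) (nat_lit 396) (nat_lit 5) (nat_lit 418) (nat_lit 5) (nat_lit 419) (nat_lit 5) (nat_lit 445) (nat_lit 430) (nat_lit 265)) (XT.lf (nat_lit 0) (nat_lit 6287453475) (nat_lit 1672) (nat_lit 782687983) (nat_lit 1748) (nat_lit 6140757826) (nat_lit 396) (nat_lit 5) (nat_lit 418) (nat_lit 5) (nat_lit 419) (nat_lit 5) (nat_lit 446) (nat_lit 430) (nat_lit 264)))))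 (XT.nd (nat_lit 156) (nat_lit 0) (nat_lit 76) (XT.nd (nat_lit 78) (nat_lit 0) (nat_lit 76) (XT.lf (nat_lit 76) (nat_lit 5810559596) (nat_lit 0) (nat_lit 1534946216) (nat_lit 1748) (nat_lit 5998312106) (nat_lit 397) (nat_lit 5) (nat_lit 396) (nat_lit 5) (nat_lit 419) (nat_lit 5) (nat_lit 447) (nat_lit 430) (nat_lit 263)) (XT.lf (nat_lit 0) (nat_lit 8446599243) (nat_lit 1672) (nat_lit 967330003) (nat_lit 1748) (nat_lit 4065034052) (nat_lit 397) (nat_lit 5) (nat_lit 419) (nat_lit 5) (nat_lit 420) (nat_lit 5) (nat_lit 448) (nat_lit 430) (nat_lit 262))) (XT.nd (nat_lit 78) (nat_lit 0) (nat_lit 76) (XT.lf (nat_lit 76) (nat_lit 5788218160) (nat_lit 0) (nat_lit 3819342522) (nat_lit 1748) (nat_lit 4008499839) (nat_lit 398) (nat_lit 5) (nat_lit 397) (nat_lit 5) (nat_lit 420) (nat_lit 5) (nat_lit 449) (nat_lit 430) (nat_lit 261)) (XT.nd (nat_lit 78) (nat_lit 0) (nat_lit 0) (XT.lf (nat_lit 0) (nat_lit 10800789534) (nat_lit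 1672) (nat_lit 1083689848) (nat_lit 1748) (nat_lit 1871245085) (nat_lit 398) (nat_lit 5) (nat_lit 420) (nat_lit 5) (nat_lit 421) (nat_lit 5) (nat_lit 450) (nat_lit 430) (nat_lit 260)) (XT.lf (nat_lit 76) (nat_lit 5839168944) (nat_lit 0) (nat_lit 6232371752) (nat_lit 1748) (nat_lit 1825573470) (nat_lit 399) (nat_lit 5) (nat_lit 398) (nat_lit 5) (nat_lit 421) (nat_lit 5) (nat_lit 451) (nat_lit 430) (nat_lit 259))))))) (XT.nd (nat_lit 780) (nat_lit 4864) (nat_lit 0) (XT.nd (nat_lit 390) (nat_lit 3496) (nat_lit 0) (XT.nd (nat_lit 156) (nat_lit 0) (nat_lit 0) (XT.nd (nat_lit 78) (nat_lit 1672) (nat_lit 0) (XT.lf (nat_lit 76) (nat_lit 12907758863) (nat_lit 0) (nat_lit 457811527) (nat_lit 1748) (nat_lit 675809520) (nat_lit 399) (nat_lit 5) (nat_lit 398) (nat_lit 5) (nat_lit 421) (nat_lit 5) (nat_lit 452) (nat_lit 430) (nat_lit 258)) (XT.lf (nat_lit 0) (nat_lit 555640698) (nat_lit 1748) (nat_lit 8226221450) (nat_lit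 1824) (nat_lit 5405305424) (nat_lit 376) (nat_lit 5) (nat_lit 399) (nat_lit 5) (nat_lit 400) (nat_lit 5) (nat_lit 453) (nat_lit 430) (nat_lit 257))) (XT.nd (nat_lit 78) (nat_lit 0) (nat_lit 76) (XT.lf (nat_lit 0) (nat_lit 1804224329) (nat_lit 1748) (nat_lit 1138055964) (nat_lit 1824) (nat_lit 11393475483) (nat_lit 376) (nat_lit 5) (nat_lit 399) (nat_lit 5) (nat_lit 400) (nat_lit 5) (nat_lit 454) (nat_lit 430) (nat_lit 256)) (XT.nd (nat_lit 78) (nat_lit 0) (nat_lit 0) (XT.lf (nat_lit 0) (nat_lit 3128688680) (nat_lit 1748) (nat_lit 8341214488) (nat_lit 76) (nat_lit 3016399495) (nat_lit 377) (nat_lit 5) (nat_lit 400) (nat_lit 5) (nat_lit 378) (nat_lit 5) (nat_lit 455) (nat_lit 430) (nat_lit 255)) (XT.lf (nat_lit 0) (nat_lit 4497987724) (nat_lit 1748) (nat_lit 1077466885) (nat_lit 76) (nat_lit 9064043969) (nat_lit 377) (nat_lit 5) (nat_lit 400) (nat_lit 5) (nat_lit 378) (nat_lit 5) (nat_lit 456) (nat_lit 430)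 (nat_lit 254))))) (XT.nd (nat_lit 156) (nat_lit 1824) (nat_lit 0) (XT.nd (nat_lit 78) (nat_lit 0) (nat_lit 0) (XT.lf (nat_lit 0) (nat_lit 5930744950) (nat_lit 1824) (nat_lit 8390021268) (nat_lit 76) (nat_lit 474275652) (nat_lit 354) (nat_lit 5) (nat_lit 378) (nat_lit 5) (nat_lit 355) (nat_lit 5) (nat_lit 457) (nat_lit 430) (nat_lit 253)) (XT.lf (nat_lit 0) (nat_lit 7427834445) (nat_lit 1824) (nat_lit 946291293) (nat_lit 76) (nat_lit 6578861552) (nat_lit 354) (nat_lit 5) (nat_lit 378) (nat_lit 5) (nat_lit 355) (nat_lit 5) (nat_lit 458) (nat_lit 430) (nat_lit 252))) (XT.nd (nat_lit 78) (nat_lit 912) (nat_lit 0) (XT.lf (nat_lit 0) (nat_lit 6727157199) (nat_lit 912) (nat_lit 2263028176) (nat_lit 988) (nat_lit 6123204560) (nat_lit 342) (nat_lit 5) (nat_lit 354) (nat_lit 5) (nat_lit 355) (nat_lit 5) (nat_lit 459) (nat_lit 430) (nat_lit 251)) (XT.nd (nat_lit 78) (nat_lit 912) (nat_lit 0) (XT.lf (nat_lit 0) (nat_lit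 10607717865) (nat_lit 988) (nat_lit 743302268) (nat_lit 76) (nat_lit 3925506429) (nat_lit 342) (nat_lit 5) (nat_lit 355) (nat_lit 5) (nat_lit 343) (nat_lit 5) (nat_lit 460) (nat_lit 430) (nat_lit 250)) (XT.lf (nat_lit 0) (nat_lit 7123563245) (nat_lit 912) (nat_lit 5187201685) (nat_lit 988) (nat_lit 3131102241) (nat_lit 330) (nat_lit 5) (nat_lit 342) (nat_lit 5) (nat_lit 343) (nat_lit 5) (nat_lit 461) (nat_lit 430) (nat_lit 249)))))) (XT.nd (nat_lit 390) (nat_lit 2356) (nat_lit 0) (XT.nd (nat_lit 156) (nat_lit 1596) (nat_lit 0) (XT.nd (nat_lit 78) (nat_lit 912) (nat_lit 0) (XT.lf (nat_lit 0) (nat_lit 14052076267) (nat_lit 988) (nat_lit 467230277) (nat_lit 76) (nat_lit 1091128420) (nat_lit 330) (nat_lit 5) (nat_lit 343) (nat_lit 5) (nat_lit 331) (nat_lit 5) (nat_lit 462) (nat_lit 430) (nat_lit 248)) (XT.lf (nat_lit 0) (nat_lit 121622967) (nat_lit 912) (nat_lit 8182824452) (nat_lit 76) (nat_lit 7476397321)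 (nat_lit 318) (nat_lit 5) (nat_lit 330) (nat_lit 5) (nat_lit 319) (nat_lit 5) (nat_lit 463) (nat_lit 430) (nat_lit 247))) (XT.nd (nat_lit 78) (nat_lit 1596) (nat_lit 0) (XT.lf (nat_lit 0) (nat_lit 1809761137) (nat_lit 912) (nat_lit 141426849) (nat_lit 76) (nat_lit 14003364426) (nat_lit 318) (nat_lit 5) (nat_lit 330) (nat_lit 5) (nat_lit 319) (nat_lit 5) (nat_lit 464) (nat_lit 430) (nat_lit 246)) (XT.nd (nat_lit 78) (nat_lit 760) (nat_lit 0) (XT.lf (nat_lit 0) (nat_lit 3606804931) (nat_lit 912) (nat_lit 8000013982) (nat_lit 76) (nat_lit 4523416569) (nat_lit 307) (nat_lit 5) (nat_lit 319) (nat_lit 5) (nat_lit 308) (nat_lit 5) (nat_lit 465) (nat_lit 430) (nat_lit 245)) (XT.lf (nat_lit 0) (nat_lit 242703378) (nat_lit 760) (nat_lit 5205042975) (nat_lit 836) (nat_lit 10861530747) (nat_lit 297) (nat_lit 5) (nat_lit 307) (nat_lit 5) (nat_lit 308) (nat_lit 5) (nat_lit 466) (nat_lit 430) (nat_lit 244))))) (XT.nd (nat_lit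 234) (nat_lit 1596) (nat_lit 0) (XT.nd (nat_lit 78) (nat_lit 760) (nat_lit 0) (XT.lf (nat_lit 0) (nat_lit 7380751646) (nat_lit 836) (nat_lit 7748527634) (nat_lit 76) (nat_lit 1361519310) (nat_lit 297) (nat_lit 5) (nat_lit 308) (nat_lit 5) (nat_lit 298) (nat_lit 5) (nat_lit 467) (nat_lit 430) (nat_lit 243)) (XT.nd (nat_lit 78) (nat_lit 0) (nat_lit 0) (XT.lf (nat_lit 0) (nat_lit 703316991) (nat_lit 760) (nat_lit 8680885896) (nat_lit 836) (nat_lit 7291115772) (nat_lit 287) (nat_lit 5) (nat_lit 297) (nat_lit 5) (nat_lit 298) (nat_lit 5) (nat_lit 468) (nat_lit 430) (nat_lit 242)) (XT.lf (nat_lit 0) (nat_lit 9421963943) (nat_lit 760) (nat_lit 2050599857) (nat_lit 836) (nat_lit 5390072304) (nat_lit 287) (nat_lit 5) (nat_lit 297) (nat_lit 5) (nat_lit 298) (nat_lit 5) (nat_lit 469) (nat_lit 430) (nat_lit 241)))) (XT.nd (nat_lit 78) (nat_lit 836) (nat_lit 0) (XT.lf (nat_lit 0) (nat_lit 1239678508) (nat_lit 760) (nat_lit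 12394641113) (nat_lit 836) (nat_lit 3418751438) (nat_lit 277) (nat_lit 5) (nat_lit 287) (nat_lit 5) (nat_lit 288) (nat_lit 5) (nat_lit 470) (nat_lit 430) (nat_lit 240)) (XT.nd (nat_lit 78) (nat_lit 836) (nat_lit 0) (XT.lf (nat_lit 0) (nat_lit 10173514970) (nat_lit 760) (nat_lit 5722291449) (nat_lit 836) (nat_lit 1350382019) (nat_lit 277) (nat_lit 5) (nat_lit 287) (nat_lit 5) (nat_lit 288) (nat_lit 5) (nat_lit 471) (nat_lit 430) (nat_lit 239)) (XT.lf (nat_lit 0) (nat_lit 761746788) (nat_lit 836) (nat_lit 15595028150) (nat_lit 76) (nat_lit 1086051101) (nat_lit 266) (nat_lit 5) (nat_lit 277) (nat_lit 5) (nat_lit 267) (nat_lit 5) (nat_lit 472) (nat_lit 430) (nat_lit 238))))))))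
noncomputable def xc216 : XT := (XT.nd (nat_lit 1560) (nat_lit 1140) (nat_lit 0) (XT.nd (nat_lit 780) (nat_lit 2888) (nat_lit 0) (XT.nd (nat_lit 390) (nat_lit 1976) (nat_lit 0) (XT.nd (nat_lit 156) (nat_lit 684) (nat_lit 0) (XT.nd (nat_lit 78) (nat_lit 684) (nat_lit 0) (XT.lf (nat_lit 0) (nat_lit 2976972035) (nat_lit 836) (nat_lit 6654312239) (nat_lit 76) (nat_lit 8010358320) (nat_lit 266) (nat_lit 5) (nat_lit 277) (nat_lit 5) (nat_lit 267) (nat_lit 5) (nat_lit 473) (nat_lit 430) (nat_lit 237)) (XT.lf (nat_lit 0) (nat_lit 2490764729) (nat_lit 684) (nat_lit 2755288098) (nat_lit 760) (nat_lit 12598194995) (nat_lit 257) (nat_lit 5) (nat_lit 266) (nat_lit 5) (nat_lit 267) (nat_lit 5) (nat_lit 474) (nat_lit 430) (nat_lit 236))) (XT.nd (nat_lit 78) (nat_lit 684) (nat_lit 0) (XT.lf (nat_lit 0) (nat_lit 7626571891) (nat_lit 760) (nat_lit 6176214643) (nat_lit 76) (nat_lit 4246800787) (nat_lit 257) (nat_lit 5) (nat_lit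 267) (nat_lit 5) (nat_lit 258) (nat_lit 5) (nat_lit 475) (nat_lit 430) (nat_lit 235)) (XT.nd (nat_lit 78) (nat_lit 0) (nat_lit 0) (XT.lf (nat_lit 0) (nat_lit 3201274986) (nat_lit 684) (nat_lit 6886046083) (nat_lit 760) (nat_lit 8171063380) (nat_lit 248) (nat_lit 5) (nat_lit 257) (nat_lit 5) (nat_lit 258) (nat_lit 5) (nat_lit 476) (nat_lit 430) (nat_lit 234)) (XT.lf (nat_lit 0) (nat_lit 12633766531) (nat_lit 760) (nat_lit 5629007351) (nat_lit 76) (nat_lit 207857181) (nat_lit 248) (nat_lit 5) (nat_lit 258) (nat_lit 5) (nat_lit 249) (nat_lit 5) (nat_lit 477) (nat_lit 430) (nat_lit 233))))) (XT.nd (nat_lit 156) (nat_lit 1368) (nat_lit 0) (XT.nd (nat_lit 78) (nat_lit 0) (nat_lit 0) (XT.lf (nat_lit 0) (nat_lit 3987347207) (nat_lit 608) (nat_lit 11309073116) (nat_lit 684) (nat_lit 3389399807) (nat_lit 240) (nat_lit 5) (nat_lit 248) (nat_lit 5) (nat_lit 249) (nat_lit 5) (nat_lit 478) (nat_lit 430) (nat_lit 232))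 (XT.lf (nat_lit 0) (nat_lit 13865376179) (nat_lit 608) (nat_lit 4178589225) (nat_lit 684) (nat_lit 860717858) (nat_lit 240) (nat_lit 5) (nat_lit 248) (nat_lit 5) (nat_lit 249) (nat_lit 5) (nat_lit 479) (nat_lit 430) (nat_lit 231))) (XT.nd (nat_lit 78) (nat_lit 608) (nat_lit 0) (XT.lf (nat_lit 0) (nat_lit 1741855758) (nat_lit 760) (nat_lit 14288858003) (nat_lit 76) (nat_lit 3096072527) (nat_lit 230) (nat_lit 5) (nat_lit 240) (nat_lit 5) (nat_lit 231) (nat_lit 5) (nat_lit 480) (nat_lit 430) (nat_lit 230)) (XT.nd (nat_lit 78) (nat_lit 608) (nat_lit 0) (XT.lf (nat_lit 0) (nat_lit 4440690457) (nat_lit 760) (nat_lit 4412208267) (nat_lit 76) (nat_lit 10499207041) (nat_lit 230) (nat_lit 5) (nat_lit 240) (nat_lit 5) (nat_lit 231) (nat_lit 5) (nat_lit 481) (nat_lit 430) (nat_lit 229)) (XT.lf (nat_lit 0) (nat_lit 5730291131) (nat_lit 608) (nat_lit 1494543726) (nat_lit 684) (nat_lit 12356472931) (nat_lit 222) (nat_lit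 5) (nat_lit 230) (nat_lit 5) (nat_lit 231) (nat_lit 5) (nat_lit 482) (nat_lit 430) (nat_lit 228)))))) (XT.nd (nat_lit 390) (nat_lit 1672) (nat_lit 0) (XT.nd (nat_lit 156) (nat_lit 608) (nat_lit 0) (XT.nd (nat_lit 78) (nat_lit 608) (nat_lit 0) (XT.lf (nat_lit 0) (nat_lit 10127686481) (nat_lit 684) (nat_lit 3725180354) (nat_lit 76) (nat_lit 5960969291) (nat_lit 222) (nat_lit 5) (nat_lit 231) (nat_lit 5) (nat_lit 223) (nat_lit 5) (nat_lit 483) (nat_lit 430) (nat_lit 227)) (XT.lf (nat_lit 0) (nat_lit 6674037127) (nat_lit 608) (nat_lit 6462094549) (nat_lit 684) (nat_lit 6913935328) (nat_lit 214) (nat_lit 5) (nat_lit 222) (nat_lit 5) (nat_lit 223) (nat_lit 5) (nat_lit 484) (nat_lit 430) (nat_lit 226))) (XT.nd (nat_lit 78) (nat_lit 608) (nat_lit 0) (XT.lf (nat_lit 0) (nat_lit 16231266013) (nat_lit 684) (nat_lit 2972775238) (nat_lit 76) (nat_lit 1086453496) (nat_lit 214) (nat_lit 5) (nat_lit 223) (nat_lit 5) (nat_lit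 215) (nat_lit 5) (nat_lit 485) (nat_lit 430) (nat_lit 225)) (XT.nd (nat_lit 78) (nat_lit 76) (nat_lit 0) (XT.lf (nat_lit 0) (nat_lit 7689905028) (nat_lit 532) (nat_lit 11785599203) (nat_lit 608) (nat_lit 1058485392) (nat_lit 207) (nat_lit 5) (nat_lit 214) (nat_lit 5) (nat_lit 215) (nat_lit 5) (nat_lit 486) (nat_lit 430) (nat_lit 224)) (XT.lf (nat_lit 0) (nat_lit 1990597965) (nat_lit 608) (nat_lit 2195682052) (nat_lit 76) (nat_lit 16595525171) (nat_lit 206) (nat_lit 5) (nat_lit 214) (nat_lit 5) (nat_lit 207) (nat_lit 5) (nat_lit 487) (nat_lit 430) (nat_lit 223))))) (XT.nd (nat_lit 156) (nat_lit 1064) (nat_lit 0) (XT.nd (nat_lit 78) (nat_lit 0) (nat_lit 0) (XT.lf (nat_lit 0) (nat_lit 5161598819) (nat_lit 684) (nat_lit 12289908511) (nat_lit 76) (nat_lit 3581430075) (nat_lit 198) (nat_lit 5) (nat_lit 207) (nat_lit 5) (nat_lit 199) (nat_lit 5) (nat_lit 488) (nat_lit 430) (nat_lit 222)) (XT.lf (nat_lit 0) (nat_lit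 8433242336) (nat_lit 684) (nat_lit 1392997392) (nat_lit 76) (nat_lit 11462110487) (nat_lit 198) (nat_lit 5) (nat_lit 207) (nat_lit 5) (nat_lit 199) (nat_lit 5) (nat_lit 489) (nat_lit 430) (nat_lit 221))) (XT.nd (nat_lit 78) (nat_lit 532) (nat_lit 0) (XT.lf (nat_lit 0) (nat_lit 9844438399) (nat_lit 532) (nat_lit 1984568693) (nat_lit 608) (nat_lit 9718692779) (nat_lit 191) (nat_lit 5) (nat_lit 198) (nat_lit 5) (nat_lit 199) (nat_lit 5) (nat_lit 490) (nat_lit 430) (nat_lit 220)) (XT.nd (nat_lit 78) (nat_lit 532) (nat_lit 0) (XT.lf (nat_lit 0) (nat_lit 15335966893) (nat_lit 608) (nat_lit 532231910) (nat_lit 76) (nat_lit 5943174430) (nat_lit 191) (nat_lit 5) (nat_lit 199) (nat_lit 5) (nat_lit 192) (nat_lit 5) (nat_lit 491) (nat_lit 430) (nat_lit 219)) (XT.lf (nat_lit 0) (nat_lit 10986717858) (nat_lit 532) (nat_lit 8005749066) (nat_lit 608) (nat_lit 3086267383) (nat_lit 184) (nat_lit 5) (nat_lit 191) (nat_lit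 5) (nat_lit 192) (nat_lit 5) (nat_lit 492) (nat_lit 430) (nat_lit 218))))))) (XT.nd (nat_lit 54990) (nat_lit 0) (nat_lit 17024) (XT.nd (nat_lit 54600) (nat_lit 0) (nat_lit 18468) (XT.nd (nat_lit 156) (nat_lit 532) (nat_lit 0) (XT.nd (nat_lit 78) (nat_lit 0) (nat_lit 0) (XT.lf (nat_lit 0) (nat_lit 366993362) (nat_lit 608) (nat_lit 21963440916) (nat_lit 76) (nat_lit 20938365) (nat_lit 176) (nat_lit 5) (nat_lit 184) (nat_lit 5) (nat_lit 177) (nat_lit 5) (nat_lit 493) (nat_lit 430) (nat_lit 217)) (XT.lf (nat_lit 0) (nat_lit 3970972806) (nat_lit 608) (nat_lit 10460618295) (nat_lit 76) (nat_lit 8195007201) (nat_lit 176) (nat_lit 5) (nat_lit 184) (nat_lit 5) (nat_lit 177) (nat_lit 5) (nat_lit 494) (nat_lit 430) (nat_lit 216))) (XT.nd (nat_lit 78) (nat_lit 0) (nat_lit 0) (XT.lf (nat_lit 0) (nat_lit 1282684111) (nat_lit 532) (nat_lit 6367769456) (nat_lit 608) (nat_lit 15256808566) (nat_lit 169) (nat_lit 5) (nat_lit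 176) (nat_lit 5) (nat_lit 177) (nat_lit 5) (nat_lit 495) (nat_lit 430) (nat_lit 215)) (XT.nd (nat_lit 54288) (nat_lit 0) (nat_lit 18468) (XT.lf (nat_lit 0) (nat_lit 11481382924) (nat_lit 608) (nat_lit 9808456701) (nat_lit 76) (nat_lit 1902144485) (nat_lit 169) (nat_lit 5) (nat_lit 177) (nat_lit 5) (nat_lit 170) (nat_lit 5) (nat_lit 496) (nat_lit 430) (nat_lit 214)) (XT.lf (nat_lit 0) (nat_lit 1787951422) (nat_lit 0) (nat_lit 1787951422) (nat_lit 1596) (nat_lit 2202129184) (nat_lit 412) (nat_lit 5) (nat_lit 412) (nat_lit 3) (nat_lit 433) (nat_lit 3) (nat_lit 431) (nat_lit 431) (nat_lit 278))))) (XT.nd (nat_lit 156) (nat_lit 0) (nat_lit 0) (XT.nd (nat_lit 78) (nat_lit 0) (nat_lit 0) (XT.lf (nat_lit 0) (nat_lit 7729959200) (nat_lit 1596) (nat_lit 2608361895) (nat_lit 1672) (nat_lit 1322864339) (nat_lit 412) (nat_lit 5) (nat_lit 433) (nat_lit 3) (nat_lit 434) (nat_lit 5) (nat_lit 432) (nat_lit 431) (nat_lit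 277)) (XT.lf (nat_lit 76) (nat_lit 2878096554) (nat_lit 0) (nat_lit 5470928666) (nat_lit 1672) (nat_lit 3418805069) (nat_lit 413) (nat_lit 5) (nat_lit 412) (nat_lit 5) (nat_lit 434) (nat_lit 5) (nat_lit 433) (nat_lit 431) (nat_lit 276))) (XT.nd (nat_lit 78) (nat_lit 0) (nat_lit 76) (XT.lf (nat_lit 76) (nat_lit 8502844086) (nat_lit 0) (nat_lit 482324545) (nat_lit 1672) (nat_lit 2891353373) (nat_lit 413) (nat_lit 5) (nat_lit 412) (nat_lit 5) (nat_lit 434) (nat_lit 5) (nat_lit 434) (nat_lit 431) (nat_lit 275)) (XT.nd (nat_lit 78) (nat_lit 0) (nat_lit 0) (XT.lf (nat_lit 76) (nat_lit 2245279765) (nat_lit 0) (nat_lit 7420720506) (nat_lit 1672) (nat_lit 2320755705) (nat_lit 414) (nat_lit 5) (nat_lit 413) (nat_lit 5) (nat_lit 435) (nat_lit 5) (nat_lit 435) (nat_lit 431) (nat_lit 274)) (XT.lf (nat_lit 76) (nat_lit 8012195885) (nat_lit 0) (nat_lit 2361747525) (nat_lit 1672) (nat_lit 1724988895) (nat_lit 414) (nat_lit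 5) (nat_lit 413) (nat_lit 5) (nat_lit 435) (nat_lit 5) (nat_lit 436) (nat_lit 431) (nat_lit 273)))))) (XT.nd (nat_lit 390) (nat_lit 0) (nat_lit 76) (XT.nd (nat_lit 156) (nat_lit 1596) (nat_lit 0) (XT.nd (nat_lit 78) (nat_lit 0) (nat_lit 0) (XT.lf (nat_lit 76) (nat_lit 1677871750) (nat_lit 0) (nat_lit 9435195051) (nat_lit 1672) (nat_lit 1099952361) (nat_lit 415) (nat_lit 5) (nat_lit 414) (nat_lit 5) (nat_lit 436) (nat_lit 5) (nat_lit 437) (nat_lit 431) (nat_lit 272)) (XT.lf (nat_lit 76) (nat_lit 7590303868) (nat_lit 0) (nat_lit 4307779744) (nat_lit 1672) (nat_lit 430689208) (nat_lit 415) (nat_lit 5) (nat_lit 414) (nat_lit 5) (nat_lit 436) (nat_lit 5) (nat_lit 438) (nat_lit 431) (nat_lit 271))) (XT.nd (nat_lit 78) (nat_lit 0) (nat_lit 0) (XT.lf (nat_lit 0) (nat_lit 250698927) (nat_lit 1672) (nat_lit 11272021609) (nat_lit 1748) (nat_lit 924054415) (nat_lit 393) (nat_lit 5) (nat_lit 415) (nat_lit 5) (nat_lit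 416) (nat_lit 5) (nat_lit 439) (nat_lit 431) (nat_lit 270)) (XT.nd (nat_lit 78) (nat_lit 0) (nat_lit 0) (XT.lf (nat_lit 0) (nat_lit 989000616) (nat_lit 1672) (nat_lit 5334882723) (nat_lit 1748) (nat_lit 6242222656) (nat_lit 393) (nat_lit 5) (nat_lit 415) (nat_lit 5) (nat_lit 416) (nat_lit 5) (nat_lit 440) (nat_lit 431) (nat_lit 269)) (XT.lf (nat_lit 76) (nat_lit 723366749) (nat_lit 0) (nat_lit 1012134229) (nat_lit 1748) (nat_lit 10952460758) (nat_lit 394) (nat_lit 5) (nat_lit 393) (nat_lit 5) (nat_lit 416) (nat_lit 5) (nat_lit 441) (nat_lit 431) (nat_lit 268))))) (XT.nd (nat_lit 234) (nat_lit 0) (nat_lit 76) (XT.nd (nat_lit 78) (nat_lit 0) (nat_lit 0) (XT.lf (nat_lit 0) (nat_lit 2550511089) (nat_lit 1672) (nat_lit 5872611321) (nat_lit 1748) (nat_lit 4388067184) (nat_lit 394) (nat_lit 5) (nat_lit 416) (nat_lit 5) (nat_lit 417) (nat_lit 5) (nat_lit 442) (nat_lit 431) (nat_lit 267)) (XT.nd (nat_lit 78) (nat_lit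 0) (nat_lit 76) (XT.lf (nat_lit 76) (nat_lit 331675904) (nat_lit 0) (nat_lit 3048155835) (nat_lit 1748) (nat_lit 9557096528) (nat_lit 395) (nat_lit 5) (nat_lit 394) (nat_lit 5) (nat_lit 417) (nat_lit 5) (nat_lit 443) (nat_lit 431) (nat_lit 266)) (XT.lf (nat_lit 0) (nat_lit 4270556602) (nat_lit 1672) (nat_lit 6348184933) (nat_lit 1748) (nat_lit 2445550166) (nat_lit 395) (nat_lit 5) (nat_lit 417) (nat_lit 5) (nat_lit 418) (nat_lit 5) (nat_lit 444) (nat_lit 431) (nat_lit 265)))) (XT.nd (nat_lit 78) (nat_lit 0) (nat_lit 76) (XT.lf (nat_lit 76) (nat_lit 6690909) (nat_lit 0) (nat_lit 5182187256) (nat_lit 1748) (nat_lit 8005134808) (nat_lit 396) (nat_lit 5) (nat_lit 395) (nat_lit 5) (nat_lit 418) (nat_lit 5) (nat_lit 445) (nat_lit 431) (nat_lit 264)) (XT.nd (nat_lit 78) (nat_lit 0) (nat_lit 0) (XT.lf (nat_lit 0) (nat_lit 6160536057) (nat_lit 1672) (nat_lit 6760819347) (nat_lit 1748) (nat_lit 404279964) (nat_lit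 396) (nat_lit 5) (nat_lit 418) (nat_lit 5) (nat_lit 419) (nat_lit 5) (nat_lit 446) (nat_lit 431) (nat_lit 263)) (XT.lf (nat_lit 0) (nat_lit 7175878230) (nat_lit 1672) (nat_lit 247378895) (nat_lit 1748) (nat_lit 6036154038) (nat_lit 396) (nat_lit 5) (nat_lit 418) (nat_lit 5) (nat_lit 419) (nat_lit 5) (nat_lit 447) (nat_lit 431) (nat_lit 262))))))))
noncomputable def xc217 : XT := (XT.nd (nat_lit 1560) (nat_lit 6916) (nat_lit 0) (XT.nd (nat_lit 780) (nat_lit 5928) (nat_lit 0) (XT.nd (nat_lit 390) (nat_lit 1596) (nat_lit 0) (XT.nd (nat_lit 156) (nat_lit 0) (nat_lit 76) (XT.nd (nat_lit 78) (nat_lit 0) (nat_lit 76) (XT.lf (nat_lit 76) (nat_lit 6474108880) (nat_lit 0) (nat_lit 1769581991) (nat_lit 1748) (nat_lit 5351534188) (nat_lit 397) (nat_lit 5) (nat_lit 396) (nat_lit 5) (nat_lit 419) (nat_lit 5) (nat_lit 448) (nat_lit 431) (nat_lit 261)) (XT.lf (nat_lit 0) (nat_lit 9350777158) (nat_lit 1672) (nat_lit 433606601)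 (nat_lit 1748) (nat_lit 3949018868) (nat_lit 397) (nat_lit 5) (nat_lit 419) (nat_lit 5) (nat_lit 420) (nat_lit 5) (nat_lit 449) (nat_lit 431) (nat_lit 260))) (XT.nd (nat_lit 78) (nat_lit 0) (nat_lit 76) (XT.lf (nat_lit 76) (nat_lit 6453413907) (nat_lit 0) (nat_lit 4070694604) (nat_lit 1748) (nat_lit 3349358798) (nat_lit 398) (nat_lit 5) (nat_lit 397) (nat_lit 5) (nat_lit 420) (nat_lit 5) (nat_lit 450) (nat_lit 431) (nat_lit 259)) (XT.nd (nat_lit 78) (nat_lit 0) (nat_lit 0) (XT.lf (nat_lit 0) (nat_lit 11725884370) (nat_lit 1672) (nat_lit 550969728) (nat_lit 1748) (nat_lit 1739385151) (nat_lit 398) (nat_lit 5) (nat_lit 420) (nat_lit 5) (nat_lit 421) (nat_lit 5) (nat_lit 451) (nat_lit 431) (nat_lit 258)) (XT.lf (nat_lit 76) (nat_lit 6506698912) (nat_lit 0) (nat_lit 6505023945) (nat_lit 1748) (nat_lit 1148948638) (nat_lit 399) (nat_lit 5) (nat_lit 398) (nat_lit 5) (nat_lit 421) (nat_lit 5) (nat_lit 452) (nat_lit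 431) (nat_lit 257))))) (XT.nd (nat_lit 156) (nat_lit 0) (nat_lit 76) (XT.nd (nat_lit 78) (nat_lit 0) (nat_lit 76) (XT.lf (nat_lit 0) (nat_lit 9698635) (nat_lit 1748) (nat_lit 602306743) (nat_lit 1824) (nat_lit 13696097957) (nat_lit 375) (nat_lit 5) (nat_lit 398) (nat_lit 5) (nat_lit 399) (nat_lit 5) (nat_lit 453) (nat_lit 431) (nat_lit 256)) (XT.lf (nat_lit 0) (nat_lit 1245881768) (nat_lit 1748) (nat_lit 7829992970) (nat_lit 1824) (nat_lit 5381067336) (nat_lit 376) (nat_lit 5) (nat_lit 399) (nat_lit 5) (nat_lit 400) (nat_lit 5) (nat_lit 454) (nat_lit 431) (nat_lit 255))) (XT.nd (nat_lit 78) (nat_lit 0) (nat_lit 76) (XT.lf (nat_lit 0) (nat_lit 2506120832) (nat_lit 1748) (nat_lit 611059329) (nat_lit 1824) (nat_lit 11491595781) (nat_lit 376) (nat_lit 5) (nat_lit 399) (nat_lit 5) (nat_lit 400) (nat_lit 5) (nat_lit 455) (nat_lit 431) (nat_lit 254)) (XT.nd (nat_lit 78) (nat_lit 0) (nat_lit 0) (XT.lf (nat_lit 0)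 (nat_lit 3846849998) (nat_lit 1748) (nat_lit 7947685267) (nat_lit 76) (nat_lit 2968010416) (nat_lit 377) (nat_lit 5) (nat_lit 400) (nat_lit 5) (nat_lit 378) (nat_lit 5) (nat_lit 456) (nat_lit 431) (nat_lit 253)) (XT.lf (nat_lit 0) (nat_lit 5230680364) (nat_lit 1748) (nat_lit 549650037) (nat_lit 76) (nat_lit 9138739487) (nat_lit 377) (nat_lit 5) (nat_lit 400) (nat_lit 5) (nat_lit 378) (nat_lit 5) (nat_lit 457) (nat_lit 431) (nat_lit 252)))))) (XT.nd (nat_lit 390) (nat_lit 2508) (nat_lit 0) (XT.nd (nat_lit 156) (nat_lit 1824) (nat_lit 0) (XT.nd (nat_lit 78) (nat_lit 0) (nat_lit 0) (XT.lf (nat_lit 0) (nat_lit 6682462667) (nat_lit 1824) (nat_lit 7998468572) (nat_lit 76) (nat_lit 396992545) (nat_lit 354) (nat_lit 5) (nat_lit 378) (nat_lit 5) (nat_lit 355) (nat_lit 5) (nat_lit 458) (nat_lit 431) (nat_lit 251)) (XT.lf (nat_lit 0) (nat_lit 8197080171) (nat_lit 1824) (nat_lit 416831705) (nat_lit 76) (nat_lit 6625371509)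 (nat_lit 354) (nat_lit 5) (nat_lit 378) (nat_lit 5) (nat_lit 355) (nat_lit 5) (nat_lit 459) (nat_lit 431) (nat_lit 250))) (XT.nd (nat_lit 78) (nat_lit 912) (nat_lit 0) (XT.lf (nat_lit 0) (nat_lit 7406477957) (nat_lit 912) (nat_lit 2375566847) (nat_lit 988) (nat_lit 5621028806) (nat_lit 342) (nat_lit 5) (nat_lit 354) (nat_lit 5) (nat_lit 355) (nat_lit 5) (nat_lit 460) (nat_lit 431) (nat_lit 249)) (XT.nd (nat_lit 78) (nat_lit 912) (nat_lit 0) (XT.lf (nat_lit 0) (nat_lit 11419498602) (nat_lit 988) (nat_lit 211306988) (nat_lit 76) (nat_lit 3938922693) (nat_lit 342) (nat_lit 5) (nat_lit 355) (nat_lit 5) (nat_lit 343) (nat_lit 5) (nat_lit 461) (nat_lit 431) (nat_lit 248)) (XT.lf (nat_lit 0) (nat_lit 7809298063) (nat_lit 912) (nat_lit 5339078392) (nat_lit 988) (nat_lit 2590170445) (nat_lit 330) (nat_lit 5) (nat_lit 342) (nat_lit 5) (nat_lit 343) (nat_lit 5) (nat_lit 462) (nat_lit 431) (nat_lit 247))))) (XT.nd (nat_lit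 156) (nat_lit 1596) (nat_lit 0) (XT.nd (nat_lit 78) (nat_lit 76) (nat_lit 0) (XT.lf (nat_lit 0) (nat_lit 69169221) (nat_lit 836) (nat_lit 14843891505) (nat_lit 912) (nat_lit 997660854) (nat_lit 319) (nat_lit 5) (nat_lit 330) (nat_lit 5) (nat_lit 331) (nat_lit 5) (nat_lit 463) (nat_lit 431) (nat_lit 246)) (XT.lf (nat_lit 0) (nat_lit 699799276) (nat_lit 912) (nat_lit 7797266450) (nat_lit 76) (nat_lit 7587570358) (nat_lit 318) (nat_lit 5) (nat_lit 330) (nat_lit 5) (nat_lit 319) (nat_lit 5) (nat_lit 464) (nat_lit 431) (nat_lit 245))) (XT.nd (nat_lit 78) (nat_lit 760) (nat_lit 0) (XT.lf (nat_lit 0) (nat_lit 399428772) (nat_lit 836) (nat_lit 2013575697) (nat_lit 912) (nat_lit 13848993446) (nat_lit 307) (nat_lit 5) (nat_lit 318) (nat_lit 5) (nat_lit 319) (nat_lit 5) (nat_lit 465) (nat_lit 431) (nat_lit 244)) (XT.nd (nat_lit 78) (nat_lit 760) (nat_lit 0) (XT.lf (nat_lit 0) (nat_lit 4235658432) (nat_lit 912) (nat_lit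 7613532720) (nat_lit 76) (nat_lit 4592216082) (nat_lit 307) (nat_lit 5) (nat_lit 319) (nat_lit 5) (nat_lit 308) (nat_lit 5) (nat_lit 466) (nat_lit 431) (nat_lit 243)) (XT.lf (nat_lit 0) (nat_lit 790443714) (nat_lit 760) (nat_lit 5315583718) (nat_lit 836) (nat_lit 10518155932) (nat_lit 297) (nat_lit 5) (nat_lit 307) (nat_lit 5) (nat_lit 308) (nat_lit 5) (nat_lit 467) (nat_lit 431) (nat_lit 242))))))) (XT.nd (nat_lit 780) (nat_lit 3192) (nat_lit 0) (XT.nd (nat_lit 390) (nat_lit 2204) (nat_lit 0) (XT.nd (nat_lit 156) (nat_lit 760) (nat_lit 0) (XT.nd (nat_lit 78) (nat_lit 760) (nat_lit 0) (XT.lf (nat_lit 0) (nat_lit 8066880739) (nat_lit 836) (nat_lit 7360157639) (nat_lit 76) (nat_lit 1382518889) (nat_lit 297) (nat_lit 5) (nat_lit 308) (nat_lit 5) (nat_lit 298) (nat_lit 5) (nat_lit 468) (nat_lit 431) (nat_lit 241)) (XT.lf (nat_lit 0) (nat_lit 1257149270) (nat_lit 760) (nat_lit 8846197154) (nat_lit 836) (nat_lit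 6894568032) (nat_lit 287) (nat_lit 5) (nat_lit 297) (nat_lit 5) (nat_lit 298) (nat_lit 5) (nat_lit 469) (nat_lit 431) (nat_lit 240))) (XT.nd (nat_lit 78) (nat_lit 760) (nat_lit 0) (XT.lf (nat_lit 0) (nat_lit 10139585515) (nat_lit 760) (nat_lit 2083468266) (nat_lit 836) (nat_lit 4966138403) (nat_lit 287) (nat_lit 5) (nat_lit 297) (nat_lit 5) (nat_lit 298) (nat_lit 5) (nat_lit 470) (nat_lit 431) (nat_lit 239)) (XT.nd (nat_lit 78) (nat_lit 0) (nat_lit 0) (XT.lf (nat_lit 0) (nat_lit 1800746653) (nat_lit 760) (nat_lit 12620615307) (nat_lit 836) (nat_lit 2962212942) (nat_lit 277) (nat_lit 5) (nat_lit 287) (nat_lit 5) (nat_lit 288) (nat_lit 5) (nat_lit 471) (nat_lit 431) (nat_lit 238)) (XT.lf (nat_lit 0) (nat_lit 10902744657) (nat_lit 760) (nat_lit 5815248426) (nat_lit 836) (nat_lit 862768556) (nat_lit 277) (nat_lit 5) (nat_lit 287) (nat_lit 5) (nat_lit 288) (nat_lit 5) (nat_lit 472) (nat_lit 431) (nat_lit 237)))))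 (XT.nd (nat_lit 156) (nat_lit 1368) (nat_lit 0) (XT.nd (nat_lit 78) (nat_lit 0) (nat_lit 0) (XT.lf (nat_lit 0) (nat_lit 1278512774) (nat_lit 836) (nat_lit 15367564455) (nat_lit 76) (nat_lit 1135319849) (nat_lit 266) (nat_lit 5) (nat_lit 277) (nat_lit 5) (nat_lit 267) (nat_lit 5) (nat_lit 473) (nat_lit 431) (nat_lit 236)) (XT.lf (nat_lit 0) (nat_lit 3528208584) (nat_lit 836) (nat_lit 6258609995) (nat_lit 76) (nat_lit 8197573061) (nat_lit 266) (nat_lit 5) (nat_lit 277) (nat_lit 5) (nat_lit 267) (nat_lit 5) (nat_lit 474) (nat_lit 431) (nat_lit 235))) (XT.nd (nat_lit 78) (nat_lit 684) (nat_lit 0) (XT.lf (nat_lit 0) (nat_lit 3065889641) (nat_lit 684) (nat_lit 2770550890) (nat_lit 760) (nat_lit 12354737950) (nat_lit 257) (nat_lit 5) (nat_lit 266) (nat_lit 5) (nat_lit 267) (nat_lit 5) (nat_lit 475) (nat_lit 431) (nat_lit 234)) (XT.nd (nat_lit 78) (nat_lit 684) (nat_lit 0) (XT.lf (nat_lit 0) (nat_lit 8255304637)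 (nat_lit 760) (nat_lit 5775224007) (nat_lit 76) (nat_lit 4370286236) (nat_lit 257) (nat_lit 5) (nat_lit 267) (nat_lit 5) (nat_lit 258) (nat_lit 5) (nat_lit 476) (nat_lit 431) (nat_lit 233)) (XT.lf (nat_lit 0) (nat_lit 3786364659) (nat_lit 684) (nat_lit 6972949954) (nat_lit 760) (nat_lit 7854597131) (nat_lit 248) (nat_lit 5) (nat_lit 257) (nat_lit 5) (nat_lit 258) (nat_lit 5) (nat_lit 477) (nat_lit 431) (nat_lit 232)))))) (XT.nd (nat_lit 390) (nat_lit 1824) (nat_lit 0) (XT.nd (nat_lit 156) (nat_lit 760) (nat_lit 0) (XT.nd (nat_lit 78) (nat_lit 608) (nat_lit 0) (XT.lf (nat_lit 0) (nat_lit 13347791921) (nat_lit 760) (nat_lit 5221612372) (nat_lit 76) (nat_lit 261181556) (nat_lit 248) (nat_lit 5) (nat_lit 258) (nat_lit 5) (nat_lit 249) (nat_lit 5) (nat_lit 478) (nat_lit 431) (nat_lit 231)) (XT.lf (nat_lit 0) (nat_lit 4583648389) (nat_lit 608) (nat_lit 11474358133) (nat_lit 684) (nat_lit 2992190547) (nat_lit 240)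 (nat_lit 5) (nat_lit 248) (nat_lit 5) (nat_lit 249) (nat_lit 5) (nat_lit 479) (nat_lit 431) (nat_lit 230))) (XT.nd (nat_lit 78) (nat_lit 760) (nat_lit 0) (XT.lf (nat_lit 0) (nat_lit 14649109426) (nat_lit 608) (nat_lit 4202458611) (nat_lit 684) (nat_lit 422052551) (nat_lit 240) (nat_lit 5) (nat_lit 248) (nat_lit 5) (nat_lit 249) (nat_lit 5) (nat_lit 480) (nat_lit 431) (nat_lit 229)) (XT.nd (nat_lit 78) (nat_lit 0) (nat_lit 0) (XT.lf (nat_lit 0) (nat_lit 2221499538) (nat_lit 760) (nat_lit 14056705664) (nat_lit 76) (nat_lit 3222007422) (nat_lit 230) (nat_lit 5) (nat_lit 240) (nat_lit 5) (nat_lit 231) (nat_lit 5) (nat_lit 481) (nat_lit 431) (nat_lit 228)) (XT.lf (nat_lit 0) (nat_lit 4965589232) (nat_lit 760) (nat_lit 3992678414) (nat_lit 76) (nat_lit 10771949461) (nat_lit 230) (nat_lit 5) (nat_lit 240) (nat_lit 5) (nat_lit 231) (nat_lit 5) (nat_lit 482) (nat_lit 431) (nat_lit 227))))) (XT.nd (nat_lit 234) (nat_lit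 608) (nat_lit 0) (XT.nd (nat_lit 78) (nat_lit 608) (nat_lit 0) (XT.lf (nat_lit 0) (nat_lit 6349330354) (nat_lit 608) (nat_lit 1450810597) (nat_lit 684) (nat_lit 12163971831) (nat_lit 222) (nat_lit 5) (nat_lit 230) (nat_lit 5) (nat_lit 231) (nat_lit 5) (nat_lit 483) (nat_lit 431) (nat_lit 226)) (XT.nd (nat_lit 78) (nat_lit 608) (nat_lit 0) (XT.lf (nat_lit 0) (nat_lit 10753071007) (nat_lit 684) (nat_lit 3296961855) (nat_lit 76) (nat_lit 6151422414) (nat_lit 222) (nat_lit 5) (nat_lit 231) (nat_lit 5) (nat_lit 223) (nat_lit 5) (nat_lit 484) (nat_lit 431) (nat_lit 225)) (XT.lf (nat_lit 0) (nat_lit 7306932592) (nat_lit 608) (nat_lit 6509704245) (nat_lit 684) (nat_lit 6625878841) (nat_lit 214) (nat_lit 5) (nat_lit 222) (nat_lit 5) (nat_lit 223) (nat_lit 5) (nat_lit 485) (nat_lit 431) (nat_lit 224)))) (XT.nd (nat_lit 78) (nat_lit 608) (nat_lit 0) (XT.lf (nat_lit 0) (nat_lit 16966001665) (nat_lit 684) (nat_lit 2534743116)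 (nat_lit 76) (nat_lit 1187164502) (nat_lit 214) (nat_lit 5) (nat_lit 223) (nat_lit 5) (nat_lit 215) (nat_lit 5) (nat_lit 486) (nat_lit 431) (nat_lit 223)) (XT.nd (nat_lit 78) (nat_lit 76) (nat_lit 0) (XT.lf (nat_lit 0) (nat_lit 8337917810) (nat_lit 532) (nat_lit 11932374228) (nat_lit 608) (nat_lit 666082458) (nat_lit 207) (nat_lit 5) (nat_lit 214) (nat_lit 5) (nat_lit 215) (nat_lit 5) (nat_lit 487) (nat_lit 431) (nat_lit 222)) (XT.lf (nat_lit 0) (nat_lit 2430555574) (nat_lit 608) (nat_lit 1749571759) (nat_lit 76) (nat_lit 17009129035) (nat_lit 206) (nat_lit 5) (nat_lit 214) (nat_lit 5) (nat_lit 207) (nat_lit 5) (nat_lit 488) (nat_lit 431) (nat_lit 221))))))))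
noncomputable def xc218 : XT := (XT.nd (nat_lit 55848) (nat_lit 0) (nat_lit 11400) (XT.nd (nat_lit 55068) (nat_lit 0) (nat_lit 16948) (XT.nd (nat_lit 390) (nat_lit 1140) (nat_lit 0) (XT.nd (nat_lit 156) (nat_lit 1064) (nat_lit 0) (XT.nd (nat_lit 78) (nat_lit 0) (nat_lit 0) (XT.lf (nat_lit 0) (nat_lit 5660884119) (nat_lit 684) (nat_lit 12041411978) (nat_lit 76) (nat_lit 3743200546) (nat_lit 198) (nat_lit 5) (nat_lit 207) (nat_lit 5) (nat_lit 199) (nat_lit 5) (nat_lit 489) (nat_lit 431) (nat_lit 220)) (XT.lf (nat_lit 0) (nat_lit 8990194755) (nat_lit 684) (nat_lit 936254690) (nat_lit 76) (nat_lit 11779727079) (nat_lit 198) (nat_lit 5) (nat_lit 207) (nat_lit 5) (nat_lit 199) (nat_lit 5) (nat_lit 490) (nat_lit 431) (nat_lit 219))) (XT.nd (nat_lit 78) (nat_lit 532) (nat_lit 0) (XT.lf (nat_lit 0) (nat_lit 10522741642) (nat_lit 532) (nat_lit 1926645345) (nat_lit 608) (nat_lit 9521419373) (nat_lit 191) (nat_lit 5)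 (nat_lit 198) (nat_lit 5) (nat_lit 199) (nat_lit 5) (nat_lit 491) (nat_lit 431) (nat_lit 218)) (XT.nd (nat_lit 78) (nat_lit 532) (nat_lit 0) (XT.lf (nat_lit 0) (nat_lit 16019581851) (nat_lit 608) (nat_lit 63829289) (nat_lit 76) (nat_lit 6156483495) (nat_lit 191) (nat_lit 5) (nat_lit 199) (nat_lit 5) (nat_lit 192) (nat_lit 5) (nat_lit 492) (nat_lit 431) (nat_lit 217)) (XT.lf (nat_lit 0) (nat_lit 11682347847) (nat_lit 532) (nat_lit 8062563755) (nat_lit 608) (nat_lit 2767780630) (nat_lit 184) (nat_lit 5) (nat_lit 191) (nat_lit 5) (nat_lit 192) (nat_lit 5) (nat_lit 493) (nat_lit 431) (nat_lit 216))))) (XT.nd (nat_lit 156) (nat_lit 532) (nat_lit 0) (XT.nd (nat_lit 78) (nat_lit 0) (nat_lit 0) (XT.lf (nat_lit 0) (nat_lit 745998242) (nat_lit 608) (nat_lit 21917946941) (nat_lit 76) (nat_lit 126863160) (nat_lit 176) (nat_lit 5) (nat_lit 184) (nat_lit 5) (nat_lit 177) (nat_lit 5) (nat_lit 494) (nat_lit 431) (nat_lit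 215)) (XT.lf (nat_lit 0) (nat_lit 4414769726) (nat_lit 608) (nat_lit 10194573020) (nat_lit 76) (nat_lit 8462344628) (nat_lit 176) (nat_lit 5) (nat_lit 184) (nat_lit 5) (nat_lit 177) (nat_lit 5) (nat_lit 495) (nat_lit 431) (nat_lit 214))) (XT.nd (nat_lit 54366) (nat_lit 0) (nat_lit 18468) (XT.lf (nat_lit 0) (nat_lit 1780468739) (nat_lit 532) (nat_lit 6383292093) (nat_lit 608) (nat_lit 15194288280) (nat_lit 169) (nat_lit 5) (nat_lit 176) (nat_lit 5) (nat_lit 177) (nat_lit 5) (nat_lit 496) (nat_lit 431) (nat_lit 213)) (XT.nd (nat_lit 78) (nat_lit 0) (nat_lit 0) (XT.lf (nat_lit 0) (nat_lit 2071060196) (nat_lit 0) (nat_lit 2071060196) (nat_lit 1596) (nat_lit 1741273722) (nat_lit 412) (nat_lit 5) (nat_lit 412) (nat_lit 3) (nat_lit 433) (nat_lit 3) (nat_lit 432) (nat_lit 432) (nat_lit 276)) (XT.lf (nat_lit 0) (nat_lit 8851408445) (nat_lit 1596) (nat_lit 2152383528) (nat_lit 1672) (nat_lit 870682982) (nat_lit 412)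 (nat_lit 5) (nat_lit 433) (nat_lit 3) (nat_lit 434) (nat_lit 5) (nat_lit 433) (nat_lit 432) (nat_lit 275)))))) (XT.nd (nat_lit 390) (nat_lit 1520) (nat_lit 0) (XT.nd (nat_lit 156) (nat_lit 0) (nat_lit 76) (XT.nd (nat_lit 78) (nat_lit 0) (nat_lit 0) (XT.lf (nat_lit 76) (nat_lit 3440461027) (nat_lit 0) (nat_lit 6026714427) (nat_lit 1672) (nat_lit 2516402569) (nat_lit 413) (nat_lit 5) (nat_lit 412) (nat_lit 5) (nat_lit 434) (nat_lit 5) (nat_lit 434) (nat_lit 432) (nat_lit 274)) (XT.lf (nat_lit 76) (nat_lit 9167805421) (nat_lit 0) (nat_lit 929585926) (nat_lit 1672) (nat_lit 1997436714) (nat_lit 413) (nat_lit 5) (nat_lit 412) (nat_lit 5) (nat_lit 434) (nat_lit 5) (nat_lit 435) (nat_lit 432) (nat_lit 273))) (XT.nd (nat_lit 78) (nat_lit 0) (nat_lit 0) (XT.lf (nat_lit 76) (nat_lit 2803754364) (nat_lit 0) (nat_lit 7970349417) (nat_lit 1672) (nat_lit 1433528901) (nat_lit 414) (nat_lit 5) (nat_lit 413) (nat_lit 5)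 (nat_lit 435) (nat_lit 5) (nat_lit 436) (nat_lit 432) (nat_lit 272)) (XT.nd (nat_lit 78) (nat_lit 0) (nat_lit 76) (XT.lf (nat_lit 76) (nat_lit 8675938826) (nat_lit 0) (nat_lit 2802330026) (nat_lit 1672) (nat_lit 844153459) (nat_lit 414) (nat_lit 5) (nat_lit 413) (nat_lit 5) (nat_lit 435) (nat_lit 5) (nat_lit 437) (nat_lit 432) (nat_lit 271)) (XT.lf (nat_lit 76) (nat_lit 2232519791) (nat_lit 0) (nat_lit 9982949163) (nat_lit 1672) (nat_lit 223666885) (nat_lit 415) (nat_lit 5) (nat_lit 414) (nat_lit 5) (nat_lit 436) (nat_lit 5) (nat_lit 438) (nat_lit 432) (nat_lit 270))))) (XT.nd (nat_lit 156) (nat_lit 0) (nat_lit 76) (XT.nd (nat_lit 78) (nat_lit 0) (nat_lit 76) (XT.lf (nat_lit 0) (nat_lit 435579485) (nat_lit 1672) (nat_lit 4307442896) (nat_lit 1748) (nat_lit 7814480635) (nat_lit 392) (nat_lit 5) (nat_lit 414) (nat_lit 5) (nat_lit 415) (nat_lit 5) (nat_lit 439) (nat_lit 432) (nat_lit 269)) (XT.lf (nat_lit 0)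 (nat_lit 1108984009) (nat_lit 1672) (nat_lit 10958159321) (nat_lit 1748) (nat_lit 610992006) (nat_lit 393) (nat_lit 5) (nat_lit 415) (nat_lit 5) (nat_lit 416) (nat_lit 5) (nat_lit 440) (nat_lit 432) (nat_lit 268))) (XT.nd (nat_lit 78) (nat_lit 0) (nat_lit 0) (XT.lf (nat_lit 0) (nat_lit 1845320926) (nat_lit 1672) (nat_lit 4912852220) (nat_lit 1748) (nat_lit 6042024464) (nat_lit 393) (nat_lit 5) (nat_lit 415) (nat_lit 5) (nat_lit 416) (nat_lit 5) (nat_lit 441) (nat_lit 432) (nat_lit 267)) (XT.nd (nat_lit 78) (nat_lit 0) (nat_lit 76) (XT.lf (nat_lit 76) (nat_lit 1263083767) (nat_lit 0) (nat_lit 1330675046) (nat_lit 1748) (nat_lit 10331001300) (nat_lit 394) (nat_lit 5) (nat_lit 393) (nat_lit 5) (nat_lit 416) (nat_lit 5) (nat_lit 442) (nat_lit 432) (nat_lit 266)) (XT.lf (nat_lit 0) (nat_lit 3407022356) (nat_lit 1672) (nat_lit 5456585812) (nat_lit 1748) (nat_lit 4187214901) (nat_lit 394) (nat_lit 5) (nat_lit 416)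 (nat_lit 5) (nat_lit 417) (nat_lit 5) (nat_lit 443) (nat_lit 432) (nat_lit 265))))))) (XT.nd (nat_lit 780) (nat_lit 5700) (nat_lit 0) (XT.nd (nat_lit 390) (nat_lit 0) (nat_lit 152) (XT.nd (nat_lit 156) (nat_lit 0) (nat_lit 76) (XT.nd (nat_lit 78) (nat_lit 0) (nat_lit 76) (XT.lf (nat_lit 76) (nat_lit 868277436) (nat_lit 0) (nat_lit 3372298750) (nat_lit 1748) (nat_lit 8938756814) (nat_lit 395) (nat_lit 5) (nat_lit 394) (nat_lit 5) (nat_lit 417) (nat_lit 5) (nat_lit 444) (nat_lit 432) (nat_lit 264)) (XT.lf (nat_lit 0) (nat_lit 5131888394) (nat_lit 1672) (nat_lit 5937883352) (nat_lit 1748) (nat_lit 2239825730) (nat_lit 395) (nat_lit 5) (nat_lit 417) (nat_lit 5) (nat_lit 418) (nat_lit 5) (nat_lit 445) (nat_lit 432) (nat_lit 263))) (XT.nd (nat_lit 78) (nat_lit 0) (nat_lit 76) (XT.lf (nat_lit 76) (nat_lit 540555367) (nat_lit 0) (nat_lit 5516272225) (nat_lit 1748) (nat_lit 7385329611) (nat_lit 396) (nat_lit 5) (nat_lit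 395) (nat_lit 5) (nat_lit 418) (nat_lit 5) (nat_lit 446) (nat_lit 432) (nat_lit 262)) (XT.nd (nat_lit 78) (nat_lit 0) (nat_lit 0) (XT.lf (nat_lit 0) (nat_lit 7031468038) (nat_lit 1672) (nat_lit 6355876080) (nat_lit 1748) (nat_lit 189405813) (nat_lit 396) (nat_lit 5) (nat_lit 418) (nat_lit 5) (nat_lit 419) (nat_lit 5) (nat_lit 447) (nat_lit 432) (nat_lit 261)) (XT.lf (nat_lit 76) (nat_lit 280926212) (nat_lit 0) (nat_lit 7773353601) (nat_lit 1748) (nat_lit 5659186875) (nat_lit 397) (nat_lit 5) (nat_lit 396) (nat_lit 5) (nat_lit 419) (nat_lit 5) (nat_lit 448) (nat_lit 432) (nat_lit 260))))) (XT.nd (nat_lit 156) (nat_lit 0) (nat_lit 76) (XT.nd (nat_lit 78) (nat_lit 0) (nat_lit 76) (XT.lf (nat_lit 76) (nat_lit 7129675344) (nat_lit 0) (nat_lit 2000991364) (nat_lit 1748) (nat_lit 4721594323) (nat_lit 397) (nat_lit 5) (nat_lit 396) (nat_lit 5) (nat_lit 419) (nat_lit 5) (nat_lit 449) (nat_lit 432) (nat_lit 259))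 (XT.lf (nat_lit 76) (nat_lit 90501834) (nat_lit 0) (nat_lit 10154573899) (nat_lit 1748) (nat_lit 3748431160) (nat_lit 398) (nat_lit 5) (nat_lit 397) (nat_lit 5) (nat_lit 420) (nat_lit 5) (nat_lit 450) (nat_lit 432) (nat_lit 258))) (XT.nd (nat_lit 78) (nat_lit 0) (nat_lit 76) (XT.lf (nat_lit 76) (nat_lit 7110578479) (nat_lit 0) (nat_lit 4320279615) (nat_lit 1748) (nat_lit 2705743286) (nat_lit 398) (nat_lit 5) (nat_lit 397) (nat_lit 5) (nat_lit 420) (nat_lit 5) (nat_lit 451) (nat_lit 432) (nat_lit 257)) (XT.nd (nat_lit 78) (nat_lit 0) (nat_lit 0) (XT.lf (nat_lit 0) (nat_lit 12641946699) (nat_lit 1672) (nat_lit 29122997) (nat_lit 1748) (nat_lit 1611461556) (nat_lit 398) (nat_lit 5) (nat_lit 420) (nat_lit 5) (nat_lit 421) (nat_lit 5) (nat_lit 452) (nat_lit 432) (nat_lit 256)) (XT.lf (nat_lit 76) (nat_lit 7166193317) (nat_lit 0) (nat_lit 6777381977) (nat_lit 1748) (nat_lit 486483262) (nat_lit 399) (nat_lit 5)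 (nat_lit 398) (nat_lit 5) (nat_lit 421) (nat_lit 5) (nat_lit 453) (nat_lit 432) (nat_lit 255)))))) (XT.nd (nat_lit 390) (nat_lit 4256) (nat_lit 0) (XT.nd (nat_lit 156) (nat_lit 0) (nat_lit 76) (XT.nd (nat_lit 78) (nat_lit 0) (nat_lit 76) (XT.lf (nat_lit 0) (nat_lit 673083415) (nat_lit 1748) (nat_lit 86179900) (nat_lit 1824) (nat_lit 13821359561) (nat_lit 375) (nat_lit 5) (nat_lit 398) (nat_lit 5) (nat_lit 399) (nat_lit 5) (nat_lit 454) (nat_lit 432) (nat_lit 254)) (XT.lf (nat_lit 0) (nat_lit 1923556282) (nat_lit 1748) (nat_lit 7447614639) (nat_lit 1824) (nat_lit 5361483572) (nat_lit 376) (nat_lit 5) (nat_lit 399) (nat_lit 5) (nat_lit 400) (nat_lit 5) (nat_lit 455) (nat_lit 432) (nat_lit 253))) (XT.nd (nat_lit 78) (nat_lit 0) (nat_lit 76) (XT.lf (nat_lit 0) (nat_lit 3196200973) (nat_lit 1748) (nat_lit 94870525) (nat_lit 1824) (nat_lit 11596716804) (nat_lit 376) (nat_lit 5) (nat_lit 399) (nat_lit 5) (nat_lit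 400) (nat_lit 5) (nat_lit 456) (nat_lit 432) (nat_lit 252)) (XT.nd (nat_lit 78) (nat_lit 0) (nat_lit 0) (XT.lf (nat_lit 0) (nat_lit 4553917278) (nat_lit 1748) (nat_lit 7568044672) (nat_lit 76) (nat_lit 2922875172) (nat_lit 377) (nat_lit 5) (nat_lit 400) (nat_lit 5) (nat_lit 378) (nat_lit 5) (nat_lit 457) (nat_lit 432) (nat_lit 251)) (XT.lf (nat_lit 0) (nat_lit 5953068756) (nat_lit 1748) (nat_lit 32609409) (nat_lit 76) (nat_lit 9219067755) (nat_lit 377) (nat_lit 5) (nat_lit 400) (nat_lit 5) (nat_lit 378) (nat_lit 5) (nat_lit 458) (nat_lit 432) (nat_lit 250))))) (XT.nd (nat_lit 234) (nat_lit 1748) (nat_lit 0) (XT.nd (nat_lit 78) (nat_lit 912) (nat_lit 0) (XT.lf (nat_lit 0) (nat_lit 7424630584) (nat_lit 1824) (nat_lit 7620805185) (nat_lit 76) (nat_lit 321533108) (nat_lit 354) (nat_lit 5) (nat_lit 378) (nat_lit 5) (nat_lit 355) (nat_lit 5) (nat_lit 459) (nat_lit 432) (nat_lit 249)) (XT.nd (nat_lit 78) (nat_lit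 0) (nat_lit 0) (XT.lf (nat_lit 0) (nat_lit 103277096) (nat_lit 912) (nat_lit 8855002146) (nat_lit 988) (nat_lit 6573508377) (nat_lit 342) (nat_lit 5) (nat_lit 354) (nat_lit 5) (nat_lit 355) (nat_lit 5) (nat_lit 460) (nat_lit 432) (nat_lit 248)) (XT.lf (nat_lit 0) (nat_lit 8078230752) (nat_lit 912) (nat_lit 2487743800) (nat_lit 988) (nat_lit 5133065064) (nat_lit 342) (nat_lit 5) (nat_lit 354) (nat_lit 5) (nat_lit 355) (nat_lit 5) (nat_lit 461) (nat_lit 432) (nat_lit 247)))) (XT.nd (nat_lit 78) (nat_lit 836) (nat_lit 0) (XT.lf (nat_lit 0) (nat_lit 314213877) (nat_lit 912) (nat_lit 11912056939) (nat_lit 988) (nat_lit 3642961163) (nat_lit 330) (nat_lit 5) (nat_lit 342) (nat_lit 5) (nat_lit 343) (nat_lit 5) (nat_lit 462) (nat_lit 432) (nat_lit 246)) (XT.nd (nat_lit 78) (nat_lit 836) (nat_lit 0) (XT.lf (nat_lit 0) (nat_lit 8487651992) (nat_lit 912) (nat_lit 5492123583) (nat_lit 988) (nat_lit 2061856744) (nat_lit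 330) (nat_lit 5) (nat_lit 342) (nat_lit 5) (nat_lit 343) (nat_lit 5) (nat_lit 463) (nat_lit 432) (nat_lit 245)) (XT.lf (nat_lit 0) (nat_lit 601192296) (nat_lit 836) (nat_lit 15170566298) (nat_lit 912) (nat_lit 445658011) (nat_lit 319) (nat_lit 5) (nat_lit 330) (nat_lit 5) (nat_lit 331) (nat_lit 5) (nat_lit 464) (nat_lit 432) (nat_lit 244))))))))
noncomputable def xc219 : XT := (XT.nd (nat_lit 1560) (nat_lit 3496) (nat_lit 0) (XT.nd (nat_lit 780) (nat_lit 3344) (nat_lit 0) (XT.nd (nat_lit 390) (nat_lit 2356) (nat_lit 0) (XT.nd (nat_lit 156) (nat_lit 760) (nat_lit 0) (XT.nd (nat_lit 78) (nat_lit 836) (nat_lit 0) (XT.lf (nat_lit 0) (nat_lit 1267182275) (nat_lit 912) (nat_lit 7425323956) (nat_lit 76) (nat_lit 7702456224) (nat_lit 318) (nat_lit 5) (nat_lit 330) (nat_lit 5) (nat_lit 319) (nat_lit 5) (nat_lit 465) (nat_lit 432) (nat_lit 243)) (XT.lf (nat_lit 0) (nat_lit 931832225) (nat_lit 836) (nat_lit 2075373472)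 (nat_lit 912) (nat_lit 13568820600) (nat_lit 307) (nat_lit 5) (nat_lit 318) (nat_lit 5) (nat_lit 319) (nat_lit 5) (nat_lit 466) (nat_lit 432) (nat_lit 242))) (XT.nd (nat_lit 78) (nat_lit 760) (nat_lit 0) (XT.lf (nat_lit 0) (nat_lit 4855470987) (nat_lit 912) (nat_lit 7240542378) (nat_lit 76) (nat_lit 4663233012) (nat_lit 307) (nat_lit 5) (nat_lit 319) (nat_lit 5) (nat_lit 308) (nat_lit 5) (nat_lit 467) (nat_lit 432) (nat_lit 241)) (XT.nd (nat_lit 78) (nat_lit 0) (nat_lit 0) (XT.lf (nat_lit 0) (nat_lit 1328057921) (nat_lit 760) (nat_lit 5428085208) (nat_lit 836) (nat_lit 10189682612) (nat_lit 297) (nat_lit 5) (nat_lit 307) (nat_lit 5) (nat_lit 308) (nat_lit 5) (nat_lit 468) (nat_lit 432) (nat_lit 240)) (XT.lf (nat_lit 0) (nat_lit 8745821255) (nat_lit 836) (nat_lit 6985118821) (nat_lit 76) (nat_lit 1404180409) (nat_lit 297) (nat_lit 5) (nat_lit 308) (nat_lit 5) (nat_lit 298) (nat_lit 5) (nat_lit 469) (nat_lit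 432) (nat_lit 239))))) (XT.nd (nat_lit 156) (nat_lit 1596) (nat_lit 0) (XT.nd (nat_lit 78) (nat_lit 0) (nat_lit 0) (XT.lf (nat_lit 0) (nat_lit 1801098424) (nat_lit 760) (nat_lit 9015137187) (nat_lit 836) (nat_lit 6511150228) (nat_lit 287) (nat_lit 5) (nat_lit 297) (nat_lit 5) (nat_lit 298) (nat_lit 5) (nat_lit 470) (nat_lit 432) (nat_lit 238)) (XT.lf (nat_lit 0) (nat_lit 10851010724) (nat_lit 760) (nat_lit 2117310268) (nat_lit 836) (nat_lit 4554373754) (nat_lit 287) (nat_lit 5) (nat_lit 297) (nat_lit 5) (nat_lit 298) (nat_lit 5) (nat_lit 471) (nat_lit 432) (nat_lit 237))) (XT.nd (nat_lit 78) (nat_lit 836) (nat_lit 0) (XT.lf (nat_lit 0) (nat_lit 2352211966) (nat_lit 760) (nat_lit 12851960111) (nat_lit 836) (nat_lit 2516926707) (nat_lit 277) (nat_lit 5) (nat_lit 287) (nat_lit 5) (nat_lit 288) (nat_lit 5) (nat_lit 472) (nat_lit 432) (nat_lit 236)) (XT.nd (nat_lit 78) (nat_lit 836) (nat_lit 0) (XT.lf (nat_lit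 0) (nat_lit 11626143060) (nat_lit 760) (nat_lit 5910898981) (nat_lit 836) (nat_lit 385386189) (nat_lit 277) (nat_lit 5) (nat_lit 287) (nat_lit 5) (nat_lit 288) (nat_lit 5) (nat_lit 473) (nat_lit 432) (nat_lit 235)) (XT.lf (nat_lit 0) (nat_lit 1786139019) (nat_lit 836) (nat_lit 15156495657) (nat_lit 76) (nat_lit 1184504260) (nat_lit 266) (nat_lit 5) (nat_lit 277) (nat_lit 5) (nat_lit 267) (nat_lit 5) (nat_lit 474) (nat_lit 432) (nat_lit 234)))))) (XT.nd (nat_lit 390) (nat_lit 1976) (nat_lit 0) (XT.nd (nat_lit 156) (nat_lit 684) (nat_lit 0) (XT.nd (nat_lit 78) (nat_lit 684) (nat_lit 0) (XT.lf (nat_lit 0) (nat_lit 4071376667) (nat_lit 836) (nat_lit 5875527207) (nat_lit 76) (nat_lit 8387483359) (nat_lit 266) (nat_lit 5) (nat_lit 277) (nat_lit 5) (nat_lit 267) (nat_lit 5) (nat_lit 475) (nat_lit 432) (nat_lit 233)) (XT.lf (nat_lit 0) (nat_lit 3632118639) (nat_lit 684) (nat_lit 2787666090) (nat_lit 760) (nat_lit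 12125649564) (nat_lit 257) (nat_lit 5) (nat_lit 266) (nat_lit 5) (nat_lit 267) (nat_lit 5) (nat_lit 476) (nat_lit 432) (nat_lit 232))) (XT.nd (nat_lit 78) (nat_lit 684) (nat_lit 0) (XT.lf (nat_lit 0) (nat_lit 8878120561) (nat_lit 760) (nat_lit 5386581113) (nat_lit 76) (nat_lit 4494744473) (nat_lit 257) (nat_lit 5) (nat_lit 267) (nat_lit 5) (nat_lit 258) (nat_lit 5) (nat_lit 477) (nat_lit 432) (nat_lit 231)) (XT.nd (nat_lit 78) (nat_lit 0) (nat_lit 0) (XT.lf (nat_lit 0) (nat_lit 4362922568) (nat_lit 684) (nat_lit 7063565190) (nat_lit 760) (nat_lit 7550436174) (nat_lit 248) (nat_lit 5) (nat_lit 257) (nat_lit 5) (nat_lit 258) (nat_lit 5) (nat_lit 478) (nat_lit 432) (nat_lit 230)) (XT.lf (nat_lit 0) (nat_lit 14058183033) (nat_lit 760) (nat_lit 4826260760) (nat_lit 76) (nat_lit 313663195) (nat_lit 248) (nat_lit 5) (nat_lit 258) (nat_lit 5) (nat_lit 249) (nat_lit 5) (nat_lit 479) (nat_lit 432) (nat_lit 229)))))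 (XT.nd (nat_lit 156) (nat_lit 1292) (nat_lit 0) (XT.nd (nat_lit 78) (nat_lit 76) (nat_lit 0) (XT.lf (nat_lit 0) (nat_lit 5171817164) (nat_lit 608) (nat_lit 11645313533) (nat_lit 684) (nat_lit 2605093511) (nat_lit 240) (nat_lit 5) (nat_lit 248) (nat_lit 5) (nat_lit 249) (nat_lit 5) (nat_lit 480) (nat_lit 432) (nat_lit 228)) (XT.lf (nat_lit 0) (nat_lit 7582924) (nat_lit 684) (nat_lit 4221489893) (nat_lit 76) (nat_lit 15421218399) (nat_lit 239) (nat_lit 5) (nat_lit 248) (nat_lit 5) (nat_lit 240) (nat_lit 5) (nat_lit 481) (nat_lit 432) (nat_lit 227))) (XT.nd (nat_lit 78) (nat_lit 608) (nat_lit 0) (XT.lf (nat_lit 0) (nat_lit 2693463809) (nat_lit 760) (nat_lit 13840022111) (nat_lit 76) (nat_lit 3347975295) (nat_lit 230) (nat_lit 5) (nat_lit 240) (nat_lit 5) (nat_lit 231) (nat_lit 5) (nat_lit 482) (nat_lit 432) (nat_lit 226)) (XT.nd (nat_lit 78) (nat_lit 608) (nat_lit 0) (XT.lf (nat_lit 0) (nat_lit 5484052271)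 (nat_lit 760) (nat_lit 3584475448) (nat_lit 76) (nat_lit 11047709749) (nat_lit 230) (nat_lit 5) (nat_lit 240) (nat_lit 5) (nat_lit 231) (nat_lit 5) (nat_lit 483) (nat_lit 432) (nat_lit 225)) (XT.lf (nat_lit 0) (nat_lit 6961162597) (nat_lit 608) (nat_lit 1409061715) (nat_lit 684) (nat_lit 11984692099) (nat_lit 222) (nat_lit 5) (nat_lit 230) (nat_lit 5) (nat_lit 231) (nat_lit 5) (nat_lit 484) (nat_lit 432) (nat_lit 224))))))) (XT.nd (nat_lit 780) (nat_lit 608) (nat_lit 0) (XT.nd (nat_lit 390) (nat_lit 1672) (nat_lit 0) (XT.nd (nat_lit 156) (nat_lit 608) (nat_lit 0) (XT.nd (nat_lit 78) (nat_lit 608) (nat_lit 0) (XT.lf (nat_lit 0) (nat_lit 11374544188) (nat_lit 684) (nat_lit 2879700299) (nat_lit 76) (nat_lit 6342918506) (nat_lit 222) (nat_lit 5) (nat_lit 231) (nat_lit 5) (nat_lit 223) (nat_lit 5) (nat_lit 485) (nat_lit 432) (nat_lit 223)) (XT.lf (nat_lit 0) (nat_lit 7933093085) (nat_lit 608) (nat_lit 6561436012)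 (nat_lit 684) (nat_lit 6348616339) (nat_lit 214) (nat_lit 5) (nat_lit 222) (nat_lit 5) (nat_lit 223) (nat_lit 5) (nat_lit 486) (nat_lit 432) (nat_lit 222))) (XT.nd (nat_lit 78) (nat_lit 608) (nat_lit 0) (XT.lf (nat_lit 0) (nat_lit 17699506946) (nat_lit 684) (nat_lit 2107268403) (nat_lit 76) (nat_lit 1286822763) (nat_lit 214) (nat_lit 5) (nat_lit 223) (nat_lit 5) (nat_lit 215) (nat_lit 5) (nat_lit 487) (nat_lit 432) (nat_lit 221)) (XT.nd (nat_lit 78) (nat_lit 76) (nat_lit 0) (XT.lf (nat_lit 0) (nat_lit 8979699889) (nat_lit 532) (nat_lit 12085538284) (nat_lit 608) (nat_lit 281890995) (nat_lit 207) (nat_lit 5) (nat_lit 214) (nat_lit 5) (nat_lit 215) (nat_lit 5) (nat_lit 488) (nat_lit 432) (nat_lit 220)) (XT.lf (nat_lit 0) (nat_lit 2863774191) (nat_lit 608) (nat_lit 1313567486) (nat_lit 76) (nat_lit 17427832723) (nat_lit 206) (nat_lit 5) (nat_lit 214) (nat_lit 5) (nat_lit 207) (nat_lit 5) (nat_lit 489) (nat_lit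 432) (nat_lit 219))))) (XT.nd (nat_lit 156) (nat_lit 1064) (nat_lit 0) (XT.nd (nat_lit 78) (nat_lit 0) (nat_lit 0) (XT.lf (nat_lit 0) (nat_lit 6154775892) (nat_lit 684) (nat_lit 11807139581) (nat_lit 76) (nat_lit 3904706108) (nat_lit 198) (nat_lit 5) (nat_lit 207) (nat_lit 5) (nat_lit 199) (nat_lit 5) (nat_lit 490) (nat_lit 432) (nat_lit 218)) (XT.lf (nat_lit 0) (nat_lit 9543208543) (nat_lit 684) (nat_lit 489194845) (nat_lit 76) (nat_lit 12100264317) (nat_lit 198) (nat_lit 5) (nat_lit 207) (nat_lit 5) (nat_lit 199) (nat_lit 5) (nat_lit 491) (nat_lit 432) (nat_lit 217))) (XT.nd (nat_lit 78) (nat_lit 532) (nat_lit 0) (XT.lf (nat_lit 0) (nat_lit 11195917038) (nat_lit 532) (nat_lit 1871354028) (nat_lit 608) (nat_lit 9335408639) (nat_lit 191) (nat_lit 5) (nat_lit 198) (nat_lit 5) (nat_lit 199) (nat_lit 5) (nat_lit 492) (nat_lit 432) (nat_lit 216)) (XT.nd (nat_lit 78) (nat_lit 0) (nat_lit 0) (XT.lf (nat_lit 0)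 (nat_lit 400593247) (nat_lit 532) (nat_lit 16304241461) (nat_lit 608) (nat_lit 5972398974) (nat_lit 184) (nat_lit 5) (nat_lit 191) (nat_lit 5) (nat_lit 192) (nat_lit 5) (nat_lit 493) (nat_lit 432) (nat_lit 215)) (XT.lf (nat_lit 0) (nat_lit 12373410829) (nat_lit 532) (nat_lit 8124526014) (nat_lit 608) (nat_lit 2457688242) (nat_lit 184) (nat_lit 5) (nat_lit 191) (nat_lit 5) (nat_lit 192) (nat_lit 5) (nat_lit 494) (nat_lit 432) (nat_lit 214)))))) (XT.nd (nat_lit 54834) (nat_lit 0) (nat_lit 16340) (XT.nd (nat_lit 54600) (nat_lit 0) (nat_lit 17936) (XT.nd (nat_lit 54522) (nat_lit 0) (nat_lit 17936) (XT.lf (nat_lit 0) (nat_lit 1118151014) (nat_lit 608) (nat_lit 21890367016) (nat_lit 76) (nat_lit 230809524) (nat_lit 176) (nat_lit 5) (nat_lit 184) (nat_lit 5) (nat_lit 177) (nat_lit 5) (nat_lit 495) (nat_lit 432) (nat_lit 213)) (XT.lf (nat_lit 0) (nat_lit 2350226252) (nat_lit 0) (nat_lit 2350226252) (nat_lit 1596)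 (nat_lit 1290806959) (nat_lit 412) (nat_lit 5) (nat_lit 412) (nat_lit 3) (nat_lit 433) (nat_lit 3) (nat_lit 433) (nat_lit 433) (nat_lit 274))) (XT.nd (nat_lit 78) (nat_lit 0) (nat_lit 0) (XT.lf (nat_lit 0) (nat_lit 9957742708) (nat_lit 1596) (nat_lit 1707017506) (nat_lit 1672) (nat_lit 428044120) (nat_lit 412) (nat_lit 5) (nat_lit 433) (nat_lit 3) (nat_lit 434) (nat_lit 5) (nat_lit 434) (nat_lit 433) (nat_lit 273)) (XT.nd (nat_lit 78) (nat_lit 0) (nat_lit 0) (XT.lf (nat_lit 76) (nat_lit 3994470692) (nat_lit 0) (nat_lit 6576282921) (nat_lit 1672) (nat_lit 1633648536) (nat_lit 413) (nat_lit 5) (nat_lit 412) (nat_lit 5) (nat_lit 434) (nat_lit 5) (nat_lit 435) (nat_lit 433) (nat_lit 272)) (XT.lf (nat_lit 76) (nat_lit 9826848239) (nat_lit 0) (nat_lit 1368799414) (nat_lit 1672) (nat_lit 1122599090) (nat_lit 413) (nat_lit 5) (nat_lit 412) (nat_lit 5) (nat_lit 434) (nat_lit 5) (nat_lit 436) (nat_lit 433) (nat_lit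 271))))) (XT.nd (nat_lit 234) (nat_lit 0) (nat_lit 76) (XT.nd (nat_lit 78) (nat_lit 1672) (nat_lit 0) (XT.lf (nat_lit 76) (nat_lit 3353455945) (nat_lit 0) (nat_lit 8515391259) (nat_lit 1672) (nat_lit 564812014) (nat_lit 414) (nat_lit 5) (nat_lit 413) (nat_lit 5) (nat_lit 435) (nat_lit 5) (nat_lit 437) (nat_lit 433) (nat_lit 270)) (XT.nd (nat_lit 78) (nat_lit 0) (nat_lit 76) (XT.lf (nat_lit 0) (nat_lit 18509126) (nat_lit 1672) (nat_lit 3217816680) (nat_lit 1748) (nat_lit 9314771813) (nat_lit 391) (nat_lit 5) (nat_lit 413) (nat_lit 5) (nat_lit 414) (nat_lit 5) (nat_lit 438) (nat_lit 433) (nat_lit 269)) (XT.lf (nat_lit 0) (nat_lit 626931230) (nat_lit 1672) (nat_lit 9896577730) (nat_lit 1748) (nat_lit 2146887940) (nat_lit 392) (nat_lit 5) (nat_lit 414) (nat_lit 5) (nat_lit 415) (nat_lit 5) (nat_lit 439) (nat_lit 433) (nat_lit 268)))) (XT.nd (nat_lit 78) (nat_lit 0) (nat_lit 76) (XT.lf (nat_lit 0) (nat_lit 1279662990)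 (nat_lit 1672) (nat_lit 3890955086) (nat_lit 1748) (nat_lit 7620827864) (nat_lit 392) (nat_lit 5) (nat_lit 414) (nat_lit 5) (nat_lit 415) (nat_lit 5) (nat_lit 440) (nat_lit 433) (nat_lit 267)) (XT.nd (nat_lit 78) (nat_lit 0) (nat_lit 0) (XT.lf (nat_lit 0) (nat_lit 1951301235) (nat_lit 1672) (nat_lit 10658961568) (nat_lit 1748) (nat_lit 304542586) (nat_lit 393) (nat_lit 5) (nat_lit 415) (nat_lit 5) (nat_lit 416) (nat_lit 5) (nat_lit 441) (nat_lit 433) (nat_lit 266)) (XT.lf (nat_lit 0) (nat_lit 2686283762) (nat_lit 1672) (nat_lit 4502912266) (nat_lit 1748) (nat_lit 5850444111) (nat_lit 393) (nat_lit 5) (nat_lit 415) (nat_lit 5) (nat_lit 416) (nat_lit 5) (nat_lit 442) (nat_lit 433) (nat_lit 265))))))))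
noncomputable def xc220 : XT := (XT.nd (nat_lit 1560) (nat_lit 8512) (nat_lit 0) (XT.nd (nat_lit 780) (nat_lit 3876) (nat_lit 0) (XT.nd (nat_lit 390) (nat_lit 0) (nat_lit 152) (XT.nd (nat_lit 156) (nat_lit 0) (nat_lit 76) (XT.nd (nat_lit 78) (nat_lit 0) (nat_lit 76) (XT.lf (nat_lit 76) (nat_lit 1793199040) (nat_lit 0) (nat_lit 1644003400) (nat_lit 1748) (nat_lit 9729750629) (nat_lit 394) (nat_lit 5) (nat_lit 393) (nat_lit 5) (nat_lit 416) (nat_lit 5) (nat_lit 443) (nat_lit 433) (nat_lit 264)) (XT.lf (nat_lit 0) (nat_lit 4249385261) (nat_lit 1672) (nat_lit 5052955383) (nat_lit 1748) (nat_lit 3993552792) (nat_lit 394) (nat_lit 5) (nat_lit 416) (nat_lit 5) (nat_lit 417) (nat_lit 5) (nat_lit 444) (nat_lit 433) (nat_lit 263))) (XT.nd (nat_lit 78) (nat_lit 0) (nat_lit 76) (XT.lf (nat_lit 76) (nat_lit 1395031694) (nat_lit 0) (nat_lit 3692704930) (nat_lit 1748) (nat_lit 8339483464) (nat_lit 395) (nat_lit 5) (nat_lit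 394) (nat_lit 5) (nat_lit 417) (nat_lit 5) (nat_lit 445) (nat_lit 433) (nat_lit 262)) (XT.nd (nat_lit 78) (nat_lit 0) (nat_lit 0) (XT.lf (nat_lit 0) (nat_lit 5980316877) (nat_lit 1672) (nat_lit 5540238405) (nat_lit 1748) (nat_lit 2039874611) (nat_lit 395) (nat_lit 5) (nat_lit 417) (nat_lit 5) (nat_lit 418) (nat_lit 5) (nat_lit 446) (nat_lit 433) (nat_lit 261)) (XT.lf (nat_lit 76) (nat_lit 1064371702) (nat_lit 0) (nat_lit 5848090579) (nat_lit 1748) (nat_lit 6783413085) (nat_lit 396) (nat_lit 5) (nat_lit 395) (nat_lit 5) (nat_lit 418) (nat_lit 5) (nat_lit 447) (nat_lit 433) (nat_lit 260))))) (XT.nd (nat_lit 156) (nat_lit 0) (nat_lit 76) (XT.nd (nat_lit 78) (nat_lit 0) (nat_lit 76) (XT.lf (nat_lit 76) (nat_lit 7869534064) (nat_lit 0) (nat_lit 21388535) (nat_lit 1748) (nat_lit 5942559338) (nat_lit 396) (nat_lit 5) (nat_lit 395) (nat_lit 5) (nat_lit 418) (nat_lit 5) (nat_lit 448) (nat_lit 433) (nat_lit 259))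 (XT.lf (nat_lit 76) (nat_lit 802313645) (nat_lit 0) (nat_lit 8120994922) (nat_lit 1748) (nat_lit 5049850466) (nat_lit 397) (nat_lit 5) (nat_lit 396) (nat_lit 5) (nat_lit 419) (nat_lit 5) (nat_lit 449) (nat_lit 433) (nat_lit 258))) (XT.nd (nat_lit 78) (nat_lit 0) (nat_lit 76) (XT.lf (nat_lit 76) (nat_lit 7777924643) (nat_lit 0) (nat_lit 2229417318) (nat_lit 1748) (nat_lit 4107673124) (nat_lit 397) (nat_lit 5) (nat_lit 396) (nat_lit 5) (nat_lit 419) (nat_lit 5) (nat_lit 450) (nat_lit 433) (nat_lit 257)) (XT.nd (nat_lit 78) (nat_lit 0) (nat_lit 0) (XT.lf (nat_lit 76) (nat_lit 610053335) (nat_lit 0) (nat_lit 10522539023) (nat_lit 1748) (nat_lit 3126730480) (nat_lit 398) (nat_lit 5) (nat_lit 397) (nat_lit 5) (nat_lit 420) (nat_lit 5) (nat_lit 451) (nat_lit 433) (nat_lit 256)) (XT.lf (nat_lit 76) (nat_lit 7760379720) (nat_lit 0) (nat_lit 4568326037) (nat_lit 1748) (nat_lit 2076849031) (nat_lit 398) (nat_lit 5)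 (nat_lit 397) (nat_lit 5) (nat_lit 420) (nat_lit 5) (nat_lit 452) (nat_lit 433) (nat_lit 255)))))) (XT.nd (nat_lit 390) (nat_lit 2508) (nat_lit 0) (XT.nd (nat_lit 156) (nat_lit 0) (nat_lit 0) (XT.nd (nat_lit 78) (nat_lit 1748) (nat_lit 0) (XT.lf (nat_lit 76) (nat_lit 488880584) (nat_lit 0) (nat_lit 13064158618) (nat_lit 1748) (nat_lit 1001591319) (nat_lit 399) (nat_lit 5) (nat_lit 398) (nat_lit 5) (nat_lit 421) (nat_lit 5) (nat_lit 453) (nat_lit 433) (nat_lit 254)) (XT.lf (nat_lit 0) (nat_lit 160482060) (nat_lit 1748) (nat_lit 6888104156) (nat_lit 1824) (nat_lit 7656762921) (nat_lit 375) (nat_lit 5) (nat_lit 398) (nat_lit 5) (nat_lit 399) (nat_lit 5) (nat_lit 454) (nat_lit 433) (nat_lit 253))) (XT.nd (nat_lit 78) (nat_lit 0) (nat_lit 76) (XT.lf (nat_lit 76) (nat_lit 425338266) (nat_lit 0) (nat_lit 901406695) (nat_lit 1824) (nat_lit 13532322371) (nat_lit 376) (nat_lit 5) (nat_lit 375) (nat_lit 5) (nat_lit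 399) (nat_lit 5) (nat_lit 455) (nat_lit 433) (nat_lit 252)) (XT.nd (nat_lit 78) (nat_lit 0) (nat_lit 0) (XT.lf (nat_lit 0) (nat_lit 2589436942) (nat_lit 1748) (nat_lit 7078517922) (nat_lit 1824) (nat_lit 5346447663) (nat_lit 376) (nat_lit 5) (nat_lit 399) (nat_lit 5) (nat_lit 400) (nat_lit 5) (nat_lit 456) (nat_lit 433) (nat_lit 251)) (XT.lf (nat_lit 76) (nat_lit 416586861) (nat_lit 0) (nat_lit 3461350274) (nat_lit 1824) (nat_lit 11294900820) (nat_lit 377) (nat_lit 5) (nat_lit 376) (nat_lit 5) (nat_lit 400) (nat_lit 5) (nat_lit 457) (nat_lit 433) (nat_lit 250))))) (XT.nd (nat_lit 156) (nat_lit 912) (nat_lit 0) (XT.nd (nat_lit 78) (nat_lit 1748) (nat_lit 0) (XT.lf (nat_lit 0) (nat_lit 5250657178) (nat_lit 1748) (nat_lit 7201725538) (nat_lit 76) (nat_lit 2880894909) (nat_lit 377) (nat_lit 5) (nat_lit 400) (nat_lit 5) (nat_lit 378) (nat_lit 5) (nat_lit 458) (nat_lit 433) (nat_lit 249)) (XT.lf (nat_lit 0) (nat_lit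 480570610) (nat_lit 1748) (nat_lit 6188465541) (nat_lit 1824) (nat_lit 8827530284) (nat_lit 354) (nat_lit 5) (nat_lit 377) (nat_lit 5) (nat_lit 378) (nat_lit 5) (nat_lit 459) (nat_lit 433) (nat_lit 248))) (XT.nd (nat_lit 78) (nat_lit 912) (nat_lit 0) (XT.lf (nat_lit 0) (nat_lit 8158012339) (nat_lit 1824) (nat_lit 7256465466) (nat_lit 76) (nat_lit 247802977) (nat_lit 354) (nat_lit 5) (nat_lit 378) (nat_lit 5) (nat_lit 355) (nat_lit 5) (nat_lit 460) (nat_lit 433) (nat_lit 247)) (XT.nd (nat_lit 78) (nat_lit 0) (nat_lit 0) (XT.lf (nat_lit 0) (nat_lit 618698751) (nat_lit 912) (nat_lit 9095499852) (nat_lit 988) (nat_lit 6116366468) (nat_lit 342) (nat_lit 5) (nat_lit 354) (nat_lit 5) (nat_lit 355) (nat_lit 5) (nat_lit 461) (nat_lit 433) (nat_lit 246)) (XT.lf (nat_lit 0) (nat_lit 8743085674) (nat_lit 912) (nat_lit 2599653248) (nat_lit 988) (nat_lit 4658655701) (nat_lit 342) (nat_lit 5) (nat_lit 354) (nat_lit 5)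 (nat_lit 355) (nat_lit 5) (nat_lit 462) (nat_lit 433) (nat_lit 245))))))) (XT.nd (nat_lit 780) (nat_lit 4332) (nat_lit 0) (XT.nd (nat_lit 390) (nat_lit 1520) (nat_lit 0) (XT.nd (nat_lit 156) (nat_lit 1748) (nat_lit 0) (XT.nd (nat_lit 78) (nat_lit 0) (nat_lit 0) (XT.lf (nat_lit 0) (nat_lit 832427534) (nat_lit 912) (nat_lit 12195654571) (nat_lit 988) (nat_lit 3147078121) (nat_lit 330) (nat_lit 5) (nat_lit 342) (nat_lit 5) (nat_lit 343) (nat_lit 5) (nat_lit 463) (nat_lit 433) (nat_lit 244)) (XT.lf (nat_lit 0) (nat_lit 9159296581) (nat_lit 912) (nat_lit 5646433206) (nat_lit 988) (nat_lit 1545503423) (nat_lit 330) (nat_lit 5) (nat_lit 342) (nat_lit 5) (nat_lit 343) (nat_lit 5) (nat_lit 464) (nat_lit 433) (nat_lit 243))) (XT.nd (nat_lit 78) (nat_lit 836) (nat_lit 0) (XT.lf (nat_lit 0) (nat_lit 93926899) (nat_lit 912) (nat_lit 15408060337) (nat_lit 76) (nat_lit 1028693248) (nat_lit 318) (nat_lit 5) (nat_lit 330)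 (nat_lit 5) (nat_lit 319) (nat_lit 5) (nat_lit 465) (nat_lit 433) (nat_lit 242)) (XT.nd (nat_lit 78) (nat_lit 836) (nat_lit 0) (XT.lf (nat_lit 0) (nat_lit 1824424243) (nat_lit 912) (nat_lit 7066441139) (nat_lit 76) (nat_lit 7821071341) (nat_lit 318) (nat_lit 5) (nat_lit 330) (nat_lit 5) (nat_lit 319) (nat_lit 5) (nat_lit 466) (nat_lit 433) (nat_lit 241)) (XT.lf (nat_lit 0) (nat_lit 1454520077) (nat_lit 836) (nat_lit 2137571311) (nat_lit 912) (nat_lit 13304679216) (nat_lit 307) (nat_lit 5) (nat_lit 318) (nat_lit 5) (nat_lit 319) (nat_lit 5) (nat_lit 467) (nat_lit 433) (nat_lit 240))))) (XT.nd (nat_lit 156) (nat_lit 760) (nat_lit 0) (XT.nd (nat_lit 78) (nat_lit 760) (nat_lit 0) (XT.lf (nat_lit 0) (nat_lit 5466901233) (nat_lit 912) (nat_lit 6880488753) (nat_lit 76) (nat_lit 4736479033) (nat_lit 307) (nat_lit 5) (nat_lit 319) (nat_lit 5) (nat_lit 308) (nat_lit 5) (nat_lit 468) (nat_lit 433) (nat_lit 239)) (XT.lf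 (nat_lit 0) (nat_lit 1856162075) (nat_lit 760) (nat_lit 5542596370) (nat_lit 836) (nat_lit 9875563502) (nat_lit 297) (nat_lit 5) (nat_lit 307) (nat_lit 5) (nat_lit 308) (nat_lit 5) (nat_lit 469) (nat_lit 433) (nat_lit 238))) (XT.nd (nat_lit 78) (nat_lit 760) (nat_lit 0) (XT.lf (nat_lit 0) (nat_lit 9418241431) (nat_lit 836) (nat_lit 6622858518) (nat_lit 76) (nat_lit 1426507714) (nat_lit 297) (nat_lit 5) (nat_lit 308) (nat_lit 5) (nat_lit 298) (nat_lit 5) (nat_lit 470) (nat_lit 433) (nat_lit 237)) (XT.nd (nat_lit 78) (nat_lit 0) (nat_lit 0) (XT.lf (nat_lit 0) (nat_lit 2335780686) (nat_lit 760) (nat_lit 9187766046) (nat_lit 836) (nat_lit 6140307138) (nat_lit 287) (nat_lit 5) (nat_lit 297) (nat_lit 5) (nat_lit 298) (nat_lit 5) (nat_lit 471) (nat_lit 433) (nat_lit 236)) (XT.lf (nat_lit 0) (nat_lit 11556913579) (nat_lit 760) (nat_lit 2152133057) (nat_lit 836) (nat_lit 4154219960) (nat_lit 287) (nat_lit 5) (nat_lit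 297) (nat_lit 5) (nat_lit 298) (nat_lit 5) (nat_lit 472) (nat_lit 433) (nat_lit 235)))))) (XT.nd (nat_lit 390) (nat_lit 2052) (nat_lit 0) (XT.nd (nat_lit 156) (nat_lit 1444) (nat_lit 0) (XT.nd (nat_lit 78) (nat_lit 76) (nat_lit 0) (XT.lf (nat_lit 0) (nat_lit 2894691019) (nat_lit 760) (nat_lit 13088749888) (nat_lit 836) (nat_lit 2082326282) (nat_lit 277) (nat_lit 5) (nat_lit 287) (nat_lit 5) (nat_lit 288) (nat_lit 5) (nat_lit 473) (nat_lit 433) (nat_lit 234)) (XT.lf (nat_lit 0) (nat_lit 81256582) (nat_lit 836) (nat_lit 5927462726) (nat_lit 76) (nat_lit 12262584470) (nat_lit 276) (nat_lit 5) (nat_lit 287) (nat_lit 5) (nat_lit 277) (nat_lit 5) (nat_lit 474) (nat_lit 433) (nat_lit 233))) (XT.nd (nat_lit 78) (nat_lit 684) (nat_lit 0) (XT.lf (nat_lit 0) (nat_lit 2285198967) (nat_lit 836) (nat_lit 14961336367) (nat_lit 76) (nat_lit 1233644186) (nat_lit 266) (nat_lit 5) (nat_lit 277) (nat_lit 5) (nat_lit 267) (nat_lit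 5) (nat_lit 475) (nat_lit 433) (nat_lit 232)) (XT.nd (nat_lit 78) (nat_lit 684) (nat_lit 0) (XT.lf (nat_lit 0) (nat_lit 4607056325) (nat_lit 836) (nat_lit 5504518925) (nat_lit 76) (nat_lit 8580183850) (nat_lit 266) (nat_lit 5) (nat_lit 277) (nat_lit 5) (nat_lit 267) (nat_lit 5) (nat_lit 476) (nat_lit 433) (nat_lit 231)) (XT.lf (nat_lit 0) (nat_lit 4190065898) (nat_lit 684) (nat_lit 2806610666) (nat_lit 760) (nat_lit 11910470181) (nat_lit 257) (nat_lit 5) (nat_lit 266) (nat_lit 5) (nat_lit 267) (nat_lit 5) (nat_lit 477) (nat_lit 433) (nat_lit 230))))) (XT.nd (nat_lit 234) (nat_lit 1368) (nat_lit 0) (XT.nd (nat_lit 78) (nat_lit 684) (nat_lit 0) (XT.lf (nat_lit 0) (nat_lit 9495619372) (nat_lit 760) (nat_lit 5009742017) (nat_lit 76) (nat_lit 4620253080) (nat_lit 257) (nat_lit 5) (nat_lit 267) (nat_lit 5) (nat_lit 258) (nat_lit 5) (nat_lit 478) (nat_lit 433) (nat_lit 229)) (XT.nd (nat_lit 78) (nat_lit 0) (nat_lit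 0) (XT.lf (nat_lit 0) (nat_lit 4931563772) (nat_lit 684) (nat_lit 7157889394) (nat_lit 760) (nat_lit 7258103011) (nat_lit 248) (nat_lit 5) (nat_lit 257) (nat_lit 5) (nat_lit 258) (nat_lit 5) (nat_lit 479) (nat_lit 433) (nat_lit 228)) (XT.lf (nat_lit 0) (nat_lit 14765562835) (nat_lit 760) (nat_lit 4442409333) (nat_lit 76) (nat_lit 365359381) (nat_lit 248) (nat_lit 5) (nat_lit 258) (nat_lit 5) (nat_lit 249) (nat_lit 5) (nat_lit 480) (nat_lit 433) (nat_lit 227)))) (XT.nd (nat_lit 78) (nat_lit 760) (nat_lit 0) (XT.lf (nat_lit 0) (nat_lit 5752469777) (nat_lit 608) (nat_lit 11821960901) (nat_lit 684) (nat_lit 2227609792) (nat_lit 240) (nat_lit 5) (nat_lit 248) (nat_lit 5) (nat_lit 249) (nat_lit 5) (nat_lit 481) (nat_lit 433) (nat_lit 226)) (XT.nd (nat_lit 78) (nat_lit 684) (nat_lit 0) (XT.lf (nat_lit 0) (nat_lit 423373305) (nat_lit 684) (nat_lit 3832336027) (nat_lit 76) (nat_lit 15779073979) (nat_lit 239) (nat_lit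 5) (nat_lit 248) (nat_lit 5) (nat_lit 240) (nat_lit 5) (nat_lit 482) (nat_lit 433) (nat_lit 225)) (XT.lf (nat_lit 0) (nat_lit 3158265688) (nat_lit 760) (nat_lit 13638335755) (nat_lit 76) (nat_lit 3474073330) (nat_lit 230) (nat_lit 5) (nat_lit 240) (nat_lit 5) (nat_lit 231) (nat_lit 5) (nat_lit 483) (nat_lit 433) (nat_lit 224))))))))
noncomputable def xc221 : XT := (XT.nd (nat_lit 56082) (nat_lit 0) (nat_lit 12008) (XT.nd (nat_lit 780) (nat_lit 532) (nat_lit 0) (XT.nd (nat_lit 390) (nat_lit 1748) (nat_lit 0) (XT.nd (nat_lit 156) (nat_lit 608) (nat_lit 0) (XT.nd (nat_lit 78) (nat_lit 608) (nat_lit 0) (XT.lf (nat_lit 0) (nat_lit 5996608417) (nat_lit 760) (nat_lit 3187060252) (nat_lit 76) (nat_lit 11326642894) (nat_lit 230) (nat_lit 5) (nat_lit 240) (nat_lit 5) (nat_lit 231) (nat_lit 5) (nat_lit 484) (nat_lit 433) (nat_lit 223)) (XT.lf (nat_lit 0) (nat_lit 7566404339) (nat_lit 608) (nat_lit 1369225749) (nat_lit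 684) (nat_lit 11818235260) (nat_lit 222) (nat_lit 5) (nat_lit 230) (nat_lit 5) (nat_lit 231) (nat_lit 5) (nat_lit 485) (nat_lit 433) (nat_lit 222))) (XT.nd (nat_lit 78) (nat_lit 608) (nat_lit 0) (XT.lf (nat_lit 0) (nat_lit 11992665368) (nat_lit 684) (nat_lit 2472856788) (nat_lit 76) (nat_lit 6535585839) (nat_lit 222) (nat_lit 5) (nat_lit 231) (nat_lit 5) (nat_lit 223) (nat_lit 5) (nat_lit 486) (nat_lit 433) (nat_lit 221)) (XT.nd (nat_lit 78) (nat_lit 0) (nat_lit 0) (XT.lf (nat_lit 0) (nat_lit 8553136954) (nat_lit 608) (nat_lit 6617249202) (nat_lit 684) (nat_lit 6081720847) (nat_lit 214) (nat_lit 5) (nat_lit 222) (nat_lit 5) (nat_lit 223) (nat_lit 5) (nat_lit 487) (nat_lit 433) (nat_lit 220)) (XT.lf (nat_lit 0) (nat_lit 18432375639) (nat_lit 684) (nat_lit 1689812103) (nat_lit 76) (nat_lit 1385526318) (nat_lit 214) (nat_lit 5) (nat_lit 223) (nat_lit 5) (nat_lit 215) (nat_lit 5) (nat_lit 488) (nat_lit 433)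 (nat_lit 219))))) (XT.nd (nat_lit 156) (nat_lit 1140) (nat_lit 0) (XT.nd (nat_lit 78) (nat_lit 0) (nat_lit 0) (XT.lf (nat_lit 0) (nat_lit 93308358) (nat_lit 608) (nat_lit 12151150539) (nat_lit 76) (nat_lit 9521937353) (nat_lit 206) (nat_lit 5) (nat_lit 214) (nat_lit 5) (nat_lit 207) (nat_lit 5) (nat_lit 489) (nat_lit 433) (nat_lit 218)) (XT.lf (nat_lit 0) (nat_lit 3290722403) (nat_lit 608) (nat_lit 887132465) (nat_lit 76) (nat_lit 17851861415) (nat_lit 206) (nat_lit 5) (nat_lit 214) (nat_lit 5) (nat_lit 207) (nat_lit 5) (nat_lit 490) (nat_lit 433) (nat_lit 217))) (XT.nd (nat_lit 78) (nat_lit 532) (nat_lit 0) (XT.lf (nat_lit 0) (nat_lit 6643763461) (nat_lit 684) (nat_lit 11586630472) (nat_lit 76) (nat_lit 4066077384) (nat_lit 198) (nat_lit 5) (nat_lit 207) (nat_lit 5) (nat_lit 199) (nat_lit 5) (nat_lit 491) (nat_lit 433) (nat_lit 216)) (XT.nd (nat_lit 78) (nat_lit 532) (nat_lit 0) (XT.lf (nat_lit 0) (nat_lit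 10092790412) (nat_lit 684) (nat_lit 51280801) (nat_lit 76) (nat_lit 12423913872) (nat_lit 198) (nat_lit 5) (nat_lit 207) (nat_lit 5) (nat_lit 199) (nat_lit 5) (nat_lit 492) (nat_lit 433) (nat_lit 215)) (XT.lf (nat_lit 0) (nat_lit 11864587940) (nat_lit 532) (nat_lit 1818600194) (nat_lit 608) (nat_lit 9160295281) (nat_lit 191) (nat_lit 5) (nat_lit 198) (nat_lit 5) (nat_lit 199) (nat_lit 5) (nat_lit 493) (nat_lit 433) (nat_lit 214)))))) (XT.nd (nat_lit 54912) (nat_lit 0) (nat_lit 15732) (XT.nd (nat_lit 54678) (nat_lit 0) (nat_lit 17328) (XT.nd (nat_lit 78) (nat_lit 0) (nat_lit 0) (XT.lf (nat_lit 0) (nat_lit 857052195) (nat_lit 532) (nat_lit 16532984117) (nat_lit 608) (nat_lit 5733564599) (nat_lit 184) (nat_lit 5) (nat_lit 191) (nat_lit 5) (nat_lit 192) (nat_lit 5) (nat_lit 494) (nat_lit 433) (nat_lit 213)) (XT.lf (nat_lit 0) (nat_lit 13060533049) (nat_lit 532) (nat_lit 8191583031) (nat_lit 608) (nat_lit 2155584797)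 (nat_lit 184) (nat_lit 5) (nat_lit 191) (nat_lit 5) (nat_lit 192) (nat_lit 5) (nat_lit 495) (nat_lit 433) (nat_lit 212))) (XT.nd (nat_lit 78) (nat_lit 0) (nat_lit 0) (XT.lf (nat_lit 0) (nat_lit 2625743708) (nat_lit 0) (nat_lit 2625743708) (nat_lit 1596) (nat_lit 850175349) (nat_lit 412) (nat_lit 5) (nat_lit 412) (nat_lit 3) (nat_lit 433) (nat_lit 3) (nat_lit 434) (nat_lit 434) (nat_lit 272)) (XT.nd (nat_lit 78) (nat_lit 0) (nat_lit 0) (XT.lf (nat_lit 0) (nat_lit 11044496984) (nat_lit 0) (nat_lit 5657315) (nat_lit 1596) (nat_lit 1266089279) (nat_lit 412) (nat_lit 5) (nat_lit 412) (nat_lit 3) (nat_lit 433) (nat_lit 3) (nat_lit 435) (nat_lit 434) (nat_lit 271)) (XT.lf (nat_lit 76) (nat_lit 4540719625) (nat_lit 0) (nat_lit 7120182864) (nat_lit 1672) (nat_lit 769472136) (nat_lit 413) (nat_lit 5) (nat_lit 412) (nat_lit 5) (nat_lit 434) (nat_lit 5) (nat_lit 436) (nat_lit 434) (nat_lit 270))))) (XT.nd (nat_lit 156)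 (nat_lit 0) (nat_lit 0) (XT.nd (nat_lit 78) (nat_lit 1596) (nat_lit 0) (XT.lf (nat_lit 76) (nat_lit 10480600419) (nat_lit 0) (nat_lit 1800463917) (nat_lit 1672) (nat_lit 265786983) (nat_lit 413) (nat_lit 5) (nat_lit 412) (nat_lit 5) (nat_lit 434) (nat_lit 5) (nat_lit 437) (nat_lit 434) (nat_lit 269)) (XT.lf (nat_lit 0) (nat_lit 282675946) (nat_lit 1672) (nat_lit 8771786415) (nat_lit 1748) (nat_lit 3610410589) (nat_lit 391) (nat_lit 5) (nat_lit 413) (nat_lit 5) (nat_lit 414) (nat_lit 5) (nat_lit 438) (nat_lit 434) (nat_lit 268))) (XT.nd (nat_lit 78) (nat_lit 0) (nat_lit 76) (XT.lf (nat_lit 0) (nat_lit 853416993) (nat_lit 1672) (nat_lit 2805427477) (nat_lit 1748) (nat_lit 9126084648) (nat_lit 391) (nat_lit 5) (nat_lit 413) (nat_lit 5) (nat_lit 414) (nat_lit 5) (nat_lit 439) (nat_lit 434) (nat_lit 267)) (XT.nd (nat_lit 78) (nat_lit 0) (nat_lit 0) (XT.lf (nat_lit 0) (nat_lit 1458461928) (nat_lit 1672) (nat_lit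 9601728237) (nat_lit 1748) (nat_lit 1846744930) (nat_lit 392) (nat_lit 5) (nat_lit 414) (nat_lit 5) (nat_lit 415) (nat_lit 5) (nat_lit 440) (nat_lit 434) (nat_lit 266)) (XT.lf (nat_lit 0) (nat_lit 2108189655) (nat_lit 1672) (nat_lit 3485655514) (nat_lit 1748) (nat_lit 7436890725) (nat_lit 392) (nat_lit 5) (nat_lit 414) (nat_lit 5) (nat_lit 415) (nat_lit 5) (nat_lit 441) (nat_lit 434) (nat_lit 265))))))) (XT.nd (nat_lit 780) (nat_lit 3876) (nat_lit 0) (XT.nd (nat_lit 390) (nat_lit 0) (nat_lit 152) (XT.nd (nat_lit 156) (nat_lit 0) (nat_lit 0) (XT.nd (nat_lit 78) (nat_lit 0) (nat_lit 0) (XT.lf (nat_lit 0) (nat_lit 2778617865) (nat_lit 1672) (nat_lit 10373908448) (nat_lit 1748) (nat_lit 4338494) (nat_lit 393) (nat_lit 5) (nat_lit 415) (nat_lit 5) (nat_lit 416) (nat_lit 5) (nat_lit 442) (nat_lit 434) (nat_lit 264)) (XT.lf (nat_lit 0) (nat_lit 3512843364) (nat_lit 1672) (nat_lit 4104507421) (nat_lit 1748) (nat_lit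 5667163833) (nat_lit 393) (nat_lit 5) (nat_lit 415) (nat_lit 5) (nat_lit 416) (nat_lit 5) (nat_lit 443) (nat_lit 434) (nat_lit 263))) (XT.nd (nat_lit 78) (nat_lit 0) (nat_lit 76) (XT.lf (nat_lit 76) (nat_lit 2314312538) (nat_lit 0) (nat_lit 1952464833) (nat_lit 1748) (nat_lit 9147845548) (nat_lit 394) (nat_lit 5) (nat_lit 393) (nat_lit 5) (nat_lit 416) (nat_lit 5) (nat_lit 444) (nat_lit 434) (nat_lit 262)) (XT.nd (nat_lit 78) (nat_lit 0) (nat_lit 0) (XT.lf (nat_lit 0) (nat_lit 5078531422) (nat_lit 1672) (nat_lit 4661163526) (nat_lit 1748) (nat_lit 3806789469) (nat_lit 394) (nat_lit 5) (nat_lit 416) (nat_lit 5) (nat_lit 417) (nat_lit 5) (nat_lit 445) (nat_lit 434) (nat_lit 261)) (XT.lf (nat_lit 76) (nat_lit 1912540853) (nat_lit 0) (nat_lit 4009696481) (nat_lit 1748) (nat_lit 7758437218) (nat_lit 395) (nat_lit 5) (nat_lit 394) (nat_lit 5) (nat_lit 417) (nat_lit 5) (nat_lit 446) (nat_lit 434) (nat_lit 260)))))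 (XT.nd (nat_lit 156) (nat_lit 0) (nat_lit 0) (XT.nd (nat_lit 78) (nat_lit 0) (nat_lit 0) (XT.lf (nat_lit 0) (nat_lit 6816753967) (nat_lit 1672) (nat_lit 5154693102) (nat_lit 1748) (nat_lit 1845428318) (nat_lit 395) (nat_lit 5) (nat_lit 417) (nat_lit 5) (nat_lit 418) (nat_lit 5) (nat_lit 447) (nat_lit 434) (nat_lit 259)) (XT.lf (nat_lit 76) (nat_lit 1578743746) (nat_lit 0) (nat_lit 6177944460) (nat_lit 1748) (nat_lit 6198567007) (nat_lit 396) (nat_lit 5) (nat_lit 395) (nat_lit 5) (nat_lit 418) (nat_lit 5) (nat_lit 448) (nat_lit 434) (nat_lit 258))) (XT.nd (nat_lit 78) (nat_lit 0) (nat_lit 76) (XT.lf (nat_lit 76) (nat_lit 8510341030) (nat_lit 0) (nat_lit 230534022) (nat_lit 1748) (nat_lit 5355023917) (nat_lit 396) (nat_lit 5) (nat_lit 395) (nat_lit 5) (nat_lit 418) (nat_lit 5) (nat_lit 449) (nat_lit 434) (nat_lit 257)) (XT.nd (nat_lit 78) (nat_lit 0) (nat_lit 0) (XT.lf (nat_lit 76) (nat_lit 1314100891) (nat_lit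 0) (nat_lit 8468126709) (nat_lit 1748) (nat_lit 4456383666) (nat_lit 397) (nat_lit 5) (nat_lit 396) (nat_lit 5) (nat_lit 419) (nat_lit 5) (nat_lit 450) (nat_lit 434) (nat_lit 256)) (XT.lf (nat_lit 76) (nat_lit 8419503698) (nat_lit 0) (nat_lit 2455095752) (nat_lit 1748) (nat_lit 3508979715) (nat_lit 397) (nat_lit 5) (nat_lit 396) (nat_lit 5) (nat_lit 419) (nat_lit 5) (nat_lit 451) (nat_lit 434) (nat_lit 255)))))) (XT.nd (nat_lit 390) (nat_lit 2508) (nat_lit 0) (XT.nd (nat_lit 156) (nat_lit 1672) (nat_lit 0) (XT.nd (nat_lit 78) (nat_lit 0) (nat_lit 0) (XT.lf (nat_lit 76) (nat_lit 1119891334) (nat_lit 0) (nat_lit 10891461205) (nat_lit 1748) (nat_lit 2519648305) (nat_lit 398) (nat_lit 5) (nat_lit 397) (nat_lit 5) (nat_lit 420) (nat_lit 5) (nat_lit 452) (nat_lit 434) (nat_lit 254)) (XT.lf (nat_lit 76) (nat_lit 8403466660) (nat_lit 0) (nat_lit 4815056677) (nat_lit 1748) (nat_lit 1461898968) (nat_lit 398) (nat_lit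 5) (nat_lit 397) (nat_lit 5) (nat_lit 420) (nat_lit 5) (nat_lit 453) (nat_lit 434) (nat_lit 253))) (XT.nd (nat_lit 78) (nat_lit 1748) (nat_lit 0) (XT.lf (nat_lit 76) (nat_lit 997486349) (nat_lit 0) (nat_lit 13459494260) (nat_lit 1748) (nat_lit 375713626) (nat_lit 399) (nat_lit 5) (nat_lit 398) (nat_lit 5) (nat_lit 421) (nat_lit 5) (nat_lit 454) (nat_lit 434) (nat_lit 252)) (XT.nd (nat_lit 78) (nat_lit 0) (nat_lit 0) (XT.lf (nat_lit 0) (nat_lit 788631211) (nat_lit 1748) (nat_lit 6528157046) (nat_lit 1824) (nat_lit 7669812206) (nat_lit 375) (nat_lit 5) (nat_lit 398) (nat_lit 5) (nat_lit 399) (nat_lit 5) (nat_lit 455) (nat_lit 434) (nat_lit 251)) (XT.lf (nat_lit 76) (nat_lit 928279822) (nat_lit 0) (nat_lit 1040896031) (nat_lit 1824) (nat_lit 13174405037) (nat_lit 376) (nat_lit 5) (nat_lit 375) (nat_lit 5) (nat_lit 399) (nat_lit 5) (nat_lit 456) (nat_lit 434) (nat_lit 250))))) (XT.nd (nat_lit 234) (nat_lit 2584)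 (nat_lit 0) (XT.nd (nat_lit 78) (nat_lit 0) (nat_lit 0) (XT.lf (nat_lit 0) (nat_lit 3244272137) (nat_lit 1748) (nat_lit 6722155745) (nat_lit 1824) (nat_lit 5335858757) (nat_lit 376) (nat_lit 5) (nat_lit 399) (nat_lit 5) (nat_lit 400) (nat_lit 5) (nat_lit 457) (nat_lit 434) (nat_lit 249)) (XT.nd (nat_lit 78) (nat_lit 0) (nat_lit 76) (XT.lf (nat_lit 76) (nat_lit 919575262) (nat_lit 0) (nat_lit 3630354272) (nat_lit 1824) (nat_lit 10914140225) (nat_lit 377) (nat_lit 5) (nat_lit 376) (nat_lit 5) (nat_lit 400) (nat_lit 5) (nat_lit 458) (nat_lit 434) (nat_lit 248)) (XT.lf (nat_lit 0) (nat_lit 5937813299) (nat_lit 1748) (nat_lit 6848182168) (nat_lit 76) (nat_lit 2841975162) (nat_lit 377) (nat_lit 5) (nat_lit 400) (nat_lit 5) (nat_lit 378) (nat_lit 5) (nat_lit 459) (nat_lit 434) (nat_lit 247)))) (XT.nd (nat_lit 78) (nat_lit 912) (nat_lit 0) (XT.lf (nat_lit 0) (nat_lit 984486364) (nat_lit 1748) (nat_lit 6391868271)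 (nat_lit 1824) (nat_lit 8418341149) (nat_lit 354) (nat_lit 5) (nat_lit 377) (nat_lit 5) (nat_lit 378) (nat_lit 5) (nat_lit 460) (nat_lit 434) (nat_lit 246)) (XT.nd (nat_lit 78) (nat_lit 912) (nat_lit 0) (XT.lf (nat_lit 0) (nat_lit 8883349770) (nat_lit 1824) (nat_lit 6904905211) (nat_lit 76) (nat_lit 175710986) (nat_lit 354) (nat_lit 5) (nat_lit 378) (nat_lit 5) (nat_lit 355) (nat_lit 5) (nat_lit 461) (nat_lit 434) (nat_lit 245)) (XT.lf (nat_lit 0) (nat_lit 1124494596) (nat_lit 912) (nat_lit 9338345704) (nat_lit 988) (nat_lit 5672938245) (nat_lit 342) (nat_lit 5) (nat_lit 354) (nat_lit 5) (nat_lit 355) (nat_lit 5) (nat_lit 462) (nat_lit 434) (nat_lit 244))))))))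
noncomputable def xc222 : XT := (XT.nd (nat_lit 1560) (nat_lit 4256) (nat_lit 0) (XT.nd (nat_lit 780) (nat_lit 3572) (nat_lit 0) (XT.nd (nat_lit 390) (nat_lit 2356) (nat_lit 0) (XT.nd (nat_lit 156) (nat_lit 912) (nat_lit 0) (XT.nd (nat_lit 78) (nat_lit 912) (nat_lit 0) (XT.lf (nat_lit 0) (nat_lit 9401694319) (nat_lit 912) (nat_lit 2711387347) (nat_lit 988) (nat_lit 4197166509) (nat_lit 342) (nat_lit 5) (nat_lit 354) (nat_lit 5) (nat_lit 355) (nat_lit 5) (nat_lit 463) (nat_lit 434) (nat_lit 243)) (XT.lf (nat_lit 0) (nat_lit 1341126623) (nat_lit 912) (nat_lit 12483162908) (nat_lit 988) (nat_lit 2663362374) (nat_lit 330) (nat_lit 5) (nat_lit 342) (nat_lit 5) (nat_lit 343) (nat_lit 5) (nat_lit 464) (nat_lit 434) (nat_lit 242))) (XT.nd (nat_lit 78) (nat_lit 912) (nat_lit 0) (XT.lf (nat_lit 0) (nat_lit 9824885001) (nat_lit 912) (nat_lit 5802102307) (nat_lit 988) (nat_lit 1040474953) (nat_lit 330) (nat_lit 5) (nat_lit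 342) (nat_lit 5) (nat_lit 343) (nat_lit 5) (nat_lit 465) (nat_lit 434) (nat_lit 241)) (XT.nd (nat_lit 78) (nat_lit 0) (nat_lit 0) (XT.lf (nat_lit 0) (nat_lit 617274380) (nat_lit 912) (nat_lit 15218781058) (nat_lit 76) (nat_lit 1014527890) (nat_lit 318) (nat_lit 5) (nat_lit 330) (nat_lit 5) (nat_lit 319) (nat_lit 5) (nat_lit 466) (nat_lit 434) (nat_lit 240)) (XT.lf (nat_lit 0) (nat_lit 2372156789) (nat_lit 912) (nat_lit 6720083211) (nat_lit 76) (nat_lit 7943434706) (nat_lit 318) (nat_lit 5) (nat_lit 330) (nat_lit 5) (nat_lit 319) (nat_lit 5) (nat_lit 467) (nat_lit 434) (nat_lit 239))))) (XT.nd (nat_lit 156) (nat_lit 1520) (nat_lit 0) (XT.nd (nat_lit 78) (nat_lit 0) (nat_lit 0) (XT.lf (nat_lit 0) (nat_lit 1968088764) (nat_lit 836) (nat_lit 2200209675) (nat_lit 912) (nat_lit 13056049813) (nat_lit 307) (nat_lit 5) (nat_lit 318) (nat_lit 5) (nat_lit 319) (nat_lit 5) (nat_lit 468) (nat_lit 434) (nat_lit 238))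 (XT.lf (nat_lit 0) (nat_lit 6070588378) (nat_lit 912) (nat_lit 6532838558) (nat_lit 76) (nat_lit 4811967323) (nat_lit 307) (nat_lit 5) (nat_lit 319) (nat_lit 5) (nat_lit 308) (nat_lit 5) (nat_lit 469) (nat_lit 434) (nat_lit 237))) (XT.nd (nat_lit 78) (nat_lit 760) (nat_lit 0) (XT.lf (nat_lit 0) (nat_lit 2375352787) (nat_lit 760) (nat_lit 5659166730) (nat_lit 836) (nat_lit 9575273193) (nat_lit 297) (nat_lit 5) (nat_lit 307) (nat_lit 5) (nat_lit 308) (nat_lit 5) (nat_lit 470) (nat_lit 434) (nat_lit 236)) (XT.nd (nat_lit 78) (nat_lit 760) (nat_lit 0) (XT.lf (nat_lit 0) (nat_lit 10084791333) (nat_lit 836) (nat_lit 6272844831) (nat_lit 76) (nat_lit 1449505089) (nat_lit 297) (nat_lit 5) (nat_lit 308) (nat_lit 5) (nat_lit 298) (nat_lit 5) (nat_lit 471) (nat_lit 434) (nat_lit 235)) (XT.lf (nat_lit 0) (nat_lit 2861793006) (nat_lit 760) (nat_lit 9364145468) (nat_lit 836) (nat_lit 5781504194) (nat_lit 287) (nat_lit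 5) (nat_lit 297) (nat_lit 5) (nat_lit 298) (nat_lit 5) (nat_lit 472) (nat_lit 434) (nat_lit 234)))))) (XT.nd (nat_lit 390) (nat_lit 1976) (nat_lit 0) (XT.nd (nat_lit 156) (nat_lit 836) (nat_lit 0) (XT.nd (nat_lit 78) (nat_lit 760) (nat_lit 0) (XT.lf (nat_lit 0) (nat_lit 12257950582) (nat_lit 760) (nat_lit 2187944445) (nat_lit 836) (nat_lit 3765138588) (nat_lit 287) (nat_lit 5) (nat_lit 297) (nat_lit 5) (nat_lit 298) (nat_lit 5) (nat_lit 473) (nat_lit 434) (nat_lit 233)) (XT.lf (nat_lit 0) (nat_lit 3428781315) (nat_lit 760) (nat_lit 13331061771) (nat_lit 836) (nat_lit 1657864619) (nat_lit 277) (nat_lit 5) (nat_lit 287) (nat_lit 5) (nat_lit 288) (nat_lit 5) (nat_lit 474) (nat_lit 434) (nat_lit 232))) (XT.nd (nat_lit 78) (nat_lit 760) (nat_lit 0) (XT.lf (nat_lit 0) (nat_lit 533857298) (nat_lit 836) (nat_lit 5572928628) (nat_lit 76) (nat_lit 12520693581) (nat_lit 276) (nat_lit 5) (nat_lit 287) (nat_lit 5) (nat_lit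 277) (nat_lit 5) (nat_lit 475) (nat_lit 434) (nat_lit 231)) (XT.nd (nat_lit 78) (nat_lit 0) (nat_lit 0) (XT.lf (nat_lit 0) (nat_lit 2776248167) (nat_lit 836) (nat_lit 14781623068) (nat_lit 76) (nat_lit 1282778662) (nat_lit 266) (nat_lit 5) (nat_lit 277) (nat_lit 5) (nat_lit 267) (nat_lit 5) (nat_lit 476) (nat_lit 434) (nat_lit 230)) (XT.lf (nat_lit 0) (nat_lit 5135810413) (nat_lit 836) (nat_lit 5145060258) (nat_lit 76) (nat_lit 8775769481) (nat_lit 266) (nat_lit 5) (nat_lit 277) (nat_lit 5) (nat_lit 267) (nat_lit 5) (nat_lit 477) (nat_lit 434) (nat_lit 229))))) (XT.nd (nat_lit 156) (nat_lit 1292) (nat_lit 0) (XT.nd (nat_lit 78) (nat_lit 0) (nat_lit 0) (XT.lf (nat_lit 0) (nat_lit 4740327123) (nat_lit 684) (nat_lit 2827363463) (nat_lit 760) (nat_lit 11708759964) (nat_lit 257) (nat_lit 5) (nat_lit 266) (nat_lit 5) (nat_lit 267) (nat_lit 5) (nat_lit 478) (nat_lit 434) (nat_lit 228)) (XT.lf (nat_lit 0) (nat_lit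 10108384894) (nat_lit 760) (nat_lit 4644182611) (nat_lit 76) (nat_lit 4746888935) (nat_lit 257) (nat_lit 5) (nat_lit 267) (nat_lit 5) (nat_lit 258) (nat_lit 5) (nat_lit 479) (nat_lit 434) (nat_lit 227))) (XT.nd (nat_lit 78) (nat_lit 608) (nat_lit 0) (XT.lf (nat_lit 0) (nat_lit 5492885121) (nat_lit 684) (nat_lit 7255923095) (nat_lit 760) (nat_lit 6977138690) (nat_lit 248) (nat_lit 5) (nat_lit 257) (nat_lit 5) (nat_lit 258) (nat_lit 5) (nat_lit 480) (nat_lit 434) (nat_lit 226)) (XT.nd (nat_lit 78) (nat_lit 608) (nat_lit 0) (XT.lf (nat_lit 0) (nat_lit 15470539741) (nat_lit 760) (nat_lit 4069534488) (nat_lit 76) (nat_lit 416325663) (nat_lit 248) (nat_lit 5) (nat_lit 258) (nat_lit 5) (nat_lit 249) (nat_lit 5) (nat_lit 481) (nat_lit 434) (nat_lit 225)) (XT.lf (nat_lit 0) (nat_lit 6326204552) (nat_lit 608) (nat_lit 12004325818) (nat_lit 684) (nat_lit 1859257731) (nat_lit 240) (nat_lit 5) (nat_lit 248) (nat_lit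 5) (nat_lit 249) (nat_lit 5) (nat_lit 482) (nat_lit 434) (nat_lit 224))))))) (XT.nd (nat_lit 780) (nat_lit 1064) (nat_lit 0) (XT.nd (nat_lit 390) (nat_lit 1824) (nat_lit 0) (XT.nd (nat_lit 156) (nat_lit 608) (nat_lit 0) (XT.nd (nat_lit 78) (nat_lit 684) (nat_lit 0) (XT.lf (nat_lit 0) (nat_lit 831339735) (nat_lit 684) (nat_lit 3453788915) (nat_lit 76) (nat_lit 16142167195) (nat_lit 239) (nat_lit 5) (nat_lit 248) (nat_lit 5) (nat_lit 240) (nat_lit 5) (nat_lit 483) (nat_lit 434) (nat_lit 223)) (XT.lf (nat_lit 0) (nat_lit 3616406590) (nat_lit 760) (nat_lit 13451195897) (nat_lit 76) (nat_lit 3600396903) (nat_lit 230) (nat_lit 5) (nat_lit 240) (nat_lit 5) (nat_lit 231) (nat_lit 5) (nat_lit 484) (nat_lit 434) (nat_lit 222))) (XT.nd (nat_lit 78) (nat_lit 608) (nat_lit 0) (XT.lf (nat_lit 0) (nat_lit 6503771555) (nat_lit 760) (nat_lit 2799912660) (nat_lit 76) (nat_lit 11608903308) (nat_lit 230) (nat_lit 5) (nat_lit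 240) (nat_lit 5) (nat_lit 231) (nat_lit 5) (nat_lit 485) (nat_lit 434) (nat_lit 221)) (XT.nd (nat_lit 78) (nat_lit 0) (nat_lit 0) (XT.lf (nat_lit 0) (nat_lit 8165654849) (nat_lit 608) (nat_lit 1331234256) (nat_lit 684) (nat_lit 11664220610) (nat_lit 222) (nat_lit 5) (nat_lit 230) (nat_lit 5) (nat_lit 231) (nat_lit 5) (nat_lit 486) (nat_lit 434) (nat_lit 220)) (XT.lf (nat_lit 0) (nat_lit 12607980322) (nat_lit 684) (nat_lit 2075911081) (nat_lit 76) (nat_lit 6729551076) (nat_lit 222) (nat_lit 5) (nat_lit 231) (nat_lit 5) (nat_lit 223) (nat_lit 5) (nat_lit 487) (nat_lit 434) (nat_lit 219))))) (XT.nd (nat_lit 156) (nat_lit 1216) (nat_lit 0) (XT.nd (nat_lit 78) (nat_lit 0) (nat_lit 0) (XT.lf (nat_lit 0) (nat_lit 9167665675) (nat_lit 608) (nat_lit 6677107133) (nat_lit 684) (nat_lit 5824781812) (nat_lit 214) (nat_lit 5) (nat_lit 222) (nat_lit 5) (nat_lit 223) (nat_lit 5) (nat_lit 488) (nat_lit 434) (nat_lit 218))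 (XT.lf (nat_lit 0) (nat_lit 19165189389) (nat_lit 684) (nat_lit 1281853570) (nat_lit 76) (nat_lit 1483370543) (nat_lit 214) (nat_lit 5) (nat_lit 223) (nat_lit 5) (nat_lit 215) (nat_lit 5) (nat_lit 489) (nat_lit 434) (nat_lit 217))) (XT.nd (nat_lit 78) (nat_lit 608) (nat_lit 0) (XT.lf (nat_lit 0) (nat_lit 457598769) (nat_lit 608) (nat_lit 11950343775) (nat_lit 76) (nat_lit 9786368293) (nat_lit 206) (nat_lit 5) (nat_lit 214) (nat_lit 5) (nat_lit 207) (nat_lit 5) (nat_lit 490) (nat_lit 434) (nat_lit 216)) (XT.nd (nat_lit 78) (nat_lit 608) (nat_lit 0) (XT.lf (nat_lit 0) (nat_lit 3711854736) (nat_lit 608) (nat_lit 469747884) (nat_lit 76) (nat_lit 18281440009) (nat_lit 206) (nat_lit 5) (nat_lit 214) (nat_lit 5) (nat_lit 207) (nat_lit 5) (nat_lit 491) (nat_lit 434) (nat_lit 215)) (XT.lf (nat_lit 0) (nat_lit 7128322748) (nat_lit 684) (nat_lit 11379443531) (nat_lit 76) (nat_lit 4227442333) (nat_lit 198) (nat_lit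 5) (nat_lit 207) (nat_lit 5) (nat_lit 199) (nat_lit 5) (nat_lit 492) (nat_lit 434) (nat_lit 214)))))) (XT.nd (nat_lit 54990) (nat_lit 0) (nat_lit 15656) (XT.nd (nat_lit 156) (nat_lit 532) (nat_lit 0) (XT.nd (nat_lit 78) (nat_lit 0) (nat_lit 0) (XT.lf (nat_lit 0) (nat_lit 383030380) (nat_lit 532) (nat_lit 10258890979) (nat_lit 608) (nat_lit 12370322579) (nat_lit 191) (nat_lit 5) (nat_lit 198) (nat_lit 5) (nat_lit 199) (nat_lit 5) (nat_lit 493) (nat_lit 434) (nat_lit 213)) (XT.lf (nat_lit 0) (nat_lit 12529361975) (nat_lit 532) (nat_lit 1768293118) (nat_lit 608) (nat_lit 8995729626) (nat_lit 191) (nat_lit 5) (nat_lit 198) (nat_lit 5) (nat_lit 199) (nat_lit 5) (nat_lit 494) (nat_lit 434) (nat_lit 212))) (XT.nd (nat_lit 54678) (nat_lit 0) (nat_lit 17328) (XT.lf (nat_lit 0) (nat_lit 1305226575) (nat_lit 532) (nat_lit 16770081542) (nat_lit 608) (nat_lit 5503866078) (nat_lit 184) (nat_lit 5) (nat_lit 191) (nat_lit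 5) (nat_lit 192) (nat_lit 5) (nat_lit 495) (nat_lit 434) (nat_lit 211)) (XT.nd (nat_lit 78) (nat_lit 0) (nat_lit 0) (XT.lf (nat_lit 0) (nat_lit 2897898077) (nat_lit 0) (nat_lit 2897898077) (nat_lit 1596) (nat_lit 418843841) (nat_lit 412) (nat_lit 5) (nat_lit 412) (nat_lit 3) (nat_lit 433) (nat_lit 3) (nat_lit 435) (nat_lit 435) (nat_lit 270)) (XT.lf (nat_lit 0) (nat_lit 11696052599) (nat_lit 0) (nat_lit 436436138) (nat_lit 1596) (nat_lit 412322800) (nat_lit 412) (nat_lit 5) (nat_lit 412) (nat_lit 3) (nat_lit 433) (nat_lit 3) (nat_lit 436) (nat_lit 435) (nat_lit 269))))) (XT.nd (nat_lit 234) (nat_lit 0) (nat_lit 76) (XT.nd (nat_lit 78) (nat_lit 0) (nat_lit 0) (XT.lf (nat_lit 0) (nat_lit 76150043) (nat_lit 1672) (nat_lit 7582286760) (nat_lit 1748) (nat_lit 5003123178) (nat_lit 390) (nat_lit 5) (nat_lit 412) (nat_lit 5) (nat_lit 413) (nat_lit 5) (nat_lit 437) (nat_lit 435) (nat_lit 268)) (XT.nd (nat_lit 78)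 (nat_lit 0) (nat_lit 76) (XT.lf (nat_lit 0) (nat_lit 566490113) (nat_lit 1672) (nat_lit 1654771133) (nat_lit 1748) (nat_lit 10559381857) (nat_lit 390) (nat_lit 5) (nat_lit 412) (nat_lit 5) (nat_lit 413) (nat_lit 5) (nat_lit 438) (nat_lit 435) (nat_lit 267)) (XT.lf (nat_lit 0) (nat_lit 1106503665) (nat_lit 1672) (nat_lit 8479824560) (nat_lit 1748) (nat_lit 3314988799) (nat_lit 391) (nat_lit 5) (nat_lit 413) (nat_lit 5) (nat_lit 414) (nat_lit 5) (nat_lit 439) (nat_lit 435) (nat_lit 266)))) (XT.nd (nat_lit 78) (nat_lit 0) (nat_lit 76) (XT.lf (nat_lit 0) (nat_lit 1672616901) (nat_lit 1672) (nat_lit 2403303101) (nat_lit 1748) (nat_lit 8948184771) (nat_lit 391) (nat_lit 5) (nat_lit 413) (nat_lit 5) (nat_lit 414) (nat_lit 5) (nat_lit 440) (nat_lit 435) (nat_lit 265)) (XT.nd (nat_lit 78) (nat_lit 0) (nat_lit 0) (XT.lf (nat_lit 0) (nat_lit 2274820780) (nat_lit 1672) (nat_lit 9320117043) (nat_lit 1748) (nat_lit 1553921304)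 (nat_lit 392) (nat_lit 5) (nat_lit 414) (nat_lit 5) (nat_lit 415) (nat_lit 5) (nat_lit 441) (nat_lit 435) (nat_lit 264)) (XT.lf (nat_lit 0) (nat_lit 2922107972) (nat_lit 1672) (nat_lit 3091010037) (nat_lit 1748) (nat_lit 7262335869) (nat_lit 392) (nat_lit 5) (nat_lit 414) (nat_lit 5) (nat_lit 415) (nat_lit 5) (nat_lit 442) (nat_lit 435) (nat_lit 263))))))))
noncomputable def xc223 : XT := (XT.nd (nat_lit 1638) (nat_lit 7828) (nat_lit 0) (XT.nd (nat_lit 780) (nat_lit 3800) (nat_lit 0) (XT.nd (nat_lit 390) (nat_lit 0) (nat_lit 228) (XT.nd (nat_lit 156) (nat_lit 0) (nat_lit 76) (XT.nd (nat_lit 78) (nat_lit 0) (nat_lit 76) (XT.lf (nat_lit 76) (nat_lit 3299948779) (nat_lit 0) (nat_lit 293829499) (nat_lit 1748) (nat_lit 9810579470) (nat_lit 393) (nat_lit 5) (nat_lit 392) (nat_lit 5) (nat_lit 415) (nat_lit 5) (nat_lit 443) (nat_lit 435) (nat_lit 262)) (XT.lf (nat_lit 0) (nat_lit 4325924075) (nat_lit 1672) (nat_lit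 3717102096) (nat_lit 1748) (nat_lit 5491878543) (nat_lit 393) (nat_lit 5) (nat_lit 415) (nat_lit 5) (nat_lit 416) (nat_lit 5) (nat_lit 444) (nat_lit 435) (nat_lit 261))) (XT.nd (nat_lit 78) (nat_lit 0) (nat_lit 76) (XT.lf (nat_lit 76) (nat_lit 2827005476) (nat_lit 0) (nat_lit 2256394335) (nat_lit 1748) (nat_lit 8584454811) (nat_lit 394) (nat_lit 5) (nat_lit 393) (nat_lit 5) (nat_lit 416) (nat_lit 5) (nat_lit 445) (nat_lit 435) (nat_lit 260)) (XT.nd (nat_lit 78) (nat_lit 0) (nat_lit 0) (XT.lf (nat_lit 0) (nat_lit 5895363927) (nat_lit 1672) (nat_lit 4280673834) (nat_lit 1748) (nat_lit 3626644618) (nat_lit 394) (nat_lit 5) (nat_lit 416) (nat_lit 5) (nat_lit 417) (nat_lit 5) (nat_lit 446) (nat_lit 435) (nat_lit 259)) (XT.lf (nat_lit 76) (nat_lit 2421388099) (nat_lit 0) (nat_lit 4323586539) (nat_lit 1748) (nat_lit 7194809427) (nat_lit 395) (nat_lit 5) (nat_lit 394) (nat_lit 5) (nat_lit 417) (nat_lit 5) (nat_lit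 447) (nat_lit 435) (nat_lit 258))))) (XT.nd (nat_lit 156) (nat_lit 0) (nat_lit 0) (XT.nd (nat_lit 78) (nat_lit 0) (nat_lit 0) (XT.lf (nat_lit 0) (nat_lit 7642084387) (nat_lit 1672) (nat_lit 4780710771) (nat_lit 1748) (nat_lit 1656227902) (nat_lit 395) (nat_lit 5) (nat_lit 417) (nat_lit 5) (nat_lit 418) (nat_lit 5) (nat_lit 448) (nat_lit 435) (nat_lit 257)) (XT.lf (nat_lit 76) (nat_lit 2084256155) (nat_lit 0) (nat_lit 6506128561) (nat_lit 1748) (nat_lit 5630002457) (nat_lit 396) (nat_lit 5) (nat_lit 395) (nat_lit 5) (nat_lit 418) (nat_lit 5) (nat_lit 449) (nat_lit 435) (nat_lit 256))) (XT.nd (nat_lit 78) (nat_lit 0) (nat_lit 76) (XT.lf (nat_lit 76) (nat_lit 9145192492) (nat_lit 0) (nat_lit 435757654) (nat_lit 1748) (nat_lit 4783167641) (nat_lit 396) (nat_lit 5) (nat_lit 395) (nat_lit 5) (nat_lit 418) (nat_lit 5) (nat_lit 450) (nat_lit 435) (nat_lit 255)) (XT.nd (nat_lit 78) (nat_lit 0) (nat_lit 0) (XT.lf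 (nat_lit 76) (nat_lit 1816873655) (nat_lit 0) (nat_lit 8815028544) (nat_lit 1748) (nat_lit 3878014407) (nat_lit 397) (nat_lit 5) (nat_lit 396) (nat_lit 5) (nat_lit 419) (nat_lit 5) (nat_lit 451) (nat_lit 435) (nat_lit 254)) (XT.lf (nat_lit 76) (nat_lit 9055041563) (nat_lit 0) (nat_lit 2678255805) (nat_lit 1748) (nat_lit 2924750552) (nat_lit 397) (nat_lit 5) (nat_lit 396) (nat_lit 5) (nat_lit 419) (nat_lit 5) (nat_lit 452) (nat_lit 435) (nat_lit 253)))))) (XT.nd (nat_lit 390) (nat_lit 2508) (nat_lit 0) (XT.nd (nat_lit 156) (nat_lit 1672) (nat_lit 0) (XT.nd (nat_lit 78) (nat_lit 0) (nat_lit 0) (XT.lf (nat_lit 76) (nat_lit 1620602245) (nat_lit 0) (nat_lit 11261608193) (nat_lit 1748) (nat_lit 1926426523) (nat_lit 398) (nat_lit 5) (nat_lit 397) (nat_lit 5) (nat_lit 420) (nat_lit 5) (nat_lit 453) (nat_lit 435) (nat_lit 252)) (XT.lf (nat_lit 76) (nat_lit 9040470389) (nat_lit 0) (nat_lit 5060688952) (nat_lit 1748)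 (nat_lit 860142096) (nat_lit 398) (nat_lit 5) (nat_lit 397) (nat_lit 5) (nat_lit 420) (nat_lit 5) (nat_lit 454) (nat_lit 435) (nat_lit 251))) (XT.nd (nat_lit 78) (nat_lit 0) (nat_lit 0) (XT.lf (nat_lit 0) (nat_lit 234483997) (nat_lit 1748) (nat_lit 13621473685) (nat_lit 1824) (nat_lit 1260836616) (nat_lit 375) (nat_lit 5) (nat_lit 398) (nat_lit 5) (nat_lit 399) (nat_lit 5) (nat_lit 455) (nat_lit 435) (nat_lit 250)) (XT.nd (nat_lit 78) (nat_lit 0) (nat_lit 0) (XT.lf (nat_lit 0) (nat_lit 1405076182) (nat_lit 1748) (nat_lit 6180337648) (nat_lit 1824) (nat_lit 7688562186) (nat_lit 375) (nat_lit 5) (nat_lit 398) (nat_lit 5) (nat_lit 399) (nat_lit 5) (nat_lit 456) (nat_lit 435) (nat_lit 249)) (XT.lf (nat_lit 76) (nat_lit 1422080703) (nat_lit 0) (nat_lit 1178458667) (nat_lit 1824) (nat_lit 12833737254) (nat_lit 376) (nat_lit 5) (nat_lit 375) (nat_lit 5) (nat_lit 399) (nat_lit 5) (nat_lit 457) (nat_lit 435) (nat_lit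 248))))) (XT.nd (nat_lit 234) (nat_lit 2584) (nat_lit 0) (XT.nd (nat_lit 78) (nat_lit 0) (nat_lit 0) (XT.lf (nat_lit 0) (nat_lit 3888787008) (nat_lit 1748) (nat_lit 6378001651) (nat_lit 1824) (nat_lit 5329621435) (nat_lit 376) (nat_lit 5) (nat_lit 399) (nat_lit 5) (nat_lit 400) (nat_lit 5) (nat_lit 458) (nat_lit 435) (nat_lit 247)) (XT.nd (nat_lit 78) (nat_lit 0) (nat_lit 76) (XT.lf (nat_lit 76) (nat_lit 1413415310) (nat_lit 0) (nat_lit 3798863887) (nat_lit 1824) (nat_lit 10549321711) (nat_lit 377) (nat_lit 5) (nat_lit 376) (nat_lit 5) (nat_lit 400) (nat_lit 5) (nat_lit 459) (nat_lit 435) (nat_lit 246)) (XT.lf (nat_lit 0) (nat_lit 6616107221) (nat_lit 1748) (nat_lit 6506889486) (nat_lit 76) (nat_lit 2806025694) (nat_lit 377) (nat_lit 5) (nat_lit 400) (nat_lit 5) (nat_lit 378) (nat_lit 5) (nat_lit 460) (nat_lit 435) (nat_lit 245)))) (XT.nd (nat_lit 78) (nat_lit 912) (nat_lit 0) (XT.lf (nat_lit 0) (nat_lit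 1479285994) (nat_lit 1748) (nat_lit 6596246792) (nat_lit 1824) (nat_lit 8023713219) (nat_lit 354) (nat_lit 5) (nat_lit 377) (nat_lit 5) (nat_lit 378) (nat_lit 5) (nat_lit 461) (nat_lit 435) (nat_lit 244)) (XT.nd (nat_lit 78) (nat_lit 912) (nat_lit 0) (XT.lf (nat_lit 0) (nat_lit 9601363924) (nat_lit 1824) (nat_lit 6565600812) (nat_lit 76) (nat_lit 105169024) (nat_lit 354) (nat_lit 5) (nat_lit 378) (nat_lit 5) (nat_lit 355) (nat_lit 5) (nat_lit 462) (nat_lit 435) (nat_lit 243)) (XT.lf (nat_lit 0) (nat_lit 1621246185) (nat_lit 912) (nat_lit 9583682259) (nat_lit 988) (nat_lit 5242610435) (nat_lit 342) (nat_lit 5) (nat_lit 354) (nat_lit 5) (nat_lit 355) (nat_lit 5) (nat_lit 463) (nat_lit 435) (nat_lit 242))))))) (XT.nd (nat_lit 780) (nat_lit 3648) (nat_lit 0) (XT.nd (nat_lit 390) (nat_lit 2356) (nat_lit 0) (XT.nd (nat_lit 156) (nat_lit 912) (nat_lit 0) (XT.nd (nat_lit 78) (nat_lit 912) (nat_lit 0) (XT.lf (nat_lit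 0) (nat_lit 10054690653) (nat_lit 912) (nat_lit 2823036311) (nat_lit 988) (nat_lit 3747985746) (nat_lit 342) (nat_lit 5) (nat_lit 354) (nat_lit 5) (nat_lit 355) (nat_lit 5) (nat_lit 464) (nat_lit 435) (nat_lit 241)) (XT.lf (nat_lit 0) (nat_lit 1840892772) (nat_lit 912) (nat_lit 12774728555) (nat_lit 988) (nat_lit 2191199682) (nat_lit 330) (nat_lit 5) (nat_lit 342) (nat_lit 5) (nat_lit 343) (nat_lit 5) (nat_lit 465) (nat_lit 435) (nat_lit 240))) (XT.nd (nat_lit 78) (nat_lit 912) (nat_lit 0) (XT.lf (nat_lit 0) (nat_lit 10485052913) (nat_lit 912) (nat_lit 5959225126) (nat_lit 988) (nat_lit 546157060) (nat_lit 330) (nat_lit 5) (nat_lit 342) (nat_lit 5) (nat_lit 343) (nat_lit 5) (nat_lit 466) (nat_lit 435) (nat_lit 239)) (XT.nd (nat_lit 78) (nat_lit 0) (nat_lit 0) (XT.lf (nat_lit 0) (nat_lit 1130839536) (nat_lit 912) (nat_lit 15045032413) (nat_lit 76) (nat_lit 1001428192) (nat_lit 318) (nat_lit 5) (nat_lit 330)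 (nat_lit 5) (nat_lit 319) (nat_lit 5) (nat_lit 467) (nat_lit 435) (nat_lit 238)) (XT.lf (nat_lit 0) (nat_lit 2910991757) (nat_lit 912) (nat_lit 6385735596) (nat_lit 76) (nat_lit 8069567855) (nat_lit 318) (nat_lit 5) (nat_lit 330) (nat_lit 5) (nat_lit 319) (nat_lit 5) (nat_lit 468) (nat_lit 435) (nat_lit 237))))) (XT.nd (nat_lit 156) (nat_lit 1520) (nat_lit 0) (XT.nd (nat_lit 78) (nat_lit 0) (nat_lit 0) (XT.lf (nat_lit 0) (nat_lit 2473115942) (nat_lit 836) (nat_lit 2263328571) (nat_lit 912) (nat_lit 12822435143) (nat_lit 307) (nat_lit 5) (nat_lit 318) (nat_lit 5) (nat_lit 319) (nat_lit 5) (nat_lit 469) (nat_lit 435) (nat_lit 236)) (XT.lf (nat_lit 0) (nat_lit 6667153088) (nat_lit 912) (nat_lit 6197078595) (nat_lit 76) (nat_lit 4889712541) (nat_lit 307) (nat_lit 5) (nat_lit 319) (nat_lit 5) (nat_lit 308) (nat_lit 5) (nat_lit 470) (nat_lit 435) (nat_lit 235))) (XT.nd (nat_lit 78) (nat_lit 760) (nat_lit 0) (XT.lf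 (nat_lit 0) (nat_lit 2886208045) (nat_lit 760) (nat_lit 5777846444) (nat_lit 836) (nat_lit 9288307321) (nat_lit 297) (nat_lit 5) (nat_lit 307) (nat_lit 5) (nat_lit 308) (nat_lit 5) (nat_lit 471) (nat_lit 435) (nat_lit 234)) (XT.nd (nat_lit 78) (nat_lit 760) (nat_lit 0) (XT.lf (nat_lit 0) (nat_lit 10746103724) (nat_lit 836) (nat_lit 5934565803) (nat_lit 76) (nat_lit 1473177256) (nat_lit 297) (nat_lit 5) (nat_lit 308) (nat_lit 5) (nat_lit 298) (nat_lit 5) (nat_lit 472) (nat_lit 435) (nat_lit 233)) (XT.lf (nat_lit 0) (nat_lit 3379713897) (nat_lit 760) (nat_lit 9544338894) (nat_lit 836) (nat_lit 5434226658) (nat_lit 287) (nat_lit 5) (nat_lit 297) (nat_lit 5) (nat_lit 298) (nat_lit 5) (nat_lit 473) (nat_lit 435) (nat_lit 232)))))) (XT.nd (nat_lit 390) (nat_lit 2052) (nat_lit 0) (XT.nd (nat_lit 156) (nat_lit 836) (nat_lit 0) (XT.nd (nat_lit 78) (nat_lit 760) (nat_lit 0) (XT.lf (nat_lit 0) (nat_lit 12954761585)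 (nat_lit 760) (nat_lit 2224752860) (nat_lit 836) (nat_lit 3386610360) (nat_lit 287) (nat_lit 5) (nat_lit 297) (nat_lit 5) (nat_lit 298) (nat_lit 5) (nat_lit 474) (nat_lit 435) (nat_lit 231)) (XT.lf (nat_lit 0) (nat_lit 3955062128) (nat_lit 760) (nat_lit 13578975667) (nat_lit 836) (nat_lit 1243013271) (nat_lit 277) (nat_lit 5) (nat_lit 287) (nat_lit 5) (nat_lit 288) (nat_lit 5) (nat_lit 475) (nat_lit 435) (nat_lit 230))) (XT.nd (nat_lit 78) (nat_lit 760) (nat_lit 0) (XT.lf (nat_lit 0) (nat_lit 977998096) (nat_lit 836) (nat_lit 5229674250) (nat_lit 76) (nat_lit 12783465606) (nat_lit 276) (nat_lit 5) (nat_lit 287) (nat_lit 5) (nat_lit 277) (nat_lit 5) (nat_lit 476) (nat_lit 435) (nat_lit 229)) (XT.nd (nat_lit 78) (nat_lit 0) (nat_lit 0) (XT.lf (nat_lit 0) (nat_lit 3259825053) (nat_lit 836) (nat_lit 14616913328) (nat_lit 76) (nat_lit 1331945954) (nat_lit 266) (nat_lit 5) (nat_lit 277) (nat_lit 5) (nat_lit 267)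 (nat_lit 5) (nat_lit 477) (nat_lit 435) (nat_lit 228)) (XT.lf (nat_lit 0) (nat_lit 5658185369) (nat_lit 836) (nat_lit 4796645580) (nat_lit 76) (nat_lit 8974335575) (nat_lit 266) (nat_lit 5) (nat_lit 277) (nat_lit 5) (nat_lit 267) (nat_lit 5) (nat_lit 478) (nat_lit 435) (nat_lit 227))))) (XT.nd (nat_lit 234) (nat_lit 684) (nat_lit 0) (XT.nd (nat_lit 78) (nat_lit 684) (nat_lit 0) (XT.lf (nat_lit 0) (nat_lit 5283480366) (nat_lit 684) (nat_lit 2849905141) (nat_lit 760) (nat_lit 11520098157) (nat_lit 257) (nat_lit 5) (nat_lit 266) (nat_lit 5) (nat_lit 267) (nat_lit 5) (nat_lit 479) (nat_lit 435) (nat_lit 226)) (XT.nd (nat_lit 78) (nat_lit 684) (nat_lit 0) (XT.lf (nat_lit 0) (nat_lit 10716985823) (nat_lit 760) (nat_lit 4289397822) (nat_lit 76) (nat_lit 4874728284) (nat_lit 257) (nat_lit 5) (nat_lit 267) (nat_lit 5) (nat_lit 258) (nat_lit 5) (nat_lit 480) (nat_lit 435) (nat_lit 225)) (XT.lf (nat_lit 0) (nat_lit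 6047466077) (nat_lit 684) (nat_lit 7357669694) (nat_lit 760) (nat_lit 6707102089) (nat_lit 248) (nat_lit 5) (nat_lit 257) (nat_lit 5) (nat_lit 258) (nat_lit 5) (nat_lit 481) (nat_lit 435) (nat_lit 224)))) (XT.nd (nat_lit 78) (nat_lit 684) (nat_lit 0) (XT.lf (nat_lit 0) (nat_lit 16173708369) (nat_lit 760) (nat_lit 3707131414) (nat_lit 76) (nat_lit 466615935) (nat_lit 248) (nat_lit 5) (nat_lit 258) (nat_lit 5) (nat_lit 249) (nat_lit 5) (nat_lit 482) (nat_lit 435) (nat_lit 223)) (XT.nd (nat_lit 78) (nat_lit 76) (nat_lit 0) (XT.lf (nat_lit 0) (nat_lit 6893602711) (nat_lit 608) (nat_lit 12192437804) (nat_lit 684) (nat_lit 1499572205) (nat_lit 240) (nat_lit 5) (nat_lit 248) (nat_lit 5) (nat_lit 249) (nat_lit 5) (nat_lit 483) (nat_lit 435) (nat_lit 222)) (XT.lf (nat_lit 0) (nat_lit 1231952462) (nat_lit 684) (nat_lit 3085346591) (nat_lit 76) (nat_lit 16510677337) (nat_lit 239) (nat_lit 5) (nat_lit 248) (nat_lit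 5) (nat_lit 240) (nat_lit 5) (nat_lit 484) (nat_lit 435) (nat_lit 221))))))))
noncomputable def xc224 : XT := (XT.nd (nat_lit 56238) (nat_lit 0) (nat_lit 11476) (XT.nd (nat_lit 780) (nat_lit 0) (nat_lit 0) (XT.nd (nat_lit 390) (nat_lit 1748) (nat_lit 0) (XT.nd (nat_lit 156) (nat_lit 1216) (nat_lit 0) (XT.nd (nat_lit 78) (nat_lit 0) (nat_lit 0) (XT.lf (nat_lit 0) (nat_lit 4068372928) (nat_lit 760) (nat_lit 13278171974) (nat_lit 76) (nat_lit 3727039700) (nat_lit 230) (nat_lit 5) (nat_lit 240) (nat_lit 5) (nat_lit 231) (nat_lit 5) (nat_lit 485) (nat_lit 435) (nat_lit 220)) (XT.lf (nat_lit 0) (nat_lit 7006041305) (nat_lit 760) (nat_lit 2422530677) (nat_lit 76) (nat_lit 11894644961) (nat_lit 230) (nat_lit 5) (nat_lit 240) (nat_lit 5) (nat_lit 231) (nat_lit 5) (nat_lit 486) (nat_lit 435) (nat_lit 219))) (XT.nd (nat_lit 78) (nat_lit 608) (nat_lit 0) (XT.lf (nat_lit 0) (nat_lit 8759496996) (nat_lit 608) (nat_lit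 1295021562) (nat_lit 684) (nat_lit 11522284573) (nat_lit 222) (nat_lit 5) (nat_lit 230) (nat_lit 5) (nat_lit 231) (nat_lit 5) (nat_lit 487) (nat_lit 435) (nat_lit 218)) (XT.nd (nat_lit 78) (nat_lit 608) (nat_lit 0) (XT.lf (nat_lit 0) (nat_lit 13221021942) (nat_lit 684) (nat_lit 1688360827) (nat_lit 76) (nat_lit 6924939406) (nat_lit 222) (nat_lit 5) (nat_lit 231) (nat_lit 5) (nat_lit 223) (nat_lit 5) (nat_lit 488) (nat_lit 435) (nat_lit 217)) (XT.lf (nat_lit 0) (nat_lit 9777264645) (nat_lit 608) (nat_lit 6740976983) (nat_lit 684) (nat_lit 5577404465) (nat_lit 214) (nat_lit 5) (nat_lit 222) (nat_lit 5) (nat_lit 223) (nat_lit 5) (nat_lit 489) (nat_lit 435) (nat_lit 216))))) (XT.nd (nat_lit 156) (nat_lit 1140) (nat_lit 0) (XT.nd (nat_lit 78) (nat_lit 608) (nat_lit 0) (XT.lf (nat_lit 0) (nat_lit 19898518396) (nat_lit 684) (nat_lit 882889743) (nat_lit 76) (nat_lit 1580448275) (nat_lit 214) (nat_lit 5) (nat_lit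 223) (nat_lit 5) (nat_lit 215) (nat_lit 5) (nat_lit 490) (nat_lit 435) (nat_lit 215)) (XT.lf (nat_lit 0) (nat_lit 815101612) (nat_lit 608) (nat_lit 11762755327) (nat_lit 76) (nat_lit 10053214646) (nat_lit 206) (nat_lit 5) (nat_lit 214) (nat_lit 5) (nat_lit 207) (nat_lit 5) (nat_lit 491) (nat_lit 435) (nat_lit 214))) (XT.nd (nat_lit 78) (nat_lit 1140) (nat_lit 0) (XT.lf (nat_lit 0) (nat_lit 4127612289) (nat_lit 608) (nat_lit 60912132) (nat_lit 76) (nat_lit 18716793306) (nat_lit 206) (nat_lit 5) (nat_lit 214) (nat_lit 5) (nat_lit 207) (nat_lit 5) (nat_lit 492) (nat_lit 435) (nat_lit 213)) (XT.nd (nat_lit 78) (nat_lit 532) (nat_lit 0) (XT.lf (nat_lit 0) (nat_lit 7608916901) (nat_lit 684) (nat_lit 11185156632) (nat_lit 76) (nat_lit 4388926397) (nat_lit 198) (nat_lit 5) (nat_lit 207) (nat_lit 5) (nat_lit 199) (nat_lit 5) (nat_lit 493) (nat_lit 435) (nat_lit 212)) (XT.lf (nat_lit 0) (nat_lit 809791258) (nat_lit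 532) (nat_lit 10379089309) (nat_lit 608) (nat_lit 12276776521) (nat_lit 191) (nat_lit 5) (nat_lit 198) (nat_lit 5) (nat_lit 199) (nat_lit 5) (nat_lit 494) (nat_lit 435) (nat_lit 211)))))) (XT.nd (nat_lit 55068) (nat_lit 0) (nat_lit 15200) (XT.nd (nat_lit 54834) (nat_lit 0) (nat_lit 15048) (XT.nd (nat_lit 54756) (nat_lit 0) (nat_lit 15048) (XT.lf (nat_lit 0) (nat_lit 13190831833) (nat_lit 532) (nat_lit 1720345755) (nat_lit 608) (nat_lit 8841377052) (nat_lit 191) (nat_lit 5) (nat_lit 198) (nat_lit 5) (nat_lit 199) (nat_lit 5) (nat_lit 495) (nat_lit 435) (nat_lit 210)) (XT.lf (nat_lit 0) (nat_lit 3656310) (nat_lit 1748) (nat_lit 3163285817) (nat_lit 1748) (nat_lit 3163285817) (nat_lit 389) (nat_lit 3) (nat_lit 412) (nat_lit 3) (nat_lit 412) (nat_lit 5) (nat_lit 436) (nat_lit 436) (nat_lit 268))) (XT.nd (nat_lit 78) (nat_lit 0) (nat_lit 76) (XT.lf (nat_lit 0) (nat_lit 418817079) (nat_lit 1748) (nat_lit 437479701)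 (nat_lit 1748) (nat_lit 11922288492) (nat_lit 389) (nat_lit 3) (nat_lit 412) (nat_lit 3) (nat_lit 412) (nat_lit 5) (nat_lit 437) (nat_lit 436) (nat_lit 267)) (XT.nd (nat_lit 78) (nat_lit 0) (nat_lit 0) (XT.lf (nat_lit 0) (nat_lit 895356648) (nat_lit 1672) (nat_lit 7291731900) (nat_lit 1748) (nat_lit 4710859059) (nat_lit 390) (nat_lit 5) (nat_lit 412) (nat_lit 5) (nat_lit 413) (nat_lit 5) (nat_lit 438) (nat_lit 436) (nat_lit 266)) (XT.lf (nat_lit 0) (nat_lit 1379470508) (nat_lit 1672) (nat_lit 1254336561) (nat_lit 1748) (nat_lit 10385935590) (nat_lit 390) (nat_lit 5) (nat_lit 412) (nat_lit 5) (nat_lit 413) (nat_lit 5) (nat_lit 439) (nat_lit 436) (nat_lit 265))))) (XT.nd (nat_lit 156) (nat_lit 0) (nat_lit 76) (XT.nd (nat_lit 78) (nat_lit 0) (nat_lit 0) (XT.lf (nat_lit 0) (nat_lit 1915037237) (nat_lit 1672) (nat_lit 8200173084) (nat_lit 1748) (nat_lit 3027934095) (nat_lit 391) (nat_lit 5) (nat_lit 413) (nat_lit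 5) (nat_lit 414) (nat_lit 5) (nat_lit 440) (nat_lit 436) (nat_lit 264)) (XT.lf (nat_lit 0) (nat_lit 2477053062) (nat_lit 1672) (nat_lit 2010929981) (nat_lit 1748) (nat_lit 8780722505) (nat_lit 391) (nat_lit 5) (nat_lit 413) (nat_lit 5) (nat_lit 414) (nat_lit 5) (nat_lit 441) (nat_lit 436) (nat_lit 263))) (XT.nd (nat_lit 78) (nat_lit 0) (nat_lit 0) (XT.lf (nat_lit 0) (nat_lit 3076939277) (nat_lit 1672) (nat_lit 9051265867) (nat_lit 1748) (nat_lit 1268046130) (nat_lit 392) (nat_lit 5) (nat_lit 414) (nat_lit 5) (nat_lit 415) (nat_lit 5) (nat_lit 442) (nat_lit 436) (nat_lit 262)) (XT.nd (nat_lit 78) (nat_lit 0) (nat_lit 0) (XT.lf (nat_lit 0) (nat_lit 3722336485) (nat_lit 1672) (nat_lit 2706503260) (nat_lit 1748) (nat_lit 7096843763) (nat_lit 392) (nat_lit 5) (nat_lit 414) (nat_lit 5) (nat_lit 415) (nat_lit 5) (nat_lit 443) (nat_lit 436) (nat_lit 261)) (XT.lf (nat_lit 76) (nat_lit 3809338370) (nat_lit 0) (nat_lit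 586435784) (nat_lit 1748) (nat_lit 9261633325) (nat_lit 393) (nat_lit 5) (nat_lit 392) (nat_lit 5) (nat_lit 415) (nat_lit 5) (nat_lit 444) (nat_lit 436) (nat_lit 260))))))) (XT.nd (nat_lit 780) (nat_lit 3876) (nat_lit 0) (XT.nd (nat_lit 390) (nat_lit 0) (nat_lit 152) (XT.nd (nat_lit 156) (nat_lit 0) (nat_lit 76) (XT.nd (nat_lit 78) (nat_lit 0) (nat_lit 0) (XT.lf (nat_lit 0) (nat_lit 5126421646) (nat_lit 1672) (nat_lit 3340179747) (nat_lit 1748) (nat_lit 5324295346) (nat_lit 393) (nat_lit 5) (nat_lit 415) (nat_lit 5) (nat_lit 416) (nat_lit 5) (nat_lit 445) (nat_lit 436) (nat_lit 259)) (XT.lf (nat_lit 76) (nat_lit 3331841132) (nat_lit 0) (nat_lit 2556116805) (nat_lit 1748) (nat_lit 8038777848) (nat_lit 394) (nat_lit 5) (nat_lit 393) (nat_lit 5) (nat_lit 416) (nat_lit 5) (nat_lit 446) (nat_lit 436) (nat_lit 258))) (XT.nd (nat_lit 78) (nat_lit 0) (nat_lit 0) (XT.lf (nat_lit 0) (nat_lit 6700758592) (nat_lit 1672)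 (nat_lit 3910969201) (nat_lit 1748) (nat_lit 3452848559) (nat_lit 394) (nat_lit 5) (nat_lit 416) (nat_lit 5) (nat_lit 417) (nat_lit 5) (nat_lit 447) (nat_lit 436) (nat_lit 257)) (XT.nd (nat_lit 78) (nat_lit 0) (nat_lit 76) (XT.lf (nat_lit 76) (nat_lit 2922138457) (nat_lit 0) (nat_lit 4634679693) (nat_lit 1748) (nat_lit 6647820826) (nat_lit 395) (nat_lit 5) (nat_lit 394) (nat_lit 5) (nat_lit 417) (nat_lit 5) (nat_lit 448) (nat_lit 436) (nat_lit 256)) (XT.lf (nat_lit 0) (nat_lit 8457166887) (nat_lit 1672) (nat_lit 4417774244) (nat_lit 1748) (nat_lit 1472023565) (nat_lit 395) (nat_lit 5) (nat_lit 417) (nat_lit 5) (nat_lit 418) (nat_lit 5) (nat_lit 449) (nat_lit 436) (nat_lit 255))))) (XT.nd (nat_lit 156) (nat_lit 0) (nat_lit 76) (XT.nd (nat_lit 78) (nat_lit 0) (nat_lit 0) (XT.lf (nat_lit 76) (nat_lit 2581475240) (nat_lit 0) (nat_lit 6832930497) (nat_lit 1748) (nat_lit 5076958629) (nat_lit 396) (nat_lit 5) (nat_lit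 395) (nat_lit 5) (nat_lit 418) (nat_lit 5) (nat_lit 450) (nat_lit 436) (nat_lit 254)) (XT.lf (nat_lit 76) (nat_lit 9774698265) (nat_lit 0) (nat_lit 637295714) (nat_lit 1748) (nat_lit 4226238957) (nat_lit 396) (nat_lit 5) (nat_lit 395) (nat_lit 5) (nat_lit 418) (nat_lit 5) (nat_lit 451) (nat_lit 436) (nat_lit 253))) (XT.nd (nat_lit 78) (nat_lit 0) (nat_lit 0) (XT.lf (nat_lit 76) (nat_lit 2311199159) (nat_lit 0) (nat_lit 9161974349) (nat_lit 1748) (nat_lit 3313997482) (nat_lit 397) (nat_lit 5) (nat_lit 396) (nat_lit 5) (nat_lit 419) (nat_lit 5) (nat_lit 452) (nat_lit 436) (nat_lit 252)) (XT.nd (nat_lit 78) (nat_lit 0) (nat_lit 76) (XT.lf (nat_lit 76) (nat_lit 9685150267) (nat_lit 0) (nat_lit 2899120170) (nat_lit 1748) (nat_lit 2354248295) (nat_lit 397) (nat_lit 5) (nat_lit 396) (nat_lit 5) (nat_lit 419) (nat_lit 5) (nat_lit 453) (nat_lit 436) (nat_lit 251)) (XT.lf (nat_lit 76) (nat_lit 2112753894) (nat_lit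 0) (nat_lit 11633243437) (nat_lit 1748) (nat_lit 1346332650) (nat_lit 398) (nat_lit 5) (nat_lit 397) (nat_lit 5) (nat_lit 420) (nat_lit 5) (nat_lit 454) (nat_lit 436) (nat_lit 250)))))) (XT.nd (nat_lit 390) (nat_lit 2508) (nat_lit 0) (XT.nd (nat_lit 156) (nat_lit 0) (nat_lit 0) (XT.nd (nat_lit 78) (nat_lit 1672) (nat_lit 0) (XT.lf (nat_lit 76) (nat_lit 9672004899) (nat_lit 0) (nat_lit 5305435162) (nat_lit 1748) (nat_lit 270852385) (nat_lit 398) (nat_lit 5) (nat_lit 397) (nat_lit 5) (nat_lit 420) (nat_lit 5) (nat_lit 455) (nat_lit 436) (nat_lit 249)) (XT.lf (nat_lit 0) (nat_lit 828068135) (nat_lit 1748) (nat_lit 13424900670) (nat_lit 1824) (nat_lit 1154047207) (nat_lit 375) (nat_lit 5) (nat_lit 398) (nat_lit 5) (nat_lit 399) (nat_lit 5) (nat_lit 456) (nat_lit 436) (nat_lit 248))) (XT.nd (nat_lit 78) (nat_lit 0) (nat_lit 0) (XT.lf (nat_lit 0) (nat_lit 2010525213) (nat_lit 1748) (nat_lit 5844138039) (nat_lit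 1824) (nat_lit 7712915644) (nat_lit 375) (nat_lit 5) (nat_lit 398) (nat_lit 5) (nat_lit 399) (nat_lit 5) (nat_lit 457) (nat_lit 436) (nat_lit 247)) (XT.nd (nat_lit 78) (nat_lit 0) (nat_lit 76) (XT.lf (nat_lit 76) (nat_lit 1907303637) (nat_lit 0) (nat_lit 1314239216) (nat_lit 1824) (nat_lit 12509716225) (nat_lit 376) (nat_lit 5) (nat_lit 375) (nat_lit 5) (nat_lit 399) (nat_lit 5) (nat_lit 458) (nat_lit 436) (nat_lit 246)) (XT.lf (nat_lit 0) (nat_lit 4523684459) (nat_lit 1748) (nat_lit 6045548989) (nat_lit 1824) (nat_lit 5327645527) (nat_lit 376) (nat_lit 5) (nat_lit 399) (nat_lit 5) (nat_lit 400) (nat_lit 5) (nat_lit 459) (nat_lit 436) (nat_lit 245))))) (XT.nd (nat_lit 234) (nat_lit 912) (nat_lit 0) (XT.nd (nat_lit 78) (nat_lit 1672) (nat_lit 0) (XT.lf (nat_lit 76) (nat_lit 1898669912) (nat_lit 0) (nat_lit 3967019682) (nat_lit 1824) (nat_lit 10199849361) (nat_lit 377) (nat_lit 5) (nat_lit 376) (nat_lit 5)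 (nat_lit 400) (nat_lit 5) (nat_lit 460) (nat_lit 436) (nat_lit 244)) (XT.nd (nat_lit 78) (nat_lit 1748) (nat_lit 0) (XT.lf (nat_lit 0) (nat_lit 7286239492) (nat_lit 1748) (nat_lit 6177342226) (nat_lit 76) (nat_lit 2772960345) (nat_lit 377) (nat_lit 5) (nat_lit 400) (nat_lit 5) (nat_lit 378) (nat_lit 5) (nat_lit 461) (nat_lit 436) (nat_lit 243)) (XT.lf (nat_lit 0) (nat_lit 1965532520) (nat_lit 1748) (nat_lit 6801740698) (nat_lit 1824) (nat_lit 7643054502) (nat_lit 354) (nat_lit 5) (nat_lit 377) (nat_lit 5) (nat_lit 378) (nat_lit 5) (nat_lit 462) (nat_lit 436) (nat_lit 242)))) (XT.nd (nat_lit 78) (nat_lit 912) (nat_lit 0) (XT.lf (nat_lit 0) (nat_lit 10312756023) (nat_lit 1824) (nat_lit 6238048447) (nat_lit 76) (nat_lit 36091915) (nat_lit 354) (nat_lit 5) (nat_lit 378) (nat_lit 5) (nat_lit 355) (nat_lit 5) (nat_lit 463) (nat_lit 436) (nat_lit 241)) (XT.nd (nat_lit 78) (nat_lit 0) (nat_lit 0) (XT.lf (nat_lit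 0) (nat_lit 2109516646) (nat_lit 912) (nat_lit 9831651215) (nat_lit 988) (nat_lit 4824791964) (nat_lit 342) (nat_lit 5) (nat_lit 354) (nat_lit 5) (nat_lit 355) (nat_lit 5) (nat_lit 464) (nat_lit 436) (nat_lit 240)) (XT.lf (nat_lit 0) (nat_lit 10702691856) (nat_lit 912) (nat_lit 2934688518) (nat_lit 988) (nat_lit 3310523226) (nat_lit 342) (nat_lit 5) (nat_lit 354) (nat_lit 5) (nat_lit 355) (nat_lit 5) (nat_lit 465) (nat_lit 436) (nat_lit 239))))))))
noncomputable def xc225 : XT := (XT.nd (nat_lit 1560) (nat_lit 3116) (nat_lit 0) (XT.nd (nat_lit 780) (nat_lit 3648) (nat_lit 0) (XT.nd (nat_lit 390) (nat_lit 1520) (nat_lit 0) (XT.nd (nat_lit 156) (nat_lit 1748) (nat_lit 0) (XT.nd (nat_lit 78) (nat_lit 0) (nat_lit 0) (XT.lf (nat_lit 0) (nat_lit 2332289266) (nat_lit 912) (nat_lit 13070498395) (nat_lit 988) (nat_lit 1729996821) (nat_lit 330) (nat_lit 5) (nat_lit 342) (nat_lit 5) (nat_lit 343) (nat_lit 5) (nat_lit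 466) (nat_lit 436) (nat_lit 238)) (XT.lf (nat_lit 0) (nat_lit 11140419303) (nat_lit 912) (nat_lit 6117895186) (nat_lit 988) (nat_lit 61955833) (nat_lit 330) (nat_lit 5) (nat_lit 342) (nat_lit 5) (nat_lit 343) (nat_lit 5) (nat_lit 467) (nat_lit 436) (nat_lit 237))) (XT.nd (nat_lit 78) (nat_lit 836) (nat_lit 0) (XT.lf (nat_lit 0) (nat_lit 1635213024) (nat_lit 912) (nat_lit 14886374944) (nat_lit 76) (nat_lit 989363083) (nat_lit 318) (nat_lit 5) (nat_lit 330) (nat_lit 5) (nat_lit 319) (nat_lit 5) (nat_lit 468) (nat_lit 436) (nat_lit 236)) (XT.nd (nat_lit 78) (nat_lit 836) (nat_lit 0) (XT.lf (nat_lit 0) (nat_lit 3441522080) (nat_lit 912) (nat_lit 6062903134) (nat_lit 76) (nat_lit 8199494828) (nat_lit 318) (nat_lit 5) (nat_lit 330) (nat_lit 5) (nat_lit 319) (nat_lit 5) (nat_lit 469) (nat_lit 436) (nat_lit 235)) (XT.lf (nat_lit 0) (nat_lit 2970161309) (nat_lit 836) (nat_lit 2326967599) (nat_lit 912) (nat_lit 12603359368)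 (nat_lit 307) (nat_lit 5) (nat_lit 318) (nat_lit 5) (nat_lit 319) (nat_lit 5) (nat_lit 470) (nat_lit 436) (nat_lit 234))))) (XT.nd (nat_lit 156) (nat_lit 760) (nat_lit 0) (XT.nd (nat_lit 78) (nat_lit 760) (nat_lit 0) (XT.lf (nat_lit 0) (nat_lit 7257198324) (nat_lit 912) (nat_lit 5872714964) (nat_lit 76) (nat_lit 4969730814) (nat_lit 307) (nat_lit 5) (nat_lit 319) (nat_lit 5) (nat_lit 308) (nat_lit 5) (nat_lit 471) (nat_lit 436) (nat_lit 233)) (XT.lf (nat_lit 0) (nat_lit 3389288033) (nat_lit 760) (nat_lit 5898686320) (nat_lit 836) (nat_lit 9014181755) (nat_lit 297) (nat_lit 5) (nat_lit 307) (nat_lit 5) (nat_lit 308) (nat_lit 5) (nat_lit 472) (nat_lit 436) (nat_lit 232))) (XT.nd (nat_lit 78) (nat_lit 760) (nat_lit 0) (XT.lf (nat_lit 0) (nat_lit 11402794891) (nat_lit 836) (nat_lit 5607528624) (nat_lit 76) (nat_lit 1497529369) (nat_lit 297) (nat_lit 5) (nat_lit 308) (nat_lit 5) (nat_lit 298) (nat_lit 5) (nat_lit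 473) (nat_lit 436) (nat_lit 231)) (XT.nd (nat_lit 78) (nat_lit 0) (nat_lit 0) (XT.lf (nat_lit 0) (nat_lit 3890104245) (nat_lit 760) (nat_lit 9728411482) (nat_lit 836) (nat_lit 5097978839) (nat_lit 287) (nat_lit 5) (nat_lit 297) (nat_lit 5) (nat_lit 298) (nat_lit 5) (nat_lit 474) (nat_lit 436) (nat_lit 230)) (XT.lf (nat_lit 0) (nat_lit 13647970611) (nat_lit 760) (nat_lit 2262567338) (nat_lit 836) (nat_lit 3018134379) (nat_lit 287) (nat_lit 5) (nat_lit 297) (nat_lit 5) (nat_lit 298) (nat_lit 5) (nat_lit 475) (nat_lit 436) (nat_lit 229)))))) (XT.nd (nat_lit 390) (nat_lit 1368) (nat_lit 0) (XT.nd (nat_lit 156) (nat_lit 1444) (nat_lit 0) (XT.nd (nat_lit 78) (nat_lit 76) (nat_lit 0) (XT.lf (nat_lit 0) (nat_lit 4474095307) (nat_lit 760) (nat_lit 13832574270) (nat_lit 836) (nat_lit 837261619) (nat_lit 277) (nat_lit 5) (nat_lit 287) (nat_lit 5) (nat_lit 288) (nat_lit 5) (nat_lit 476) (nat_lit 436) (nat_lit 228))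 (XT.lf (nat_lit 0) (nat_lit 1414189789) (nat_lit 836) (nat_lit 4897211843) (nat_lit 76) (nat_lit 13051013189) (nat_lit 276) (nat_lit 5) (nat_lit 287) (nat_lit 5) (nat_lit 277) (nat_lit 5) (nat_lit 477) (nat_lit 436) (nat_lit 227))) (XT.nd (nat_lit 78) (nat_lit 684) (nat_lit 0) (XT.lf (nat_lit 0) (nat_lit 3736451699) (nat_lit 836) (nat_lit 14466785042) (nat_lit 76) (nat_lit 1381183603) (nat_lit 266) (nat_lit 5) (nat_lit 277) (nat_lit 5) (nat_lit 267) (nat_lit 5) (nat_lit 478) (nat_lit 436) (nat_lit 226)) (XT.nd (nat_lit 78) (nat_lit 684) (nat_lit 0) (XT.lf (nat_lit 0) (nat_lit 6174711964) (nat_lit 836) (nat_lit 4458787753) (nat_lit 76) (nat_lit 9175977904) (nat_lit 266) (nat_lit 5) (nat_lit 277) (nat_lit 5) (nat_lit 267) (nat_lit 5) (nat_lit 479) (nat_lit 436) (nat_lit 225)) (XT.lf (nat_lit 0) (nat_lit 5820086825) (nat_lit 684) (nat_lit 2874218131) (nat_lit 760) (nat_lit 11344082391) (nat_lit 257) (nat_lit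 5) (nat_lit 266) (nat_lit 5) (nat_lit 267) (nat_lit 5) (nat_lit 480) (nat_lit 436) (nat_lit 224))))) (XT.nd (nat_lit 156) (nat_lit 684) (nat_lit 0) (XT.nd (nat_lit 78) (nat_lit 684) (nat_lit 0) (XT.lf (nat_lit 0) (nat_lit 11321976473) (nat_lit 760) (nat_lit 3944900849) (nat_lit 76) (nat_lit 5003846812) (nat_lit 257) (nat_lit 5) (nat_lit 267) (nat_lit 5) (nat_lit 258) (nat_lit 5) (nat_lit 481) (nat_lit 436) (nat_lit 223)) (XT.lf (nat_lit 0) (nat_lit 6595869507) (nat_lit 684) (nat_lit 7463135406) (nat_lit 760) (nat_lit 6447569223) (nat_lit 248) (nat_lit 5) (nat_lit 257) (nat_lit 5) (nat_lit 258) (nat_lit 5) (nat_lit 482) (nat_lit 436) (nat_lit 222))) (XT.nd (nat_lit 78) (nat_lit 684) (nat_lit 0) (XT.lf (nat_lit 0) (nat_lit 16875650273) (nat_lit 760) (nat_lit 3354713331) (nat_lit 76) (nat_lit 516282508) (nat_lit 248) (nat_lit 5) (nat_lit 258) (nat_lit 5) (nat_lit 249) (nat_lit 5) (nat_lit 483) (nat_lit 436)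 (nat_lit 221)) (XT.nd (nat_lit 78) (nat_lit 76) (nat_lit 0) (XT.lf (nat_lit 0) (nat_lit 7455229156) (nat_lit 608) (nat_lit 12386330265) (nat_lit 684) (nat_lit 1148103940) (nat_lit 240) (nat_lit 5) (nat_lit 248) (nat_lit 5) (nat_lit 249) (nat_lit 5) (nat_lit 484) (nat_lit 436) (nat_lit 220)) (XT.lf (nat_lit 0) (nat_lit 1625666802) (nat_lit 684) (nat_lit 2726524783) (nat_lit 76) (nat_lit 16884784385) (nat_lit 239) (nat_lit 5) (nat_lit 248) (nat_lit 5) (nat_lit 240) (nat_lit 5) (nat_lit 485) (nat_lit 436) (nat_lit 219))))))) (XT.nd (nat_lit 55614) (nat_lit 0) (nat_lit 14516) (XT.nd (nat_lit 390) (nat_lit 1216) (nat_lit 0) (XT.nd (nat_lit 156) (nat_lit 1216) (nat_lit 0) (XT.nd (nat_lit 78) (nat_lit 0) (nat_lit 0) (XT.lf (nat_lit 0) (nat_lit 4514636777) (nat_lit 760) (nat_lit 13118852830) (nat_lit 76) (nat_lit 3854093815) (nat_lit 230) (nat_lit 5) (nat_lit 240) (nat_lit 5) (nat_lit 231) (nat_lit 5) (nat_lit 486)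 (nat_lit 436) (nat_lit 218)) (XT.lf (nat_lit 0) (nat_lit 7503903692) (nat_lit 760) (nat_lit 2054429738) (nat_lit 76) (nat_lit 12184021508) (nat_lit 230) (nat_lit 5) (nat_lit 240) (nat_lit 5) (nat_lit 231) (nat_lit 5) (nat_lit 487) (nat_lit 436) (nat_lit 217))) (XT.nd (nat_lit 78) (nat_lit 608) (nat_lit 0) (XT.lf (nat_lit 0) (nat_lit 9348498018) (nat_lit 608) (nat_lit 1260524667) (nat_lit 684) (nat_lit 11392080082) (nat_lit 222) (nat_lit 5) (nat_lit 230) (nat_lit 5) (nat_lit 231) (nat_lit 5) (nat_lit 488) (nat_lit 436) (nat_lit 216)) (XT.nd (nat_lit 78) (nat_lit 608) (nat_lit 0) (XT.lf (nat_lit 0) (nat_lit 13832310905) (nat_lit 684) (nat_lit 1309720819) (nat_lit 76) (nat_lit 7121874670) (nat_lit 222) (nat_lit 5) (nat_lit 231) (nat_lit 5) (nat_lit 223) (nat_lit 5) (nat_lit 489) (nat_lit 436) (nat_lit 215)) (XT.lf (nat_lit 0) (nat_lit 10382503957) (nat_lit 608) (nat_lit 6808829690) (nat_lit 684) (nat_lit 5339209203)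 (nat_lit 214) (nat_lit 5) (nat_lit 222) (nat_lit 5) (nat_lit 223) (nat_lit 5) (nat_lit 490) (nat_lit 436) (nat_lit 214))))) (XT.nd (nat_lit 156) (nat_lit 608) (nat_lit 0) (XT.nd (nat_lit 78) (nat_lit 608) (nat_lit 0) (XT.lf (nat_lit 0) (nat_lit 20632922077) (nat_lit 684) (nat_lit 492434409) (nat_lit 76) (nat_lit 1676849937) (nat_lit 214) (nat_lit 5) (nat_lit 223) (nat_lit 5) (nat_lit 215) (nat_lit 5) (nat_lit 491) (nat_lit 436) (nat_lit 213)) (XT.lf (nat_lit 0) (nat_lit 1166227623) (nat_lit 608) (nat_lit 11587980325) (nat_lit 76) (nat_lit 10322636288) (nat_lit 206) (nat_lit 5) (nat_lit 214) (nat_lit 5) (nat_lit 207) (nat_lit 5) (nat_lit 492) (nat_lit 436) (nat_lit 212))) (XT.nd (nat_lit 78) (nat_lit 0) (nat_lit 0) (XT.lf (nat_lit 0) (nat_lit 344376486) (nat_lit 608) (nat_lit 4196282773) (nat_lit 684) (nat_lit 18816005616) (nat_lit 198) (nat_lit 5) (nat_lit 206) (nat_lit 5) (nat_lit 207) (nat_lit 5) (nat_lit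 493) (nat_lit 436) (nat_lit 211)) (XT.nd (nat_lit 54912) (nat_lit 0) (nat_lit 14516) (XT.lf (nat_lit 0) (nat_lit 8085996910) (nat_lit 684) (nat_lit 11003365945) (nat_lit 76) (nat_lit 4550652655) (nat_lit 198) (nat_lit 5) (nat_lit 207) (nat_lit 5) (nat_lit 199) (nat_lit 5) (nat_lit 494) (nat_lit 436) (nat_lit 210)) (XT.lf (nat_lit 0) (nat_lit 412489483) (nat_lit 1748) (nat_lit 3017961434) (nat_lit 1748) (nat_lit 3017961434) (nat_lit 389) (nat_lit 3) (nat_lit 412) (nat_lit 3) (nat_lit 412) (nat_lit 5) (nat_lit 437) (nat_lit 437) (nat_lit 266)))))) (XT.nd (nat_lit 390) (nat_lit 0) (nat_lit 228) (XT.nd (nat_lit 156) (nat_lit 0) (nat_lit 76) (XT.nd (nat_lit 78) (nat_lit 0) (nat_lit 76) (XT.lf (nat_lit 0) (nat_lit 1228683708) (nat_lit 1748) (nat_lit 37229100) (nat_lit 1748) (nat_lit 11751734067) (nat_lit 389) (nat_lit 3) (nat_lit 412) (nat_lit 3) (nat_lit 412) (nat_lit 5) (nat_lit 438) (nat_lit 437) (nat_lit 265))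 (XT.lf (nat_lit 0) (nat_lit 1699195734) (nat_lit 1672) (nat_lit 7012537131) (nat_lit 1748) (nat_lit 4427984177) (nat_lit 390) (nat_lit 5) (nat_lit 412) (nat_lit 5) (nat_lit 413) (nat_lit 5) (nat_lit 439) (nat_lit 437) (nat_lit 264))) (XT.nd (nat_lit 78) (nat_lit 0) (nat_lit 76) (XT.lf (nat_lit 0) (nat_lit 2177581440) (nat_lit 1672) (nat_lit 862727795) (nat_lit 1748) (nat_lit 10223956201) (nat_lit 390) (nat_lit 5) (nat_lit 412) (nat_lit 5) (nat_lit 413) (nat_lit 5) (nat_lit 440) (nat_lit 437) (nat_lit 263)) (XT.nd (nat_lit 78) (nat_lit 0) (nat_lit 0) (XT.lf (nat_lit 0) (nat_lit 2709204474) (nat_lit 1672) (nat_lit 7932373426) (nat_lit 1748) (nat_lit 2748859482) (nat_lit 391) (nat_lit 5) (nat_lit 413) (nat_lit 5) (nat_lit 414) (nat_lit 5) (nat_lit 441) (nat_lit 437) (nat_lit 262)) (XT.lf (nat_lit 0) (nat_lit 3267639704) (nat_lit 1672) (nat_lit 1627812188) (nat_lit 1748) (nat_lit 8623363137) (nat_lit 391) (nat_lit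 5) (nat_lit 413) (nat_lit 5) (nat_lit 414) (nat_lit 5) (nat_lit 442) (nat_lit 437) (nat_lit 261))))) (XT.nd (nat_lit 234) (nat_lit 0) (nat_lit 76) (XT.nd (nat_lit 78) (nat_lit 0) (nat_lit 0) (XT.lf (nat_lit 0) (nat_lit 3865719586) (nat_lit 1672) (nat_lit 8794715717) (nat_lit 1748) (nat_lit 988761148) (nat_lit 392) (nat_lit 5) (nat_lit 414) (nat_lit 5) (nat_lit 415) (nat_lit 5) (nat_lit 443) (nat_lit 437) (nat_lit 260)) (XT.nd (nat_lit 78) (nat_lit 0) (nat_lit 0) (XT.lf (nat_lit 0) (nat_lit 4509765101) (nat_lit 1672) (nat_lit 2331637769) (nat_lit 1748) (nat_lit 6940108183) (nat_lit 392) (nat_lit 5) (nat_lit 414) (nat_lit 5) (nat_lit 415) (nat_lit 5) (nat_lit 444) (nat_lit 437) (nat_lit 259)) (XT.lf (nat_lit 76) (nat_lit 4311698355) (nat_lit 0) (nat_lit 873760130) (nat_lit 1748) (nat_lit 8730643641) (nat_lit 393) (nat_lit 5) (nat_lit 392) (nat_lit 5) (nat_lit 415) (nat_lit 5) (nat_lit 445) (nat_lit 437) (nat_lit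 258)))) (XT.nd (nat_lit 78) (nat_lit 0) (nat_lit 0) (XT.lf (nat_lit 0) (nat_lit 5915204489) (nat_lit 1672) (nat_lit 2973242096) (nat_lit 1748) (nat_lit 5164133072) (nat_lit 393) (nat_lit 5) (nat_lit 415) (nat_lit 5) (nat_lit 416) (nat_lit 5) (nat_lit 446) (nat_lit 437) (nat_lit 257)) (XT.nd (nat_lit 78) (nat_lit 0) (nat_lit 76) (XT.lf (nat_lit 76) (nat_lit 3829365639) (nat_lit 0) (nat_lit 2851947507) (nat_lit 1748) (nat_lit 7510043544) (nat_lit 394) (nat_lit 5) (nat_lit 393) (nat_lit 5) (nat_lit 416) (nat_lit 5) (nat_lit 447) (nat_lit 437) (nat_lit 256)) (XT.lf (nat_lit 0) (nat_lit 7495565177) (nat_lit 1672) (nat_lit 3551551032) (nat_lit 1748) (nat_lit 3285141833) (nat_lit 394) (nat_lit 5) (nat_lit 416) (nat_lit 5) (nat_lit 417) (nat_lit 5) (nat_lit 448) (nat_lit 437) (nat_lit 255))))))))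
noncomputable def xc226 : XT := (XT.nd (nat_lit 1560) (nat_lit 8132) (nat_lit 0) (XT.nd (nat_lit 780) (nat_lit 3420) (nat_lit 0) (XT.nd (nat_lit 390) (nat_lit 1520) (nat_lit 0) (XT.nd (nat_lit 156) (nat_lit 0) (nat_lit 76) (XT.nd (nat_lit 78) (nat_lit 0) (nat_lit 76) (XT.lf (nat_lit 76) (nat_lit 3415339585) (nat_lit 0) (nat_lit 4943272387) (nat_lit 1748) (nat_lit 6116720351) (nat_lit 395) (nat_lit 5) (nat_lit 394) (nat_lit 5) (nat_lit 417) (nat_lit 5) (nat_lit 449) (nat_lit 437) (nat_lit 254)) (XT.lf (nat_lit 0) (nat_lit 9262835419) (nat_lit 1672) (nat_lit 4065385070) (nat_lit 1748) (nat_lit 1292574287) (nat_lit 395) (nat_lit 5) (nat_lit 417) (nat_lit 5) (nat_lit 418) (nat_lit 5) (nat_lit 450) (nat_lit 437) (nat_lit 253))) (XT.nd (nat_lit 78) (nat_lit 0) (nat_lit 0) (XT.lf (nat_lit 76) (nat_lit 3070949768) (nat_lit 0) (nat_lit 7158631173) (nat_lit 1748) (nat_lit 4538701687) (nat_lit 396) (nat_lit 5) (nat_lit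 395) (nat_lit 5) (nat_lit 418) (nat_lit 5) (nat_lit 451) (nat_lit 437) (nat_lit 252)) (XT.nd (nat_lit 78) (nat_lit 0) (nat_lit 76) (XT.lf (nat_lit 76) (nat_lit 10399452056) (nat_lit 0) (nat_lit 835376987) (nat_lit 1748) (nat_lit 3683512644) (nat_lit 396) (nat_lit 5) (nat_lit 395) (nat_lit 5) (nat_lit 418) (nat_lit 5) (nat_lit 452) (nat_lit 437) (nat_lit 251)) (XT.lf (nat_lit 76) (nat_lit 2797626939) (nat_lit 0) (nat_lit 9509232707) (nat_lit 1748) (nat_lit 2763613443) (nat_lit 397) (nat_lit 5) (nat_lit 396) (nat_lit 5) (nat_lit 419) (nat_lit 5) (nat_lit 453) (nat_lit 437) (nat_lit 250))))) (XT.nd (nat_lit 156) (nat_lit 1672) (nat_lit 0) (XT.nd (nat_lit 78) (nat_lit 0) (nat_lit 76) (XT.lf (nat_lit 76) (nat_lit 10310425622) (nat_lit 0) (nat_lit 3117905388) (nat_lit 1748) (nat_lit 1796760724) (nat_lit 397) (nat_lit 5) (nat_lit 396) (nat_lit 5) (nat_lit 419) (nat_lit 5) (nat_lit 454) (nat_lit 437) (nat_lit 249))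 (XT.lf (nat_lit 76) (nat_lit 2596896326) (nat_lit 0) (nat_lit 12006626375) (nat_lit 1748) (nat_lit 778658761) (nat_lit 398) (nat_lit 5) (nat_lit 397) (nat_lit 5) (nat_lit 420) (nat_lit 5) (nat_lit 455) (nat_lit 437) (nat_lit 248))) (XT.nd (nat_lit 78) (nat_lit 0) (nat_lit 76) (XT.lf (nat_lit 0) (nat_lit 302650211) (nat_lit 1748) (nat_lit 5244821603) (nat_lit 1824) (nat_lit 9993986739) (nat_lit 374) (nat_lit 5) (nat_lit 397) (nat_lit 5) (nat_lit 398) (nat_lit 5) (nat_lit 456) (nat_lit 437) (nat_lit 247)) (XT.nd (nat_lit 78) (nat_lit 0) (nat_lit 0) (XT.lf (nat_lit 0) (nat_lit 1410656466) (nat_lit 1748) (nat_lit 13242608133) (nat_lit 1824) (nat_lit 1050247969) (nat_lit 375) (nat_lit 5) (nat_lit 398) (nat_lit 5) (nat_lit 399) (nat_lit 5) (nat_lit 457) (nat_lit 437) (nat_lit 246)) (XT.lf (nat_lit 0) (nat_lit 2605664118) (nat_lit 1748) (nat_lit 5519069280) (nat_lit 1824) (nat_lit 7742781622) (nat_lit 375) (nat_lit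 5) (nat_lit 398) (nat_lit 5) (nat_lit 399) (nat_lit 5) (nat_lit 458) (nat_lit 437) (nat_lit 245)))))) (XT.nd (nat_lit 390) (nat_lit 1900) (nat_lit 0) (XT.nd (nat_lit 156) (nat_lit 1596) (nat_lit 0) (XT.nd (nat_lit 78) (nat_lit 0) (nat_lit 76) (XT.lf (nat_lit 76) (nat_lit 2384493654) (nat_lit 0) (nat_lit 1448378072) (nat_lit 1824) (nat_lit 12201763899) (nat_lit 376) (nat_lit 5) (nat_lit 375) (nat_lit 5) (nat_lit 399) (nat_lit 5) (nat_lit 459) (nat_lit 437) (nat_lit 244)) (XT.lf (nat_lit 0) (nat_lit 5149646143) (nat_lit 1748) (nat_lit 5724310126) (nat_lit 1824) (nat_lit 5329845942) (nat_lit 376) (nat_lit 5) (nat_lit 399) (nat_lit 5) (nat_lit 400) (nat_lit 5) (nat_lit 460) (nat_lit 437) (nat_lit 243))) (XT.nd (nat_lit 78) (nat_lit 1672) (nat_lit 0) (XT.lf (nat_lit 76) (nat_lit 2375884272) (nat_lit 0) (nat_lit 4134959189) (nat_lit 1824) (nat_lit 9865150862) (nat_lit 377) (nat_lit 5) (nat_lit 376) (nat_lit 5)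 (nat_lit 400) (nat_lit 5) (nat_lit 461) (nat_lit 437) (nat_lit 242)) (XT.nd (nat_lit 78) (nat_lit 1748) (nat_lit 0) (XT.lf (nat_lit 0) (nat_lit 7948890587) (nat_lit 1748) (nat_lit 5859054152) (nat_lit 76) (nat_lit 2742696885) (nat_lit 377) (nat_lit 5) (nat_lit 400) (nat_lit 5) (nat_lit 378) (nat_lit 5) (nat_lit 462) (nat_lit 437) (nat_lit 241)) (XT.lf (nat_lit 0) (nat_lit 2443771280) (nat_lit 1748) (nat_lit 7008487709) (nat_lit 1824) (nat_lit 7275795464) (nat_lit 354) (nat_lit 5) (nat_lit 377) (nat_lit 5) (nat_lit 378) (nat_lit 5) (nat_lit 463) (nat_lit 437) (nat_lit 240))))) (XT.nd (nat_lit 156) (nat_lit 988) (nat_lit 0) (XT.nd (nat_lit 78) (nat_lit 912) (nat_lit 0) (XT.lf (nat_lit 0) (nat_lit 10986393614) (nat_lit 1748) (nat_lit 32022693) (nat_lit 1824) (nat_lit 5889948515) (nat_lit 354) (nat_lit 5) (nat_lit 377) (nat_lit 5) (nat_lit 378) (nat_lit 5) (nat_lit 464) (nat_lit 437) (nat_lit 239)) (XT.lf (nat_lit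 0) (nat_lit 2589851479) (nat_lit 912) (nat_lit 10082393534) (nat_lit 988) (nat_lit 4418913063) (nat_lit 342) (nat_lit 5) (nat_lit 354) (nat_lit 5) (nat_lit 355) (nat_lit 5) (nat_lit 465) (nat_lit 437) (nat_lit 238))) (XT.nd (nat_lit 78) (nat_lit 988) (nat_lit 0) (XT.lf (nat_lit 0) (nat_lit 11346299124) (nat_lit 912) (nat_lit 3046430617) (nat_lit 988) (nat_lit 2884209436) (nat_lit 342) (nat_lit 5) (nat_lit 354) (nat_lit 5) (nat_lit 355) (nat_lit 5) (nat_lit 466) (nat_lit 437) (nat_lit 237)) (XT.nd (nat_lit 78) (nat_lit 76) (nat_lit 0) (XT.lf (nat_lit 0) (nat_lit 2815861848) (nat_lit 912) (nat_lit 13370619693) (nat_lit 988) (nat_lit 1279180710) (nat_lit 330) (nat_lit 5) (nat_lit 342) (nat_lit 5) (nat_lit 343) (nat_lit 5) (nat_lit 467) (nat_lit 437) (nat_lit 236)) (XT.lf (nat_lit 0) (nat_lit 407290458) (nat_lit 988) (nat_lit 5868181782) (nat_lit 76) (nat_lit 11381563702) (nat_lit 329) (nat_lit 5) (nat_lit 342)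 (nat_lit 5) (nat_lit 330) (nat_lit 5) (nat_lit 468) (nat_lit 437) (nat_lit 235))))))) (XT.nd (nat_lit 780) (nat_lit 4104) (nat_lit 0) (XT.nd (nat_lit 390) (nat_lit 1596) (nat_lit 0) (XT.nd (nat_lit 156) (nat_lit 1596) (nat_lit 0) (XT.nd (nat_lit 78) (nat_lit 0) (nat_lit 0) (XT.lf (nat_lit 0) (nat_lit 2130966783) (nat_lit 912) (nat_lit 14742389527) (nat_lit 76) (nat_lit 978302909) (nat_lit 318) (nat_lit 5) (nat_lit 330) (nat_lit 5) (nat_lit 319) (nat_lit 5) (nat_lit 469) (nat_lit 437) (nat_lit 234)) (XT.lf (nat_lit 0) (nat_lit 3964322617) (nat_lit 912) (nat_lit 5751109318) (nat_lit 76) (nat_lit 8333242140) (nat_lit 318) (nat_lit 5) (nat_lit 330) (nat_lit 5) (nat_lit 319) (nat_lit 5) (nat_lit 470) (nat_lit 437) (nat_lit 233))) (XT.nd (nat_lit 78) (nat_lit 760) (nat_lit 0) (XT.lf (nat_lit 0) (nat_lit 3459767388) (nat_lit 836) (nat_lit 2391165982) (nat_lit 912) (nat_lit 12398367273) (nat_lit 307) (nat_lit 5)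 (nat_lit 318) (nat_lit 5) (nat_lit 319) (nat_lit 5) (nat_lit 471) (nat_lit 437) (nat_lit 232)) (XT.nd (nat_lit 78) (nat_lit 760) (nat_lit 0) (XT.lf (nat_lit 0) (nat_lit 7841310163) (nat_lit 912) (nat_lit 5559272297) (nat_lit 76) (nat_lit 5052039714) (nat_lit 307) (nat_lit 5) (nat_lit 319) (nat_lit 5) (nat_lit 308) (nat_lit 5) (nat_lit 472) (nat_lit 437) (nat_lit 231)) (XT.lf (nat_lit 0) (nat_lit 3885135911) (nat_lit 760) (nat_lit 6021737852) (nat_lit 836) (nat_lit 8752431834) (nat_lit 297) (nat_lit 5) (nat_lit 307) (nat_lit 5) (nat_lit 308) (nat_lit 5) (nat_lit 473) (nat_lit 437) (nat_lit 230))))) (XT.nd (nat_lit 156) (nat_lit 836) (nat_lit 0) (XT.nd (nat_lit 78) (nat_lit 760) (nat_lit 0) (XT.lf (nat_lit 0) (nat_lit 12055465450) (nat_lit 836) (nat_lit 5291258883) (nat_lit 76) (nat_lit 1522567007) (nat_lit 297) (nat_lit 5) (nat_lit 308) (nat_lit 5) (nat_lit 298) (nat_lit 5) (nat_lit 474) (nat_lit 437) (nat_lit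 229)) (XT.lf (nat_lit 0) (nat_lit 4393508089) (nat_lit 760) (nat_lit 9916430124) (nat_lit 836) (nat_lit 4772283329) (nat_lit 287) (nat_lit 5) (nat_lit 297) (nat_lit 5) (nat_lit 298) (nat_lit 5) (nat_lit 475) (nat_lit 437) (nat_lit 228))) (XT.nd (nat_lit 78) (nat_lit 836) (nat_lit 0) (XT.lf (nat_lit 0) (nat_lit 14338186649) (nat_lit 760) (nat_lit 2301397522) (nat_lit 836) (nat_lit 2659227373) (nat_lit 287) (nat_lit 5) (nat_lit 297) (nat_lit 5) (nat_lit 298) (nat_lit 5) (nat_lit 476) (nat_lit 437) (nat_lit 227)) (XT.nd (nat_lit 78) (nat_lit 76) (nat_lit 0) (XT.lf (nat_lit 0) (nat_lit 4986426056) (nat_lit 760) (nat_lit 14091943067) (nat_lit 836) (nat_lit 440116118) (nat_lit 277) (nat_lit 5) (nat_lit 287) (nat_lit 5) (nat_lit 288) (nat_lit 5) (nat_lit 477) (nat_lit 437) (nat_lit 226)) (XT.lf (nat_lit 0) (nat_lit 1842926998) (nat_lit 836) (nat_lit 4575071600) (nat_lit 76) (nat_lit 13323450475) (nat_lit 276) (nat_lit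 5) (nat_lit 287) (nat_lit 5) (nat_lit 277) (nat_lit 5) (nat_lit 478) (nat_lit 437) (nat_lit 225)))))) (XT.nd (nat_lit 390) (nat_lit 1976) (nat_lit 0) (XT.nd (nat_lit 156) (nat_lit 1368) (nat_lit 0) (XT.nd (nat_lit 78) (nat_lit 0) (nat_lit 0) (XT.lf (nat_lit 0) (nat_lit 4206634544) (nat_lit 836) (nat_lit 14330835706) (nat_lit 76) (nat_lit 1430528469) (nat_lit 266) (nat_lit 5) (nat_lit 277) (nat_lit 5) (nat_lit 267) (nat_lit 5) (nat_lit 479) (nat_lit 437) (nat_lit 224)) (XT.lf (nat_lit 0) (nat_lit 6685906018) (nat_lit 836) (nat_lit 4131017394) (nat_lit 76) (nat_lit 9380792750) (nat_lit 266) (nat_lit 5) (nat_lit 277) (nat_lit 5) (nat_lit 267) (nat_lit 5) (nat_lit 480) (nat_lit 437) (nat_lit 223))) (XT.nd (nat_lit 78) (nat_lit 684) (nat_lit 0) (XT.lf (nat_lit 0) (nat_lit 6350691609) (nat_lit 684) (nat_lit 2900286584) (nat_lit 760) (nat_lit 11180328005) (nat_lit 257) (nat_lit 5) (nat_lit 266) (nat_lit 5) (nat_lit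 267) (nat_lit 5) (nat_lit 481) (nat_lit 437) (nat_lit 222)) (XT.nd (nat_lit 78) (nat_lit 684) (nat_lit 0) (XT.lf (nat_lit 0) (nat_lit 11923897484) (nat_lit 760) (nat_lit 3610222424) (nat_lit 76) (nat_lit 5134319713) (nat_lit 257) (nat_lit 5) (nat_lit 267) (nat_lit 5) (nat_lit 258) (nat_lit 5) (nat_lit 482) (nat_lit 437) (nat_lit 221)) (XT.lf (nat_lit 0) (nat_lit 7138642442) (nat_lit 684) (nat_lit 7572329217) (nat_lit 760) (nat_lit 6198132576) (nat_lit 248) (nat_lit 5) (nat_lit 257) (nat_lit 5) (nat_lit 258) (nat_lit 5) (nat_lit 483) (nat_lit 437) (nat_lit 220))))) (XT.nd (nat_lit 234) (nat_lit 1292) (nat_lit 0) (XT.nd (nat_lit 78) (nat_lit 684) (nat_lit 0) (XT.lf (nat_lit 0) (nat_lit 17576934651) (nat_lit 760) (nat_lit 3011810759) (nat_lit 76) (nat_lit 565376185) (nat_lit 248) (nat_lit 5) (nat_lit 258) (nat_lit 5) (nat_lit 249) (nat_lit 5) (nat_lit 484) (nat_lit 437) (nat_lit 219)) (XT.nd (nat_lit 78) (nat_lit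 76) (nat_lit 0) (XT.lf (nat_lit 0) (nat_lit 8011633230) (nat_lit 608) (nat_lit 12586040438) (nat_lit 684) (nat_lit 804418855) (nat_lit 240) (nat_lit 5) (nat_lit 248) (nat_lit 5) (nat_lit 249) (nat_lit 5) (nat_lit 485) (nat_lit 437) (nat_lit 218)) (XT.lf (nat_lit 0) (nat_lit 2012923785) (nat_lit 684) (nat_lit 2376856182) (nat_lit 76) (nat_lit 17264669135) (nat_lit 239) (nat_lit 5) (nat_lit 248) (nat_lit 5) (nat_lit 240) (nat_lit 5) (nat_lit 486) (nat_lit 437) (nat_lit 217)))) (XT.nd (nat_lit 78) (nat_lit 608) (nat_lit 0) (XT.lf (nat_lit 0) (nat_lit 4955656533) (nat_lit 760) (nat_lit 12972846011) (nat_lit 76) (nat_lit 3981649856) (nat_lit 230) (nat_lit 5) (nat_lit 240) (nat_lit 5) (nat_lit 231) (nat_lit 5) (nat_lit 487) (nat_lit 437) (nat_lit 216)) (XT.nd (nat_lit 78) (nat_lit 608) (nat_lit 0) (XT.lf (nat_lit 0) (nat_lit 7997831785) (nat_lit 760) (nat_lit 1695141984) (nat_lit 76) (nat_lit 12477186413) (nat_lit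 230) (nat_lit 5) (nat_lit 240) (nat_lit 5) (nat_lit 231) (nat_lit 5) (nat_lit 488) (nat_lit 437) (nat_lit 215)) (XT.lf (nat_lit 0) (nat_lit 9933210272) (nat_lit 608) (nat_lit 1227683136) (nat_lit 684) (nat_lit 11273275988) (nat_lit 222) (nat_lit 5) (nat_lit 230) (nat_lit 5) (nat_lit 231) (nat_lit 5) (nat_lit 489) (nat_lit 437) (nat_lit 214))))))))
noncomputable def xc227 : XT := (XT.nd (nat_lit 56472) (nat_lit 0) (nat_lit 8284) (XT.nd (nat_lit 55692) (nat_lit 0) (nat_lit 14668) (XT.nd (nat_lit 55302) (nat_lit 0) (nat_lit 14516) (XT.nd (nat_lit 156) (nat_lit 1216) (nat_lit 0) (XT.nd (nat_lit 78) (nat_lit 608) (nat_lit 0) (XT.lf (nat_lit 0) (nat_lit 14442356320) (nat_lit 684) (nat_lit 939522286) (nat_lit 76) (nat_lit 7320479479) (nat_lit 222) (nat_lit 5) (nat_lit 231) (nat_lit 5) (nat_lit 223) (nat_lit 5) (nat_lit 490) (nat_lit 437) (nat_lit 213)) (XT.lf (nat_lit 0) (nat_lit 10983939137) (nat_lit 608) (nat_lit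 6880639855) (nat_lit 684) (nat_lit 5109830996) (nat_lit 214) (nat_lit 5) (nat_lit 222) (nat_lit 5) (nat_lit 223) (nat_lit 5) (nat_lit 491) (nat_lit 437) (nat_lit 212))) (XT.nd (nat_lit 78) (nat_lit 1216) (nat_lit 0) (XT.lf (nat_lit 0) (nat_lit 21368949717) (nat_lit 684) (nat_lit 110017499) (nat_lit 76) (nat_lit 1772663653) (nat_lit 214) (nat_lit 5) (nat_lit 223) (nat_lit 5) (nat_lit 215) (nat_lit 5) (nat_lit 492) (nat_lit 437) (nat_lit 211)) (XT.nd (nat_lit 78) (nat_lit 608) (nat_lit 0) (XT.lf (nat_lit 0) (nat_lit 1511374531) (nat_lit 608) (nat_lit 11425631793) (nat_lit 76) (nat_lit 10594791964) (nat_lit 206) (nat_lit 5) (nat_lit 214) (nat_lit 5) (nat_lit 207) (nat_lit 5) (nat_lit 493) (nat_lit 437) (nat_lit 210)) (XT.lf (nat_lit 0) (nat_lit 742779337) (nat_lit 608) (nat_lit 4206747197) (nat_lit 684) (nat_lit 18867767041) (nat_lit 198) (nat_lit 5) (nat_lit 206) (nat_lit 5) (nat_lit 207) (nat_lit 5) (nat_lit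 494) (nat_lit 437) (nat_lit 209))))) (XT.nd (nat_lit 156) (nat_lit 0) (nat_lit 76) (XT.nd (nat_lit 78) (nat_lit 0) (nat_lit 0) (XT.lf (nat_lit 0) (nat_lit 813626669) (nat_lit 1748) (nat_lit 2877830372) (nat_lit 1748) (nat_lit 2877830372) (nat_lit 389) (nat_lit 3) (nat_lit 412) (nat_lit 3) (nat_lit 412) (nat_lit 5) (nat_lit 438) (nat_lit 438) (nat_lit 264)) (XT.lf (nat_lit 76) (nat_lit 359864219) (nat_lit 0) (nat_lit 1666097083) (nat_lit 1748) (nat_lit 11236122787) (nat_lit 390) (nat_lit 5) (nat_lit 389) (nat_lit 3) (nat_lit 412) (nat_lit 5) (nat_lit 439) (nat_lit 438) (nat_lit 263))) (XT.nd (nat_lit 78) (nat_lit 0) (nat_lit 0) (XT.lf (nat_lit 0) (nat_lit 2488592906) (nat_lit 1672) (nat_lit 6744262877) (nat_lit 1748) (nat_lit 4154094742) (nat_lit 390) (nat_lit 5) (nat_lit 412) (nat_lit 5) (nat_lit 413) (nat_lit 5) (nat_lit 440) (nat_lit 438) (nat_lit 262)) (XT.nd (nat_lit 78) (nat_lit 0) (nat_lit 76) (XT.lf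 (nat_lit 0) (nat_lit 2961734302) (nat_lit 1672) (nat_lit 479467648) (nat_lit 1748) (nat_lit 10073093051) (nat_lit 390) (nat_lit 5) (nat_lit 412) (nat_lit 5) (nat_lit 413) (nat_lit 5) (nat_lit 441) (nat_lit 438) (nat_lit 261)) (XT.lf (nat_lit 0) (nat_lit 3489903839) (nat_lit 1672) (nat_lit 7675985216) (nat_lit 1748) (nat_lit 2477391751) (nat_lit 391) (nat_lit 5) (nat_lit 413) (nat_lit 5) (nat_lit 414) (nat_lit 5) (nat_lit 442) (nat_lit 438) (nat_lit 260)))))) (XT.nd (nat_lit 390) (nat_lit 0) (nat_lit 152) (XT.nd (nat_lit 156) (nat_lit 0) (nat_lit 76) (XT.nd (nat_lit 78) (nat_lit 0) (nat_lit 76) (XT.lf (nat_lit 0) (nat_lit 4045262375) (nat_lit 1672) (nat_lit 1253470707) (nat_lit 1748) (nat_lit 8475786360) (nat_lit 391) (nat_lit 5) (nat_lit 413) (nat_lit 5) (nat_lit 414) (nat_lit 5) (nat_lit 443) (nat_lit 438) (nat_lit 259)) (XT.lf (nat_lit 0) (nat_lit 4642035827) (nat_lit 1672) (nat_lit 8550026152) (nat_lit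 1748) (nat_lit 715720238) (nat_lit 392) (nat_lit 5) (nat_lit 414) (nat_lit 5) (nat_lit 415) (nat_lit 5) (nat_lit 444) (nat_lit 438) (nat_lit 258))) (XT.nd (nat_lit 78) (nat_lit 0) (nat_lit 0) (XT.lf (nat_lit 0) (nat_lit 5285256334) (nat_lit 1672) (nat_lit 1965933388) (nat_lit 1748) (nat_lit 6791835706) (nat_lit 392) (nat_lit 5) (nat_lit 414) (nat_lit 5) (nat_lit 415) (nat_lit 5) (nat_lit 445) (nat_lit 438) (nat_lit 257)) (XT.nd (nat_lit 78) (nat_lit 0) (nat_lit 76) (XT.lf (nat_lit 76) (nat_lit 4807556714) (nat_lit 0) (nat_lit 1156129249) (nat_lit 1748) (nat_lit 8216845949) (nat_lit 393) (nat_lit 5) (nat_lit 392) (nat_lit 5) (nat_lit 415) (nat_lit 5) (nat_lit 446) (nat_lit 438) (nat_lit 256)) (XT.lf (nat_lit 0) (nat_lit 6693114894) (nat_lit 1672) (nat_lit 2615808394) (nat_lit 1748) (nat_lit 5011121827) (nat_lit 393) (nat_lit 5) (nat_lit 415) (nat_lit 5) (nat_lit 416) (nat_lit 5) (nat_lit 447) (nat_lit 438)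 (nat_lit 255))))) (XT.nd (nat_lit 156) (nat_lit 0) (nat_lit 76) (XT.nd (nat_lit 78) (nat_lit 0) (nat_lit 76) (XT.lf (nat_lit 76) (nat_lit 4320108742) (nat_lit 0) (nat_lit 3144192499) (nat_lit 1748) (nat_lit 6997509062) (nat_lit 394) (nat_lit 5) (nat_lit 393) (nat_lit 5) (nat_lit 416) (nat_lit 5) (nat_lit 448) (nat_lit 438) (nat_lit 254)) (XT.lf (nat_lit 0) (nat_lit 8280608557) (nat_lit 1672) (nat_lit 3201938499) (nat_lit 1748) (nat_lit 3123274795) (nat_lit 394) (nat_lit 5) (nat_lit 416) (nat_lit 5) (nat_lit 417) (nat_lit 5) (nat_lit 449) (nat_lit 438) (nat_lit 253))) (XT.nd (nat_lit 78) (nat_lit 0) (nat_lit 76) (XT.lf (nat_lit 76) (nat_lit 3901522539) (nat_lit 0) (nat_lit 5249653309) (nat_lit 1748) (nat_lit 5600784006) (nat_lit 395) (nat_lit 5) (nat_lit 394) (nat_lit 5) (nat_lit 417) (nat_lit 5) (nat_lit 450) (nat_lit 438) (nat_lit 252)) (XT.nd (nat_lit 78) (nat_lit 0) (nat_lit 0) (XT.lf (nat_lit 0) (nat_lit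 10059900272) (nat_lit 1672) (nat_lit 3723062765) (nat_lit 1748) (nat_lit 1117647468) (nat_lit 395) (nat_lit 5) (nat_lit 417) (nat_lit 5) (nat_lit 418) (nat_lit 5) (nat_lit 451) (nat_lit 438) (nat_lit 251)) (XT.lf (nat_lit 76) (nat_lit 3553211730) (nat_lit 0) (nat_lit 7483505128) (nat_lit 1748) (nat_lit 4014523670) (nat_lit 396) (nat_lit 5) (nat_lit 395) (nat_lit 5) (nat_lit 418) (nat_lit 5) (nat_lit 452) (nat_lit 438) (nat_lit 250))))))) (XT.nd (nat_lit 780) (nat_lit 5092) (nat_lit 0) (XT.nd (nat_lit 390) (nat_lit 0) (nat_lit 76) (XT.nd (nat_lit 156) (nat_lit 1596) (nat_lit 0) (XT.nd (nat_lit 78) (nat_lit 0) (nat_lit 76) (XT.lf (nat_lit 76) (nat_lit 11020032241) (nat_lit 0) (nat_lit 1030223087) (nat_lit 1748) (nat_lit 3154288729) (nat_lit 396) (nat_lit 5) (nat_lit 395) (nat_lit 5) (nat_lit 418) (nat_lit 5) (nat_lit 453) (nat_lit 438) (nat_lit 249)) (XT.lf (nat_lit 76) (nat_lit 3276689625) (nat_lit 0) (nat_lit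 9857067179) (nat_lit 1748) (nat_lit 2226167538) (nat_lit 397) (nat_lit 5) (nat_lit 396) (nat_lit 5) (nat_lit 419) (nat_lit 5) (nat_lit 454) (nat_lit 438) (nat_lit 248))) (XT.nd (nat_lit 78) (nat_lit 1672) (nat_lit 0) (XT.lf (nat_lit 76) (nat_lit 10931448004) (nat_lit 0) (nat_lit 3334822141) (nat_lit 1748) (nat_lit 1251599690) (nat_lit 397) (nat_lit 5) (nat_lit 396) (nat_lit 5) (nat_lit 419) (nat_lit 5) (nat_lit 455) (nat_lit 438) (nat_lit 247)) (XT.nd (nat_lit 78) (nat_lit 1748) (nat_lit 0) (XT.lf (nat_lit 76) (nat_lit 3073562583) (nat_lit 0) (nat_lit 12382012718) (nat_lit 1748) (nat_lit 222720458) (nat_lit 398) (nat_lit 5) (nat_lit 397) (nat_lit 5) (nat_lit 420) (nat_lit 5) (nat_lit 456) (nat_lit 438) (nat_lit 246)) (XT.lf (nat_lit 0) (nat_lit 861660081) (nat_lit 1748) (nat_lit 4925652318) (nat_lit 1824) (nat_lit 10053599301) (nat_lit 374) (nat_lit 5) (nat_lit 397) (nat_lit 5) (nat_lit 398) (nat_lit 5)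 (nat_lit 457) (nat_lit 438) (nat_lit 245))))) (XT.nd (nat_lit 156) (nat_lit 0) (nat_lit 0) (XT.nd (nat_lit 78) (nat_lit 0) (nat_lit 0) (XT.lf (nat_lit 0) (nat_lit 1982917046) (nat_lit 1748) (nat_lit 13074174491) (nat_lit 1824) (nat_lit 949299658) (nat_lit 375) (nat_lit 5) (nat_lit 398) (nat_lit 5) (nat_lit 399) (nat_lit 5) (nat_lit 458) (nat_lit 438) (nat_lit 244)) (XT.lf (nat_lit 0) (nat_lit 3191157254) (nat_lit 1748) (nat_lit 5204660661) (nat_lit 1824) (nat_lit 7778075225) (nat_lit 375) (nat_lit 5) (nat_lit 398) (nat_lit 5) (nat_lit 399) (nat_lit 5) (nat_lit 459) (nat_lit 438) (nat_lit 243))) (XT.nd (nat_lit 78) (nat_lit 0) (nat_lit 76) (XT.lf (nat_lit 76) (nat_lit 2854178861) (nat_lit 0) (nat_lit 1581011599) (nat_lit 1824) (nat_lit 11909326042) (nat_lit 376) (nat_lit 5) (nat_lit 375) (nat_lit 5) (nat_lit 399) (nat_lit 5) (nat_lit 460) (nat_lit 438) (nat_lit 242)) (XT.nd (nat_lit 78) (nat_lit 0) (nat_lit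 0) (XT.lf (nat_lit 0) (nat_lit 5767333410) (nat_lit 1748) (nat_lit 5413815704) (nat_lit 1824) (nat_lit 5336142499) (nat_lit 376) (nat_lit 5) (nat_lit 399) (nat_lit 5) (nat_lit 400) (nat_lit 5) (nat_lit 461) (nat_lit 438) (nat_lit 241)) (XT.lf (nat_lit 76) (nat_lit 2845586657) (nat_lit 0) (nat_lit 4302817074) (nat_lit 1824) (nat_lit 9544676595) (nat_lit 377) (nat_lit 5) (nat_lit 376) (nat_lit 5) (nat_lit 400) (nat_lit 5) (nat_lit 462) (nat_lit 438) (nat_lit 240)))))) (XT.nd (nat_lit 390) (nat_lit 2660) (nat_lit 0) (XT.nd (nat_lit 156) (nat_lit 912) (nat_lit 0) (XT.nd (nat_lit 78) (nat_lit 1748) (nat_lit 0) (XT.lf (nat_lit 0) (nat_lit 8604721824) (nat_lit 1748) (nat_lit 5551557305) (nat_lit 76) (nat_lit 2715156872) (nat_lit 377) (nat_lit 5) (nat_lit 400) (nat_lit 5) (nat_lit 378) (nat_lit 5) (nat_lit 463) (nat_lit 438) (nat_lit 239)) (XT.lf (nat_lit 0) (nat_lit 2914530702) (nat_lit 1748) (nat_lit 7216623819)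 (nat_lit 1824) (nat_lit 6921388145) (nat_lit 354) (nat_lit 5) (nat_lit 377) (nat_lit 5) (nat_lit 378) (nat_lit 5) (nat_lit 464) (nat_lit 438) (nat_lit 238))) (XT.nd (nat_lit 78) (nat_lit 912) (nat_lit 0) (XT.lf (nat_lit 0) (nat_lit 11619733248) (nat_lit 1748) (nat_lit 99296830) (nat_lit 1824) (nat_lit 5517626673) (nat_lit 354) (nat_lit 5) (nat_lit 377) (nat_lit 5) (nat_lit 378) (nat_lit 5) (nat_lit 465) (nat_lit 438) (nat_lit 237)) (XT.nd (nat_lit 78) (nat_lit 0) (nat_lit 0) (XT.lf (nat_lit 0) (nat_lit 3062779323) (nat_lit 912) (nat_lit 10336049570) (nat_lit 988) (nat_lit 4024424407) (nat_lit 342) (nat_lit 5) (nat_lit 354) (nat_lit 5) (nat_lit 355) (nat_lit 5) (nat_lit 466) (nat_lit 438) (nat_lit 236)) (XT.lf (nat_lit 0) (nat_lit 11986098454) (nat_lit 912) (nat_lit 3158347626) (nat_lit 988) (nat_lit 2468494686) (nat_lit 342) (nat_lit 5) (nat_lit 354) (nat_lit 5) (nat_lit 355) (nat_lit 5) (nat_lit 467) (nat_lit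 438) (nat_lit 235))))) (XT.nd (nat_lit 234) (nat_lit 836) (nat_lit 0) (XT.nd (nat_lit 78) (nat_lit 912) (nat_lit 0) (XT.lf (nat_lit 0) (nat_lit 3292139481) (nat_lit 912) (nat_lit 13675240209) (nat_lit 988) (nat_lit 838197575) (nat_lit 330) (nat_lit 5) (nat_lit 342) (nat_lit 5) (nat_lit 343) (nat_lit 5) (nat_lit 468) (nat_lit 438) (nat_lit 234)) (XT.nd (nat_lit 78) (nat_lit 836) (nat_lit 0) (XT.lf (nat_lit 0) (nat_lit 866855525) (nat_lit 988) (nat_lit 5567575451) (nat_lit 76) (nat_lit 11566472336) (nat_lit 329) (nat_lit 5) (nat_lit 342) (nat_lit 5) (nat_lit 330) (nat_lit 5) (nat_lit 469) (nat_lit 438) (nat_lit 233)) (XT.lf (nat_lit 0) (nat_lit 2618654840) (nat_lit 912) (nat_lit 14612676653) (nat_lit 76) (nat_lit 968219375) (nat_lit 318) (nat_lit 5) (nat_lit 330) (nat_lit 5) (nat_lit 319) (nat_lit 5) (nat_lit 470) (nat_lit 438) (nat_lit 232)))) (XT.nd (nat_lit 78) (nat_lit 836) (nat_lit 0) (XT.lf (nat_lit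 0) (nat_lit 4479950953) (nat_lit 912) (nat_lit 5449895559) (nat_lit 76) (nat_lit 8470838755) (nat_lit 318) (nat_lit 5) (nat_lit 330) (nat_lit 5) (nat_lit 319) (nat_lit 5) (nat_lit 471) (nat_lit 438) (nat_lit 231)) (XT.nd (nat_lit 78) (nat_lit 0) (nat_lit 0) (XT.lf (nat_lit 0) (nat_lit 3942460287) (nat_lit 836) (nat_lit 2455962611) (nat_lit 912) (nat_lit 12207023505) (nat_lit 307) (nat_lit 5) (nat_lit 318) (nat_lit 5) (nat_lit 319) (nat_lit 5) (nat_lit 472) (nat_lit 438) (nat_lit 230)) (XT.lf (nat_lit 0) (nat_lit 8420058581) (nat_lit 912) (nat_lit 5256293031) (nat_lit 76) (nat_lit 5136658252) (nat_lit 307) (nat_lit 5) (nat_lit 319) (nat_lit 5) (nat_lit 308) (nat_lit 5) (nat_lit 473) (nat_lit 438) (nat_lit 229))))))))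
noncomputable def xc228 : XT := (XT.nd (nat_lit 1560) (nat_lit 76) (nat_lit 0) (XT.nd (nat_lit 780) (nat_lit 3800) (nat_lit 0) (XT.nd (nat_lit 390) (nat_lit 1520) (nat_lit 0) (XT.nd (nat_lit 156) (nat_lit 1520) (nat_lit 0) (XT.nd (nat_lit 78) (nat_lit 0) (nat_lit 0) (XT.lf (nat_lit 0) (nat_lit 4374278573) (nat_lit 760) (nat_lit 6147053236) (nat_lit 836) (nat_lit 8502611617) (nat_lit 297) (nat_lit 5) (nat_lit 307) (nat_lit 5) (nat_lit 308) (nat_lit 5) (nat_lit 474) (nat_lit 438) (nat_lit 228)) (XT.lf (nat_lit 0) (nat_lit 12704701114) (nat_lit 836) (nat_lit 4985299831) (nat_lit 76) (nat_lit 1548296174) (nat_lit 297) (nat_lit 5) (nat_lit 308) (nat_lit 5) (nat_lit 298) (nat_lit 5) (nat_lit 475) (nat_lit 438) (nat_lit 227))) (XT.nd (nat_lit 78) (nat_lit 760) (nat_lit 0) (XT.lf (nat_lit 0) (nat_lit 4890453374) (nat_lit 760) (nat_lit 10108463468) (nat_lit 836) (nat_lit 4456680277) (nat_lit 287) (nat_lit 5) (nat_lit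 297) (nat_lit 5) (nat_lit 298) (nat_lit 5) (nat_lit 476) (nat_lit 438) (nat_lit 226)) (XT.nd (nat_lit 78) (nat_lit 760) (nat_lit 0) (XT.lf (nat_lit 0) (nat_lit 15026004425) (nat_lit 760) (nat_lit 2341253650) (nat_lit 836) (nat_lit 2309422981) (nat_lit 287) (nat_lit 5) (nat_lit 297) (nat_lit 5) (nat_lit 298) (nat_lit 5) (nat_lit 477) (nat_lit 438) (nat_lit 225)) (XT.lf (nat_lit 0) (nat_lit 5492583684) (nat_lit 760) (nat_lit 14357170346) (nat_lit 836) (nat_lit 51099590) (nat_lit 277) (nat_lit 5) (nat_lit 287) (nat_lit 5) (nat_lit 288) (nat_lit 5) (nat_lit 478) (nat_lit 438) (nat_lit 224))))) (XT.nd (nat_lit 156) (nat_lit 684) (nat_lit 0) (XT.nd (nat_lit 78) (nat_lit 760) (nat_lit 0) (XT.lf (nat_lit 0) (nat_lit 2264688857) (nat_lit 836) (nat_lit 4262800946) (nat_lit 76) (nat_lit 13600893171) (nat_lit 276) (nat_lit 5) (nat_lit 287) (nat_lit 5) (nat_lit 277) (nat_lit 5) (nat_lit 479) (nat_lit 438) (nat_lit 223))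 (XT.lf (nat_lit 0) (nat_lit 4670865092) (nat_lit 836) (nat_lit 14208681719) (nat_lit 76) (nat_lit 1480016772) (nat_lit 266) (nat_lit 5) (nat_lit 277) (nat_lit 5) (nat_lit 267) (nat_lit 5) (nat_lit 480) (nat_lit 438) (nat_lit 222))) (XT.nd (nat_lit 78) (nat_lit 684) (nat_lit 0) (XT.lf (nat_lit 0) (nat_lit 7192269097) (nat_lit 836) (nat_lit 3812882153) (nat_lit 76) (nat_lit 9588876971) (nat_lit 266) (nat_lit 5) (nat_lit 277) (nat_lit 5) (nat_lit 267) (nat_lit 5) (nat_lit 481) (nat_lit 438) (nat_lit 221)) (XT.nd (nat_lit 78) (nat_lit 0) (nat_lit 0) (XT.lf (nat_lit 0) (nat_lit 6875824481) (nat_lit 684) (nat_lit 2928096324) (nat_lit 760) (nat_lit 11028467404) (nat_lit 257) (nat_lit 5) (nat_lit 266) (nat_lit 5) (nat_lit 267) (nat_lit 5) (nat_lit 482) (nat_lit 438) (nat_lit 220)) (XT.lf (nat_lit 0) (nat_lit 12523276512) (nat_lit 760) (nat_lit 3284910108) (nat_lit 76) (nat_lit 5266221760) (nat_lit 257) (nat_lit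 5) (nat_lit 267) (nat_lit 5) (nat_lit 258) (nat_lit 5) (nat_lit 483) (nat_lit 438) (nat_lit 219)))))) (XT.nd (nat_lit 390) (nat_lit 1748) (nat_lit 0) (XT.nd (nat_lit 156) (nat_lit 1368) (nat_lit 0) (XT.nd (nat_lit 78) (nat_lit 0) (nat_lit 0) (XT.lf (nat_lit 0) (nat_lit 7676316813) (nat_lit 684) (nat_lit 7685262828) (nat_lit 760) (nat_lit 5958400464) (nat_lit 248) (nat_lit 5) (nat_lit 257) (nat_lit 5) (nat_lit 258) (nat_lit 5) (nat_lit 484) (nat_lit 438) (nat_lit 218)) (XT.lf (nat_lit 0) (nat_lit 18278119031) (nat_lit 760) (nat_lit 2677970813) (nat_lit 76) (nat_lit 613946325) (nat_lit 248) (nat_lit 5) (nat_lit 258) (nat_lit 5) (nat_lit 249) (nat_lit 5) (nat_lit 485) (nat_lit 438) (nat_lit 217))) (XT.nd (nat_lit 78) (nat_lit 760) (nat_lit 0) (XT.lf (nat_lit 0) (nat_lit 8563349451) (nat_lit 608) (nat_lit 12791609352) (nat_lit 684) (nat_lit 468097424) (nat_lit 240) (nat_lit 5) (nat_lit 248) (nat_lit 5) (nat_lit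 249) (nat_lit 5) (nat_lit 486) (nat_lit 438) (nat_lit 216)) (XT.nd (nat_lit 78) (nat_lit 684) (nat_lit 0) (XT.lf (nat_lit 0) (nat_lit 2394150780) (nat_lit 684) (nat_lit 2035889752) (nat_lit 76) (nat_lit 17650513328) (nat_lit 239) (nat_lit 5) (nat_lit 248) (nat_lit 5) (nat_lit 240) (nat_lit 5) (nat_lit 487) (nat_lit 438) (nat_lit 215)) (XT.lf (nat_lit 0) (nat_lit 5391877525) (nat_lit 760) (nat_lit 12839777099) (nat_lit 76) (nat_lit 4109797044) (nat_lit 230) (nat_lit 5) (nat_lit 240) (nat_lit 5) (nat_lit 231) (nat_lit 5) (nat_lit 488) (nat_lit 438) (nat_lit 214))))) (XT.nd (nat_lit 156) (nat_lit 1140) (nat_lit 0) (XT.nd (nat_lit 78) (nat_lit 608) (nat_lit 0) (XT.lf (nat_lit 0) (nat_lit 8488286324) (nat_lit 760) (nat_lit 1344215577) (nat_lit 76) (nat_lit 12774293074) (nat_lit 230) (nat_lit 5) (nat_lit 240) (nat_lit 5) (nat_lit 231) (nat_lit 5) (nat_lit 489) (nat_lit 438) (nat_lit 213)) (XT.lf (nat_lit 0) (nat_lit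 10514171953) (nat_lit 608) (nat_lit 1196439004) (nat_lit 684) (nat_lit 11165556487) (nat_lit 222) (nat_lit 5) (nat_lit 230) (nat_lit 5) (nat_lit 231) (nat_lit 5) (nat_lit 490) (nat_lit 438) (nat_lit 212))) (XT.nd (nat_lit 78) (nat_lit 1140) (nat_lit 0) (XT.lf (nat_lit 0) (nat_lit 15051656347) (nat_lit 684) (nat_lit 577312204) (nat_lit 76) (nat_lit 7520875339) (nat_lit 222) (nat_lit 5) (nat_lit 231) (nat_lit 5) (nat_lit 223) (nat_lit 5) (nat_lit 491) (nat_lit 438) (nat_lit 211)) (XT.nd (nat_lit 78) (nat_lit 532) (nat_lit 0) (XT.lf (nat_lit 0) (nat_lit 11582111865) (nat_lit 608) (nat_lit 6956385650) (nat_lit 684) (nat_lit 4888918821) (nat_lit 214) (nat_lit 5) (nat_lit 222) (nat_lit 5) (nat_lit 223) (nat_lit 5) (nat_lit 492) (nat_lit 438) (nat_lit 210)) (XT.lf (nat_lit 0) (nat_lit 268334857) (nat_lit 532) (nat_lit 21840548439) (nat_lit 608) (nat_lit 1601382713) (nat_lit 207) (nat_lit 5) (nat_lit 214) (nat_lit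 5) (nat_lit 215) (nat_lit 5) (nat_lit 493) (nat_lit 438) (nat_lit 209))))))) (XT.nd (nat_lit 55770) (nat_lit 0) (nat_lit 12768) (XT.nd (nat_lit 55380) (nat_lit 0) (nat_lit 14060) (XT.nd (nat_lit 55146) (nat_lit 0) (nat_lit 13908) (XT.nd (nat_lit 55068) (nat_lit 0) (nat_lit 13908) (XT.lf (nat_lit 0) (nat_lit 1850927624) (nat_lit 608) (nat_lit 11275339990) (nat_lit 76) (nat_lit 10869839428) (nat_lit 206) (nat_lit 5) (nat_lit 214) (nat_lit 5) (nat_lit 207) (nat_lit 5) (nat_lit 494) (nat_lit 438) (nat_lit 208)) (XT.lf (nat_lit 0) (nat_lit 1207530302) (nat_lit 1748) (nat_lit 2742681970) (nat_lit 1748) (nat_lit 2742681970) (nat_lit 389) (nat_lit 3) (nat_lit 412) (nat_lit 3) (nat_lit 412) (nat_lit 5) (nat_lit 439) (nat_lit 439) (nat_lit 262))) (XT.nd (nat_lit 78) (nat_lit 0) (nat_lit 76) (XT.lf (nat_lit 76) (nat_lit 749935929) (nat_lit 0) (nat_lit 2059483610) (nat_lit 1748) (nat_lit 10702603733) (nat_lit 390) (nat_lit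 5) (nat_lit 389) (nat_lit 3) (nat_lit 412) (nat_lit 5) (nat_lit 440) (nat_lit 439) (nat_lit 261)) (XT.nd (nat_lit 78) (nat_lit 0) (nat_lit 0) (XT.lf (nat_lit 0) (nat_lit 3264444404) (nat_lit 1672) (nat_lit 6486486661) (nat_lit 1748) (nat_lit 3888801859) (nat_lit 390) (nat_lit 5) (nat_lit 412) (nat_lit 5) (nat_lit 413) (nat_lit 5) (nat_lit 441) (nat_lit 439) (nat_lit 260)) (XT.lf (nat_lit 0) (nat_lit 3732811773) (nat_lit 1672) (nat_lit 104094773) (nat_lit 1748) (nat_lit 9933011013) (nat_lit 390) (nat_lit 5) (nat_lit 412) (nat_lit 5) (nat_lit 413) (nat_lit 5) (nat_lit 442) (nat_lit 439) (nat_lit 259))))) (XT.nd (nat_lit 156) (nat_lit 0) (nat_lit 76) (XT.nd (nat_lit 78) (nat_lit 0) (nat_lit 0) (XT.lf (nat_lit 0) (nat_lit 4258005717) (nat_lit 1672) (nat_lit 7430585582) (nat_lit 1748) (nat_lit 2213170920) (nat_lit 391) (nat_lit 5) (nat_lit 413) (nat_lit 5) (nat_lit 414) (nat_lit 5) (nat_lit 443) (nat_lit 439)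 (nat_lit 258)) (XT.lf (nat_lit 0) (nat_lit 4810779193) (nat_lit 1672) (nat_lit 887442732) (nat_lit 1748) (nat_lit 8337685748) (nat_lit 391) (nat_lit 5) (nat_lit 413) (nat_lit 5) (nat_lit 414) (nat_lit 5) (nat_lit 444) (nat_lit 439) (nat_lit 257))) (XT.nd (nat_lit 78) (nat_lit 0) (nat_lit 0) (XT.lf (nat_lit 0) (nat_lit 5406735299) (nat_lit 1672) (nat_lit 8316774581) (nat_lit 1748) (nat_lit 448588917) (nat_lit 392) (nat_lit 5) (nat_lit 414) (nat_lit 5) (nat_lit 415) (nat_lit 5) (nat_lit 445) (nat_lit 439) (nat_lit 256)) (XT.nd (nat_lit 78) (nat_lit 0) (nat_lit 0) (XT.lf (nat_lit 0) (nat_lit 6049646515) (nat_lit 1672) (nat_lit 1608926473) (nat_lit 1748) (nat_lit 6651745238) (nat_lit 392) (nat_lit 5) (nat_lit 414) (nat_lit 5) (nat_lit 415) (nat_lit 5) (nat_lit 446) (nat_lit 439) (nat_lit 255)) (XT.lf (nat_lit 76) (nat_lit 5297426026) (nat_lit 0) (nat_lit 1433859597) (nat_lit 1748) (nat_lit 7719504125) (nat_lit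 393) (nat_lit 5) (nat_lit 392) (nat_lit 5) (nat_lit 415) (nat_lit 5) (nat_lit 447) (nat_lit 439) (nat_lit 254)))))) (XT.nd (nat_lit 390) (nat_lit 1444) (nat_lit 0) (XT.nd (nat_lit 156) (nat_lit 0) (nat_lit 76) (XT.nd (nat_lit 78) (nat_lit 0) (nat_lit 0) (XT.lf (nat_lit 0) (nat_lit 7460970190) (nat_lit 1672) (nat_lit 2267414697) (nat_lit 1748) (nat_lit 4865002561) (nat_lit 393) (nat_lit 5) (nat_lit 415) (nat_lit 5) (nat_lit 416) (nat_lit 5) (nat_lit 448) (nat_lit 439) (nat_lit 253)) (XT.lf (nat_lit 76) (nat_lit 4804584534) (nat_lit 0) (nat_lit 3433149054) (nat_lit 1748) (nat_lit 6500458712) (nat_lit 394) (nat_lit 5) (nat_lit 393) (nat_lit 5) (nat_lit 416) (nat_lit 5) (nat_lit 449) (nat_lit 439) (nat_lit 252))) (XT.nd (nat_lit 78) (nat_lit 0) (nat_lit 0) (XT.lf (nat_lit 0) (nat_lit 9056689853) (nat_lit 1672) (nat_lit 2861667817) (nat_lit 1748) (nat_lit 2967007231) (nat_lit 394) (nat_lit 5) (nat_lit 416) (nat_lit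 5) (nat_lit 417) (nat_lit 5) (nat_lit 450) (nat_lit 439) (nat_lit 251)) (XT.nd (nat_lit 78) (nat_lit 0) (nat_lit 76) (XT.lf (nat_lit 76) (nat_lit 4381202510) (nat_lit 0) (nat_lit 5554103771) (nat_lit 1748) (nat_lit 5099313764) (nat_lit 395) (nat_lit 5) (nat_lit 394) (nat_lit 5) (nat_lit 417) (nat_lit 5) (nat_lit 451) (nat_lit 439) (nat_lit 250)) (XT.lf (nat_lit 0) (nat_lit 10849149167) (nat_lit 1672) (nat_lit 3390344083) (nat_lit 1748) (nat_lit 947018578) (nat_lit 395) (nat_lit 5) (nat_lit 417) (nat_lit 5) (nat_lit 418) (nat_lit 5) (nat_lit 452) (nat_lit 439) (nat_lit 249))))) (XT.nd (nat_lit 234) (nat_lit 1596) (nat_lit 0) (XT.nd (nat_lit 78) (nat_lit 0) (nat_lit 0) (XT.lf (nat_lit 76) (nat_lit 4028777086) (nat_lit 0) (nat_lit 7807820878) (nat_lit 1748) (nat_lit 3503741430) (nat_lit 396) (nat_lit 5) (nat_lit 395) (nat_lit 5) (nat_lit 418) (nat_lit 5) (nat_lit 453) (nat_lit 439) (nat_lit 248)) (XT.nd (nat_lit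 78) (nat_lit 0) (nat_lit 76) (XT.lf (nat_lit 76) (nat_lit 11637002613) (nat_lit 0) (nat_lit 1222048772) (nat_lit 1748) (nat_lit 2637891451) (nat_lit 396) (nat_lit 5) (nat_lit 395) (nat_lit 5) (nat_lit 418) (nat_lit 5) (nat_lit 454) (nat_lit 439) (nat_lit 247)) (XT.lf (nat_lit 76) (nat_lit 3748903682) (nat_lit 0) (nat_lit 10205736607) (nat_lit 1748) (nat_lit 1700988684) (nat_lit 397) (nat_lit 5) (nat_lit 396) (nat_lit 5) (nat_lit 419) (nat_lit 5) (nat_lit 455) (nat_lit 439) (nat_lit 246)))) (XT.nd (nat_lit 78) (nat_lit 1672) (nat_lit 0) (XT.lf (nat_lit 76) (nat_lit 11548783106) (nat_lit 0) (nat_lit 3550075529) (nat_lit 1748) (nat_lit 718100110) (nat_lit 397) (nat_lit 5) (nat_lit 396) (nat_lit 5) (nat_lit 419) (nat_lit 5) (nat_lit 456) (nat_lit 439) (nat_lit 245)) (XT.nd (nat_lit 78) (nat_lit 0) (nat_lit 0) (XT.lf (nat_lit 0) (nat_lit 317919144) (nat_lit 1748) (nat_lit 12439602168) (nat_lit 1824) (nat_lit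 3223216897) (nat_lit 374) (nat_lit 5) (nat_lit 397) (nat_lit 5) (nat_lit 398) (nat_lit 5) (nat_lit 457) (nat_lit 439) (nat_lit 244)) (XT.lf (nat_lit 0) (nat_lit 1410378158) (nat_lit 1748) (nat_lit 4616566636) (nat_lit 1824) (nat_lit 10119850860) (nat_lit 374) (nat_lit 5) (nat_lit 397) (nat_lit 5) (nat_lit 398) (nat_lit 5) (nat_lit 458) (nat_lit 439) (nat_lit 243))))))))
noncomputable def xc229 : XT := (XT.nd (nat_lit 1560) (nat_lit 6080) (nat_lit 0) (XT.nd (nat_lit 780) (nat_lit 4180) (nat_lit 0) (XT.nd (nat_lit 390) (nat_lit 2508) (nat_lit 0) (XT.nd (nat_lit 156) (nat_lit 0) (nat_lit 0) (XT.nd (nat_lit 78) (nat_lit 0) (nat_lit 0) (XT.lf (nat_lit 0) (nat_lit 2545496813) (nat_lit 1748) (nat_lit 12919197193) (nat_lit 1824) (nat_lit 851067976) (nat_lit 375) (nat_lit 5) (nat_lit 398) (nat_lit 5) (nat_lit 399) (nat_lit 5) (nat_lit 459) (nat_lit 439) (nat_lit 242)) (XT.lf (nat_lit 0) (nat_lit 3767648463) (nat_lit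 1748) (nat_lit 4900458984) (nat_lit 1824) (nat_lit 7818717440) (nat_lit 375) (nat_lit 5) (nat_lit 398) (nat_lit 5) (nat_lit 399) (nat_lit 5) (nat_lit 460) (nat_lit 439) (nat_lit 241))) (XT.nd (nat_lit 78) (nat_lit 0) (nat_lit 76) (XT.lf (nat_lit 76) (nat_lit 3316871178) (nat_lit 0) (nat_lit 1712272322) (nat_lit 1824) (nat_lit 11631871333) (nat_lit 376) (nat_lit 5) (nat_lit 375) (nat_lit 5) (nat_lit 399) (nat_lit 5) (nat_lit 461) (nat_lit 439) (nat_lit 240)) (XT.nd (nat_lit 78) (nat_lit 0) (nat_lit 0) (XT.lf (nat_lit 0) (nat_lit 6377388214) (nat_lit 1748) (nat_lit 5113613909) (nat_lit 1824) (nat_lit 5346459773) (nat_lit 376) (nat_lit 5) (nat_lit 399) (nat_lit 5) (nat_lit 400) (nat_lit 5) (nat_lit 462) (nat_lit 439) (nat_lit 239)) (XT.lf (nat_lit 76) (nat_lit 3308289143) (nat_lit 0) (nat_lit 4470725302) (nat_lit 1824) (nat_lit 9237898766) (nat_lit 377) (nat_lit 5) (nat_lit 376) (nat_lit 5) (nat_lit 400) (nat_lit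 5) (nat_lit 463) (nat_lit 439) (nat_lit 238))))) (XT.nd (nat_lit 156) (nat_lit 912) (nat_lit 0) (XT.nd (nat_lit 78) (nat_lit 1748) (nat_lit 0) (XT.lf (nat_lit 0) (nat_lit 9254376263) (nat_lit 1748) (nat_lit 5254401282) (nat_lit 76) (nat_lit 2690265516) (nat_lit 377) (nat_lit 5) (nat_lit 400) (nat_lit 5) (nat_lit 378) (nat_lit 5) (nat_lit 464) (nat_lit 439) (nat_lit 237)) (XT.lf (nat_lit 0) (nat_lit 3378323043) (nat_lit 1748) (nat_lit 7426283435) (nat_lit 1824) (nat_lit 6579305307) (nat_lit 354) (nat_lit 5) (nat_lit 377) (nat_lit 5) (nat_lit 378) (nat_lit 5) (nat_lit 465) (nat_lit 439) (nat_lit 236))) (XT.nd (nat_lit 78) (nat_lit 912) (nat_lit 0) (XT.lf (nat_lit 0) (nat_lit 12249678625) (nat_lit 1748) (nat_lit 165328982) (nat_lit 1824) (nat_lit 5156890382) (nat_lit 354) (nat_lit 5) (nat_lit 377) (nat_lit 5) (nat_lit 378) (nat_lit 5) (nat_lit 466) (nat_lit 439) (nat_lit 235)) (XT.nd (nat_lit 78) (nat_lit 0)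 (nat_lit 0) (XT.lf (nat_lit 0) (nat_lit 3528812702) (nat_lit 912) (nat_lit 10592759186) (nat_lit 988) (nat_lit 3640796290) (nat_lit 342) (nat_lit 5) (nat_lit 354) (nat_lit 5) (nat_lit 355) (nat_lit 5) (nat_lit 467) (nat_lit 439) (nat_lit 234)) (XT.lf (nat_lit 0) (nat_lit 12622661396) (nat_lit 912) (nat_lit 3270523034) (nat_lit 988) (nat_lit 2062848300) (nat_lit 342) (nat_lit 5) (nat_lit 354) (nat_lit 5) (nat_lit 355) (nat_lit 5) (nat_lit 468) (nat_lit 439) (nat_lit 233)))))) (XT.nd (nat_lit 390) (nat_lit 1520) (nat_lit 0) (XT.nd (nat_lit 156) (nat_lit 1672) (nat_lit 0) (XT.nd (nat_lit 78) (nat_lit 76) (nat_lit 0) (XT.lf (nat_lit 0) (nat_lit 3761635094) (nat_lit 912) (nat_lit 13984508299) (nat_lit 988) (nat_lit 406512132) (nat_lit 330) (nat_lit 5) (nat_lit 342) (nat_lit 5) (nat_lit 343) (nat_lit 5) (nat_lit 469) (nat_lit 439) (nat_lit 232)) (XT.lf (nat_lit 0) (nat_lit 1318082734) (nat_lit 988) (nat_lit 5277187275)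 (nat_lit 76) (nat_lit 11756738115) (nat_lit 329) (nat_lit 5) (nat_lit 342) (nat_lit 5) (nat_lit 330) (nat_lit 5) (nat_lit 470) (nat_lit 439) (nat_lit 231))) (XT.nd (nat_lit 78) (nat_lit 836) (nat_lit 0) (XT.lf (nat_lit 0) (nat_lit 3098814097) (nat_lit 912) (nat_lit 14496855730) (nat_lit 76) (nat_lit 959085500) (nat_lit 318) (nat_lit 5) (nat_lit 330) (nat_lit 5) (nat_lit 319) (nat_lit 5) (nat_lit 471) (nat_lit 439) (nat_lit 230)) (XT.nd (nat_lit 78) (nat_lit 836) (nat_lit 0) (XT.lf (nat_lit 0) (nat_lit 4988948169) (nat_lit 912) (nat_lit 5158820473) (nat_lit 76) (nat_lit 8612316058) (nat_lit 318) (nat_lit 5) (nat_lit 330) (nat_lit 5) (nat_lit 319) (nat_lit 5) (nat_lit 472) (nat_lit 439) (nat_lit 229)) (XT.lf (nat_lit 0) (nat_lit 4418750430) (nat_lit 836) (nat_lit 2521396079) (nat_lit 912) (nat_lit 12028911848) (nat_lit 307) (nat_lit 5) (nat_lit 318) (nat_lit 5) (nat_lit 319) (nat_lit 5) (nat_lit 473) (nat_lit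 439) (nat_lit 228))))) (XT.nd (nat_lit 156) (nat_lit 760) (nat_lit 0) (XT.nd (nat_lit 78) (nat_lit 760) (nat_lit 0) (XT.lf (nat_lit 0) (nat_lit 8993998213) (nat_lit 912) (nat_lit 4963336701) (nat_lit 76) (nat_lit 5223606857) (nat_lit 307) (nat_lit 5) (nat_lit 319) (nat_lit 5) (nat_lit 308) (nat_lit 5) (nat_lit 474) (nat_lit 439) (nat_lit 227)) (XT.lf (nat_lit 0) (nat_lit 4857227374) (nat_lit 760) (nat_lit 6274685407) (nat_lit 836) (nat_lit 8264293170) (nat_lit 297) (nat_lit 5) (nat_lit 307) (nat_lit 5) (nat_lit 308) (nat_lit 5) (nat_lit 475) (nat_lit 439) (nat_lit 226))) (XT.nd (nat_lit 78) (nat_lit 760) (nat_lit 0) (XT.lf (nat_lit 0) (nat_lit 13351073449) (nat_lit 836) (nat_lit 4689211680) (nat_lit 76) (nat_lit 1574723291) (nat_lit 297) (nat_lit 5) (nat_lit 308) (nat_lit 5) (nat_lit 298) (nat_lit 5) (nat_lit 476) (nat_lit 439) (nat_lit 225)) (XT.nd (nat_lit 78) (nat_lit 0) (nat_lit 0) (XT.lf (nat_lit 0)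 (nat_lit 5381452680) (nat_lit 760) (nat_lit 10304581932) (nat_lit 836) (nat_lit 4150726686) (nat_lit 287) (nat_lit 5) (nat_lit 297) (nat_lit 5) (nat_lit 298) (nat_lit 5) (nat_lit 477) (nat_lit 439) (nat_lit 224)) (XT.lf (nat_lit 0) (nat_lit 15712005140) (nat_lit 760) (nat_lit 2382146560) (nat_lit 836) (nat_lit 1968271052) (nat_lit 287) (nat_lit 5) (nat_lit 297) (nat_lit 5) (nat_lit 298) (nat_lit 5) (nat_lit 478) (nat_lit 439) (nat_lit 223))))))) (XT.nd (nat_lit 780) (nat_lit 2432) (nat_lit 0) (XT.nd (nat_lit 390) (nat_lit 1368) (nat_lit 0) (XT.nd (nat_lit 156) (nat_lit 1444) (nat_lit 0) (XT.nd (nat_lit 78) (nat_lit 0) (nat_lit 0) (XT.lf (nat_lit 0) (nat_lit 325918196) (nat_lit 836) (nat_lit 14300241940) (nat_lit 76) (nat_lit 5664977047) (nat_lit 276) (nat_lit 5) (nat_lit 287) (nat_lit 5) (nat_lit 277) (nat_lit 5) (nat_lit 479) (nat_lit 439) (nat_lit 222)) (XT.lf (nat_lit 0) (nat_lit 2679939688) (nat_lit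 836) (nat_lit 3959963840) (nat_lit 76) (nat_lit 13883458599) (nat_lit 276) (nat_lit 5) (nat_lit 287) (nat_lit 5) (nat_lit 277) (nat_lit 5) (nat_lit 480) (nat_lit 439) (nat_lit 221))) (XT.nd (nat_lit 78) (nat_lit 684) (nat_lit 0) (XT.lf (nat_lit 0) (nat_lit 5129620589) (nat_lit 836) (nat_lit 14099957717) (nat_lit 76) (nat_lit 1529684133) (nat_lit 266) (nat_lit 5) (nat_lit 277) (nat_lit 5) (nat_lit 267) (nat_lit 5) (nat_lit 481) (nat_lit 439) (nat_lit 220)) (XT.nd (nat_lit 78) (nat_lit 684) (nat_lit 0) (XT.lf (nat_lit 0) (nat_lit 7694289179) (nat_lit 836) (nat_lit 3503946035) (nat_lit 76) (nat_lit 9800328065) (nat_lit 266) (nat_lit 5) (nat_lit 277) (nat_lit 5) (nat_lit 267) (nat_lit 5) (nat_lit 482) (nat_lit 439) (nat_lit 219)) (XT.lf (nat_lit 0) (nat_lit 7396000562) (nat_lit 684) (nat_lit 2957634806) (nat_lit 760) (nat_lit 10888149439) (nat_lit 257) (nat_lit 5) (nat_lit 266) (nat_lit 5) (nat_lit 267) (nat_lit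 5) (nat_lit 483) (nat_lit 439) (nat_lit 218))))) (XT.nd (nat_lit 156) (nat_lit 684) (nat_lit 0) (XT.nd (nat_lit 78) (nat_lit 684) (nat_lit 0) (XT.lf (nat_lit 0) (nat_lit 13120628892) (nat_lit 760) (nat_lit 2968527606) (nat_lit 76) (nat_lit 5399627369) (nat_lit 257) (nat_lit 5) (nat_lit 267) (nat_lit 5) (nat_lit 258) (nat_lit 5) (nat_lit 484) (nat_lit 439) (nat_lit 217)) (XT.lf (nat_lit 0) (nat_lit 8209410165) (nat_lit 684) (nat_lit 7801950616) (nat_lit 760) (nat_lit 5727996421) (nat_lit 248) (nat_lit 5) (nat_lit 257) (nat_lit 5) (nat_lit 258) (nat_lit 5) (nat_lit 485) (nat_lit 439) (nat_lit 216))) (XT.nd (nat_lit 78) (nat_lit 684) (nat_lit 0) (XT.lf (nat_lit 0) (nat_lit 18979749931) (nat_lit 760) (nat_lit 2352756525) (nat_lit 76) (nat_lit 662040915) (nat_lit 248) (nat_lit 5) (nat_lit 258) (nat_lit 5) (nat_lit 249) (nat_lit 5) (nat_lit 486) (nat_lit 439) (nat_lit 215)) (XT.nd (nat_lit 78) (nat_lit 76) (nat_lit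 0) (XT.lf (nat_lit 0) (nat_lit 9110898211) (nat_lit 608) (nat_lit 13003081778) (nat_lit 684) (nat_lit 138734068) (nat_lit 240) (nat_lit 5) (nat_lit 248) (nat_lit 5) (nat_lit 249) (nat_lit 5) (nat_lit 487) (nat_lit 439) (nat_lit 214)) (XT.lf (nat_lit 0) (nat_lit 2769762091) (nat_lit 684) (nat_lit 1703190060) (nat_lit 76) (nat_lit 18042499767) (nat_lit 239) (nat_lit 5) (nat_lit 248) (nat_lit 5) (nat_lit 240) (nat_lit 5) (nat_lit 488) (nat_lit 439) (nat_lit 213)))))) (XT.nd (nat_lit 390) (nat_lit 532) (nat_lit 0) (XT.nd (nat_lit 156) (nat_lit 1216) (nat_lit 0) (XT.nd (nat_lit 78) (nat_lit 0) (nat_lit 0) (XT.lf (nat_lit 0) (nat_lit 5823732629) (nat_lit 760) (nat_lit 12719289066) (nat_lit 76) (nat_lit 4238623311) (nat_lit 230) (nat_lit 5) (nat_lit 240) (nat_lit 5) (nat_lit 231) (nat_lit 5) (nat_lit 489) (nat_lit 439) (nat_lit 212)) (XT.lf (nat_lit 0) (nat_lit 8975716318) (nat_lit 760) (nat_lit 1001214030) (nat_lit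 76) (nat_lit 13075494941) (nat_lit 230) (nat_lit 5) (nat_lit 240) (nat_lit 5) (nat_lit 231) (nat_lit 5) (nat_lit 490) (nat_lit 439) (nat_lit 211))) (XT.nd (nat_lit 78) (nat_lit 608) (nat_lit 0) (XT.lf (nat_lit 0) (nat_lit 11091907791) (nat_lit 608) (nat_lit 1166736687) (nat_lit 684) (nat_lit 11068620577) (nat_lit 222) (nat_lit 5) (nat_lit 230) (nat_lit 5) (nat_lit 231) (nat_lit 5) (nat_lit 491) (nat_lit 439) (nat_lit 210)) (XT.nd (nat_lit 78) (nat_lit 608) (nat_lit 0) (XT.lf (nat_lit 0) (nat_lit 15660698797) (nat_lit 684) (nat_lit 222652635) (nat_lit 76) (nat_lit 7723182763) (nat_lit 222) (nat_lit 5) (nat_lit 231) (nat_lit 5) (nat_lit 223) (nat_lit 5) (nat_lit 492) (nat_lit 439) (nat_lit 209)) (XT.lf (nat_lit 0) (nat_lit 12177550667) (nat_lit 608) (nat_lit 7036048733) (nat_lit 684) (nat_lit 4676135110) (nat_lit 214) (nat_lit 5) (nat_lit 222) (nat_lit 5) (nat_lit 223) (nat_lit 5) (nat_lit 493) (nat_lit 439)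 (nat_lit 208))))) (XT.nd (nat_lit 55302) (nat_lit 0) (nat_lit 13908) (XT.nd (nat_lit 55146) (nat_lit 0) (nat_lit 13832) (XT.lf (nat_lit 0) (nat_lit 640910342) (nat_lit 532) (nat_lit 22211277937) (nat_lit 608) (nat_lit 1326119803) (nat_lit 207) (nat_lit 5) (nat_lit 214) (nat_lit 5) (nat_lit 215) (nat_lit 5) (nat_lit 494) (nat_lit 439) (nat_lit 207)) (XT.nd (nat_lit 78) (nat_lit 0) (nat_lit 0) (XT.lf (nat_lit 0) (nat_lit 1594648131) (nat_lit 1748) (nat_lit 2612313571) (nat_lit 1748) (nat_lit 2612313571) (nat_lit 389) (nat_lit 3) (nat_lit 412) (nat_lit 3) (nat_lit 412) (nat_lit 5) (nat_lit 440) (nat_lit 440) (nat_lit 260)) (XT.lf (nat_lit 76) (nat_lit 1132941593) (nat_lit 0) (nat_lit 2446756121) (nat_lit 1748) (nat_lit 10187857740) (nat_lit 390) (nat_lit 5) (nat_lit 389) (nat_lit 3) (nat_lit 412) (nat_lit 5) (nat_lit 441) (nat_lit 440) (nat_lit 259)))) (XT.nd (nat_lit 78) (nat_lit 0) (nat_lit 0) (XT.lf (nat_lit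 0) (nat_lit 4027618375) (nat_lit 1672) (nat_lit 6238802444) (nat_lit 1748) (nat_lit 3631730935) (nat_lit 390) (nat_lit 5) (nat_lit 412) (nat_lit 5) (nat_lit 413) (nat_lit 5) (nat_lit 442) (nat_lit 440) (nat_lit 258)) (XT.nd (nat_lit 78) (nat_lit 0) (nat_lit 76) (XT.lf (nat_lit 76) (nat_lit 267343262) (nat_lit 0) (nat_lit 4226061577) (nat_lit 1748) (nat_lit 9537782406) (nat_lit 391) (nat_lit 5) (nat_lit 390) (nat_lit 5) (nat_lit 413) (nat_lit 5) (nat_lit 443) (nat_lit 440) (nat_lit 257)) (XT.lf (nat_lit 0) (nat_lit 5014353645) (nat_lit 1672) (nat_lit 7195768480) (nat_lit 1748) (nat_lit 1955849692) (nat_lit 391) (nat_lit 5) (nat_lit 413) (nat_lit 5) (nat_lit 414) (nat_lit 5) (nat_lit 444) (nat_lit 440) (nat_lit 256))))))))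
noncomputable def xc230 : XT := (XT.nd (nat_lit 1560) (nat_lit 8892) (nat_lit 0) (XT.nd (nat_lit 780) (nat_lit 1292) (nat_lit 0) (XT.nd (nat_lit 390) (nat_lit 0) (nat_lit 152) (XT.nd (nat_lit 156) (nat_lit 0) (nat_lit 76) (XT.nd (nat_lit 78) (nat_lit 0) (nat_lit 76) (XT.lf (nat_lit 0) (nat_lit 5565022046) (nat_lit 1672) (nat_lit 529280985) (nat_lit 1748) (nat_lit 8208768241) (nat_lit 391) (nat_lit 5) (nat_lit 413) (nat_lit 5) (nat_lit 414) (nat_lit 5) (nat_lit 445) (nat_lit 440) (nat_lit 255)) (XT.lf (nat_lit 0) (nat_lit 6160639666) (nat_lit 1672) (nat_lit 8094555580) (nat_lit 1748) (nat_lit 187043850) (nat_lit 392) (nat_lit 5) (nat_lit 414) (nat_lit 5) (nat_lit 415) (nat_lit 5) (nat_lit 446) (nat_lit 440) (nat_lit 254))) (XT.nd (nat_lit 78) (nat_lit 0) (nat_lit 0) (XT.lf (nat_lit 0) (nat_lit 6803746956) (nat_lit 1672) (nat_lit 1260169225) (nat_lit 1748) (nat_lit 6519567549) (nat_lit 392) (nat_lit 5) (nat_lit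 414) (nat_lit 5) (nat_lit 415) (nat_lit 5) (nat_lit 447) (nat_lit 440) (nat_lit 253)) (XT.nd (nat_lit 78) (nat_lit 0) (nat_lit 76) (XT.lf (nat_lit 76) (nat_lit 5781804168) (nat_lit 0) (nat_lit 1707257823) (nat_lit 1748) (nat_lit 7237909256) (nat_lit 393) (nat_lit 5) (nat_lit 392) (nat_lit 5) (nat_lit 415) (nat_lit 5) (nat_lit 448) (nat_lit 440) (nat_lit 252)) (XT.lf (nat_lit 0) (nat_lit 8219563871) (nat_lit 1672) (nat_lit 1927613178) (nat_lit 1748) (nat_lit 4725526658) (nat_lit 393) (nat_lit 5) (nat_lit 415) (nat_lit 5) (nat_lit 416) (nat_lit 5) (nat_lit 449) (nat_lit 440) (nat_lit 251))))) (XT.nd (nat_lit 156) (nat_lit 0) (nat_lit 76) (XT.nd (nat_lit 78) (nat_lit 0) (nat_lit 76) (XT.lf (nat_lit 76) (nat_lit 5283292157) (nat_lit 0) (nat_lit 3719106061) (nat_lit 1748) (nat_lit 6018202862) (nat_lit 394) (nat_lit 5) (nat_lit 393) (nat_lit 5) (nat_lit 416) (nat_lit 5) (nat_lit 450) (nat_lit 440) (nat_lit 250))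 (XT.lf (nat_lit 0) (nat_lit 9824587514) (nat_lit 1672) (nat_lit 2530291550) (nat_lit 1748) (nat_lit 2816107988) (nat_lit 394) (nat_lit 5) (nat_lit 416) (nat_lit 5) (nat_lit 417) (nat_lit 5) (nat_lit 451) (nat_lit 440) (nat_lit 249))) (XT.nd (nat_lit 78) (nat_lit 0) (nat_lit 76) (XT.lf (nat_lit 76) (nat_lit 4854879541) (nat_lit 0) (nat_lit 5856898068) (nat_lit 1748) (nat_lit 4611636524) (nat_lit 395) (nat_lit 5) (nat_lit 394) (nat_lit 5) (nat_lit 417) (nat_lit 5) (nat_lit 452) (nat_lit 440) (nat_lit 248)) (XT.nd (nat_lit 78) (nat_lit 0) (nat_lit 0) (XT.lf (nat_lit 0) (nat_lit 11631348307) (nat_lit 1672) (nat_lit 3066782321) (nat_lit 1748) (nat_lit 780470830) (nat_lit 395) (nat_lit 5) (nat_lit 417) (nat_lit 5) (nat_lit 418) (nat_lit 5) (nat_lit 453) (nat_lit 440) (nat_lit 247)) (XT.lf (nat_lit 76) (nat_lit 4498146478) (nat_lit 0) (nat_lit 8131841240) (nat_lit 1748) (nat_lit 3005695618) (nat_lit 396) (nat_lit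 5) (nat_lit 395) (nat_lit 5) (nat_lit 418) (nat_lit 5) (nat_lit 454) (nat_lit 440) (nat_lit 246)))))) (XT.nd (nat_lit 390) (nat_lit 0) (nat_lit 76) (XT.nd (nat_lit 156) (nat_lit 1596) (nat_lit 0) (XT.nd (nat_lit 78) (nat_lit 0) (nat_lit 76) (XT.lf (nat_lit 76) (nat_lit 12250913107) (nat_lit 0) (nat_lit 1411062242) (nat_lit 1748) (nat_lit 2133668261) (nat_lit 396) (nat_lit 5) (nat_lit 395) (nat_lit 5) (nat_lit 418) (nat_lit 5) (nat_lit 455) (nat_lit 440) (nat_lit 245)) (XT.lf (nat_lit 76) (nat_lit 4214770129) (nat_lit 0) (nat_lit 10555495403) (nat_lit 1748) (nat_lit 1187428484) (nat_lit 397) (nat_lit 5) (nat_lit 396) (nat_lit 5) (nat_lit 419) (nat_lit 5) (nat_lit 456) (nat_lit 440) (nat_lit 244))) (XT.nd (nat_lit 78) (nat_lit 1672) (nat_lit 0) (XT.lf (nat_lit 76) (nat_lit 12162982664) (nat_lit 0) (nat_lit 3763865337) (nat_lit 1748) (nat_lit 195619001) (nat_lit 397) (nat_lit 5) (nat_lit 396) (nat_lit 5) (nat_lit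 419) (nat_lit 5) (nat_lit 457) (nat_lit 440) (nat_lit 243)) (XT.nd (nat_lit 78) (nat_lit 0) (nat_lit 0) (XT.lf (nat_lit 0) (nat_lit 845341131) (nat_lit 1748) (nat_lit 12288787615) (nat_lit 1824) (nat_lit 3155504345) (nat_lit 374) (nat_lit 5) (nat_lit 397) (nat_lit 5) (nat_lit 398) (nat_lit 5) (nat_lit 458) (nat_lit 440) (nat_lit 242)) (XT.lf (nat_lit 0) (nat_lit 1949432392) (nat_lit 1748) (nat_lit 4317126796) (nat_lit 1824) (nat_lit 10192662691) (nat_lit 374) (nat_lit 5) (nat_lit 397) (nat_lit 5) (nat_lit 398) (nat_lit 5) (nat_lit 459) (nat_lit 440) (nat_lit 241))))) (XT.nd (nat_lit 156) (nat_lit 0) (nat_lit 0) (XT.nd (nat_lit 78) (nat_lit 0) (nat_lit 0) (XT.lf (nat_lit 0) (nat_lit 3099022499) (nat_lit 1748) (nat_lit 12777292028) (nat_lit 1824) (nat_lit 755423365) (nat_lit 375) (nat_lit 5) (nat_lit 398) (nat_lit 5) (nat_lit 399) (nat_lit 5) (nat_lit 460) (nat_lit 440) (nat_lit 240)) (XT.lf (nat_lit 0) (nat_lit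 4335761971) (nat_lit 1748) (nat_lit 4606027861) (nat_lit 1824) (nat_lit 7864634955) (nat_lit 375) (nat_lit 5) (nat_lit 398) (nat_lit 5) (nat_lit 399) (nat_lit 5) (nat_lit 461) (nat_lit 440) (nat_lit 239))) (XT.nd (nat_lit 78) (nat_lit 0) (nat_lit 76) (XT.lf (nat_lit 76) (nat_lit 3773067059) (nat_lit 0) (nat_lit 1842289097) (nat_lit 1824) (nat_lit 11368890508) (nat_lit 376) (nat_lit 5) (nat_lit 375) (nat_lit 5) (nat_lit 399) (nat_lit 5) (nat_lit 462) (nat_lit 440) (nat_lit 238)) (XT.nd (nat_lit 78) (nat_lit 0) (nat_lit 0) (XT.lf (nat_lit 0) (nat_lit 6980433994) (nat_lit 1748) (nat_lit 4823269781) (nat_lit 1824) (nat_lit 5360726939) (nat_lit 376) (nat_lit 5) (nat_lit 399) (nat_lit 5) (nat_lit 400) (nat_lit 5) (nat_lit 463) (nat_lit 440) (nat_lit 237)) (XT.lf (nat_lit 76) (nat_lit 3764488330) (nat_lit 0) (nat_lit 4638813285) (nat_lit 1824) (nat_lit 8944310566) (nat_lit 377) (nat_lit 5) (nat_lit 376) (nat_lit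 5) (nat_lit 400) (nat_lit 5) (nat_lit 464) (nat_lit 440) (nat_lit 236))))))) (XT.nd (nat_lit 780) (nat_lit 3800) (nat_lit 0) (XT.nd (nat_lit 390) (nat_lit 2660) (nat_lit 0) (XT.nd (nat_lit 156) (nat_lit 912) (nat_lit 0) (XT.nd (nat_lit 78) (nat_lit 1748) (nat_lit 0) (XT.lf (nat_lit 0) (nat_lit 9898479553) (nat_lit 1748) (nat_lit 4967152544) (nat_lit 76) (nat_lit 2667951551) (nat_lit 377) (nat_lit 5) (nat_lit 400) (nat_lit 5) (nat_lit 378) (nat_lit 5) (nat_lit 465) (nat_lit 440) (nat_lit 235)) (XT.lf (nat_lit 0) (nat_lit 3835645104) (nat_lit 1748) (nat_lit 7637599511) (nat_lit 1824) (nat_lit 6249039624) (nat_lit 354) (nat_lit 5) (nat_lit 377) (nat_lit 5) (nat_lit 378) (nat_lit 5) (nat_lit 466) (nat_lit 440) (nat_lit 234))) (XT.nd (nat_lit 78) (nat_lit 912) (nat_lit 0) (XT.lf (nat_lit 0) (nat_lit 12876785531) (nat_lit 1748) (nat_lit 230194784) (nat_lit 1824) (nat_lit 4807232318) (nat_lit 354) (nat_lit 5) (nat_lit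 377) (nat_lit 5) (nat_lit 378) (nat_lit 5) (nat_lit 467) (nat_lit 440) (nat_lit 233)) (XT.nd (nat_lit 78) (nat_lit 0) (nat_lit 0) (XT.lf (nat_lit 0) (nat_lit 3988448733) (nat_lit 912) (nat_lit 10852661876) (nat_lit 988) (nat_lit 3267517823) (nat_lit 342) (nat_lit 5) (nat_lit 354) (nat_lit 5) (nat_lit 355) (nat_lit 5) (nat_lit 468) (nat_lit 440) (nat_lit 232)) (XT.lf (nat_lit 0) (nat_lit 13256545778) (nat_lit 912) (nat_lit 3383038893) (nat_lit 988) (nat_lit 1666757822) (nat_lit 342) (nat_lit 5) (nat_lit 354) (nat_lit 5) (nat_lit 355) (nat_lit 5) (nat_lit 469) (nat_lit 440) (nat_lit 231))))) (XT.nd (nat_lit 156) (nat_lit 1672) (nat_lit 0) (XT.nd (nat_lit 78) (nat_lit 0) (nat_lit 0) (XT.lf (nat_lit 0) (nat_lit 16178183) (nat_lit 988) (nat_lit 14282286271) (nat_lit 76) (nat_lit 4208559539) (nat_lit 329) (nat_lit 5) (nat_lit 342) (nat_lit 5) (nat_lit 330) (nat_lit 5) (nat_lit 470) (nat_lit 440) (nat_lit 230))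 (XT.lf (nat_lit 0) (nat_lit 1761486005) (nat_lit 988) (nat_lit 4996591378) (nat_lit 76) (nat_lit 11952403762) (nat_lit 329) (nat_lit 5) (nat_lit 342) (nat_lit 5) (nat_lit 330) (nat_lit 5) (nat_lit 471) (nat_lit 440) (nat_lit 229))) (XT.nd (nat_lit 78) (nat_lit 836) (nat_lit 0) (XT.lf (nat_lit 0) (nat_lit 3571965082) (nat_lit 912) (nat_lit 14394564416) (nat_lit 76) (nat_lit 950875570) (nat_lit 318) (nat_lit 5) (nat_lit 330) (nat_lit 5) (nat_lit 319) (nat_lit 5) (nat_lit 472) (nat_lit 440) (nat_lit 228)) (XT.nd (nat_lit 78) (nat_lit 836) (nat_lit 0) (XT.lf (nat_lit 0) (nat_lit 5491839586) (nat_lit 912) (nat_lit 4877459208) (nat_lit 76) (nat_lit 8757707830) (nat_lit 318) (nat_lit 5) (nat_lit 330) (nat_lit 5) (nat_lit 319) (nat_lit 5) (nat_lit 473) (nat_lit 440) (nat_lit 227)) (XT.lf (nat_lit 0) (nat_lit 4889133261) (nat_lit 836) (nat_lit 2587504715) (nat_lit 912) (nat_lit 11863634522) (nat_lit 307) (nat_lit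 5) (nat_lit 318) (nat_lit 5) (nat_lit 319) (nat_lit 5) (nat_lit 474) (nat_lit 440) (nat_lit 226)))))) (XT.nd (nat_lit 390) (nat_lit 2280) (nat_lit 0) (XT.nd (nat_lit 156) (nat_lit 760) (nat_lit 0) (XT.nd (nat_lit 78) (nat_lit 760) (nat_lit 0) (XT.lf (nat_lit 0) (nat_lit 9563669086) (nat_lit 912) (nat_lit 4679979260) (nat_lit 76) (nat_lit 5312907368) (nat_lit 307) (nat_lit 5) (nat_lit 319) (nat_lit 5) (nat_lit 308) (nat_lit 5) (nat_lit 475) (nat_lit 440) (nat_lit 225)) (XT.lf (nat_lit 0) (nat_lit 5334478832) (nat_lit 760) (nat_lit 6404688061) (nat_lit 836) (nat_lit 8037065886) (nat_lit 297) (nat_lit 5) (nat_lit 307) (nat_lit 5) (nat_lit 308) (nat_lit 5) (nat_lit 476) (nat_lit 440) (nat_lit 224))) (XT.nd (nat_lit 78) (nat_lit 760) (nat_lit 0) (XT.lf (nat_lit 0) (nat_lit 13995140585) (nat_lit 836) (nat_lit 4402570936) (nat_lit 76) (nat_lit 1601855199) (nat_lit 297) (nat_lit 5) (nat_lit 308) (nat_lit 5) (nat_lit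 298) (nat_lit 5) (nat_lit 477) (nat_lit 440) (nat_lit 223)) (XT.nd (nat_lit 78) (nat_lit 0) (nat_lit 0) (XT.lf (nat_lit 0) (nat_lit 5867003916) (nat_lit 760) (nat_lit 10504857725) (nat_lit 836) (nat_lit 3853995741) (nat_lit 287) (nat_lit 5) (nat_lit 297) (nat_lit 5) (nat_lit 298) (nat_lit 5) (nat_lit 478) (nat_lit 440) (nat_lit 222)) (XT.lf (nat_lit 0) (nat_lit 16396757186) (nat_lit 760) (nat_lit 2424087682) (nat_lit 836) (nat_lit 1635336984) (nat_lit 287) (nat_lit 5) (nat_lit 297) (nat_lit 5) (nat_lit 298) (nat_lit 5) (nat_lit 479) (nat_lit 440) (nat_lit 221))))) (XT.nd (nat_lit 234) (nat_lit 684) (nat_lit 0) (XT.nd (nat_lit 78) (nat_lit 760) (nat_lit 0) (XT.lf (nat_lit 0) (nat_lit 695139554) (nat_lit 836) (nat_lit 14205763324) (nat_lit 76) (nat_lit 5788617337) (nat_lit 276) (nat_lit 5) (nat_lit 287) (nat_lit 5) (nat_lit 277) (nat_lit 5) (nat_lit 480) (nat_lit 440) (nat_lit 220)) (XT.nd (nat_lit 78) (nat_lit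 760) (nat_lit 0) (XT.lf (nat_lit 0) (nat_lit 3089129652) (nat_lit 836) (nat_lit 3666140121) (nat_lit 76) (nat_lit 14171265760) (nat_lit 276) (nat_lit 5) (nat_lit 287) (nat_lit 5) (nat_lit 277) (nat_lit 5) (nat_lit 481) (nat_lit 440) (nat_lit 219)) (XT.lf (nat_lit 0) (nat_lit 5583364668) (nat_lit 836) (nat_lit 14004315929) (nat_lit 76) (nat_lit 1579565614) (nat_lit 266) (nat_lit 5) (nat_lit 277) (nat_lit 5) (nat_lit 267) (nat_lit 5) (nat_lit 482) (nat_lit 440) (nat_lit 218)))) (XT.nd (nat_lit 78) (nat_lit 684) (nat_lit 0) (XT.lf (nat_lit 0) (nat_lit 8192441303) (nat_lit 836) (nat_lit 3203788737) (nat_lit 76) (nat_lit 10015244233) (nat_lit 266) (nat_lit 5) (nat_lit 277) (nat_lit 5) (nat_lit 267) (nat_lit 5) (nat_lit 483) (nat_lit 440) (nat_lit 217)) (XT.nd (nat_lit 78) (nat_lit 0) (nat_lit 0) (XT.lf (nat_lit 0) (nat_lit 7911721026) (nat_lit 684) (nat_lit 2988891074) (nat_lit 760) (nat_lit 10759038809) (nat_lit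 257) (nat_lit 5) (nat_lit 266) (nat_lit 5) (nat_lit 267) (nat_lit 5) (nat_lit 484) (nat_lit 440) (nat_lit 216)) (XT.lf (nat_lit 0) (nat_lit 13716458280) (nat_lit 760) (nat_lit 2660654113) (nat_lit 76) (nat_lit 5534610663) (nat_lit 257) (nat_lit 5) (nat_lit 267) (nat_lit 5) (nat_lit 258) (nat_lit 5) (nat_lit 485) (nat_lit 440) (nat_lit 215))))))))
noncomputable def xc231 : XT := (XT.nd (nat_lit 56784) (nat_lit 0) (nat_lit 7904) (XT.nd (nat_lit 56004) (nat_lit 0) (nat_lit 13376) (XT.nd (nat_lit 390) (nat_lit 1216) (nat_lit 0) (XT.nd (nat_lit 156) (nat_lit 1368) (nat_lit 0) (XT.nd (nat_lit 78) (nat_lit 0) (nat_lit 0) (XT.lf (nat_lit 0) (nat_lit 8738426333) (nat_lit 684) (nat_lit 7922409594) (nat_lit 760) (nat_lit 5506558606) (nat_lit 248) (nat_lit 5) (nat_lit 257) (nat_lit 5) (nat_lit 258) (nat_lit 5) (nat_lit 486) (nat_lit 440) (nat_lit 214)) (XT.lf (nat_lit 0) (nat_lit 19682363498) (nat_lit 760) (nat_lit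 2035746196) (nat_lit 76) (nat_lit 709706632) (nat_lit 248) (nat_lit 5) (nat_lit 258) (nat_lit 5) (nat_lit 249) (nat_lit 5) (nat_lit 487) (nat_lit 440) (nat_lit 213))) (XT.nd (nat_lit 78) (nat_lit 684) (nat_lit 0) (XT.lf (nat_lit 0) (nat_lit 181649414) (nat_lit 684) (nat_lit 13037637819) (nat_lit 76) (nat_lit 9471918091) (nat_lit 239) (nat_lit 5) (nat_lit 248) (nat_lit 5) (nat_lit 240) (nat_lit 5) (nat_lit 488) (nat_lit 440) (nat_lit 212)) (XT.nd (nat_lit 78) (nat_lit 684) (nat_lit 0) (XT.lf (nat_lit 0) (nat_lit 3140159540) (nat_lit 684) (nat_lit 1378336630) (nat_lit 76) (nat_lit 18440812443) (nat_lit 239) (nat_lit 5) (nat_lit 248) (nat_lit 5) (nat_lit 240) (nat_lit 5) (nat_lit 489) (nat_lit 440) (nat_lit 211)) (XT.lf (nat_lit 0) (nat_lit 6251642838) (nat_lit 760) (nat_lit 12611041653) (nat_lit 76) (nat_lit 4368215391) (nat_lit 230) (nat_lit 5) (nat_lit 240) (nat_lit 5) (nat_lit 231) (nat_lit 5) (nat_lit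 490) (nat_lit 440) (nat_lit 210))))) (XT.nd (nat_lit 156) (nat_lit 608) (nat_lit 0) (XT.nd (nat_lit 78) (nat_lit 608) (nat_lit 0) (XT.lf (nat_lit 0) (nat_lit 9460559622) (nat_lit 760) (nat_lit 665715571) (nat_lit 76) (nat_lit 13380945638) (nat_lit 230) (nat_lit 5) (nat_lit 240) (nat_lit 5) (nat_lit 231) (nat_lit 5) (nat_lit 491) (nat_lit 440) (nat_lit 209)) (XT.lf (nat_lit 0) (nat_lit 11666929721) (nat_lit 608) (nat_lit 1138522884) (nat_lit 684) (nat_lit 10982181531) (nat_lit 222) (nat_lit 5) (nat_lit 230) (nat_lit 5) (nat_lit 231) (nat_lit 5) (nat_lit 492) (nat_lit 440) (nat_lit 208))) (XT.nd (nat_lit 55302) (nat_lit 0) (nat_lit 13300) (XT.lf (nat_lit 0) (nat_lit 126539495) (nat_lit 608) (nat_lit 16144243802) (nat_lit 684) (nat_lit 7801803471) (nat_lit 214) (nat_lit 5) (nat_lit 222) (nat_lit 5) (nat_lit 223) (nat_lit 5) (nat_lit 493) (nat_lit 440) (nat_lit 207)) (XT.nd (nat_lit 78) (nat_lit 0) (nat_lit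 0) (XT.lf (nat_lit 0) (nat_lit 1975413858) (nat_lit 1748) (nat_lit 2486530201) (nat_lit 1748) (nat_lit 2486530201) (nat_lit 389) (nat_lit 3) (nat_lit 412) (nat_lit 3) (nat_lit 412) (nat_lit 5) (nat_lit 441) (nat_lit 441) (nat_lit 258)) (XT.lf (nat_lit 76) (nat_lit 1509317212) (nat_lit 0) (nat_lit 2828335263) (nat_lit 1748) (nat_lit 9691116944) (nat_lit 390) (nat_lit 5) (nat_lit 389) (nat_lit 3) (nat_lit 412) (nat_lit 5) (nat_lit 442) (nat_lit 441) (nat_lit 257)))))) (XT.nd (nat_lit 390) (nat_lit 0) (nat_lit 152) (XT.nd (nat_lit 156) (nat_lit 0) (nat_lit 76) (XT.nd (nat_lit 78) (nat_lit 0) (nat_lit 0) (XT.lf (nat_lit 0) (nat_lit 4778956097) (nat_lit 1672) (nat_lit 6000819987) (nat_lit 1748) (nat_lit 3382521109) (nat_lit 390) (nat_lit 5) (nat_lit 412) (nat_lit 5) (nat_lit 413) (nat_lit 5) (nat_lit 443) (nat_lit 441) (nat_lit 256)) (XT.lf (nat_lit 76) (nat_lit 633062065) (nat_lit 0) (nat_lit 4610183345) (nat_lit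 1748) (nat_lit 9054972121) (nat_lit 391) (nat_lit 5) (nat_lit 390) (nat_lit 5) (nat_lit 413) (nat_lit 5) (nat_lit 444) (nat_lit 441) (nat_lit 255))) (XT.nd (nat_lit 78) (nat_lit 0) (nat_lit 0) (XT.lf (nat_lit 0) (nat_lit 5759765492) (nat_lit 1672) (nat_lit 6971144045) (nat_lit 1748) (nat_lit 1705092939) (nat_lit 391) (nat_lit 5) (nat_lit 413) (nat_lit 5) (nat_lit 414) (nat_lit 5) (nat_lit 445) (nat_lit 441) (nat_lit 254)) (XT.nd (nat_lit 78) (nat_lit 0) (nat_lit 0) (XT.lf (nat_lit 0) (nat_lit 6308797754) (nat_lit 1672) (nat_lit 178553070) (nat_lit 1748) (nat_lit 8088753657) (nat_lit 391) (nat_lit 5) (nat_lit 413) (nat_lit 5) (nat_lit 414) (nat_lit 5) (nat_lit 446) (nat_lit 441) (nat_lit 253)) (XT.lf (nat_lit 76) (nat_lit 6834853925) (nat_lit 0) (nat_lit 70147617) (nat_lit 1748) (nat_lit 7813288070) (nat_lit 392) (nat_lit 5) (nat_lit 391) (nat_lit 5) (nat_lit 414) (nat_lit 5) (nat_lit 447) (nat_lit 441) (nat_lit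 252))))) (XT.nd (nat_lit 156) (nat_lit 0) (nat_lit 76) (XT.nd (nat_lit 78) (nat_lit 0) (nat_lit 0) (XT.lf (nat_lit 0) (nat_lit 7548345070) (nat_lit 1672) (nat_lit 919229033) (nat_lit 1748) (nat_lit 6395044835) (nat_lit 392) (nat_lit 5) (nat_lit 414) (nat_lit 5) (nat_lit 415) (nat_lit 5) (nat_lit 448) (nat_lit 441) (nat_lit 251)) (XT.lf (nat_lit 76) (nat_lit 6261174989) (nat_lit 0) (nat_lit 1976621196) (nat_lit 1748) (nat_lit 6771378560) (nat_lit 393) (nat_lit 5) (nat_lit 392) (nat_lit 5) (nat_lit 415) (nat_lit 5) (nat_lit 449) (nat_lit 441) (nat_lit 250))) (XT.nd (nat_lit 78) (nat_lit 0) (nat_lit 0) (XT.lf (nat_lit 0) (nat_lit 8969666680) (nat_lit 1672) (nat_lit 1595971465) (nat_lit 1748) (nat_lit 4592455536) (nat_lit 393) (nat_lit 5) (nat_lit 415) (nat_lit 5) (nat_lit 416) (nat_lit 5) (nat_lit 450) (nat_lit 441) (nat_lit 249)) (XT.nd (nat_lit 78) (nat_lit 0) (nat_lit 76) (XT.lf (nat_lit 76) (nat_lit 5756716490)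 (nat_lit 0) (nat_lit 4002344416) (nat_lit 1748) (nat_lit 5550076892) (nat_lit 394) (nat_lit 5) (nat_lit 393) (nat_lit 5) (nat_lit 416) (nat_lit 5) (nat_lit 451) (nat_lit 441) (nat_lit 248)) (XT.lf (nat_lit 0) (nat_lit 10585058373) (nat_lit 1672) (nat_lit 2207377944) (nat_lit 1748) (nat_lit 2670354612) (nat_lit 394) (nat_lit 5) (nat_lit 416) (nat_lit 5) (nat_lit 417) (nat_lit 5) (nat_lit 452) (nat_lit 441) (nat_lit 247))))))) (XT.nd (nat_lit 780) (nat_lit 4180) (nat_lit 0) (XT.nd (nat_lit 390) (nat_lit 1596) (nat_lit 0) (XT.nd (nat_lit 156) (nat_lit 0) (nat_lit 76) (XT.nd (nat_lit 78) (nat_lit 0) (nat_lit 76) (XT.lf (nat_lit 76) (nat_lit 5323039205) (nat_lit 0) (nat_lit 6158303832) (nat_lit 1748) (nat_lit 4137103092) (nat_lit 395) (nat_lit 5) (nat_lit 394) (nat_lit 5) (nat_lit 417) (nat_lit 5) (nat_lit 453) (nat_lit 441) (nat_lit 246)) (XT.lf (nat_lit 0) (nat_lit 12407243397) (nat_lit 1672) (nat_lit 2751946645)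 (nat_lit 1748) (nat_lit 617794857) (nat_lit 395) (nat_lit 5) (nat_lit 417) (nat_lit 5) (nat_lit 418) (nat_lit 5) (nat_lit 454) (nat_lit 441) (nat_lit 245))) (XT.nd (nat_lit 78) (nat_lit 0) (nat_lit 0) (XT.lf (nat_lit 76) (nat_lit 4961805918) (nat_lit 0) (nat_lit 8455823647) (nat_lit 1748) (nat_lit 2519749708) (nat_lit 396) (nat_lit 5) (nat_lit 395) (nat_lit 5) (nat_lit 418) (nat_lit 5) (nat_lit 455) (nat_lit 441) (nat_lit 244)) (XT.nd (nat_lit 78) (nat_lit 0) (nat_lit 76) (XT.lf (nat_lit 76) (nat_lit 12862300498) (nat_lit 0) (nat_lit 1597465431) (nat_lit 1748) (nat_lit 1640988859) (nat_lit 396) (nat_lit 5) (nat_lit 395) (nat_lit 5) (nat_lit 418) (nat_lit 5) (nat_lit 456) (nat_lit 441) (nat_lit 243)) (XT.lf (nat_lit 76) (nat_lit 4674775234) (nat_lit 0) (nat_lit 10906593838) (nat_lit 1748) (nat_lit 684860278) (nat_lit 397) (nat_lit 5) (nat_lit 396) (nat_lit 5) (nat_lit 419) (nat_lit 5) (nat_lit 457) (nat_lit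 441) (nat_lit 242))))) (XT.nd (nat_lit 156) (nat_lit 0) (nat_lit 76) (XT.nd (nat_lit 78) (nat_lit 0) (nat_lit 76) (XT.lf (nat_lit 0) (nat_lit 312314956) (nat_lit 1748) (nat_lit 3661975544) (nat_lit 1824) (nat_lit 12460174408) (nat_lit 373) (nat_lit 5) (nat_lit 396) (nat_lit 5) (nat_lit 397) (nat_lit 5) (nat_lit 458) (nat_lit 441) (nat_lit 241)) (XT.lf (nat_lit 0) (nat_lit 1363078022) (nat_lit 1748) (nat_lit 12150473982) (nat_lit 1824) (nat_lit 3091570132) (nat_lit 374) (nat_lit 5) (nat_lit 397) (nat_lit 5) (nat_lit 398) (nat_lit 5) (nat_lit 459) (nat_lit 441) (nat_lit 240))) (XT.nd (nat_lit 78) (nat_lit 0) (nat_lit 76) (XT.lf (nat_lit 0) (nat_lit 2479430911) (nat_lit 1748) (nat_lit 4026911111) (nat_lit 1824) (nat_lit 10271962710) (nat_lit 374) (nat_lit 5) (nat_lit 397) (nat_lit 5) (nat_lit 398) (nat_lit 5) (nat_lit 460) (nat_lit 441) (nat_lit 239)) (XT.nd (nat_lit 78) (nat_lit 0) (nat_lit 0) (XT.lf (nat_lit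 0) (nat_lit 3644101516) (nat_lit 1748) (nat_lit 12648092474) (nat_lit 1824) (nat_lit 662240818) (nat_lit 375) (nat_lit 5) (nat_lit 398) (nat_lit 5) (nat_lit 399) (nat_lit 5) (nat_lit 461) (nat_lit 441) (nat_lit 238)) (XT.lf (nat_lit 0) (nat_lit 4896103257) (nat_lit 1748) (nat_lit 4320947052) (nat_lit 1824) (nat_lit 7915759993) (nat_lit 375) (nat_lit 5) (nat_lit 398) (nat_lit 5) (nat_lit 399) (nat_lit 5) (nat_lit 462) (nat_lit 441) (nat_lit 237)))))) (XT.nd (nat_lit 390) (nat_lit 2736) (nat_lit 0) (XT.nd (nat_lit 156) (nat_lit 1596) (nat_lit 0) (XT.nd (nat_lit 78) (nat_lit 0) (nat_lit 76) (XT.lf (nat_lit 76) (nat_lit 4223248180) (nat_lit 0) (nat_lit 1971187290) (nat_lit 1824) (nat_lit 11119895527) (nat_lit 376) (nat_lit 5) (nat_lit 375) (nat_lit 5) (nat_lit 399) (nat_lit 5) (nat_lit 463) (nat_lit 441) (nat_lit 236)) (XT.lf (nat_lit 0) (nat_lit 7577076522) (nat_lit 1748) (nat_lit 4542364544) (nat_lit 1824)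 (nat_lit 5378877627) (nat_lit 376) (nat_lit 5) (nat_lit 399) (nat_lit 5) (nat_lit 400) (nat_lit 5) (nat_lit 464) (nat_lit 441) (nat_lit 235))) (XT.nd (nat_lit 78) (nat_lit 1672) (nat_lit 0) (XT.lf (nat_lit 76) (nat_lit 4214666028) (nat_lit 0) (nat_lit 4807208040) (nat_lit 1824) (nat_lit 8663425367) (nat_lit 377) (nat_lit 5) (nat_lit 376) (nat_lit 5) (nat_lit 400) (nat_lit 5) (nat_lit 465) (nat_lit 441) (nat_lit 234)) (XT.nd (nat_lit 78) (nat_lit 1748) (nat_lit 0) (XT.lf (nat_lit 0) (nat_lit 10537640768) (nat_lit 1748) (nat_lit 4689393746) (nat_lit 76) (nat_lit 2648147112) (nat_lit 377) (nat_lit 5) (nat_lit 400) (nat_lit 5) (nat_lit 378) (nat_lit 5) (nat_lit 466) (nat_lit 441) (nat_lit 233)) (XT.lf (nat_lit 0) (nat_lit 4286978922) (nat_lit 1748) (nat_lit 7850703680) (nat_lit 1824) (nat_lit 5930102896) (nat_lit 354) (nat_lit 5) (nat_lit 377) (nat_lit 5) (nat_lit 378) (nat_lit 5) (nat_lit 467) (nat_lit 441)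 (nat_lit 232))))) (XT.nd (nat_lit 234) (nat_lit 1824) (nat_lit 0) (XT.nd (nat_lit 78) (nat_lit 912) (nat_lit 0) (XT.lf (nat_lit 0) (nat_lit 13501596649) (nat_lit 1748) (nat_lit 293967483) (nat_lit 1824) (nat_lit 4468163709) (nat_lit 354) (nat_lit 5) (nat_lit 377) (nat_lit 5) (nat_lit 378) (nat_lit 5) (nat_lit 468) (nat_lit 441) (nat_lit 231)) (XT.nd (nat_lit 78) (nat_lit 0) (nat_lit 0) (XT.lf (nat_lit 0) (nat_lit 4442169819) (nat_lit 912) (nat_lit 11115896875) (nat_lit 988) (nat_lit 2904096176) (nat_lit 342) (nat_lit 5) (nat_lit 354) (nat_lit 5) (nat_lit 355) (nat_lit 5) (nat_lit 469) (nat_lit 441) (nat_lit 230)) (XT.lf (nat_lit 0) (nat_lit 13888296411) (nat_lit 912) (nat_lit 3495975908) (nat_lit 988) (nat_lit 1279728270) (nat_lit 342) (nat_lit 5) (nat_lit 354) (nat_lit 5) (nat_lit 355) (nat_lit 5) (nat_lit 470) (nat_lit 441) (nat_lit 229)))) (XT.nd (nat_lit 78) (nat_lit 836) (nat_lit 0) (XT.lf (nat_lit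 0) (nat_lit 425366077) (nat_lit 988) (nat_lit 14189363719) (nat_lit 76) (nat_lit 4254035519) (nat_lit 329) (nat_lit 5) (nat_lit 342) (nat_lit 5) (nat_lit 330) (nat_lit 5) (nat_lit 471) (nat_lit 441) (nat_lit 228)) (XT.nd (nat_lit 78) (nat_lit 836) (nat_lit 0) (XT.lf (nat_lit 0) (nat_lit 2197563108) (nat_lit 988) (nat_lit 4725377836) (nat_lit 76) (nat_lit 12153515356) (nat_lit 329) (nat_lit 5) (nat_lit 342) (nat_lit 5) (nat_lit 330) (nat_lit 5) (nat_lit 472) (nat_lit 441) (nat_lit 227)) (XT.lf (nat_lit 0) (nat_lit 4038612672) (nat_lit 912) (nat_lit 14305457984) (nat_lit 76) (nat_lit 943565092) (nat_lit 318) (nat_lit 5) (nat_lit 330) (nat_lit 5) (nat_lit 319) (nat_lit 5) (nat_lit 473) (nat_lit 441) (nat_lit 226))))))))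
noncomputable def xc232 : XT := (XT.nd (nat_lit 56862) (nat_lit 0) (nat_lit 11476) (XT.nd (nat_lit 780) (nat_lit 3344) (nat_lit 0) (XT.nd (nat_lit 390) (nat_lit 2356) (nat_lit 0) (XT.nd (nat_lit 156) (nat_lit 760) (nat_lit 0) (XT.nd (nat_lit 78) (nat_lit 836) (nat_lit 0) (XT.lf (nat_lit 0) (nat_lit 5989135484) (nat_lit 912) (nat_lit 4605402784) (nat_lit 76) (nat_lit 8907050232) (nat_lit 318) (nat_lit 5) (nat_lit 330) (nat_lit 5) (nat_lit 319) (nat_lit 5) (nat_lit 474) (nat_lit 441) (nat_lit 225)) (XT.lf (nat_lit 0) (nat_lit 5354089918) (nat_lit 836) (nat_lit 2654326622) (nat_lit 912) (nat_lit 11710811516) (nat_lit 307) (nat_lit 5) (nat_lit 318) (nat_lit 5) (nat_lit 319) (nat_lit 5) (nat_lit 475) (nat_lit 441) (nat_lit 224))) (XT.nd (nat_lit 78) (nat_lit 760) (nat_lit 0) (XT.lf (nat_lit 0) (nat_lit 10129597320) (nat_lit 912) (nat_lit 4405812434) (nat_lit 76) (nat_lit 5404583022) (nat_lit 307) (nat_lit 5)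 (nat_lit 319) (nat_lit 5) (nat_lit 308) (nat_lit 5) (nat_lit 476) (nat_lit 441) (nat_lit 223)) (XT.nd (nat_lit 78) (nat_lit 0) (nat_lit 0) (XT.lf (nat_lit 0) (nat_lit 5806515304) (nat_lit 760) (nat_lit 6537115679) (nat_lit 836) (nat_lit 7820535820) (nat_lit 297) (nat_lit 5) (nat_lit 307) (nat_lit 5) (nat_lit 308) (nat_lit 5) (nat_lit 477) (nat_lit 441) (nat_lit 222)) (XT.lf (nat_lit 0) (nat_lit 14637447921) (nat_lit 836) (nat_lit 4124969742) (nat_lit 76) (nat_lit 1629699148) (nat_lit 297) (nat_lit 5) (nat_lit 308) (nat_lit 5) (nat_lit 298) (nat_lit 5) (nat_lit 478) (nat_lit 441) (nat_lit 221))))) (XT.nd (nat_lit 156) (nat_lit 1596) (nat_lit 0) (XT.nd (nat_lit 78) (nat_lit 0) (nat_lit 0) (XT.lf (nat_lit 0) (nat_lit 6347590997) (nat_lit 760) (nat_lit 10709364870) (nat_lit 836) (nat_lit 3566076157) (nat_lit 287) (nat_lit 5) (nat_lit 297) (nat_lit 5) (nat_lit 298) (nat_lit 5) (nat_lit 479) (nat_lit 441) (nat_lit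 220)) (XT.lf (nat_lit 0) (nat_lit 17080816842) (nat_lit 760) (nat_lit 2467089034) (nat_lit 836) (nat_lit 1310201078) (nat_lit 287) (nat_lit 5) (nat_lit 297) (nat_lit 5) (nat_lit 298) (nat_lit 5) (nat_lit 480) (nat_lit 441) (nat_lit 219))) (XT.nd (nat_lit 78) (nat_lit 760) (nat_lit 0) (XT.lf (nat_lit 0) (nat_lit 1057661140) (nat_lit 836) (nat_lit 14124169771) (nat_lit 76) (nat_lit 5914328890) (nat_lit 276) (nat_lit 5) (nat_lit 287) (nat_lit 5) (nat_lit 277) (nat_lit 5) (nat_lit 481) (nat_lit 441) (nat_lit 218)) (XT.nd (nat_lit 78) (nat_lit 760) (nat_lit 0) (XT.lf (nat_lit 0) (nat_lit 3492695377) (nat_lit 836) (nat_lit 3380924865) (nat_lit 76) (nat_lit 14464435395) (nat_lit 276) (nat_lit 5) (nat_lit 287) (nat_lit 5) (nat_lit 277) (nat_lit 5) (nat_lit 482) (nat_lit 441) (nat_lit 217)) (XT.lf (nat_lit 0) (nat_lit 6032547981) (nat_lit 836) (nat_lit 13921425564) (nat_lit 76) (nat_lit 1629695756) (nat_lit 266)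 (nat_lit 5) (nat_lit 277) (nat_lit 5) (nat_lit 267) (nat_lit 5) (nat_lit 483) (nat_lit 441) (nat_lit 216)))))) (XT.nd (nat_lit 390) (nat_lit 1976) (nat_lit 0) (XT.nd (nat_lit 156) (nat_lit 684) (nat_lit 0) (XT.nd (nat_lit 78) (nat_lit 684) (nat_lit 0) (XT.lf (nat_lit 0) (nat_lit 8687188188) (nat_lit 836) (nat_lit 2912005018) (nat_lit 76) (nat_lit 10233724441) (nat_lit 266) (nat_lit 5) (nat_lit 277) (nat_lit 5) (nat_lit 267) (nat_lit 5) (nat_lit 484) (nat_lit 441) (nat_lit 215)) (XT.lf (nat_lit 0) (nat_lit 8423473760) (nat_lit 684) (nat_lit 3021855719) (nat_lit 760) (nat_lit 10640815491) (nat_lit 257) (nat_lit 5) (nat_lit 266) (nat_lit 5) (nat_lit 267) (nat_lit 5) (nat_lit 485) (nat_lit 441) (nat_lit 214))) (XT.nd (nat_lit 78) (nat_lit 684) (nat_lit 0) (XT.lf (nat_lit 0) (nat_lit 14311257275) (nat_lit 760) (nat_lit 2360883685) (nat_lit 76) (nat_lit 5671245540) (nat_lit 257) (nat_lit 5) (nat_lit 267) (nat_lit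 5) (nat_lit 258) (nat_lit 5) (nat_lit 486) (nat_lit 441) (nat_lit 213)) (XT.nd (nat_lit 78) (nat_lit 0) (nat_lit 0) (XT.lf (nat_lit 0) (nat_lit 9263856111) (nat_lit 684) (nat_lit 8046659368) (nat_lit 760) (nat_lit 5293739236) (nat_lit 248) (nat_lit 5) (nat_lit 257) (nat_lit 5) (nat_lit 258) (nat_lit 5) (nat_lit 487) (nat_lit 441) (nat_lit 212)) (XT.lf (nat_lit 0) (nat_lit 20386486133) (nat_lit 760) (nat_lit 1726532766) (nat_lit 76) (nat_lit 756988901) (nat_lit 248) (nat_lit 5) (nat_lit 258) (nat_lit 5) (nat_lit 249) (nat_lit 5) (nat_lit 488) (nat_lit 441) (nat_lit 211))))) (XT.nd (nat_lit 156) (nat_lit 1292) (nat_lit 0) (XT.nd (nat_lit 78) (nat_lit 0) (nat_lit 0) (XT.lf (nat_lit 0) (nat_lit 494108095) (nat_lit 684) (nat_lit 12946510938) (nat_lit 76) (nat_lit 9698084570) (nat_lit 239) (nat_lit 5) (nat_lit 248) (nat_lit 5) (nat_lit 240) (nat_lit 5) (nat_lit 489) (nat_lit 441) (nat_lit 210)) (XT.lf (nat_lit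 0) (nat_lit 3505733018) (nat_lit 684) (nat_lit 1060923326) (nat_lit 76) (nat_lit 18845636651) (nat_lit 239) (nat_lit 5) (nat_lit 248) (nat_lit 5) (nat_lit 240) (nat_lit 5) (nat_lit 490) (nat_lit 441) (nat_lit 209))) (XT.nd (nat_lit 78) (nat_lit 608) (nat_lit 0) (XT.lf (nat_lit 0) (nat_lit 6676017829) (nat_lit 760) (nat_lit 12514710780) (nat_lit 76) (nat_lit 4498658912) (nat_lit 230) (nat_lit 5) (nat_lit 240) (nat_lit 5) (nat_lit 231) (nat_lit 5) (nat_lit 491) (nat_lit 441) (nat_lit 208)) (XT.nd (nat_lit 78) (nat_lit 608) (nat_lit 0) (XT.lf (nat_lit 0) (nat_lit 9943243495) (nat_lit 760) (nat_lit 337312524) (nat_lit 76) (nat_lit 13690799073) (nat_lit 230) (nat_lit 5) (nat_lit 240) (nat_lit 5) (nat_lit 231) (nat_lit 5) (nat_lit 492) (nat_lit 441) (nat_lit 207)) (XT.lf (nat_lit 0) (nat_lit 12239737533) (nat_lit 608) (nat_lit 1111746498) (nat_lit 684) (nat_lit 10905966398) (nat_lit 222) (nat_lit 5) (nat_lit 230)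 (nat_lit 5) (nat_lit 231) (nat_lit 5) (nat_lit 493) (nat_lit 441) (nat_lit 206))))))) (XT.nd (nat_lit 780) (nat_lit 1216) (nat_lit 0) (XT.nd (nat_lit 390) (nat_lit 0) (nat_lit 152) (XT.nd (nat_lit 156) (nat_lit 0) (nat_lit 76) (XT.nd (nat_lit 78) (nat_lit 0) (nat_lit 0) (XT.lf (nat_lit 0) (nat_lit 2350247745) (nat_lit 1748) (nat_lit 2365144272) (nat_lit 1748) (nat_lit 2365144272) (nat_lit 389) (nat_lit 3) (nat_lit 412) (nat_lit 3) (nat_lit 412) (nat_lit 5) (nat_lit 442) (nat_lit 442) (nat_lit 256)) (XT.lf (nat_lit 76) (nat_lit 1879485090) (nat_lit 0) (nat_lit 3204629016) (nat_lit 1748) (nat_lit 9211642521) (nat_lit 390) (nat_lit 5) (nat_lit 389) (nat_lit 3) (nat_lit 412) (nat_lit 5) (nat_lit 443) (nat_lit 442) (nat_lit 255))) (XT.nd (nat_lit 78) (nat_lit 0) (nat_lit 0) (XT.lf (nat_lit 0) (nat_lit 5519273160) (nat_lit 1672) (nat_lit 5772164236) (nat_lit 1748) (nat_lit 3140824698) (nat_lit 390) (nat_lit 5)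 (nat_lit 412) (nat_lit 5) (nat_lit 413) (nat_lit 5) (nat_lit 444) (nat_lit 442) (nat_lit 254)) (XT.nd (nat_lit 78) (nat_lit 0) (nat_lit 76) (XT.lf (nat_lit 76) (nat_lit 992101561) (nat_lit 0) (nat_lit 4990353695) (nat_lit 1748) (nat_lit 8588661016) (nat_lit 391) (nat_lit 5) (nat_lit 390) (nat_lit 5) (nat_lit 413) (nat_lit 5) (nat_lit 445) (nat_lit 442) (nat_lit 253)) (XT.lf (nat_lit 0) (nat_lit 6495034593) (nat_lit 1672) (nat_lit 6756337970) (nat_lit 1748) (nat_lit 1460577201) (nat_lit 391) (nat_lit 5) (nat_lit 413) (nat_lit 5) (nat_lit 414) (nat_lit 5) (nat_lit 446) (nat_lit 442) (nat_lit 252))))) (XT.nd (nat_lit 156) (nat_lit 0) (nat_lit 76) (XT.nd (nat_lit 78) (nat_lit 0) (nat_lit 0) (XT.lf (nat_lit 76) (nat_lit 167354036) (nat_lit 0) (nat_lit 6876621729) (nat_lit 1748) (nat_lit 7811106761) (nat_lit 392) (nat_lit 5) (nat_lit 391) (nat_lit 5) (nat_lit 414) (nat_lit 5) (nat_lit 447) (nat_lit 442) (nat_lit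 251)) (XT.lf (nat_lit 76) (nat_lit 7316549535) (nat_lit 0) (nat_lit 324787568) (nat_lit 1748) (nat_lit 7358996724) (nat_lit 392) (nat_lit 5) (nat_lit 391) (nat_lit 5) (nat_lit 414) (nat_lit 5) (nat_lit 448) (nat_lit 442) (nat_lit 250))) (XT.nd (nat_lit 78) (nat_lit 0) (nat_lit 0) (XT.lf (nat_lit 0) (nat_lit 8284205449) (nat_lit 1672) (nat_lit 585687838) (nat_lit 1748) (nat_lit 6277930291) (nat_lit 392) (nat_lit 5) (nat_lit 414) (nat_lit 5) (nat_lit 415) (nat_lit 5) (nat_lit 449) (nat_lit 442) (nat_lit 249)) (XT.nd (nat_lit 78) (nat_lit 0) (nat_lit 76) (XT.lf (nat_lit 76) (nat_lit 6736008963) (nat_lit 0) (nat_lit 2242238028) (nat_lit 1748) (nat_lit 6319254343) (nat_lit 393) (nat_lit 5) (nat_lit 392) (nat_lit 5) (nat_lit 415) (nat_lit 5) (nat_lit 450) (nat_lit 442) (nat_lit 248)) (XT.lf (nat_lit 0) (nat_lit 9712027653) (nat_lit 1672) (nat_lit 1272072001) (nat_lit 1748) (nat_lit 4465560265) (nat_lit 393) (nat_lit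 5) (nat_lit 415) (nat_lit 5) (nat_lit 416) (nat_lit 5) (nat_lit 451) (nat_lit 442) (nat_lit 247)))))) (XT.nd (nat_lit 390) (nat_lit 1520) (nat_lit 0) (XT.nd (nat_lit 156) (nat_lit 0) (nat_lit 76) (XT.nd (nat_lit 78) (nat_lit 0) (nat_lit 76) (XT.lf (nat_lit 76) (nat_lit 6225328799) (nat_lit 0) (nat_lit 4283137396) (nat_lit 1748) (nat_lit 5095440187) (nat_lit 394) (nat_lit 5) (nat_lit 393) (nat_lit 5) (nat_lit 416) (nat_lit 5) (nat_lit 452) (nat_lit 442) (nat_lit 246)) (XT.lf (nat_lit 0) (nat_lit 11338838653) (nat_lit 1672) (nat_lit 1892510280) (nat_lit 1748) (nat_lit 2529533007) (nat_lit 394) (nat_lit 5) (nat_lit 416) (nat_lit 5) (nat_lit 417) (nat_lit 5) (nat_lit 453) (nat_lit 442) (nat_lit 245))) (XT.nd (nat_lit 78) (nat_lit 0) (nat_lit 76) (XT.lf (nat_lit 76) (nat_lit 5786153270) (nat_lit 0) (nat_lit 6458582368) (nat_lit 1748) (nat_lit 3675087212) (nat_lit 395) (nat_lit 5) (nat_lit 394) (nat_lit 5) (nat_lit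 417) (nat_lit 5) (nat_lit 454) (nat_lit 442) (nat_lit 244)) (XT.nd (nat_lit 78) (nat_lit 0) (nat_lit 0) (XT.lf (nat_lit 0) (nat_lit 13177560626) (nat_lit 1672) (nat_lit 2445421447) (nat_lit 1748) (nat_lit 458788404) (nat_lit 395) (nat_lit 5) (nat_lit 417) (nat_lit 5) (nat_lit 418) (nat_lit 5) (nat_lit 455) (nat_lit 442) (nat_lit 243)) (XT.lf (nat_lit 76) (nat_lit 5420227457) (nat_lit 0) (nat_lit 8780020458) (nat_lit 1748) (nat_lit 2045289048) (nat_lit 396) (nat_lit 5) (nat_lit 395) (nat_lit 5) (nat_lit 418) (nat_lit 5) (nat_lit 456) (nat_lit 442) (nat_lit 242))))) (XT.nd (nat_lit 234) (nat_lit 0) (nat_lit 76) (XT.nd (nat_lit 78) (nat_lit 1672) (nat_lit 0) (XT.lf (nat_lit 76) (nat_lit 13471689076) (nat_lit 0) (nat_lit 1781454286) (nat_lit 1748) (nat_lit 1159244269) (nat_lit 396) (nat_lit 5) (nat_lit 395) (nat_lit 5) (nat_lit 418) (nat_lit 5) (nat_lit 457) (nat_lit 442) (nat_lit 241)) (XT.nd (nat_lit 78) (nat_lit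 1748) (nat_lit 0) (XT.lf (nat_lit 76) (nat_lit 5129391175) (nat_lit 0) (nat_lit 11259278317) (nat_lit 1748) (nat_lit 192678229) (nat_lit 397) (nat_lit 5) (nat_lit 396) (nat_lit 5) (nat_lit 419) (nat_lit 5) (nat_lit 458) (nat_lit 442) (nat_lit 240)) (XT.lf (nat_lit 0) (nat_lit 808016703) (nat_lit 1748) (nat_lit 3374389419) (nat_lit 1824) (nat_lit 12570677589) (nat_lit 373) (nat_lit 5) (nat_lit 396) (nat_lit 5) (nat_lit 397) (nat_lit 5) (nat_lit 459) (nat_lit 442) (nat_lit 239)))) (XT.nd (nat_lit 78) (nat_lit 0) (nat_lit 0) (XT.lf (nat_lit 0) (nat_lit 1871721810) (nat_lit 1748) (nat_lit 12024308736) (nat_lit 1824) (nat_lit 3031290520) (nat_lit 374) (nat_lit 5) (nat_lit 397) (nat_lit 5) (nat_lit 398) (nat_lit 5) (nat_lit 460) (nat_lit 442) (nat_lit 238)) (XT.nd (nat_lit 78) (nat_lit 0) (nat_lit 76) (XT.lf (nat_lit 0) (nat_lit 3000962889) (nat_lit 1748) (nat_lit 3745513328) (nat_lit 1824) (nat_lit 10357685282)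 (nat_lit 374) (nat_lit 5) (nat_lit 397) (nat_lit 5) (nat_lit 398) (nat_lit 5) (nat_lit 461) (nat_lit 442) (nat_lit 237)) (XT.lf (nat_lit 0) (nat_lit 4181322807) (nat_lit 1748) (nat_lit 12531249062) (nat_lit 1824) (nat_lit 571399693) (nat_lit 375) (nat_lit 5) (nat_lit 398) (nat_lit 5) (nat_lit 399) (nat_lit 5) (nat_lit 462) (nat_lit 442) (nat_lit 236))))))))
noncomputable def xc233 : XT := (XT.nd (nat_lit 1560) (nat_lit 3496) (nat_lit 0) (XT.nd (nat_lit 780) (nat_lit 4028) (nat_lit 0) (XT.nd (nat_lit 390) (nat_lit 3496) (nat_lit 0) (XT.nd (nat_lit 156) (nat_lit 0) (nat_lit 76) (XT.nd (nat_lit 78) (nat_lit 0) (nat_lit 0) (XT.lf (nat_lit 0) (nat_lit 5449259892) (nat_lit 1748) (nat_lit 4044811814) (nat_lit 1824) (nat_lit 7972030152) (nat_lit 375) (nat_lit 5) (nat_lit 398) (nat_lit 5) (nat_lit 399) (nat_lit 5) (nat_lit 463) (nat_lit 442) (nat_lit 235)) (XT.lf (nat_lit 76) (nat_lit 4667882097) (nat_lit 0) (nat_lit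 2099088940) (nat_lit 1824) (nat_lit 10884418782) (nat_lit 376) (nat_lit 5) (nat_lit 375) (nat_lit 5) (nat_lit 399) (nat_lit 5) (nat_lit 464) (nat_lit 442) (nat_lit 234))) (XT.nd (nat_lit 78) (nat_lit 0) (nat_lit 0) (XT.lf (nat_lit 0) (nat_lit 8167904719) (nat_lit 1748) (nat_lit 4270494964) (nat_lit 1824) (nat_lit 5400849787) (nat_lit 376) (nat_lit 5) (nat_lit 399) (nat_lit 5) (nat_lit 400) (nat_lit 5) (nat_lit 465) (nat_lit 442) (nat_lit 233)) (XT.nd (nat_lit 78) (nat_lit 0) (nat_lit 76) (XT.lf (nat_lit 76) (nat_lit 4659289924) (nat_lit 0) (nat_lit 4976034333) (nat_lit 1824) (nat_lit 8394775948) (nat_lit 377) (nat_lit 5) (nat_lit 376) (nat_lit 5) (nat_lit 400) (nat_lit 5) (nat_lit 466) (nat_lit 442) (nat_lit 232)) (XT.lf (nat_lit 0) (nat_lit 11172453198) (nat_lit 1748) (nat_lit 4420723097) (nat_lit 76) (nat_lit 2630787610) (nat_lit 377) (nat_lit 5) (nat_lit 400) (nat_lit 5) (nat_lit 378) (nat_lit 5) (nat_lit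 467) (nat_lit 442) (nat_lit 231))))) (XT.nd (nat_lit 156) (nat_lit 1900) (nat_lit 0) (XT.nd (nat_lit 78) (nat_lit 0) (nat_lit 0) (XT.lf (nat_lit 0) (nat_lit 4732792429) (nat_lit 1748) (nat_lit 8065726385) (nat_lit 1824) (nat_lit 5622025291) (nat_lit 354) (nat_lit 5) (nat_lit 377) (nat_lit 5) (nat_lit 378) (nat_lit 5) (nat_lit 468) (nat_lit 442) (nat_lit 230)) (XT.lf (nat_lit 0) (nat_lit 14124642238) (nat_lit 1748) (nat_lit 356718039) (nat_lit 1824) (nat_lit 4139213589) (nat_lit 354) (nat_lit 5) (nat_lit 377) (nat_lit 5) (nat_lit 378) (nat_lit 5) (nat_lit 469) (nat_lit 442) (nat_lit 229))) (XT.nd (nat_lit 78) (nat_lit 988) (nat_lit 0) (XT.lf (nat_lit 0) (nat_lit 4890444311) (nat_lit 912) (nat_lit 11382603281) (nat_lit 988) (nat_lit 2550055836) (nat_lit 342) (nat_lit 5) (nat_lit 354) (nat_lit 5) (nat_lit 355) (nat_lit 5) (nat_lit 470) (nat_lit 442) (nat_lit 228)) (XT.nd (nat_lit 78) (nat_lit 988) (nat_lit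 0) (XT.lf (nat_lit 0) (nat_lit 14518445766) (nat_lit 912) (nat_lit 3609413532) (nat_lit 988) (nat_lit 901281400) (nat_lit 342) (nat_lit 5) (nat_lit 354) (nat_lit 5) (nat_lit 355) (nat_lit 5) (nat_lit 471) (nat_lit 442) (nat_lit 227)) (XT.lf (nat_lit 0) (nat_lit 826861028) (nat_lit 988) (nat_lit 14109282984) (nat_lit 76) (nat_lit 4301923600) (nat_lit 329) (nat_lit 5) (nat_lit 342) (nat_lit 5) (nat_lit 330) (nat_lit 5) (nat_lit 472) (nat_lit 442) (nat_lit 226)))))) (XT.nd (nat_lit 390) (nat_lit 2356) (nat_lit 0) (XT.nd (nat_lit 156) (nat_lit 836) (nat_lit 0) (XT.nd (nat_lit 78) (nat_lit 836) (nat_lit 0) (XT.lf (nat_lit 0) (nat_lit 2626796360) (nat_lit 988) (nat_lit 4463152050) (nat_lit 76) (nat_lit 12360122301) (nat_lit 329) (nat_lit 5) (nat_lit 342) (nat_lit 5) (nat_lit 330) (nat_lit 5) (nat_lit 473) (nat_lit 442) (nat_lit 225)) (XT.lf (nat_lit 0) (nat_lit 4499246793) (nat_lit 912) (nat_lit 14229208704) (nat_lit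 76) (nat_lit 937130753) (nat_lit 318) (nat_lit 5) (nat_lit 330) (nat_lit 5) (nat_lit 319) (nat_lit 5) (nat_lit 474) (nat_lit 442) (nat_lit 224))) (XT.nd (nat_lit 78) (nat_lit 836) (nat_lit 0) (XT.lf (nat_lit 0) (nat_lit 6481331790) (nat_lit 912) (nat_lit 4342257467) (nat_lit 76) (nat_lit 9060381784) (nat_lit 318) (nat_lit 5) (nat_lit 330) (nat_lit 5) (nat_lit 319) (nat_lit 5) (nat_lit 475) (nat_lit 442) (nat_lit 223)) (XT.nd (nat_lit 78) (nat_lit 0) (nat_lit 0) (XT.lf (nat_lit 0) (nat_lit 5814087895) (nat_lit 836) (nat_lit 2721899711) (nat_lit 912) (nat_lit 11570079941) (nat_lit 307) (nat_lit 5) (nat_lit 318) (nat_lit 5) (nat_lit 319) (nat_lit 5) (nat_lit 476) (nat_lit 442) (nat_lit 222)) (XT.lf (nat_lit 0) (nat_lit 10692295814) (nat_lit 912) (nat_lit 4140443089) (nat_lit 76) (nat_lit 5498658444) (nat_lit 307) (nat_lit 5) (nat_lit 319) (nat_lit 5) (nat_lit 308) (nat_lit 5) (nat_lit 477) (nat_lit 442) (nat_lit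 221))))) (XT.nd (nat_lit 156) (nat_lit 1596) (nat_lit 0) (XT.nd (nat_lit 78) (nat_lit 0) (nat_lit 0) (XT.lf (nat_lit 0) (nat_lit 6273805641) (nat_lit 760) (nat_lit 6672023561) (nat_lit 836) (nat_lit 7614325060) (nat_lit 297) (nat_lit 5) (nat_lit 307) (nat_lit 5) (nat_lit 308) (nat_lit 5) (nat_lit 478) (nat_lit 442) (nat_lit 220)) (XT.lf (nat_lit 0) (nat_lit 15278528794) (nat_lit 836) (nat_lit 3856015261) (nat_lit 76) (nat_lit 1658262801) (nat_lit 297) (nat_lit 5) (nat_lit 308) (nat_lit 5) (nat_lit 298) (nat_lit 5) (nat_lit 479) (nat_lit 442) (nat_lit 219))) (XT.nd (nat_lit 78) (nat_lit 836) (nat_lit 0) (XT.lf (nat_lit 0) (nat_lit 6823684496) (nat_lit 760) (nat_lit 10918179225) (nat_lit 836) (nat_lit 3286571557) (nat_lit 287) (nat_lit 5) (nat_lit 297) (nat_lit 5) (nat_lit 298) (nat_lit 5) (nat_lit 480) (nat_lit 442) (nat_lit 218)) (XT.nd (nat_lit 78) (nat_lit 836) (nat_lit 0) (XT.lf (nat_lit 0) (nat_lit 17764728943)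 (nat_lit 760) (nat_lit 2511163224) (nat_lit 836) (nat_lit 992457920) (nat_lit 287) (nat_lit 5) (nat_lit 297) (nat_lit 5) (nat_lit 298) (nat_lit 5) (nat_lit 481) (nat_lit 442) (nat_lit 217)) (XT.lf (nat_lit 0) (nat_lit 1413895865) (nat_lit 836) (nat_lit 14055145266) (nat_lit 76) (nat_lit 6042168722) (nat_lit 276) (nat_lit 5) (nat_lit 287) (nat_lit 5) (nat_lit 277) (nat_lit 5) (nat_lit 482) (nat_lit 442) (nat_lit 216))))))) (XT.nd (nat_lit 780) (nat_lit 0) (nat_lit 0) (XT.nd (nat_lit 390) (nat_lit 2052) (nat_lit 0) (XT.nd (nat_lit 156) (nat_lit 684) (nat_lit 0) (XT.nd (nat_lit 78) (nat_lit 760) (nat_lit 0) (XT.lf (nat_lit 0) (nat_lit 3891060561) (nat_lit 836) (nat_lit 3103927774) (nat_lit 76) (nat_lit 14763090038) (nat_lit 276) (nat_lit 5) (nat_lit 287) (nat_lit 5) (nat_lit 277) (nat_lit 5) (nat_lit 483) (nat_lit 442) (nat_lit 215)) (XT.lf (nat_lit 0) (nat_lit 6477608802) (nat_lit 836) (nat_lit 13850972218)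 (nat_lit 76) (nat_lit 1680108616) (nat_lit 266) (nat_lit 5) (nat_lit 277) (nat_lit 5) (nat_lit 267) (nat_lit 5) (nat_lit 484) (nat_lit 442) (nat_lit 214))) (XT.nd (nat_lit 78) (nat_lit 684) (nat_lit 0) (XT.lf (nat_lit 0) (nat_lit 9178980836) (nat_lit 836) (nat_lit 2628204082) (nat_lit 76) (nat_lit 10455868483) (nat_lit 266) (nat_lit 5) (nat_lit 277) (nat_lit 5) (nat_lit 267) (nat_lit 5) (nat_lit 485) (nat_lit 442) (nat_lit 213)) (XT.nd (nat_lit 78) (nat_lit 0) (nat_lit 0) (XT.lf (nat_lit 0) (nat_lit 8931734002) (nat_lit 684) (nat_lit 3056520845) (nat_lit 760) (nat_lit 10533174195) (nat_lit 257) (nat_lit 5) (nat_lit 266) (nat_lit 5) (nat_lit 267) (nat_lit 5) (nat_lit 486) (nat_lit 442) (nat_lit 212)) (XT.lf (nat_lit 0) (nat_lit 14905508016) (nat_lit 760) (nat_lit 2068824627) (nat_lit 76) (nat_lit 5809605729) (nat_lit 257) (nat_lit 5) (nat_lit 267) (nat_lit 5) (nat_lit 258) (nat_lit 5) (nat_lit 487) (nat_lit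 442) (nat_lit 211))))) (XT.nd (nat_lit 156) (nat_lit 1368) (nat_lit 0) (XT.nd (nat_lit 78) (nat_lit 0) (nat_lit 0) (XT.lf (nat_lit 0) (nat_lit 9786177880) (nat_lit 684) (nat_lit 8174722103) (nat_lit 760) (nat_lit 5089204043) (nat_lit 248) (nat_lit 5) (nat_lit 257) (nat_lit 5) (nat_lit 258) (nat_lit 5) (nat_lit 488) (nat_lit 442) (nat_lit 210)) (XT.lf (nat_lit 0) (nat_lit 21092635083) (nat_lit 760) (nat_lit 1424723211) (nat_lit 76) (nat_lit 803931964) (nat_lit 248) (nat_lit 5) (nat_lit 258) (nat_lit 5) (nat_lit 249) (nat_lit 5) (nat_lit 489) (nat_lit 442) (nat_lit 209))) (XT.nd (nat_lit 78) (nat_lit 684) (nat_lit 0) (XT.lf (nat_lit 0) (nat_lit 800823872) (nat_lit 684) (nat_lit 12867225434) (nat_lit 76) (nat_lit 9927348182) (nat_lit 239) (nat_lit 5) (nat_lit 248) (nat_lit 5) (nat_lit 240) (nat_lit 5) (nat_lit 490) (nat_lit 442) (nat_lit 208)) (XT.nd (nat_lit 78) (nat_lit 684) (nat_lit 0) (XT.lf (nat_lit 0)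 (nat_lit 3866861026) (nat_lit 684) (nat_lit 750557750) (nat_lit 76) (nat_lit 19257159110) (nat_lit 239) (nat_lit 5) (nat_lit 248) (nat_lit 5) (nat_lit 240) (nat_lit 5) (nat_lit 491) (nat_lit 442) (nat_lit 207)) (XT.lf (nat_lit 0) (nat_lit 7097256500) (nat_lit 760) (nat_lit 12429987978) (nat_lit 76) (nat_lit 4630038485) (nat_lit 230) (nat_lit 5) (nat_lit 240) (nat_lit 5) (nat_lit 231) (nat_lit 5) (nat_lit 492) (nat_lit 442) (nat_lit 206)))))) (XT.nd (nat_lit 55770) (nat_lit 0) (nat_lit 12236) (XT.nd (nat_lit 55536) (nat_lit 0) (nat_lit 12084) (XT.nd (nat_lit 55458) (nat_lit 0) (nat_lit 12084) (XT.lf (nat_lit 0) (nat_lit 10424185143) (nat_lit 760) (nat_lit 15610718) (nat_lit 76) (nat_lit 14005209560) (nat_lit 230) (nat_lit 5) (nat_lit 240) (nat_lit 5) (nat_lit 231) (nat_lit 5) (nat_lit 493) (nat_lit 442) (nat_lit 205)) (XT.lf (nat_lit 0) (nat_lit 2719557207) (nat_lit 1748) (nat_lit 2247975288) (nat_lit 1748)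 (nat_lit 2247975288) (nat_lit 389) (nat_lit 3) (nat_lit 412) (nat_lit 3) (nat_lit 412) (nat_lit 5) (nat_lit 443) (nat_lit 443) (nat_lit 254))) (XT.nd (nat_lit 78) (nat_lit 0) (nat_lit 76) (XT.lf (nat_lit 76) (nat_lit 2243854427) (nat_lit 0) (nat_lit 3576033253) (nat_lit 1748) (nat_lit 8748723544) (nat_lit 390) (nat_lit 5) (nat_lit 389) (nat_lit 3) (nat_lit 412) (nat_lit 5) (nat_lit 444) (nat_lit 443) (nat_lit 253)) (XT.nd (nat_lit 78) (nat_lit 0) (nat_lit 0) (XT.lf (nat_lit 0) (nat_lit 6249360605) (nat_lit 1672) (nat_lit 5552474734) (nat_lit 1748) (nat_lit 2906306673) (nat_lit 390) (nat_lit 5) (nat_lit 412) (nat_lit 5) (nat_lit 413) (nat_lit 5) (nat_lit 445) (nat_lit 443) (nat_lit 252)) (XT.lf (nat_lit 76) (nat_lit 1344871558) (nat_lit 0) (nat_lit 5366945355) (nat_lit 1748) (nat_lit 8138163430) (nat_lit 391) (nat_lit 5) (nat_lit 390) (nat_lit 5) (nat_lit 413) (nat_lit 5) (nat_lit 446) (nat_lit 443) (nat_lit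 251))))) (XT.nd (nat_lit 234) (nat_lit 0) (nat_lit 76) (XT.nd (nat_lit 78) (nat_lit 0) (nat_lit 0) (XT.lf (nat_lit 0) (nat_lit 7220930856) (nat_lit 1672) (nat_lit 6550990916) (nat_lit 1748) (nat_lit 1221990210) (nat_lit 391) (nat_lit 5) (nat_lit 413) (nat_lit 5) (nat_lit 414) (nat_lit 5) (nat_lit 447) (nat_lit 443) (nat_lit 250)) (XT.nd (nat_lit 78) (nat_lit 0) (nat_lit 0) (XT.lf (nat_lit 76) (nat_lit 508934971) (nat_lit 0) (nat_lit 7262425731) (nat_lit 1748) (nat_lit 7368743497) (nat_lit 392) (nat_lit 5) (nat_lit 391) (nat_lit 5) (nat_lit 414) (nat_lit 5) (nat_lit 448) (nat_lit 443) (nat_lit 249)) (XT.lf (nat_lit 76) (nat_lit 7794482344) (nat_lit 0) (nat_lit 574686817) (nat_lit 1748) (nat_lit 6919328228) (nat_lit 392) (nat_lit 5) (nat_lit 391) (nat_lit 5) (nat_lit 414) (nat_lit 5) (nat_lit 449) (nat_lit 443) (nat_lit 248)))) (XT.nd (nat_lit 78) (nat_lit 0) (nat_lit 0) (XT.lf (nat_lit 0) (nat_lit 9012070910)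 (nat_lit 1672) (nat_lit 259141526) (nat_lit 1748) (nat_lit 6167987703) (nat_lit 392) (nat_lit 5) (nat_lit 414) (nat_lit 5) (nat_lit 415) (nat_lit 5) (nat_lit 450) (nat_lit 443) (nat_lit 247)) (XT.nd (nat_lit 78) (nat_lit 0) (nat_lit 76) (XT.lf (nat_lit 76) (nat_lit 7206763816) (nat_lit 0) (nat_lit 2504388062) (nat_lit 1748) (nat_lit 5880902994) (nat_lit 393) (nat_lit 5) (nat_lit 392) (nat_lit 5) (nat_lit 415) (nat_lit 5) (nat_lit 451) (nat_lit 443) (nat_lit 246)) (XT.lf (nat_lit 0) (nat_lit 10447375125) (nat_lit 1672) (nat_lit 955511429) (nat_lit 1748) (nat_lit 4344621200) (nat_lit 393) (nat_lit 5) (nat_lit 415) (nat_lit 5) (nat_lit 416) (nat_lit 5) (nat_lit 452) (nat_lit 443) (nat_lit 245))))))))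
noncomputable def xc234 : XT := (XT.nd (nat_lit 1560) (nat_lit 7828) (nat_lit 0) (XT.nd (nat_lit 780) (nat_lit 2356) (nat_lit 0) (XT.nd (nat_lit 390) (nat_lit 1520) (nat_lit 0) (XT.nd (nat_lit 156) (nat_lit 0) (nat_lit 76) (XT.nd (nat_lit 78) (nat_lit 0) (nat_lit 76) (XT.lf (nat_lit 76) (nat_lit 6689587374) (nat_lit 0) (nat_lit 4561751021) (nat_lit 1748) (nat_lit 4653675171) (nat_lit 394) (nat_lit 5) (nat_lit 393) (nat_lit 5) (nat_lit 416) (nat_lit 5) (nat_lit 453) (nat_lit 443) (nat_lit 244)) (XT.lf (nat_lit 0) (nat_lit 12086644945) (nat_lit 1672) (nat_lit 1585286262) (nat_lit 1748) (nat_lit 2393437107) (nat_lit 394) (nat_lit 5) (nat_lit 416) (nat_lit 5) (nat_lit 417) (nat_lit 5) (nat_lit 454) (nat_lit 443) (nat_lit 243))) (XT.nd (nat_lit 78) (nat_lit 0) (nat_lit 76) (XT.lf (nat_lit 76) (nat_lit 6244680334) (nat_lit 0) (nat_lit 6757988982) (nat_lit 1748) (nat_lit 3224984629) (nat_lit 395) (nat_lit 5) (nat_lit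 394) (nat_lit 5) (nat_lit 417) (nat_lit 5) (nat_lit 455) (nat_lit 443) (nat_lit 242)) (XT.nd (nat_lit 78) (nat_lit 0) (nat_lit 0) (XT.lf (nat_lit 0) (nat_lit 13943007610) (nat_lit 1672) (nat_lit 2146805720) (nat_lit 1748) (nat_lit 303256030) (nat_lit 395) (nat_lit 5) (nat_lit 417) (nat_lit 5) (nat_lit 418) (nat_lit 5) (nat_lit 456) (nat_lit 443) (nat_lit 241)) (XT.lf (nat_lit 76) (nat_lit 5873869818) (nat_lit 0) (nat_lit 9104679245) (nat_lit 1748) (nat_lit 1581719959) (nat_lit 396) (nat_lit 5) (nat_lit 395) (nat_lit 5) (nat_lit 418) (nat_lit 5) (nat_lit 457) (nat_lit 443) (nat_lit 240))))) (XT.nd (nat_lit 156) (nat_lit 0) (nat_lit 0) (XT.nd (nat_lit 78) (nat_lit 1672) (nat_lit 0) (XT.lf (nat_lit 76) (nat_lit 14079591301) (nat_lit 0) (nat_lit 1963219037) (nat_lit 1748) (nat_lit 687845948) (nat_lit 396) (nat_lit 5) (nat_lit 395) (nat_lit 5) (nat_lit 418) (nat_lit 5) (nat_lit 458) (nat_lit 443) (nat_lit 239))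 (XT.lf (nat_lit 0) (nat_lit 285904037) (nat_lit 1748) (nat_lit 11325969039) (nat_lit 1824) (nat_lit 5291254084) (nat_lit 373) (nat_lit 5) (nat_lit 396) (nat_lit 5) (nat_lit 397) (nat_lit 5) (nat_lit 459) (nat_lit 443) (nat_lit 238))) (XT.nd (nat_lit 78) (nat_lit 0) (nat_lit 76) (XT.lf (nat_lit 0) (nat_lit 1294626334) (nat_lit 1748) (nat_lit 3095062871) (nat_lit 1824) (nat_lit 12688776734) (nat_lit 373) (nat_lit 5) (nat_lit 396) (nat_lit 5) (nat_lit 397) (nat_lit 5) (nat_lit 460) (nat_lit 443) (nat_lit 237)) (XT.nd (nat_lit 78) (nat_lit 0) (nat_lit 0) (XT.lf (nat_lit 0) (nat_lit 2371845814) (nat_lit 1748) (nat_lit 11909955689) (nat_lit 1824) (nat_lit 2974547035) (nat_lit 374) (nat_lit 5) (nat_lit 397) (nat_lit 5) (nat_lit 398) (nat_lit 5) (nat_lit 461) (nat_lit 443) (nat_lit 236)) (XT.lf (nat_lit 0) (nat_lit 3514599371) (nat_lit 1748) (nat_lit 3472542005) (nat_lit 1824) (nat_lit 10449771051) (nat_lit 374)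 (nat_lit 5) (nat_lit 397) (nat_lit 5) (nat_lit 398) (nat_lit 5) (nat_lit 462) (nat_lit 443) (nat_lit 235)))))) (XT.nd (nat_lit 390) (nat_lit 2508) (nat_lit 0) (XT.nd (nat_lit 156) (nat_lit 0) (nat_lit 0) (XT.nd (nat_lit 78) (nat_lit 0) (nat_lit 0) (XT.lf (nat_lit 0) (nat_lit 4711257665) (nat_lit 1748) (nat_lit 12426428770) (nat_lit 1824) (nat_lit 482783529) (nat_lit 375) (nat_lit 5) (nat_lit 398) (nat_lit 5) (nat_lit 399) (nat_lit 5) (nat_lit 463) (nat_lit 443) (nat_lit 234)) (XT.lf (nat_lit 0) (nat_lit 5995802346) (nat_lit 1748) (nat_lit 3777232293) (nat_lit 1824) (nat_lit 8033388248) (nat_lit 375) (nat_lit 5) (nat_lit 398) (nat_lit 5) (nat_lit 399) (nat_lit 5) (nat_lit 464) (nat_lit 443) (nat_lit 233))) (XT.nd (nat_lit 78) (nat_lit 0) (nat_lit 76) (XT.lf (nat_lit 76) (nat_lit 5107422893) (nat_lit 0) (nat_lit 2226112918) (nat_lit 1824) (nat_lit 10662012333) (nat_lit 376) (nat_lit 5) (nat_lit 375) (nat_lit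 5) (nat_lit 399) (nat_lit 5) (nat_lit 465) (nat_lit 443) (nat_lit 232)) (XT.nd (nat_lit 78) (nat_lit 0) (nat_lit 0) (XT.lf (nat_lit 0) (nat_lit 8753491444) (nat_lit 1748) (nat_lit 4007272730) (nat_lit 1824) (nat_lit 5426585552) (nat_lit 376) (nat_lit 5) (nat_lit 399) (nat_lit 5) (nat_lit 400) (nat_lit 5) (nat_lit 466) (nat_lit 443) (nat_lit 231)) (XT.lf (nat_lit 76) (nat_lit 5098814223) (nat_lit 0) (nat_lit 5145414816) (nat_lit 1824) (nat_lit 8137913753) (nat_lit 377) (nat_lit 5) (nat_lit 376) (nat_lit 5) (nat_lit 400) (nat_lit 5) (nat_lit 467) (nat_lit 443) (nat_lit 230))))) (XT.nd (nat_lit 156) (nat_lit 912) (nat_lit 0) (XT.nd (nat_lit 78) (nat_lit 1748) (nat_lit 0) (XT.lf (nat_lit 0) (nat_lit 11803495125) (nat_lit 1748) (nat_lit 4160753741) (nat_lit 76) (nat_lit 2615811625) (nat_lit 377) (nat_lit 5) (nat_lit 400) (nat_lit 5) (nat_lit 378) (nat_lit 5) (nat_lit 468) (nat_lit 443) (nat_lit 229)) (XT.lf (nat_lit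 0) (nat_lit 5173540097) (nat_lit 1748) (nat_lit 8282796997) (nat_lit 1824) (nat_lit 5324354626) (nat_lit 354) (nat_lit 5) (nat_lit 377) (nat_lit 5) (nat_lit 378) (nat_lit 5) (nat_lit 469) (nat_lit 443) (nat_lit 228))) (XT.nd (nat_lit 78) (nat_lit 912) (nat_lit 0) (XT.lf (nat_lit 0) (nat_lit 14746440788) (nat_lit 1748) (nat_lit 418515228) (nat_lit 1824) (nat_lit 3819928085) (nat_lit 354) (nat_lit 5) (nat_lit 377) (nat_lit 5) (nat_lit 378) (nat_lit 5) (nat_lit 470) (nat_lit 443) (nat_lit 227)) (XT.nd (nat_lit 78) (nat_lit 0) (nat_lit 0) (XT.lf (nat_lit 0) (nat_lit 5333727145) (nat_lit 912) (nat_lit 11652920157) (nat_lit 988) (nat_lit 2204937899) (nat_lit 342) (nat_lit 5) (nat_lit 354) (nat_lit 5) (nat_lit 355) (nat_lit 5) (nat_lit 471) (nat_lit 443) (nat_lit 226)) (XT.lf (nat_lit 0) (nat_lit 15147514630) (nat_lit 912) (nat_lit 3723430048) (nat_lit 988) (nat_lit 530955014) (nat_lit 342) (nat_lit 5) (nat_lit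 354) (nat_lit 5) (nat_lit 355) (nat_lit 5) (nat_lit 472) (nat_lit 443) (nat_lit 225))))))) (XT.nd (nat_lit 780) (nat_lit 3648) (nat_lit 0) (XT.nd (nat_lit 390) (nat_lit 1520) (nat_lit 0) (XT.nd (nat_lit 156) (nat_lit 1672) (nat_lit 0) (XT.nd (nat_lit 78) (nat_lit 0) (nat_lit 0) (XT.lf (nat_lit 0) (nat_lit 1221125690) (nat_lit 988) (nat_lit 14041730073) (nat_lit 76) (nat_lit 4352213678) (nat_lit 329) (nat_lit 5) (nat_lit 342) (nat_lit 5) (nat_lit 330) (nat_lit 5) (nat_lit 473) (nat_lit 443) (nat_lit 224)) (XT.lf (nat_lit 0) (nat_lit 3049653308) (nat_lit 988) (nat_lit 4209534139) (nat_lit 76) (nat_lit 12572277302) (nat_lit 329) (nat_lit 5) (nat_lit 342) (nat_lit 5) (nat_lit 330) (nat_lit 5) (nat_lit 474) (nat_lit 443) (nat_lit 223))) (XT.nd (nat_lit 78) (nat_lit 836) (nat_lit 0) (XT.lf (nat_lit 0) (nat_lit 4954343098) (nat_lit 912) (nat_lit 14165505259) (nat_lit 76) (nat_lit 931550375) (nat_lit 318) (nat_lit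 5) (nat_lit 330) (nat_lit 5) (nat_lit 319) (nat_lit 5) (nat_lit 475) (nat_lit 443) (nat_lit 222)) (XT.nd (nat_lit 78) (nat_lit 836) (nat_lit 0) (XT.lf (nat_lit 0) (nat_lit 6968910748) (nat_lit 912) (nat_lit 4087644166) (nat_lit 76) (nat_lit 9217743349) (nat_lit 318) (nat_lit 5) (nat_lit 330) (nat_lit 5) (nat_lit 319) (nat_lit 5) (nat_lit 476) (nat_lit 443) (nat_lit 221)) (XT.lf (nat_lit 0) (nat_lit 6269581667) (nat_lit 836) (nat_lit 2790261731) (nat_lit 912) (nat_lit 11441093414) (nat_lit 307) (nat_lit 5) (nat_lit 318) (nat_lit 5) (nat_lit 319) (nat_lit 5) (nat_lit 477) (nat_lit 443) (nat_lit 220))))) (XT.nd (nat_lit 156) (nat_lit 760) (nat_lit 0) (XT.nd (nat_lit 78) (nat_lit 760) (nat_lit 0) (XT.lf (nat_lit 0) (nat_lit 11252264902) (nat_lit 912) (nat_lit 3883492634) (nat_lit 76) (nat_lit 5595159643) (nat_lit 307) (nat_lit 5) (nat_lit 319) (nat_lit 5) (nat_lit 308) (nat_lit 5) (nat_lit 478) (nat_lit 443)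 (nat_lit 219)) (XT.lf (nat_lit 0) (nat_lit 6736805812) (nat_lit 760) (nat_lit 6809467847) (nat_lit 836) (nat_lit 7418071119) (nat_lit 297) (nat_lit 5) (nat_lit 307) (nat_lit 5) (nat_lit 308) (nat_lit 5) (nat_lit 479) (nat_lit 443) (nat_lit 218))) (XT.nd (nat_lit 78) (nat_lit 760) (nat_lit 0) (XT.lf (nat_lit 0) (nat_lit 15918905132) (nat_lit 836) (nat_lit 3595329073) (nat_lit 76) (nat_lit 1687554230) (nat_lit 297) (nat_lit 5) (nat_lit 308) (nat_lit 5) (nat_lit 298) (nat_lit 5) (nat_lit 480) (nat_lit 443) (nat_lit 217)) (XT.nd (nat_lit 78) (nat_lit 0) (nat_lit 0) (XT.lf (nat_lit 0) (nat_lit 7295742268) (nat_lit 760) (nat_lit 11131378505) (nat_lit 836) (nat_lit 3015099871) (nat_lit 287) (nat_lit 5) (nat_lit 297) (nat_lit 5) (nat_lit 298) (nat_lit 5) (nat_lit 481) (nat_lit 443) (nat_lit 216)) (XT.lf (nat_lit 0) (nat_lit 18449027524) (nat_lit 760) (nat_lit 2556323445) (nat_lit 836) (nat_lit 681715787) (nat_lit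 287) (nat_lit 5) (nat_lit 297) (nat_lit 5) (nat_lit 298) (nat_lit 5) (nat_lit 482) (nat_lit 443) (nat_lit 215)))))) (XT.nd (nat_lit 390) (nat_lit 1368) (nat_lit 0) (XT.nd (nat_lit 156) (nat_lit 1444) (nat_lit 0) (XT.nd (nat_lit 78) (nat_lit 0) (nat_lit 0) (XT.lf (nat_lit 0) (nat_lit 1764243661) (nat_lit 836) (nat_lit 13998389752) (nat_lit 76) (nat_lit 6172194386) (nat_lit 276) (nat_lit 5) (nat_lit 287) (nat_lit 5) (nat_lit 277) (nat_lit 5) (nat_lit 483) (nat_lit 443) (nat_lit 214)) (XT.lf (nat_lit 0) (nat_lit 4284636556) (nat_lit 836) (nat_lit 2834772585) (nat_lit 76) (nat_lit 15067354083) (nat_lit 276) (nat_lit 5) (nat_lit 287) (nat_lit 5) (nat_lit 277) (nat_lit 5) (nat_lit 484) (nat_lit 443) (nat_lit 213))) (XT.nd (nat_lit 78) (nat_lit 684) (nat_lit 0) (XT.lf (nat_lit 0) (nat_lit 6918973610) (nat_lit 836) (nat_lit 13792657313) (nat_lit 76) (nat_lit 1730837801) (nat_lit 266) (nat_lit 5) (nat_lit 277) (nat_lit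 5) (nat_lit 267) (nat_lit 5) (nat_lit 485) (nat_lit 443) (nat_lit 212)) (XT.nd (nat_lit 78) (nat_lit 684) (nat_lit 0) (XT.lf (nat_lit 0) (nat_lit 9668259110) (nat_lit 836) (nat_lit 2352008998) (nat_lit 76) (nat_lit 10681777042) (nat_lit 266) (nat_lit 5) (nat_lit 277) (nat_lit 5) (nat_lit 267) (nat_lit 5) (nat_lit 486) (nat_lit 443) (nat_lit 211)) (XT.lf (nat_lit 0) (nat_lit 9436964959) (nat_lit 684) (nat_lit 3092880031) (nat_lit 760) (nat_lit 10435823832) (nat_lit 257) (nat_lit 5) (nat_lit 266) (nat_lit 5) (nat_lit 267) (nat_lit 5) (nat_lit 487) (nat_lit 443) (nat_lit 210))))) (XT.nd (nat_lit 234) (nat_lit 684) (nat_lit 0) (XT.nd (nat_lit 78) (nat_lit 684) (nat_lit 0) (XT.lf (nat_lit 0) (nat_lit 15499682762) (nat_lit 760) (nat_lit 1784098918) (nat_lit 76) (nat_lit 5949764855) (nat_lit 257) (nat_lit 5) (nat_lit 267) (nat_lit 5) (nat_lit 258) (nat_lit 5) (nat_lit 488) (nat_lit 443) (nat_lit 209)) (XT.nd (nat_lit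 78) (nat_lit 0) (nat_lit 0) (XT.lf (nat_lit 0) (nat_lit 10305858231) (nat_lit 684) (nat_lit 8306622493) (nat_lit 760) (nat_lit 4892631743) (nat_lit 248) (nat_lit 5) (nat_lit 257) (nat_lit 5) (nat_lit 258) (nat_lit 5) (nat_lit 489) (nat_lit 443) (nat_lit 208)) (XT.lf (nat_lit 0) (nat_lit 21801319029) (nat_lit 760) (nat_lit 1129937966) (nat_lit 76) (nat_lit 850578927) (nat_lit 248) (nat_lit 5) (nat_lit 258) (nat_lit 5) (nat_lit 249) (nat_lit 5) (nat_lit 490) (nat_lit 443) (nat_lit 207)))) (XT.nd (nat_lit 78) (nat_lit 0) (nat_lit 0) (XT.lf (nat_lit 0) (nat_lit 1102147553) (nat_lit 684) (nat_lit 12799487548) (nat_lit 76) (nat_lit 10159826250) (nat_lit 239) (nat_lit 5) (nat_lit 248) (nat_lit 5) (nat_lit 240) (nat_lit 5) (nat_lit 491) (nat_lit 443) (nat_lit 206)) (XT.nd (nat_lit 55614) (nat_lit 0) (nat_lit 11400) (XT.lf (nat_lit 0) (nat_lit 4223911192) (nat_lit 684) (nat_lit 446860676) (nat_lit 76) (nat_lit 19675568080)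 (nat_lit 239) (nat_lit 5) (nat_lit 248) (nat_lit 5) (nat_lit 240) (nat_lit 5) (nat_lit 492) (nat_lit 443) (nat_lit 205)) (XT.lf (nat_lit 0) (nat_lit 3083737381) (nat_lit 1748) (nat_lit 2134849567) (nat_lit 1748) (nat_lit 2134849567) (nat_lit 389) (nat_lit 3) (nat_lit 412) (nat_lit 3) (nat_lit 412) (nat_lit 5) (nat_lit 444) (nat_lit 444) (nat_lit 252))))))))
noncomputable def xc235 : XT := (XT.nd (nat_lit 1560) (nat_lit 7372) (nat_lit 0) (XT.nd (nat_lit 780) (nat_lit 1216) (nat_lit 0) (XT.nd (nat_lit 390) (nat_lit 0) (nat_lit 152) (XT.nd (nat_lit 156) (nat_lit 0) (nat_lit 76) (XT.nd (nat_lit 78) (nat_lit 0) (nat_lit 76) (XT.lf (nat_lit 76) (nat_lit 2602821900) (nat_lit 0) (nat_lit 3942932288) (nat_lit 1748) (nat_lit 8301675881) (nat_lit 390) (nat_lit 5) (nat_lit 389) (nat_lit 3) (nat_lit 412) (nat_lit 5) (nat_lit 445) (nat_lit 444) (nat_lit 251)) (XT.lf (nat_lit 0) (nat_lit 6969986016) (nat_lit 1672) (nat_lit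 5341405056) (nat_lit 1748) (nat_lit 2678644150) (nat_lit 390) (nat_lit 5) (nat_lit 412) (nat_lit 5) (nat_lit 413) (nat_lit 5) (nat_lit 446) (nat_lit 444) (nat_lit 250))) (XT.nd (nat_lit 78) (nat_lit 0) (nat_lit 76) (XT.lf (nat_lit 76) (nat_lit 1691768957) (nat_lit 0) (nat_lit 5740320965) (nat_lit 1748) (nat_lit 7702819426) (nat_lit 391) (nat_lit 5) (nat_lit 390) (nat_lit 5) (nat_lit 413) (nat_lit 5) (nat_lit 447) (nat_lit 444) (nat_lit 249)) (XT.nd (nat_lit 78) (nat_lit 0) (nat_lit 0) (XT.lf (nat_lit 0) (nat_lit 7938201810) (nat_lit 1672) (nat_lit 6354757934) (nat_lit 1748) (nat_lit 989030422) (nat_lit 391) (nat_lit 5) (nat_lit 413) (nat_lit 5) (nat_lit 414) (nat_lit 5) (nat_lit 448) (nat_lit 444) (nat_lit 248)) (XT.lf (nat_lit 76) (nat_lit 844213492) (nat_lit 0) (nat_lit 7646305126) (nat_lit 1748) (nat_lit 6940776768) (nat_lit 392) (nat_lit 5) (nat_lit 391) (nat_lit 5) (nat_lit 414) (nat_lit 5) (nat_lit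 449) (nat_lit 444) (nat_lit 247))))) (XT.nd (nat_lit 156) (nat_lit 0) (nat_lit 76) (XT.nd (nat_lit 78) (nat_lit 0) (nat_lit 76) (XT.lf (nat_lit 76) (nat_lit 8269097306) (nat_lit 0) (nat_lit 820132397) (nat_lit 1748) (nat_lit 6493654401) (nat_lit 392) (nat_lit 5) (nat_lit 391) (nat_lit 5) (nat_lit 414) (nat_lit 5) (nat_lit 450) (nat_lit 444) (nat_lit 246)) (XT.lf (nat_lit 76) (nat_lit 61608669) (nat_lit 0) (nat_lit 9671454827) (nat_lit 1748) (nat_lit 6003782397) (nat_lit 393) (nat_lit 5) (nat_lit 392) (nat_lit 5) (nat_lit 415) (nat_lit 5) (nat_lit 451) (nat_lit 444) (nat_lit 245))) (XT.nd (nat_lit 78) (nat_lit 0) (nat_lit 76) (XT.lf (nat_lit 76) (nat_lit 7673885130) (nat_lit 0) (nat_lit 2763342869) (nat_lit 1748) (nat_lit 5455714022) (nat_lit 393) (nat_lit 5) (nat_lit 392) (nat_lit 5) (nat_lit 415) (nat_lit 5) (nat_lit 452) (nat_lit 444) (nat_lit 244)) (XT.nd (nat_lit 78) (nat_lit 0) (nat_lit 0) (XT.lf (nat_lit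 0) (nat_lit 11176417706) (nat_lit 1672) (nat_lit 645900001) (nat_lit 1748) (nat_lit 4229427627) (nat_lit 393) (nat_lit 5) (nat_lit 415) (nat_lit 5) (nat_lit 416) (nat_lit 5) (nat_lit 453) (nat_lit 444) (nat_lit 243)) (XT.lf (nat_lit 76) (nat_lit 7149938136) (nat_lit 0) (nat_lit 4838444400) (nat_lit 1748) (nat_lit 4224186372) (nat_lit 394) (nat_lit 5) (nat_lit 393) (nat_lit 5) (nat_lit 416) (nat_lit 5) (nat_lit 454) (nat_lit 444) (nat_lit 242)))))) (XT.nd (nat_lit 390) (nat_lit 1596) (nat_lit 0) (XT.nd (nat_lit 156) (nat_lit 0) (nat_lit 76) (XT.nd (nat_lit 78) (nat_lit 0) (nat_lit 0) (XT.lf (nat_lit 0) (nat_lit 12829175153) (nat_lit 1672) (nat_lit 1285317415) (nat_lit 1748) (nat_lit 2261868556) (nat_lit 394) (nat_lit 5) (nat_lit 416) (nat_lit 5) (nat_lit 417) (nat_lit 5) (nat_lit 455) (nat_lit 444) (nat_lit 241)) (XT.lf (nat_lit 76) (nat_lit 6699066442) (nat_lit 0) (nat_lit 7056773297) (nat_lit 1748) (nat_lit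 2786212189) (nat_lit 395) (nat_lit 5) (nat_lit 394) (nat_lit 5) (nat_lit 417) (nat_lit 5) (nat_lit 456) (nat_lit 444) (nat_lit 240))) (XT.nd (nat_lit 78) (nat_lit 0) (nat_lit 0) (XT.lf (nat_lit 0) (nat_lit 14704274310) (nat_lit 1672) (nat_lit 1855712466) (nat_lit 1748) (nat_lit 151008827) (nat_lit 395) (nat_lit 5) (nat_lit 417) (nat_lit 5) (nat_lit 418) (nat_lit 5) (nat_lit 457) (nat_lit 444) (nat_lit 239)) (XT.nd (nat_lit 78) (nat_lit 0) (nat_lit 0) (XT.lf (nat_lit 76) (nat_lit 6323179022) (nat_lit 0) (nat_lit 9430043090) (nat_lit 1748) (nat_lit 1128468862) (nat_lit 396) (nat_lit 5) (nat_lit 395) (nat_lit 5) (nat_lit 418) (nat_lit 5) (nat_lit 458) (nat_lit 444) (nat_lit 238)) (XT.lf (nat_lit 76) (nat_lit 14686508429) (nat_lit 0) (nat_lit 2142944457) (nat_lit 1748) (nat_lit 226224930) (nat_lit 396) (nat_lit 5) (nat_lit 395) (nat_lit 5) (nat_lit 418) (nat_lit 5) (nat_lit 459) (nat_lit 444) (nat_lit 237)))))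 (XT.nd (nat_lit 156) (nat_lit 0) (nat_lit 76) (XT.nd (nat_lit 78) (nat_lit 0) (nat_lit 0) (XT.lf (nat_lit 0) (nat_lit 752846918) (nat_lit 1748) (nat_lit 11212474365) (nat_lit 1824) (nat_lit 5266378768) (nat_lit 373) (nat_lit 5) (nat_lit 396) (nat_lit 5) (nat_lit 397) (nat_lit 5) (nat_lit 460) (nat_lit 444) (nat_lit 236)) (XT.lf (nat_lit 0) (nat_lit 1772700037) (nat_lit 1748) (nat_lit 2823617015) (nat_lit 1824) (nat_lit 12814414624) (nat_lit 373) (nat_lit 5) (nat_lit 396) (nat_lit 5) (nat_lit 397) (nat_lit 5) (nat_lit 461) (nat_lit 444) (nat_lit 235))) (XT.nd (nat_lit 78) (nat_lit 0) (nat_lit 0) (XT.lf (nat_lit 0) (nat_lit 2864005499) (nat_lit 1748) (nat_lit 11807094421) (nat_lit 1824) (nat_lit 2921226273) (nat_lit 374) (nat_lit 5) (nat_lit 397) (nat_lit 5) (nat_lit 398) (nat_lit 5) (nat_lit 462) (nat_lit 444) (nat_lit 234)) (XT.nd (nat_lit 78) (nat_lit 0) (nat_lit 76) (XT.lf (nat_lit 0) (nat_lit 4020894073)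 (nat_lit 1748) (nat_lit 3207619921) (nat_lit 1824) (nat_lit 10548166764) (nat_lit 374) (nat_lit 5) (nat_lit 397) (nat_lit 5) (nat_lit 398) (nat_lit 5) (nat_lit 463) (nat_lit 444) (nat_lit 233)) (XT.lf (nat_lit 0) (nat_lit 5234460521) (nat_lit 1748) (nat_lit 12333314446) (nat_lit 1824) (nat_lit 396279879) (nat_lit 375) (nat_lit 5) (nat_lit 398) (nat_lit 5) (nat_lit 399) (nat_lit 5) (nat_lit 464) (nat_lit 444) (nat_lit 232))))))) (XT.nd (nat_lit 780) (nat_lit 4028) (nat_lit 0) (XT.nd (nat_lit 390) (nat_lit 3496) (nat_lit 0) (XT.nd (nat_lit 156) (nat_lit 0) (nat_lit 76) (XT.nd (nat_lit 78) (nat_lit 0) (nat_lit 0) (XT.lf (nat_lit 0) (nat_lit 6536284768) (nat_lit 1748) (nat_lit 3517832920) (nat_lit 1824) (nat_lit 8099782169) (nat_lit 375) (nat_lit 5) (nat_lit 398) (nat_lit 5) (nat_lit 399) (nat_lit 5) (nat_lit 465) (nat_lit 444) (nat_lit 231)) (XT.lf (nat_lit 76) (nat_lit 5542311791) (nat_lit 0) (nat_lit 2352375083)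 (nat_lit 1824) (nat_lit 10452247174) (nat_lit 376) (nat_lit 5) (nat_lit 375) (nat_lit 5) (nat_lit 399) (nat_lit 5) (nat_lit 466) (nat_lit 444) (nat_lit 230))) (XT.nd (nat_lit 78) (nat_lit 0) (nat_lit 0) (XT.lf (nat_lit 0) (nat_lit 9334394251) (nat_lit 1748) (nat_lit 3752323863) (nat_lit 1824) (nat_lit 5456031113) (nat_lit 376) (nat_lit 5) (nat_lit 399) (nat_lit 5) (nat_lit 400) (nat_lit 5) (nat_lit 467) (nat_lit 444) (nat_lit 229)) (XT.nd (nat_lit 78) (nat_lit 0) (nat_lit 76) (XT.lf (nat_lit 76) (nat_lit 5533680262) (nat_lit 0) (nat_lit 5315470168) (nat_lit 1824) (nat_lit 7892408173) (nat_lit 377) (nat_lit 5) (nat_lit 376) (nat_lit 5) (nat_lit 400) (nat_lit 5) (nat_lit 468) (nat_lit 444) (nat_lit 228)) (XT.lf (nat_lit 0) (nat_lit 12431330563) (nat_lit 1748) (nat_lit 3909113166) (nat_lit 76) (nat_lit 2603160789) (nat_lit 377) (nat_lit 5) (nat_lit 400) (nat_lit 5) (nat_lit 378) (nat_lit 5) (nat_lit 469) (nat_lit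 444) (nat_lit 227))))) (XT.nd (nat_lit 156) (nat_lit 1900) (nat_lit 0) (XT.nd (nat_lit 78) (nat_lit 0) (nat_lit 0) (XT.lf (nat_lit 0) (nat_lit 5609663551) (nat_lit 1748) (nat_lit 8502043945) (nat_lit 1824) (nat_lit 5036655664) (nat_lit 354) (nat_lit 5) (nat_lit 377) (nat_lit 5) (nat_lit 378) (nat_lit 5) (nat_lit 470) (nat_lit 444) (nat_lit 226)) (XT.lf (nat_lit 0) (nat_lit 15367499655) (nat_lit 1748) (nat_lit 479425736) (nat_lit 1824) (nat_lit 3509869730) (nat_lit 354) (nat_lit 5) (nat_lit 377) (nat_lit 5) (nat_lit 378) (nat_lit 5) (nat_lit 471) (nat_lit 444) (nat_lit 225))) (XT.nd (nat_lit 78) (nat_lit 988) (nat_lit 0) (XT.lf (nat_lit 0) (nat_lit 5772460462) (nat_lit 912) (nat_lit 11926986643) (nat_lit 988) (nat_lit 1868299388) (nat_lit 342) (nat_lit 5) (nat_lit 354) (nat_lit 5) (nat_lit 355) (nat_lit 5) (nat_lit 472) (nat_lit 444) (nat_lit 224)) (XT.nd (nat_lit 78) (nat_lit 988) (nat_lit 0) (XT.lf (nat_lit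 0) (nat_lit 15776012740) (nat_lit 912) (nat_lit 3838102652) (nat_lit 988) (nat_lit 168302282) (nat_lit 342) (nat_lit 5) (nat_lit 354) (nat_lit 5) (nat_lit 355) (nat_lit 5) (nat_lit 473) (nat_lit 444) (nat_lit 223)) (XT.lf (nat_lit 0) (nat_lit 1608608028) (nat_lit 988) (nat_lit 13986406878) (nat_lit 76) (nat_lit 4404897712) (nat_lit 329) (nat_lit 5) (nat_lit 342) (nat_lit 5) (nat_lit 330) (nat_lit 5) (nat_lit 474) (nat_lit 444) (nat_lit 222)))))) (XT.nd (nat_lit 390) (nat_lit 2356) (nat_lit 0) (XT.nd (nat_lit 156) (nat_lit 836) (nat_lit 0) (XT.nd (nat_lit 78) (nat_lit 836) (nat_lit 0) (XT.lf (nat_lit 0) (nat_lit 3466587378) (nat_lit 988) (nat_lit 3964158355) (nat_lit 76) (nat_lit 12790036338) (nat_lit 329) (nat_lit 5) (nat_lit 342) (nat_lit 5) (nat_lit 330) (nat_lit 5) (nat_lit 475) (nat_lit 444) (nat_lit 221)) (XT.lf (nat_lit 0) (nat_lit 5404363610) (nat_lit 912) (nat_lit 14114052177) (nat_lit 76) (nat_lit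 926802882) (nat_lit 318) (nat_lit 5) (nat_lit 330) (nat_lit 5) (nat_lit 319) (nat_lit 5) (nat_lit 476) (nat_lit 444) (nat_lit 220))) (XT.nd (nat_lit 78) (nat_lit 836) (nat_lit 0) (XT.lf (nat_lit 0) (nat_lit 7452341561) (nat_lit 912) (nat_lit 3841197847) (nat_lit 76) (nat_lit 9379178117) (nat_lit 318) (nat_lit 5) (nat_lit 330) (nat_lit 5) (nat_lit 319) (nat_lit 5) (nat_lit 477) (nat_lit 444) (nat_lit 219)) (XT.nd (nat_lit 78) (nat_lit 0) (nat_lit 0) (XT.lf (nat_lit 0) (nat_lit 6721013297) (nat_lit 836) (nat_lit 2859450304) (nat_lit 912) (nat_lit 11323521468) (nat_lit 307) (nat_lit 5) (nat_lit 318) (nat_lit 5) (nat_lit 319) (nat_lit 5) (nat_lit 478) (nat_lit 444) (nat_lit 218)) (XT.lf (nat_lit 0) (nat_lit 11809992987) (nat_lit 912) (nat_lit 3634596437) (nat_lit 76) (nat_lit 5694113999) (nat_lit 307) (nat_lit 5) (nat_lit 319) (nat_lit 5) (nat_lit 308) (nat_lit 5) (nat_lit 479) (nat_lit 444) (nat_lit 217)))))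 (XT.nd (nat_lit 234) (nat_lit 836) (nat_lit 0) (XT.nd (nat_lit 78) (nat_lit 760) (nat_lit 0) (XT.lf (nat_lit 0) (nat_lit 7195959516) (nat_lit 760) (nat_lit 6949505545) (nat_lit 836) (nat_lit 7231426350) (nat_lit 297) (nat_lit 5) (nat_lit 307) (nat_lit 5) (nat_lit 308) (nat_lit 5) (nat_lit 480) (nat_lit 444) (nat_lit 216)) (XT.nd (nat_lit 78) (nat_lit 760) (nat_lit 0) (XT.lf (nat_lit 0) (nat_lit 16559088081) (nat_lit 836) (nat_lit 3342546599) (nat_lit 76) (nat_lit 1717581913) (nat_lit 297) (nat_lit 5) (nat_lit 308) (nat_lit 5) (nat_lit 298) (nat_lit 5) (nat_lit 481) (nat_lit 444) (nat_lit 215)) (XT.lf (nat_lit 0) (nat_lit 7764210057) (nat_lit 760) (nat_lit 11349042306) (nat_lit 836) (nat_lit 2751292759) (nat_lit 287) (nat_lit 5) (nat_lit 297) (nat_lit 5) (nat_lit 298) (nat_lit 5) (nat_lit 482) (nat_lit 444) (nat_lit 214)))) (XT.nd (nat_lit 78) (nat_lit 836) (nat_lit 0) (XT.lf (nat_lit 0) (nat_lit 19134236451)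 (nat_lit 760) (nat_lit 2602583474) (nat_lit 836) (nat_lit 377596073) (nat_lit 287) (nat_lit 5) (nat_lit 297) (nat_lit 5) (nat_lit 298) (nat_lit 5) (nat_lit 483) (nat_lit 444) (nat_lit 213)) (XT.nd (nat_lit 78) (nat_lit 0) (nat_lit 0) (XT.lf (nat_lit 0) (nat_lit 2109092047) (nat_lit 836) (nat_lit 13953618581) (nat_lit 76) (nat_lit 6304464003) (nat_lit 276) (nat_lit 5) (nat_lit 287) (nat_lit 5) (nat_lit 277) (nat_lit 5) (nat_lit 484) (nat_lit 444) (nat_lit 212)) (XT.lf (nat_lit 0) (nat_lit 4673822927) (nat_lit 836) (nat_lit 2573096502) (nat_lit 76) (nat_lit 15377353842) (nat_lit 276) (nat_lit 5) (nat_lit 287) (nat_lit 5) (nat_lit 277) (nat_lit 5) (nat_lit 485) (nat_lit 444) (nat_lit 211))))))))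
noncomputable def xc236 : XT := (XT.nd (nat_lit 57174) (nat_lit 0) (nat_lit 6004) (XT.nd (nat_lit 56394) (nat_lit 0) (nat_lit 11476) (XT.nd (nat_lit 390) (nat_lit 684) (nat_lit 0) (XT.nd (nat_lit 156) (nat_lit 1368) (nat_lit 0) (XT.nd (nat_lit 78) (nat_lit 0) (nat_lit 0) (XT.lf (nat_lit 0) (nat_lit 7357057649) (nat_lit 836) (nat_lit 13746197551) (nat_lit 76) (nat_lit 1781916508) (nat_lit 266) (nat_lit 5) (nat_lit 277) (nat_lit 5) (nat_lit 267) (nat_lit 5) (nat_lit 486) (nat_lit 444) (nat_lit 210)) (XT.lf (nat_lit 0) (nat_lit 10155452299) (nat_lit 836) (nat_lit 2083056130) (nat_lit 76) (nat_lit 10911551750) (nat_lit 266) (nat_lit 5) (nat_lit 277) (nat_lit 5) (nat_lit 267) (nat_lit 5) (nat_lit 487) (nat_lit 444) (nat_lit 209))) (XT.nd (nat_lit 78) (nat_lit 684) (nat_lit 0) (XT.lf (nat_lit 0) (nat_lit 9939618403) (nat_lit 684) (nat_lit 3130928299) (nat_lit 760) (nat_lit 10348487015) (nat_lit 257) (nat_lit 5)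 (nat_lit 266) (nat_lit 5) (nat_lit 267) (nat_lit 5) (nat_lit 488) (nat_lit 444) (nat_lit 208)) (XT.nd (nat_lit 78) (nat_lit 684) (nat_lit 0) (XT.lf (nat_lit 0) (nat_lit 16094244455) (nat_lit 760) (nat_lit 1506341640) (nat_lit 76) (nat_lit 6091796495) (nat_lit 257) (nat_lit 5) (nat_lit 267) (nat_lit 5) (nat_lit 258) (nat_lit 5) (nat_lit 489) (nat_lit 444) (nat_lit 207)) (XT.lf (nat_lit 0) (nat_lit 10823352551) (nat_lit 684) (nat_lit 8442387726) (nat_lit 760) (nat_lit 4703713539) (nat_lit 248) (nat_lit 5) (nat_lit 257) (nat_lit 5) (nat_lit 258) (nat_lit 5) (nat_lit 490) (nat_lit 444) (nat_lit 206))))) (XT.nd (nat_lit 55770) (nat_lit 0) (nat_lit 11400) (XT.nd (nat_lit 78) (nat_lit 684) (nat_lit 0) (XT.lf (nat_lit 0) (nat_lit 22513038648) (nat_lit 760) (nat_lit 841810361) (nat_lit 76) (nat_lit 896971825) (nat_lit 248) (nat_lit 5) (nat_lit 258) (nat_lit 5) (nat_lit 249) (nat_lit 5) (nat_lit 491) (nat_lit 444)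 (nat_lit 205)) (XT.lf (nat_lit 0) (nat_lit 1398418881) (nat_lit 684) (nat_lit 12743018251) (nat_lit 76) (nat_lit 10395636292) (nat_lit 239) (nat_lit 5) (nat_lit 248) (nat_lit 5) (nat_lit 240) (nat_lit 5) (nat_lit 492) (nat_lit 444) (nat_lit 204))) (XT.nd (nat_lit 78) (nat_lit 0) (nat_lit 0) (XT.lf (nat_lit 0) (nat_lit 3443171674) (nat_lit 1748) (nat_lit 2025599974) (nat_lit 1748) (nat_lit 2025599974) (nat_lit 389) (nat_lit 3) (nat_lit 412) (nat_lit 3) (nat_lit 412) (nat_lit 5) (nat_lit 445) (nat_lit 445) (nat_lit 250)) (XT.nd (nat_lit 78) (nat_lit 0) (nat_lit 76) (XT.lf (nat_lit 76) (nat_lit 2956772210) (nat_lit 0) (nat_lit 4305699402) (nat_lit 1748) (nat_lit 7869841143) (nat_lit 390) (nat_lit 5) (nat_lit 389) (nat_lit 3) (nat_lit 412) (nat_lit 5) (nat_lit 446) (nat_lit 445) (nat_lit 249)) (XT.lf (nat_lit 0) (nat_lit 7681894577) (nat_lit 1672) (nat_lit 5138622265) (nat_lit 1748) (nat_lit 2457525898) (nat_lit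 390) (nat_lit 5) (nat_lit 412) (nat_lit 5) (nat_lit 413) (nat_lit 5) (nat_lit 447) (nat_lit 445) (nat_lit 248)))))) (XT.nd (nat_lit 390) (nat_lit 0) (nat_lit 152) (XT.nd (nat_lit 156) (nat_lit 0) (nat_lit 76) (XT.nd (nat_lit 78) (nat_lit 0) (nat_lit 76) (XT.lf (nat_lit 76) (nat_lit 2033178314) (nat_lit 0) (nat_lit 6110833557) (nat_lit 1748) (nat_lit 7281993777) (nat_lit 391) (nat_lit 5) (nat_lit 390) (nat_lit 5) (nat_lit 413) (nat_lit 5) (nat_lit 448) (nat_lit 445) (nat_lit 247)) (XT.lf (nat_lit 0) (nat_lit 8647573628) (nat_lit 1672) (nat_lit 6167307917) (nat_lit 1748) (nat_lit 761406579) (nat_lit 391) (nat_lit 5) (nat_lit 413) (nat_lit 5) (nat_lit 414) (nat_lit 5) (nat_lit 449) (nat_lit 445) (nat_lit 246))) (XT.nd (nat_lit 78) (nat_lit 0) (nat_lit 0) (XT.lf (nat_lit 76) (nat_lit 1173573561) (nat_lit 0) (nat_lit 8028595780) (nat_lit 1748) (nat_lit 6526591920) (nat_lit 392) (nat_lit 5) (nat_lit 391) (nat_lit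 5) (nat_lit 414) (nat_lit 5) (nat_lit 450) (nat_lit 445) (nat_lit 245)) (XT.nd (nat_lit 78) (nat_lit 0) (nat_lit 76) (XT.lf (nat_lit 76) (nat_lit 8740828074) (nat_lit 0) (nat_lit 1061402253) (nat_lit 1748) (nat_lit 6081370251) (nat_lit 392) (nat_lit 5) (nat_lit 391) (nat_lit 5) (nat_lit 414) (nat_lit 5) (nat_lit 451) (nat_lit 445) (nat_lit 244)) (XT.lf (nat_lit 76) (nat_lit 379493821) (nat_lit 0) (nat_lit 10069655536) (nat_lit 1748) (nat_lit 5591694288) (nat_lit 393) (nat_lit 5) (nat_lit 392) (nat_lit 5) (nat_lit 415) (nat_lit 5) (nat_lit 452) (nat_lit 445) (nat_lit 243))))) (XT.nd (nat_lit 156) (nat_lit 0) (nat_lit 76) (XT.nd (nat_lit 78) (nat_lit 0) (nat_lit 76) (XT.lf (nat_lit 76) (nat_lit 8137806929) (nat_lit 0) (nat_lit 3019366210) (nat_lit 1748) (nat_lit 5043099129) (nat_lit 393) (nat_lit 5) (nat_lit 392) (nat_lit 5) (nat_lit 415) (nat_lit 5) (nat_lit 453) (nat_lit 445) (nat_lit 242)) (XT.lf (nat_lit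 0) (nat_lit 11899845213) (nat_lit 1672) (nat_lit 342861007) (nat_lit 1748) (nat_lit 4119777428) (nat_lit 393) (nat_lit 5) (nat_lit 415) (nat_lit 5) (nat_lit 416) (nat_lit 5) (nat_lit 454) (nat_lit 445) (nat_lit 241))) (XT.nd (nat_lit 78) (nat_lit 0) (nat_lit 76) (XT.lf (nat_lit 76) (nat_lit 7606815228) (nat_lit 0) (nat_lit 5113470073) (nat_lit 1748) (nat_lit 3806399527) (nat_lit 394) (nat_lit 5) (nat_lit 393) (nat_lit 5) (nat_lit 416) (nat_lit 5) (nat_lit 455) (nat_lit 445) (nat_lit 240)) (XT.nd (nat_lit 78) (nat_lit 0) (nat_lit 0) (XT.lf (nat_lit 0) (nat_lit 13567109394) (nat_lit 1672) (nat_lit 992228520) (nat_lit 1748) (nat_lit 2134636403) (nat_lit 394) (nat_lit 5) (nat_lit 416) (nat_lit 5) (nat_lit 417) (nat_lit 5) (nat_lit 456) (nat_lit 445) (nat_lit 239)) (XT.lf (nat_lit 76) (nat_lit 7149745677) (nat_lit 0) (nat_lit 7355179558) (nat_lit 1748) (nat_lit 2358206970) (nat_lit 395) (nat_lit 5) (nat_lit 394)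 (nat_lit 5) (nat_lit 417) (nat_lit 5) (nat_lit 457) (nat_lit 445) (nat_lit 238))))))) (XT.nd (nat_lit 780) (nat_lit 4104) (nat_lit 0) (XT.nd (nat_lit 390) (nat_lit 0) (nat_lit 152) (XT.nd (nat_lit 156) (nat_lit 1748) (nat_lit 0) (XT.nd (nat_lit 78) (nat_lit 0) (nat_lit 0) (XT.lf (nat_lit 0) (nat_lit 15462033909) (nat_lit 1672) (nat_lit 1571768114) (nat_lit 1748) (nat_lit 1864141) (nat_lit 395) (nat_lit 5) (nat_lit 417) (nat_lit 5) (nat_lit 418) (nat_lit 5) (nat_lit 458) (nat_lit 445) (nat_lit 237)) (XT.lf (nat_lit 76) (nat_lit 6768588977) (nat_lit 0) (nat_lit 9756350853) (nat_lit 1748) (nat_lit 684981439) (nat_lit 396) (nat_lit 5) (nat_lit 395) (nat_lit 5) (nat_lit 418) (nat_lit 5) (nat_lit 459) (nat_lit 445) (nat_lit 236))) (XT.nd (nat_lit 78) (nat_lit 0) (nat_lit 76) (XT.lf (nat_lit 0) (nat_lit 223202755) (nat_lit 1748) (nat_lit 2096109548) (nat_lit 1824) (nat_lit 15068230557) (nat_lit 372) (nat_lit 5)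 (nat_lit 395) (nat_lit 5) (nat_lit 396) (nat_lit 5) (nat_lit 460) (nat_lit 445) (nat_lit 235)) (XT.nd (nat_lit 78) (nat_lit 0) (nat_lit 0) (XT.lf (nat_lit 0) (nat_lit 1211218736) (nat_lit 1748) (nat_lit 11109912957) (nat_lit 1824) (nat_lit 5246081201) (nat_lit 373) (nat_lit 5) (nat_lit 396) (nat_lit 5) (nat_lit 397) (nat_lit 5) (nat_lit 461) (nat_lit 445) (nat_lit 234)) (XT.lf (nat_lit 0) (nat_lit 2242776469) (nat_lit 1748) (nat_lit 2559686517) (nat_lit 1824) (nat_lit 12947541012) (nat_lit 373) (nat_lit 5) (nat_lit 396) (nat_lit 5) (nat_lit 397) (nat_lit 5) (nat_lit 462) (nat_lit 445) (nat_lit 233))))) (XT.nd (nat_lit 156) (nat_lit 0) (nat_lit 76) (XT.nd (nat_lit 78) (nat_lit 0) (nat_lit 0) (XT.lf (nat_lit 0) (nat_lit 3348739251) (nat_lit 1748) (nat_lit 11715419717) (nat_lit 1824) (nat_lit 2871219711) (nat_lit 374) (nat_lit 5) (nat_lit 397) (nat_lit 5) (nat_lit 398) (nat_lit 5) (nat_lit 463) (nat_lit 445)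 (nat_lit 232)) (XT.lf (nat_lit 0) (nat_lit 4520384152) (nat_lit 1748) (nat_lit 2950383504) (nat_lit 1824) (nat_lit 10652825112) (nat_lit 374) (nat_lit 5) (nat_lit 397) (nat_lit 5) (nat_lit 398) (nat_lit 5) (nat_lit 464) (nat_lit 445) (nat_lit 231))) (XT.nd (nat_lit 78) (nat_lit 0) (nat_lit 0) (XT.lf (nat_lit 0) (nat_lit 5751469707) (nat_lit 1748) (nat_lit 12251604246) (nat_lit 1824) (nat_lit 311780139) (nat_lit 375) (nat_lit 5) (nat_lit 398) (nat_lit 5) (nat_lit 399) (nat_lit 5) (nat_lit 465) (nat_lit 445) (nat_lit 230)) (XT.nd (nat_lit 78) (nat_lit 0) (nat_lit 0) (XT.lf (nat_lit 0) (nat_lit 7071245734) (nat_lit 1748) (nat_lit 3266251843) (nat_lit 1824) (nat_lit 8171164736) (nat_lit 375) (nat_lit 5) (nat_lit 398) (nat_lit 5) (nat_lit 399) (nat_lit 5) (nat_lit 466) (nat_lit 445) (nat_lit 229)) (XT.lf (nat_lit 76) (nat_lit 5972977750) (nat_lit 0) (nat_lit 2477988432) (nat_lit 1824) (nat_lit 10254712527) (nat_lit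 376) (nat_lit 5) (nat_lit 375) (nat_lit 5) (nat_lit 399) (nat_lit 5) (nat_lit 467) (nat_lit 445) (nat_lit 228)))))) (XT.nd (nat_lit 390) (nat_lit 2736) (nat_lit 0) (XT.nd (nat_lit 156) (nat_lit 1672) (nat_lit 0) (XT.nd (nat_lit 78) (nat_lit 0) (nat_lit 0) (XT.lf (nat_lit 0) (nat_lit 9911156124) (nat_lit 1748) (nat_lit 3505288138) (nat_lit 1824) (nat_lit 5489136597) (nat_lit 376) (nat_lit 5) (nat_lit 399) (nat_lit 5) (nat_lit 400) (nat_lit 5) (nat_lit 468) (nat_lit 445) (nat_lit 227)) (XT.lf (nat_lit 76) (nat_lit 5964317107) (nat_lit 0) (nat_lit 5486319224) (nat_lit 1824) (nat_lit 7657845865) (nat_lit 377) (nat_lit 5) (nat_lit 376) (nat_lit 5) (nat_lit 400) (nat_lit 5) (nat_lit 469) (nat_lit 445) (nat_lit 226))) (XT.nd (nat_lit 78) (nat_lit 1748) (nat_lit 0) (XT.lf (nat_lit 0) (nat_lit 13056509977) (nat_lit 1748) (nat_lit 3665442632) (nat_lit 76) (nat_lit 2592779687) (nat_lit 377) (nat_lit 5) (nat_lit 400)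 (nat_lit 5) (nat_lit 378) (nat_lit 5) (nat_lit 470) (nat_lit 445) (nat_lit 225)) (XT.nd (nat_lit 78) (nat_lit 0) (nat_lit 0) (XT.lf (nat_lit 0) (nat_lit 6041592167) (nat_lit 1748) (nat_lit 8723594828) (nat_lit 1824) (nat_lit 4758509447) (nat_lit 354) (nat_lit 5) (nat_lit 377) (nat_lit 5) (nat_lit 378) (nat_lit 5) (nat_lit 471) (nat_lit 445) (nat_lit 224)) (XT.lf (nat_lit 0) (nat_lit 15988315672) (nat_lit 1748) (nat_lit 539514255) (nat_lit 1824) (nat_lit 3208616802) (nat_lit 354) (nat_lit 5) (nat_lit 377) (nat_lit 5) (nat_lit 378) (nat_lit 5) (nat_lit 472) (nat_lit 445) (nat_lit 223))))) (XT.nd (nat_lit 234) (nat_lit 836) (nat_lit 0) (XT.nd (nat_lit 78) (nat_lit 988) (nat_lit 0) (XT.lf (nat_lit 0) (nat_lit 6207074197) (nat_lit 912) (nat_lit 12204942065) (nat_lit 988) (nat_lit 1539712600) (nat_lit 342) (nat_lit 5) (nat_lit 354) (nat_lit 5) (nat_lit 355) (nat_lit 5) (nat_lit 473) (nat_lit 445) (nat_lit 222))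 (XT.nd (nat_lit 78) (nat_lit 912) (nat_lit 0) (XT.lf (nat_lit 0) (nat_lit 184654936) (nat_lit 988) (nat_lit 3767613470) (nat_lit 76) (nat_lit 16218545325) (nat_lit 341) (nat_lit 5) (nat_lit 354) (nat_lit 5) (nat_lit 342) (nat_lit 5) (nat_lit 474) (nat_lit 445) (nat_lit 221)) (XT.lf (nat_lit 0) (nat_lit 1989741958) (nat_lit 988) (nat_lit 13943030636) (nat_lit 76) (nat_lit 4459969676) (nat_lit 329) (nat_lit 5) (nat_lit 342) (nat_lit 5) (nat_lit 330) (nat_lit 5) (nat_lit 475) (nat_lit 445) (nat_lit 220)))) (XT.nd (nat_lit 78) (nat_lit 836) (nat_lit 0) (XT.lf (nat_lit 0) (nat_lit 3878038507) (nat_lit 988) (nat_lit 3726672523) (nat_lit 76) (nat_lit 13013458643) (nat_lit 329) (nat_lit 5) (nat_lit 342) (nat_lit 5) (nat_lit 330) (nat_lit 5) (nat_lit 476) (nat_lit 445) (nat_lit 219)) (XT.nd (nat_lit 78) (nat_lit 0) (nat_lit 0) (XT.lf (nat_lit 0) (nat_lit 5849757350) (nat_lit 912) (nat_lit 14074569296) (nat_lit 76)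 (nat_lit 922868254) (nat_lit 318) (nat_lit 5) (nat_lit 330) (nat_lit 5) (nat_lit 319) (nat_lit 5) (nat_lit 477) (nat_lit 445) (nat_lit 218)) (XT.lf (nat_lit 0) (nat_lit 7932081008) (nat_lit 912) (nat_lit 3602566976) (nat_lit 76) (nat_lit 9544731595) (nat_lit 318) (nat_lit 5) (nat_lit 330) (nat_lit 5) (nat_lit 319) (nat_lit 5) (nat_lit 478) (nat_lit 445) (nat_lit 217))))))))
noncomputable def xc237 : XT := (XT.nd (nat_lit 57252) (nat_lit 0) (nat_lit 8056) (XT.nd (nat_lit 780) (nat_lit 1368) (nat_lit 0) (XT.nd (nat_lit 390) (nat_lit 1596) (nat_lit 0) (XT.nd (nat_lit 156) (nat_lit 1520) (nat_lit 0) (XT.nd (nat_lit 78) (nat_lit 0) (nat_lit 0) (XT.lf (nat_lit 0) (nat_lit 7168813030) (nat_lit 836) (nat_lit 2929502958) (nat_lit 912) (nat_lit 11217048976) (nat_lit 307) (nat_lit 5) (nat_lit 318) (nat_lit 5) (nat_lit 319) (nat_lit 5) (nat_lit 479) (nat_lit 445) (nat_lit 216)) (XT.lf (nat_lit 0) (nat_lit 12365957156)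 (nat_lit 912) (nat_lit 3393403275) (nat_lit 76) (nat_lit 5795550261) (nat_lit 307) (nat_lit 5) (nat_lit 319) (nat_lit 5) (nat_lit 308) (nat_lit 5) (nat_lit 480) (nat_lit 445) (nat_lit 215))) (XT.nd (nat_lit 78) (nat_lit 760) (nat_lit 0) (XT.lf (nat_lit 0) (nat_lit 7651698764) (nat_lit 760) (nat_lit 7092194562) (nat_lit 836) (nat_lit 7054057383) (nat_lit 297) (nat_lit 5) (nat_lit 307) (nat_lit 5) (nat_lit 308) (nat_lit 5) (nat_lit 481) (nat_lit 445) (nat_lit 214)) (XT.nd (nat_lit 78) (nat_lit 760) (nat_lit 0) (XT.lf (nat_lit 0) (nat_lit 17199578615) (nat_lit 836) (nat_lit 3097316547) (nat_lit 76) (nat_lit 1748354734) (nat_lit 297) (nat_lit 5) (nat_lit 308) (nat_lit 5) (nat_lit 298) (nat_lit 5) (nat_lit 482) (nat_lit 445) (nat_lit 213)) (XT.lf (nat_lit 0) (nat_lit 8229522078) (nat_lit 760) (nat_lit 11571252133) (nat_lit 836) (nat_lit 2494795056) (nat_lit 287) (nat_lit 5) (nat_lit 297) (nat_lit 5) (nat_lit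 298) (nat_lit 5) (nat_lit 483) (nat_lit 445) (nat_lit 212))))) (XT.nd (nat_lit 156) (nat_lit 760) (nat_lit 0) (XT.nd (nat_lit 78) (nat_lit 836) (nat_lit 0) (XT.lf (nat_lit 0) (nat_lit 19820870022) (nat_lit 760) (nat_lit 2649957674) (nat_lit 836) (nat_lit 79732742) (nat_lit 287) (nat_lit 5) (nat_lit 297) (nat_lit 5) (nat_lit 298) (nat_lit 5) (nat_lit 484) (nat_lit 445) (nat_lit 211)) (XT.lf (nat_lit 0) (nat_lit 2448816673) (nat_lit 836) (nat_lit 13920561997) (nat_lit 76) (nat_lit 6439036300) (nat_lit 276) (nat_lit 5) (nat_lit 287) (nat_lit 5) (nat_lit 277) (nat_lit 5) (nat_lit 485) (nat_lit 445) (nat_lit 210))) (XT.nd (nat_lit 78) (nat_lit 760) (nat_lit 0) (XT.lf (nat_lit 0) (nat_lit 5059007998) (nat_lit 836) (nat_lit 2318549651) (nat_lit 76) (nat_lit 15693217601) (nat_lit 276) (nat_lit 5) (nat_lit 287) (nat_lit 5) (nat_lit 277) (nat_lit 5) (nat_lit 486) (nat_lit 445) (nat_lit 209)) (XT.nd (nat_lit 78) (nat_lit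 0) (nat_lit 0) (XT.lf (nat_lit 0) (nat_lit 7792265475) (nat_lit 836) (nat_lit 13711324397) (nat_lit 76) (nat_lit 1833377551) (nat_lit 266) (nat_lit 5) (nat_lit 277) (nat_lit 5) (nat_lit 267) (nat_lit 5) (nat_lit 487) (nat_lit 445) (nat_lit 208)) (XT.lf (nat_lit 0) (nat_lit 10640979652) (nat_lit 836) (nat_lit 1820994601) (nat_lit 76) (nat_lit 11145295249) (nat_lit 266) (nat_lit 5) (nat_lit 277) (nat_lit 5) (nat_lit 267) (nat_lit 5) (nat_lit 488) (nat_lit 445) (nat_lit 207)))))) (XT.nd (nat_lit 56082) (nat_lit 0) (nat_lit 10716) (XT.nd (nat_lit 156) (nat_lit 684) (nat_lit 0) (XT.nd (nat_lit 78) (nat_lit 0) (nat_lit 0) (XT.lf (nat_lit 0) (nat_lit 10440135248) (nat_lit 684) (nat_lit 3170662077) (nat_lit 760) (nat_lit 10270899572) (nat_lit 257) (nat_lit 5) (nat_lit 266) (nat_lit 5) (nat_lit 267) (nat_lit 5) (nat_lit 489) (nat_lit 445) (nat_lit 206)) (XT.lf (nat_lit 0) (nat_lit 16689647257) (nat_lit 760) (nat_lit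 1235200445) (nat_lit 76) (nat_lit 6235774238) (nat_lit 257) (nat_lit 5) (nat_lit 267) (nat_lit 5) (nat_lit 258) (nat_lit 5) (nat_lit 490) (nat_lit 445) (nat_lit 205))) (XT.nd (nat_lit 78) (nat_lit 0) (nat_lit 0) (XT.lf (nat_lit 0) (nat_lit 11339105603) (nat_lit 684) (nat_lit 8582047460) (nat_lit 760) (nat_lit 4522152632) (nat_lit 248) (nat_lit 5) (nat_lit 257) (nat_lit 5) (nat_lit 258) (nat_lit 5) (nat_lit 491) (nat_lit 445) (nat_lit 204)) (XT.nd (nat_lit 55770) (nat_lit 0) (nat_lit 10716) (XT.lf (nat_lit 0) (nat_lit 23228287155) (nat_lit 760) (nat_lit 559986088) (nat_lit 76) (nat_lit 943151668) (nat_lit 248) (nat_lit 5) (nat_lit 258) (nat_lit 5) (nat_lit 249) (nat_lit 5) (nat_lit 492) (nat_lit 445) (nat_lit 203)) (XT.lf (nat_lit 0) (nat_lit 3798232286) (nat_lit 1748) (nat_lit 1920065660) (nat_lit 1748) (nat_lit 1920065660) (nat_lit 389) (nat_lit 3) (nat_lit 412) (nat_lit 3) (nat_lit 412) (nat_lit 5) (nat_lit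 446) (nat_lit 446) (nat_lit 248))))) (XT.nd (nat_lit 156) (nat_lit 0) (nat_lit 76) (XT.nd (nat_lit 78) (nat_lit 0) (nat_lit 76) (XT.lf (nat_lit 76) (nat_lit 3306078619) (nat_lit 0) (nat_lit 4664697346) (nat_lit 1748) (nat_lit 7452585663) (nat_lit 390) (nat_lit 5) (nat_lit 389) (nat_lit 3) (nat_lit 412) (nat_lit 5) (nat_lit 447) (nat_lit 446) (nat_lit 247)) (XT.lf (nat_lit 0) (nat_lit 8385810094) (nat_lit 1672) (nat_lit 4943806387) (nat_lit 1748) (nat_lit 2242651873) (nat_lit 390) (nat_lit 5) (nat_lit 412) (nat_lit 5) (nat_lit 413) (nat_lit 5) (nat_lit 448) (nat_lit 446) (nat_lit 246))) (XT.nd (nat_lit 78) (nat_lit 0) (nat_lit 76) (XT.lf (nat_lit 76) (nat_lit 2369472386) (nat_lit 0) (nat_lit 6478827020) (nat_lit 1748) (nat_lit 6875074984) (nat_lit 391) (nat_lit 5) (nat_lit 390) (nat_lit 5) (nat_lit 413) (nat_lit 5) (nat_lit 449) (nat_lit 446) (nat_lit 245)) (XT.nd (nat_lit 78) (nat_lit 0) (nat_lit 0) (XT.lf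 (nat_lit 0) (nat_lit 9349752112) (nat_lit 1672) (nat_lit 5988323073) (nat_lit 1748) (nat_lit 538837274) (nat_lit 391) (nat_lit 5) (nat_lit 413) (nat_lit 5) (nat_lit 414) (nat_lit 5) (nat_lit 450) (nat_lit 446) (nat_lit 244)) (XT.lf (nat_lit 76) (nat_lit 1497387015) (nat_lit 0) (nat_lit 8409625743) (nat_lit 1748) (nat_lit 6125597054) (nat_lit 392) (nat_lit 5) (nat_lit 391) (nat_lit 5) (nat_lit 414) (nat_lit 5) (nat_lit 451) (nat_lit 446) (nat_lit 243))))))) (XT.nd (nat_lit 780) (nat_lit 1368) (nat_lit 0) (XT.nd (nat_lit 390) (nat_lit 1444) (nat_lit 0) (XT.nd (nat_lit 156) (nat_lit 0) (nat_lit 76) (XT.nd (nat_lit 78) (nat_lit 0) (nat_lit 76) (XT.lf (nat_lit 76) (nat_lit 9210097560) (nat_lit 0) (nat_lit 1298765638) (nat_lit 1748) (nat_lit 5681893044) (nat_lit 392) (nat_lit 5) (nat_lit 391) (nat_lit 5) (nat_lit 414) (nat_lit 5) (nat_lit 452) (nat_lit 446) (nat_lit 242)) (XT.lf (nat_lit 76) (nat_lit 691440654)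 (nat_lit 0) (nat_lit 10467868729) (nat_lit 1748) (nat_lit 5192028984) (nat_lit 393) (nat_lit 5) (nat_lit 392) (nat_lit 5) (nat_lit 415) (nat_lit 5) (nat_lit 453) (nat_lit 446) (nat_lit 241))) (XT.nd (nat_lit 78) (nat_lit 0) (nat_lit 76) (XT.lf (nat_lit 76) (nat_lit 8598952241) (nat_lit 0) (nat_lit 3272714399) (nat_lit 1748) (nat_lit 4642491317) (nat_lit 393) (nat_lit 5) (nat_lit 392) (nat_lit 5) (nat_lit 415) (nat_lit 5) (nat_lit 454) (nat_lit 446) (nat_lit 240)) (XT.nd (nat_lit 78) (nat_lit 0) (nat_lit 0) (XT.lf (nat_lit 0) (nat_lit 12618329576) (nat_lit 1672) (nat_lit 46030228) (nat_lit 1748) (nat_lit 4015476753) (nat_lit 393) (nat_lit 5) (nat_lit 415) (nat_lit 5) (nat_lit 416) (nat_lit 5) (nat_lit 455) (nat_lit 446) (nat_lit 239)) (XT.lf (nat_lit 76) (nat_lit 8060641584) (nat_lit 0) (nat_lit 5387074331) (nat_lit 1748) (nat_lit 3399760724) (nat_lit 394) (nat_lit 5) (nat_lit 393) (nat_lit 5) (nat_lit 416)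 (nat_lit 5) (nat_lit 456) (nat_lit 446) (nat_lit 238))))) (XT.nd (nat_lit 156) (nat_lit 1672) (nat_lit 0) (XT.nd (nat_lit 78) (nat_lit 0) (nat_lit 0) (XT.lf (nat_lit 0) (nat_lit 14301110885) (nat_lit 1672) (nat_lit 705657055) (nat_lit 1748) (nat_lit 2011556808) (nat_lit 394) (nat_lit 5) (nat_lit 416) (nat_lit 5) (nat_lit 417) (nat_lit 5) (nat_lit 457) (nat_lit 446) (nat_lit 237)) (XT.lf (nat_lit 76) (nat_lit 7597140732) (nat_lit 0) (nat_lit 7653446928) (nat_lit 1748) (nat_lit 1940425451) (nat_lit 395) (nat_lit 5) (nat_lit 394) (nat_lit 5) (nat_lit 417) (nat_lit 5) (nat_lit 458) (nat_lit 446) (nat_lit 236))) (XT.nd (nat_lit 78) (nat_lit 1672) (nat_lit 0) (XT.lf (nat_lit 76) (nat_lit 16071620281) (nat_lit 0) (nat_lit 146273090) (nat_lit 1748) (nat_lit 1149288583) (nat_lit 395) (nat_lit 5) (nat_lit 394) (nat_lit 5) (nat_lit 417) (nat_lit 5) (nat_lit 459) (nat_lit 446) (nat_lit 235)) (XT.nd (nat_lit 78) (nat_lit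 1748) (nat_lit 0) (XT.lf (nat_lit 76) (nat_lit 7210522054) (nat_lit 0) (nat_lit 10083837445) (nat_lit 1748) (nat_lit 250721820) (nat_lit 396) (nat_lit 5) (nat_lit 395) (nat_lit 5) (nat_lit 418) (nat_lit 5) (nat_lit 460) (nat_lit 446) (nat_lit 234)) (XT.lf (nat_lit 0) (nat_lit 661082674) (nat_lit 1748) (nat_lit 1831471715) (nat_lit 1824) (nat_lit 15233821147) (nat_lit 372) (nat_lit 5) (nat_lit 395) (nat_lit 5) (nat_lit 396) (nat_lit 5) (nat_lit 461) (nat_lit 446) (nat_lit 233)))))) (XT.nd (nat_lit 390) (nat_lit 1444) (nat_lit 0) (XT.nd (nat_lit 156) (nat_lit 0) (nat_lit 76) (XT.nd (nat_lit 78) (nat_lit 0) (nat_lit 0) (XT.lf (nat_lit 0) (nat_lit 1661543533) (nat_lit 1748) (nat_lit 11017990786) (nat_lit 1824) (nat_lit 5230255860) (nat_lit 373) (nat_lit 5) (nat_lit 396) (nat_lit 5) (nat_lit 397) (nat_lit 5) (nat_lit 462) (nat_lit 446) (nat_lit 232)) (XT.lf (nat_lit 0) (nat_lit 2705377510) (nat_lit 1748) (nat_lit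 2302919041) (nat_lit 1824) (nat_lit 13088112455) (nat_lit 373) (nat_lit 5) (nat_lit 396) (nat_lit 5) (nat_lit 397) (nat_lit 5) (nat_lit 463) (nat_lit 446) (nat_lit 231))) (XT.nd (nat_lit 78) (nat_lit 0) (nat_lit 0) (XT.lf (nat_lit 0) (nat_lit 3826569131) (nat_lit 1748) (nat_lit 11634641038) (nat_lit 1824) (nat_lit 2824423530) (nat_lit 374) (nat_lit 5) (nat_lit 397) (nat_lit 5) (nat_lit 398) (nat_lit 5) (nat_lit 464) (nat_lit 446) (nat_lit 230)) (XT.nd (nat_lit 78) (nat_lit 0) (nat_lit 76) (XT.lf (nat_lit 0) (nat_lit 5013590948) (nat_lit 1748) (nat_lit 2700482278) (nat_lit 1824) (nat_lit 10763704580) (nat_lit 374) (nat_lit 5) (nat_lit 397) (nat_lit 5) (nat_lit 398) (nat_lit 5) (nat_lit 465) (nat_lit 446) (nat_lit 229)) (XT.lf (nat_lit 0) (nat_lit 6262808189) (nat_lit 1748) (nat_lit 12181011100) (nat_lit 1824) (nat_lit 229179393) (nat_lit 375) (nat_lit 5) (nat_lit 398) (nat_lit 5) (nat_lit 399) (nat_lit 5)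 (nat_lit 466) (nat_lit 446) (nat_lit 228))))) (XT.nd (nat_lit 234) (nat_lit 1596) (nat_lit 0) (XT.nd (nat_lit 78) (nat_lit 0) (nat_lit 0) (XT.lf (nat_lit 0) (nat_lit 7601208970) (nat_lit 1748) (nat_lit 3022140380) (nat_lit 1824) (nat_lit 8247493571) (nat_lit 375) (nat_lit 5) (nat_lit 398) (nat_lit 5) (nat_lit 399) (nat_lit 5) (nat_lit 467) (nat_lit 446) (nat_lit 227)) (XT.nd (nat_lit 78) (nat_lit 0) (nat_lit 76) (XT.lf (nat_lit 76) (nat_lit 6399838039) (nat_lit 0) (nat_lit 2603063240) (nat_lit 1824) (nat_lit 10069015168) (nat_lit 376) (nat_lit 5) (nat_lit 375) (nat_lit 5) (nat_lit 399) (nat_lit 5) (nat_lit 468) (nat_lit 446) (nat_lit 226)) (XT.lf (nat_lit 0) (nat_lit 10484306187) (nat_lit 1748) (nat_lit 3265818544) (nat_lit 1824) (nat_lit 5525855950) (nat_lit 376) (nat_lit 5) (nat_lit 399) (nat_lit 5) (nat_lit 400) (nat_lit 5) (nat_lit 469) (nat_lit 446) (nat_lit 225)))) (XT.nd (nat_lit 78) (nat_lit 1672)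 (nat_lit 0) (XT.lf (nat_lit 76) (nat_lit 6391142126) (nat_lit 0) (nat_lit 5658079108) (nat_lit 1824) (nat_lit 7433830087) (nat_lit 377) (nat_lit 5) (nat_lit 376) (nat_lit 5) (nat_lit 400) (nat_lit 5) (nat_lit 470) (nat_lit 446) (nat_lit 224)) (XT.nd (nat_lit 78) (nat_lit 1748) (nat_lit 0) (XT.lf (nat_lit 0) (nat_lit 13679570975) (nat_lit 1748) (nat_lit 3429396624) (nat_lit 76) (nat_lit 2584615752) (nat_lit 377) (nat_lit 5) (nat_lit 400) (nat_lit 5) (nat_lit 378) (nat_lit 5) (nat_lit 471) (nat_lit 446) (nat_lit 223)) (XT.lf (nat_lit 0) (nat_lit 6469743641) (nat_lit 1748) (nat_lit 8947576532) (nat_lit 1824) (nat_lit 4489512653) (nat_lit 354) (nat_lit 5) (nat_lit 377) (nat_lit 5) (nat_lit 378) (nat_lit 5) (nat_lit 472) (nat_lit 446) (nat_lit 222))))))))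
noncomputable def xc238 : XT := (XT.nd (nat_lit 57408) (nat_lit 0) (nat_lit 8740) (XT.nd (nat_lit 780) (nat_lit 3040) (nat_lit 0) (XT.nd (nat_lit 390) (nat_lit 2432) (nat_lit 0) (XT.nd (nat_lit 156) (nat_lit 988) (nat_lit 0) (XT.nd (nat_lit 78) (nat_lit 912) (nat_lit 0) (XT.lf (nat_lit 0) (nat_lit 16609375742) (nat_lit 1748) (nat_lit 598843567) (nat_lit 1824) (nat_lit 2915762683) (nat_lit 354) (nat_lit 5) (nat_lit 377) (nat_lit 5) (nat_lit 378) (nat_lit 5) (nat_lit 473) (nat_lit 446) (nat_lit 221)) (XT.lf (nat_lit 0) (nat_lit 6637986660) (nat_lit 912) (nat_lit 12486926037) (nat_lit 988) (nat_lit 1218764467) (nat_lit 342) (nat_lit 5) (nat_lit 354) (nat_lit 5) (nat_lit 355) (nat_lit 5) (nat_lit 474) (nat_lit 446) (nat_lit 220))) (XT.nd (nat_lit 78) (nat_lit 912) (nat_lit 0) (XT.lf (nat_lit 0) (nat_lit 528670799) (nat_lit 988) (nat_lit 3537501515) (nat_lit 76) (nat_lit 16501065585) (nat_lit 341) (nat_lit 5)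 (nat_lit 354) (nat_lit 5) (nat_lit 342) (nat_lit 5) (nat_lit 475) (nat_lit 446) (nat_lit 219)) (XT.nd (nat_lit 78) (nat_lit 0) (nat_lit 0) (XT.lf (nat_lit 0) (nat_lit 2364947955) (nat_lit 988) (nat_lit 13911333406) (nat_lit 76) (nat_lit 4517425518) (nat_lit 329) (nat_lit 5) (nat_lit 342) (nat_lit 5) (nat_lit 330) (nat_lit 5) (nat_lit 476) (nat_lit 446) (nat_lit 218)) (XT.lf (nat_lit 0) (nat_lit 4284433746) (nat_lit 988) (nat_lit 3496737500) (nat_lit 76) (nat_lit 13242606688) (nat_lit 329) (nat_lit 5) (nat_lit 342) (nat_lit 5) (nat_lit 330) (nat_lit 5) (nat_lit 477) (nat_lit 446) (nat_lit 217))))) (XT.nd (nat_lit 156) (nat_lit 1596) (nat_lit 0) (XT.nd (nat_lit 78) (nat_lit 0) (nat_lit 0) (XT.lf (nat_lit 0) (nat_lit 6290960945) (nat_lit 912) (nat_lit 14046791243) (nat_lit 76) (nat_lit 919727498) (nat_lit 318) (nat_lit 5) (nat_lit 330) (nat_lit 5) (nat_lit 319) (nat_lit 5) (nat_lit 478) (nat_lit 446) (nat_lit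 216)) (XT.lf (nat_lit 0) (nat_lit 8408574047) (nat_lit 912) (nat_lit 3371412983) (nat_lit 76) (nat_lit 9714451599) (nat_lit 318) (nat_lit 5) (nat_lit 330) (nat_lit 5) (nat_lit 319) (nat_lit 5) (nat_lit 479) (nat_lit 446) (nat_lit 215))) (XT.nd (nat_lit 78) (nat_lit 760) (nat_lit 0) (XT.lf (nat_lit 0) (nat_lit 7613399851) (nat_lit 836) (nat_lit 3000457153) (nat_lit 912) (nat_lit 11121375614) (nat_lit 307) (nat_lit 5) (nat_lit 318) (nat_lit 5) (nat_lit 319) (nat_lit 5) (nat_lit 480) (nat_lit 446) (nat_lit 214)) (XT.nd (nat_lit 78) (nat_lit 760) (nat_lit 0) (XT.lf (nat_lit 0) (nat_lit 12920623770) (nat_lit 912) (nat_lit 3159574790) (nat_lit 76) (nat_lit 5899498542) (nat_lit 307) (nat_lit 5) (nat_lit 319) (nat_lit 5) (nat_lit 308) (nat_lit 5) (nat_lit 481) (nat_lit 446) (nat_lit 213)) (XT.lf (nat_lit 0) (nat_lit 8104444444) (nat_lit 760) (nat_lit 7237593725) (nat_lit 836) (nat_lit 6885644593) (nat_lit 297) (nat_lit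 5) (nat_lit 307) (nat_lit 5) (nat_lit 308) (nat_lit 5) (nat_lit 482) (nat_lit 446) (nat_lit 212)))))) (XT.nd (nat_lit 390) (nat_lit 1444) (nat_lit 0) (XT.nd (nat_lit 156) (nat_lit 836) (nat_lit 0) (XT.nd (nat_lit 78) (nat_lit 760) (nat_lit 0) (XT.lf (nat_lit 0) (nat_lit 17840868122) (nat_lit 836) (nat_lit 2859300379) (nat_lit 76) (nat_lit 1779881981) (nat_lit 297) (nat_lit 5) (nat_lit 308) (nat_lit 5) (nat_lit 298) (nat_lit 5) (nat_lit 483) (nat_lit 446) (nat_lit 211)) (XT.lf (nat_lit 0) (nat_lit 8692101581) (nat_lit 760) (nat_lit 11798091421) (nat_lit 836) (nat_lit 2245264239) (nat_lit 287) (nat_lit 5) (nat_lit 297) (nat_lit 5) (nat_lit 298) (nat_lit 5) (nat_lit 484) (nat_lit 446) (nat_lit 210))) (XT.nd (nat_lit 78) (nat_lit 760) (nat_lit 0) (XT.lf (nat_lit 0) (nat_lit 209444797) (nat_lit 836) (nat_lit 2487610707) (nat_lit 76) (nat_lit 20298583279) (nat_lit 286) (nat_lit 5) (nat_lit 297) (nat_lit 5) (nat_lit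 287) (nat_lit 5) (nat_lit 485) (nat_lit 446) (nat_lit 209)) (XT.nd (nat_lit 78) (nat_lit 0) (nat_lit 0) (XT.lf (nat_lit 0) (nat_lit 2783781842) (nat_lit 836) (nat_lit 13898964628) (nat_lit 76) (nat_lit 6575970636) (nat_lit 276) (nat_lit 5) (nat_lit 287) (nat_lit 5) (nat_lit 277) (nat_lit 5) (nat_lit 486) (nat_lit 446) (nat_lit 208)) (XT.lf (nat_lit 0) (nat_lit 5440569369) (nat_lit 836) (nat_lit 2070794558) (nat_lit 76) (nat_lit 16015075689) (nat_lit 276) (nat_lit 5) (nat_lit 287) (nat_lit 5) (nat_lit 277) (nat_lit 5) (nat_lit 487) (nat_lit 446) (nat_lit 207))))) (XT.nd (nat_lit 156) (nat_lit 684) (nat_lit 0) (XT.nd (nat_lit 78) (nat_lit 0) (nat_lit 0) (XT.lf (nat_lit 0) (nat_lit 8224991477) (nat_lit 836) (nat_lit 13687783579) (nat_lit 76) (nat_lit 1885253399) (nat_lit 266) (nat_lit 5) (nat_lit 277) (nat_lit 5) (nat_lit 267) (nat_lit 5) (nat_lit 488) (nat_lit 446) (nat_lit 206)) (XT.lf (nat_lit 0) (nat_lit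 11125250905) (nat_lit 836) (nat_lit 1565485762) (nat_lit 76) (nat_lit 11383111249) (nat_lit 266) (nat_lit 5) (nat_lit 277) (nat_lit 5) (nat_lit 267) (nat_lit 5) (nat_lit 489) (nat_lit 446) (nat_lit 205))) (XT.nd (nat_lit 78) (nat_lit 0) (nat_lit 0) (XT.lf (nat_lit 0) (nat_lit 10938946100) (nat_lit 684) (nat_lit 3212079175) (nat_lit 760) (nat_lit 10202810082) (nat_lit 257) (nat_lit 5) (nat_lit 266) (nat_lit 5) (nat_lit 267) (nat_lit 5) (nat_lit 490) (nat_lit 446) (nat_lit 204)) (XT.nd (nat_lit 55926) (nat_lit 0) (nat_lit 10032) (XT.lf (nat_lit 0) (nat_lit 17286337082) (nat_lit 760) (nat_lit 970335031) (nat_lit 76) (nat_lit 6381771743) (nat_lit 257) (nat_lit 5) (nat_lit 267) (nat_lit 5) (nat_lit 258) (nat_lit 5) (nat_lit 491) (nat_lit 446) (nat_lit 203)) (XT.lf (nat_lit 0) (nat_lit 4149280725) (nat_lit 1748) (nat_lit 1818091816) (nat_lit 1748) (nat_lit 1818091816) (nat_lit 389) (nat_lit 3) (nat_lit 412) (nat_lit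 3) (nat_lit 412) (nat_lit 5) (nat_lit 447) (nat_lit 447) (nat_lit 246))))))) (XT.nd (nat_lit 780) (nat_lit 1292) (nat_lit 0) (XT.nd (nat_lit 390) (nat_lit 0) (nat_lit 152) (XT.nd (nat_lit 156) (nat_lit 0) (nat_lit 76) (XT.nd (nat_lit 78) (nat_lit 0) (nat_lit 76) (XT.lf (nat_lit 76) (nat_lit 3651103464) (nat_lit 0) (nat_lit 5020278833) (nat_lit 1748) (nat_lit 7049299522) (nat_lit 390) (nat_lit 5) (nat_lit 389) (nat_lit 3) (nat_lit 412) (nat_lit 5) (nat_lit 448) (nat_lit 447) (nat_lit 245)) (XT.lf (nat_lit 0) (nat_lit 9082435970) (nat_lit 1672) (nat_lit 4756649908) (nat_lit 1748) (nat_lit 2033732762) (nat_lit 390) (nat_lit 5) (nat_lit 412) (nat_lit 5) (nat_lit 413) (nat_lit 5) (nat_lit 449) (nat_lit 447) (nat_lit 244))) (XT.nd (nat_lit 78) (nat_lit 0) (nat_lit 76) (XT.lf (nat_lit 76) (nat_lit 2701012647) (nat_lit 0) (nat_lit 6844636539) (nat_lit 1748) (nat_lit 6481474342) (nat_lit 391) (nat_lit 5) (nat_lit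 390) (nat_lit 5) (nat_lit 413) (nat_lit 5) (nat_lit 450) (nat_lit 447) (nat_lit 243)) (XT.nd (nat_lit 78) (nat_lit 0) (nat_lit 0) (XT.lf (nat_lit 0) (nat_lit 10045423635) (nat_lit 1672) (nat_lit 5817498413) (nat_lit 1748) (nat_lit 321050549) (nat_lit 391) (nat_lit 5) (nat_lit 413) (nat_lit 5) (nat_lit 414) (nat_lit 5) (nat_lit 451) (nat_lit 447) (nat_lit 242)) (XT.lf (nat_lit 76) (nat_lit 1816014093) (nat_lit 0) (nat_lit 8789715650) (nat_lit 1748) (nat_lit 5737222121) (nat_lit 392) (nat_lit 5) (nat_lit 391) (nat_lit 5) (nat_lit 414) (nat_lit 5) (nat_lit 452) (nat_lit 447) (nat_lit 241))))) (XT.nd (nat_lit 156) (nat_lit 0) (nat_lit 76) (XT.nd (nat_lit 78) (nat_lit 0) (nat_lit 76) (XT.lf (nat_lit 76) (nat_lit 9677318470) (nat_lit 0) (nat_lit 1532483492) (nat_lit 1748) (nat_lit 5294661419) (nat_lit 392) (nat_lit 5) (nat_lit 391) (nat_lit 5) (nat_lit 414) (nat_lit 5) (nat_lit 453) (nat_lit 447) (nat_lit 240))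 (XT.lf (nat_lit 76) (nat_lit 997807873) (nat_lit 0) (nat_lit 10866403422) (nat_lit 1748) (nat_lit 4804232511) (nat_lit 393) (nat_lit 5) (nat_lit 392) (nat_lit 5) (nat_lit 415) (nat_lit 5) (nat_lit 454) (nat_lit 447) (nat_lit 239))) (XT.nd (nat_lit 78) (nat_lit 0) (nat_lit 76) (XT.lf (nat_lit 76) (nat_lit 9057733644) (nat_lit 0) (nat_lit 3523636646) (nat_lit 1748) (nat_lit 4253344033) (nat_lit 393) (nat_lit 5) (nat_lit 392) (nat_lit 5) (nat_lit 415) (nat_lit 5) (nat_lit 455) (nat_lit 447) (nat_lit 238)) (XT.nd (nat_lit 78) (nat_lit 0) (nat_lit 0) (XT.lf (nat_lit 76) (nat_lit 248199776) (nat_lit 0) (nat_lit 13085937414) (nat_lit 1748) (nat_lit 3669751408) (nat_lit 394) (nat_lit 5) (nat_lit 393) (nat_lit 5) (nat_lit 416) (nat_lit 5) (nat_lit 456) (nat_lit 447) (nat_lit 237)) (XT.lf (nat_lit 76) (nat_lit 8511829476) (nat_lit 0) (nat_lit 5659497533) (nat_lit 1748) (nat_lit 3003735569) (nat_lit 394) (nat_lit 5)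 (nat_lit 393) (nat_lit 5) (nat_lit 416) (nat_lit 5) (nat_lit 457) (nat_lit 447) (nat_lit 236)))))) (XT.nd (nat_lit 390) (nat_lit 0) (nat_lit 76) (XT.nd (nat_lit 156) (nat_lit 1672) (nat_lit 0) (XT.nd (nat_lit 78) (nat_lit 0) (nat_lit 0) (XT.lf (nat_lit 0) (nat_lit 15031826781) (nat_lit 1672) (nat_lit 425252669) (nat_lit 1748) (nat_lit 1892452763) (nat_lit 394) (nat_lit 5) (nat_lit 416) (nat_lit 5) (nat_lit 417) (nat_lit 5) (nat_lit 458) (nat_lit 447) (nat_lit 235)) (XT.lf (nat_lit 76) (nat_lit 8041663459) (nat_lit 0) (nat_lit 7951809771) (nat_lit 1748) (nat_lit 1532342709) (nat_lit 395) (nat_lit 5) (nat_lit 394) (nat_lit 5) (nat_lit 417) (nat_lit 5) (nat_lit 459) (nat_lit 447) (nat_lit 234))) (XT.nd (nat_lit 78) (nat_lit 1672) (nat_lit 0) (XT.lf (nat_lit 76) (nat_lit 16679895738) (nat_lit 0) (nat_lit 291643556) (nat_lit 1748) (nat_lit 734145677) (nat_lit 395) (nat_lit 5) (nat_lit 394) (nat_lit 5) (nat_lit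 417) (nat_lit 5) (nat_lit 460) (nat_lit 447) (nat_lit 233)) (XT.nd (nat_lit 78) (nat_lit 0) (nat_lit 0) (XT.lf (nat_lit 0) (nat_lit 172535283) (nat_lit 1748) (nat_lit 10239040998) (nat_lit 1824) (nat_lit 7475696557) (nat_lit 372) (nat_lit 5) (nat_lit 395) (nat_lit 5) (nat_lit 396) (nat_lit 5) (nat_lit 461) (nat_lit 447) (nat_lit 232)) (XT.lf (nat_lit 0) (nat_lit 1090890126) (nat_lit 1748) (nat_lit 1573445225) (nat_lit 1824) (nat_lit 15407995820) (nat_lit 372) (nat_lit 5) (nat_lit 395) (nat_lit 5) (nat_lit 396) (nat_lit 5) (nat_lit 462) (nat_lit 447) (nat_lit 231))))) (XT.nd (nat_lit 234) (nat_lit 0) (nat_lit 76) (XT.nd (nat_lit 78) (nat_lit 0) (nat_lit 0) (XT.lf (nat_lit 0) (nat_lit 2104328827) (nat_lit 1748) (nat_lit 10936427851) (nat_lit 1824) (nat_lit 5218802764) (nat_lit 373) (nat_lit 5) (nat_lit 396) (nat_lit 5) (nat_lit 397) (nat_lit 5) (nat_lit 463) (nat_lit 447) (nat_lit 230)) (XT.nd (nat_lit 78)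 (nat_lit 0) (nat_lit 76) (XT.lf (nat_lit 0) (nat_lit 3161009005) (nat_lit 1748) (nat_lit 2052974725) (nat_lit 1824) (nat_lit 13236092143) (nat_lit 373) (nat_lit 5) (nat_lit 396) (nat_lit 5) (nat_lit 397) (nat_lit 5) (nat_lit 464) (nat_lit 447) (nat_lit 229)) (XT.lf (nat_lit 0) (nat_lit 4298001606) (nat_lit 1748) (nat_lit 11564482000) (nat_lit 1824) (nat_lit 2780738437) (nat_lit 374) (nat_lit 5) (nat_lit 397) (nat_lit 5) (nat_lit 398) (nat_lit 5) (nat_lit 465) (nat_lit 447) (nat_lit 228)))) (XT.nd (nat_lit 78) (nat_lit 0) (nat_lit 76) (XT.lf (nat_lit 0) (nat_lit 5501020700) (nat_lit 1748) (nat_lit 2457578336) (nat_lit 1824) (nat_lit 10880769295) (nat_lit 374) (nat_lit 5) (nat_lit 397) (nat_lit 5) (nat_lit 398) (nat_lit 5) (nat_lit 466) (nat_lit 447) (nat_lit 227)) (XT.nd (nat_lit 78) (nat_lit 0) (nat_lit 0) (XT.lf (nat_lit 0) (nat_lit 6768984276) (nat_lit 1748) (nat_lit 12121262205) (nat_lit 1824) (nat_lit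 148376255) (nat_lit 375) (nat_lit 5) (nat_lit 398) (nat_lit 5) (nat_lit 399) (nat_lit 5) (nat_lit 467) (nat_lit 447) (nat_lit 226)) (XT.lf (nat_lit 0) (nat_lit 8126684055) (nat_lit 1748) (nat_lit 2785162484) (nat_lit 1824) (nat_lit 8328730967) (nat_lit 375) (nat_lit 5) (nat_lit 398) (nat_lit 5) (nat_lit 399) (nat_lit 5) (nat_lit 468) (nat_lit 447) (nat_lit 225))))))))
noncomputable def xc239 : XT := (XT.nd (nat_lit 1638) (nat_lit 684) (nat_lit 0) (XT.nd (nat_lit 780) (nat_lit 4788) (nat_lit 0) (XT.nd (nat_lit 390) (nat_lit 1900) (nat_lit 0) (XT.nd (nat_lit 156) (nat_lit 1596) (nat_lit 0) (XT.nd (nat_lit 78) (nat_lit 0) (nat_lit 76) (XT.lf (nat_lit 76) (nat_lit 6823298788) (nat_lit 0) (nat_lit 2727707203) (nat_lit 1824) (nat_lit 9894778776) (nat_lit 376) (nat_lit 5) (nat_lit 375) (nat_lit 5) (nat_lit 399) (nat_lit 5) (nat_lit 469) (nat_lit 447) (nat_lit 224)) (XT.lf (nat_lit 0) (nat_lit 11054360381) (nat_lit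 1748) (nat_lit 3033580747) (nat_lit 1824) (nat_lit 5566146831) (nat_lit 376) (nat_lit 5) (nat_lit 399) (nat_lit 5) (nat_lit 400) (nat_lit 5) (nat_lit 470) (nat_lit 447) (nat_lit 223))) (XT.nd (nat_lit 78) (nat_lit 1672) (nat_lit 0) (XT.lf (nat_lit 76) (nat_lit 6814561544) (nat_lit 0) (nat_lit 5830865354) (nat_lit 1824) (nat_lit 7219980069) (nat_lit 377) (nat_lit 5) (nat_lit 376) (nat_lit 5) (nat_lit 400) (nat_lit 5) (nat_lit 471) (nat_lit 447) (nat_lit 222)) (XT.nd (nat_lit 78) (nat_lit 1748) (nat_lit 0) (XT.lf (nat_lit 0) (nat_lit 14301038978) (nat_lit 1748) (nat_lit 3200642323) (nat_lit 76) (nat_lit 2578619170) (nat_lit 377) (nat_lit 5) (nat_lit 400) (nat_lit 5) (nat_lit 378) (nat_lit 5) (nat_lit 472) (nat_lit 447) (nat_lit 221)) (XT.lf (nat_lit 0) (nat_lit 6894524549) (nat_lit 1748) (nat_lit 9174115344) (nat_lit 1824) (nat_lit 4229276970) (nat_lit 354) (nat_lit 5) (nat_lit 377) (nat_lit 5) (nat_lit 378)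 (nat_lit 5) (nat_lit 473) (nat_lit 447) (nat_lit 220))))) (XT.nd (nat_lit 156) (nat_lit 988) (nat_lit 0) (XT.nd (nat_lit 78) (nat_lit 912) (nat_lit 0) (XT.lf (nat_lit 0) (nat_lit 17231157409) (nat_lit 1748) (nat_lit 657474636) (nat_lit 1824) (nat_lit 2630915255) (nat_lit 354) (nat_lit 5) (nat_lit 377) (nat_lit 5) (nat_lit 378) (nat_lit 5) (nat_lit 474) (nat_lit 447) (nat_lit 219)) (XT.lf (nat_lit 0) (nat_lit 7065605082) (nat_lit 912) (nat_lit 12773078562) (nat_lit 988) (nat_lit 905055958) (nat_lit 342) (nat_lit 5) (nat_lit 354) (nat_lit 5) (nat_lit 355) (nat_lit 5) (nat_lit 475) (nat_lit 447) (nat_lit 218))) (XT.nd (nat_lit 78) (nat_lit 912) (nat_lit 0) (XT.lf (nat_lit 0) (nat_lit 866351831) (nat_lit 988) (nat_lit 3314648869) (nat_lit 76) (nat_lit 16790861361) (nat_lit 341) (nat_lit 5) (nat_lit 354) (nat_lit 5) (nat_lit 342) (nat_lit 5) (nat_lit 476) (nat_lit 447) (nat_lit 217)) (XT.nd (nat_lit 78) (nat_lit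 0) (nat_lit 0) (XT.lf (nat_lit 0) (nat_lit 2734633648) (nat_lit 988) (nat_lit 13891061571) (nat_lit 76) (nat_lit 4577263119) (nat_lit 329) (nat_lit 5) (nat_lit 342) (nat_lit 5) (nat_lit 330) (nat_lit 5) (nat_lit 477) (nat_lit 447) (nat_lit 216)) (XT.lf (nat_lit 0) (nat_lit 4686187847) (nat_lit 988) (nat_lit 3274026659) (nat_lit 76) (nat_lit 13477546165) (nat_lit 329) (nat_lit 5) (nat_lit 342) (nat_lit 5) (nat_lit 330) (nat_lit 5) (nat_lit 478) (nat_lit 447) (nat_lit 215)))))) (XT.nd (nat_lit 390) (nat_lit 2356) (nat_lit 0) (XT.nd (nat_lit 156) (nat_lit 1596) (nat_lit 0) (XT.nd (nat_lit 78) (nat_lit 0) (nat_lit 0) (XT.lf (nat_lit 0) (nat_lit 6728399201) (nat_lit 912) (nat_lit 14030466938) (nat_lit 76) (nat_lit 917362608) (nat_lit 318) (nat_lit 5) (nat_lit 330) (nat_lit 5) (nat_lit 319) (nat_lit 5) (nat_lit 479) (nat_lit 447) (nat_lit 214)) (XT.lf (nat_lit 0) (nat_lit 8882254389) (nat_lit 912) (nat_lit 3147409743)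 (nat_lit 76) (nat_lit 9888388238) (nat_lit 318) (nat_lit 5) (nat_lit 330) (nat_lit 5) (nat_lit 319) (nat_lit 5) (nat_lit 480) (nat_lit 447) (nat_lit 213))) (XT.nd (nat_lit 78) (nat_lit 760) (nat_lit 0) (XT.lf (nat_lit 0) (nat_lit 8055182036) (nat_lit 836) (nat_lit 3072350318) (nat_lit 912) (nat_lit 11036215332) (nat_lit 307) (nat_lit 5) (nat_lit 318) (nat_lit 5) (nat_lit 319) (nat_lit 5) (nat_lit 481) (nat_lit 447) (nat_lit 212)) (XT.nd (nat_lit 78) (nat_lit 760) (nat_lit 0) (XT.lf (nat_lit 0) (nat_lit 13474449039) (nat_lit 912) (nat_lit 2932784980) (nat_lit 76) (nat_lit 6005990316) (nat_lit 307) (nat_lit 5) (nat_lit 319) (nat_lit 5) (nat_lit 308) (nat_lit 5) (nat_lit 482) (nat_lit 447) (nat_lit 211)) (XT.lf (nat_lit 0) (nat_lit 8554606867) (nat_lit 760) (nat_lit 7385762817) (nat_lit 836) (nat_lit 6725881573) (nat_lit 297) (nat_lit 5) (nat_lit 307) (nat_lit 5) (nat_lit 308) (nat_lit 5) (nat_lit 483) (nat_lit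 447) (nat_lit 210))))) (XT.nd (nat_lit 234) (nat_lit 1520) (nat_lit 0) (XT.nd (nat_lit 78) (nat_lit 836) (nat_lit 0) (XT.lf (nat_lit 0) (nat_lit 18483438979) (nat_lit 836) (nat_lit 2628171797) (nat_lit 76) (nat_lit 1812173347) (nat_lit 297) (nat_lit 5) (nat_lit 308) (nat_lit 5) (nat_lit 298) (nat_lit 5) (nat_lit 484) (nat_lit 447) (nat_lit 209)) (XT.nd (nat_lit 78) (nat_lit 76) (nat_lit 0) (XT.lf (nat_lit 0) (nat_lit 9152361396) (nat_lit 760) (nat_lit 12029645565) (nat_lit 836) (nat_lit 2002369910) (nat_lit 287) (nat_lit 5) (nat_lit 297) (nat_lit 5) (nat_lit 298) (nat_lit 5) (nat_lit 485) (nat_lit 447) (nat_lit 208)) (XT.lf (nat_lit 0) (nat_lit 492089644) (nat_lit 836) (nat_lit 2252717125) (nat_lit 76) (nat_lit 20705032155) (nat_lit 286) (nat_lit 5) (nat_lit 297) (nat_lit 5) (nat_lit 287) (nat_lit 5) (nat_lit 486) (nat_lit 447) (nat_lit 207)))) (XT.nd (nat_lit 78) (nat_lit 760) (nat_lit 0) (XT.lf (nat_lit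 0) (nat_lit 3114341019) (nat_lit 836) (nat_lit 13888585013) (nat_lit 76) (nat_lit 6715327044) (nat_lit 276) (nat_lit 5) (nat_lit 287) (nat_lit 5) (nat_lit 277) (nat_lit 5) (nat_lit 487) (nat_lit 447) (nat_lit 206)) (XT.nd (nat_lit 78) (nat_lit 760) (nat_lit 0) (XT.lf (nat_lit 0) (nat_lit 5818874424) (nat_lit 836) (nat_lit 1829505637) (nat_lit 76) (nat_lit 16343060532) (nat_lit 276) (nat_lit 5) (nat_lit 287) (nat_lit 5) (nat_lit 277) (nat_lit 5) (nat_lit 488) (nat_lit 447) (nat_lit 205)) (XT.lf (nat_lit 0) (nat_lit 8655620385) (nat_lit 836) (nat_lit 13675334613) (nat_lit 76) (nat_lit 1937576208) (nat_lit 266) (nat_lit 5) (nat_lit 277) (nat_lit 5) (nat_lit 267) (nat_lit 5) (nat_lit 489) (nat_lit 447) (nat_lit 204))))))) (XT.nd (nat_lit 56706) (nat_lit 0) (nat_lit 8740) (XT.nd (nat_lit 56316) (nat_lit 0) (nat_lit 10108) (XT.nd (nat_lit 56082) (nat_lit 0) (nat_lit 10032) (XT.nd (nat_lit 78) (nat_lit 684) (nat_lit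 0) (XT.lf (nat_lit 0) (nat_lit 11608666785) (nat_lit 836) (nat_lit 1316202695) (nat_lit 76) (nat_lit 11625104593) (nat_lit 266) (nat_lit 5) (nat_lit 277) (nat_lit 5) (nat_lit 267) (nat_lit 5) (nat_lit 490) (nat_lit 447) (nat_lit 203)) (XT.lf (nat_lit 0) (nat_lit 11436471800) (nat_lit 684) (nat_lit 3255178751) (nat_lit 760) (nat_lit 10143979431) (nat_lit 257) (nat_lit 5) (nat_lit 266) (nat_lit 5) (nat_lit 267) (nat_lit 5) (nat_lit 491) (nat_lit 447) (nat_lit 202))) (XT.nd (nat_lit 78) (nat_lit 0) (nat_lit 0) (XT.lf (nat_lit 0) (nat_lit 4496668295) (nat_lit 1748) (nat_lit 1719529433) (nat_lit 1748) (nat_lit 1719529433) (nat_lit 389) (nat_lit 3) (nat_lit 412) (nat_lit 3) (nat_lit 412) (nat_lit 5) (nat_lit 448) (nat_lit 448) (nat_lit 244)) (XT.nd (nat_lit 78) (nat_lit 0) (nat_lit 76) (XT.lf (nat_lit 76) (nat_lit 3992198652) (nat_lit 0) (nat_lit 5372787005) (nat_lit 1748) (nat_lit 6659395611) (nat_lit 390) (nat_lit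 5) (nat_lit 389) (nat_lit 3) (nat_lit 412) (nat_lit 5) (nat_lit 449) (nat_lit 448) (nat_lit 243)) (XT.lf (nat_lit 0) (nat_lit 9772456156) (nat_lit 1672) (nat_lit 4576857294) (nat_lit 1748) (nat_lit 1830489551) (nat_lit 390) (nat_lit 5) (nat_lit 412) (nat_lit 5) (nat_lit 413) (nat_lit 5) (nat_lit 450) (nat_lit 448) (nat_lit 242))))) (XT.nd (nat_lit 156) (nat_lit 0) (nat_lit 76) (XT.nd (nat_lit 78) (nat_lit 0) (nat_lit 76) (XT.lf (nat_lit 76) (nat_lit 3028149791) (nat_lit 0) (nat_lit 7208589034) (nat_lit 1748) (nat_lit 6100625031) (nat_lit 391) (nat_lit 5) (nat_lit 390) (nat_lit 5) (nat_lit 413) (nat_lit 5) (nat_lit 451) (nat_lit 448) (nat_lit 241)) (XT.lf (nat_lit 0) (nat_lit 10735256061) (nat_lit 1672) (nat_lit 5654541267) (nat_lit 1748) (nat_lit 107783486) (nat_lit 391) (nat_lit 5) (nat_lit 413) (nat_lit 5) (nat_lit 414) (nat_lit 5) (nat_lit 452) (nat_lit 448) (nat_lit 240))) (XT.nd (nat_lit 78) (nat_lit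 0) (nat_lit 0) (XT.lf (nat_lit 76) (nat_lit 2129803942) (nat_lit 0) (nat_lit 9169179121) (nat_lit 1748) (nat_lit 5360918048) (nat_lit 392) (nat_lit 5) (nat_lit 391) (nat_lit 5) (nat_lit 414) (nat_lit 5) (nat_lit 453) (nat_lit 448) (nat_lit 239)) (XT.nd (nat_lit 78) (nat_lit 0) (nat_lit 76) (XT.lf (nat_lit 76) (nat_lit 10142893827) (nat_lit 0) (nat_lit 1762808807) (nat_lit 1748) (nat_lit 4919134535) (nat_lit 392) (nat_lit 5) (nat_lit 391) (nat_lit 5) (nat_lit 414) (nat_lit 5) (nat_lit 454) (nat_lit 448) (nat_lit 238)) (XT.lf (nat_lit 76) (nat_lit 1298942813) (nat_lit 0) (nat_lit 11265562823) (nat_lit 1748) (nat_lit 4427770974) (nat_lit 393) (nat_lit 5) (nat_lit 392) (nat_lit 5) (nat_lit 415) (nat_lit 5) (nat_lit 455) (nat_lit 448) (nat_lit 237)))))) (XT.nd (nat_lit 390) (nat_lit 1520) (nat_lit 0) (XT.nd (nat_lit 156) (nat_lit 0) (nat_lit 76) (XT.nd (nat_lit 78) (nat_lit 0) (nat_lit 76) (XT.lf (nat_lit 76)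 (nat_lit 9514553790) (nat_lit 0) (nat_lit 3772375391) (nat_lit 1748) (nat_lit 3875130339) (nat_lit 393) (nat_lit 5) (nat_lit 392) (nat_lit 5) (nat_lit 415) (nat_lit 5) (nat_lit 456) (nat_lit 448) (nat_lit 236)) (XT.lf (nat_lit 76) (nat_lit 537453045) (nat_lit 0) (nat_lit 13509108825) (nat_lit 1748) (nat_lit 3288224504) (nat_lit 394) (nat_lit 5) (nat_lit 393) (nat_lit 5) (nat_lit 416) (nat_lit 5) (nat_lit 457) (nat_lit 448) (nat_lit 235))) (XT.nd (nat_lit 78) (nat_lit 0) (nat_lit 76) (XT.lf (nat_lit 76) (nat_lit 8960781040) (nat_lit 0) (nat_lit 5930974407) (nat_lit 1748) (nat_lit 2617808386) (nat_lit 394) (nat_lit 5) (nat_lit 393) (nat_lit 5) (nat_lit 416) (nat_lit 5) (nat_lit 458) (nat_lit 448) (nat_lit 234)) (XT.nd (nat_lit 78) (nat_lit 0) (nat_lit 0) (XT.lf (nat_lit 0) (nat_lit 15759888997) (nat_lit 1672) (nat_lit 150676669) (nat_lit 1748) (nat_lit 1777153817) (nat_lit 394) (nat_lit 5) (nat_lit 416) (nat_lit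 5) (nat_lit 417) (nat_lit 5) (nat_lit 459) (nat_lit 448) (nat_lit 233)) (XT.lf (nat_lit 76) (nat_lit 8483715405) (nat_lit 0) (nat_lit 8250497932) (nat_lit 1748) (nat_lit 1133451644) (nat_lit 395) (nat_lit 5) (nat_lit 394) (nat_lit 5) (nat_lit 417) (nat_lit 5) (nat_lit 460) (nat_lit 448) (nat_lit 232))))) (XT.nd (nat_lit 234) (nat_lit 0) (nat_lit 76) (XT.nd (nat_lit 78) (nat_lit 1672) (nat_lit 0) (XT.lf (nat_lit 76) (nat_lit 17289198239) (nat_lit 0) (nat_lit 434390119) (nat_lit 1748) (nat_lit 327712983) (nat_lit 395) (nat_lit 5) (nat_lit 394) (nat_lit 5) (nat_lit 417) (nat_lit 5) (nat_lit 461) (nat_lit 448) (nat_lit 231)) (XT.nd (nat_lit 78) (nat_lit 0) (nat_lit 0) (XT.lf (nat_lit 0) (nat_lit 584403438) (nat_lit 1748) (nat_lit 10154943461) (nat_lit 1824) (nat_lit 7497267596) (nat_lit 372) (nat_lit 5) (nat_lit 395) (nat_lit 5) (nat_lit 396) (nat_lit 5) (nat_lit 462) (nat_lit 448) (nat_lit 230)) (XT.lf (nat_lit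 0) (nat_lit 1513117192) (nat_lit 1748) (nat_lit 1321700054) (nat_lit 1824) (nat_lit 15590721528) (nat_lit 372) (nat_lit 5) (nat_lit 395) (nat_lit 5) (nat_lit 396) (nat_lit 5) (nat_lit 463) (nat_lit 448) (nat_lit 229)))) (XT.nd (nat_lit 78) (nat_lit 0) (nat_lit 0) (XT.lf (nat_lit 0) (nat_lit 2540066329) (nat_lit 1748) (nat_lit 10864957686) (nat_lit 1824) (nat_lit 5211627288) (nat_lit 373) (nat_lit 5) (nat_lit 396) (nat_lit 5) (nat_lit 397) (nat_lit 5) (nat_lit 464) (nat_lit 448) (nat_lit 228)) (XT.nd (nat_lit 78) (nat_lit 0) (nat_lit 76) (XT.lf (nat_lit 0) (nat_lit 3610161465) (nat_lit 1748) (nat_lit 1809525668) (nat_lit 1824) (nat_lit 13391449739) (nat_lit 373) (nat_lit 5) (nat_lit 396) (nat_lit 5) (nat_lit 397) (nat_lit 5) (nat_lit 465) (nat_lit 448) (nat_lit 227)) (XT.lf (nat_lit 0) (nat_lit 4763528239) (nat_lit 1748) (nat_lit 11504679887) (nat_lit 1824) (nat_lit 2740069504) (nat_lit 374) (nat_lit 5) (nat_lit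 397) (nat_lit 5) (nat_lit 398) (nat_lit 5) (nat_lit 466) (nat_lit 448) (nat_lit 226))))))))
noncomputable def xc240 : XT := (XT.nd (nat_lit 1560) (nat_lit 1596) (nat_lit 0) (XT.nd (nat_lit 780) (nat_lit 4180) (nat_lit 0) (XT.nd (nat_lit 390) (nat_lit 2432) (nat_lit 0) (XT.nd (nat_lit 156) (nat_lit 0) (nat_lit 76) (XT.nd (nat_lit 78) (nat_lit 0) (nat_lit 76) (XT.lf (nat_lit 0) (nat_lit 5983165232) (nat_lit 1748) (nat_lit 2221345833) (nat_lit 1824) (nat_lit 11003988895) (nat_lit 374) (nat_lit 5) (nat_lit 397) (nat_lit 5) (nat_lit 398) (nat_lit 5) (nat_lit 467) (nat_lit 448) (nat_lit 225)) (XT.lf (nat_lit 0) (nat_lit 7270492301) (nat_lit 1748) (nat_lit 12072098523) (nat_lit 1824) (nat_lit 69272726) (nat_lit 375) (nat_lit 5) (nat_lit 398) (nat_lit 5) (nat_lit 399) (nat_lit 5) (nat_lit 468) (nat_lit 448) (nat_lit 224))) (XT.nd (nat_lit 78) (nat_lit 0) (nat_lit 0) (XT.lf (nat_lit 0) (nat_lit 8648167088) (nat_lit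 1748) (nat_lit 2554994238) (nat_lit 1824) (nat_lit 8414843768) (nat_lit 375) (nat_lit 5) (nat_lit 398) (nat_lit 5) (nat_lit 399) (nat_lit 5) (nat_lit 469) (nat_lit 448) (nat_lit 223)) (XT.nd (nat_lit 78) (nat_lit 0) (nat_lit 76) (XT.lf (nat_lit 76) (nat_lit 7243755526) (nat_lit 0) (nat_lit 2852025570) (nat_lit 1824) (nat_lit 9731643311) (nat_lit 376) (nat_lit 5) (nat_lit 375) (nat_lit 5) (nat_lit 399) (nat_lit 5) (nat_lit 470) (nat_lit 448) (nat_lit 222)) (XT.lf (nat_lit 0) (nat_lit 11621822128) (nat_lit 1748) (nat_lit 2808252584) (nat_lit 1824) (nat_lit 5609970500) (nat_lit 376) (nat_lit 5) (nat_lit 399) (nat_lit 5) (nat_lit 400) (nat_lit 5) (nat_lit 471) (nat_lit 448) (nat_lit 221))))) (XT.nd (nat_lit 156) (nat_lit 2584) (nat_lit 0) (XT.nd (nat_lit 78) (nat_lit 0) (nat_lit 76) (XT.lf (nat_lit 76) (nat_lit 7234970975) (nat_lit 0) (nat_lit 6004792026) (nat_lit 1824) (nat_lit 7015930402) (nat_lit 377) (nat_lit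 5) (nat_lit 376) (nat_lit 5) (nat_lit 400) (nat_lit 5) (nat_lit 472) (nat_lit 448) (nat_lit 220)) (XT.lf (nat_lit 0) (nat_lit 14921427870) (nat_lit 1748) (nat_lit 2978859096) (nat_lit 76) (nat_lit 2574742787) (nat_lit 377) (nat_lit 5) (nat_lit 400) (nat_lit 5) (nat_lit 378) (nat_lit 5) (nat_lit 473) (nat_lit 448) (nat_lit 219))) (XT.nd (nat_lit 78) (nat_lit 912) (nat_lit 0) (XT.lf (nat_lit 0) (nat_lit 7316330876) (nat_lit 1748) (nat_lit 9403337060) (nat_lit 1824) (nat_lit 3977428508) (nat_lit 354) (nat_lit 5) (nat_lit 377) (nat_lit 5) (nat_lit 378) (nat_lit 5) (nat_lit 474) (nat_lit 448) (nat_lit 218)) (XT.nd (nat_lit 78) (nat_lit 912) (nat_lit 0) (XT.lf (nat_lit 0) (nat_lit 17854129415) (nat_lit 1748) (nat_lit 715466686) (nat_lit 1824) (nat_lit 2353696303) (nat_lit 354) (nat_lit 5) (nat_lit 377) (nat_lit 5) (nat_lit 378) (nat_lit 5) (nat_lit 475) (nat_lit 448) (nat_lit 217)) (XT.lf (nat_lit 0) (nat_lit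 7490326149) (nat_lit 912) (nat_lit 13063540138) (nat_lit 988) (nat_lit 598201485) (nat_lit 342) (nat_lit 5) (nat_lit 354) (nat_lit 5) (nat_lit 355) (nat_lit 5) (nat_lit 476) (nat_lit 448) (nat_lit 216)))))) (XT.nd (nat_lit 390) (nat_lit 2356) (nat_lit 0) (XT.nd (nat_lit 156) (nat_lit 836) (nat_lit 0) (XT.nd (nat_lit 78) (nat_lit 912) (nat_lit 0) (XT.lf (nat_lit 0) (nat_lit 1198084497) (nat_lit 988) (nat_lit 3098740120) (nat_lit 76) (nat_lit 17088015059) (nat_lit 341) (nat_lit 5) (nat_lit 354) (nat_lit 5) (nat_lit 342) (nat_lit 5) (nat_lit 477) (nat_lit 448) (nat_lit 215)) (XT.lf (nat_lit 0) (nat_lit 3099194385) (nat_lit 988) (nat_lit 13881975360) (nat_lit 76) (nat_lit 4639482247) (nat_lit 329) (nat_lit 5) (nat_lit 342) (nat_lit 5) (nat_lit 330) (nat_lit 5) (nat_lit 478) (nat_lit 448) (nat_lit 214))) (XT.nd (nat_lit 78) (nat_lit 836) (nat_lit 0) (XT.lf (nat_lit 0) (nat_lit 5083703823) (nat_lit 988) (nat_lit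 3058225386) (nat_lit 76) (nat_lit 13718345976) (nat_lit 329) (nat_lit 5) (nat_lit 342) (nat_lit 5) (nat_lit 330) (nat_lit 5) (nat_lit 479) (nat_lit 448) (nat_lit 213)) (XT.nd (nat_lit 78) (nat_lit 0) (nat_lit 0) (XT.lf (nat_lit 0) (nat_lit 7162485676) (nat_lit 912) (nat_lit 14025359121) (nat_lit 76) (nat_lit 915756534) (nat_lit 318) (nat_lit 5) (nat_lit 330) (nat_lit 5) (nat_lit 319) (nat_lit 5) (nat_lit 480) (nat_lit 448) (nat_lit 212)) (XT.lf (nat_lit 0) (nat_lit 9353545056) (nat_lit 912) (nat_lit 2930243079) (nat_lit 76) (nat_lit 10066593919) (nat_lit 318) (nat_lit 5) (nat_lit 330) (nat_lit 5) (nat_lit 319) (nat_lit 5) (nat_lit 481) (nat_lit 448) (nat_lit 211))))) (XT.nd (nat_lit 156) (nat_lit 1520) (nat_lit 0) (XT.nd (nat_lit 78) (nat_lit 0) (nat_lit 0) (XT.lf (nat_lit 0) (nat_lit 8494557675) (nat_lit 836) (nat_lit 3145219875) (nat_lit 912) (nat_lit 10961295853) (nat_lit 307) (nat_lit 5) (nat_lit 318)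 (nat_lit 5) (nat_lit 319) (nat_lit 5) (nat_lit 482) (nat_lit 448) (nat_lit 210)) (XT.lf (nat_lit 0) (nat_lit 14027879576) (nat_lit 912) (nat_lit 2712719702) (nat_lit 76) (nat_lit 6115058415) (nat_lit 307) (nat_lit 5) (nat_lit 319) (nat_lit 5) (nat_lit 308) (nat_lit 5) (nat_lit 483) (nat_lit 448) (nat_lit 209))) (XT.nd (nat_lit 78) (nat_lit 760) (nat_lit 0) (XT.lf (nat_lit 0) (nat_lit 9002586292) (nat_lit 760) (nat_lit 7536762595) (nat_lit 836) (nat_lit 6574474645) (nat_lit 297) (nat_lit 5) (nat_lit 307) (nat_lit 5) (nat_lit 308) (nat_lit 5) (nat_lit 484) (nat_lit 448) (nat_lit 208)) (XT.nd (nat_lit 78) (nat_lit 760) (nat_lit 0) (XT.lf (nat_lit 0) (nat_lit 19127765096) (nat_lit 836) (nat_lit 2403616250) (nat_lit 76) (nat_lit 1845238926) (nat_lit 297) (nat_lit 5) (nat_lit 308) (nat_lit 5) (nat_lit 298) (nat_lit 5) (nat_lit 485) (nat_lit 448) (nat_lit 207)) (XT.lf (nat_lit 0) (nat_lit 9610704455) (nat_lit 760)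 (nat_lit 12266001948) (nat_lit 836) (nat_lit 1765793304) (nat_lit 287) (nat_lit 5) (nat_lit 297) (nat_lit 5) (nat_lit 298) (nat_lit 5) (nat_lit 486) (nat_lit 448) (nat_lit 206))))))) (XT.nd (nat_lit 56784) (nat_lit 0) (nat_lit 7980) (XT.nd (nat_lit 56394) (nat_lit 0) (nat_lit 9348) (XT.nd (nat_lit 156) (nat_lit 760) (nat_lit 0) (XT.nd (nat_lit 78) (nat_lit 760) (nat_lit 0) (XT.lf (nat_lit 0) (nat_lit 769574604) (nat_lit 836) (nat_lit 2024178814) (nat_lit 76) (nat_lit 21119591479) (nat_lit 286) (nat_lit 5) (nat_lit 297) (nat_lit 5) (nat_lit 287) (nat_lit 5) (nat_lit 487) (nat_lit 448) (nat_lit 205)) (XT.lf (nat_lit 0) (nat_lit 3440837317) (nat_lit 836) (nat_lit 13889195133) (nat_lit 76) (nat_lit 6857166261) (nat_lit 276) (nat_lit 5) (nat_lit 287) (nat_lit 5) (nat_lit 277) (nat_lit 5) (nat_lit 488) (nat_lit 448) (nat_lit 204))) (XT.nd (nat_lit 78) (nat_lit 760) (nat_lit 0) (XT.lf (nat_lit 0) (nat_lit 6194280812)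 (nat_lit 836) (nat_lit 1594368710) (nat_lit 76) (nat_lit 16677306718) (nat_lit 276) (nat_lit 5) (nat_lit 287) (nat_lit 5) (nat_lit 277) (nat_lit 5) (nat_lit 489) (nat_lit 448) (nat_lit 203)) (XT.nd (nat_lit 78) (nat_lit 0) (nat_lit 0) (XT.lf (nat_lit 0) (nat_lit 9084527755) (nat_lit 836) (nat_lit 13673750341) (nat_lit 76) (nat_lit 1990377848) (nat_lit 266) (nat_lit 5) (nat_lit 277) (nat_lit 5) (nat_lit 267) (nat_lit 5) (nat_lit 490) (nat_lit 448) (nat_lit 202)) (XT.lf (nat_lit 0) (nat_lit 12091619495) (nat_lit 836) (nat_lit 1072829726) (nat_lit 76) (nat_lit 11871381308) (nat_lit 266) (nat_lit 5) (nat_lit 277) (nat_lit 5) (nat_lit 267) (nat_lit 5) (nat_lit 491) (nat_lit 448) (nat_lit 201))))) (XT.nd (nat_lit 156) (nat_lit 0) (nat_lit 76) (XT.nd (nat_lit 78) (nat_lit 0) (nat_lit 0) (XT.lf (nat_lit 0) (nat_lit 4840736565) (nat_lit 1748) (nat_lit 1624235075) (nat_lit 1748) (nat_lit 1624235075) (nat_lit 389)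 (nat_lit 3) (nat_lit 412) (nat_lit 3) (nat_lit 412) (nat_lit 5) (nat_lit 449) (nat_lit 449) (nat_lit 242)) (XT.lf (nat_lit 76) (nat_lit 4329706138) (nat_lit 0) (nat_lit 5722555889) (nat_lit 1748) (nat_lit 6282308723) (nat_lit 390) (nat_lit 5) (nat_lit 389) (nat_lit 3) (nat_lit 412) (nat_lit 5) (nat_lit 450) (nat_lit 449) (nat_lit 241))) (XT.nd (nat_lit 78) (nat_lit 0) (nat_lit 0) (XT.lf (nat_lit 0) (nat_lit 10456536063) (nat_lit 1672) (nat_lit 4404144525) (nat_lit 1748) (nat_lit 1632653103) (nat_lit 390) (nat_lit 5) (nat_lit 412) (nat_lit 5) (nat_lit 413) (nat_lit 5) (nat_lit 451) (nat_lit 449) (nat_lit 240)) (XT.nd (nat_lit 78) (nat_lit 0) (nat_lit 0) (XT.lf (nat_lit 76) (nat_lit 3351224216) (nat_lit 0) (nat_lit 7571003572) (nat_lit 1748) (nat_lit 5731981247) (nat_lit 391) (nat_lit 5) (nat_lit 390) (nat_lit 5) (nat_lit 413) (nat_lit 5) (nat_lit 452) (nat_lit 449) (nat_lit 239)) (XT.lf (nat_lit 76) (nat_lit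 11318002234) (nat_lit 0) (nat_lit 102563297) (nat_lit 1748) (nat_lit 5397273426) (nat_lit 391) (nat_lit 5) (nat_lit 390) (nat_lit 5) (nat_lit 413) (nat_lit 5) (nat_lit 453) (nat_lit 449) (nat_lit 238)))))) (XT.nd (nat_lit 390) (nat_lit 1520) (nat_lit 0) (XT.nd (nat_lit 156) (nat_lit 0) (nat_lit 76) (XT.nd (nat_lit 78) (nat_lit 0) (nat_lit 0) (XT.lf (nat_lit 76) (nat_lit 2439095107) (nat_lit 0) (nat_lit 9548323141) (nat_lit 1748) (nat_lit 4996155907) (nat_lit 392) (nat_lit 5) (nat_lit 391) (nat_lit 5) (nat_lit 414) (nat_lit 5) (nat_lit 454) (nat_lit 449) (nat_lit 237)) (XT.lf (nat_lit 76) (nat_lit 10607217474) (nat_lit 0) (nat_lit 1989986980) (nat_lit 1748) (nat_lit 4554791243) (nat_lit 392) (nat_lit 5) (nat_lit 391) (nat_lit 5) (nat_lit 414) (nat_lit 5) (nat_lit 455) (nat_lit 449) (nat_lit 236))) (XT.nd (nat_lit 78) (nat_lit 0) (nat_lit 0) (XT.lf (nat_lit 76) (nat_lit 1595181937) (nat_lit 0) (nat_lit 11665644679)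 (nat_lit 1748) (nat_lit 4062129751) (nat_lit 393) (nat_lit 5) (nat_lit 392) (nat_lit 5) (nat_lit 415) (nat_lit 5) (nat_lit 456) (nat_lit 449) (nat_lit 235)) (XT.nd (nat_lit 78) (nat_lit 0) (nat_lit 76) (XT.lf (nat_lit 76) (nat_lit 9969805913) (nat_lit 0) (nat_lit 4019166625) (nat_lit 1748) (nat_lit 3507342119) (nat_lit 393) (nat_lit 5) (nat_lit 392) (nat_lit 5) (nat_lit 415) (nat_lit 5) (nat_lit 457) (nat_lit 449) (nat_lit 234)) (XT.lf (nat_lit 76) (nat_lit 821452081) (nat_lit 0) (nat_lit 13934474259) (nat_lit 1748) (nat_lit 2916732236) (nat_lit 394) (nat_lit 5) (nat_lit 393) (nat_lit 5) (nat_lit 416) (nat_lit 5) (nat_lit 458) (nat_lit 449) (nat_lit 233))))) (XT.nd (nat_lit 234) (nat_lit 1672) (nat_lit 0) (XT.nd (nat_lit 78) (nat_lit 0) (nat_lit 76) (XT.lf (nat_lit 76) (nat_lit 9407888793) (nat_lit 0) (nat_lit 6201734344) (nat_lit 1748) (nat_lit 2241481457) (nat_lit 394) (nat_lit 5) (nat_lit 393) (nat_lit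 5) (nat_lit 416) (nat_lit 5) (nat_lit 459) (nat_lit 449) (nat_lit 232)) (XT.nd (nat_lit 78) (nat_lit 0) (nat_lit 0) (XT.lf (nat_lit 76) (nat_lit 119971921) (nat_lit 0) (nat_lit 16366722014) (nat_lit 1748) (nat_lit 1546302831) (nat_lit 395) (nat_lit 5) (nat_lit 394) (nat_lit 5) (nat_lit 417) (nat_lit 5) (nat_lit 460) (nat_lit 449) (nat_lit 231)) (XT.lf (nat_lit 76) (nat_lit 8923688327) (nat_lit 0) (nat_lit 8549737000) (nat_lit 1748) (nat_lit 743262238) (nat_lit 395) (nat_lit 5) (nat_lit 394) (nat_lit 5) (nat_lit 417) (nat_lit 5) (nat_lit 461) (nat_lit 449) (nat_lit 230)))) (XT.nd (nat_lit 78) (nat_lit 0) (nat_lit 76) (XT.lf (nat_lit 0) (nat_lit 69571365) (nat_lit 1748) (nat_lit 504636862) (nat_lit 1824) (nat_lit 17829942619) (nat_lit 371) (nat_lit 5) (nat_lit 394) (nat_lit 5) (nat_lit 395) (nat_lit 5) (nat_lit 462) (nat_lit 449) (nat_lit 229)) (XT.nd (nat_lit 78) (nat_lit 0) (nat_lit 0) (XT.lf (nat_lit 0)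 (nat_lit 988649608) (nat_lit 1748) (nat_lit 10080381472) (nat_lit 1824) (nat_lit 7524238234) (nat_lit 372) (nat_lit 5) (nat_lit 395) (nat_lit 5) (nat_lit 396) (nat_lit 5) (nat_lit 463) (nat_lit 449) (nat_lit 228)) (XT.lf (nat_lit 0) (nat_lit 1928240419) (nat_lit 1748) (nat_lit 1075917527) (nat_lit 1824) (nat_lit 15781972514) (nat_lit 372) (nat_lit 5) (nat_lit 395) (nat_lit 5) (nat_lit 396) (nat_lit 5) (nat_lit 464) (nat_lit 449) (nat_lit 227))))))))
noncomputable def xc241 : XT := (XT.nd (nat_lit 1560) (nat_lit 2356) (nat_lit 0) (XT.nd (nat_lit 780) (nat_lit 5016) (nat_lit 0) (XT.nd (nat_lit 390) (nat_lit 0) (nat_lit 152) (XT.nd (nat_lit 156) (nat_lit 0) (nat_lit 76) (XT.nd (nat_lit 78) (nat_lit 0) (nat_lit 0) (XT.lf (nat_lit 0) (nat_lit 2969232637) (nat_lit 1748) (nat_lit 10803326887) (nat_lit 1824) (nat_lit 5208639985) (nat_lit 373) (nat_lit 5) (nat_lit 396) (nat_lit 5) (nat_lit 397) (nat_lit 5) (nat_lit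 465) (nat_lit 449) (nat_lit 226)) (XT.lf (nat_lit 0) (nat_lit 4053310754) (nat_lit 1748) (nat_lit 1572255444) (nat_lit 1824) (nat_lit 13554161235) (nat_lit 373) (nat_lit 5) (nat_lit 396) (nat_lit 5) (nat_lit 397) (nat_lit 5) (nat_lit 466) (nat_lit 449) (nat_lit 225))) (XT.nd (nat_lit 78) (nat_lit 0) (nat_lit 0) (XT.lf (nat_lit 0) (nat_lit 5223626371) (nat_lit 1748) (nat_lit 11454985181) (nat_lit 1824) (nat_lit 2702326006) (nat_lit 374) (nat_lit 5) (nat_lit 397) (nat_lit 5) (nat_lit 398) (nat_lit 5) (nat_lit 467) (nat_lit 449) (nat_lit 224)) (XT.nd (nat_lit 78) (nat_lit 0) (nat_lit 0) (XT.lf (nat_lit 0) (nat_lit 6460502622) (nat_lit 1748) (nat_lit 1991470490) (nat_lit 1824) (nat_lit 11133338390) (nat_lit 374) (nat_lit 5) (nat_lit 397) (nat_lit 5) (nat_lit 398) (nat_lit 5) (nat_lit 468) (nat_lit 449) (nat_lit 223)) (XT.lf (nat_lit 76) (nat_lit 7759532120) (nat_lit 0) (nat_lit 8335273) (nat_lit 1824) (nat_lit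 12024993167) (nat_lit 375) (nat_lit 5) (nat_lit 374) (nat_lit 5) (nat_lit 398) (nat_lit 5) (nat_lit 469) (nat_lit 449) (nat_lit 222))))) (XT.nd (nat_lit 156) (nat_lit 0) (nat_lit 76) (XT.nd (nat_lit 78) (nat_lit 0) (nat_lit 0) (XT.lf (nat_lit 0) (nat_lit 9166141340) (nat_lit 1748) (nat_lit 2331323366) (nat_lit 1824) (nat_lit 8505803255) (nat_lit 375) (nat_lit 5) (nat_lit 398) (nat_lit 5) (nat_lit 399) (nat_lit 5) (nat_lit 470) (nat_lit 449) (nat_lit 221)) (XT.lf (nat_lit 76) (nat_lit 7661593691) (nat_lit 0) (nat_lit 2976121275) (nat_lit 1824) (nat_lit 9579264411) (nat_lit 376) (nat_lit 5) (nat_lit 375) (nat_lit 5) (nat_lit 399) (nat_lit 5) (nat_lit 471) (nat_lit 449) (nat_lit 220))) (XT.nd (nat_lit 78) (nat_lit 0) (nat_lit 0) (XT.lf (nat_lit 0) (nat_lit 12187182964) (nat_lit 1748) (nat_lit 2589523578) (nat_lit 1824) (nat_lit 5657291721) (nat_lit 376) (nat_lit 5) (nat_lit 399) (nat_lit 5) (nat_lit 400) (nat_lit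 5) (nat_lit 472) (nat_lit 449) (nat_lit 219)) (XT.nd (nat_lit 78) (nat_lit 0) (nat_lit 76) (XT.lf (nat_lit 76) (nat_lit 7652755938) (nat_lit 0) (nat_lit 6179971839) (nat_lit 1824) (nat_lit 6821330450) (nat_lit 377) (nat_lit 5) (nat_lit 376) (nat_lit 5) (nat_lit 400) (nat_lit 5) (nat_lit 473) (nat_lit 449) (nat_lit 218)) (XT.lf (nat_lit 0) (nat_lit 15541240619) (nat_lit 1748) (nat_lit 2763738015) (nat_lit 76) (nat_lit 2572942019) (nat_lit 377) (nat_lit 5) (nat_lit 400) (nat_lit 5) (nat_lit 378) (nat_lit 5) (nat_lit 474) (nat_lit 449) (nat_lit 217)))))) (XT.nd (nat_lit 390) (nat_lit 1672) (nat_lit 0) (XT.nd (nat_lit 156) (nat_lit 1900) (nat_lit 0) (XT.nd (nat_lit 78) (nat_lit 0) (nat_lit 0) (XT.lf (nat_lit 0) (nat_lit 7735548531) (nat_lit 1748) (nat_lit 9635367093) (nat_lit 1824) (nat_lit 3733607218) (nat_lit 354) (nat_lit 5) (nat_lit 377) (nat_lit 5) (nat_lit 378) (nat_lit 5) (nat_lit 475) (nat_lit 449) (nat_lit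 216)) (XT.lf (nat_lit 0) (nat_lit 18478752237) (nat_lit 1748) (nat_lit 772877287) (nat_lit 1824) (nat_lit 2083740955) (nat_lit 354) (nat_lit 5) (nat_lit 377) (nat_lit 5) (nat_lit 378) (nat_lit 5) (nat_lit 476) (nat_lit 449) (nat_lit 215))) (XT.nd (nat_lit 78) (nat_lit 988) (nat_lit 0) (XT.lf (nat_lit 0) (nat_lit 7912536522) (nat_lit 912) (nat_lit 13358451852) (nat_lit 988) (nat_lit 297828344) (nat_lit 342) (nat_lit 5) (nat_lit 354) (nat_lit 5) (nat_lit 355) (nat_lit 5) (nat_lit 477) (nat_lit 449) (nat_lit 214)) (XT.nd (nat_lit 78) (nat_lit 912) (nat_lit 0) (XT.lf (nat_lit 0) (nat_lit 1524243062) (nat_lit 988) (nat_lit 2889471433) (nat_lit 76) (nat_lit 17392613183) (nat_lit 341) (nat_lit 5) (nat_lit 354) (nat_lit 5) (nat_lit 342) (nat_lit 5) (nat_lit 478) (nat_lit 449) (nat_lit 213)) (XT.lf (nat_lit 0) (nat_lit 3459013783) (nat_lit 988) (nat_lit 13883848391) (nat_lit 76) (nat_lit 4704084527) (nat_lit 329)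 (nat_lit 5) (nat_lit 342) (nat_lit 5) (nat_lit 330) (nat_lit 5) (nat_lit 479) (nat_lit 449) (nat_lit 212))))) (XT.nd (nat_lit 156) (nat_lit 836) (nat_lit 0) (XT.nd (nat_lit 78) (nat_lit 836) (nat_lit 0) (XT.lf (nat_lit 0) (nat_lit 5477373498) (nat_lit 988) (nat_lit 2849030603) (nat_lit 76) (nat_lit 13965078225) (nat_lit 329) (nat_lit 5) (nat_lit 342) (nat_lit 5) (nat_lit 330) (nat_lit 5) (nat_lit 480) (nat_lit 449) (nat_lit 211)) (XT.lf (nat_lit 0) (nat_lit 7593623213) (nat_lit 912) (nat_lit 14031243892) (nat_lit 76) (nat_lit 914893151) (nat_lit 318) (nat_lit 5) (nat_lit 330) (nat_lit 5) (nat_lit 319) (nat_lit 5) (nat_lit 481) (nat_lit 449) (nat_lit 210))) (XT.nd (nat_lit 78) (nat_lit 836) (nat_lit 0) (XT.lf (nat_lit 0) (nat_lit 9822858921) (nat_lit 912) (nat_lit 2719610282) (nat_lit 76) (nat_lit 10249123333) (nat_lit 318) (nat_lit 5) (nat_lit 330) (nat_lit 5) (nat_lit 319) (nat_lit 5) (nat_lit 482) (nat_lit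 449) (nat_lit 209)) (XT.nd (nat_lit 78) (nat_lit 0) (nat_lit 0) (XT.lf (nat_lit 0) (nat_lit 8931915186) (nat_lit 836) (nat_lit 3219103272) (nat_lit 912) (nat_lit 10896358193) (nat_lit 307) (nat_lit 5) (nat_lit 318) (nat_lit 5) (nat_lit 319) (nat_lit 5) (nat_lit 483) (nat_lit 449) (nat_lit 208)) (XT.lf (nat_lit 0) (nat_lit 14581352926) (nat_lit 912) (nat_lit 2499076193) (nat_lit 76) (nat_lit 6226737026) (nat_lit 307) (nat_lit 5) (nat_lit 319) (nat_lit 5) (nat_lit 308) (nat_lit 5) (nat_lit 484) (nat_lit 449) (nat_lit 207))))))) (XT.nd (nat_lit 56940) (nat_lit 0) (nat_lit 7220) (XT.nd (nat_lit 390) (nat_lit 0) (nat_lit 0) (XT.nd (nat_lit 156) (nat_lit 1596) (nat_lit 0) (XT.nd (nat_lit 78) (nat_lit 0) (nat_lit 0) (XT.lf (nat_lit 0) (nat_lit 9448773434) (nat_lit 760) (nat_lit 7690654828) (nat_lit 836) (nat_lit 6431142378) (nat_lit 297) (nat_lit 5) (nat_lit 307) (nat_lit 5) (nat_lit 308) (nat_lit 5) (nat_lit 485)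 (nat_lit 449) (nat_lit 206)) (XT.lf (nat_lit 0) (nat_lit 19774312457) (nat_lit 836) (nat_lit 2185330461) (nat_lit 76) (nat_lit 1879089219) (nat_lit 297) (nat_lit 5) (nat_lit 308) (nat_lit 5) (nat_lit 298) (nat_lit 5) (nat_lit 486) (nat_lit 449) (nat_lit 205))) (XT.nd (nat_lit 78) (nat_lit 836) (nat_lit 0) (XT.lf (nat_lit 0) (nat_lit 10067524303) (nat_lit 760) (nat_lit 12507249968) (nat_lit 836) (nat_lit 1535226813) (nat_lit 287) (nat_lit 5) (nat_lit 297) (nat_lit 5) (nat_lit 298) (nat_lit 5) (nat_lit 487) (nat_lit 449) (nat_lit 204)) (XT.nd (nat_lit 78) (nat_lit 760) (nat_lit 0) (XT.lf (nat_lit 0) (nat_lit 1042216353) (nat_lit 836) (nat_lit 1801693674) (nat_lit 76) (nat_lit 21542424177) (nat_lit 286) (nat_lit 5) (nat_lit 297) (nat_lit 5) (nat_lit 287) (nat_lit 5) (nat_lit 488) (nat_lit 449) (nat_lit 203)) (XT.lf (nat_lit 0) (nat_lit 3763603965) (nat_lit 836) (nat_lit 13900579977) (nat_lit 76) (nat_lit 7001549759)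 (nat_lit 276) (nat_lit 5) (nat_lit 287) (nat_lit 5) (nat_lit 277) (nat_lit 5) (nat_lit 489) (nat_lit 449) (nat_lit 202))))) (XT.nd (nat_lit 56316) (nat_lit 0) (nat_lit 8588) (XT.nd (nat_lit 56238) (nat_lit 0) (nat_lit 8588) (XT.lf (nat_lit 0) (nat_lit 6567136920) (nat_lit 836) (nat_lit 1365080537) (nat_lit 76) (nat_lit 17017951061) (nat_lit 276) (nat_lit 5) (nat_lit 287) (nat_lit 5) (nat_lit 277) (nat_lit 5) (nat_lit 490) (nat_lit 449) (nat_lit 201)) (XT.lf (nat_lit 0) (nat_lit 5181817833) (nat_lit 1748) (nat_lit 1532070655) (nat_lit 1748) (nat_lit 1532070655) (nat_lit 389) (nat_lit 3) (nat_lit 412) (nat_lit 3) (nat_lit 412) (nat_lit 5) (nat_lit 450) (nat_lit 450) (nat_lit 240))) (XT.nd (nat_lit 78) (nat_lit 0) (nat_lit 76) (XT.lf (nat_lit 76) (nat_lit 4663958385) (nat_lit 0) (nat_lit 6069910836) (nat_lit 1748) (nat_lit 5917494691) (nat_lit 390) (nat_lit 5) (nat_lit 389) (nat_lit 3) (nat_lit 412) (nat_lit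 5) (nat_lit 451) (nat_lit 450) (nat_lit 239)) (XT.nd (nat_lit 78) (nat_lit 0) (nat_lit 0) (XT.lf (nat_lit 0) (nat_lit 11135323438) (nat_lit 1672) (nat_lit 4238238647) (nat_lit 1748) (nat_lit 1439963760) (nat_lit 390) (nat_lit 5) (nat_lit 412) (nat_lit 5) (nat_lit 413) (nat_lit 5) (nat_lit 452) (nat_lit 450) (nat_lit 238)) (XT.lf (nat_lit 76) (nat_lit 3670566490) (nat_lit 0) (nat_lit 7932191768) (nat_lit 1748) (nat_lit 5375017370) (nat_lit 391) (nat_lit 5) (nat_lit 390) (nat_lit 5) (nat_lit 413) (nat_lit 5) (nat_lit 453) (nat_lit 450) (nat_lit 237)))))) (XT.nd (nat_lit 390) (nat_lit 1444) (nat_lit 0) (XT.nd (nat_lit 156) (nat_lit 0) (nat_lit 76) (XT.nd (nat_lit 78) (nat_lit 0) (nat_lit 76) (XT.lf (nat_lit 76) (nat_lit 11791732662) (nat_lit 0) (nat_lit 310269587) (nat_lit 1748) (nat_lit 5042862519) (nat_lit 391) (nat_lit 5) (nat_lit 390) (nat_lit 5) (nat_lit 413) (nat_lit 5) (nat_lit 454) (nat_lit 450) (nat_lit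 236)) (XT.lf (nat_lit 76) (nat_lit 2744216000) (nat_lit 0) (nat_lit 9927448424) (nat_lit 1748) (nat_lit 4642426101) (nat_lit 392) (nat_lit 5) (nat_lit 391) (nat_lit 5) (nat_lit 414) (nat_lit 5) (nat_lit 455) (nat_lit 450) (nat_lit 235))) (XT.nd (nat_lit 78) (nat_lit 0) (nat_lit 76) (XT.lf (nat_lit 76) (nat_lit 11070674560) (nat_lit 0) (nat_lit 2214256152) (nat_lit 1748) (nat_lit 4201129299) (nat_lit 392) (nat_lit 5) (nat_lit 391) (nat_lit 5) (nat_lit 414) (nat_lit 5) (nat_lit 456) (nat_lit 450) (nat_lit 234)) (XT.nd (nat_lit 78) (nat_lit 0) (nat_lit 0) (XT.lf (nat_lit 76) (nat_lit 1886851308) (nat_lit 0) (nat_lit 12066941618) (nat_lit 1748) (nat_lit 3706812713) (nat_lit 393) (nat_lit 5) (nat_lit 392) (nat_lit 5) (nat_lit 415) (nat_lit 5) (nat_lit 457) (nat_lit 450) (nat_lit 233)) (XT.lf (nat_lit 76) (nat_lit 10423874317) (nat_lit 0) (nat_lit 4264240197) (nat_lit 1748) (nat_lit 3149489321) (nat_lit 393) (nat_lit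 5) (nat_lit 392) (nat_lit 5) (nat_lit 415) (nat_lit 5) (nat_lit 458) (nat_lit 450) (nat_lit 232))))) (XT.nd (nat_lit 234) (nat_lit 1672) (nat_lit 0) (XT.nd (nat_lit 78) (nat_lit 0) (nat_lit 0) (XT.lf (nat_lit 76) (nat_lit 1100520468) (nat_lit 0) (nat_lit 14362321048) (nat_lit 1748) (nat_lit 2554789335) (nat_lit 394) (nat_lit 5) (nat_lit 393) (nat_lit 5) (nat_lit 416) (nat_lit 5) (nat_lit 459) (nat_lit 450) (nat_lit 231)) (XT.nd (nat_lit 78) (nat_lit 0) (nat_lit 76) (XT.lf (nat_lit 76) (nat_lit 9853536123) (nat_lit 0) (nat_lit 6472001681) (nat_lit 1748) (nat_lit 1874274277) (nat_lit 394) (nat_lit 5) (nat_lit 393) (nat_lit 5) (nat_lit 416) (nat_lit 5) (nat_lit 460) (nat_lit 450) (nat_lit 230)) (XT.lf (nat_lit 76) (nat_lit 387370000) (nat_lit 0) (nat_lit 16825653620) (nat_lit 1748) (nat_lit 1172465712) (nat_lit 395) (nat_lit 5) (nat_lit 394) (nat_lit 5) (nat_lit 417) (nat_lit 5) (nat_lit 461) (nat_lit 450)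 (nat_lit 229)))) (XT.nd (nat_lit 78) (nat_lit 1748) (nat_lit 0) (XT.lf (nat_lit 76) (nat_lit 9361964683) (nat_lit 0) (nat_lit 8849748570) (nat_lit 1748) (nat_lit 361300841) (nat_lit 395) (nat_lit 5) (nat_lit 394) (nat_lit 5) (nat_lit 417) (nat_lit 5) (nat_lit 462) (nat_lit 450) (nat_lit 228)) (XT.nd (nat_lit 78) (nat_lit 0) (nat_lit 76) (XT.lf (nat_lit 0) (nat_lit 454906115) (nat_lit 1748) (nat_lit 254696902) (nat_lit 1824) (nat_lit 18054730107) (nat_lit 371) (nat_lit 5) (nat_lit 394) (nat_lit 5) (nat_lit 395) (nat_lit 5) (nat_lit 463) (nat_lit 450) (nat_lit 227)) (XT.lf (nat_lit 0) (nat_lit 1385737192) (nat_lit 1748) (nat_lit 10015110152) (nat_lit 1824) (nat_lit 7556523543) (nat_lit 372) (nat_lit 5) (nat_lit 395) (nat_lit 5) (nat_lit 396) (nat_lit 5) (nat_lit 464) (nat_lit 450) (nat_lit 226))))))))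
noncomputable def xc242 : XT := (XT.nd (nat_lit 1560) (nat_lit 2356) (nat_lit 0) (XT.nd (nat_lit 780) (nat_lit 4940) (nat_lit 0) (XT.nd (nat_lit 390) (nat_lit 0) (nat_lit 152) (XT.nd (nat_lit 156) (nat_lit 0) (nat_lit 76) (XT.nd (nat_lit 78) (nat_lit 0) (nat_lit 76) (XT.lf (nat_lit 0) (nat_lit 2336721494) (nat_lit 1748) (nat_lit 835789849) (nat_lit 1824) (nat_lit 15981730144) (nat_lit 372) (nat_lit 5) (nat_lit 395) (nat_lit 5) (nat_lit 396) (nat_lit 5) (nat_lit 465) (nat_lit 450) (nat_lit 225)) (XT.lf (nat_lit 0) (nat_lit 3392289897) (nat_lit 1748) (nat_lit 10751294663) (nat_lit 1824) (nat_lit 5209756413) (nat_lit 373) (nat_lit 5) (nat_lit 396) (nat_lit 5) (nat_lit 397) (nat_lit 5) (nat_lit 466) (nat_lit 450) (nat_lit 224))) (XT.nd (nat_lit 78) (nat_lit 0) (nat_lit 76) (XT.lf (nat_lit 0) (nat_lit 4490918741) (nat_lit 1748) (nat_lit 1340858629) (nat_lit 1824) (nat_lit 13724208801) (nat_lit 373) (nat_lit 5)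 (nat_lit 396) (nat_lit 5) (nat_lit 397) (nat_lit 5) (nat_lit 467) (nat_lit 450) (nat_lit 223)) (XT.nd (nat_lit 78) (nat_lit 0) (nat_lit 0) (XT.lf (nat_lit 0) (nat_lit 5678759766) (nat_lit 1748) (nat_lit 11415161100) (nat_lit 1824) (nat_lit 2667421268) (nat_lit 374) (nat_lit 5) (nat_lit 397) (nat_lit 5) (nat_lit 398) (nat_lit 5) (nat_lit 468) (nat_lit 450) (nat_lit 222)) (XT.lf (nat_lit 0) (nat_lit 6933497840) (nat_lit 1748) (nat_lit 1767649131) (nat_lit 1824) (nat_lit 11268798043) (nat_lit 374) (nat_lit 5) (nat_lit 397) (nat_lit 5) (nat_lit 398) (nat_lit 5) (nat_lit 469) (nat_lit 450) (nat_lit 221))))) (XT.nd (nat_lit 156) (nat_lit 0) (nat_lit 76) (XT.nd (nat_lit 78) (nat_lit 0) (nat_lit 76) (XT.lf (nat_lit 76) (nat_lit 8176638986) (nat_lit 0) (nat_lit 85330568) (nat_lit 1824) (nat_lit 11919780168) (nat_lit 375) (nat_lit 5) (nat_lit 374) (nat_lit 5) (nat_lit 398) (nat_lit 5) (nat_lit 470) (nat_lit 450) (nat_lit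 220)) (XT.lf (nat_lit 0) (nat_lit 9681077883) (nat_lit 1748) (nat_lit 2113848760) (nat_lit 1824) (nat_lit 8601585038) (nat_lit 375) (nat_lit 5) (nat_lit 398) (nat_lit 5) (nat_lit 399) (nat_lit 5) (nat_lit 471) (nat_lit 450) (nat_lit 219))) (XT.nd (nat_lit 78) (nat_lit 0) (nat_lit 76) (XT.lf (nat_lit 76) (nat_lit 8077189131) (nat_lit 0) (nat_lit 3100095059) (nat_lit 1824) (nat_lit 9437312824) (nat_lit 376) (nat_lit 5) (nat_lit 375) (nat_lit 5) (nat_lit 399) (nat_lit 5) (nat_lit 472) (nat_lit 450) (nat_lit 218)) (XT.nd (nat_lit 78) (nat_lit 0) (nat_lit 0) (XT.lf (nat_lit 0) (nat_lit 12750923157) (nat_lit 1748) (nat_lit 2377094463) (nat_lit 1824) (nat_lit 5708078666) (nat_lit 376) (nat_lit 5) (nat_lit 399) (nat_lit 5) (nat_lit 400) (nat_lit 5) (nat_lit 473) (nat_lit 450) (nat_lit 217)) (XT.lf (nat_lit 76) (nat_lit 8068292357) (nat_lit 0) (nat_lit 6356516271) (nat_lit 1824) (nat_lit 6635843796) (nat_lit 377)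 (nat_lit 5) (nat_lit 376) (nat_lit 5) (nat_lit 400) (nat_lit 5) (nat_lit 474) (nat_lit 450) (nat_lit 216)))))) (XT.nd (nat_lit 390) (nat_lit 2584) (nat_lit 0) (XT.nd (nat_lit 156) (nat_lit 988) (nat_lit 0) (XT.nd (nat_lit 78) (nat_lit 1748) (nat_lit 0) (XT.lf (nat_lit 0) (nat_lit 16160969883) (nat_lit 1748) (nat_lit 2554981380) (nat_lit 76) (nat_lit 2573174769) (nat_lit 377) (nat_lit 5) (nat_lit 400) (nat_lit 5) (nat_lit 378) (nat_lit 5) (nat_lit 475) (nat_lit 450) (nat_lit 215)) (XT.lf (nat_lit 0) (nat_lit 8152553848) (nat_lit 1748) (nat_lit 9870330579) (nat_lit 1824) (nat_lit 3497466349) (nat_lit 354) (nat_lit 5) (nat_lit 377) (nat_lit 5) (nat_lit 378) (nat_lit 5) (nat_lit 476) (nat_lit 450) (nat_lit 214))) (XT.nd (nat_lit 78) (nat_lit 988) (nat_lit 0) (XT.lf (nat_lit 0) (nat_lit 19105478601) (nat_lit 1748) (nat_lit 829762425) (nat_lit 1824) (nat_lit 1820697133) (nat_lit 354) (nat_lit 5) (nat_lit 377)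 (nat_lit 5) (nat_lit 378) (nat_lit 5) (nat_lit 477) (nat_lit 450) (nat_lit 213)) (XT.nd (nat_lit 78) (nat_lit 76) (nat_lit 0) (XT.lf (nat_lit 0) (nat_lit 8332613330) (nat_lit 912) (nat_lit 13657955483) (nat_lit 988) (nat_lit 3576173) (nat_lit 342) (nat_lit 5) (nat_lit 354) (nat_lit 5) (nat_lit 355) (nat_lit 5) (nat_lit 478) (nat_lit 450) (nat_lit 212)) (XT.lf (nat_lit 0) (nat_lit 1845190125) (nat_lit 988) (nat_lit 2686550087) (nat_lit 76) (nat_lit 17704746322) (nat_lit 341) (nat_lit 5) (nat_lit 354) (nat_lit 5) (nat_lit 342) (nat_lit 5) (nat_lit 479) (nat_lit 450) (nat_lit 211))))) (XT.nd (nat_lit 156) (nat_lit 1672) (nat_lit 0) (XT.nd (nat_lit 78) (nat_lit 0) (nat_lit 0) (XT.lf (nat_lit 0) (nat_lit 3814464252) (nat_lit 988) (nat_lit 13896467231) (nat_lit 76) (nat_lit 4771073403) (nat_lit 329) (nat_lit 5) (nat_lit 342) (nat_lit 5) (nat_lit 330) (nat_lit 5) (nat_lit 480) (nat_lit 450) (nat_lit 210)) (XT.lf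 (nat_lit 0) (nat_lit 5867578020) (nat_lit 988) (nat_lit 2646150305) (nat_lit 76) (nat_lit 14217818206) (nat_lit 329) (nat_lit 5) (nat_lit 342) (nat_lit 5) (nat_lit 330) (nat_lit 5) (nat_lit 481) (nat_lit 450) (nat_lit 209))) (XT.nd (nat_lit 78) (nat_lit 836) (nat_lit 0) (XT.lf (nat_lit 0) (nat_lit 8022204465) (nat_lit 912) (nat_lit 14047910281) (nat_lit 76) (nat_lit 914757226) (nat_lit 318) (nat_lit 5) (nat_lit 330) (nat_lit 5) (nat_lit 319) (nat_lit 5) (nat_lit 482) (nat_lit 450) (nat_lit 208)) (XT.nd (nat_lit 78) (nat_lit 836) (nat_lit 0) (XT.lf (nat_lit 0) (nat_lit 10290599224) (nat_lit 912) (nat_lit 2515219656) (nat_lit 76) (nat_lit 10436033458) (nat_lit 318) (nat_lit 5) (nat_lit 330) (nat_lit 5) (nat_lit 319) (nat_lit 5) (nat_lit 483) (nat_lit 450) (nat_lit 207)) (XT.lf (nat_lit 0) (nat_lit 9367633803) (nat_lit 836) (nat_lit 3294038009) (nat_lit 912) (nat_lit 10841156197) (nat_lit 307) (nat_lit 5) (nat_lit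 318) (nat_lit 5) (nat_lit 319) (nat_lit 5) (nat_lit 484) (nat_lit 450) (nat_lit 206))))))) (XT.nd (nat_lit 57018) (nat_lit 0) (nat_lit 7220) (XT.nd (nat_lit 390) (nat_lit 760) (nat_lit 0) (XT.nd (nat_lit 156) (nat_lit 836) (nat_lit 0) (XT.nd (nat_lit 78) (nat_lit 760) (nat_lit 0) (XT.lf (nat_lit 0) (nat_lit 15135298091) (nat_lit 912) (nat_lit 2291562616) (nat_lit 76) (nat_lit 6341061697) (nat_lit 307) (nat_lit 5) (nat_lit 319) (nat_lit 5) (nat_lit 308) (nat_lit 5) (nat_lit 485) (nat_lit 450) (nat_lit 205)) (XT.lf (nat_lit 0) (nat_lit 9893549957) (nat_lit 760) (nat_lit 7847502315) (nat_lit 836) (nat_lit 6295615130) (nat_lit 297) (nat_lit 5) (nat_lit 307) (nat_lit 5) (nat_lit 308) (nat_lit 5) (nat_lit 486) (nat_lit 450) (nat_lit 204))) (XT.nd (nat_lit 78) (nat_lit 836) (nat_lit 0) (XT.lf (nat_lit 0) (nat_lit 20423539631) (nat_lit 836) (nat_lit 1973021965) (nat_lit 76) (nat_lit 1913735126) (nat_lit 297) (nat_lit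 5) (nat_lit 308) (nat_lit 5) (nat_lit 298) (nat_lit 5) (nat_lit 487) (nat_lit 450) (nat_lit 203)) (XT.nd (nat_lit 78) (nat_lit 76) (nat_lit 0) (XT.lf (nat_lit 0) (nat_lit 10523205583) (nat_lit 760) (nat_lit 12753481070) (nat_lit 836) (nat_lit 1310373528) (nat_lit 287) (nat_lit 5) (nat_lit 297) (nat_lit 5) (nat_lit 298) (nat_lit 5) (nat_lit 488) (nat_lit 450) (nat_lit 202)) (XT.lf (nat_lit 0) (nat_lit 1310321596) (nat_lit 836) (nat_lit 1584970226) (nat_lit 76) (nat_lit 21973696410) (nat_lit 286) (nat_lit 5) (nat_lit 297) (nat_lit 5) (nat_lit 287) (nat_lit 5) (nat_lit 489) (nat_lit 450) (nat_lit 201))))) (XT.nd (nat_lit 56394) (nat_lit 0) (nat_lit 8588) (XT.nd (nat_lit 56316) (nat_lit 0) (nat_lit 8588) (XT.lf (nat_lit 0) (nat_lit 4082964762) (nat_lit 836) (nat_lit 13922537118) (nat_lit 76) (nat_lit 7148539782) (nat_lit 276) (nat_lit 5) (nat_lit 287) (nat_lit 5) (nat_lit 277) (nat_lit 5) (nat_lit 490) (nat_lit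 450) (nat_lit 200)) (XT.lf (nat_lit 0) (nat_lit 5520235558) (nat_lit 1748) (nat_lit 1442903223) (nat_lit 1748) (nat_lit 1442903223) (nat_lit 389) (nat_lit 3) (nat_lit 412) (nat_lit 3) (nat_lit 412) (nat_lit 5) (nat_lit 451) (nat_lit 451) (nat_lit 238))) (XT.nd (nat_lit 78) (nat_lit 0) (nat_lit 76) (XT.lf (nat_lit 76) (nat_lit 4995278810) (nat_lit 0) (nat_lit 6415168942) (nat_lit 1748) (nat_lit 5564429545) (nat_lit 390) (nat_lit 5) (nat_lit 389) (nat_lit 3) (nat_lit 412) (nat_lit 5) (nat_lit 452) (nat_lit 451) (nat_lit 237)) (XT.nd (nat_lit 78) (nat_lit 0) (nat_lit 0) (XT.lf (nat_lit 0) (nat_lit 11809449221) (nat_lit 1672) (nat_lit 4078877344) (nat_lit 1748) (nat_lit 1252170949) (nat_lit 390) (nat_lit 5) (nat_lit 412) (nat_lit 5) (nat_lit 413) (nat_lit 5) (nat_lit 453) (nat_lit 451) (nat_lit 236)) (XT.lf (nat_lit 76) (nat_lit 3986497803) (nat_lit 0) (nat_lit 8292458176) (nat_lit 1748) (nat_lit 5029227153)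 (nat_lit 391) (nat_lit 5) (nat_lit 390) (nat_lit 5) (nat_lit 413) (nat_lit 5) (nat_lit 454) (nat_lit 451) (nat_lit 235)))))) (XT.nd (nat_lit 390) (nat_lit 1444) (nat_lit 0) (XT.nd (nat_lit 156) (nat_lit 0) (nat_lit 76) (XT.nd (nat_lit 78) (nat_lit 0) (nat_lit 76) (XT.lf (nat_lit 76) (nat_lit 12265332004) (nat_lit 0) (nat_lit 514144167) (nat_lit 1748) (nat_lit 4699317256) (nat_lit 391) (nat_lit 5) (nat_lit 390) (nat_lit 5) (nat_lit 413) (nat_lit 5) (nat_lit 455) (nat_lit 451) (nat_lit 234)) (XT.lf (nat_lit 76) (nat_lit 3045485355) (nat_lit 0) (nat_lit 10306849776) (nat_lit 1748) (nat_lit 4299237594) (nat_lit 392) (nat_lit 5) (nat_lit 391) (nat_lit 5) (nat_lit 414) (nat_lit 5) (nat_lit 456) (nat_lit 451) (nat_lit 233))) (XT.nd (nat_lit 78) (nat_lit 0) (nat_lit 76) (XT.lf (nat_lit 76) (nat_lit 11533642007) (nat_lit 0) (nat_lit 2435847534) (nat_lit 1748) (nat_lit 3857664603) (nat_lit 392) (nat_lit 5) (nat_lit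 391) (nat_lit 5) (nat_lit 414) (nat_lit 5) (nat_lit 457) (nat_lit 451) (nat_lit 232)) (XT.nd (nat_lit 78) (nat_lit 0) (nat_lit 0) (XT.lf (nat_lit 76) (nat_lit 2174267047) (nat_lit 0) (nat_lit 12469741470) (nat_lit 1748) (nat_lit 3361341477) (nat_lit 393) (nat_lit 5) (nat_lit 392) (nat_lit 5) (nat_lit 415) (nat_lit 5) (nat_lit 458) (nat_lit 451) (nat_lit 231)) (XT.lf (nat_lit 76) (nat_lit 10877134855) (nat_lit 0) (nat_lit 4507820118) (nat_lit 1748) (nat_lit 2801099215) (nat_lit 393) (nat_lit 5) (nat_lit 392) (nat_lit 5) (nat_lit 415) (nat_lit 5) (nat_lit 459) (nat_lit 451) (nat_lit 230))))) (XT.nd (nat_lit 234) (nat_lit 1672) (nat_lit 0) (XT.nd (nat_lit 78) (nat_lit 0) (nat_lit 0) (XT.lf (nat_lit 76) (nat_lit 1374971617) (nat_lit 0) (nat_lit 14792932812) (nat_lit 1748) (nat_lit 2201927465) (nat_lit 394) (nat_lit 5) (nat_lit 393) (nat_lit 5) (nat_lit 416) (nat_lit 5) (nat_lit 460) (nat_lit 451) (nat_lit 229))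 (XT.nd (nat_lit 78) (nat_lit 0) (nat_lit 76) (XT.lf (nat_lit 76) (nat_lit 10298097766) (nat_lit 0) (nat_lit 6741995973) (nat_lit 1748) (nat_lit 1515722844) (nat_lit 394) (nat_lit 5) (nat_lit 393) (nat_lit 5) (nat_lit 416) (nat_lit 5) (nat_lit 461) (nat_lit 451) (nat_lit 228)) (XT.lf (nat_lit 76) (nat_lit 649825820) (nat_lit 0) (nat_lit 17288653780) (nat_lit 1748) (nat_lit 806869299) (nat_lit 395) (nat_lit 5) (nat_lit 394) (nat_lit 5) (nat_lit 417) (nat_lit 5) (nat_lit 462) (nat_lit 451) (nat_lit 227)))) (XT.nd (nat_lit 78) (nat_lit 0) (nat_lit 0) (XT.lf (nat_lit 0) (nat_lit 12721460) (nat_lit 1748) (nat_lit 9137943662) (nat_lit 1824) (nat_lit 9786111286) (nat_lit 371) (nat_lit 5) (nat_lit 394) (nat_lit 5) (nat_lit 395) (nat_lit 5) (nat_lit 463) (nat_lit 451) (nat_lit 226)) (XT.nd (nat_lit 78) (nat_lit 0) (nat_lit 76) (XT.lf (nat_lit 0) (nat_lit 833038573) (nat_lit 1748) (nat_lit 9855530) (nat_lit 1824) (nat_lit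 18289131741) (nat_lit 371) (nat_lit 5) (nat_lit 394) (nat_lit 5) (nat_lit 395) (nat_lit 5) (nat_lit 464) (nat_lit 451) (nat_lit 225)) (XT.lf (nat_lit 0) (nat_lit 1776114943) (nat_lit 1748) (nat_lit 9958896641) (nat_lit 1824) (nat_lit 7594044386) (nat_lit 372) (nat_lit 5) (nat_lit 395) (nat_lit 5) (nat_lit 396) (nat_lit 5) (nat_lit 465) (nat_lit 451) (nat_lit 224))))))))
noncomputable def xc243 : XT := (XT.nd (nat_lit 1560) (nat_lit 1596) (nat_lit 0) (XT.nd (nat_lit 780) (nat_lit 4940) (nat_lit 0) (XT.nd (nat_lit 390) (nat_lit 0) (nat_lit 152) (XT.nd (nat_lit 156) (nat_lit 0) (nat_lit 76) (XT.nd (nat_lit 78) (nat_lit 0) (nat_lit 76) (XT.lf (nat_lit 0) (nat_lit 2739007891) (nat_lit 1748) (nat_lit 601019651) (nat_lit 1824) (nat_lit 16189982760) (nat_lit 372) (nat_lit 5) (nat_lit 395) (nat_lit 5) (nat_lit 396) (nat_lit 5) (nat_lit 466) (nat_lit 451) (nat_lit 223)) (XT.lf (nat_lit 0) (nat_lit 3809686452) (nat_lit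 1748) (nat_lit 10708632395) (nat_lit 1824) (nat_lit 5214896974) (nat_lit 373) (nat_lit 5) (nat_lit 396) (nat_lit 5) (nat_lit 397) (nat_lit 5) (nat_lit 467) (nat_lit 451) (nat_lit 222))) (XT.nd (nat_lit 78) (nat_lit 0) (nat_lit 76) (XT.lf (nat_lit 0) (nat_lit 4923433936) (nat_lit 1748) (nat_lit 1115040350) (nat_lit 1824) (nat_lit 13901580656) (nat_lit 373) (nat_lit 5) (nat_lit 396) (nat_lit 5) (nat_lit 397) (nat_lit 5) (nat_lit 468) (nat_lit 451) (nat_lit 221)) (XT.nd (nat_lit 78) (nat_lit 0) (nat_lit 0) (XT.lf (nat_lit 0) (nat_lit 6129379241) (nat_lit 1748) (nat_lit 11384983177) (nat_lit 1824) (nat_lit 2635272521) (nat_lit 374) (nat_lit 5) (nat_lit 397) (nat_lit 5) (nat_lit 398) (nat_lit 5) (nat_lit 469) (nat_lit 451) (nat_lit 220)) (XT.lf (nat_lit 0) (nat_lit 7402603364) (nat_lit 1748) (nat_lit 1549589226) (nat_lit 1824) (nat_lit 11410353247) (nat_lit 374) (nat_lit 5) (nat_lit 397) (nat_lit 5) (nat_lit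 398) (nat_lit 5) (nat_lit 470) (nat_lit 451) (nat_lit 219))))) (XT.nd (nat_lit 156) (nat_lit 0) (nat_lit 76) (XT.nd (nat_lit 78) (nat_lit 0) (nat_lit 76) (XT.lf (nat_lit 76) (nat_lit 8591917464) (nat_lit 0) (nat_lit 160882420) (nat_lit 1824) (nat_lit 11825887361) (nat_lit 375) (nat_lit 5) (nat_lit 374) (nat_lit 5) (nat_lit 398) (nat_lit 5) (nat_lit 471) (nat_lit 451) (nat_lit 218)) (XT.lf (nat_lit 0) (nat_lit 10193436193) (nat_lit 1748) (nat_lit 1902280029) (nat_lit 1824) (nat_lit 8702168946) (nat_lit 375) (nat_lit 5) (nat_lit 398) (nat_lit 5) (nat_lit 399) (nat_lit 5) (nat_lit 472) (nat_lit 451) (nat_lit 217))) (XT.nd (nat_lit 78) (nat_lit 0) (nat_lit 76) (XT.lf (nat_lit 76) (nat_lit 8490908583) (nat_lit 0) (nat_lit 3224045595) (nat_lit 1824) (nat_lit 9305473848) (nat_lit 376) (nat_lit 5) (nat_lit 375) (nat_lit 5) (nat_lit 399) (nat_lit 5) (nat_lit 473) (nat_lit 451) (nat_lit 216)) (XT.nd (nat_lit 78) (nat_lit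 0) (nat_lit 0) (XT.lf (nat_lit 0) (nat_lit 13313512298) (nat_lit 1748) (nat_lit 2170676735) (nat_lit 1824) (nat_lit 5762302821) (nat_lit 376) (nat_lit 5) (nat_lit 399) (nat_lit 5) (nat_lit 400) (nat_lit 5) (nat_lit 474) (nat_lit 451) (nat_lit 215)) (XT.lf (nat_lit 76) (nat_lit 8481947034) (nat_lit 0) (nat_lit 6534535672) (nat_lit 1824) (nat_lit 6459147693) (nat_lit 377) (nat_lit 5) (nat_lit 376) (nat_lit 5) (nat_lit 400) (nat_lit 5) (nat_lit 475) (nat_lit 451) (nat_lit 214)))))) (XT.nd (nat_lit 390) (nat_lit 2584) (nat_lit 0) (XT.nd (nat_lit 156) (nat_lit 988) (nat_lit 0) (XT.nd (nat_lit 78) (nat_lit 1748) (nat_lit 0) (XT.lf (nat_lit 0) (nat_lit 16781098595) (nat_lit 1748) (nat_lit 2352302274) (nat_lit 76) (nat_lit 2575401346) (nat_lit 377) (nat_lit 5) (nat_lit 400) (nat_lit 5) (nat_lit 378) (nat_lit 5) (nat_lit 476) (nat_lit 451) (nat_lit 213)) (XT.lf (nat_lit 0) (nat_lit 8567714062) (nat_lit 1748) (nat_lit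 10108352477) (nat_lit 1824) (nat_lit 3268671910) (nat_lit 354) (nat_lit 5) (nat_lit 377) (nat_lit 5) (nat_lit 378) (nat_lit 5) (nat_lit 477) (nat_lit 451) (nat_lit 212))) (XT.nd (nat_lit 78) (nat_lit 988) (nat_lit 0) (XT.lf (nat_lit 0) (nat_lit 19734753994) (nat_lit 1748) (nat_lit 886176582) (nat_lit 1824) (nat_lit 1564225031) (nat_lit 354) (nat_lit 5) (nat_lit 377) (nat_lit 5) (nat_lit 378) (nat_lit 5) (nat_lit 478) (nat_lit 451) (nat_lit 211)) (XT.nd (nat_lit 78) (nat_lit 0) (nat_lit 0) (XT.lf (nat_lit 0) (nat_lit 281167008) (nat_lit 988) (nat_lit 13679139807) (nat_lit 76) (nat_lit 8467870860) (nat_lit 341) (nat_lit 5) (nat_lit 354) (nat_lit 5) (nat_lit 342) (nat_lit 5) (nat_lit 479) (nat_lit 451) (nat_lit 210)) (XT.lf (nat_lit 0) (nat_lit 2161277129) (nat_lit 988) (nat_lit 2489694031) (nat_lit 76) (nat_lit 18024509142) (nat_lit 341) (nat_lit 5) (nat_lit 354) (nat_lit 5) (nat_lit 342) (nat_lit 5) (nat_lit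 480) (nat_lit 451) (nat_lit 209))))) (XT.nd (nat_lit 156) (nat_lit 1672) (nat_lit 0) (XT.nd (nat_lit 78) (nat_lit 0) (nat_lit 0) (XT.lf (nat_lit 0) (nat_lit 4165907510) (nat_lit 988) (nat_lit 13919630977) (nat_lit 76) (nat_lit 4840454103) (nat_lit 329) (nat_lit 5) (nat_lit 342) (nat_lit 5) (nat_lit 330) (nat_lit 5) (nat_lit 481) (nat_lit 451) (nat_lit 208)) (XT.lf (nat_lit 0) (nat_lit 6254688378) (nat_lit 988) (nat_lit 2449303117) (nat_lit 76) (nat_lit 14476644405) (nat_lit 329) (nat_lit 5) (nat_lit 342) (nat_lit 5) (nat_lit 330) (nat_lit 5) (nat_lit 482) (nat_lit 451) (nat_lit 207))) (XT.nd (nat_lit 78) (nat_lit 836) (nat_lit 0) (XT.lf (nat_lit 0) (nat_lit 8448612402) (nat_lit 912) (nat_lit 14075159829) (nat_lit 76) (nat_lit 915334388) (nat_lit 318) (nat_lit 5) (nat_lit 330) (nat_lit 5) (nat_lit 319) (nat_lit 5) (nat_lit 483) (nat_lit 451) (nat_lit 206)) (XT.nd (nat_lit 78) (nat_lit 836) (nat_lit 0) (XT.lf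 (nat_lit 0) (nat_lit 10757160080) (nat_lit 912) (nat_lit 2316790070) (nat_lit 76) (nat_lit 10627383557) (nat_lit 318) (nat_lit 5) (nat_lit 330) (nat_lit 5) (nat_lit 319) (nat_lit 5) (nat_lit 484) (nat_lit 451) (nat_lit 205)) (XT.lf (nat_lit 0) (nat_lit 9802084050) (nat_lit 836) (nat_lit 3370061667) (nat_lit 912) (nat_lit 10795456100) (nat_lit 307) (nat_lit 5) (nat_lit 318) (nat_lit 5) (nat_lit 319) (nat_lit 5) (nat_lit 485) (nat_lit 451) (nat_lit 204))))))) (XT.nd (nat_lit 57096) (nat_lit 0) (nat_lit 6460) (XT.nd (nat_lit 56706) (nat_lit 0) (nat_lit 7828) (XT.nd (nat_lit 156) (nat_lit 836) (nat_lit 0) (XT.nd (nat_lit 78) (nat_lit 760) (nat_lit 0) (XT.lf (nat_lit 0) (nat_lit 15690136029) (nat_lit 912) (nat_lit 2089897616) (nat_lit 76) (nat_lit 6458069331) (nat_lit 307) (nat_lit 5) (nat_lit 319) (nat_lit 5) (nat_lit 308) (nat_lit 5) (nat_lit 486) (nat_lit 451) (nat_lit 203)) (XT.lf (nat_lit 0) (nat_lit 10337288944)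 (nat_lit 760) (nat_lit 8007368923) (nat_lit 836) (nat_lit 6167634606) (nat_lit 297) (nat_lit 5) (nat_lit 307) (nat_lit 5) (nat_lit 308) (nat_lit 5) (nat_lit 487) (nat_lit 451) (nat_lit 202))) (XT.nd (nat_lit 78) (nat_lit 836) (nat_lit 0) (XT.lf (nat_lit 0) (nat_lit 21075898280) (nat_lit 836) (nat_lit 1766408679) (nat_lit 76) (nat_lit 1949187956) (nat_lit 297) (nat_lit 5) (nat_lit 308) (nat_lit 5) (nat_lit 298) (nat_lit 5) (nat_lit 488) (nat_lit 451) (nat_lit 201)) (XT.nd (nat_lit 78) (nat_lit 76) (nat_lit 0) (XT.lf (nat_lit 0) (nat_lit 10978124515) (nat_lit 760) (nat_lit 13004788775) (nat_lit 836) (nat_lit 1090946799) (nat_lit 287) (nat_lit 5) (nat_lit 297) (nat_lit 5) (nat_lit 298) (nat_lit 5) (nat_lit 489) (nat_lit 451) (nat_lit 200)) (XT.lf (nat_lit 0) (nat_lit 1574187502) (nat_lit 836) (nat_lit 1373727184) (nat_lit 76) (nat_lit 22413577633) (nat_lit 286) (nat_lit 5) (nat_lit 297) (nat_lit 5) (nat_lit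 287) (nat_lit 5) (nat_lit 490) (nat_lit 451) (nat_lit 199))))) (XT.nd (nat_lit 156) (nat_lit 0) (nat_lit 76) (XT.nd (nat_lit 78) (nat_lit 0) (nat_lit 0) (XT.lf (nat_lit 0) (nat_lit 5856304792) (nat_lit 1748) (nat_lit 1356604766) (nat_lit 1748) (nat_lit 1356604766) (nat_lit 389) (nat_lit 3) (nat_lit 412) (nat_lit 3) (nat_lit 412) (nat_lit 5) (nat_lit 452) (nat_lit 452) (nat_lit 236)) (XT.lf (nat_lit 76) (nat_lit 5323982212) (nat_lit 0) (nat_lit 6758639458) (nat_lit 1748) (nat_lit 5222608716) (nat_lit 390) (nat_lit 5) (nat_lit 389) (nat_lit 3) (nat_lit 412) (nat_lit 5) (nat_lit 453) (nat_lit 452) (nat_lit 235))) (XT.nd (nat_lit 78) (nat_lit 0) (nat_lit 0) (XT.lf (nat_lit 0) (nat_lit 12479528358) (nat_lit 1672) (nat_lit 3925808528) (nat_lit 1748) (nat_lit 1069032818) (nat_lit 390) (nat_lit 5) (nat_lit 412) (nat_lit 5) (nat_lit 413) (nat_lit 5) (nat_lit 454) (nat_lit 452) (nat_lit 234)) (XT.nd (nat_lit 78) (nat_lit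 0) (nat_lit 0) (XT.lf (nat_lit 76) (nat_lit 4299330395) (nat_lit 0) (nat_lit 8652100662) (nat_lit 1748) (nat_lit 4694122957) (nat_lit 391) (nat_lit 5) (nat_lit 390) (nat_lit 5) (nat_lit 413) (nat_lit 5) (nat_lit 455) (nat_lit 452) (nat_lit 233)) (XT.lf (nat_lit 76) (nat_lit 12739170641) (nat_lit 0) (nat_lit 714420504) (nat_lit 1748) (nat_lit 4366157778) (nat_lit 391) (nat_lit 5) (nat_lit 390) (nat_lit 5) (nat_lit 413) (nat_lit 5) (nat_lit 456) (nat_lit 452) (nat_lit 232)))))) (XT.nd (nat_lit 390) (nat_lit 1520) (nat_lit 0) (XT.nd (nat_lit 156) (nat_lit 0) (nat_lit 76) (XT.nd (nat_lit 78) (nat_lit 0) (nat_lit 0) (XT.lf (nat_lit 76) (nat_lit 3343212666) (nat_lit 0) (nat_lit 10686816437) (nat_lit 1748) (nat_lit 3966117167) (nat_lit 392) (nat_lit 5) (nat_lit 391) (nat_lit 5) (nat_lit 414) (nat_lit 5) (nat_lit 457) (nat_lit 452) (nat_lit 231)) (XT.lf (nat_lit 76) (nat_lit 11996488968) (nat_lit 0) (nat_lit 2654985725)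 (nat_lit 1748) (nat_lit 3523930464) (nat_lit 392) (nat_lit 5) (nat_lit 391) (nat_lit 5) (nat_lit 414) (nat_lit 5) (nat_lit 458) (nat_lit 452) (nat_lit 230))) (XT.nd (nat_lit 78) (nat_lit 0) (nat_lit 0) (XT.lf (nat_lit 76) (nat_lit 2457735771) (nat_lit 0) (nat_lit 12874327591) (nat_lit 1748) (nat_lit 3025254686) (nat_lit 393) (nat_lit 5) (nat_lit 392) (nat_lit 5) (nat_lit 415) (nat_lit 5) (nat_lit 459) (nat_lit 452) (nat_lit 229)) (XT.nd (nat_lit 78) (nat_lit 0) (nat_lit 76) (XT.lf (nat_lit 76) (nat_lit 11329955379) (nat_lit 0) (nat_lit 4750124846) (nat_lit 1748) (nat_lit 2461715689) (nat_lit 393) (nat_lit 5) (nat_lit 392) (nat_lit 5) (nat_lit 415) (nat_lit 5) (nat_lit 460) (nat_lit 452) (nat_lit 228)) (XT.lf (nat_lit 76) (nat_lit 1645109207) (nat_lit 0) (nat_lit 15226589761) (nat_lit 1748) (nat_lit 1857694526) (nat_lit 394) (nat_lit 5) (nat_lit 393) (nat_lit 5) (nat_lit 416) (nat_lit 5) (nat_lit 461) (nat_lit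 452) (nat_lit 227))))) (XT.nd (nat_lit 234) (nat_lit 0) (nat_lit 0) (XT.nd (nat_lit 78) (nat_lit 1672) (nat_lit 0) (XT.lf (nat_lit 76) (nat_lit 10741940269) (nat_lit 0) (nat_lit 7011932258) (nat_lit 1748) (nat_lit 1165378979) (nat_lit 394) (nat_lit 5) (nat_lit 393) (nat_lit 5) (nat_lit 416) (nat_lit 5) (nat_lit 462) (nat_lit 452) (nat_lit 226)) (XT.nd (nat_lit 78) (nat_lit 1748) (nat_lit 0) (XT.lf (nat_lit 76) (nat_lit 907640119) (nat_lit 0) (nat_lit 17756002296) (nat_lit 1748) (nat_lit 449068077) (nat_lit 395) (nat_lit 5) (nat_lit 394) (nat_lit 5) (nat_lit 417) (nat_lit 5) (nat_lit 463) (nat_lit 452) (nat_lit 225)) (XT.lf (nat_lit 0) (nat_lit 374774258) (nat_lit 1748) (nat_lit 9075667917) (nat_lit 1824) (nat_lit 9857624720) (nat_lit 371) (nat_lit 5) (nat_lit 394) (nat_lit 5) (nat_lit 395) (nat_lit 5) (nat_lit 464) (nat_lit 452) (nat_lit 224)))) (XT.nd (nat_lit 78) (nat_lit 0) (nat_lit 76) (XT.lf (nat_lit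 76) (nat_lit 233236312) (nat_lit 0) (nat_lit 972681639) (nat_lit 1824) (nat_lit 18301419062) (nat_lit 372) (nat_lit 5) (nat_lit 371) (nat_lit 5) (nat_lit 395) (nat_lit 5) (nat_lit 465) (nat_lit 452) (nat_lit 223)) (XT.nd (nat_lit 78) (nat_lit 0) (nat_lit 0) (XT.lf (nat_lit 0) (nat_lit 2160217601) (nat_lit 1748) (nat_lit 9911519677) (nat_lit 1824) (nat_lit 7636727247) (nat_lit 372) (nat_lit 5) (nat_lit 395) (nat_lit 5) (nat_lit 396) (nat_lit 5) (nat_lit 466) (nat_lit 452) (nat_lit 222)) (XT.lf (nat_lit 0) (nat_lit 3135533500) (nat_lit 1748) (nat_lit 371319558) (nat_lit 1824) (nat_lit 16406725526) (nat_lit 372) (nat_lit 5) (nat_lit 395) (nat_lit 5) (nat_lit 396) (nat_lit 5) (nat_lit 467) (nat_lit 452) (nat_lit 221))))))))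
noncomputable def xc244 : XT := (XT.nd (nat_lit 1560) (nat_lit 760) (nat_lit 0) (XT.nd (nat_lit 780) (nat_lit 5016) (nat_lit 0) (XT.nd (nat_lit 390) (nat_lit 0) (nat_lit 152) (XT.nd (nat_lit 156) (nat_lit 0) (nat_lit 76) (XT.nd (nat_lit 78) (nat_lit 0) (nat_lit 0) (XT.lf (nat_lit 0) (nat_lit 4221857456) (nat_lit 1748) (nat_lit 10675123228) (nat_lit 1824) (nat_lit 5223986755) (nat_lit 373) (nat_lit 5) (nat_lit 396) (nat_lit 5) (nat_lit 397) (nat_lit 5) (nat_lit 468) (nat_lit 452) (nat_lit 220)) (XT.lf (nat_lit 0) (nat_lit 5351292100) (nat_lit 1748) (nat_lit 894515848) (nat_lit 1824) (nat_lit 14086270938) (nat_lit 373) (nat_lit 5) (nat_lit 396) (nat_lit 5) (nat_lit 397) (nat_lit 5) (nat_lit 469) (nat_lit 452) (nat_lit 219))) (XT.nd (nat_lit 78) (nat_lit 0) (nat_lit 0) (XT.lf (nat_lit 0) (nat_lit 6575923264) (nat_lit 1748) (nat_lit 11364238833) (nat_lit 1824) (nat_lit 2605800759) (nat_lit 374) (nat_lit 5) (nat_lit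 397) (nat_lit 5) (nat_lit 398) (nat_lit 5) (nat_lit 470) (nat_lit 452) (nat_lit 218)) (XT.nd (nat_lit 78) (nat_lit 0) (nat_lit 0) (XT.lf (nat_lit 0) (nat_lit 7868259784) (nat_lit 1748) (nat_lit 1337008454) (nat_lit 1824) (nat_lit 11557994417) (nat_lit 374) (nat_lit 5) (nat_lit 397) (nat_lit 5) (nat_lit 398) (nat_lit 5) (nat_lit 471) (nat_lit 452) (nat_lit 217)) (XT.lf (nat_lit 76) (nat_lit 9005725919) (nat_lit 0) (nat_lit 235077810) (nat_lit 1824) (nat_lit 11743019862) (nat_lit 375) (nat_lit 5) (nat_lit 374) (nat_lit 5) (nat_lit 398) (nat_lit 5) (nat_lit 472) (nat_lit 452) (nat_lit 216))))) (XT.nd (nat_lit 156) (nat_lit 0) (nat_lit 76) (XT.nd (nat_lit 78) (nat_lit 0) (nat_lit 0) (XT.lf (nat_lit 0) (nat_lit 10703664732) (nat_lit 1748) (nat_lit 1696337060) (nat_lit 1824) (nat_lit 8807538938) (nat_lit 375) (nat_lit 5) (nat_lit 398) (nat_lit 5) (nat_lit 399) (nat_lit 5) (nat_lit 473) (nat_lit 452) (nat_lit 215))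 (XT.lf (nat_lit 76) (nat_lit 8903110135) (nat_lit 0) (nat_lit 3348069600) (nat_lit 1824) (nat_lit 9183446808) (nat_lit 376) (nat_lit 5) (nat_lit 375) (nat_lit 5) (nat_lit 399) (nat_lit 5) (nat_lit 474) (nat_lit 452) (nat_lit 214))) (XT.nd (nat_lit 78) (nat_lit 0) (nat_lit 0) (XT.lf (nat_lit 0) (nat_lit 13875409878) (nat_lit 1748) (nat_lit 1969992213) (nat_lit 1824) (nat_lit 5819938902) (nat_lit 376) (nat_lit 5) (nat_lit 399) (nat_lit 5) (nat_lit 400) (nat_lit 5) (nat_lit 475) (nat_lit 452) (nat_lit 213)) (XT.nd (nat_lit 78) (nat_lit 0) (nat_lit 76) (XT.lf (nat_lit 76) (nat_lit 8894078123) (nat_lit 0) (nat_lit 6714139377) (nat_lit 1824) (nat_lit 6290932551) (nat_lit 377) (nat_lit 5) (nat_lit 376) (nat_lit 5) (nat_lit 400) (nat_lit 5) (nat_lit 476) (nat_lit 452) (nat_lit 212)) (XT.lf (nat_lit 0) (nat_lit 17402100532) (nat_lit 1748) (nat_lit 2155424123) (nat_lit 76) (nat_lit 2579584384) (nat_lit 377) (nat_lit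 5) (nat_lit 400) (nat_lit 5) (nat_lit 378) (nat_lit 5) (nat_lit 477) (nat_lit 452) (nat_lit 211)))))) (XT.nd (nat_lit 390) (nat_lit 1672) (nat_lit 0) (XT.nd (nat_lit 156) (nat_lit 1900) (nat_lit 0) (XT.nd (nat_lit 78) (nat_lit 0) (nat_lit 0) (XT.lf (nat_lit 0) (nat_lit 8981387775) (nat_lit 1748) (nat_lit 10349557672) (nat_lit 1824) (nat_lit 3046902167) (nat_lit 354) (nat_lit 5) (nat_lit 377) (nat_lit 5) (nat_lit 378) (nat_lit 5) (nat_lit 478) (nat_lit 452) (nat_lit 210)) (XT.lf (nat_lit 0) (nat_lit 20367017144) (nat_lit 1748) (nat_lit 942172805) (nat_lit 1824) (nat_lit 1313996609) (nat_lit 354) (nat_lit 5) (nat_lit 377) (nat_lit 5) (nat_lit 378) (nat_lit 5) (nat_lit 479) (nat_lit 452) (nat_lit 209))) (XT.nd (nat_lit 78) (nat_lit 912) (nat_lit 0) (XT.lf (nat_lit 0) (nat_lit 560499369) (nat_lit 988) (nat_lit 13707049018) (nat_lit 76) (nat_lit 8603569349) (nat_lit 341) (nat_lit 5) (nat_lit 354) (nat_lit 5)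 (nat_lit 342) (nat_lit 5) (nat_lit 480) (nat_lit 452) (nat_lit 208)) (XT.nd (nat_lit 78) (nat_lit 912) (nat_lit 0) (XT.lf (nat_lit 0) (nat_lit 2472844848) (nat_lit 988) (nat_lit 2298631456) (nat_lit 76) (nat_lit 18352000375) (nat_lit 341) (nat_lit 5) (nat_lit 354) (nat_lit 5) (nat_lit 342) (nat_lit 5) (nat_lit 481) (nat_lit 452) (nat_lit 207)) (XT.lf (nat_lit 0) (nat_lit 4513695070) (nat_lit 988) (nat_lit 13953150857) (nat_lit 76) (nat_lit 4912233612) (nat_lit 329) (nat_lit 5) (nat_lit 342) (nat_lit 5) (nat_lit 330) (nat_lit 5) (nat_lit 482) (nat_lit 452) (nat_lit 206))))) (XT.nd (nat_lit 156) (nat_lit 836) (nat_lit 0) (XT.nd (nat_lit 78) (nat_lit 836) (nat_lit 0) (XT.lf (nat_lit 0) (nat_lit 6639065880) (nat_lit 988) (nat_lit 2258217866) (nat_lit 76) (nat_lit 14741638496) (nat_lit 329) (nat_lit 5) (nat_lit 342) (nat_lit 5) (nat_lit 330) (nat_lit 5) (nat_lit 483) (nat_lit 452) (nat_lit 205)) (XT.lf (nat_lit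 0) (nat_lit 8873220798) (nat_lit 912) (nat_lit 14112806183) (nat_lit 76) (nat_lit 916611105) (nat_lit 318) (nat_lit 5) (nat_lit 330) (nat_lit 5) (nat_lit 319) (nat_lit 5) (nat_lit 484) (nat_lit 452) (nat_lit 204))) (XT.nd (nat_lit 78) (nat_lit 836) (nat_lit 0) (XT.lf (nat_lit 0) (nat_lit 11222926956) (nat_lit 912) (nat_lit 2124050537) (nat_lit 76) (nat_lit 10823235178) (nat_lit 318) (nat_lit 5) (nat_lit 330) (nat_lit 5) (nat_lit 319) (nat_lit 5) (nat_lit 485) (nat_lit 452) (nat_lit 203)) (XT.nd (nat_lit 78) (nat_lit 0) (nat_lit 0) (XT.lf (nat_lit 0) (nat_lit 10235628202) (nat_lit 836) (nat_lit 3447211938) (nat_lit 912) (nat_lit 10759036098) (nat_lit 307) (nat_lit 5) (nat_lit 318) (nat_lit 5) (nat_lit 319) (nat_lit 5) (nat_lit 486) (nat_lit 452) (nat_lit 202)) (XT.lf (nat_lit 0) (nat_lit 16246280133) (nat_lit 912) (nat_lit 1893809897) (nat_lit 76) (nat_lit 6577798191) (nat_lit 307) (nat_lit 5) (nat_lit 319)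 (nat_lit 5) (nat_lit 308) (nat_lit 5) (nat_lit 487) (nat_lit 452) (nat_lit 201))))))) (XT.nd (nat_lit 57252) (nat_lit 0) (nat_lit 5624) (XT.nd (nat_lit 56862) (nat_lit 0) (nat_lit 7068) (XT.nd (nat_lit 56628) (nat_lit 0) (nat_lit 6992) (XT.nd (nat_lit 78) (nat_lit 0) (nat_lit 0) (XT.lf (nat_lit 0) (nat_lit 10780355357) (nat_lit 760) (nat_lit 8170319610) (nat_lit 836) (nat_lit 6046953440) (nat_lit 297) (nat_lit 5) (nat_lit 307) (nat_lit 5) (nat_lit 308) (nat_lit 5) (nat_lit 488) (nat_lit 452) (nat_lit 200)) (XT.lf (nat_lit 0) (nat_lit 21731833638) (nat_lit 836) (nat_lit 1565218469) (nat_lit 76) (nat_lit 1985459418) (nat_lit 297) (nat_lit 5) (nat_lit 308) (nat_lit 5) (nat_lit 298) (nat_lit 5) (nat_lit 489) (nat_lit 452) (nat_lit 199))) (XT.nd (nat_lit 78) (nat_lit 0) (nat_lit 0) (XT.lf (nat_lit 0) (nat_lit 6190332582) (nat_lit 1748) (nat_lit 1273052008) (nat_lit 1748) (nat_lit 1273052008) (nat_lit 389) (nat_lit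 3) (nat_lit 412) (nat_lit 3) (nat_lit 412) (nat_lit 5) (nat_lit 453) (nat_lit 453) (nat_lit 234)) (XT.nd (nat_lit 78) (nat_lit 0) (nat_lit 76) (XT.lf (nat_lit 76) (nat_lit 5650375184) (nat_lit 0) (nat_lit 7100624182) (nat_lit 1748) (nat_lit 4891546262) (nat_lit 390) (nat_lit 5) (nat_lit 389) (nat_lit 3) (nat_lit 412) (nat_lit 5) (nat_lit 454) (nat_lit 453) (nat_lit 233)) (XT.lf (nat_lit 0) (nat_lit 13146160594) (nat_lit 1672) (nat_lit 3778789941) (nat_lit 1748) (nat_lit 890315867) (nat_lit 390) (nat_lit 5) (nat_lit 412) (nat_lit 5) (nat_lit 413) (nat_lit 5) (nat_lit 455) (nat_lit 453) (nat_lit 232))))) (XT.nd (nat_lit 156) (nat_lit 0) (nat_lit 76) (XT.nd (nat_lit 78) (nat_lit 0) (nat_lit 0) (XT.lf (nat_lit 76) (nat_lit 4609367980) (nat_lit 0) (nat_lit 9011410767) (nat_lit 1748) (nat_lit 4369235002) (nat_lit 391) (nat_lit 5) (nat_lit 390) (nat_lit 5) (nat_lit 413) (nat_lit 5) (nat_lit 456) (nat_lit 453) (nat_lit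 231)) (XT.lf (nat_lit 76) (nat_lit 13213611874) (nat_lit 0) (nat_lit 911324691) (nat_lit 1748) (nat_lit 4042921704) (nat_lit 391) (nat_lit 5) (nat_lit 390) (nat_lit 5) (nat_lit 413) (nat_lit 5) (nat_lit 457) (nat_lit 453) (nat_lit 230))) (XT.nd (nat_lit 78) (nat_lit 0) (nat_lit 0) (XT.lf (nat_lit 76) (nat_lit 3637698607) (nat_lit 0) (nat_lit 11067632414) (nat_lit 1748) (nat_lit 3642608696) (nat_lit 392) (nat_lit 5) (nat_lit 391) (nat_lit 5) (nat_lit 414) (nat_lit 5) (nat_lit 458) (nat_lit 453) (nat_lit 229)) (XT.nd (nat_lit 78) (nat_lit 0) (nat_lit 76) (XT.lf (nat_lit 76) (nat_lit 12459577265) (nat_lit 0) (nat_lit 2871889016) (nat_lit 1748) (nat_lit 3199476903) (nat_lit 392) (nat_lit 5) (nat_lit 391) (nat_lit 5) (nat_lit 414) (nat_lit 5) (nat_lit 459) (nat_lit 453) (nat_lit 228)) (XT.lf (nat_lit 76) (nat_lit 2737555023) (nat_lit 0) (nat_lit 13280979167) (nat_lit 1748) (nat_lit 2698107318) (nat_lit 393) (nat_lit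 5) (nat_lit 392) (nat_lit 5) (nat_lit 415) (nat_lit 5) (nat_lit 460) (nat_lit 453) (nat_lit 227)))))) (XT.nd (nat_lit 390) (nat_lit 0) (nat_lit 0) (XT.nd (nat_lit 156) (nat_lit 1596) (nat_lit 0) (XT.nd (nat_lit 78) (nat_lit 0) (nat_lit 76) (XT.lf (nat_lit 76) (nat_lit 11782696189) (nat_lit 0) (nat_lit 4991367562) (nat_lit 1748) (nat_lit 2130898570) (nat_lit 393) (nat_lit 5) (nat_lit 392) (nat_lit 5) (nat_lit 415) (nat_lit 5) (nat_lit 461) (nat_lit 453) (nat_lit 226)) (XT.lf (nat_lit 76) (nat_lit 1911227614) (nat_lit 0) (nat_lit 15663568973) (nat_lit 1748) (nat_lit 1521653983) (nat_lit 394) (nat_lit 5) (nat_lit 393) (nat_lit 5) (nat_lit 416) (nat_lit 5) (nat_lit 462) (nat_lit 453) (nat_lit 225))) (XT.nd (nat_lit 78) (nat_lit 1672) (nat_lit 0) (XT.lf (nat_lit 76) (nat_lit 11185422429) (nat_lit 0) (nat_lit 7282021312) (nat_lit 1748) (nat_lit 822809663) (nat_lit 394) (nat_lit 5) (nat_lit 393) (nat_lit 5) (nat_lit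 416) (nat_lit 5) (nat_lit 463) (nat_lit 453) (nat_lit 224)) (XT.nd (nat_lit 78) (nat_lit 1748) (nat_lit 0) (XT.lf (nat_lit 76) (nat_lit 1161104131) (nat_lit 0) (nat_lit 18227976859) (nat_lit 1748) (nat_lit 98631323) (nat_lit 395) (nat_lit 5) (nat_lit 394) (nat_lit 5) (nat_lit 417) (nat_lit 5) (nat_lit 464) (nat_lit 453) (nat_lit 223)) (XT.lf (nat_lit 0) (nat_lit 730019040) (nat_lit 1748) (nat_lit 9021661650) (nat_lit 1824) (nat_lit 9935391600) (nat_lit 371) (nat_lit 5) (nat_lit 394) (nat_lit 5) (nat_lit 395) (nat_lit 5) (nat_lit 465) (nat_lit 453) (nat_lit 222))))) (XT.nd (nat_lit 234) (nat_lit 0) (nat_lit 152) (XT.nd (nat_lit 78) (nat_lit 0) (nat_lit 76) (XT.lf (nat_lit 76) (nat_lit 471871193) (nat_lit 0) (nat_lit 1100614891) (nat_lit 1824) (nat_lit 18317951659) (nat_lit 372) (nat_lit 5) (nat_lit 371) (nat_lit 5) (nat_lit 395) (nat_lit 5) (nat_lit 466) (nat_lit 453) (nat_lit 221)) (XT.nd (nat_lit 78) (nat_lit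 0) (nat_lit 0) (XT.lf (nat_lit 0) (nat_lit 2538466513) (nat_lit 1748) (nat_lit 9872769201) (nat_lit 1824) (nat_lit 7684504058) (nat_lit 372) (nat_lit 5) (nat_lit 395) (nat_lit 5) (nat_lit 396) (nat_lit 5) (nat_lit 467) (nat_lit 453) (nat_lit 220)) (XT.lf (nat_lit 0) (nat_lit 3526719229) (nat_lit 1748) (nat_lit 146411763) (nat_lit 1824) (nat_lit 16631960298) (nat_lit 372) (nat_lit 5) (nat_lit 395) (nat_lit 5) (nat_lit 396) (nat_lit 5) (nat_lit 468) (nat_lit 453) (nat_lit 219)))) (XT.nd (nat_lit 78) (nat_lit 0) (nat_lit 0) (XT.lf (nat_lit 0) (nat_lit 4629225473) (nat_lit 1748) (nat_lit 10650561664) (nat_lit 1824) (nat_lit 5236955382) (nat_lit 373) (nat_lit 5) (nat_lit 396) (nat_lit 5) (nat_lit 397) (nat_lit 5) (nat_lit 469) (nat_lit 453) (nat_lit 218)) (XT.nd (nat_lit 78) (nat_lit 0) (nat_lit 76) (XT.lf (nat_lit 0) (nat_lit 5774916832) (nat_lit 1748) (nat_lit 679010059) (nat_lit 1824) (nat_lit 14278279583)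 (nat_lit 373) (nat_lit 5) (nat_lit 396) (nat_lit 5) (nat_lit 397) (nat_lit 5) (nat_lit 470) (nat_lit 453) (nat_lit 217)) (XT.lf (nat_lit 0) (nat_lit 7018818545) (nat_lit 1748) (nat_lit 11352726986) (nat_lit 1824) (nat_lit 2578930603) (nat_lit 374) (nat_lit 5) (nat_lit 397) (nat_lit 5) (nat_lit 398) (nat_lit 5) (nat_lit 471) (nat_lit 453) (nat_lit 216))))))))
noncomputable def xc245 : XT := (XT.nd (nat_lit 58110) (nat_lit 0) (nat_lit 5624) (XT.nd (nat_lit 780) (nat_lit 3344) (nat_lit 0) (XT.nd (nat_lit 390) (nat_lit 2508) (nat_lit 0) (XT.nd (nat_lit 156) (nat_lit 0) (nat_lit 76) (XT.nd (nat_lit 78) (nat_lit 0) (nat_lit 0) (XT.lf (nat_lit 0) (nat_lit 8330896367) (nat_lit 1748) (nat_lit 1129634286) (nat_lit 1824) (nat_lit 11711716883) (nat_lit 374) (nat_lit 5) (nat_lit 397) (nat_lit 5) (nat_lit 398) (nat_lit 5) (nat_lit 472) (nat_lit 453) (nat_lit 215)) (XT.lf (nat_lit 76) (nat_lit 9418414548) (nat_lit 0) (nat_lit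 308000954) (nat_lit 1824) (nat_lit 11670897132) (nat_lit 375) (nat_lit 5) (nat_lit 374) (nat_lit 5) (nat_lit 398) (nat_lit 5) (nat_lit 473) (nat_lit 453) (nat_lit 214))) (XT.nd (nat_lit 78) (nat_lit 0) (nat_lit 0) (XT.lf (nat_lit 0) (nat_lit 11212201517) (nat_lit 1748) (nat_lit 1495749606) (nat_lit 1824) (nat_lit 8917683001) (nat_lit 375) (nat_lit 5) (nat_lit 398) (nat_lit 5) (nat_lit 399) (nat_lit 5) (nat_lit 474) (nat_lit 453) (nat_lit 213)) (XT.nd (nat_lit 78) (nat_lit 0) (nat_lit 76) (XT.lf (nat_lit 76) (nat_lit 9314143676) (nat_lit 0) (nat_lit 3472261954) (nat_lit 1824) (nat_lit 9070944543) (nat_lit 376) (nat_lit 5) (nat_lit 375) (nat_lit 5) (nat_lit 399) (nat_lit 5) (nat_lit 475) (nat_lit 453) (nat_lit 212)) (XT.lf (nat_lit 0) (nat_lit 14437065839) (nat_lit 1748) (nat_lit 1774772626) (nat_lit 1824) (nat_lit 5880964771) (nat_lit 376) (nat_lit 5) (nat_lit 399) (nat_lit 5) (nat_lit 400) (nat_lit 5) (nat_lit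 476) (nat_lit 453) (nat_lit 211))))) (XT.nd (nat_lit 156) (nat_lit 2660) (nat_lit 0) (XT.nd (nat_lit 78) (nat_lit 0) (nat_lit 76) (XT.lf (nat_lit 76) (nat_lit 9305035568) (nat_lit 0) (nat_lit 6895435805) (nat_lit 1824) (nat_lit 6130901437) (nat_lit 377) (nat_lit 5) (nat_lit 376) (nat_lit 5) (nat_lit 400) (nat_lit 5) (nat_lit 477) (nat_lit 453) (nat_lit 210)) (XT.lf (nat_lit 0) (nat_lit 18024440855) (nat_lit 1748) (nat_lit 1964080283) (nat_lit 76) (nat_lit 2585688770) (nat_lit 377) (nat_lit 5) (nat_lit 400) (nat_lit 5) (nat_lit 378) (nat_lit 5) (nat_lit 478) (nat_lit 453) (nat_lit 209))) (XT.nd (nat_lit 78) (nat_lit 988) (nat_lit 0) (XT.lf (nat_lit 0) (nat_lit 9393925404) (nat_lit 1748) (nat_lit 10594071072) (nat_lit 1824) (nat_lit 2831847149) (nat_lit 354) (nat_lit 5) (nat_lit 377) (nat_lit 5) (nat_lit 378) (nat_lit 5) (nat_lit 479) (nat_lit 453) (nat_lit 208)) (XT.nd (nat_lit 78) (nat_lit 988) (nat_lit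 0) (XT.lf (nat_lit 0) (nat_lit 21002700500) (nat_lit 1748) (nat_lit 997802777) (nat_lit 1824) (nat_lit 1069695108) (nat_lit 354) (nat_lit 5) (nat_lit 377) (nat_lit 5) (nat_lit 378) (nat_lit 5) (nat_lit 480) (nat_lit 453) (nat_lit 207)) (XT.lf (nat_lit 0) (nat_lit 834789922) (nat_lit 988) (nat_lit 13745056218) (nat_lit 76) (nat_lit 8743288824) (nat_lit 341) (nat_lit 5) (nat_lit 354) (nat_lit 5) (nat_lit 342) (nat_lit 5) (nat_lit 481) (nat_lit 453) (nat_lit 206)))))) (XT.nd (nat_lit 390) (nat_lit 1596) (nat_lit 0) (XT.nd (nat_lit 156) (nat_lit 836) (nat_lit 0) (XT.nd (nat_lit 78) (nat_lit 912) (nat_lit 0) (XT.lf (nat_lit 0) (nat_lit 2780223869) (nat_lit 988) (nat_lit 2113100378) (nat_lit 76) (nat_lit 18687322822) (nat_lit 341) (nat_lit 5) (nat_lit 354) (nat_lit 5) (nat_lit 342) (nat_lit 5) (nat_lit 482) (nat_lit 453) (nat_lit 205)) (XT.lf (nat_lit 0) (nat_lit 4858168711) (nat_lit 988) (nat_lit 13996849842)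 (nat_lit 76) (nat_lit 4986420640) (nat_lit 329) (nat_lit 5) (nat_lit 342) (nat_lit 5) (nat_lit 330) (nat_lit 5) (nat_lit 483) (nat_lit 453) (nat_lit 204))) (XT.nd (nat_lit 78) (nat_lit 836) (nat_lit 0) (XT.lf (nat_lit 0) (nat_lit 7021062629) (nat_lit 988) (nat_lit 2072633172) (nat_lit 76) (nat_lit 15012885341) (nat_lit 329) (nat_lit 5) (nat_lit 342) (nat_lit 5) (nat_lit 330) (nat_lit 5) (nat_lit 484) (nat_lit 453) (nat_lit 203)) (XT.nd (nat_lit 78) (nat_lit 0) (nat_lit 0) (XT.lf (nat_lit 0) (nat_lit 9296394699) (nat_lit 912) (nat_lit 14160674723) (nat_lit 76) (nat_lit 918574650) (nat_lit 318) (nat_lit 5) (nat_lit 330) (nat_lit 5) (nat_lit 319) (nat_lit 5) (nat_lit 485) (nat_lit 453) (nat_lit 202)) (XT.lf (nat_lit 0) (nat_lit 11688277147) (nat_lit 912) (nat_lit 1936739799) (nat_lit 76) (nat_lit 11023652159) (nat_lit 318) (nat_lit 5) (nat_lit 330) (nat_lit 5) (nat_lit 319) (nat_lit 5) (nat_lit 486) (nat_lit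 453) (nat_lit 201))))) (XT.nd (nat_lit 156) (nat_lit 760) (nat_lit 0) (XT.nd (nat_lit 78) (nat_lit 0) (nat_lit 0) (XT.lf (nat_lit 0) (nat_lit 10668620727) (nat_lit 836) (nat_lit 3525526646) (nat_lit 912) (nat_lit 10731685943) (nat_lit 307) (nat_lit 5) (nat_lit 318) (nat_lit 5) (nat_lit 319) (nat_lit 5) (nat_lit 487) (nat_lit 453) (nat_lit 200)) (XT.lf (nat_lit 0) (nat_lit 16804136708) (nat_lit 912) (nat_lit 1703037815) (nat_lit 76) (nat_lit 6700287906) (nat_lit 307) (nat_lit 5) (nat_lit 319) (nat_lit 5) (nat_lit 308) (nat_lit 5) (nat_lit 488) (nat_lit 453) (nat_lit 199))) (XT.nd (nat_lit 56628) (nat_lit 0) (nat_lit 6992) (XT.lf (nat_lit 0) (nat_lit 11223106479) (nat_lit 760) (nat_lit 8336420454) (nat_lit 836) (nat_lit 5933334783) (nat_lit 297) (nat_lit 5) (nat_lit 307) (nat_lit 5) (nat_lit 308) (nat_lit 5) (nat_lit 489) (nat_lit 453) (nat_lit 198)) (XT.nd (nat_lit 78) (nat_lit 0) (nat_lit 0) (XT.lf (nat_lit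 0) (nat_lit 6522618370) (nat_lit 1748) (nat_lit 1192126222) (nat_lit 1748) (nat_lit 1192126222) (nat_lit 389) (nat_lit 3) (nat_lit 412) (nat_lit 3) (nat_lit 412) (nat_lit 5) (nat_lit 454) (nat_lit 454) (nat_lit 232)) (XT.lf (nat_lit 76) (nat_lit 5974756512) (nat_lit 0) (nat_lit 7441417842) (nat_lit 1748) (nat_lit 4570774123) (nat_lit 390) (nat_lit 5) (nat_lit 389) (nat_lit 3) (nat_lit 412) (nat_lit 5) (nat_lit 455) (nat_lit 454) (nat_lit 231))))))) (XT.nd (nat_lit 780) (nat_lit 0) (nat_lit 0) (XT.nd (nat_lit 390) (nat_lit 1444) (nat_lit 0) (XT.nd (nat_lit 156) (nat_lit 0) (nat_lit 0) (XT.nd (nat_lit 78) (nat_lit 0) (nat_lit 0) (XT.lf (nat_lit 0) (nat_lit 13809931238) (nat_lit 1672) (nat_lit 3637588771) (nat_lit 1748) (nat_lit 715794611) (nat_lit 390) (nat_lit 5) (nat_lit 412) (nat_lit 5) (nat_lit 413) (nat_lit 5) (nat_lit 456) (nat_lit 454) (nat_lit 230)) (XT.lf (nat_lit 76) (nat_lit 4916906144) (nat_lit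 0) (nat_lit 9370674057) (nat_lit 1748) (nat_lit 4054110654) (nat_lit 391) (nat_lit 5) (nat_lit 390) (nat_lit 5) (nat_lit 413) (nat_lit 5) (nat_lit 457) (nat_lit 454) (nat_lit 229))) (XT.nd (nat_lit 78) (nat_lit 0) (nat_lit 76) (XT.lf (nat_lit 76) (nat_lit 13689012351) (nat_lit 0) (nat_lit 1105075767) (nat_lit 1748) (nat_lit 3729163424) (nat_lit 391) (nat_lit 5) (nat_lit 390) (nat_lit 5) (nat_lit 413) (nat_lit 5) (nat_lit 458) (nat_lit 454) (nat_lit 228)) (XT.nd (nat_lit 78) (nat_lit 0) (nat_lit 0) (XT.lf (nat_lit 76) (nat_lit 3929235439) (nat_lit 0) (nat_lit 11449576804) (nat_lit 1748) (nat_lit 3328272468) (nat_lit 392) (nat_lit 5) (nat_lit 391) (nat_lit 5) (nat_lit 414) (nat_lit 5) (nat_lit 459) (nat_lit 454) (nat_lit 227)) (XT.lf (nat_lit 76) (nat_lit 12923261811) (nat_lit 0) (nat_lit 3086769680) (nat_lit 1748) (nat_lit 2883869967) (nat_lit 392) (nat_lit 5) (nat_lit 391) (nat_lit 5) (nat_lit 414) (nat_lit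 5) (nat_lit 460) (nat_lit 454) (nat_lit 226))))) (XT.nd (nat_lit 156) (nat_lit 1596) (nat_lit 0) (XT.nd (nat_lit 78) (nat_lit 0) (nat_lit 0) (XT.lf (nat_lit 76) (nat_lit 3014013675) (nat_lit 0) (nat_lit 13689971515) (nat_lit 1748) (nat_lit 2379470021) (nat_lit 393) (nat_lit 5) (nat_lit 392) (nat_lit 5) (nat_lit 415) (nat_lit 5) (nat_lit 461) (nat_lit 454) (nat_lit 225)) (XT.lf (nat_lit 76) (nat_lit 12235710457) (nat_lit 0) (nat_lit 5231756448) (nat_lit 1748) (nat_lit 1808222970) (nat_lit 393) (nat_lit 5) (nat_lit 392) (nat_lit 5) (nat_lit 415) (nat_lit 5) (nat_lit 462) (nat_lit 454) (nat_lit 224))) (XT.nd (nat_lit 78) (nat_lit 1672) (nat_lit 0) (XT.lf (nat_lit 76) (nat_lit 2173612318) (nat_lit 0) (nat_lit 16104144675) (nat_lit 1748) (nat_lit 1193384224) (nat_lit 394) (nat_lit 5) (nat_lit 393) (nat_lit 5) (nat_lit 416) (nat_lit 5) (nat_lit 463) (nat_lit 454) (nat_lit 223)) (XT.nd (nat_lit 78) (nat_lit 1672)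 (nat_lit 0) (XT.lf (nat_lit 76) (nat_lit 11628895733) (nat_lit 0) (nat_lit 7552469897) (nat_lit 1748) (nat_lit 487596407) (nat_lit 394) (nat_lit 5) (nat_lit 393) (nat_lit 5) (nat_lit 416) (nat_lit 5) (nat_lit 464) (nat_lit 454) (nat_lit 222)) (XT.lf (nat_lit 0) (nat_lit 241646172) (nat_lit 1748) (nat_lit 18461585565) (nat_lit 1824) (nat_lit 1167232256) (nat_lit 371) (nat_lit 5) (nat_lit 394) (nat_lit 5) (nat_lit 395) (nat_lit 5) (nat_lit 465) (nat_lit 454) (nat_lit 221)))))) (XT.nd (nat_lit 390) (nat_lit 0) (nat_lit 152) (XT.nd (nat_lit 156) (nat_lit 0) (nat_lit 76) (XT.nd (nat_lit 78) (nat_lit 0) (nat_lit 0) (XT.lf (nat_lit 0) (nat_lit 1078865188) (nat_lit 1748) (nat_lit 8975720772) (nat_lit 1824) (nat_lit 10019349708) (nat_lit 371) (nat_lit 5) (nat_lit 394) (nat_lit 5) (nat_lit 395) (nat_lit 5) (nat_lit 466) (nat_lit 454) (nat_lit 220)) (XT.lf (nat_lit 76) (nat_lit 706193424) (nat_lit 0) (nat_lit 1226894411)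 (nat_lit 1824) (nat_lit 18348386256) (nat_lit 372) (nat_lit 5) (nat_lit 371) (nat_lit 5) (nat_lit 395) (nat_lit 5) (nat_lit 467) (nat_lit 454) (nat_lit 219))) (XT.nd (nat_lit 78) (nat_lit 0) (nat_lit 0) (XT.lf (nat_lit 0) (nat_lit 2911270215) (nat_lit 1748) (nat_lit 9842445972) (nat_lit 1824) (nat_lit 7737312042) (nat_lit 372) (nat_lit 5) (nat_lit 395) (nat_lit 5) (nat_lit 396) (nat_lit 5) (nat_lit 468) (nat_lit 454) (nat_lit 218)) (XT.nd (nat_lit 78) (nat_lit 0) (nat_lit 76) (XT.lf (nat_lit 76) (nat_lit 74955420) (nat_lit 0) (nat_lit 3838504825) (nat_lit 1824) (nat_lit 16791226726) (nat_lit 373) (nat_lit 5) (nat_lit 372) (nat_lit 5) (nat_lit 396) (nat_lit 5) (nat_lit 469) (nat_lit 454) (nat_lit 217)) (XT.lf (nat_lit 0) (nat_lit 5032201051) (nat_lit 1748) (nat_lit 10634753185) (nat_lit 1824) (nat_lit 5253736868) (nat_lit 373) (nat_lit 5) (nat_lit 396) (nat_lit 5) (nat_lit 397) (nat_lit 5) (nat_lit 470) (nat_lit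 454) (nat_lit 216))))) (XT.nd (nat_lit 234) (nat_lit 0) (nat_lit 76) (XT.nd (nat_lit 78) (nat_lit 0) (nat_lit 76) (XT.lf (nat_lit 0) (nat_lit 6194720138) (nat_lit 1748) (nat_lit 468257209) (nat_lit 1824) (nat_lit 14477612213) (nat_lit 373) (nat_lit 5) (nat_lit 396) (nat_lit 5) (nat_lit 397) (nat_lit 5) (nat_lit 471) (nat_lit 454) (nat_lit 215)) (XT.nd (nat_lit 78) (nat_lit 0) (nat_lit 0) (XT.lf (nat_lit 0) (nat_lit 7458480591) (nat_lit 1748) (nat_lit 11350257665) (nat_lit 1824) (nat_lit 2554590174) (nat_lit 374) (nat_lit 5) (nat_lit 397) (nat_lit 5) (nat_lit 398) (nat_lit 5) (nat_lit 472) (nat_lit 454) (nat_lit 214)) (XT.lf (nat_lit 0) (nat_lit 8790931623) (nat_lit 1748) (nat_lit 927203580) (nat_lit 1824) (nat_lit 11871520787) (nat_lit 374) (nat_lit 5) (nat_lit 397) (nat_lit 5) (nat_lit 398) (nat_lit 5) (nat_lit 473) (nat_lit 454) (nat_lit 213)))) (XT.nd (nat_lit 78) (nat_lit 0) (nat_lit 76) (XT.lf (nat_lit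 76) (nat_lit 9830325814) (nat_lit 0) (nat_lit 379733434) (nat_lit 1824) (nat_lit 11609252476) (nat_lit 375) (nat_lit 5) (nat_lit 374) (nat_lit 5) (nat_lit 398) (nat_lit 5) (nat_lit 474) (nat_lit 454) (nat_lit 212)) (XT.nd (nat_lit 78) (nat_lit 0) (nat_lit 0) (XT.lf (nat_lit 0) (nat_lit 11719474661) (nat_lit 1748) (nat_lit 1300256875) (nat_lit 1824) (nat_lit 9032593067) (nat_lit 375) (nat_lit 5) (nat_lit 398) (nat_lit 5) (nat_lit 399) (nat_lit 5) (nat_lit 475) (nat_lit 454) (nat_lit 211)) (XT.lf (nat_lit 76) (nat_lit 9724351328) (nat_lit 0) (nat_lit 3596715807) (nat_lit 1824) (nat_lit 8967692922) (nat_lit 376) (nat_lit 5) (nat_lit 375) (nat_lit 5) (nat_lit 399) (nat_lit 5) (nat_lit 476) (nat_lit 454) (nat_lit 210))))))))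
noncomputable def xc246 : XT := (XT.nd (nat_lit 58266) (nat_lit 0) (nat_lit 2584) (XT.nd (nat_lit 780) (nat_lit 836) (nat_lit 0) (XT.nd (nat_lit 390) (nat_lit 2736) (nat_lit 0) (XT.nd (nat_lit 156) (nat_lit 1672) (nat_lit 0) (XT.nd (nat_lit 78) (nat_lit 0) (nat_lit 0) (XT.lf (nat_lit 0) (nat_lit 14998921116) (nat_lit 1748) (nat_lit 1584759206) (nat_lit 1824) (nat_lit 5945361354) (nat_lit 376) (nat_lit 5) (nat_lit 399) (nat_lit 5) (nat_lit 400) (nat_lit 5) (nat_lit 477) (nat_lit 454) (nat_lit 209)) (XT.lf (nat_lit 76) (nat_lit 9715161541) (nat_lit 0) (nat_lit 7078532564) (nat_lit 1824) (nat_lit 5978769595) (nat_lit 377) (nat_lit 5) (nat_lit 376) (nat_lit 5) (nat_lit 400) (nat_lit 5) (nat_lit 478) (nat_lit 454) (nat_lit 208))) (XT.nd (nat_lit 78) (nat_lit 1748) (nat_lit 0) (XT.lf (nat_lit 0) (nat_lit 18648576647) (nat_lit 1748) (nat_lit 1778013636) (nat_lit 76) (nat_lit 2593681571) (nat_lit 377) (nat_lit 5)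 (nat_lit 400) (nat_lit 5) (nat_lit 378) (nat_lit 5) (nat_lit 479) (nat_lit 454) (nat_lit 207)) (XT.nd (nat_lit 78) (nat_lit 0) (nat_lit 0) (XT.lf (nat_lit 0) (nat_lit 9805669610) (nat_lit 1748) (nat_lit 10842017706) (nat_lit 1824) (nat_lit 2623208177) (nat_lit 354) (nat_lit 5) (nat_lit 377) (nat_lit 5) (nat_lit 378) (nat_lit 5) (nat_lit 480) (nat_lit 454) (nat_lit 206)) (XT.lf (nat_lit 0) (nat_lit 21642230685) (nat_lit 1748) (nat_lit 1053116884) (nat_lit 1824) (nat_lit 831014584) (nat_lit 354) (nat_lit 5) (nat_lit 377) (nat_lit 5) (nat_lit 378) (nat_lit 5) (nat_lit 481) (nat_lit 454) (nat_lit 205))))) (XT.nd (nat_lit 156) (nat_lit 1748) (nat_lit 0) (XT.nd (nat_lit 78) (nat_lit 0) (nat_lit 0) (XT.lf (nat_lit 0) (nat_lit 1104350547) (nat_lit 988) (nat_lit 13792992924) (nat_lit 76) (nat_lit 8887058953) (nat_lit 341) (nat_lit 5) (nat_lit 354) (nat_lit 5) (nat_lit 342) (nat_lit 5) (nat_lit 482) (nat_lit 454)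 (nat_lit 204)) (XT.lf (nat_lit 0) (nat_lit 3083735039) (nat_lit 988) (nat_lit 1932848250) (nat_lit 76) (nat_lit 19030583350) (nat_lit 341) (nat_lit 5) (nat_lit 354) (nat_lit 5) (nat_lit 342) (nat_lit 5) (nat_lit 483) (nat_lit 454) (nat_lit 203))) (XT.nd (nat_lit 78) (nat_lit 836) (nat_lit 0) (XT.lf (nat_lit 0) (nat_lit 5199660939) (nat_lit 988) (nat_lit 14050562278) (nat_lit 76) (nat_lit 5063025596) (nat_lit 329) (nat_lit 5) (nat_lit 342) (nat_lit 5) (nat_lit 330) (nat_lit 5) (nat_lit 484) (nat_lit 454) (nat_lit 202)) (XT.nd (nat_lit 78) (nat_lit 836) (nat_lit 0) (XT.lf (nat_lit 0) (nat_lit 7401021973) (nat_lit 988) (nat_lit 1892297050) (nat_lit 76) (nat_lit 15290472992) (nat_lit 329) (nat_lit 5) (nat_lit 342) (nat_lit 5) (nat_lit 330) (nat_lit 5) (nat_lit 485) (nat_lit 454) (nat_lit 201)) (XT.lf (nat_lit 0) (nat_lit 9718490879) (nat_lit 912) (nat_lit 14218602190) (nat_lit 76) (nat_lit 921213082) (nat_lit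 318) (nat_lit 5) (nat_lit 330) (nat_lit 5) (nat_lit 319) (nat_lit 5) (nat_lit 486) (nat_lit 454) (nat_lit 200)))))) (XT.nd (nat_lit 57096) (nat_lit 0) (nat_lit 6308) (XT.nd (nat_lit 56862) (nat_lit 0) (nat_lit 6232) (XT.nd (nat_lit 78) (nat_lit 836) (nat_lit 0) (XT.lf (nat_lit 0) (nat_lit 12153580225) (nat_lit 912) (nat_lit 1754605940) (nat_lit 76) (nat_lit 11228700632) (nat_lit 318) (nat_lit 5) (nat_lit 330) (nat_lit 5) (nat_lit 319) (nat_lit 5) (nat_lit 487) (nat_lit 454) (nat_lit 199)) (XT.lf (nat_lit 0) (nat_lit 11101408713) (nat_lit 836) (nat_lit 3605043783) (nat_lit 912) (nat_lit 10713206554) (nat_lit 307) (nat_lit 5) (nat_lit 318) (nat_lit 5) (nat_lit 319) (nat_lit 5) (nat_lit 488) (nat_lit 454) (nat_lit 198))) (XT.nd (nat_lit 78) (nat_lit 0) (nat_lit 0) (XT.lf (nat_lit 0) (nat_lit 6853454375) (nat_lit 1748) (nat_lit 1113713051) (nat_lit 1748) (nat_lit 1113713051) (nat_lit 389) (nat_lit 3) (nat_lit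 412) (nat_lit 3) (nat_lit 412) (nat_lit 5) (nat_lit 455) (nat_lit 455) (nat_lit 230)) (XT.nd (nat_lit 78) (nat_lit 0) (nat_lit 76) (XT.lf (nat_lit 76) (nat_lit 6297417564) (nat_lit 0) (nat_lit 7781308459) (nat_lit 1748) (nat_lit 4259841408) (nat_lit 390) (nat_lit 5) (nat_lit 389) (nat_lit 3) (nat_lit 412) (nat_lit 5) (nat_lit 456) (nat_lit 455) (nat_lit 229)) (XT.lf (nat_lit 0) (nat_lit 14471411901) (nat_lit 1672) (nat_lit 3501981291) (nat_lit 1748) (nat_lit 545251244) (nat_lit 390) (nat_lit 5) (nat_lit 412) (nat_lit 5) (nat_lit 413) (nat_lit 5) (nat_lit 457) (nat_lit 455) (nat_lit 228))))) (XT.nd (nat_lit 156) (nat_lit 0) (nat_lit 76) (XT.nd (nat_lit 78) (nat_lit 0) (nat_lit 0) (XT.lf (nat_lit 76) (nat_lit 5222232737) (nat_lit 0) (nat_lit 9730170463) (nat_lit 1748) (nat_lit 3748313735) (nat_lit 391) (nat_lit 5) (nat_lit 390) (nat_lit 5) (nat_lit 413) (nat_lit 5) (nat_lit 458) (nat_lit 455) (nat_lit 227))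 (XT.lf (nat_lit 76) (nat_lit 14165722471) (nat_lit 0) (nat_lit 1295886032) (nat_lit 1748) (nat_lit 3424453426) (nat_lit 391) (nat_lit 5) (nat_lit 390) (nat_lit 5) (nat_lit 413) (nat_lit 5) (nat_lit 459) (nat_lit 455) (nat_lit 226))) (XT.nd (nat_lit 78) (nat_lit 0) (nat_lit 0) (XT.lf (nat_lit 76) (nat_lit 4218107403) (nat_lit 0) (nat_lit 11832924108) (nat_lit 1748) (nat_lit 3022684512) (nat_lit 392) (nat_lit 5) (nat_lit 391) (nat_lit 5) (nat_lit 414) (nat_lit 5) (nat_lit 460) (nat_lit 455) (nat_lit 225)) (XT.nd (nat_lit 78) (nat_lit 0) (nat_lit 76) (XT.lf (nat_lit 76) (nat_lit 13387891023) (nat_lit 0) (nat_lit 3299834258) (nat_lit 1748) (nat_lit 2576691087) (nat_lit 392) (nat_lit 5) (nat_lit 391) (nat_lit 5) (nat_lit 414) (nat_lit 5) (nat_lit 461) (nat_lit 455) (nat_lit 224)) (XT.lf (nat_lit 76) (nat_lit 3287392325) (nat_lit 0) (nat_lit 14101576371) (nat_lit 1748) (nat_lit 2068928469) (nat_lit 393) (nat_lit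 5) (nat_lit 392) (nat_lit 5) (nat_lit 415) (nat_lit 5) (nat_lit 462) (nat_lit 455) (nat_lit 223))))))) (XT.nd (nat_lit 780) (nat_lit 2280) (nat_lit 0) (XT.nd (nat_lit 390) (nat_lit 0) (nat_lit 0) (XT.nd (nat_lit 156) (nat_lit 1596) (nat_lit 0) (XT.nd (nat_lit 78) (nat_lit 0) (nat_lit 76) (XT.lf (nat_lit 76) (nat_lit 12689344643) (nat_lit 0) (nat_lit 5471494935) (nat_lit 1748) (nat_lit 1493278652) (nat_lit 393) (nat_lit 5) (nat_lit 392) (nat_lit 5) (nat_lit 415) (nat_lit 5) (nat_lit 463) (nat_lit 455) (nat_lit 222)) (XT.lf (nat_lit 76) (nat_lit 2432540305) (nat_lit 0) (nat_lit 16548588508) (nat_lit 1748) (nat_lit 872477938) (nat_lit 394) (nat_lit 5) (nat_lit 393) (nat_lit 5) (nat_lit 416) (nat_lit 5) (nat_lit 464) (nat_lit 455) (nat_lit 221))) (XT.nd (nat_lit 78) (nat_lit 1672) (nat_lit 0) (XT.lf (nat_lit 76) (nat_lit 12072704766) (nat_lit 0) (nat_lit 7823481001) (nat_lit 1748) (nat_lit 159334639) (nat_lit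 394) (nat_lit 5) (nat_lit 393) (nat_lit 5) (nat_lit 416) (nat_lit 5) (nat_lit 465) (nat_lit 455) (nat_lit 220)) (XT.nd (nat_lit 78) (nat_lit 0) (nat_lit 0) (XT.lf (nat_lit 0) (nat_lit 574171025) (nat_lit 1748) (nat_lit 18608881873) (nat_lit 1824) (nat_lit 1078077171) (nat_lit 371) (nat_lit 5) (nat_lit 394) (nat_lit 5) (nat_lit 395) (nat_lit 5) (nat_lit 466) (nat_lit 455) (nat_lit 219)) (XT.lf (nat_lit 0) (nat_lit 1421709089) (nat_lit 1748) (nat_lit 8937651459) (nat_lit 1824) (nat_lit 10109442849) (nat_lit 371) (nat_lit 5) (nat_lit 394) (nat_lit 5) (nat_lit 395) (nat_lit 5) (nat_lit 467) (nat_lit 455) (nat_lit 218))))) (XT.nd (nat_lit 156) (nat_lit 0) (nat_lit 76) (XT.nd (nat_lit 78) (nat_lit 0) (nat_lit 76) (XT.lf (nat_lit 76) (nat_lit 936469549) (nat_lit 0) (nat_lit 1351650699) (nat_lit 1824) (nat_lit 18392473900) (nat_lit 372) (nat_lit 5) (nat_lit 371) (nat_lit 5) (nat_lit 395) (nat_lit 5) (nat_lit 468)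 (nat_lit 455) (nat_lit 217)) (XT.lf (nat_lit 0) (nat_lit 3279025003) (nat_lit 1748) (nat_lit 9820361199) (nat_lit 1824) (nat_lit 7795093560) (nat_lit 372) (nat_lit 5) (nat_lit 395) (nat_lit 5) (nat_lit 396) (nat_lit 5) (nat_lit 469) (nat_lit 455) (nat_lit 216))) (XT.nd (nat_lit 78) (nat_lit 0) (nat_lit 76) (XT.lf (nat_lit 76) (nat_lit 293947868) (nat_lit 0) (nat_lit 4002653874) (nat_lit 1824) (nat_lit 16815906579) (nat_lit 373) (nat_lit 5) (nat_lit 372) (nat_lit 5) (nat_lit 396) (nat_lit 5) (nat_lit 470) (nat_lit 455) (nat_lit 215)) (XT.nd (nat_lit 78) (nat_lit 0) (nat_lit 0) (XT.lf (nat_lit 0) (nat_lit 5431183277) (nat_lit 1748) (nat_lit 10627513885) (nat_lit 1824) (nat_lit 5274269486) (nat_lit 373) (nat_lit 5) (nat_lit 396) (nat_lit 5) (nat_lit 397) (nat_lit 5) (nat_lit 471) (nat_lit 455) (nat_lit 214)) (XT.lf (nat_lit 0) (nat_lit 6611102978) (nat_lit 1748) (nat_lit 262000428) (nat_lit 1824) (nat_lit 14684280026)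 (nat_lit 373) (nat_lit 5) (nat_lit 396) (nat_lit 5) (nat_lit 397) (nat_lit 5) (nat_lit 472) (nat_lit 455) (nat_lit 213)))))) (XT.nd (nat_lit 390) (nat_lit 2508) (nat_lit 0) (XT.nd (nat_lit 156) (nat_lit 0) (nat_lit 0) (XT.nd (nat_lit 78) (nat_lit 0) (nat_lit 0) (XT.lf (nat_lit 0) (nat_lit 7895314250) (nat_lit 1748) (nat_lit 11356651650) (nat_lit 1824) (nat_lit 2532710964) (nat_lit 374) (nat_lit 5) (nat_lit 397) (nat_lit 5) (nat_lit 398) (nat_lit 5) (nat_lit 473) (nat_lit 455) (nat_lit 212)) (XT.lf (nat_lit 0) (nat_lit 9248773830) (nat_lit 1748) (nat_lit 729462192) (nat_lit 1824) (nat_lit 12037410994) (nat_lit 374) (nat_lit 5) (nat_lit 397) (nat_lit 5) (nat_lit 398) (nat_lit 5) (nat_lit 474) (nat_lit 455) (nat_lit 211))) (XT.nd (nat_lit 78) (nat_lit 0) (nat_lit 76) (XT.lf (nat_lit 76) (nat_lit 10241794860) (nat_lit 0) (nat_lit 450354306) (nat_lit 1824) (nat_lit 11557832567) (nat_lit 375) (nat_lit 5) (nat_lit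 374) (nat_lit 5) (nat_lit 398) (nat_lit 5) (nat_lit 475) (nat_lit 455) (nat_lit 210)) (XT.nd (nat_lit 78) (nat_lit 0) (nat_lit 0) (XT.lf (nat_lit 0) (nat_lit 12225902903) (nat_lit 1748) (nat_lit 1109607146) (nat_lit 1824) (nat_lit 9152264925) (nat_lit 375) (nat_lit 5) (nat_lit 398) (nat_lit 5) (nat_lit 399) (nat_lit 5) (nat_lit 476) (nat_lit 455) (nat_lit 209)) (XT.lf (nat_lit 76) (nat_lit 10134067860) (nat_lit 0) (nat_lit 3721522686) (nat_lit 1824) (nat_lit 8873430371) (nat_lit 376) (nat_lit 5) (nat_lit 375) (nat_lit 5) (nat_lit 399) (nat_lit 5) (nat_lit 477) (nat_lit 455) (nat_lit 208))))) (XT.nd (nat_lit 234) (nat_lit 2660) (nat_lit 0) (XT.nd (nat_lit 78) (nat_lit 0) (nat_lit 0) (XT.lf (nat_lit 0) (nat_lit 15561408151) (nat_lit 1748) (nat_lit 1399702302) (nat_lit 1824) (nat_lit 6013112572) (nat_lit 376) (nat_lit 5) (nat_lit 399) (nat_lit 5) (nat_lit 400) (nat_lit 5) (nat_lit 478) (nat_lit 455) (nat_lit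 207)) (XT.nd (nat_lit 78) (nat_lit 0) (nat_lit 76) (XT.lf (nat_lit 76) (nat_lit 10124790860) (nat_lit 0) (nat_lit 7263536552) (nat_lit 1824) (nat_lit 5834263988) (nat_lit 377) (nat_lit 5) (nat_lit 376) (nat_lit 5) (nat_lit 400) (nat_lit 5) (nat_lit 479) (nat_lit 455) (nat_lit 206)) (XT.lf (nat_lit 0) (nat_lit 19274957421) (nat_lit 1748) (nat_lit 1596976203) (nat_lit 76) (nat_lit 2603531967) (nat_lit 377) (nat_lit 5) (nat_lit 400) (nat_lit 5) (nat_lit 378) (nat_lit 5) (nat_lit 480) (nat_lit 455) (nat_lit 205)))) (XT.nd (nat_lit 78) (nat_lit 988) (nat_lit 0) (XT.lf (nat_lit 0) (nat_lit 10216955724) (nat_lit 1748) (nat_lit 11093522816) (nat_lit 1824) (nat_lit 2420697413) (nat_lit 354) (nat_lit 5) (nat_lit 377) (nat_lit 5) (nat_lit 378) (nat_lit 5) (nat_lit 481) (nat_lit 455) (nat_lit 204)) (XT.nd (nat_lit 78) (nat_lit 988) (nat_lit 0) (XT.lf (nat_lit 0) (nat_lit 22286028947) (nat_lit 1748) (nat_lit 1108164277)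 (nat_lit 1824) (nat_lit 597659456) (nat_lit 354) (nat_lit 5) (nat_lit 377) (nat_lit 5) (nat_lit 378) (nat_lit 5) (nat_lit 482) (nat_lit 455) (nat_lit 203)) (XT.lf (nat_lit 0) (nat_lit 1369483335) (nat_lit 988) (nat_lit 13850701669) (nat_lit 76) (nat_lit 9034911967) (nat_lit 341) (nat_lit 5) (nat_lit 354) (nat_lit 5) (nat_lit 342) (nat_lit 5) (nat_lit 483) (nat_lit 455) (nat_lit 202))))))))
noncomputable def xc247 : XT := (XT.nd (nat_lit 58344) (nat_lit 0) (nat_lit 836) (XT.nd (nat_lit 57564) (nat_lit 0) (nat_lit 3952) (XT.nd (nat_lit 57174) (nat_lit 0) (nat_lit 5396) (XT.nd (nat_lit 156) (nat_lit 836) (nat_lit 0) (XT.nd (nat_lit 78) (nat_lit 912) (nat_lit 0) (XT.lf (nat_lit 0) (nat_lit 3383689913) (nat_lit 988) (nat_lit 1757631575) (nat_lit 76) (nat_lit 19381892894) (nat_lit 341) (nat_lit 5) (nat_lit 354) (nat_lit 5) (nat_lit 342) (nat_lit 5) (nat_lit 484) (nat_lit 455) (nat_lit 201)) (XT.lf (nat_lit 0)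 (nat_lit 5538495425) (nat_lit 988) (nat_lit 14114133539) (nat_lit 76) (nat_lit 5142060564) (nat_lit 329) (nat_lit 5) (nat_lit 342) (nat_lit 5) (nat_lit 330) (nat_lit 5) (nat_lit 485) (nat_lit 455) (nat_lit 200))) (XT.nd (nat_lit 78) (nat_lit 836) (nat_lit 0) (XT.lf (nat_lit 0) (nat_lit 7779278949) (nat_lit 988) (nat_lit 1716966536) (nat_lit 76) (nat_lit 15574492702) (nat_lit 329) (nat_lit 5) (nat_lit 342) (nat_lit 5) (nat_lit 330) (nat_lit 5) (nat_lit 486) (nat_lit 455) (nat_lit 199)) (XT.nd (nat_lit 78) (nat_lit 0) (nat_lit 0) (XT.lf (nat_lit 0) (nat_lit 10139858281) (nat_lit 912) (nat_lit 14286436336) (nat_lit 76) (nat_lit 924515217) (nat_lit 318) (nat_lit 5) (nat_lit 330) (nat_lit 5) (nat_lit 319) (nat_lit 5) (nat_lit 487) (nat_lit 455) (nat_lit 198)) (XT.lf (nat_lit 0) (nat_lit 12619198480) (nat_lit 912) (nat_lit 1577406002) (nat_lit 76) (nat_lit 11438449030) (nat_lit 318) (nat_lit 5) (nat_lit 330) (nat_lit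 5) (nat_lit 319) (nat_lit 5) (nat_lit 488) (nat_lit 455) (nat_lit 197))))) (XT.nd (nat_lit 156) (nat_lit 0) (nat_lit 76) (XT.nd (nat_lit 78) (nat_lit 0) (nat_lit 0) (XT.lf (nat_lit 0) (nat_lit 7183125960) (nat_lit 1748) (nat_lit 1037702330) (nat_lit 1748) (nat_lit 1037702330) (nat_lit 389) (nat_lit 3) (nat_lit 412) (nat_lit 3) (nat_lit 412) (nat_lit 5) (nat_lit 456) (nat_lit 456) (nat_lit 228)) (XT.lf (nat_lit 76) (nat_lit 6618642656) (nat_lit 0) (nat_lit 8120577708) (nat_lit 1748) (nat_lit 3958313710) (nat_lit 390) (nat_lit 5) (nat_lit 389) (nat_lit 3) (nat_lit 412) (nat_lit 5) (nat_lit 457) (nat_lit 456) (nat_lit 227))) (XT.nd (nat_lit 78) (nat_lit 0) (nat_lit 0) (XT.lf (nat_lit 0) (nat_lit 15131161206) (nat_lit 1672) (nat_lit 3371752506) (nat_lit 1748) (nat_lit 378475320) (nat_lit 390) (nat_lit 5) (nat_lit 412) (nat_lit 5) (nat_lit 413) (nat_lit 5) (nat_lit 458) (nat_lit 456) (nat_lit 226)) (XT.nd (nat_lit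 78) (nat_lit 0) (nat_lit 0) (XT.lf (nat_lit 76) (nat_lit 5525628248) (nat_lit 0) (nat_lit 10090174607) (nat_lit 1748) (nat_lit 3451423867) (nat_lit 391) (nat_lit 5) (nat_lit 390) (nat_lit 5) (nat_lit 413) (nat_lit 5) (nat_lit 459) (nat_lit 456) (nat_lit 225)) (XT.lf (nat_lit 76) (nat_lit 14644086779) (nat_lit 0) (nat_lit 1483961336) (nat_lit 1748) (nat_lit 3128377648) (nat_lit 391) (nat_lit 5) (nat_lit 390) (nat_lit 5) (nat_lit 413) (nat_lit 5) (nat_lit 460) (nat_lit 456) (nat_lit 224)))))) (XT.nd (nat_lit 390) (nat_lit 1596) (nat_lit 0) (XT.nd (nat_lit 156) (nat_lit 0) (nat_lit 76) (XT.nd (nat_lit 78) (nat_lit 0) (nat_lit 0) (XT.lf (nat_lit 76) (nat_lit 4504591096) (nat_lit 0) (nat_lit 12217944536) (nat_lit 1748) (nat_lit 2725435967) (nat_lit 392) (nat_lit 5) (nat_lit 391) (nat_lit 5) (nat_lit 414) (nat_lit 5) (nat_lit 461) (nat_lit 456) (nat_lit 223)) (XT.lf (nat_lit 76) (nat_lit 13853807220) (nat_lit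 0) (nat_lit 3511283832) (nat_lit 1748) (nat_lit 2277536443) (nat_lit 392) (nat_lit 5) (nat_lit 391) (nat_lit 5) (nat_lit 414) (nat_lit 5) (nat_lit 462) (nat_lit 456) (nat_lit 222))) (XT.nd (nat_lit 78) (nat_lit 0) (nat_lit 0) (XT.lf (nat_lit 76) (nat_lit 3557963678) (nat_lit 0) (nat_lit 14516062171) (nat_lit 1748) (nat_lit 1766082746) (nat_lit 393) (nat_lit 5) (nat_lit 392) (nat_lit 5) (nat_lit 415) (nat_lit 5) (nat_lit 463) (nat_lit 456) (nat_lit 221)) (XT.nd (nat_lit 78) (nat_lit 0) (nat_lit 76) (XT.lf (nat_lit 76) (nat_lit 13143938896) (nat_lit 0) (nat_lit 5710781964) (nat_lit 1748) (nat_lit 1185669429) (nat_lit 393) (nat_lit 5) (nat_lit 392) (nat_lit 5) (nat_lit 415) (nat_lit 5) (nat_lit 464) (nat_lit 456) (nat_lit 220)) (XT.lf (nat_lit 76) (nat_lit 2688280443) (nat_lit 0) (nat_lit 16997169794) (nat_lit 1748) (nat_lit 558541520) (nat_lit 394) (nat_lit 5) (nat_lit 393) (nat_lit 5) (nat_lit 416) (nat_lit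 5) (nat_lit 465) (nat_lit 456) (nat_lit 219))))) (XT.nd (nat_lit 156) (nat_lit 0) (nat_lit 76) (XT.nd (nat_lit 78) (nat_lit 0) (nat_lit 76) (XT.lf (nat_lit 0) (nat_lit 160237409) (nat_lit 1748) (nat_lit 7933941381) (nat_lit 1824) (nat_lit 12355874931) (nat_lit 370) (nat_lit 5) (nat_lit 393) (nat_lit 5) (nat_lit 394) (nat_lit 5) (nat_lit 466) (nat_lit 456) (nat_lit 218)) (XT.lf (nat_lit 0) (nat_lit 900621697) (nat_lit 1748) (nat_lit 18767742130) (nat_lit 1824) (nat_lit 991507486) (nat_lit 371) (nat_lit 5) (nat_lit 394) (nat_lit 5) (nat_lit 395) (nat_lit 5) (nat_lit 467) (nat_lit 456) (nat_lit 217))) (XT.nd (nat_lit 78) (nat_lit 0) (nat_lit 0) (XT.lf (nat_lit 0) (nat_lit 1758934695) (nat_lit 1748) (nat_lit 8907269801) (nat_lit 1824) (nat_lit 10205620698) (nat_lit 371) (nat_lit 5) (nat_lit 394) (nat_lit 5) (nat_lit 395) (nat_lit 5) (nat_lit 468) (nat_lit 456) (nat_lit 216)) (XT.nd (nat_lit 78) (nat_lit 0) (nat_lit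 76) (XT.lf (nat_lit 76) (nat_lit 1162957741) (nat_lit 0) (nat_lit 1475010510) (nat_lit 1824) (nat_lit 18449981124) (nat_lit 372) (nat_lit 5) (nat_lit 371) (nat_lit 5) (nat_lit 395) (nat_lit 5) (nat_lit 469) (nat_lit 456) (nat_lit 215)) (XT.lf (nat_lit 0) (nat_lit 3642115484) (nat_lit 1748) (nat_lit 9806336193) (nat_lit 1824) (nat_lit 7857795967) (nat_lit 372) (nat_lit 5) (nat_lit 395) (nat_lit 5) (nat_lit 396) (nat_lit 5) (nat_lit 470) (nat_lit 456) (nat_lit 214))))))) (XT.nd (nat_lit 780) (nat_lit 3268) (nat_lit 0) (XT.nd (nat_lit 390) (nat_lit 0) (nat_lit 152) (XT.nd (nat_lit 156) (nat_lit 0) (nat_lit 76) (XT.nd (nat_lit 78) (nat_lit 0) (nat_lit 76) (XT.lf (nat_lit 76) (nat_lit 508874632) (nat_lit 0) (nat_lit 4166692872) (nat_lit 1824) (nat_lit 16853162156) (nat_lit 373) (nat_lit 5) (nat_lit 372) (nat_lit 5) (nat_lit 396) (nat_lit 5) (nat_lit 471) (nat_lit 456) (nat_lit 213)) (XT.lf (nat_lit 0) (nat_lit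 5826560312) (nat_lit 1748) (nat_lit 10628670118) (nat_lit 1824) (nat_lit 5298495630) (nat_lit 373) (nat_lit 5) (nat_lit 396) (nat_lit 5) (nat_lit 397) (nat_lit 5) (nat_lit 472) (nat_lit 456) (nat_lit 212))) (XT.nd (nat_lit 78) (nat_lit 0) (nat_lit 76) (XT.lf (nat_lit 0) (nat_lit 7024455791) (nat_lit 1748) (nat_lit 59991373) (nat_lit 1824) (nat_lit 14898299699) (nat_lit 373) (nat_lit 5) (nat_lit 396) (nat_lit 5) (nat_lit 397) (nat_lit 5) (nat_lit 473) (nat_lit 456) (nat_lit 211)) (XT.nd (nat_lit 78) (nat_lit 0) (nat_lit 0) (XT.lf (nat_lit 0) (nat_lit 8329714236) (nat_lit 1748) (nat_lit 11371740115) (nat_lit 1824) (nat_lit 2513227724) (nat_lit 374) (nat_lit 5) (nat_lit 397) (nat_lit 5) (nat_lit 398) (nat_lit 5) (nat_lit 474) (nat_lit 456) (nat_lit 210)) (XT.lf (nat_lit 0) (nat_lit 9704821563) (nat_lit 1748) (nat_lit 536164604) (nat_lit 1824) (nat_lit 12209396998) (nat_lit 374) (nat_lit 5) (nat_lit 397) (nat_lit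 5) (nat_lit 398) (nat_lit 5) (nat_lit 475) (nat_lit 456) (nat_lit 209))))) (XT.nd (nat_lit 156) (nat_lit 0) (nat_lit 76) (XT.nd (nat_lit 78) (nat_lit 0) (nat_lit 76) (XT.lf (nat_lit 76) (nat_lit 10653149912) (nat_lit 0) (nat_lit 519940210) (nat_lit 1824) (nat_lit 11516396986) (nat_lit 375) (nat_lit 5) (nat_lit 374) (nat_lit 5) (nat_lit 398) (nat_lit 5) (nat_lit 476) (nat_lit 456) (nat_lit 208)) (XT.lf (nat_lit 0) (nat_lit 12731896114) (nat_lit 1748) (nat_lit 923557395) (nat_lit 1824) (nat_lit 9276698149) (nat_lit 375) (nat_lit 5) (nat_lit 398) (nat_lit 5) (nat_lit 399) (nat_lit 5) (nat_lit 477) (nat_lit 456) (nat_lit 207))) (XT.nd (nat_lit 78) (nat_lit 0) (nat_lit 76) (XT.lf (nat_lit 76) (nat_lit 10543621098) (nat_lit 0) (nat_lit 3846772596) (nat_lit 1824) (nat_lit 8787907428) (nat_lit 376) (nat_lit 5) (nat_lit 375) (nat_lit 5) (nat_lit 399) (nat_lit 5) (nat_lit 478) (nat_lit 456) (nat_lit 206)) (XT.nd (nat_lit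 78) (nat_lit 0) (nat_lit 0) (XT.lf (nat_lit 0) (nat_lit 16124951397) (nat_lit 1748) (nat_lit 1219361007) (nat_lit 1824) (nat_lit 6084205264) (nat_lit 376) (nat_lit 5) (nat_lit 399) (nat_lit 5) (nat_lit 400) (nat_lit 5) (nat_lit 479) (nat_lit 456) (nat_lit 205)) (XT.lf (nat_lit 76) (nat_lit 10534251391) (nat_lit 0) (nat_lit 7450554050) (nat_lit 1824) (nat_lit 5697122857) (nat_lit 377) (nat_lit 5) (nat_lit 376) (nat_lit 5) (nat_lit 400) (nat_lit 5) (nat_lit 480) (nat_lit 456) (nat_lit 204)))))) (XT.nd (nat_lit 390) (nat_lit 912) (nat_lit 0) (XT.nd (nat_lit 156) (nat_lit 988) (nat_lit 0) (XT.nd (nat_lit 78) (nat_lit 1748) (nat_lit 0) (XT.lf (nat_lit 0) (nat_lit 19904025621) (nat_lit 1748) (nat_lit 1420728774) (nat_lit 76) (nat_lit 2615211184) (nat_lit 377) (nat_lit 5) (nat_lit 400) (nat_lit 5) (nat_lit 378) (nat_lit 5) (nat_lit 481) (nat_lit 456) (nat_lit 203)) (XT.lf (nat_lit 0) (nat_lit 10628112140) (nat_lit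 1748) (nat_lit 11348711954) (nat_lit 1824) (nat_lit 2224037421) (nat_lit 354) (nat_lit 5) (nat_lit 377) (nat_lit 5) (nat_lit 378) (nat_lit 5) (nat_lit 482) (nat_lit 456) (nat_lit 202))) (XT.nd (nat_lit 78) (nat_lit 988) (nat_lit 0) (XT.lf (nat_lit 0) (nat_lit 22934511586) (nat_lit 1748) (nat_lit 1162992936) (nat_lit 1824) (nat_lit 369344077) (nat_lit 354) (nat_lit 5) (nat_lit 377) (nat_lit 5) (nat_lit 378) (nat_lit 5) (nat_lit 483) (nat_lit 456) (nat_lit 201)) (XT.nd (nat_lit 78) (nat_lit 0) (nat_lit 0) (XT.lf (nat_lit 0) (nat_lit 1630481015) (nat_lit 988) (nat_lit 13918035663) (nat_lit 76) (nat_lit 9186882635) (nat_lit 341) (nat_lit 5) (nat_lit 354) (nat_lit 5) (nat_lit 342) (nat_lit 5) (nat_lit 484) (nat_lit 456) (nat_lit 200)) (XT.lf (nat_lit 0) (nat_lit 3680391176) (nat_lit 988) (nat_lit 1587215540) (nat_lit 76) (nat_lit 19741366466) (nat_lit 341) (nat_lit 5) (nat_lit 354) (nat_lit 5) (nat_lit 342) (nat_lit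 5) (nat_lit 485) (nat_lit 456) (nat_lit 199))))) (XT.nd (nat_lit 57174) (nat_lit 0) (nat_lit 4560) (XT.nd (nat_lit 78) (nat_lit 0) (nat_lit 0) (XT.lf (nat_lit 0) (nat_lit 5874987427) (nat_lit 988) (nat_lit 14187419685) (nat_lit 76) (nat_lit 5223539275) (nat_lit 329) (nat_lit 5) (nat_lit 342) (nat_lit 5) (nat_lit 330) (nat_lit 5) (nat_lit 486) (nat_lit 456) (nat_lit 198)) (XT.nd (nat_lit 57018) (nat_lit 0) (nat_lit 4560) (XT.lf (nat_lit 0) (nat_lit 8156160699) (nat_lit 988) (nat_lit 1546407312) (nat_lit 76) (nat_lit 15865038929) (nat_lit 329) (nat_lit 5) (nat_lit 342) (nat_lit 5) (nat_lit 330) (nat_lit 5) (nat_lit 487) (nat_lit 456) (nat_lit 197)) (XT.lf (nat_lit 0) (nat_lit 7511911986) (nat_lit 1748) (nat_lit 963987920) (nat_lit 1748) (nat_lit 963987920) (nat_lit 389) (nat_lit 3) (nat_lit 412) (nat_lit 3) (nat_lit 412) (nat_lit 5) (nat_lit 457) (nat_lit 457) (nat_lit 226)))) (XT.nd (nat_lit 78) (nat_lit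 0) (nat_lit 76) (XT.lf (nat_lit 76) (nat_lit 6938709416) (nat_lit 0) (nat_lit 8459501257) (nat_lit 1748) (nat_lit 3665772443) (nat_lit 390) (nat_lit 5) (nat_lit 389) (nat_lit 3) (nat_lit 412) (nat_lit 5) (nat_lit 458) (nat_lit 457) (nat_lit 225)) (XT.nd (nat_lit 78) (nat_lit 0) (nat_lit 0) (XT.lf (nat_lit 0) (nat_lit 15789725478) (nat_lit 1672) (nat_lit 3246695812) (nat_lit 1748) (nat_lit 215263445) (nat_lit 390) (nat_lit 5) (nat_lit 412) (nat_lit 5) (nat_lit 413) (nat_lit 5) (nat_lit 459) (nat_lit 457) (nat_lit 224)) (XT.lf (nat_lit 76) (nat_lit 5827366164) (nat_lit 0) (nat_lit 10450956121) (nat_lit 1748) (nat_lit 3163035828) (nat_lit 391) (nat_lit 5) (nat_lit 390) (nat_lit 5) (nat_lit 413) (nat_lit 5) (nat_lit 460) (nat_lit 457) (nat_lit 223))))))))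
noncomputable def xc248 : XT := (XT.nd (nat_lit 1560) (nat_lit 3116) (nat_lit 0) (XT.nd (nat_lit 780) (nat_lit 0) (nat_lit 152) (XT.nd (nat_lit 390) (nat_lit 1520) (nat_lit 0) (XT.nd (nat_lit 156) (nat_lit 0) (nat_lit 76) (XT.nd (nat_lit 78) (nat_lit 0) (nat_lit 76) (XT.lf (nat_lit 76) (nat_lit 15124444349) (nat_lit 0) (nat_lit 1669501369) (nat_lit 1748) (nat_lit 2840536852) (nat_lit 391) (nat_lit 5) (nat_lit 390) (nat_lit 5) (nat_lit 413) (nat_lit 5) (nat_lit 461) (nat_lit 457) (nat_lit 222)) (XT.lf (nat_lit 76) (nat_lit 4788955837) (nat_lit 0) (nat_lit 12604904298) (nat_lit 1748) (nat_lit 2436132465) (nat_lit 392) (nat_lit 5) (nat_lit 391) (nat_lit 5) (nat_lit 414) (nat_lit 5) (nat_lit 462) (nat_lit 457) (nat_lit 221))) (XT.nd (nat_lit 78) (nat_lit 0) (nat_lit 76) (XT.lf (nat_lit 76) (nat_lit 14321347011) (nat_lit 0) (nat_lit 3721314283) (nat_lit 1748) (nat_lit 1986016367) (nat_lit 392) (nat_lit 5) (nat_lit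 391) (nat_lit 5) (nat_lit 414) (nat_lit 5) (nat_lit 463) (nat_lit 457) (nat_lit 220)) (XT.nd (nat_lit 78) (nat_lit 0) (nat_lit 0) (XT.lf (nat_lit 76) (nat_lit 3825992913) (nat_lit 0) (nat_lit 14933694327) (nat_lit 1748) (nat_lit 1470546759) (nat_lit 393) (nat_lit 5) (nat_lit 392) (nat_lit 5) (nat_lit 415) (nat_lit 5) (nat_lit 464) (nat_lit 457) (nat_lit 219)) (XT.lf (nat_lit 76) (nat_lit 13599827440) (nat_lit 0) (nat_lit 5949812223) (nat_lit 1748) (nat_lit 885012580) (nat_lit 393) (nat_lit 5) (nat_lit 392) (nat_lit 5) (nat_lit 415) (nat_lit 5) (nat_lit 465) (nat_lit 457) (nat_lit 218))))) (XT.nd (nat_lit 156) (nat_lit 0) (nat_lit 76) (XT.nd (nat_lit 78) (nat_lit 1748) (nat_lit 0) (XT.lf (nat_lit 76) (nat_lit 2941093852) (nat_lit 0) (nat_lit 17450155785) (nat_lit 1748) (nat_lit 251194495) (nat_lit 394) (nat_lit 5) (nat_lit 393) (nat_lit 5) (nat_lit 416) (nat_lit 5) (nat_lit 466) (nat_lit 457) (nat_lit 217))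 (XT.lf (nat_lit 0) (nat_lit 471619056) (nat_lit 1748) (nat_lit 7893201354) (nat_lit 1824) (nat_lit 12487892404) (nat_lit 370) (nat_lit 5) (nat_lit 393) (nat_lit 5) (nat_lit 394) (nat_lit 5) (nat_lit 467) (nat_lit 457) (nat_lit 216))) (XT.nd (nat_lit 78) (nat_lit 0) (nat_lit 0) (XT.lf (nat_lit 0) (nat_lit 1221370821) (nat_lit 1748) (nat_lit 18938062966) (nat_lit 1824) (nat_lit 907405275) (nat_lit 371) (nat_lit 5) (nat_lit 394) (nat_lit 5) (nat_lit 395) (nat_lit 5) (nat_lit 468) (nat_lit 457) (nat_lit 215)) (XT.nd (nat_lit 78) (nat_lit 0) (nat_lit 0) (XT.lf (nat_lit 0) (nat_lit 2090914065) (nat_lit 1748) (nat_lit 8884401465) (nat_lit 1824) (nat_lit 10307838640) (nat_lit 371) (nat_lit 5) (nat_lit 394) (nat_lit 5) (nat_lit 395) (nat_lit 5) (nat_lit 469) (nat_lit 457) (nat_lit 214)) (XT.lf (nat_lit 76) (nat_lit 1385908170) (nat_lit 0) (nat_lit 1597097030) (nat_lit 1824) (nat_lit 18520689460) (nat_lit 372) (nat_lit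 5) (nat_lit 371) (nat_lit 5) (nat_lit 395) (nat_lit 5) (nat_lit 470) (nat_lit 457) (nat_lit 213)))))) (XT.nd (nat_lit 390) (nat_lit 0) (nat_lit 152) (XT.nd (nat_lit 156) (nat_lit 0) (nat_lit 76) (XT.nd (nat_lit 78) (nat_lit 0) (nat_lit 0) (XT.lf (nat_lit 0) (nat_lit 4000915099) (nat_lit 1748) (nat_lit 9800202027) (nat_lit 1824) (nat_lit 7925371471) (nat_lit 372) (nat_lit 5) (nat_lit 395) (nat_lit 5) (nat_lit 396) (nat_lit 5) (nat_lit 471) (nat_lit 457) (nat_lit 212)) (XT.lf (nat_lit 76) (nat_lit 719982352) (nat_lit 0) (nat_lit 4330751376) (nat_lit 1824) (nat_lit 16902775808) (nat_lit 373) (nat_lit 5) (nat_lit 372) (nat_lit 5) (nat_lit 396) (nat_lit 5) (nat_lit 472) (nat_lit 457) (nat_lit 211))) (XT.nd (nat_lit 78) (nat_lit 0) (nat_lit 0) (XT.lf (nat_lit 0) (nat_lit 6218709905) (nat_lit 1748) (nat_lit 10638058164) (nat_lit 1824) (nat_lit 5326361692) (nat_lit 373) (nat_lit 5) (nat_lit 396) (nat_lit 5) (nat_lit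 397) (nat_lit 5) (nat_lit 473) (nat_lit 457) (nat_lit 210)) (XT.nd (nat_lit 78) (nat_lit 0) (nat_lit 76) (XT.lf (nat_lit 76) (nat_lit 139844210) (nat_lit 0) (nat_lit 7296222762) (nat_lit 1824) (nat_lit 14980757042) (nat_lit 374) (nat_lit 5) (nat_lit 373) (nat_lit 5) (nat_lit 397) (nat_lit 5) (nat_lit 474) (nat_lit 457) (nat_lit 209)) (XT.lf (nat_lit 0) (nat_lit 8762065635) (nat_lit 1748) (nat_lit 11395364298) (nat_lit 1824) (nat_lit 2496078342) (nat_lit 374) (nat_lit 5) (nat_lit 397) (nat_lit 5) (nat_lit 398) (nat_lit 5) (nat_lit 475) (nat_lit 457) (nat_lit 208))))) (XT.nd (nat_lit 156) (nat_lit 0) (nat_lit 76) (XT.nd (nat_lit 78) (nat_lit 0) (nat_lit 0) (XT.lf (nat_lit 0) (nat_lit 10159464185) (nat_lit 1748) (nat_lit 347073563) (nat_lit 1824) (nat_lit 12387492844) (nat_lit 374) (nat_lit 5) (nat_lit 397) (nat_lit 5) (nat_lit 398) (nat_lit 5) (nat_lit 476) (nat_lit 457) (nat_lit 207)) (XT.lf (nat_lit 76)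 (nat_lit 11064712675) (nat_lit 0) (nat_lit 588565483) (nat_lit 1824) (nat_lit 11484717782) (nat_lit 375) (nat_lit 5) (nat_lit 374) (nat_lit 5) (nat_lit 398) (nat_lit 5) (nat_lit 477) (nat_lit 457) (nat_lit 206))) (XT.nd (nat_lit 78) (nat_lit 0) (nat_lit 0) (XT.lf (nat_lit 0) (nat_lit 13237855789) (nat_lit 1748) (nat_lit 741872936) (nat_lit 1824) (nat_lit 9405896016) (nat_lit 375) (nat_lit 5) (nat_lit 398) (nat_lit 5) (nat_lit 399) (nat_lit 5) (nat_lit 478) (nat_lit 457) (nat_lit 205)) (XT.nd (nat_lit 78) (nat_lit 0) (nat_lit 76) (XT.lf (nat_lit 76) (nat_lit 10953332315) (nat_lit 0) (nat_lit 3972554123) (nat_lit 1824) (nat_lit 8710886309) (nat_lit 376) (nat_lit 5) (nat_lit 375) (nat_lit 5) (nat_lit 399) (nat_lit 5) (nat_lit 479) (nat_lit 457) (nat_lit 204)) (XT.lf (nat_lit 0) (nat_lit 16689967805) (nat_lit 1748) (nat_lit 1043502802) (nat_lit 1824) (nat_lit 6158629124) (nat_lit 376) (nat_lit 5) (nat_lit 399)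 (nat_lit 5) (nat_lit 400) (nat_lit 5) (nat_lit 480) (nat_lit 457) (nat_lit 203))))))) (XT.nd (nat_lit 57798) (nat_lit 0) (nat_lit 3116) (XT.nd (nat_lit 390) (nat_lit 912) (nat_lit 0) (XT.nd (nat_lit 156) (nat_lit 2660) (nat_lit 0) (XT.nd (nat_lit 78) (nat_lit 0) (nat_lit 76) (XT.lf (nat_lit 76) (nat_lit 10943864440) (nat_lit 0) (nat_lit 7639690820) (nat_lit 1824) (nat_lit 5567095292) (nat_lit 377) (nat_lit 5) (nat_lit 376) (nat_lit 5) (nat_lit 400) (nat_lit 5) (nat_lit 481) (nat_lit 457) (nat_lit 202)) (XT.lf (nat_lit 0) (nat_lit 20536217102) (nat_lit 1748) (nat_lit 1249040550) (nat_lit 76) (nat_lit 2628692434) (nat_lit 377) (nat_lit 5) (nat_lit 400) (nat_lit 5) (nat_lit 378) (nat_lit 5) (nat_lit 482) (nat_lit 457) (nat_lit 201))) (XT.nd (nat_lit 78) (nat_lit 988) (nat_lit 0) (XT.lf (nat_lit 0) (nat_lit 11039460717) (nat_lit 1748) (nat_lit 11607711069) (nat_lit 1824) (nat_lit 2032960749) (nat_lit 354) (nat_lit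 5) (nat_lit 377) (nat_lit 5) (nat_lit 378) (nat_lit 5) (nat_lit 483) (nat_lit 457) (nat_lit 200)) (XT.nd (nat_lit 78) (nat_lit 988) (nat_lit 0) (XT.lf (nat_lit 0) (nat_lit 23588090381) (nat_lit 1748) (nat_lit 1217649732) (nat_lit 1824) (nat_lit 145792311) (nat_lit 354) (nat_lit 5) (nat_lit 377) (nat_lit 5) (nat_lit 378) (nat_lit 5) (nat_lit 484) (nat_lit 457) (nat_lit 199)) (XT.lf (nat_lit 0) (nat_lit 1887627365) (nat_lit 988) (nat_lit 13994858468) (nat_lit 76) (nat_lit 9343008243) (nat_lit 341) (nat_lit 5) (nat_lit 354) (nat_lit 5) (nat_lit 342) (nat_lit 5) (nat_lit 485) (nat_lit 457) (nat_lit 198))))) (XT.nd (nat_lit 57174) (nat_lit 0) (nat_lit 4560) (XT.nd (nat_lit 78) (nat_lit 912) (nat_lit 0) (XT.lf (nat_lit 0) (nat_lit 3974133048) (nat_lit 988) (nat_lit 1421373666) (nat_lit 76) (nat_lit 20109123163) (nat_lit 341) (nat_lit 5) (nat_lit 354) (nat_lit 5) (nat_lit 342) (nat_lit 5) (nat_lit 486) (nat_lit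 457) (nat_lit 197)) (XT.lf (nat_lit 0) (nat_lit 6209444206) (nat_lit 988) (nat_lit 14270287143) (nat_lit 76) (nat_lit 5307477093) (nat_lit 329) (nat_lit 5) (nat_lit 342) (nat_lit 5) (nat_lit 330) (nat_lit 5) (nat_lit 487) (nat_lit 457) (nat_lit 196))) (XT.nd (nat_lit 78) (nat_lit 0) (nat_lit 0) (XT.lf (nat_lit 0) (nat_lit 7840085162) (nat_lit 1748) (nat_lit 892467547) (nat_lit 1748) (nat_lit 892467547) (nat_lit 389) (nat_lit 3) (nat_lit 412) (nat_lit 3) (nat_lit 412) (nat_lit 5) (nat_lit 458) (nat_lit 458) (nat_lit 224)) (XT.nd (nat_lit 78) (nat_lit 0) (nat_lit 76) (XT.lf (nat_lit 76) (nat_lit 7257889129) (nat_lit 0) (nat_lit 8798349102) (nat_lit 1748) (nat_lit 3381814207) (nat_lit 390) (nat_lit 5) (nat_lit 389) (nat_lit 3) (nat_lit 412) (nat_lit 5) (nat_lit 459) (nat_lit 458) (nat_lit 223)) (XT.lf (nat_lit 0) (nat_lit 16447639412) (nat_lit 1672) (nat_lit 3126612673) (nat_lit 1748) (nat_lit 55418982) (nat_lit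 390) (nat_lit 5) (nat_lit 412) (nat_lit 5) (nat_lit 413) (nat_lit 5) (nat_lit 460) (nat_lit 458) (nat_lit 222)))))) (XT.nd (nat_lit 390) (nat_lit 1520) (nat_lit 0) (XT.nd (nat_lit 156) (nat_lit 0) (nat_lit 76) (XT.nd (nat_lit 78) (nat_lit 0) (nat_lit 0) (XT.lf (nat_lit 76) (nat_lit 6127713325) (nat_lit 0) (nat_lit 10812779956) (nat_lit 1748) (nat_lit 2882758947) (nat_lit 391) (nat_lit 5) (nat_lit 390) (nat_lit 5) (nat_lit 413) (nat_lit 5) (nat_lit 461) (nat_lit 458) (nat_lit 221)) (XT.lf (nat_lit 76) (nat_lit 15607129156) (nat_lit 0) (nat_lit 1852699938) (nat_lit 1748) (nat_lit 2560546023) (nat_lit 391) (nat_lit 5) (nat_lit 390) (nat_lit 5) (nat_lit 413) (nat_lit 5) (nat_lit 462) (nat_lit 458) (nat_lit 220))) (XT.nd (nat_lit 78) (nat_lit 0) (nat_lit 0) (XT.lf (nat_lit 76) (nat_lit 5071464018) (nat_lit 0) (nat_lit 12994065889) (nat_lit 1748) (nat_lit 2154393541) (nat_lit 392) (nat_lit 5) (nat_lit 391) (nat_lit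 5) (nat_lit 414) (nat_lit 5) (nat_lit 463) (nat_lit 458) (nat_lit 219)) (XT.nd (nat_lit 78) (nat_lit 0) (nat_lit 76) (XT.lf (nat_lit 76) (nat_lit 14790841661) (nat_lit 0) (nat_lit 3930116554) (nat_lit 1748) (nat_lit 1701754760) (nat_lit 392) (nat_lit 5) (nat_lit 391) (nat_lit 5) (nat_lit 414) (nat_lit 5) (nat_lit 464) (nat_lit 458) (nat_lit 218)) (XT.lf (nat_lit 76) (nat_lit 4091738031) (nat_lit 0) (nat_lit 15354735487) (nat_lit 1748) (nat_lit 1181947656) (nat_lit 393) (nat_lit 5) (nat_lit 392) (nat_lit 5) (nat_lit 415) (nat_lit 5) (nat_lit 465) (nat_lit 458) (nat_lit 217))))) (XT.nd (nat_lit 234) (nat_lit 0) (nat_lit 76) (XT.nd (nat_lit 78) (nat_lit 1672) (nat_lit 0) (XT.lf (nat_lit 76) (nat_lit 14057338949) (nat_lit 0) (nat_lit 6188776383) (nat_lit 1748) (nat_lit 590938285) (nat_lit 393) (nat_lit 5) (nat_lit 392) (nat_lit 5) (nat_lit 415) (nat_lit 5) (nat_lit 466) (nat_lit 458) (nat_lit 216)) (XT.nd (nat_lit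 78) (nat_lit 0) (nat_lit 0) (XT.lf (nat_lit 0) (nat_lit 49276178) (nat_lit 1748) (nat_lit 17858205066) (nat_lit 1824) (nat_lit 3141627413) (nat_lit 370) (nat_lit 5) (nat_lit 393) (nat_lit 5) (nat_lit 394) (nat_lit 5) (nat_lit 467) (nat_lit 458) (nat_lit 215)) (XT.lf (nat_lit 0) (nat_lit 777261451) (nat_lit 1748) (nat_lit 7859390204) (nat_lit 1824) (nat_lit 12627019701) (nat_lit 370) (nat_lit 5) (nat_lit 393) (nat_lit 5) (nat_lit 394) (nat_lit 5) (nat_lit 468) (nat_lit 458) (nat_lit 214)))) (XT.nd (nat_lit 78) (nat_lit 0) (nat_lit 0) (XT.lf (nat_lit 0) (nat_lit 1536779293) (nat_lit 1748) (nat_lit 19119751938) (nat_lit 1824) (nat_lit 825656840) (nat_lit 371) (nat_lit 5) (nat_lit 394) (nat_lit 5) (nat_lit 395) (nat_lit 5) (nat_lit 469) (nat_lit 458) (nat_lit 213)) (XT.nd (nat_lit 78) (nat_lit 0) (nat_lit 0) (XT.lf (nat_lit 0) (nat_lit 2418007891) (nat_lit 1748) (nat_lit 8868881370) (nat_lit 1824) (nat_lit 10416057628)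 (nat_lit 371) (nat_lit 5) (nat_lit 394) (nat_lit 5) (nat_lit 395) (nat_lit 5) (nat_lit 470) (nat_lit 458) (nat_lit 212)) (XT.lf (nat_lit 76) (nat_lit 1605563351) (nat_lit 0) (nat_lit 1718030041) (nat_lit 1824) (nat_lit 18604394978) (nat_lit 372) (nat_lit 5) (nat_lit 371) (nat_lit 5) (nat_lit 395) (nat_lit 5) (nat_lit 471) (nat_lit 458) (nat_lit 211))))))))
noncomputable def xc249 : XT := (XT.nd (nat_lit 58656) (nat_lit 0) (nat_lit 3116) (XT.nd (nat_lit 780) (nat_lit 3268) (nat_lit 0) (XT.nd (nat_lit 390) (nat_lit 0) (nat_lit 152) (XT.nd (nat_lit 156) (nat_lit 0) (nat_lit 76) (XT.nd (nat_lit 78) (nat_lit 0) (nat_lit 0) (XT.lf (nat_lit 0) (nat_lit 4355786636) (nat_lit 1748) (nat_lit 9801799214) (nat_lit 1824) (nat_lit 7997777001) (nat_lit 372) (nat_lit 5) (nat_lit 395) (nat_lit 5) (nat_lit 396) (nat_lit 5) (nat_lit 472) (nat_lit 458) (nat_lit 210)) (XT.lf (nat_lit 76) (nat_lit 927509859) (nat_lit 0) (nat_lit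 4494956412) (nat_lit 1824) (nat_lit 16964543752) (nat_lit 373) (nat_lit 5) (nat_lit 372) (nat_lit 5) (nat_lit 396) (nat_lit 5) (nat_lit 473) (nat_lit 458) (nat_lit 209))) (XT.nd (nat_lit 78) (nat_lit 0) (nat_lit 0) (XT.lf (nat_lit 0) (nat_lit 6607999891) (nat_lit 1748) (nat_lit 10655523906) (nat_lit 1824) (nat_lit 5357817943) (nat_lit 373) (nat_lit 5) (nat_lit 396) (nat_lit 5) (nat_lit 397) (nat_lit 5) (nat_lit 474) (nat_lit 458) (nat_lit 208)) (XT.nd (nat_lit 78) (nat_lit 0) (nat_lit 76) (XT.lf (nat_lit 76) (nat_lit 336651677) (nat_lit 0) (nat_lit 7509117641) (nat_lit 1824) (nat_lit 15014022243) (nat_lit 374) (nat_lit 5) (nat_lit 373) (nat_lit 5) (nat_lit 397) (nat_lit 5) (nat_lit 475) (nat_lit 458) (nat_lit 207)) (XT.lf (nat_lit 0) (nat_lit 9192744389) (nat_lit 1748) (nat_lit 11427375179) (nat_lit 1824) (nat_lit 2481203737) (nat_lit 374) (nat_lit 5) (nat_lit 397) (nat_lit 5) (nat_lit 398) (nat_lit 5) (nat_lit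 476) (nat_lit 458) (nat_lit 206))))) (XT.nd (nat_lit 156) (nat_lit 0) (nat_lit 76) (XT.nd (nat_lit 78) (nat_lit 0) (nat_lit 0) (XT.lf (nat_lit 0) (nat_lit 10613082333) (nat_lit 1748) (nat_lit 161959736) (nat_lit 1824) (nat_lit 12571717043) (nat_lit 374) (nat_lit 5) (nat_lit 397) (nat_lit 5) (nat_lit 398) (nat_lit 5) (nat_lit 477) (nat_lit 458) (nat_lit 205)) (XT.lf (nat_lit 76) (nat_lit 11476798705) (nat_lit 0) (nat_lit 656302257) (nat_lit 1824) (nat_lit 11462579050) (nat_lit 375) (nat_lit 5) (nat_lit 374) (nat_lit 5) (nat_lit 398) (nat_lit 5) (nat_lit 478) (nat_lit 458) (nat_lit 204))) (XT.nd (nat_lit 78) (nat_lit 0) (nat_lit 0) (XT.lf (nat_lit 0) (nat_lit 13744175529) (nat_lit 1748) (nat_lit 564327073) (nat_lit 1824) (nat_lit 9539865439) (nat_lit 375) (nat_lit 5) (nat_lit 398) (nat_lit 5) (nat_lit 399) (nat_lit 5) (nat_lit 479) (nat_lit 458) (nat_lit 203)) (XT.nd (nat_lit 78) (nat_lit 0) (nat_lit 76) (XT.lf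 (nat_lit 76) (nat_lit 11363516603) (nat_lit 0) (nat_lit 4098954528) (nat_lit 1824) (nat_lit 8642140494) (nat_lit 376) (nat_lit 5) (nat_lit 375) (nat_lit 5) (nat_lit 399) (nat_lit 5) (nat_lit 480) (nat_lit 458) (nat_lit 202)) (XT.lf (nat_lit 0) (nat_lit 17256867297) (nat_lit 1748) (nat_lit 871903206) (nat_lit 1824) (nat_lit 6236376635) (nat_lit 376) (nat_lit 5) (nat_lit 399) (nat_lit 5) (nat_lit 400) (nat_lit 5) (nat_lit 481) (nat_lit 458) (nat_lit 201)))))) (XT.nd (nat_lit 546) (nat_lit 912) (nat_lit 0) (XT.nd (nat_lit 156) (nat_lit 2660) (nat_lit 0) (XT.nd (nat_lit 78) (nat_lit 0) (nat_lit 76) (XT.lf (nat_lit 76) (nat_lit 11353945132) (nat_lit 0) (nat_lit 7831052196) (nat_lit 1824) (nat_lit 5443940828) (nat_lit 377) (nat_lit 5) (nat_lit 376) (nat_lit 5) (nat_lit 400) (nat_lit 5) (nat_lit 482) (nat_lit 458) (nat_lit 200)) (XT.lf (nat_lit 0) (nat_lit 21171961599) (nat_lit 1748) (nat_lit 1081688797) (nat_lit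 76) (nat_lit 2643950852) (nat_lit 377) (nat_lit 5) (nat_lit 400) (nat_lit 5) (nat_lit 378) (nat_lit 5) (nat_lit 483) (nat_lit 458) (nat_lit 199))) (XT.nd (nat_lit 78) (nat_lit 988) (nat_lit 0) (XT.lf (nat_lit 0) (nat_lit 11451317149) (nat_lit 1748) (nat_lit 11870646601) (nat_lit 1824) (nat_lit 1847209525) (nat_lit 354) (nat_lit 5) (nat_lit 377) (nat_lit 5) (nat_lit 378) (nat_lit 5) (nat_lit 484) (nat_lit 458) (nat_lit 198)) (XT.nd (nat_lit 78) (nat_lit 912) (nat_lit 0) (XT.lf (nat_lit 0) (nat_lit 72302005) (nat_lit 1824) (nat_lit 1199393293) (nat_lit 76) (nat_lit 24174385801) (nat_lit 353) (nat_lit 5) (nat_lit 377) (nat_lit 5) (nat_lit 354) (nat_lit 5) (nat_lit 485) (nat_lit 458) (nat_lit 197)) (XT.lf (nat_lit 0) (nat_lit 2141197608) (nat_lit 988) (nat_lit 14081043691) (nat_lit 76) (nat_lit 9503328572) (nat_lit 341) (nat_lit 5) (nat_lit 354) (nat_lit 5) (nat_lit 342) (nat_lit 5) (nat_lit 486) (nat_lit 458)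 (nat_lit 196))))) (XT.nd (nat_lit 57096) (nat_lit 0) (nat_lit 4560) (XT.nd (nat_lit 57018) (nat_lit 0) (nat_lit 4560) (XT.lf (nat_lit 0) (nat_lit 8907070076) (nat_lit 988) (nat_lit 1218706640) (nat_lit 76) (nat_lit 16466104860) (nat_lit 329) (nat_lit 5) (nat_lit 342) (nat_lit 5) (nat_lit 330) (nat_lit 5) (nat_lit 489) (nat_lit 458) (nat_lit 193)) (XT.lf (nat_lit 0) (nat_lit 8167912371) (nat_lit 1748) (nat_lit 823042646) (nat_lit 1748) (nat_lit 823042646) (nat_lit 389) (nat_lit 3) (nat_lit 412) (nat_lit 3) (nat_lit 412) (nat_lit 5) (nat_lit 459) (nat_lit 459) (nat_lit 222))) (XT.nd (nat_lit 78) (nat_lit 0) (nat_lit 0) (XT.lf (nat_lit 76) (nat_lit 7576447069) (nat_lit 0) (nat_lit 9137385883) (nat_lit 1748) (nat_lit 3106050178) (nat_lit 390) (nat_lit 5) (nat_lit 389) (nat_lit 3) (nat_lit 412) (nat_lit 5) (nat_lit 460) (nat_lit 459) (nat_lit 221)) (XT.nd (nat_lit 78) (nat_lit 0) (nat_lit 76) (XT.lf (nat_lit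 76) (nat_lit 17003499046) (nat_lit 0) (nat_lit 102593770) (nat_lit 1748) (nat_lit 2909384644) (nat_lit 390) (nat_lit 5) (nat_lit 389) (nat_lit 3) (nat_lit 412) (nat_lit 5) (nat_lit 461) (nat_lit 459) (nat_lit 220)) (XT.lf (nat_lit 76) (nat_lit 6426930258) (nat_lit 0) (nat_lit 11175906674) (nat_lit 1748) (nat_lit 2610216512) (nat_lit 391) (nat_lit 5) (nat_lit 390) (nat_lit 5) (nat_lit 413) (nat_lit 5) (nat_lit 462) (nat_lit 459) (nat_lit 219))))))) (XT.nd (nat_lit 780) (nat_lit 0) (nat_lit 152) (XT.nd (nat_lit 390) (nat_lit 1520) (nat_lit 0) (XT.nd (nat_lit 156) (nat_lit 0) (nat_lit 76) (XT.nd (nat_lit 78) (nat_lit 0) (nat_lit 76) (XT.lf (nat_lit 76) (nat_lit 16092470431) (nat_lit 0) (nat_lit 2033745230) (nat_lit 1748) (nat_lit 2288033793) (nat_lit 391) (nat_lit 5) (nat_lit 390) (nat_lit 5) (nat_lit 413) (nat_lit 5) (nat_lit 463) (nat_lit 459) (nat_lit 218)) (XT.lf (nat_lit 76) (nat_lit 5352371446) (nat_lit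 0) (nat_lit 13385688368) (nat_lit 1748) (nat_lit 1879852064) (nat_lit 392) (nat_lit 5) (nat_lit 391) (nat_lit 5) (nat_lit 414) (nat_lit 5) (nat_lit 464) (nat_lit 459) (nat_lit 217))) (XT.nd (nat_lit 78) (nat_lit 0) (nat_lit 76) (XT.lf (nat_lit 76) (nat_lit 15262617462) (nat_lit 0) (nat_lit 4137876887) (nat_lit 1748) (nat_lit 1424388533) (nat_lit 392) (nat_lit 5) (nat_lit 391) (nat_lit 5) (nat_lit 414) (nat_lit 5) (nat_lit 465) (nat_lit 459) (nat_lit 216)) (XT.nd (nat_lit 78) (nat_lit 0) (nat_lit 0) (XT.lf (nat_lit 76) (nat_lit 4355450205) (nat_lit 0) (nat_lit 15779445801) (nat_lit 1748) (nat_lit 899925290) (nat_lit 393) (nat_lit 5) (nat_lit 392) (nat_lit 5) (nat_lit 415) (nat_lit 5) (nat_lit 466) (nat_lit 459) (nat_lit 215)) (XT.lf (nat_lit 76) (nat_lit 14516796917) (nat_lit 0) (nat_lit 6427861327) (nat_lit 1748) (nat_lit 303089090) (nat_lit 393) (nat_lit 5) (nat_lit 392) (nat_lit 5) (nat_lit 415) (nat_lit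 5) (nat_lit 467) (nat_lit 459) (nat_lit 214))))) (XT.nd (nat_lit 156) (nat_lit 0) (nat_lit 76) (XT.nd (nat_lit 78) (nat_lit 0) (nat_lit 0) (XT.lf (nat_lit 0) (nat_lit 340663676) (nat_lit 1748) (nat_lit 18027452327) (nat_lit 1824) (nat_lit 3095998637) (nat_lit 370) (nat_lit 5) (nat_lit 393) (nat_lit 5) (nat_lit 394) (nat_lit 5) (nat_lit 468) (nat_lit 459) (nat_lit 213)) (XT.lf (nat_lit 0) (nat_lit 1077514498) (nat_lit 1748) (nat_lit 7832345812) (nat_lit 1824) (nat_lit 12773225463) (nat_lit 370) (nat_lit 5) (nat_lit 393) (nat_lit 5) (nat_lit 394) (nat_lit 5) (nat_lit 469) (nat_lit 459) (nat_lit 212))) (XT.nd (nat_lit 78) (nat_lit 0) (nat_lit 0) (XT.lf (nat_lit 0) (nat_lit 1847196785) (nat_lit 1748) (nat_lit 19312727248) (nat_lit 1824) (nat_lit 746152540) (nat_lit 371) (nat_lit 5) (nat_lit 394) (nat_lit 5) (nat_lit 395) (nat_lit 5) (nat_lit 470) (nat_lit 459) (nat_lit 211)) (XT.nd (nat_lit 78) (nat_lit 0) (nat_lit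 0) (XT.lf (nat_lit 0) (nat_lit 2740565996) (nat_lit 1748) (nat_lit 8860553381) (nat_lit 1824) (nat_lit 10530244039) (nat_lit 371) (nat_lit 5) (nat_lit 394) (nat_lit 5) (nat_lit 395) (nat_lit 5) (nat_lit 471) (nat_lit 459) (nat_lit 210)) (XT.lf (nat_lit 76) (nat_lit 1822158488) (nat_lit 0) (nat_lit 1837926081) (nat_lit 1824) (nat_lit 18700907837) (nat_lit 372) (nat_lit 5) (nat_lit 371) (nat_lit 5) (nat_lit 395) (nat_lit 5) (nat_lit 472) (nat_lit 459) (nat_lit 209)))))) (XT.nd (nat_lit 390) (nat_lit 0) (nat_lit 152) (XT.nd (nat_lit 156) (nat_lit 0) (nat_lit 76) (XT.nd (nat_lit 78) (nat_lit 0) (nat_lit 0) (XT.lf (nat_lit 0) (nat_lit 4707082718) (nat_lit 1748) (nat_lit 9810977400) (nat_lit 1824) (nat_lit 8074974084) (nat_lit 372) (nat_lit 5) (nat_lit 395) (nat_lit 5) (nat_lit 396) (nat_lit 5) (nat_lit 473) (nat_lit 459) (nat_lit 208)) (XT.lf (nat_lit 76) (nat_lit 1131688527) (nat_lit 0) (nat_lit 4659432635)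 (nat_lit 1824) (nat_lit 17038275637) (nat_lit 373) (nat_lit 5) (nat_lit 372) (nat_lit 5) (nat_lit 396) (nat_lit 5) (nat_lit 474) (nat_lit 459) (nat_lit 207))) (XT.nd (nat_lit 78) (nat_lit 0) (nat_lit 0) (XT.lf (nat_lit 0) (nat_lit 6994788674) (nat_lit 1748) (nat_lit 10680922523) (nat_lit 1824) (nat_lit 5392818417) (nat_lit 373) (nat_lit 5) (nat_lit 396) (nat_lit 5) (nat_lit 397) (nat_lit 5) (nat_lit 475) (nat_lit 459) (nat_lit 206)) (XT.nd (nat_lit 78) (nat_lit 0) (nat_lit 76) (XT.lf (nat_lit 76) (nat_lit 529861626) (nat_lit 0) (nat_lit 7723669875) (nat_lit 1824) (nat_lit 15058295441) (nat_lit 374) (nat_lit 5) (nat_lit 373) (nat_lit 5) (nat_lit 397) (nat_lit 5) (nat_lit 476) (nat_lit 459) (nat_lit 205)) (XT.lf (nat_lit 0) (nat_lit 9622117771) (nat_lit 1748) (nat_lit 11467633175) (nat_lit 1824) (nat_lit 2468547755) (nat_lit 374) (nat_lit 5) (nat_lit 397) (nat_lit 5) (nat_lit 398) (nat_lit 5) (nat_lit 477)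 (nat_lit 459) (nat_lit 204))))) (XT.nd (nat_lit 234) (nat_lit 0) (nat_lit 76) (XT.nd (nat_lit 78) (nat_lit 0) (nat_lit 0) (XT.lf (nat_lit 76) (nat_lit 19656423) (nat_lit 0) (nat_lit 11046519585) (nat_lit 1824) (nat_lit 12742563703) (nat_lit 375) (nat_lit 5) (nat_lit 374) (nat_lit 5) (nat_lit 398) (nat_lit 5) (nat_lit 478) (nat_lit 459) (nat_lit 203)) (XT.nd (nat_lit 78) (nat_lit 0) (nat_lit 76) (XT.lf (nat_lit 76) (nat_lit 11889717779) (nat_lit 0) (nat_lit 723220559) (nat_lit 1824) (nat_lit 11449776530) (nat_lit 375) (nat_lit 5) (nat_lit 374) (nat_lit 5) (nat_lit 398) (nat_lit 5) (nat_lit 479) (nat_lit 459) (nat_lit 202)) (XT.lf (nat_lit 0) (nat_lit 14251241492) (nat_lit 1748) (nat_lit 390700772) (nat_lit 1824) (nat_lit 9678616903) (nat_lit 375) (nat_lit 5) (nat_lit 398) (nat_lit 5) (nat_lit 399) (nat_lit 5) (nat_lit 480) (nat_lit 459) (nat_lit 201)))) (XT.nd (nat_lit 78) (nat_lit 0) (nat_lit 76) (XT.lf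 (nat_lit 76) (nat_lit 11774483245) (nat_lit 0) (nat_lit 4226059842) (nat_lit 1824) (nat_lit 8581454334) (nat_lit 376) (nat_lit 5) (nat_lit 375) (nat_lit 5) (nat_lit 399) (nat_lit 5) (nat_lit 481) (nat_lit 459) (nat_lit 200)) (XT.nd (nat_lit 78) (nat_lit 0) (nat_lit 0) (XT.lf (nat_lit 0) (nat_lit 17826053215) (nat_lit 1748) (nat_lit 704345450) (nat_lit 1824) (nat_lit 6317443006) (nat_lit 376) (nat_lit 5) (nat_lit 399) (nat_lit 5) (nat_lit 400) (nat_lit 5) (nat_lit 482) (nat_lit 459) (nat_lit 199)) (XT.lf (nat_lit 76) (nat_lit 11764802778) (nat_lit 0) (nat_lit 8024743175) (nat_lit 1824) (nat_lit 5327429056) (nat_lit 377) (nat_lit 5) (nat_lit 376) (nat_lit 5) (nat_lit 400) (nat_lit 5) (nat_lit 483) (nat_lit 459) (nat_lit 198))))))))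
noncomputable def xc250 : XT := (XT.nd (nat_lit 58812) (nat_lit 912) (nat_lit 0) (XT.nd (nat_lit 58032) (nat_lit 0) (nat_lit 1292) (XT.nd (nat_lit 57642) (nat_lit 0) (nat_lit 2736) (XT.nd (nat_lit 156) (nat_lit 76) (nat_lit 0) (XT.nd (nat_lit 78) (nat_lit 1748) (nat_lit 0) (XT.lf (nat_lit 0) (nat_lit 21811683178) (nat_lit 1748) (nat_lit 918458516) (nat_lit 76) (nat_lit 2660963442) (nat_lit 377) (nat_lit 5) (nat_lit 400) (nat_lit 5) (nat_lit 378) (nat_lit 5) (nat_lit 484) (nat_lit 459) (nat_lit 197)) (XT.lf (nat_lit 0) (nat_lit 11863991338) (nat_lit 1748) (nat_lit 12137645569) (nat_lit 1824) (nat_lit 1666535070) (nat_lit 354) (nat_lit 5) (nat_lit 377) (nat_lit 5) (nat_lit 378) (nat_lit 5) (nat_lit 485) (nat_lit 459) (nat_lit 196))) (XT.nd (nat_lit 57330) (nat_lit 0) (nat_lit 2736) (XT.lf (nat_lit 0) (nat_lit 284301514) (nat_lit 1824) (nat_lit 1040420683) (nat_lit 76) (nat_lit 24625954031) (nat_lit 353) (nat_lit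 5) (nat_lit 377) (nat_lit 5) (nat_lit 354) (nat_lit 5) (nat_lit 486) (nat_lit 459) (nat_lit 195)) (XT.nd (nat_lit 78) (nat_lit 0) (nat_lit 0) (XT.lf (nat_lit 0) (nat_lit 8495654995) (nat_lit 1748) (nat_lit 755618213) (nat_lit 1748) (nat_lit 755618213) (nat_lit 389) (nat_lit 3) (nat_lit 412) (nat_lit 3) (nat_lit 412) (nat_lit 5) (nat_lit 460) (nat_lit 460) (nat_lit 220)) (XT.lf (nat_lit 76) (nat_lit 7894642828) (nat_lit 0) (nat_lit 9476871202) (nat_lit 1748) (nat_lit 2838105522) (nat_lit 390) (nat_lit 5) (nat_lit 389) (nat_lit 3) (nat_lit 412) (nat_lit 5) (nat_lit 461) (nat_lit 460) (nat_lit 219))))) (XT.nd (nat_lit 156) (nat_lit 0) (nat_lit 76) (XT.nd (nat_lit 78) (nat_lit 0) (nat_lit 76) (XT.lf (nat_lit 76) (nat_lit 17506967868) (nat_lit 0) (nat_lit 258309960) (nat_lit 1748) (nat_lit 2643978553) (nat_lit 390) (nat_lit 5) (nat_lit 389) (nat_lit 3) (nat_lit 412) (nat_lit 5) (nat_lit 462) (nat_lit 460) (nat_lit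 218)) (XT.lf (nat_lit 76) (nat_lit 6725271503) (nat_lit 0) (nat_lit 11540592742) (nat_lit 1748) (nat_lit 2345045205) (nat_lit 391) (nat_lit 5) (nat_lit 390) (nat_lit 5) (nat_lit 413) (nat_lit 5) (nat_lit 463) (nat_lit 460) (nat_lit 217))) (XT.nd (nat_lit 78) (nat_lit 0) (nat_lit 76) (XT.lf (nat_lit 76) (nat_lit 16580793016) (nat_lit 0) (nat_lit 2212820071) (nat_lit 1748) (nat_lit 2022641883) (nat_lit 391) (nat_lit 5) (nat_lit 390) (nat_lit 5) (nat_lit 413) (nat_lit 5) (nat_lit 464) (nat_lit 460) (nat_lit 216)) (XT.nd (nat_lit 78) (nat_lit 0) (nat_lit 0) (XT.lf (nat_lit 76) (nat_lit 5631927667) (nat_lit 0) (nat_lit 13780027628) (nat_lit 1748) (nat_lit 1612153692) (nat_lit 392) (nat_lit 5) (nat_lit 391) (nat_lit 5) (nat_lit 414) (nat_lit 5) (nat_lit 465) (nat_lit 460) (nat_lit 215)) (XT.lf (nat_lit 76) (nat_lit 15736996079) (nat_lit 0) (nat_lit 4344777065) (nat_lit 1748) (nat_lit 1153567075) (nat_lit 392)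 (nat_lit 5) (nat_lit 391) (nat_lit 5) (nat_lit 414) (nat_lit 5) (nat_lit 466) (nat_lit 460) (nat_lit 214)))))) (XT.nd (nat_lit 390) (nat_lit 0) (nat_lit 76) (XT.nd (nat_lit 156) (nat_lit 1672) (nat_lit 0) (XT.nd (nat_lit 78) (nat_lit 0) (nat_lit 0) (XT.lf (nat_lit 76) (nat_lit 4617374100) (nat_lit 0) (nat_lit 16208083164) (nat_lit 1748) (nat_lit 624131677) (nat_lit 393) (nat_lit 5) (nat_lit 392) (nat_lit 5) (nat_lit 415) (nat_lit 5) (nat_lit 467) (nat_lit 460) (nat_lit 213)) (XT.lf (nat_lit 76) (nat_lit 14978520004) (nat_lit 0) (nat_lit 6667250364) (nat_lit 1748) (nat_lit 21119383) (nat_lit 393) (nat_lit 5) (nat_lit 392) (nat_lit 5) (nat_lit 415) (nat_lit 5) (nat_lit 468) (nat_lit 460) (nat_lit 212))) (XT.nd (nat_lit 78) (nat_lit 0) (nat_lit 0) (XT.lf (nat_lit 0) (nat_lit 626602261) (nat_lit 1748) (nat_lit 18207381573) (nat_lit 1824) (nat_lit 3053668970) (nat_lit 370) (nat_lit 5) (nat_lit 393) (nat_lit 5)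 (nat_lit 394) (nat_lit 5) (nat_lit 469) (nat_lit 460) (nat_lit 211)) (XT.nd (nat_lit 78) (nat_lit 0) (nat_lit 76) (XT.lf (nat_lit 0) (nat_lit 1372717054) (nat_lit 1748) (nat_lit 7811914493) (nat_lit 1824) (nat_lit 12926484444) (nat_lit 370) (nat_lit 5) (nat_lit 393) (nat_lit 5) (nat_lit 394) (nat_lit 5) (nat_lit 470) (nat_lit 460) (nat_lit 210)) (XT.lf (nat_lit 0) (nat_lit 2152962238) (nat_lit 1748) (nat_lit 19516917462) (nat_lit 1824) (nat_lit 668786629) (nat_lit 371) (nat_lit 5) (nat_lit 394) (nat_lit 5) (nat_lit 395) (nat_lit 5) (nat_lit 471) (nat_lit 460) (nat_lit 209))))) (XT.nd (nat_lit 156) (nat_lit 0) (nat_lit 76) (XT.nd (nat_lit 78) (nat_lit 0) (nat_lit 0) (XT.lf (nat_lit 0) (nat_lit 3058927823) (nat_lit 1748) (nat_lit 8859270007) (nat_lit 1824) (nat_lit 10650369545) (nat_lit 371) (nat_lit 5) (nat_lit 394) (nat_lit 5) (nat_lit 395) (nat_lit 5) (nat_lit 472) (nat_lit 460) (nat_lit 208)) (XT.lf (nat_lit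 76) (nat_lit 2035921794) (nat_lit 0) (nat_lit 1956898596) (nat_lit 1824) (nat_lit 18810051868) (nat_lit 372) (nat_lit 5) (nat_lit 371) (nat_lit 5) (nat_lit 395) (nat_lit 5) (nat_lit 473) (nat_lit 460) (nat_lit 207))) (XT.nd (nat_lit 78) (nat_lit 0) (nat_lit 0) (XT.lf (nat_lit 0) (nat_lit 5055146276) (nat_lit 1748) (nat_lit 9827595066) (nat_lit 1824) (nat_lit 8156928721) (nat_lit 372) (nat_lit 5) (nat_lit 395) (nat_lit 5) (nat_lit 396) (nat_lit 5) (nat_lit 474) (nat_lit 460) (nat_lit 206)) (XT.nd (nat_lit 78) (nat_lit 0) (nat_lit 76) (XT.lf (nat_lit 76) (nat_lit 1332742589) (nat_lit 0) (nat_lit 4824302463) (nat_lit 1824) (nat_lit 17123794139) (nat_lit 373) (nat_lit 5) (nat_lit 372) (nat_lit 5) (nat_lit 396) (nat_lit 5) (nat_lit 475) (nat_lit 460) (nat_lit 205)) (XT.lf (nat_lit 0) (nat_lit 7379425687) (nat_lit 1748) (nat_lit 10714118192) (nat_lit 1824) (nat_lit 5431320802) (nat_lit 373) (nat_lit 5) (nat_lit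 396) (nat_lit 5) (nat_lit 397) (nat_lit 5) (nat_lit 476) (nat_lit 460) (nat_lit 204))))))) (XT.nd (nat_lit 58110) (nat_lit 0) (nat_lit 2128) (XT.nd (nat_lit 390) (nat_lit 2432) (nat_lit 0) (XT.nd (nat_lit 156) (nat_lit 0) (nat_lit 76) (XT.nd (nat_lit 78) (nat_lit 0) (nat_lit 76) (XT.lf (nat_lit 76) (nat_lit 719694648) (nat_lit 0) (nat_lit 7940013592) (nat_lit 1824) (nat_lit 15113395176) (nat_lit 374) (nat_lit 5) (nat_lit 373) (nat_lit 5) (nat_lit 397) (nat_lit 5) (nat_lit 477) (nat_lit 460) (nat_lit 203)) (XT.lf (nat_lit 0) (nat_lit 10050544838) (nat_lit 1748) (nat_lit 11516007841) (nat_lit 1824) (nat_lit 2458057064) (nat_lit 374) (nat_lit 5) (nat_lit 397) (nat_lit 5) (nat_lit 398) (nat_lit 5) (nat_lit 478) (nat_lit 460) (nat_lit 202))) (XT.nd (nat_lit 78) (nat_lit 0) (nat_lit 0) (XT.lf (nat_lit 76) (nat_lit 199836904) (nat_lit 0) (nat_lit 11320187483) (nat_lit 1824) (nat_lit 12760107035) (nat_lit 375) (nat_lit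 5) (nat_lit 374) (nat_lit 5) (nat_lit 398) (nat_lit 5) (nat_lit 479) (nat_lit 460) (nat_lit 201)) (XT.nd (nat_lit 78) (nat_lit 0) (nat_lit 76) (XT.lf (nat_lit 76) (nat_lit 12303774245) (nat_lit 0) (nat_lit 789388409) (nat_lit 1824) (nat_lit 11446117215) (nat_lit 375) (nat_lit 5) (nat_lit 374) (nat_lit 5) (nat_lit 398) (nat_lit 5) (nat_lit 480) (nat_lit 460) (nat_lit 200)) (XT.lf (nat_lit 0) (nat_lit 14759432847) (nat_lit 1748) (nat_lit 220782336) (nat_lit 1824) (nat_lit 9822164400) (nat_lit 375) (nat_lit 5) (nat_lit 398) (nat_lit 5) (nat_lit 399) (nat_lit 5) (nat_lit 481) (nat_lit 460) (nat_lit 199))))) (XT.nd (nat_lit 156) (nat_lit 2584) (nat_lit 0) (XT.nd (nat_lit 78) (nat_lit 0) (nat_lit 76) (XT.lf (nat_lit 76) (nat_lit 12186536069) (nat_lit 0) (nat_lit 4353954955) (nat_lit 1824) (nat_lit 8528622664) (nat_lit 376) (nat_lit 5) (nat_lit 375) (nat_lit 5) (nat_lit 399) (nat_lit 5) (nat_lit 482) (nat_lit 460)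 (nat_lit 198)) (XT.lf (nat_lit 0) (nat_lit 18397922773) (nat_lit 1748) (nat_lit 540620152) (nat_lit 1824) (nat_lit 6401826121) (nat_lit 376) (nat_lit 5) (nat_lit 399) (nat_lit 5) (nat_lit 400) (nat_lit 5) (nat_lit 483) (nat_lit 460) (nat_lit 197))) (XT.nd (nat_lit 78) (nat_lit 2660) (nat_lit 0) (XT.lf (nat_lit 76) (nat_lit 12176741223) (nat_lit 0) (nat_lit 8220868502) (nat_lit 1824) (nat_lit 5217339239) (nat_lit 377) (nat_lit 5) (nat_lit 376) (nat_lit 5) (nat_lit 400) (nat_lit 5) (nat_lit 484) (nat_lit 460) (nat_lit 196)) (XT.nd (nat_lit 234) (nat_lit 2736) (nat_lit 0) (XT.lf (nat_lit 0) (nat_lit 22455800682) (nat_lit 1748) (nat_lit 759142127) (nat_lit 76) (nat_lit 2679709020) (nat_lit 377) (nat_lit 5) (nat_lit 400) (nat_lit 5) (nat_lit 378) (nat_lit 5) (nat_lit 485) (nat_lit 460) (nat_lit 195)) (XT.lf (nat_lit 0) (nat_lit 2638670156) (nat_lit 988) (nat_lit 14281044290) (nat_lit 76) (nat_lit 9836724894)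 (nat_lit 341) (nat_lit 5) (nat_lit 354) (nat_lit 5) (nat_lit 342) (nat_lit 5) (nat_lit 488) (nat_lit 460) (nat_lit 192)))))) (XT.nd (nat_lit 390) (nat_lit 1520) (nat_lit 0) (XT.nd (nat_lit 156) (nat_lit 0) (nat_lit 0) (XT.nd (nat_lit 78) (nat_lit 0) (nat_lit 0) (XT.lf (nat_lit 0) (nat_lit 8823569226) (nat_lit 1748) (nat_lit 690102660) (nat_lit 1748) (nat_lit 690102660) (nat_lit 389) (nat_lit 3) (nat_lit 412) (nat_lit 3) (nat_lit 412) (nat_lit 5) (nat_lit 461) (nat_lit 461) (nat_lit 218)) (XT.lf (nat_lit 76) (nat_lit 8212730628) (nat_lit 0) (nat_lit 9817059914) (nat_lit 1748) (nat_lit 2577618825) (nat_lit 390) (nat_lit 5) (nat_lit 389) (nat_lit 3) (nat_lit 412) (nat_lit 5) (nat_lit 462) (nat_lit 461) (nat_lit 217))) (XT.nd (nat_lit 78) (nat_lit 0) (nat_lit 76) (XT.lf (nat_lit 76) (nat_lit 18014161090) (nat_lit 0) (nat_lit 411173501) (nat_lit 1748) (nat_lit 2385829881) (nat_lit 390) (nat_lit 5) (nat_lit 389)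 (nat_lit 3) (nat_lit 412) (nat_lit 5) (nat_lit 463) (nat_lit 461) (nat_lit 216)) (XT.nd (nat_lit 78) (nat_lit 0) (nat_lit 0) (XT.lf (nat_lit 76) (nat_lit 7022985929) (nat_lit 0) (nat_lit 11907090809) (nat_lit 1748) (nat_lit 2086894554) (nat_lit 391) (nat_lit 5) (nat_lit 390) (nat_lit 5) (nat_lit 413) (nat_lit 5) (nat_lit 464) (nat_lit 461) (nat_lit 215)) (XT.lf (nat_lit 76) (nat_lit 17072417696) (nat_lit 0) (nat_lit 2390102170) (nat_lit 1748) (nat_lit 1764024568) (nat_lit 391) (nat_lit 5) (nat_lit 390) (nat_lit 5) (nat_lit 413) (nat_lit 5) (nat_lit 465) (nat_lit 461) (nat_lit 214))))) (XT.nd (nat_lit 234) (nat_lit 1672) (nat_lit 0) (XT.nd (nat_lit 78) (nat_lit 0) (nat_lit 0) (XT.lf (nat_lit 76) (nat_lit 5910376286) (nat_lit 0) (nat_lit 14177336651) (nat_lit 1748) (nat_lit 1350956346) (nat_lit 392) (nat_lit 5) (nat_lit 391) (nat_lit 5) (nat_lit 414) (nat_lit 5) (nat_lit 466) (nat_lit 461) (nat_lit 213)) (XT.nd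 (nat_lit 78) (nat_lit 0) (nat_lit 76) (XT.lf (nat_lit 76) (nat_lit 16214294888) (nat_lit 0) (nat_lit 4550994635) (nat_lit 1748) (nat_lit 888951730) (nat_lit 392) (nat_lit 5) (nat_lit 391) (nat_lit 5) (nat_lit 414) (nat_lit 5) (nat_lit 467) (nat_lit 461) (nat_lit 212)) (XT.lf (nat_lit 76) (nat_lit 4877748198) (nat_lit 0) (nat_lit 16640903464) (nat_lit 1748) (nat_lit 354230498) (nat_lit 393) (nat_lit 5) (nat_lit 392) (nat_lit 5) (nat_lit 415) (nat_lit 5) (nat_lit 468) (nat_lit 461) (nat_lit 211)))) (XT.nd (nat_lit 78) (nat_lit 0) (nat_lit 76) (XT.lf (nat_lit 0) (nat_lit 251956731) (nat_lit 1748) (nat_lit 6653475953) (nat_lit 1824) (nat_lit 15189174886) (nat_lit 369) (nat_lit 5) (nat_lit 392) (nat_lit 5) (nat_lit 393) (nat_lit 5) (nat_lit 469) (nat_lit 461) (nat_lit 210)) (XT.nd (nat_lit 78) (nat_lit 0) (nat_lit 0) (XT.lf (nat_lit 0) (nat_lit 907420842) (nat_lit 1748) (nat_lit 18397923092) (nat_lit 1824) (nat_lit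 3014540851) (nat_lit 370) (nat_lit 5) (nat_lit 393) (nat_lit 5) (nat_lit 394) (nat_lit 5) (nat_lit 470) (nat_lit 461) (nat_lit 209)) (XT.lf (nat_lit 0) (nat_lit 1663197411) (nat_lit 1748) (nat_lit 7797950711) (nat_lit 1824) (nat_lit 13086777369) (nat_lit 370) (nat_lit 5) (nat_lit 393) (nat_lit 5) (nat_lit 394) (nat_lit 5) (nat_lit 471) (nat_lit 461) (nat_lit 208))))))))
noncomputable def xc251 : XT := (XT.nd (nat_lit 58968) (nat_lit 0) (nat_lit 1140) (XT.nd (nat_lit 780) (nat_lit 1292) (nat_lit 0) (XT.nd (nat_lit 390) (nat_lit 0) (nat_lit 152) (XT.nd (nat_lit 156) (nat_lit 0) (nat_lit 0) (XT.nd (nat_lit 78) (nat_lit 0) (nat_lit 0) (XT.lf (nat_lit 0) (nat_lit 2454404333) (nat_lit 1748) (nat_lit 19732261260) (nat_lit 1824) (nat_lit 593457092) (nat_lit 371) (nat_lit 5) (nat_lit 394) (nat_lit 5) (nat_lit 395) (nat_lit 5) (nat_lit 472) (nat_lit 461) (nat_lit 207)) (XT.lf (nat_lit 0) (nat_lit 3373422899) (nat_lit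 1748) (nat_lit 8864892122) (nat_lit 1824) (nat_lit 10776410985) (nat_lit 371) (nat_lit 5) (nat_lit 394) (nat_lit 5) (nat_lit 395) (nat_lit 5) (nat_lit 473) (nat_lit 461) (nat_lit 206))) (XT.nd (nat_lit 78) (nat_lit 0) (nat_lit 76) (XT.lf (nat_lit 76) (nat_lit 2247074809) (nat_lit 0) (nat_lit 2075058092) (nat_lit 1824) (nat_lit 18931664165) (nat_lit 372) (nat_lit 5) (nat_lit 371) (nat_lit 5) (nat_lit 395) (nat_lit 5) (nat_lit 474) (nat_lit 461) (nat_lit 205)) (XT.nd (nat_lit 78) (nat_lit 0) (nat_lit 0) (XT.lf (nat_lit 0) (nat_lit 5400311009) (nat_lit 1748) (nat_lit 9851519245) (nat_lit 1824) (nat_lit 8243611273) (nat_lit 372) (nat_lit 5) (nat_lit 395) (nat_lit 5) (nat_lit 396) (nat_lit 5) (nat_lit 475) (nat_lit 461) (nat_lit 204)) (XT.lf (nat_lit 76) (nat_lit 1530889454) (nat_lit 0) (nat_lit 4989686220) (nat_lit 1824) (nat_lit 17220934564) (nat_lit 373) (nat_lit 5) (nat_lit 372) (nat_lit 5) (nat_lit 396)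 (nat_lit 5) (nat_lit 476) (nat_lit 461) (nat_lit 203))))) (XT.nd (nat_lit 156) (nat_lit 0) (nat_lit 76) (XT.nd (nat_lit 78) (nat_lit 0) (nat_lit 0) (XT.lf (nat_lit 0) (nat_lit 7762251840) (nat_lit 1748) (nat_lit 10754983811) (nat_lit 1824) (nat_lit 5473286334) (nat_lit 373) (nat_lit 5) (nat_lit 396) (nat_lit 5) (nat_lit 397) (nat_lit 5) (nat_lit 477) (nat_lit 461) (nat_lit 202)) (XT.lf (nat_lit 76) (nat_lit 906364386) (nat_lit 0) (nat_lit 8158281684) (nat_lit 1824) (nat_lit 15179151955) (nat_lit 374) (nat_lit 5) (nat_lit 373) (nat_lit 5) (nat_lit 397) (nat_lit 5) (nat_lit 478) (nat_lit 461) (nat_lit 201))) (XT.nd (nat_lit 78) (nat_lit 0) (nat_lit 0) (XT.lf (nat_lit 0) (nat_lit 10478376873) (nat_lit 1748) (nat_lit 11572377597) (nat_lit 1824) (nat_lit 2449681059) (nat_lit 374) (nat_lit 5) (nat_lit 397) (nat_lit 5) (nat_lit 398) (nat_lit 5) (nat_lit 479) (nat_lit 461) (nat_lit 200)) (XT.nd (nat_lit 78) (nat_lit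 0) (nat_lit 0) (XT.lf (nat_lit 76) (nat_lit 376639632) (nat_lit 0) (nat_lit 11597280878) (nat_lit 1824) (nat_lit 12787216190) (nat_lit 375) (nat_lit 5) (nat_lit 374) (nat_lit 5) (nat_lit 398) (nat_lit 5) (nat_lit 480) (nat_lit 461) (nat_lit 199)) (XT.lf (nat_lit 76) (nat_lit 12719267367) (nat_lit 0) (nat_lit 854871907) (nat_lit 1824) (nat_lit 11451418985) (nat_lit 375) (nat_lit 5) (nat_lit 374) (nat_lit 5) (nat_lit 398) (nat_lit 5) (nat_lit 481) (nat_lit 461) (nat_lit 198)))))) (XT.nd (nat_lit 57798) (nat_lit 0) (nat_lit 2660) (XT.nd (nat_lit 156) (nat_lit 1596) (nat_lit 0) (XT.nd (nat_lit 78) (nat_lit 0) (nat_lit 0) (XT.lf (nat_lit 0) (nat_lit 15269122200) (nat_lit 1748) (nat_lit 54367099) (nat_lit 1824) (nat_lit 9970525372) (nat_lit 375) (nat_lit 5) (nat_lit 398) (nat_lit 5) (nat_lit 399) (nat_lit 5) (nat_lit 482) (nat_lit 461) (nat_lit 197)) (XT.lf (nat_lit 76) (nat_lit 12599973787) (nat_lit 0) (nat_lit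 4482723709) (nat_lit 1824) (nat_lit 8483450446) (nat_lit 376) (nat_lit 5) (nat_lit 375) (nat_lit 5) (nat_lit 399) (nat_lit 5) (nat_lit 483) (nat_lit 461) (nat_lit 196))) (XT.nd (nat_lit 78) (nat_lit 1672) (nat_lit 0) (XT.lf (nat_lit 0) (nat_lit 18972867478) (nat_lit 1748) (nat_lit 380525012) (nat_lit 1824) (nat_lit 6489526479) (nat_lit 376) (nat_lit 5) (nat_lit 399) (nat_lit 5) (nat_lit 400) (nat_lit 5) (nat_lit 484) (nat_lit 461) (nat_lit 195)) (XT.nd (nat_lit 156) (nat_lit 1672) (nat_lit 0) (XT.lf (nat_lit 76) (nat_lit 12590059199) (nat_lit 0) (nat_lit 8419532761) (nat_lit 1824) (nat_lit 5113459959) (nat_lit 377) (nat_lit 5) (nat_lit 376) (nat_lit 5) (nat_lit 400) (nat_lit 5) (nat_lit 485) (nat_lit 461) (nat_lit 194)) (XT.lf (nat_lit 0) (nat_lit 12693005717) (nat_lit 1748) (nat_lit 12684345290) (nat_lit 1824) (nat_lit 1319465483) (nat_lit 354) (nat_lit 5) (nat_lit 377) (nat_lit 5) (nat_lit 378) (nat_lit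 5) (nat_lit 487) (nat_lit 461) (nat_lit 192))))) (XT.nd (nat_lit 156) (nat_lit 0) (nat_lit 0) (XT.nd (nat_lit 78) (nat_lit 0) (nat_lit 0) (XT.lf (nat_lit 0) (nat_lit 9151906364) (nat_lit 1748) (nat_lit 626407675) (nat_lit 1748) (nat_lit 626407675) (nat_lit 389) (nat_lit 3) (nat_lit 412) (nat_lit 3) (nat_lit 412) (nat_lit 5) (nat_lit 462) (nat_lit 462) (nat_lit 216)) (XT.lf (nat_lit 76) (nat_lit 8530959618) (nat_lit 0) (nat_lit 10158202427) (nat_lit 1748) (nat_lit 2324241552) (nat_lit 390) (nat_lit 5) (nat_lit 389) (nat_lit 3) (nat_lit 412) (nat_lit 5) (nat_lit 463) (nat_lit 462) (nat_lit 215))) (XT.nd (nat_lit 78) (nat_lit 0) (nat_lit 76) (XT.lf (nat_lit 76) (nat_lit 18525399584) (nat_lit 0) (nat_lit 561359045) (nat_lit 1748) (nat_lit 2134595842) (nat_lit 390) (nat_lit 5) (nat_lit 389) (nat_lit 3) (nat_lit 412) (nat_lit 5) (nat_lit 464) (nat_lit 462) (nat_lit 214)) (XT.nd (nat_lit 78) (nat_lit 0) (nat_lit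 0) (XT.lf (nat_lit 76) (nat_lit 7320317040) (nat_lit 0) (nat_lit 12275649976) (nat_lit 1748) (nat_lit 1835426413) (nat_lit 391) (nat_lit 5) (nat_lit 390) (nat_lit 5) (nat_lit 413) (nat_lit 5) (nat_lit 465) (nat_lit 462) (nat_lit 213)) (XT.lf (nat_lit 76) (nat_lit 17567661533) (nat_lit 0) (nat_lit 2565764361) (nat_lit 1748) (nat_lit 1511848166) (nat_lit 391) (nat_lit 5) (nat_lit 390) (nat_lit 5) (nat_lit 413) (nat_lit 5) (nat_lit 466) (nat_lit 462) (nat_lit 212))))))) (XT.nd (nat_lit 780) (nat_lit 0) (nat_lit 228) (XT.nd (nat_lit 390) (nat_lit 0) (nat_lit 76) (XT.nd (nat_lit 156) (nat_lit 1672) (nat_lit 0) (XT.nd (nat_lit 78) (nat_lit 0) (nat_lit 0) (XT.lf (nat_lit 76) (nat_lit 6187955270) (nat_lit 0) (nat_lit 14577865765) (nat_lit 1748) (nat_lit 1095929701) (nat_lit 392) (nat_lit 5) (nat_lit 391) (nat_lit 5) (nat_lit 414) (nat_lit 5) (nat_lit 467) (nat_lit 462) (nat_lit 211)) (XT.lf (nat_lit 76) (nat_lit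 16694827314) (nat_lit 0) (nat_lit 4756703138) (nat_lit 1748) (nat_lit 630215303) (nat_lit 392) (nat_lit 5) (nat_lit 391) (nat_lit 5) (nat_lit 414) (nat_lit 5) (nat_lit 468) (nat_lit 462) (nat_lit 210))) (XT.nd (nat_lit 78) (nat_lit 1748) (nat_lit 0) (XT.lf (nat_lit 76) (nat_lit 5136805099) (nat_lit 0) (nat_lit 17078160824) (nat_lit 1748) (nat_lit 89896603) (nat_lit 393) (nat_lit 5) (nat_lit 392) (nat_lit 5) (nat_lit 415) (nat_lit 5) (nat_lit 469) (nat_lit 462) (nat_lit 209)) (XT.nd (nat_lit 78) (nat_lit 0) (nat_lit 76) (XT.lf (nat_lit 0) (nat_lit 519602535) (nat_lit 1748) (nat_lit 6624568035) (nat_lit 1824) (nat_lit 15386924719) (nat_lit 369) (nat_lit 5) (nat_lit 392) (nat_lit 5) (nat_lit 393) (nat_lit 5) (nat_lit 470) (nat_lit 462) (nat_lit 208)) (XT.lf (nat_lit 0) (nat_lit 1183437902) (nat_lit 1748) (nat_lit 18599016777) (nat_lit 1824) (nat_lit 2978521116) (nat_lit 370) (nat_lit 5) (nat_lit 393) (nat_lit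 5) (nat_lit 394) (nat_lit 5) (nat_lit 471) (nat_lit 462) (nat_lit 207))))) (XT.nd (nat_lit 156) (nat_lit 0) (nat_lit 76) (XT.nd (nat_lit 78) (nat_lit 0) (nat_lit 76) (XT.lf (nat_lit 0) (nat_lit 1949273754) (nat_lit 1748) (nat_lit 7790316807) (nat_lit 1824) (nat_lit 13254090807) (nat_lit 370) (nat_lit 5) (nat_lit 393) (nat_lit 5) (nat_lit 394) (nat_lit 5) (nat_lit 472) (nat_lit 462) (nat_lit 206)) (XT.lf (nat_lit 0) (nat_lit 2751841948) (nat_lit 1748) (nat_lit 19958707187) (nat_lit 1824) (nat_lit 520065498) (nat_lit 371) (nat_lit 5) (nat_lit 394) (nat_lit 5) (nat_lit 395) (nat_lit 5) (nat_lit 473) (nat_lit 462) (nat_lit 205))) (XT.nd (nat_lit 78) (nat_lit 0) (nat_lit 0) (XT.lf (nat_lit 0) (nat_lit 3684371287) (nat_lit 1748) (nat_lit 8877288691) (nat_lit 1824) (nat_lit 10908350249) (nat_lit 371) (nat_lit 5) (nat_lit 394) (nat_lit 5) (nat_lit 395) (nat_lit 5) (nat_lit 474) (nat_lit 462) (nat_lit 204)) (XT.nd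 (nat_lit 78) (nat_lit 0) (nat_lit 76) (XT.lf (nat_lit 76) (nat_lit 2455832702) (nat_lit 0) (nat_lit 2192512276) (nat_lit 1824) (nat_lit 19065594699) (nat_lit 372) (nat_lit 5) (nat_lit 371) (nat_lit 5) (nat_lit 395) (nat_lit 5) (nat_lit 475) (nat_lit 462) (nat_lit 203)) (XT.lf (nat_lit 0) (nat_lit 5742901818) (nat_lit 1748) (nat_lit 9882625253) (nat_lit 1824) (nat_lit 8334996357) (nat_lit 372) (nat_lit 5) (nat_lit 395) (nat_lit 5) (nat_lit 396) (nat_lit 5) (nat_lit 476) (nat_lit 462) (nat_lit 202)))))) (XT.nd (nat_lit 390) (nat_lit 0) (nat_lit 152) (XT.nd (nat_lit 156) (nat_lit 0) (nat_lit 76) (XT.nd (nat_lit 78) (nat_lit 0) (nat_lit 76) (XT.lf (nat_lit 76) (nat_lit 1726340012) (nat_lit 0) (nat_lit 5155702270) (nat_lit 1824) (nat_lit 17329544472) (nat_lit 373) (nat_lit 5) (nat_lit 372) (nat_lit 5) (nat_lit 396) (nat_lit 5) (nat_lit 477) (nat_lit 462) (nat_lit 201)) (XT.lf (nat_lit 0) (nat_lit 8143599951)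 (nat_lit 1748) (nat_lit 10803400725) (nat_lit 1824) (nat_lit 5518679699) (nat_lit 373) (nat_lit 5) (nat_lit 396) (nat_lit 5) (nat_lit 397) (nat_lit 5) (nat_lit 478) (nat_lit 462) (nat_lit 200))) (XT.nd (nat_lit 78) (nat_lit 0) (nat_lit 76) (XT.lf (nat_lit 76) (nat_lit 1090077838) (nat_lit 0) (nat_lit 8378605929) (nat_lit 1824) (nat_lit 15255407885) (nat_lit 374) (nat_lit 5) (nat_lit 373) (nat_lit 5) (nat_lit 397) (nat_lit 5) (nat_lit 479) (nat_lit 462) (nat_lit 199)) (XT.nd (nat_lit 78) (nat_lit 0) (nat_lit 0) (XT.lf (nat_lit 0) (nat_lit 10905957807) (nat_lit 1748) (nat_lit 11636629454) (nat_lit 1824) (nat_lit 2443371772) (nat_lit 374) (nat_lit 5) (nat_lit 397) (nat_lit 5) (nat_lit 398) (nat_lit 5) (nat_lit 480) (nat_lit 462) (nat_lit 198)) (XT.lf (nat_lit 76) (nat_lit 550268148) (nat_lit 0) (nat_lit 11877947800) (nat_lit 1824) (nat_lit 12823724656) (nat_lit 375) (nat_lit 5) (nat_lit 374) (nat_lit 5) (nat_lit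 398) (nat_lit 5) (nat_lit 481) (nat_lit 462) (nat_lit 197))))) (XT.nd (nat_lit 390) (nat_lit 0) (nat_lit 228) (XT.nd (nat_lit 78) (nat_lit 0) (nat_lit 76) (XT.lf (nat_lit 76) (nat_lit 13136491659) (nat_lit 0) (nat_lit 919735330) (nat_lit 1824) (nat_lit 11465510250) (nat_lit 375) (nat_lit 5) (nat_lit 374) (nat_lit 5) (nat_lit 398) (nat_lit 5) (nat_lit 482) (nat_lit 462) (nat_lit 196)) (XT.nd (nat_lit 78) (nat_lit 0) (nat_lit 0) (XT.lf (nat_lit 76) (nat_lit 110188006) (nat_lit 0) (nat_lit 15671203425) (nat_lit 1824) (nat_lit 10014248066) (nat_lit 376) (nat_lit 5) (nat_lit 375) (nat_lit 5) (nat_lit 399) (nat_lit 5) (nat_lit 483) (nat_lit 462) (nat_lit 195)) (XT.lf (nat_lit 76) (nat_lit 13015090330) (nat_lit 0) (nat_lit 4612448978) (nat_lit 1824) (nat_lit 8445752412) (nat_lit 376) (nat_lit 5) (nat_lit 375) (nat_lit 5) (nat_lit 399) (nat_lit 5) (nat_lit 484) (nat_lit 462) (nat_lit 194)))) (XT.nd (nat_lit 57486)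 (nat_lit 0) (nat_lit 912) (XT.lf (nat_lit 0) (nat_lit 23758875252) (nat_lit 1748) (nat_lit 451455948) (nat_lit 76) (nat_lit 2722323169) (nat_lit 377) (nat_lit 5) (nat_lit 400) (nat_lit 5) (nat_lit 378) (nat_lit 5) (nat_lit 487) (nat_lit 462) (nat_lit 191)) (XT.nd (nat_lit 78) (nat_lit 0) (nat_lit 0) (XT.lf (nat_lit 0) (nat_lit 9480913114) (nat_lit 1748) (nat_lit 564448095) (nat_lit 1748) (nat_lit 564448095) (nat_lit 389) (nat_lit 3) (nat_lit 412) (nat_lit 3) (nat_lit 412) (nat_lit 5) (nat_lit 463) (nat_lit 463) (nat_lit 214)) (XT.lf (nat_lit 76) (nat_lit 8849574175) (nat_lit 0) (nat_lit 10500544980) (nat_lit 1748) (nat_lit 2077637523) (nat_lit 390) (nat_lit 5) (nat_lit 389) (nat_lit 3) (nat_lit 412) (nat_lit 5) (nat_lit 464) (nat_lit 463) (nat_lit 213))))))))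
noncomputable def xc252 : XT := (XT.nd (nat_lit 1638) (nat_lit 0) (nat_lit 0) (XT.nd (nat_lit 780) (nat_lit 0) (nat_lit 152) (XT.nd (nat_lit 390) (nat_lit 1520) (nat_lit 0) (XT.nd (nat_lit 156) (nat_lit 0) (nat_lit 76) (XT.nd (nat_lit 78) (nat_lit 0) (nat_lit 76) (XT.lf (nat_lit 76) (nat_lit 19041001071) (nat_lit 0) (nat_lit 709035739) (nat_lit 1748) (nat_lit 1889945739) (nat_lit 390) (nat_lit 5) (nat_lit 389) (nat_lit 3) (nat_lit 412) (nat_lit 5) (nat_lit 465) (nat_lit 463) (nat_lit 212)) (XT.lf (nat_lit 76) (nat_lit 7617503265) (nat_lit 0) (nat_lit 12646516061) (nat_lit 1748) (nat_lit 1590314458) (nat_lit 391) (nat_lit 5) (nat_lit 390) (nat_lit 5) (nat_lit 413) (nat_lit 5) (nat_lit 466) (nat_lit 463) (nat_lit 211))) (XT.nd (nat_lit 78) (nat_lit 0) (nat_lit 76) (XT.lf (nat_lit 76) (nat_lit 18066838180) (nat_lit 0) (nat_lit 2739974830) (nat_lit 1748) (nat_lit 1265790538) (nat_lit 391) (nat_lit 5) (nat_lit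 390) (nat_lit 5) (nat_lit 413) (nat_lit 5) (nat_lit 467) (nat_lit 463) (nat_lit 210)) (XT.nd (nat_lit 78) (nat_lit 0) (nat_lit 0) (XT.lf (nat_lit 76) (nat_lit 6464897247) (nat_lit 0) (nat_lit 14981862894) (nat_lit 1748) (nat_lit 846754705) (nat_lit 392) (nat_lit 5) (nat_lit 391) (nat_lit 5) (nat_lit 414) (nat_lit 5) (nat_lit 468) (nat_lit 463) (nat_lit 209)) (XT.lf (nat_lit 76) (nat_lit 17178903145) (nat_lit 0) (nat_lit 4962072311) (nat_lit 1748) (nat_lit 377041580) (nat_lit 392) (nat_lit 5) (nat_lit 391) (nat_lit 5) (nat_lit 414) (nat_lit 5) (nat_lit 469) (nat_lit 463) (nat_lit 208))))) (XT.nd (nat_lit 156) (nat_lit 0) (nat_lit 76) (XT.nd (nat_lit 78) (nat_lit 0) (nat_lit 0) (XT.lf (nat_lit 0) (nat_lit 166965572) (nat_lit 1748) (nat_lit 17352021826) (nat_lit 1824) (nat_lit 5226685822) (nat_lit 369) (nat_lit 5) (nat_lit 392) (nat_lit 5) (nat_lit 393) (nat_lit 5) (nat_lit 470) (nat_lit 463) (nat_lit 207))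 (XT.lf (nat_lit 0) (nat_lit 782403917) (nat_lit 1748) (nat_lit 6601371741) (nat_lit 1824) (nat_lit 15592746965) (nat_lit 369) (nat_lit 5) (nat_lit 392) (nat_lit 5) (nat_lit 393) (nat_lit 5) (nat_lit 471) (nat_lit 463) (nat_lit 206))) (XT.nd (nat_lit 78) (nat_lit 0) (nat_lit 0) (XT.lf (nat_lit 0) (nat_lit 1454961949) (nat_lit 1748) (nat_lit 18810611899) (nat_lit 1824) (nat_lit 2945520842) (nat_lit 370) (nat_lit 5) (nat_lit 393) (nat_lit 5) (nat_lit 394) (nat_lit 5) (nat_lit 472) (nat_lit 463) (nat_lit 205)) (XT.nd (nat_lit 78) (nat_lit 0) (nat_lit 76) (XT.lf (nat_lit 0) (nat_lit 2231254610) (nat_lit 1748) (nat_lit 7788882737) (nat_lit 1824) (nat_lit 13428417038) (nat_lit 370) (nat_lit 5) (nat_lit 393) (nat_lit 5) (nat_lit 394) (nat_lit 5) (nat_lit 473) (nat_lit 463) (nat_lit 204)) (XT.lf (nat_lit 0) (nat_lit 3045584601) (nat_lit 1748) (nat_lit 20196213415) (nat_lit 1824) (nat_lit 448516851) (nat_lit 371)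 (nat_lit 5) (nat_lit 394) (nat_lit 5) (nat_lit 395) (nat_lit 5) (nat_lit 474) (nat_lit 463) (nat_lit 203)))))) (XT.nd (nat_lit 390) (nat_lit 0) (nat_lit 152) (XT.nd (nat_lit 156) (nat_lit 0) (nat_lit 76) (XT.nd (nat_lit 78) (nat_lit 0) (nat_lit 0) (XT.lf (nat_lit 0) (nat_lit 3992084021) (nat_lit 1748) (nat_lit 8896336508) (nat_lit 1824) (nat_lit 11046174158) (nat_lit 371) (nat_lit 5) (nat_lit 394) (nat_lit 5) (nat_lit 395) (nat_lit 5) (nat_lit 475) (nat_lit 463) (nat_lit 202)) (XT.lf (nat_lit 76) (nat_lit 2662404562) (nat_lit 0) (nat_lit 2309366195) (nat_lit 1824) (nat_lit 19211705949) (nat_lit 372) (nat_lit 5) (nat_lit 371) (nat_lit 5) (nat_lit 395) (nat_lit 5) (nat_lit 476) (nat_lit 463) (nat_lit 201))) (XT.nd (nat_lit 78) (nat_lit 0) (nat_lit 0) (XT.lf (nat_lit 0) (nat_lit 6083235239) (nat_lit 1748) (nat_lit 9920796426) (nat_lit 1824) (nat_lit 8431062738) (nat_lit 372) (nat_lit 5) (nat_lit 395) (nat_lit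 5) (nat_lit 396) (nat_lit 5) (nat_lit 477) (nat_lit 463) (nat_lit 200)) (XT.nd (nat_lit 78) (nat_lit 0) (nat_lit 76) (XT.lf (nat_lit 76) (nat_lit 1919298925) (nat_lit 0) (nat_lit 5322467148) (nat_lit 1824) (nat_lit 17449483321) (nat_lit 373) (nat_lit 5) (nat_lit 372) (nat_lit 5) (nat_lit 396) (nat_lit 5) (nat_lit 478) (nat_lit 463) (nat_lit 199)) (XT.lf (nat_lit 0) (nat_lit 8523795167) (nat_lit 1748) (nat_lit 10859258473) (nat_lit 1824) (nat_lit 5567468940) (nat_lit 373) (nat_lit 5) (nat_lit 396) (nat_lit 5) (nat_lit 397) (nat_lit 5) (nat_lit 479) (nat_lit 463) (nat_lit 198))))) (XT.nd (nat_lit 156) (nat_lit 0) (nat_lit 76) (XT.nd (nat_lit 78) (nat_lit 0) (nat_lit 76) (XT.lf (nat_lit 76) (nat_lit 1271035647) (nat_lit 0) (nat_lit 8601117121) (nat_lit 1824) (nat_lit 15342016322) (nat_lit 374) (nat_lit 5) (nat_lit 373) (nat_lit 5) (nat_lit 397) (nat_lit 5) (nat_lit 480) (nat_lit 463) (nat_lit 197)) (XT.lf (nat_lit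 0) (nat_lit 11333624634) (nat_lit 1748) (nat_lit 11708658760) (nat_lit 1824) (nat_lit 2439083779) (nat_lit 374) (nat_lit 5) (nat_lit 397) (nat_lit 5) (nat_lit 398) (nat_lit 5) (nat_lit 481) (nat_lit 463) (nat_lit 196))) (XT.nd (nat_lit 78) (nat_lit 0) (nat_lit 0) (XT.lf (nat_lit 76) (nat_lit 720919535) (nat_lit 0) (nat_lit 12162336153) (nat_lit 1824) (nat_lit 12869476488) (nat_lit 375) (nat_lit 5) (nat_lit 374) (nat_lit 5) (nat_lit 398) (nat_lit 5) (nat_lit 482) (nat_lit 463) (nat_lit 195)) (XT.nd (nat_lit 78) (nat_lit 0) (nat_lit 76) (XT.lf (nat_lit 76) (nat_lit 13555737202) (nat_lit 0) (nat_lit 984041210) (nat_lit 1824) (nat_lit 11488229610) (nat_lit 375) (nat_lit 5) (nat_lit 374) (nat_lit 5) (nat_lit 398) (nat_lit 5) (nat_lit 483) (nat_lit 463) (nat_lit 194)) (XT.lf (nat_lit 76) (nat_lit 272310459) (nat_lit 0) (nat_lit 16023912586) (nat_lit 1824) (nat_lit 10011232005) (nat_lit 376) (nat_lit 5) (nat_lit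 375) (nat_lit 5) (nat_lit 399) (nat_lit 5) (nat_lit 484) (nat_lit 463) (nat_lit 193))))))) (XT.nd (nat_lit 58344) (nat_lit 0) (nat_lit 76) (XT.nd (nat_lit 57954) (nat_lit 532) (nat_lit 0) (XT.nd (nat_lit 57720) (nat_lit 0) (nat_lit 988) (XT.nd (nat_lit 57642) (nat_lit 0) (nat_lit 988) (XT.lf (nat_lit 0) (nat_lit 20133522319) (nat_lit 1748) (nat_lit 70449657) (nat_lit 1824) (nat_lit 6674893709) (nat_lit 376) (nat_lit 5) (nat_lit 399) (nat_lit 5) (nat_lit 400) (nat_lit 5) (nat_lit 486) (nat_lit 463) (nat_lit 191)) (XT.lf (nat_lit 0) (nat_lit 9810831859) (nat_lit 1748) (nat_lit 504141773) (nat_lit 1748) (nat_lit 504141773) (nat_lit 389) (nat_lit 3) (nat_lit 412) (nat_lit 3) (nat_lit 412) (nat_lit 5) (nat_lit 464) (nat_lit 464) (nat_lit 212))) (XT.nd (nat_lit 78) (nat_lit 0) (nat_lit 0) (XT.lf (nat_lit 76) (nat_lit 9168814183) (nat_lit 0) (nat_lit 10844329912) (nat_lit 1748) (nat_lit 1837482411) (nat_lit 390)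 (nat_lit 5) (nat_lit 389) (nat_lit 3) (nat_lit 412) (nat_lit 5) (nat_lit 465) (nat_lit 464) (nat_lit 211)) (XT.nd (nat_lit 78) (nat_lit 0) (nat_lit 76) (XT.lf (nat_lit 76) (nat_lit 19561280430) (nat_lit 0) (nat_lit 854367466) (nat_lit 1748) (nat_lit 1651560475) (nat_lit 390) (nat_lit 5) (nat_lit 389) (nat_lit 3) (nat_lit 412) (nat_lit 5) (nat_lit 466) (nat_lit 464) (nat_lit 210)) (XT.lf (nat_lit 76) (nat_lit 7914778249) (nat_lit 0) (nat_lit 13019931855) (nat_lit 1748) (nat_lit 1351243696) (nat_lit 391) (nat_lit 5) (nat_lit 390) (nat_lit 5) (nat_lit 413) (nat_lit 5) (nat_lit 467) (nat_lit 464) (nat_lit 209))))) (XT.nd (nat_lit 156) (nat_lit 1596) (nat_lit 0) (XT.nd (nat_lit 78) (nat_lit 0) (nat_lit 76) (XT.lf (nat_lit 76) (nat_lit 18570258196) (nat_lit 0) (nat_lit 2912897339) (nat_lit 1748) (nat_lit 1025540612) (nat_lit 391) (nat_lit 5) (nat_lit 390) (nat_lit 5) (nat_lit 413) (nat_lit 5) (nat_lit 468) (nat_lit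 464) (nat_lit 208)) (XT.lf (nat_lit 76) (nat_lit 6741429785) (nat_lit 0) (nat_lit 15389573790) (nat_lit 1748) (nat_lit 603123104) (nat_lit 392) (nat_lit 5) (nat_lit 391) (nat_lit 5) (nat_lit 414) (nat_lit 5) (nat_lit 469) (nat_lit 464) (nat_lit 207))) (XT.nd (nat_lit 78) (nat_lit 1672) (nat_lit 0) (XT.lf (nat_lit 76) (nat_lit 17666828848) (nat_lit 0) (nat_lit 5167268305) (nat_lit 1748) (nat_lit 129124867) (nat_lit 392) (nat_lit 5) (nat_lit 391) (nat_lit 5) (nat_lit 414) (nat_lit 5) (nat_lit 470) (nat_lit 464) (nat_lit 206)) (XT.nd (nat_lit 78) (nat_lit 0) (nat_lit 0) (XT.lf (nat_lit 0) (nat_lit 417765013) (nat_lit 1748) (nat_lit 17546427306) (nat_lit 1824) (nat_lit 5231301647) (nat_lit 369) (nat_lit 5) (nat_lit 392) (nat_lit 5) (nat_lit 393) (nat_lit 5) (nat_lit 471) (nat_lit 464) (nat_lit 205)) (XT.lf (nat_lit 0) (nat_lit 1040659965) (nat_lit 1748) (nat_lit 6583757061) (nat_lit 1824) (nat_lit 15806643188)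 (nat_lit 369) (nat_lit 5) (nat_lit 392) (nat_lit 5) (nat_lit 393) (nat_lit 5) (nat_lit 472) (nat_lit 464) (nat_lit 204)))))) (XT.nd (nat_lit 390) (nat_lit 0) (nat_lit 152) (XT.nd (nat_lit 156) (nat_lit 0) (nat_lit 76) (XT.nd (nat_lit 78) (nat_lit 0) (nat_lit 0) (XT.lf (nat_lit 0) (nat_lit 1722291954) (nat_lit 1748) (nat_lit 19032666876) (nat_lit 1824) (nat_lit 2915455196) (nat_lit 370) (nat_lit 5) (nat_lit 393) (nat_lit 5) (nat_lit 394) (nat_lit 5) (nat_lit 473) (nat_lit 464) (nat_lit 203)) (XT.lf (nat_lit 0) (nat_lit 2509439277) (nat_lit 1748) (nat_lit 7793525823) (nat_lit 1824) (nat_lit 13609753945) (nat_lit 370) (nat_lit 5) (nat_lit 393) (nat_lit 5) (nat_lit 394) (nat_lit 5) (nat_lit 474) (nat_lit 464) (nat_lit 202))) (XT.nd (nat_lit 78) (nat_lit 0) (nat_lit 0) (XT.lf (nat_lit 0) (nat_lit 3335932870) (nat_lit 1748) (nat_lit 20444747530) (nat_lit 1824) (nat_lit 378719447) (nat_lit 371) (nat_lit 5) (nat_lit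 394) (nat_lit 5) (nat_lit 395) (nat_lit 5) (nat_lit 475) (nat_lit 464) (nat_lit 201)) (XT.nd (nat_lit 78) (nat_lit 0) (nat_lit 0) (XT.lf (nat_lit 0) (nat_lit 4296863521) (nat_lit 1748) (nat_lit 8921919951) (nat_lit 1824) (nat_lit 11189874366) (nat_lit 371) (nat_lit 5) (nat_lit 394) (nat_lit 5) (nat_lit 395) (nat_lit 5) (nat_lit 476) (nat_lit 464) (nat_lit 200)) (XT.lf (nat_lit 76) (nat_lit 2866993683) (nat_lit 0) (nat_lit 2425722371) (nat_lit 1824) (nat_lit 19369872552) (nat_lit 372) (nat_lit 5) (nat_lit 371) (nat_lit 5) (nat_lit 395) (nat_lit 5) (nat_lit 477) (nat_lit 464) (nat_lit 199))))) (XT.nd (nat_lit 234) (nat_lit 0) (nat_lit 76) (XT.nd (nat_lit 78) (nat_lit 0) (nat_lit 0) (XT.lf (nat_lit 0) (nat_lit 6421619844) (nat_lit 1748) (nat_lit 9965923878) (nat_lit 1824) (nat_lit 8531793233) (nat_lit 372) (nat_lit 5) (nat_lit 395) (nat_lit 5) (nat_lit 396) (nat_lit 5) (nat_lit 478) (nat_lit 464) (nat_lit 198))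 (XT.nd (nat_lit 78) (nat_lit 0) (nat_lit 76) (XT.lf (nat_lit 76) (nat_lit 2109964904) (nat_lit 0) (nat_lit 5490095684) (nat_lit 1824) (nat_lit 17580622121) (nat_lit 373) (nat_lit 5) (nat_lit 372) (nat_lit 5) (nat_lit 396) (nat_lit 5) (nat_lit 479) (nat_lit 464) (nat_lit 197)) (XT.lf (nat_lit 0) (nat_lit 8903155362) (nat_lit 1748) (nat_lit 10922454536) (nat_lit 1824) (nat_lit 5619625362) (nat_lit 373) (nat_lit 5) (nat_lit 396) (nat_lit 5) (nat_lit 397) (nat_lit 5) (nat_lit 480) (nat_lit 464) (nat_lit 196)))) (XT.nd (nat_lit 78) (nat_lit 0) (nat_lit 76) (XT.lf (nat_lit 76) (nat_lit 1449432380) (nat_lit 0) (nat_lit 8825945186) (nat_lit 1824) (nat_lit 15438841538) (nat_lit 374) (nat_lit 5) (nat_lit 373) (nat_lit 5) (nat_lit 397) (nat_lit 5) (nat_lit 481) (nat_lit 464) (nat_lit 195)) (XT.nd (nat_lit 78) (nat_lit 0) (nat_lit 0) (XT.lf (nat_lit 0) (nat_lit 11761707806) (nat_lit 1748) (nat_lit 11788368957) (nat_lit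 1824) (nat_lit 2436774115) (nat_lit 374) (nat_lit 5) (nat_lit 397) (nat_lit 5) (nat_lit 398) (nat_lit 5) (nat_lit 482) (nat_lit 464) (nat_lit 194)) (XT.lf (nat_lit 76) (nat_lit 888784700) (nat_lit 0) (nat_lit 12450593830) (nat_lit 1824) (nat_lit 12924325974) (nat_lit 375) (nat_lit 5) (nat_lit 374) (nat_lit 5) (nat_lit 398) (nat_lit 5) (nat_lit 483) (nat_lit 464) (nat_lit 193))))))))
noncomputable def xc253 : XT := (XT.nd (nat_lit 59358) (nat_lit 0) (nat_lit 0) (XT.nd (nat_lit 58500) (nat_lit 0) (nat_lit 152) (XT.nd (nat_lit 58110) (nat_lit 532) (nat_lit 0) (XT.nd (nat_lit 57876) (nat_lit 0) (nat_lit 1064) (XT.nd (nat_lit 57798) (nat_lit 0) (nat_lit 1064) (XT.lf (nat_lit 76) (nat_lit 431465523) (nat_lit 0) (nat_lit 16382150443) (nat_lit 1824) (nat_lit 10016050049) (nat_lit 376) (nat_lit 5) (nat_lit 375) (nat_lit 5) (nat_lit 399) (nat_lit 5) (nat_lit 485) (nat_lit 464) (nat_lit 191)) (XT.lf (nat_lit 0) (nat_lit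 10141900940) (nat_lit 1748) (nat_lit 445409457) (nat_lit 1748) (nat_lit 445409457) (nat_lit 389) (nat_lit 3) (nat_lit 412) (nat_lit 3) (nat_lit 412) (nat_lit 5) (nat_lit 465) (nat_lit 465) (nat_lit 210))) (XT.nd (nat_lit 78) (nat_lit 0) (nat_lit 0) (XT.lf (nat_lit 76) (nat_lit 9488915308) (nat_lit 0) (nat_lit 11189795934) (nat_lit 1748) (nat_lit 1603463256) (nat_lit 390) (nat_lit 5) (nat_lit 389) (nat_lit 3) (nat_lit 412) (nat_lit 5) (nat_lit 466) (nat_lit 465) (nat_lit 209)) (XT.nd (nat_lit 78) (nat_lit 0) (nat_lit 76) (XT.lf (nat_lit 76) (nat_lit 20086550001) (nat_lit 0) (nat_lit 997513074) (nat_lit 1748) (nat_lit 1419132074) (nat_lit 390) (nat_lit 5) (nat_lit 389) (nat_lit 3) (nat_lit 412) (nat_lit 5) (nat_lit 467) (nat_lit 465) (nat_lit 208)) (XT.lf (nat_lit 76) (nat_lit 8212371120) (nat_lit 0) (nat_lit 13396137367) (nat_lit 1748) (nat_lit 1117910005) (nat_lit 391) (nat_lit 5) (nat_lit 390) (nat_lit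 5) (nat_lit 413) (nat_lit 5) (nat_lit 468) (nat_lit 465) (nat_lit 207))))) (XT.nd (nat_lit 156) (nat_lit 1672) (nat_lit 0) (XT.nd (nat_lit 78) (nat_lit 0) (nat_lit 76) (XT.lf (nat_lit 76) (nat_lit 19078229347) (nat_lit 0) (nat_lit 3084691438) (nat_lit 1748) (nat_lit 790797929) (nat_lit 391) (nat_lit 5) (nat_lit 390) (nat_lit 5) (nat_lit 413) (nat_lit 5) (nat_lit 469) (nat_lit 465) (nat_lit 206)) (XT.lf (nat_lit 76) (nat_lit 7017775675) (nat_lit 0) (nat_lit 15801242273) (nat_lit 1748) (nat_lit 364736993) (nat_lit 392) (nat_lit 5) (nat_lit 391) (nat_lit 5) (nat_lit 414) (nat_lit 5) (nat_lit 470) (nat_lit 465) (nat_lit 205))) (XT.nd (nat_lit 78) (nat_lit 0) (nat_lit 76) (XT.lf (nat_lit 0) (nat_lit 112337545) (nat_lit 1748) (nat_lit 5259362485) (nat_lit 1824) (nat_lit 18045816481) (nat_lit 368) (nat_lit 5) (nat_lit 391) (nat_lit 5) (nat_lit 392) (nat_lit 5) (nat_lit 471) (nat_lit 465) (nat_lit 204)) (XT.nd (nat_lit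 78) (nat_lit 0) (nat_lit 0) (XT.lf (nat_lit 0) (nat_lit 663971264) (nat_lit 1748) (nat_lit 17750647897) (nat_lit 1824) (nat_lit 5239889723) (nat_lit 369) (nat_lit 5) (nat_lit 392) (nat_lit 5) (nat_lit 393) (nat_lit 5) (nat_lit 472) (nat_lit 465) (nat_lit 203)) (XT.lf (nat_lit 0) (nat_lit 1294660372) (nat_lit 1748) (nat_lit 6571600874) (nat_lit 1824) (nat_lit 16028621192) (nat_lit 369) (nat_lit 5) (nat_lit 392) (nat_lit 5) (nat_lit 393) (nat_lit 5) (nat_lit 473) (nat_lit 465) (nat_lit 202)))))) (XT.nd (nat_lit 390) (nat_lit 0) (nat_lit 152) (XT.nd (nat_lit 156) (nat_lit 0) (nat_lit 76) (XT.nd (nat_lit 78) (nat_lit 0) (nat_lit 0) (XT.lf (nat_lit 0) (nat_lit 1985717768) (nat_lit 1748) (nat_lit 19265149068) (nat_lit 1824) (nat_lit 2888243285) (nat_lit 370) (nat_lit 5) (nat_lit 393) (nat_lit 5) (nat_lit 394) (nat_lit 5) (nat_lit 474) (nat_lit 465) (nat_lit 201)) (XT.lf (nat_lit 0) (nat_lit 2784118234) (nat_lit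 1748) (nat_lit 7804130510) (nat_lit 1824) (nat_lit 13798104892) (nat_lit 370) (nat_lit 5) (nat_lit 393) (nat_lit 5) (nat_lit 394) (nat_lit 5) (nat_lit 475) (nat_lit 465) (nat_lit 200))) (XT.nd (nat_lit 78) (nat_lit 0) (nat_lit 0) (XT.lf (nat_lit 0) (nat_lit 3623178801) (nat_lit 1748) (nat_lit 20704286317) (nat_lit 1824) (nat_lit 310584743) (nat_lit 371) (nat_lit 5) (nat_lit 394) (nat_lit 5) (nat_lit 395) (nat_lit 5) (nat_lit 476) (nat_lit 465) (nat_lit 199)) (XT.nd (nat_lit 78) (nat_lit 0) (nat_lit 0) (XT.lf (nat_lit 0) (nat_lit 4599004002) (nat_lit 1748) (nat_lit 8953930738) (nat_lit 1824) (nat_lit 11339447252) (nat_lit 371) (nat_lit 5) (nat_lit 394) (nat_lit 5) (nat_lit 395) (nat_lit 5) (nat_lit 477) (nat_lit 465) (nat_lit 198)) (XT.lf (nat_lit 76) (nat_lit 3069797828) (nat_lit 0) (nat_lit 2541680928) (nat_lit 1824) (nat_lit 19539980965) (nat_lit 372) (nat_lit 5) (nat_lit 371) (nat_lit 5) (nat_lit 395)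 (nat_lit 5) (nat_lit 478) (nat_lit 465) (nat_lit 197))))) (XT.nd (nat_lit 156) (nat_lit 0) (nat_lit 76) (XT.nd (nat_lit 78) (nat_lit 0) (nat_lit 0) (XT.lf (nat_lit 0) (nat_lit 6758356643) (nat_lit 1748) (nat_lit 10017906257) (nat_lit 1824) (nat_lit 8637174619) (nat_lit 372) (nat_lit 5) (nat_lit 395) (nat_lit 5) (nat_lit 396) (nat_lit 5) (nat_lit 479) (nat_lit 465) (nat_lit 196)) (XT.lf (nat_lit 76) (nat_lit 2298530984) (nat_lit 0) (nat_lit 5658701127) (nat_lit 1824) (nat_lit 17722843113) (nat_lit 373) (nat_lit 5) (nat_lit 372) (nat_lit 5) (nat_lit 396) (nat_lit 5) (nat_lit 480) (nat_lit 465) (nat_lit 195))) (XT.nd (nat_lit 78) (nat_lit 0) (nat_lit 0) (XT.lf (nat_lit 0) (nat_lit 9281991529) (nat_lit 1748) (nat_lit 10992894105) (nat_lit 1824) (nat_lit 5675123446) (nat_lit 373) (nat_lit 5) (nat_lit 396) (nat_lit 5) (nat_lit 397) (nat_lit 5) (nat_lit 481) (nat_lit 465) (nat_lit 194)) (XT.nd (nat_lit 78) (nat_lit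 0) (nat_lit 76) (XT.lf (nat_lit 76) (nat_lit 1625456803) (nat_lit 0) (nat_lit 9053219301) (nat_lit 1824) (nat_lit 15545758402) (nat_lit 374) (nat_lit 5) (nat_lit 373) (nat_lit 5) (nat_lit 397) (nat_lit 5) (nat_lit 482) (nat_lit 465) (nat_lit 193)) (XT.lf (nat_lit 0) (nat_lit 12190531619) (nat_lit 1748) (nat_lit 11875671344) (nat_lit 1824) (nat_lit 2436402198) (nat_lit 374) (nat_lit 5) (nat_lit 397) (nat_lit 5) (nat_lit 398) (nat_lit 5) (nat_lit 483) (nat_lit 465) (nat_lit 192))))))) (XT.nd (nat_lit 58578) (nat_lit 0) (nat_lit 152) (XT.nd (nat_lit 58188) (nat_lit 456) (nat_lit 0) (XT.nd (nat_lit 57954) (nat_lit 0) (nat_lit 1140) (XT.nd (nat_lit 57876) (nat_lit 0) (nat_lit 1140) (XT.lf (nat_lit 76) (nat_lit 14401432082) (nat_lit 0) (nat_lit 1111222257) (nat_lit 1824) (nat_lit 11558956035) (nat_lit 375) (nat_lit 5) (nat_lit 374) (nat_lit 5) (nat_lit 398) (nat_lit 5) (nat_lit 485) (nat_lit 465) (nat_lit 190))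 (XT.lf (nat_lit 0) (nat_lit 10474354918) (nat_lit 1748) (nat_lit 388174670) (nat_lit 1748) (nat_lit 388174670) (nat_lit 389) (nat_lit 3) (nat_lit 412) (nat_lit 3) (nat_lit 412) (nat_lit 5) (nat_lit 466) (nat_lit 466) (nat_lit 208))) (XT.nd (nat_lit 78) (nat_lit 0) (nat_lit 0) (XT.lf (nat_lit 76) (nat_lit 9810109263) (nat_lit 0) (nat_lit 11537178381) (nat_lit 1748) (nat_lit 1375278001) (nat_lit 390) (nat_lit 5) (nat_lit 389) (nat_lit 3) (nat_lit 412) (nat_lit 5) (nat_lit 467) (nat_lit 466) (nat_lit 207)) (XT.nd (nat_lit 78) (nat_lit 0) (nat_lit 76) (XT.lf (nat_lit 76) (nat_lit 20617119872) (nat_lit 0) (nat_lit 1138626599) (nat_lit 1748) (nat_lit 1192363225) (nat_lit 390) (nat_lit 5) (nat_lit 389) (nat_lit 3) (nat_lit 412) (nat_lit 5) (nat_lit 468) (nat_lit 466) (nat_lit 206)) (XT.lf (nat_lit 76) (nat_lit 8510506765) (nat_lit 0) (nat_lit 13775370068) (nat_lit 1748) (nat_lit 890019680) (nat_lit 391) (nat_lit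 5) (nat_lit 390) (nat_lit 5) (nat_lit 413) (nat_lit 5) (nat_lit 469) (nat_lit 466) (nat_lit 205))))) (XT.nd (nat_lit 156) (nat_lit 1672) (nat_lit 0) (XT.nd (nat_lit 78) (nat_lit 0) (nat_lit 76) (XT.lf (nat_lit 76) (nat_lit 19591056897) (nat_lit 0) (nat_lit 3255512672) (nat_lit 1748) (nat_lit 561272197) (nat_lit 391) (nat_lit 5) (nat_lit 390) (nat_lit 5) (nat_lit 413) (nat_lit 5) (nat_lit 470) (nat_lit 466) (nat_lit 204)) (XT.lf (nat_lit 76) (nat_lit 7294153194) (nat_lit 0) (nat_lit 16217110455) (nat_lit 1748) (nat_lit 131308383) (nat_lit 392) (nat_lit 5) (nat_lit 391) (nat_lit 5) (nat_lit 414) (nat_lit 5) (nat_lit 471) (nat_lit 466) (nat_lit 203))) (XT.nd (nat_lit 78) (nat_lit 0) (nat_lit 76) (XT.lf (nat_lit 0) (nat_lit 347492355) (nat_lit 1748) (nat_lit 5227964364) (nat_lit 1824) (nat_lit 18305616724) (nat_lit 368) (nat_lit 5) (nat_lit 391) (nat_lit 5) (nat_lit 392) (nat_lit 5) (nat_lit 472) (nat_lit 466)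 (nat_lit 202)) (XT.nd (nat_lit 78) (nat_lit 0) (nat_lit 0) (XT.lf (nat_lit 0) (nat_lit 905865598) (nat_lit 1748) (nat_lit 17964649749) (nat_lit 1824) (nat_lit 5252378831) (nat_lit 369) (nat_lit 5) (nat_lit 392) (nat_lit 5) (nat_lit 393) (nat_lit 5) (nat_lit 473) (nat_lit 466) (nat_lit 201)) (XT.lf (nat_lit 0) (nat_lit 1544685842) (nat_lit 1748) (nat_lit 6564786709) (nat_lit 1824) (nat_lit 16258694903) (nat_lit 369) (nat_lit 5) (nat_lit 392) (nat_lit 5) (nat_lit 393) (nat_lit 5) (nat_lit 474) (nat_lit 466) (nat_lit 200)))))) (XT.nd (nat_lit 390) (nat_lit 0) (nat_lit 152) (XT.nd (nat_lit 156) (nat_lit 0) (nat_lit 76) (XT.nd (nat_lit 78) (nat_lit 0) (nat_lit 0) (XT.lf (nat_lit 0) (nat_lit 2245520527) (nat_lit 1748) (nat_lit 19508034569) (nat_lit 1824) (nat_lit 2863808022) (nat_lit 370) (nat_lit 5) (nat_lit 393) (nat_lit 5) (nat_lit 394) (nat_lit 5) (nat_lit 475) (nat_lit 466) (nat_lit 199)) (XT.lf (nat_lit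 0) (nat_lit 3055573543) (nat_lit 1748) (nat_lit 7820588140) (nat_lit 1824) (nat_lit 13993478628) (nat_lit 370) (nat_lit 5) (nat_lit 393) (nat_lit 5) (nat_lit 394) (nat_lit 5) (nat_lit 476) (nat_lit 466) (nat_lit 198))) (XT.nd (nat_lit 78) (nat_lit 0) (nat_lit 0) (XT.lf (nat_lit 0) (nat_lit 3907606309) (nat_lit 1748) (nat_lit 20974815561) (nat_lit 1824) (nat_lit 244027221) (nat_lit 371) (nat_lit 5) (nat_lit 394) (nat_lit 5) (nat_lit 395) (nat_lit 5) (nat_lit 477) (nat_lit 466) (nat_lit 197)) (XT.nd (nat_lit 78) (nat_lit 0) (nat_lit 0) (XT.lf (nat_lit 0) (nat_lit 4898791858) (nat_lit 1748) (nat_lit 8992267704) (nat_lit 1824) (nat_lit 11494893828) (nat_lit 371) (nat_lit 5) (nat_lit 394) (nat_lit 5) (nat_lit 395) (nat_lit 5) (nat_lit 478) (nat_lit 466) (nat_lit 196)) (XT.lf (nat_lit 76) (nat_lit 3271009502) (nat_lit 0) (nat_lit 2657339720) (nat_lit 1824) (nat_lit 19721929144) (nat_lit 372) (nat_lit 5) (nat_lit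 371) (nat_lit 5) (nat_lit 395) (nat_lit 5) (nat_lit 479) (nat_lit 466) (nat_lit 195))))) (XT.nd (nat_lit 312) (nat_lit 0) (nat_lit 152) (XT.nd (nat_lit 78) (nat_lit 0) (nat_lit 0) (XT.lf (nat_lit 0) (nat_lit 7093739464) (nat_lit 1748) (nat_lit 10076649524) (nat_lit 1824) (nat_lit 8747197543) (nat_lit 372) (nat_lit 5) (nat_lit 395) (nat_lit 5) (nat_lit 396) (nat_lit 5) (nat_lit 480) (nat_lit 466) (nat_lit 194)) (XT.nd (nat_lit 78) (nat_lit 0) (nat_lit 76) (XT.lf (nat_lit 76) (nat_lit 2485184786) (nat_lit 0) (nat_lit 5828395267) (nat_lit 1824) (nat_lit 17876039449) (nat_lit 373) (nat_lit 5) (nat_lit 372) (nat_lit 5) (nat_lit 396) (nat_lit 5) (nat_lit 481) (nat_lit 466) (nat_lit 193)) (XT.lf (nat_lit 0) (nat_lit 9660608156) (nat_lit 1748) (nat_lit 11070489855) (nat_lit 1824) (nat_lit 5733940772) (nat_lit 373) (nat_lit 5) (nat_lit 396) (nat_lit 5) (nat_lit 397) (nat_lit 5) (nat_lit 482) (nat_lit 466) (nat_lit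 192)))) (XT.nd (nat_lit 58032) (nat_lit 0) (nat_lit 1140) (XT.lf (nat_lit 0) (nat_lit 12620414586) (nat_lit 1748) (nat_lit 11970484855) (nat_lit 1824) (nat_lit 2437929742) (nat_lit 374) (nat_lit 5) (nat_lit 397) (nat_lit 5) (nat_lit 398) (nat_lit 5) (nat_lit 484) (nat_lit 466) (nat_lit 190)) (XT.nd (nat_lit 78) (nat_lit 0) (nat_lit 0) (XT.lf (nat_lit 0) (nat_lit 10808424830) (nat_lit 1748) (nat_lit 332363601) (nat_lit 1748) (nat_lit 332363601) (nat_lit 389) (nat_lit 3) (nat_lit 412) (nat_lit 3) (nat_lit 412) (nat_lit 5) (nat_lit 467) (nat_lit 467) (nat_lit 206)) (XT.lf (nat_lit 76) (nat_lit 10132624067) (nat_lit 0) (nat_lit 11886709462) (nat_lit 1748) (nat_lit 1152635042) (nat_lit 390) (nat_lit 5) (nat_lit 389) (nat_lit 3) (nat_lit 412) (nat_lit 5) (nat_lit 468) (nat_lit 467) (nat_lit 205))))))))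
noncomputable def xc254 : XT := (XT.nd (nat_lit 59670) (nat_lit 76) (nat_lit 0) (XT.nd (nat_lit 780) (nat_lit 0) (nat_lit 228) (XT.nd (nat_lit 390) (nat_lit 0) (nat_lit 76) (XT.nd (nat_lit 156) (nat_lit 1596) (nat_lit 0) (XT.nd (nat_lit 78) (nat_lit 0) (nat_lit 76) (XT.lf (nat_lit 76) (nat_lit 21153298171) (nat_lit 0) (nat_lit 1277857477) (nat_lit 1748) (nat_lit 970966843) (nat_lit 390) (nat_lit 5) (nat_lit 389) (nat_lit 3) (nat_lit 412) (nat_lit 5) (nat_lit 469) (nat_lit 467) (nat_lit 204)) (XT.lf (nat_lit 76) (nat_lit 8809406080) (nat_lit 0) (nat_lit 14157865121) (nat_lit 1748) (nat_lit 667289005) (nat_lit 391) (nat_lit 5) (nat_lit 390) (nat_lit 5) (nat_lit 413) (nat_lit 5) (nat_lit 470) (nat_lit 467) (nat_lit 203))) (XT.nd (nat_lit 78) (nat_lit 1672) (nat_lit 0) (XT.lf (nat_lit 76) (nat_lit 20109043898) (nat_lit 0) (nat_lit 3425512780) (nat_lit 1748) (nat_lit 336682867) (nat_lit 391) (nat_lit 5) (nat_lit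 390) (nat_lit 5) (nat_lit 413) (nat_lit 5) (nat_lit 471) (nat_lit 467) (nat_lit 202)) (XT.nd (nat_lit 78) (nat_lit 0) (nat_lit 0) (XT.lf (nat_lit 0) (nat_lit 96163258) (nat_lit 1748) (nat_lit 16540610397) (nat_lit 1824) (nat_lit 7473967798) (nat_lit 368) (nat_lit 5) (nat_lit 391) (nat_lit 5) (nat_lit 392) (nat_lit 5) (nat_lit 472) (nat_lit 467) (nat_lit 201)) (XT.lf (nat_lit 0) (nat_lit 578306157) (nat_lit 1748) (nat_lit 5201242057) (nat_lit 1824) (nat_lit 18574539432) (nat_lit 368) (nat_lit 5) (nat_lit 391) (nat_lit 5) (nat_lit 392) (nat_lit 5) (nat_lit 473) (nat_lit 467) (nat_lit 200))))) (XT.nd (nat_lit 156) (nat_lit 0) (nat_lit 76) (XT.nd (nat_lit 78) (nat_lit 0) (nat_lit 0) (XT.lf (nat_lit 0) (nat_lit 1143720423) (nat_lit 1748) (nat_lit 18188407271) (nat_lit 1824) (nat_lit 5268702180) (nat_lit 369) (nat_lit 5) (nat_lit 392) (nat_lit 5) (nat_lit 393) (nat_lit 5) (nat_lit 474) (nat_lit 467) (nat_lit 199))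 (XT.lf (nat_lit 0) (nat_lit 1791008494) (nat_lit 1748) (nat_lit 6563204528) (nat_lit 1824) (nat_lit 16496884265) (nat_lit 369) (nat_lit 5) (nat_lit 392) (nat_lit 5) (nat_lit 393) (nat_lit 5) (nat_lit 475) (nat_lit 467) (nat_lit 198))) (XT.nd (nat_lit 78) (nat_lit 0) (nat_lit 0) (XT.lf (nat_lit 0) (nat_lit 2501973040) (nat_lit 1748) (nat_lit 19761308025) (nat_lit 1824) (nat_lit 2842075984) (nat_lit 370) (nat_lit 5) (nat_lit 393) (nat_lit 5) (nat_lit 394) (nat_lit 5) (nat_lit 476) (nat_lit 467) (nat_lit 197)) (XT.nd (nat_lit 78) (nat_lit 0) (nat_lit 76) (XT.lf (nat_lit 0) (nat_lit 3324079232) (nat_lit 1748) (nat_lit 7842796730) (nat_lit 1824) (nat_lit 14195889183) (nat_lit 370) (nat_lit 5) (nat_lit 393) (nat_lit 5) (nat_lit 394) (nat_lit 5) (nat_lit 477) (nat_lit 467) (nat_lit 196)) (XT.lf (nat_lit 0) (nat_lit 4189491549) (nat_lit 1748) (nat_lit 21256329863) (nat_lit 1824) (nat_lit 178964266) (nat_lit 371)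 (nat_lit 5) (nat_lit 394) (nat_lit 5) (nat_lit 395) (nat_lit 5) (nat_lit 478) (nat_lit 467) (nat_lit 195)))))) (XT.nd (nat_lit 58500) (nat_lit 0) (nat_lit 1368) (XT.nd (nat_lit 156) (nat_lit 0) (nat_lit 76) (XT.nd (nat_lit 78) (nat_lit 0) (nat_lit 0) (XT.lf (nat_lit 0) (nat_lit 5196506042) (nat_lit 1748) (nat_lit 9036836579) (nat_lit 1824) (nat_lit 11656219646) (nat_lit 371) (nat_lit 5) (nat_lit 394) (nat_lit 5) (nat_lit 395) (nat_lit 5) (nat_lit 479) (nat_lit 467) (nat_lit 194)) (XT.lf (nat_lit 76) (nat_lit 3470816195) (nat_lit 0) (nat_lit 2772794447) (nat_lit 1824) (nat_lit 19915626242) (nat_lit 372) (nat_lit 5) (nat_lit 371) (nat_lit 5) (nat_lit 395) (nat_lit 5) (nat_lit 480) (nat_lit 467) (nat_lit 193))) (XT.nd (nat_lit 156) (nat_lit 0) (nat_lit 76) (XT.lf (nat_lit 0) (nat_lit 7428055322) (nat_lit 1748) (nat_lit 10142066733) (nat_lit 1824) (nat_lit 8861856442) (nat_lit 372) (nat_lit 5) (nat_lit 395)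 (nat_lit 5) (nat_lit 396) (nat_lit 5) (nat_lit 481) (nat_lit 467) (nat_lit 192)) (XT.nd (nat_lit 78) (nat_lit 0) (nat_lit 0) (XT.lf (nat_lit 0) (nat_lit 10039303592) (nat_lit 1748) (nat_lit 11155161732) (nat_lit 1824) (nat_lit 5796057935) (nat_lit 373) (nat_lit 5) (nat_lit 396) (nat_lit 5) (nat_lit 397) (nat_lit 5) (nat_lit 483) (nat_lit 467) (nat_lit 190)) (XT.lf (nat_lit 76) (nat_lit 1971116307) (nat_lit 0) (nat_lit 9515619343) (nat_lit 1824) (nat_lit 15789417705) (nat_lit 374) (nat_lit 5) (nat_lit 373) (nat_lit 5) (nat_lit 397) (nat_lit 5) (nat_lit 484) (nat_lit 467) (nat_lit 189))))) (XT.nd (nat_lit 156) (nat_lit 0) (nat_lit 0) (XT.nd (nat_lit 78) (nat_lit 0) (nat_lit 0) (XT.lf (nat_lit 0) (nat_lit 11144338437) (nat_lit 1748) (nat_lit 277904987) (nat_lit 1748) (nat_lit 277904987) (nat_lit 389) (nat_lit 3) (nat_lit 412) (nat_lit 3) (nat_lit 412) (nat_lit 5) (nat_lit 468) (nat_lit 468) (nat_lit 204)) (XT.lf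 (nat_lit 76) (nat_lit 10456684294) (nat_lit 0) (nat_lit 12238618500) (nat_lit 1748) (nat_lit 935252794) (nat_lit 390) (nat_lit 5) (nat_lit 389) (nat_lit 3) (nat_lit 412) (nat_lit 5) (nat_lit 469) (nat_lit 468) (nat_lit 203))) (XT.nd (nat_lit 78) (nat_lit 0) (nat_lit 76) (XT.lf (nat_lit 76) (nat_lit 21695391336) (nat_lit 0) (nat_lit 1415350753) (nat_lit 1748) (nat_lit 754665643) (nat_lit 390) (nat_lit 5) (nat_lit 389) (nat_lit 3) (nat_lit 412) (nat_lit 5) (nat_lit 470) (nat_lit 468) (nat_lit 202)) (XT.nd (nat_lit 78) (nat_lit 0) (nat_lit 0) (XT.lf (nat_lit 76) (nat_lit 9109286224) (nat_lit 0) (nat_lit 14543855614) (nat_lit 1748) (nat_lit 449443830) (nat_lit 391) (nat_lit 5) (nat_lit 390) (nat_lit 5) (nat_lit 413) (nat_lit 5) (nat_lit 471) (nat_lit 468) (nat_lit 201)) (XT.lf (nat_lit 76) (nat_lit 20632491464) (nat_lit 0) (nat_lit 3594839890) (nat_lit 1748) (nat_lit 116758726) (nat_lit 391) (nat_lit 5) (nat_lit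 390) (nat_lit 5) (nat_lit 413) (nat_lit 5) (nat_lit 472) (nat_lit 468) (nat_lit 200))))))) (XT.nd (nat_lit 59046) (nat_lit 76) (nat_lit 0) (XT.nd (nat_lit 390) (nat_lit 0) (nat_lit 152) (XT.nd (nat_lit 156) (nat_lit 0) (nat_lit 76) (XT.nd (nat_lit 78) (nat_lit 0) (nat_lit 0) (XT.lf (nat_lit 0) (nat_lit 317560989) (nat_lit 1748) (nat_lit 16742715160) (nat_lit 1824) (nat_lit 7528163207) (nat_lit 368) (nat_lit 5) (nat_lit 391) (nat_lit 5) (nat_lit 392) (nat_lit 5) (nat_lit 473) (nat_lit 468) (nat_lit 199)) (XT.lf (nat_lit 0) (nat_lit 805043325) (nat_lit 1748) (nat_lit 5179083129) (nat_lit 1824) (nat_lit 18852614586) (nat_lit 368) (nat_lit 5) (nat_lit 391) (nat_lit 5) (nat_lit 392) (nat_lit 5) (nat_lit 474) (nat_lit 468) (nat_lit 198))) (XT.nd (nat_lit 78) (nat_lit 0) (nat_lit 0) (XT.lf (nat_lit 0) (nat_lit 1377799669) (nat_lit 1748) (nat_lit 18421902950) (nat_lit 1824) (nat_lit 5288797266) (nat_lit 369) (nat_lit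 5) (nat_lit 392) (nat_lit 5) (nat_lit 393) (nat_lit 5) (nat_lit 475) (nat_lit 468) (nat_lit 197)) (XT.nd (nat_lit 78) (nat_lit 0) (nat_lit 76) (XT.lf (nat_lit 0) (nat_lit 2033892230) (nat_lit 1748) (nat_lit 6566750515) (nat_lit 1824) (nat_lit 16743215129) (nat_lit 369) (nat_lit 5) (nat_lit 392) (nat_lit 5) (nat_lit 393) (nat_lit 5) (nat_lit 476) (nat_lit 468) (nat_lit 196)) (XT.lf (nat_lit 0) (nat_lit 2755340165) (nat_lit 1748) (nat_lit 20024962448) (nat_lit 1824) (nat_lit 2822977291) (nat_lit 370) (nat_lit 5) (nat_lit 393) (nat_lit 5) (nat_lit 394) (nat_lit 5) (nat_lit 477) (nat_lit 468) (nat_lit 195))))) (XT.nd (nat_lit 156) (nat_lit 0) (nat_lit 76) (XT.nd (nat_lit 78) (nat_lit 0) (nat_lit 76) (XT.lf (nat_lit 0) (nat_lit 3589901665) (nat_lit 1748) (nat_lit 7870660766) (nat_lit 1824) (nat_lit 14405355777) (nat_lit 370) (nat_lit 5) (nat_lit 393) (nat_lit 5) (nat_lit 394) (nat_lit 5) (nat_lit 478) (nat_lit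 468) (nat_lit 194)) (XT.lf (nat_lit 0) (nat_lit 4469103289) (nat_lit 1748) (nat_lit 21548832461) (nat_lit 1824) (nat_lit 115316043) (nat_lit 371) (nat_lit 5) (nat_lit 394) (nat_lit 5) (nat_lit 395) (nat_lit 5) (nat_lit 479) (nat_lit 468) (nat_lit 193))) (XT.nd (nat_lit 78) (nat_lit 0) (nat_lit 0) (XT.lf (nat_lit 0) (nat_lit 5492418426) (nat_lit 1748) (nat_lit 9087549781) (nat_lit 1824) (nat_lit 11823434717) (nat_lit 371) (nat_lit 5) (nat_lit 394) (nat_lit 5) (nat_lit 395) (nat_lit 5) (nat_lit 480) (nat_lit 468) (nat_lit 192)) (XT.nd (nat_lit 156) (nat_lit 0) (nat_lit 76) (XT.lf (nat_lit 76) (nat_lit 3669400630) (nat_lit 0) (nat_lit 2888138775) (nat_lit 1824) (nat_lit 20120992319) (nat_lit 372) (nat_lit 5) (nat_lit 371) (nat_lit 5) (nat_lit 395) (nat_lit 5) (nat_lit 481) (nat_lit 468) (nat_lit 191)) (XT.lf (nat_lit 76) (nat_lit 2853480453) (nat_lit 0) (nat_lit 6171490168) (nat_lit 1824) (nat_lit 18214983586)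 (nat_lit 373) (nat_lit 5) (nat_lit 372) (nat_lit 5) (nat_lit 396) (nat_lit 5) (nat_lit 483) (nat_lit 468) (nat_lit 189)))))) (XT.nd (nat_lit 390) (nat_lit 0) (nat_lit 76) (XT.nd (nat_lit 156) (nat_lit 1672) (nat_lit 0) (XT.nd (nat_lit 78) (nat_lit 0) (nat_lit 0) (XT.lf (nat_lit 0) (nat_lit 11482320468) (nat_lit 1748) (nat_lit 224730018) (nat_lit 1748) (nat_lit 224730018) (nat_lit 389) (nat_lit 3) (nat_lit 412) (nat_lit 3) (nat_lit 412) (nat_lit 5) (nat_lit 469) (nat_lit 469) (nat_lit 202)) (XT.lf (nat_lit 76) (nat_lit 10782511316) (nat_lit 0) (nat_lit 12593132170) (nat_lit 1748) (nat_lit 722859284) (nat_lit 390) (nat_lit 5) (nat_lit 389) (nat_lit 3) (nat_lit 412) (nat_lit 5) (nat_lit 470) (nat_lit 469) (nat_lit 201))) (XT.nd (nat_lit 78) (nat_lit 1672) (nat_lit 0) (XT.lf (nat_lit 76) (nat_lit 22243704393) (nat_lit 0) (nat_lit 1551247278) (nat_lit 1748) (nat_lit 543191734) (nat_lit 390) (nat_lit 5) (nat_lit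 389) (nat_lit 3) (nat_lit 412) (nat_lit 5) (nat_lit 471) (nat_lit 469) (nat_lit 200)) (XT.nd (nat_lit 78) (nat_lit 1748) (nat_lit 0) (XT.lf (nat_lit 76) (nat_lit 9410360859) (nat_lit 0) (nat_lit 14933572780) (nat_lit 1748) (nat_lit 236219178) (nat_lit 391) (nat_lit 5) (nat_lit 390) (nat_lit 5) (nat_lit 413) (nat_lit 5) (nat_lit 472) (nat_lit 469) (nat_lit 199)) (XT.lf (nat_lit 0) (nat_lit 97467211) (nat_lit 1748) (nat_lit 3665517432) (nat_lit 1824) (nat_lit 21063577780) (nat_lit 367) (nat_lit 5) (nat_lit 390) (nat_lit 5) (nat_lit 391) (nat_lit 5) (nat_lit 473) (nat_lit 469) (nat_lit 198))))) (XT.nd (nat_lit 234) (nat_lit 0) (nat_lit 76) (XT.nd (nat_lit 78) (nat_lit 0) (nat_lit 0) (XT.lf (nat_lit 0) (nat_lit 534864213) (nat_lit 1748) (nat_lit 16953859885) (nat_lit 1824) (nat_lit 7587142515) (nat_lit 368) (nat_lit 5) (nat_lit 391) (nat_lit 5) (nat_lit 392) (nat_lit 5) (nat_lit 474) (nat_lit 469) (nat_lit 197))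 (XT.nd (nat_lit 78) (nat_lit 0) (nat_lit 76) (XT.lf (nat_lit 0) (nat_lit 1027959882) (nat_lit 1748) (nat_lit 5161380891) (nat_lit 1824) (nat_lit 19139878686) (nat_lit 368) (nat_lit 5) (nat_lit 391) (nat_lit 5) (nat_lit 392) (nat_lit 5) (nat_lit 475) (nat_lit 469) (nat_lit 196)) (XT.lf (nat_lit 0) (nat_lit 1608359159) (nat_lit 1748) (nat_lit 18665127182) (nat_lit 1824) (nat_lit 5312605740) (nat_lit 369) (nat_lit 5) (nat_lit 392) (nat_lit 5) (nat_lit 393) (nat_lit 5) (nat_lit 476) (nat_lit 469) (nat_lit 195)))) (XT.nd (nat_lit 78) (nat_lit 0) (nat_lit 76) (XT.lf (nat_lit 0) (nat_lit 2273593110) (nat_lit 1748) (nat_lit 6575326872) (nat_lit 1824) (nat_lit 16997719165) (nat_lit 369) (nat_lit 5) (nat_lit 392) (nat_lit 5) (nat_lit 393) (nat_lit 5) (nat_lit 477) (nat_lit 469) (nat_lit 194)) (XT.nd (nat_lit 78) (nat_lit 0) (nat_lit 0) (XT.lf (nat_lit 0) (nat_lit 3005879173) (nat_lit 1748) (nat_lit 20298999051) (nat_lit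 1824) (nat_lit 2806445475) (nat_lit 370) (nat_lit 5) (nat_lit 393) (nat_lit 5) (nat_lit 394) (nat_lit 5) (nat_lit 478) (nat_lit 469) (nat_lit 193)) (XT.lf (nat_lit 0) (nat_lit 3853299898) (nat_lit 1748) (nat_lit 7904090994) (nat_lit 1824) (nat_lit 14621902734) (nat_lit 370) (nat_lit 5) (nat_lit 393) (nat_lit 5) (nat_lit 394) (nat_lit 5) (nat_lit 479) (nat_lit 469) (nat_lit 192))))))))
noncomputable def xc255 : XT := (XT.nd (nat_lit 118560) (nat_lit 76) (nat_lit 0) (XT.nd (nat_lit 59202) (nat_lit 0) (nat_lit 0) (XT.nd (nat_lit 58812) (nat_lit 304) (nat_lit 0) (XT.nd (nat_lit 58578) (nat_lit 0) (nat_lit 1368) (XT.nd (nat_lit 156) (nat_lit 0) (nat_lit 0) (XT.lf (nat_lit 0) (nat_lit 4746703260) (nat_lit 1748) (nat_lit 21852335063) (nat_lit 1824) (nat_lit 53005381) (nat_lit 371) (nat_lit 5) (nat_lit 394) (nat_lit 5) (nat_lit 395) (nat_lit 5) (nat_lit 480) (nat_lit 469) (nat_lit 191)) (XT.lf (nat_lit 76) (nat_lit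 3866940998) (nat_lit 0) (nat_lit 3003464449) (nat_lit 1824) (nat_lit 20337958063) (nat_lit 372) (nat_lit 5) (nat_lit 371) (nat_lit 5) (nat_lit 395) (nat_lit 5) (nat_lit 482) (nat_lit 469) (nat_lit 189))) (XT.nd (nat_lit 78) (nat_lit 0) (nat_lit 0) (XT.lf (nat_lit 0) (nat_lit 11822592851) (nat_lit 1748) (nat_lit 172772225) (nat_lit 1748) (nat_lit 172772225) (nat_lit 389) (nat_lit 3) (nat_lit 412) (nat_lit 3) (nat_lit 412) (nat_lit 5) (nat_lit 470) (nat_lit 470) (nat_lit 200)) (XT.nd (nat_lit 78) (nat_lit 0) (nat_lit 0) (XT.lf (nat_lit 76) (nat_lit 11110323533) (nat_lit 0) (nat_lit 12950474726) (nat_lit 1748) (nat_lit 515191743) (nat_lit 390) (nat_lit 5) (nat_lit 389) (nat_lit 3) (nat_lit 412) (nat_lit 5) (nat_lit 471) (nat_lit 470) (nat_lit 199)) (XT.lf (nat_lit 76) (nat_lit 22798541217) (nat_lit 0) (nat_lit 1685683902) (nat_lit 1748) (nat_lit 336286228) (nat_lit 390) (nat_lit 5) (nat_lit 389) (nat_lit 3)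 (nat_lit 412) (nat_lit 5) (nat_lit 472) (nat_lit 470) (nat_lit 198))))) (XT.nd (nat_lit 156) (nat_lit 0) (nat_lit 76) (XT.nd (nat_lit 78) (nat_lit 1748) (nat_lit 0) (XT.lf (nat_lit 76) (nat_lit 9712840384) (nat_lit 0) (nat_lit 15327246208) (nat_lit 1748) (nat_lit 27358856) (nat_lit 391) (nat_lit 5) (nat_lit 390) (nat_lit 5) (nat_lit 413) (nat_lit 5) (nat_lit 473) (nat_lit 470) (nat_lit 197)) (XT.lf (nat_lit 0) (nat_lit 306067050) (nat_lit 1748) (nat_lit 3623929742) (nat_lit 1824) (nat_lit 21388843783) (nat_lit 367) (nat_lit 5) (nat_lit 390) (nat_lit 5) (nat_lit 391) (nat_lit 5) (nat_lit 474) (nat_lit 470) (nat_lit 196))) (XT.nd (nat_lit 78) (nat_lit 0) (nat_lit 0) (XT.lf (nat_lit 0) (nat_lit 748321979) (nat_lit 1748) (nat_lit 17174031299) (nat_lit 1824) (nat_lit 7650857727) (nat_lit 368) (nat_lit 5) (nat_lit 391) (nat_lit 5) (nat_lit 392) (nat_lit 5) (nat_lit 475) (nat_lit 470) (nat_lit 195)) (XT.nd (nat_lit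 78) (nat_lit 0) (nat_lit 76) (XT.lf (nat_lit 0) (nat_lit 1247303865) (nat_lit 1748) (nat_lit 5148034211) (nat_lit 1824) (nat_lit 19436374653) (nat_lit 368) (nat_lit 5) (nat_lit 391) (nat_lit 5) (nat_lit 392) (nat_lit 5) (nat_lit 476) (nat_lit 470) (nat_lit 194)) (XT.lf (nat_lit 0) (nat_lit 1835646966) (nat_lit 1748) (nat_lit 18918078105) (nat_lit 1824) (nat_lit 5340073280) (nat_lit 369) (nat_lit 5) (nat_lit 392) (nat_lit 5) (nat_lit 393) (nat_lit 5) (nat_lit 477) (nat_lit 470) (nat_lit 193)))))) (XT.nd (nat_lit 58890) (nat_lit 152) (nat_lit 0) (XT.nd (nat_lit 234) (nat_lit 0) (nat_lit 76) (XT.nd (nat_lit 78) (nat_lit 0) (nat_lit 76) (XT.lf (nat_lit 0) (nat_lit 2510359701) (nat_lit 1748) (nat_lit 6588841623) (nat_lit 1824) (nat_lit 17260433769) (nat_lit 369) (nat_lit 5) (nat_lit 392) (nat_lit 5) (nat_lit 393) (nat_lit 5) (nat_lit 478) (nat_lit 470) (nat_lit 192)) (XT.lf (nat_lit 0) (nat_lit 3253840089) (nat_lit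 1748) (nat_lit 20583427084) (nat_lit 1824) (nat_lit 2792417365) (nat_lit 370) (nat_lit 5) (nat_lit 393) (nat_lit 5) (nat_lit 394) (nat_lit 5) (nat_lit 479) (nat_lit 470) (nat_lit 191))) (XT.nd (nat_lit 78) (nat_lit 0) (nat_lit 76) (XT.lf (nat_lit 76) (nat_lit 5014450195) (nat_lit 0) (nat_lit 8149214) (nat_lit 1824) (nat_lit 22158761384) (nat_lit 371) (nat_lit 5) (nat_lit 370) (nat_lit 5) (nat_lit 394) (nat_lit 5) (nat_lit 481) (nat_lit 470) (nat_lit 189)) (XT.nd (nat_lit 58500) (nat_lit 0) (nat_lit 1368) (XT.lf (nat_lit 0) (nat_lit 6079891972) (nat_lit 1748) (nat_lit 9207091102) (nat_lit 1824) (nat_lit 12175594472) (nat_lit 371) (nat_lit 5) (nat_lit 394) (nat_lit 5) (nat_lit 395) (nat_lit 5) (nat_lit 482) (nat_lit 470) (nat_lit 188)) (XT.lf (nat_lit 0) (nat_lit 12165374940) (nat_lit 1748) (nat_lit 121967392) (nat_lit 1748) (nat_lit 121967392) (nat_lit 389) (nat_lit 3) (nat_lit 412) (nat_lit 3) (nat_lit 412)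 (nat_lit 5) (nat_lit 471) (nat_lit 471) (nat_lit 198))))) (XT.nd (nat_lit 234) (nat_lit 0) (nat_lit 0) (XT.nd (nat_lit 78) (nat_lit 1672) (nat_lit 0) (XT.lf (nat_lit 76) (nat_lit 11440336607) (nat_lit 0) (nat_lit 13310868218) (nat_lit 1748) (nat_lit 311996225) (nat_lit 390) (nat_lit 5) (nat_lit 389) (nat_lit 3) (nat_lit 412) (nat_lit 5) (nat_lit 472) (nat_lit 471) (nat_lit 197)) (XT.nd (nat_lit 78) (nat_lit 1672) (nat_lit 0) (XT.lf (nat_lit 76) (nat_lit 23360204791) (nat_lit 0) (nat_lit 1818793657) (nat_lit 1748) (nat_lit 133698862) (nat_lit 390) (nat_lit 5) (nat_lit 389) (nat_lit 3) (nat_lit 412) (nat_lit 5) (nat_lit 473) (nat_lit 471) (nat_lit 196)) (XT.lf (nat_lit 0) (nat_lit 175058483) (nat_lit 1748) (nat_lit 15548870845) (nat_lit 1824) (nat_lit 9840698950) (nat_lit 367) (nat_lit 5) (nat_lit 390) (nat_lit 5) (nat_lit 391) (nat_lit 5) (nat_lit 474) (nat_lit 471) (nat_lit 195)))) (XT.nd (nat_lit 78) (nat_lit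 0) (nat_lit 76) (XT.lf (nat_lit 0) (nat_lit 510814395) (nat_lit 1748) (nat_lit 3585971929) (nat_lit 1824) (nat_lit 21724343119) (nat_lit 367) (nat_lit 5) (nat_lit 390) (nat_lit 5) (nat_lit 391) (nat_lit 5) (nat_lit 475) (nat_lit 471) (nat_lit 194)) (XT.nd (nat_lit 78) (nat_lit 0) (nat_lit 0) (XT.lf (nat_lit 0) (nat_lit 958175463) (nat_lit 1748) (nat_lit 17403223397) (nat_lit 1824) (nat_lit 7719265463) (nat_lit 368) (nat_lit 5) (nat_lit 391) (nat_lit 5) (nat_lit 392) (nat_lit 5) (nat_lit 476) (nat_lit 471) (nat_lit 193)) (XT.lf (nat_lit 0) (nat_lit 1463315672) (nat_lit 1748) (nat_lit 5138947318) (nat_lit 1824) (nat_lit 19742151736) (nat_lit 368) (nat_lit 5) (nat_lit 391) (nat_lit 5) (nat_lit 392) (nat_lit 5) (nat_lit 477) (nat_lit 471) (nat_lit 192))))))) (XT.nd (nat_lit 59514) (nat_lit 0) (nat_lit 0) (XT.nd (nat_lit 59046) (nat_lit 228) (nat_lit 0) (XT.nd (nat_lit 234) (nat_lit 0) (nat_lit 76) (XT.nd (nat_lit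 156) (nat_lit 0) (nat_lit 76) (XT.lf (nat_lit 0) (nat_lit 2059903757) (nat_lit 1748) (nat_lit 19180761445) (nat_lit 1824) (nat_lit 5371149472) (nat_lit 369) (nat_lit 5) (nat_lit 392) (nat_lit 5) (nat_lit 393) (nat_lit 5) (nat_lit 478) (nat_lit 471) (nat_lit 191)) (XT.lf (nat_lit 0) (nat_lit 3499466039) (nat_lit 1748) (nat_lit 20878263688) (nat_lit 1824) (nat_lit 2780832977) (nat_lit 370) (nat_lit 5) (nat_lit 393) (nat_lit 5) (nat_lit 394) (nat_lit 5) (nat_lit 480) (nat_lit 471) (nat_lit 189))) (XT.nd (nat_lit 58656) (nat_lit 0) (nat_lit 1444) (XT.lf (nat_lit 0) (nat_lit 4373825515) (nat_lit 1748) (nat_lit 7987323207) (nat_lit 1824) (nat_lit 15076360060) (nat_lit 370) (nat_lit 5) (nat_lit 393) (nat_lit 5) (nat_lit 394) (nat_lit 5) (nat_lit 481) (nat_lit 471) (nat_lit 188)) (XT.nd (nat_lit 78) (nat_lit 0) (nat_lit 0) (XT.lf (nat_lit 0) (nat_lit 12510883738) (nat_lit 1748) (nat_lit 72253455) (nat_lit 1748)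 (nat_lit 72253455) (nat_lit 389) (nat_lit 3) (nat_lit 412) (nat_lit 3) (nat_lit 412) (nat_lit 5) (nat_lit 472) (nat_lit 472) (nat_lit 196)) (XT.lf (nat_lit 76) (nat_lit 11772763682) (nat_lit 0) (nat_lit 13674532717) (nat_lit 1748) (nat_lit 113027236) (nat_lit 390) (nat_lit 5) (nat_lit 389) (nat_lit 3) (nat_lit 412) (nat_lit 5) (nat_lit 473) (nat_lit 472) (nat_lit 195))))) (XT.nd (nat_lit 156) (nat_lit 0) (nat_lit 76) (XT.nd (nat_lit 78) (nat_lit 0) (nat_lit 76) (XT.lf (nat_lit 0) (nat_lit 63962343) (nat_lit 1748) (nat_lit 1886314371) (nat_lit 1824) (nat_lit 23864605893) (nat_lit 366) (nat_lit 5) (nat_lit 389) (nat_lit 3) (nat_lit 390) (nat_lit 5) (nat_lit 474) (nat_lit 472) (nat_lit 194)) (XT.lf (nat_lit 0) (nat_lit 373291029) (nat_lit 1748) (nat_lit 15751577274) (nat_lit 1824) (nat_lit 9947044752) (nat_lit 367) (nat_lit 5) (nat_lit 390) (nat_lit 5) (nat_lit 391) (nat_lit 5) (nat_lit 475) (nat_lit 472) (nat_lit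 193))) (XT.nd (nat_lit 78) (nat_lit 0) (nat_lit 76) (XT.lf (nat_lit 0) (nat_lit 711943797) (nat_lit 1748) (nat_lit 3551543340) (nat_lit 1824) (nat_lit 22070135690) (nat_lit 367) (nat_lit 5) (nat_lit 390) (nat_lit 5) (nat_lit 391) (nat_lit 5) (nat_lit 476) (nat_lit 472) (nat_lit 192)) (XT.nd (nat_lit 156) (nat_lit 0) (nat_lit 76) (XT.lf (nat_lit 0) (nat_lit 1164658315) (nat_lit 1748) (nat_lit 17641437300) (nat_lit 1824) (nat_lit 7792326841) (nat_lit 368) (nat_lit 5) (nat_lit 391) (nat_lit 5) (nat_lit 392) (nat_lit 5) (nat_lit 477) (nat_lit 472) (nat_lit 191)) (XT.lf (nat_lit 0) (nat_lit 2281363127) (nat_lit 1748) (nat_lit 19453190379) (nat_lit 1824) (nat_lit 5405787692) (nat_lit 369) (nat_lit 5) (nat_lit 392) (nat_lit 5) (nat_lit 393) (nat_lit 5) (nat_lit 479) (nat_lit 472) (nat_lit 189)))))) (XT.nd (nat_lit 59124) (nat_lit 0) (nat_lit 0) (XT.nd (nat_lit 58890) (nat_lit 228) (nat_lit 0) (XT.nd (nat_lit 58812)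 (nat_lit 0) (nat_lit 1520) (XT.lf (nat_lit 0) (nat_lit 2976048844) (nat_lit 1748) (nat_lit 6630346432) (nat_lit 1824) (nat_lit 17810672402) (nat_lit 369) (nat_lit 5) (nat_lit 392) (nat_lit 5) (nat_lit 393) (nat_lit 5) (nat_lit 480) (nat_lit 472) (nat_lit 188)) (XT.lf (nat_lit 0) (nat_lit 12859334111) (nat_lit 1748) (nat_lit 23570415) (nat_lit 1748) (nat_lit 23570415) (nat_lit 389) (nat_lit 3) (nat_lit 412) (nat_lit 3) (nat_lit 412) (nat_lit 5) (nat_lit 473) (nat_lit 473) (nat_lit 194))) (XT.nd (nat_lit 78) (nat_lit 0) (nat_lit 0) (XT.lf (nat_lit 0) (nat_lit 80877795) (nat_lit 1748) (nat_lit 13960265986) (nat_lit 1824) (nat_lit 12026395065) (nat_lit 366) (nat_lit 5) (nat_lit 389) (nat_lit 3) (nat_lit 390) (nat_lit 5) (nat_lit 474) (nat_lit 473) (nat_lit 193)) (XT.nd (nat_lit 78) (nat_lit 0) (nat_lit 76) (XT.lf (nat_lit 0) (nat_lit 256078411) (nat_lit 1748) (nat_lit 1823749833) (nat_lit 1824) (nat_lit 24247424337)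 (nat_lit 366) (nat_lit 5) (nat_lit 389) (nat_lit 3) (nat_lit 390) (nat_lit 5) (nat_lit 475) (nat_lit 473) (nat_lit 192)) (XT.lf (nat_lit 0) (nat_lit 567926569) (nat_lit 1748) (nat_lit 15962542126) (nat_lit 1824) (nat_lit 10059030460) (nat_lit 367) (nat_lit 5) (nat_lit 390) (nat_lit 5) (nat_lit 391) (nat_lit 5) (nat_lit 476) (nat_lit 473) (nat_lit 191))))) (XT.nd (nat_lit 59280) (nat_lit 0) (nat_lit 0) (XT.nd (nat_lit 156) (nat_lit 76) (nat_lit 0) (XT.lf (nat_lit 0) (nat_lit 909682398) (nat_lit 1748) (nat_lit 3520548037) (nat_lit 1824) (nat_lit 22426288221) (nat_lit 367) (nat_lit 5) (nat_lit 390) (nat_lit 5) (nat_lit 391) (nat_lit 5) (nat_lit 477) (nat_lit 473) (nat_lit 190)) (XT.nd (nat_lit 59046) (nat_lit 152) (nat_lit 0) (XT.lf (nat_lit 0) (nat_lit 1886268169) (nat_lit 1748) (nat_lit 5133195584) (nat_lit 1824) (nat_lit 20381777378) (nat_lit 368) (nat_lit 5) (nat_lit 391) (nat_lit 5) (nat_lit 392) (nat_lit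 5) (nat_lit 479) (nat_lit 473) (nat_lit 188)) (XT.lf (nat_lit 0) (nat_lit 269590274) (nat_lit 1748) (nat_lit 14141146967) (nat_lit 1824) (nat_lit 12174301718) (nat_lit 366) (nat_lit 5) (nat_lit 389) (nat_lit 3) (nat_lit 390) (nat_lit 5) (nat_lit 475) (nat_lit 474) (nat_lit 191)))) (XT.nd (nat_lit 156) (nat_lit 0) (nat_lit 0) (XT.lf (nat_lit 0) (nat_lit 444626374) (nat_lit 1748) (nat_lit 1763828419) (nat_lit 1824) (nat_lit 24641567678) (nat_lit 366) (nat_lit 5) (nat_lit 389) (nat_lit 3) (nat_lit 390) (nat_lit 5) (nat_lit 476) (nat_lit 474) (nat_lit 190)) (XT.nd (nat_lit 59280) (nat_lit 76) (nat_lit 0) (XT.lf (nat_lit 0) (nat_lit 1104250253) (nat_lit 1748) (nat_lit 3492894628) (nat_lit 1824) (nat_lit 22792874170) (nat_lit 367) (nat_lit 5) (nat_lit 390) (nat_lit 5) (nat_lit 391) (nat_lit 5) (nat_lit 478) (nat_lit 474) (nat_lit 188)) (XT.lf (nat_lit 0) (nat_lit 629822626) (nat_lit 1748) (nat_lit 1706451767)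 (nat_lit 1824) (nat_lit 25047119960) (nat_lit 366) (nat_lit 5) (nat_lit 389) (nat_lit 3) (nat_lit 390) (nat_lit 5) (nat_lit 477) (nat_lit 475) (nat_lit 188))))))))

set_option maxRecDepth 10000000 in
noncomputable def Tp : PT := (PT.nd (nat_lit 11650704) (PT.nd (nat_lit 10403796) (PT.nd (nat_lit 9276306) (PT.nd (nat_lit 8326734) (PT.nd (nat_lit 7555626) (PT.nd (nat_lit 6962670) pc0 pc1) (PT.nd (nat_lit 415350) pc2 pc3)) (PT.nd (nat_lit 534066) (PT.nd (nat_lit 296400) pc4 pc5) (PT.nd (nat_lit 237042) pc6 pc7))) (PT.nd (nat_lit 652392) (PT.nd (nat_lit 355758) (PT.nd (nat_lit 178074) pc8 pc9) (PT.nd (nat_lit 177138) pc10 pc11)) (PT.nd (nat_lit 238134) (PT.nd (nat_lit 119184) pc12 pc13) (PT.nd (nat_lit 118638) pc14 pc15)))) (PT.nd (nat_lit 712218) (PT.nd (nat_lit 413790) (PT.nd (nat_lit 235638) (PT.nd (nat_lit 117936) pc16 pc17) (PT.nd (nat_lit 60918) pc18 pc19)) (PT.nd (nat_lit 177450) (PT.nd (nat_lit 60684)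 pc20 pc21) (PT.nd (nat_lit 60528) pc22 pc23))) (PT.nd (nat_lit 296166) (PT.nd (nat_lit 176280) (PT.nd (nat_lit 116064) pc24 pc25) (PT.nd (nat_lit 59982) pc26 pc27)) (PT.nd (nat_lit 119496) (PT.nd (nat_lit 59748) pc28 pc29) (PT.nd (nat_lit 59592) pc30 pc31))))) (PT.nd (nat_lit 827736) (PT.nd (nat_lit 471198) (PT.nd (nat_lit 236574) (PT.nd (nat_lit 118560) (PT.nd (nat_lit 59280) pc32 pc33) (PT.nd (nat_lit 59046) pc34 pc35)) (PT.nd (nat_lit 117546) (PT.nd (nat_lit 58812) pc36 pc37) (PT.nd (nat_lit 58578) pc38 pc39))) (PT.nd (nat_lit 178932) (PT.nd (nat_lit 62790) (PT.nd (nat_lit 58266) pc40 pc41) (PT.nd (nat_lit 58110) pc42 pc43)) (PT.nd (nat_lit 62322) (PT.nd (nat_lit 57798) pc44 pc45) (PT.nd (nat_lit 57720) pc46 pc47)))) (PT.nd (nat_lit 358878) (PT.nd (nat_lit 176124) (PT.nd (nat_lit 61854) (PT.nd (nat_lit 57330) pc48 pc49) (PT.nd (nat_lit 57174) pc50 pc51)) (PT.nd (nat_lit 63336) (PT.nd (nat_lit 4446) pc52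 pc53) (PT.nd (nat_lit 59436) pc54 pc55))) (PT.nd (nat_lit 356772) (PT.nd (nat_lit 172536) (PT.nd (nat_lit 60294) pc56 pc57) (PT.nd (nat_lit 65910) pc58 pc59)) (PT.nd (nat_lit 289068) (PT.nd (nat_lit 119184) pc60 pc61) (PT.nd (nat_lit 177840) pc62 pc63))))))

set_option maxRecDepth 10000000 in
noncomputable def Tx : XT := (XT.nd (nat_lit 18856032) (nat_lit 0) (nat_lit 684) XT.nil (XT.nd (nat_lit 9376302) (nat_lit 0) (nat_lit 0) (XT.nd (nat_lit 4329000) (nat_lit 0) (nat_lit 3952) (XT.nd (nat_lit 2966028) (nat_lit 0) (nat_lit 1672) (XT.nd (nat_lit 2074488) (nat_lit 0) (nat_lit 912) (XT.nd (nat_lit 1423344) (nat_lit 0) (nat_lit 456) (XT.nd (nat_lit 1006824) (nat_lit 0) (nat_lit 152) (XT.nd (nat_lit 652860) (nat_lit 0) (nat_lit 0) (XT.nd (nat_lit 473772) (nat_lit 0) (nat_lit 0) (XT.nd (nat_lit 296478) (nat_lit 0) (nat_lit 0) xc0 xc1) (XT.nd (nat_lit 118482) (nat_lit 0) (nat_lit 0) xc2 xc3)) (XT.nd (nat_lit 177684)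 (nat_lit 0) (nat_lit 152) (XT.nd (nat_lit 117546) (nat_lit 0) (nat_lit 0) xc4 xc5) (XT.nd (nat_lit 116610) (nat_lit 0) (nat_lit 0) xc6 xc7))) (XT.nd (nat_lit 237120) (nat_lit 0) (nat_lit 0) (XT.nd (nat_lit 118872) (nat_lit 0) (nat_lit 0) (XT.nd (nat_lit 59514) (nat_lit 0) (nat_lit 0) xc8 xc9) (XT.nd (nat_lit 59202) (nat_lit 0) (nat_lit 0) xc10 xc11)) (XT.nd (nat_lit 117624) (nat_lit 0) (nat_lit 76) (XT.nd (nat_lit 58890) (nat_lit 0) (nat_lit 76) xc12 xc13) (XT.nd (nat_lit 3198) (nat_lit 684) (nat_lit 0) xc14 xc15)))) (XT.nd (nat_lit 354822) (nat_lit 0) (nat_lit 76) (XT.nd (nat_lit 178230) (nat_lit 0) (nat_lit 0) (XT.nd (nat_lit 116844) (nat_lit 0) (nat_lit 0) (XT.nd (nat_lit 58500) (nat_lit 0) (nat_lit 0) xc16 xc17) (XT.nd (nat_lit 58188) (nat_lit 0) (nat_lit 1520) xc18 xc19)) (XT.nd (nat_lit 115752) (nat_lit 0) (nat_lit 0) (XT.nd (nat_lit 57954) (nat_lit 0) (nat_lit 0) xc20 xc21) (XT.nd (nat_lit 3198) (nat_lit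 1216) (nat_lit 0) xc22 xc23))) (XT.nd (nat_lit 175656) (nat_lit 0) (nat_lit 228) (XT.nd (nat_lit 60840) (nat_lit 0) (nat_lit 152) (XT.nd (nat_lit 57642) (nat_lit 0) (nat_lit 1596) xc24 xc25) (XT.nd (nat_lit 57486) (nat_lit 0) (nat_lit 0) xc26 xc27)) (XT.nd (nat_lit 60372) (nat_lit 0) (nat_lit 0) (XT.nd (nat_lit 3198) (nat_lit 2508) (nat_lit 0) xc28 xc29) (XT.nd (nat_lit 3198) (nat_lit 912) (nat_lit 0) xc30 xc31))))) (XT.nd (nat_lit 476190) (nat_lit 0) (nat_lit 304) (XT.nd (nat_lit 239304) (nat_lit 0) (nat_lit 152) (XT.nd (nat_lit 119964) (nat_lit 0) (nat_lit 0) (XT.nd (nat_lit 60060) (nat_lit 0) (nat_lit 0) (XT.nd (nat_lit 56862) (nat_lit 0) (nat_lit 3724) xc32 xc33) (XT.nd (nat_lit 56706) (nat_lit 0) (nat_lit 2660) xc34 xc35)) (XT.nd (nat_lit 59748) (nat_lit 0) (nat_lit 0) (XT.nd (nat_lit 56550) (nat_lit 0) (nat_lit 2052) xc36 xc37) (XT.nd (nat_lit 56394) (nat_lit 0) (nat_lit 1672) xc38 xc39))) (XT.nd (nat_lit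 118716) (nat_lit 0) (nat_lit 0) (XT.nd (nat_lit 59436) (nat_lit 0) (nat_lit 0) (XT.nd (nat_lit 56238) (nat_lit 0) (nat_lit 1444) xc40 xc41) (XT.nd (nat_lit 56082) (nat_lit 0) (nat_lit 1748) xc42 xc43)) (XT.nd (nat_lit 59124) (nat_lit 0) (nat_lit 0) (XT.nd (nat_lit 55926) (nat_lit 0) (nat_lit 2204) xc44 xc45) (XT.nd (nat_lit 55770) (nat_lit 0) (nat_lit 2736) xc46 xc47)))) (XT.nd (nat_lit 234546) (nat_lit 0) (nat_lit 228) (XT.nd (nat_lit 117546) (nat_lit 0) (nat_lit 228) (XT.nd (nat_lit 58812) (nat_lit 0) (nat_lit 76) (XT.nd (nat_lit 55614) (nat_lit 0) (nat_lit 3724) xc48 xc49) (XT.nd (nat_lit 55536) (nat_lit 0) (nat_lit 5168) xc50 xc51)) (XT.nd (nat_lit 58578) (nat_lit 0) (nat_lit 0) (XT.nd (nat_lit 55380) (nat_lit 0) (nat_lit 7676) xc52 xc53) (XT.nd (nat_lit 3198) (nat_lit 456) (nat_lit 0) xc54 xc55))) (XT.nd (nat_lit 116376) (nat_lit 0) (nat_lit 152) (XT.nd (nat_lit 58266) (nat_lit 0) (nat_lit 152) (XT.nd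 (nat_lit 3198) (nat_lit 2052) (nat_lit 0) xc56 xc57) (XT.nd (nat_lit 3198) (nat_lit 4180) (nat_lit 0) xc58 xc59)) (XT.nd (nat_lit 6396) (nat_lit 760) (nat_lit 0) (XT.nd (nat_lit 3198) (nat_lit 7220) (nat_lit 0) xc60 xc61) (XT.nd (nat_lit 54756) (nat_lit 0) (nat_lit 2964) xc62 xc63)))))) (XT.nd (nat_lit 709566) (nat_lit 0) (nat_lit 1064) (XT.nd (nat_lit 357396) (nat_lit 0) (nat_lit 684) (XT.nd (nat_lit 179322) (nat_lit 0) (nat_lit 228) (XT.nd (nat_lit 115440) (nat_lit 0) (nat_lit 228) (XT.nd (nat_lit 57798) (nat_lit 0) (nat_lit 228) (XT.nd (nat_lit 54600) (nat_lit 0) (nat_lit 7068) xc64 xc65) (XT.nd (nat_lit 3198) (nat_lit 0) (nat_lit 0) xc66 xc67)) (XT.nd (nat_lit 57486) (nat_lit 0) (nat_lit 836) (XT.nd (nat_lit 3198) (nat_lit 2964) (nat_lit 0) xc68 xc69) (XT.nd (nat_lit 3198) (nat_lit 7676) (nat_lit 0) xc70 xc71))) (XT.nd (nat_lit 114582) (nat_lit 0) (nat_lit 152) (XT.nd (nat_lit 57330) (nat_lit 0) (nat_lit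 152) (XT.nd (nat_lit 54132) (nat_lit 0) (nat_lit 4864) xc72 xc73) (XT.nd (nat_lit 54054) (nat_lit 0) (nat_lit 12616) xc74 xc75)) (XT.nd (nat_lit 57096) (nat_lit 0) (nat_lit 912) (XT.nd (nat_lit 3198) (nat_lit 2508) (nat_lit 0) xc76 xc77) (XT.nd (nat_lit 3198) (nat_lit 7904) (nat_lit 0) xc78 xc79)))) (XT.nd (nat_lit 176748) (nat_lit 0) (nat_lit 152) (XT.nd (nat_lit 113724) (nat_lit 0) (nat_lit 0) (XT.nd (nat_lit 56940) (nat_lit 0) (nat_lit 0) (XT.nd (nat_lit 53742) (nat_lit 0) (nat_lit 5928) xc80 xc81) (XT.nd (nat_lit 53586) (nat_lit 0) (nat_lit 17556) xc82 xc83)) (XT.nd (nat_lit 56628) (nat_lit 0) (nat_lit 3344) (XT.nd (nat_lit 3198) (nat_lit 4408) (nat_lit 0) xc84 xc85) (XT.nd (nat_lit 3198) (nat_lit 11400) (nat_lit 0) xc86 xc87))) (XT.nd (nat_lit 112788) (nat_lit 0) (nat_lit 0) (XT.nd (nat_lit 56472) (nat_lit 0) (nat_lit 0) (XT.nd (nat_lit 53274) (nat_lit 0) (nat_lit 13300) xc88 xc89) (XT.nd (nat_lit 3198)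 (nat_lit 2584) (nat_lit 0) xc90 xc91)) (XT.nd (nat_lit 6396) (nat_lit 2356) (nat_lit 0) (XT.nd (nat_lit 3198) (nat_lit 10336) (nat_lit 0) xc92 xc93) (XT.nd (nat_lit 52962) (nat_lit 0) (nat_lit 12692) xc94 xc95))))) (XT.nd (nat_lit 300378) (nat_lit 0) (nat_lit 456) (XT.nd (nat_lit 174798) (nat_lit 0) (nat_lit 228) (XT.nd (nat_lit 62400) (nat_lit 0) (nat_lit 228) (XT.nd (nat_lit 56004) (nat_lit 0) (nat_lit 2432) (XT.nd (nat_lit 3198) (nat_lit 2128) (nat_lit 0) xc96 xc97) (XT.nd (nat_lit 3198) (nat_lit 10640) (nat_lit 0) xc98 xc99)) (XT.nd (nat_lit 56160) (nat_lit 0) (nat_lit 0) (XT.nd (nat_lit 52962) (nat_lit 0) (nat_lit 12844) xc100 xc101) (XT.nd (nat_lit 3198) (nat_lit 2508) (nat_lit 0) xc102 xc103))) (XT.nd (nat_lit 62712) (nat_lit 0) (nat_lit 228) (XT.nd (nat_lit 6396) (nat_lit 2508) (nat_lit 0) (XT.nd (nat_lit 3198) (nat_lit 10260) (nat_lit 0) xc104 xc105) (XT.nd (nat_lit 53118) (nat_lit 0) (nat_lit 12236)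 xc106 xc107)) (XT.nd (nat_lit 56394) (nat_lit 0) (nat_lit 1292) (XT.nd (nat_lit 3198) (nat_lit 1900) (nat_lit 0) xc108 xc109) (XT.nd (nat_lit 3198) (nat_lit 10032) (nat_lit 0) xc110 xc111)))) (XT.nd (nat_lit 176046) (nat_lit 0) (nat_lit 304) (XT.nd (nat_lit 113022) (nat_lit 0) (nat_lit 304) (XT.nd (nat_lit 56472) (nat_lit 0) (nat_lit 228) (XT.nd (nat_lit 53274) (nat_lit 0) (nat_lit 9652) xc112 xc113) (XT.nd (nat_lit 3198) (nat_lit 836) (nat_lit 0) xc114 xc115)) (XT.nd (nat_lit 6396) (nat_lit 228) (nat_lit 0) (XT.nd (nat_lit 3198) (nat_lit 8056) (nat_lit 0) xc116 xc117) (XT.nd (nat_lit 53430) (nat_lit 0) (nat_lit 6840) xc118 xc119))) (XT.nd (nat_lit 113568) (nat_lit 0) (nat_lit 456) (XT.nd (nat_lit 56706) (nat_lit 0) (nat_lit 228) (XT.nd (nat_lit 53508) (nat_lit 0) (nat_lit 19456) xc120 xc121) (XT.nd (nat_lit 3198) (nat_lit 4864) (nat_lit 0) xc122 xc123)) (XT.nd (nat_lit 6396) (nat_lit 3040) (nat_lit 0) (XT.nd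 (nat_lit 3198) (nat_lit 12084) (nat_lit 0) xc124 xc125) (XT.nd (nat_lit 53742) (nat_lit 0) (nat_lit 11172) xc126 xc127))))))) (XT.nd (nat_lit 1602510) (nat_lit 0) (nat_lit 4636) (XT.nd (nat_lit 715494) (nat_lit 0) (nat_lit 1748) (XT.nd (nat_lit 356070) (nat_lit 0) (nat_lit 912) (XT.nd (nat_lit 177684) (nat_lit 0) (nat_lit 304) (XT.nd (nat_lit 114114) (nat_lit 0) (nat_lit 304) (XT.nd (nat_lit 57018) (nat_lit 0) (nat_lit 304) (XT.nd (nat_lit 3198) (nat_lit 1140) (nat_lit 0) xc128 xc129) (XT.nd (nat_lit 3198) (nat_lit 7524) (nat_lit 0) xc130 xc131)) (XT.nd (nat_lit 6396) (nat_lit 4712) (nat_lit 0) (XT.nd (nat_lit 3198) (nat_lit 13908) (nat_lit 0) xc132 xc133) (XT.nd (nat_lit 53976) (nat_lit 0) (nat_lit 13376) xc134 xc135))) (XT.nd (nat_lit 114582) (nat_lit 0) (nat_lit 228) (XT.nd (nat_lit 57252) (nat_lit 0) (nat_lit 228) (XT.nd (nat_lit 3198) (nat_lit 2128) (nat_lit 0) xc136 xc137) (XT.nd (nat_lit 3198) (nat_lit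 8284) (nat_lit 0) xc138 xc139)) (XT.nd (nat_lit 6396) (nat_lit 4484) (nat_lit 0) (XT.nd (nat_lit 3198) (nat_lit 13908) (nat_lit 0) xc140 xc141) (XT.nd (nat_lit 54210) (nat_lit 0) (nat_lit 12464) xc142 xc143)))) (XT.nd (nat_lit 179322) (nat_lit 0) (nat_lit 532) (XT.nd (nat_lit 115206) (nat_lit 0) (nat_lit 228) (XT.nd (nat_lit 57564) (nat_lit 0) (nat_lit 228) (XT.nd (nat_lit 3198) (nat_lit 1140) (nat_lit 0) xc144 xc145) (XT.nd (nat_lit 3198) (nat_lit 6156) (nat_lit 0) xc146 xc147)) (XT.nd (nat_lit 6396) (nat_lit 1900) (nat_lit 0) (XT.nd (nat_lit 3198) (nat_lit 12008) (nat_lit 0) xc148 xc149) (XT.nd (nat_lit 54522) (nat_lit 0) (nat_lit 7144) xc150 xc151))) (XT.nd (nat_lit 115674) (nat_lit 0) (nat_lit 0) (XT.nd (nat_lit 57798) (nat_lit 0) (nat_lit 0) (XT.nd (nat_lit 54600) (nat_lit 0) (nat_lit 13604) xc152 xc153) (XT.nd (nat_lit 3198) (nat_lit 2052) (nat_lit 0) xc154 xc155)) (XT.nd (nat_lit 57954) (nat_lit 0)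 (nat_lit 1292) (XT.nd (nat_lit 3198) (nat_lit 6840) (nat_lit 0) xc156 xc157) (XT.nd (nat_lit 3198) (nat_lit 11552) (nat_lit 0) xc158 xc159))))) (XT.nd (nat_lit 414804) (nat_lit 0) (nat_lit 1292) (XT.nd (nat_lit 232830) (nat_lit 0) (nat_lit 608) (XT.nd (nat_lit 116220) (nat_lit 0) (nat_lit 304) (XT.nd (nat_lit 58032) (nat_lit 0) (nat_lit 304) (XT.nd (nat_lit 54834) (nat_lit 0) (nat_lit 5092) xc160 xc161) (XT.nd (nat_lit 54990) (nat_lit 0) (nat_lit 9576) xc162 xc163)) (XT.nd (nat_lit 58266) (nat_lit 0) (nat_lit 304) (XT.nd (nat_lit 55068) (nat_lit 0) (nat_lit 15200) xc164 xc165) (XT.nd (nat_lit 3198) (nat_lit 1824) (nat_lit 0) xc166 xc167))) (XT.nd (nat_lit 116922) (nat_lit 0) (nat_lit 380) (XT.nd (nat_lit 58422) (nat_lit 0) (nat_lit 380) (XT.nd (nat_lit 3198) (nat_lit 5396) (nat_lit 0) xc168 xc169) (XT.nd (nat_lit 3198) (nat_lit 8892) (nat_lit 0) xc170 xc171)) (XT.nd (nat_lit 6396) (nat_lit 1064) (nat_lit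 0) (XT.nd (nat_lit 3198) (nat_lit 11856) (nat_lit 0) xc172 xc173) (XT.nd (nat_lit 55380) (nat_lit 0) (nat_lit 3192) xc174 xc175)))) (XT.nd (nat_lit 235404) (nat_lit 0) (nat_lit 760) (XT.nd (nat_lit 117546) (nat_lit 0) (nat_lit 456) (XT.nd (nat_lit 58734) (nat_lit 0) (nat_lit 380) (XT.nd (nat_lit 55536) (nat_lit 0) (nat_lit 5168) xc176 xc177) (XT.nd (nat_lit 55614) (nat_lit 0) (nat_lit 7068) xc178 xc179)) (XT.nd (nat_lit 58890) (nat_lit 0) (nat_lit 304) (XT.nd (nat_lit 55692) (nat_lit 0) (nat_lit 9424) xc180 xc181) (XT.nd (nat_lit 55770) (nat_lit 0) (nat_lit 11172) xc182 xc183))) (XT.nd (nat_lit 118170) (nat_lit 0) (nat_lit 380) (XT.nd (nat_lit 59046) (nat_lit 0) (nat_lit 380) (XT.nd (nat_lit 55848) (nat_lit 0) (nat_lit 13376) xc184 xc185) (XT.nd (nat_lit 3198) (nat_lit 456) (nat_lit 0) xc186 xc187)) (XT.nd (nat_lit 59202) (nat_lit 0) (nat_lit 380) (XT.nd (nat_lit 3198) (nat_lit 1216) (nat_lit 0) xc188 xc189)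 (XT.nd (nat_lit 3198) (nat_lit 1748) (nat_lit 0) xc190 xc191)))))) (XT.nd (nat_lit 1071018) (nat_lit 0) (nat_lit 5244) (XT.nd (nat_lit 477984) (nat_lit 0) (nat_lit 2128) (XT.nd (nat_lit 238212) (nat_lit 0) (nat_lit 760) (XT.nd (nat_lit 118950) (nat_lit 0) (nat_lit 380) (XT.nd (nat_lit 59436) (nat_lit 0) (nat_lit 380) (XT.nd (nat_lit 3198) (nat_lit 1672) (nat_lit 0) xc192 xc193) (XT.nd (nat_lit 3198) (nat_lit 1292) (nat_lit 0) xc194 xc195)) (XT.nd (nat_lit 59592) (nat_lit 0) (nat_lit 380) (XT.nd (nat_lit 3198) (nat_lit 912) (nat_lit 0) xc196 xc197) (XT.nd (nat_lit 56472) (nat_lit 0) (nat_lit 11780) xc198 xc199))) (XT.nd (nat_lit 119652) (nat_lit 0) (nat_lit 912) (XT.nd (nat_lit 59748) (nat_lit 0) (nat_lit 532) (XT.nd (nat_lit 56550) (nat_lit 0) (nat_lit 10184) xc200 xc201) (XT.nd (nat_lit 56706) (nat_lit 0) (nat_lit 6992) xc202 xc203)) (XT.nd (nat_lit 59982) (nat_lit 0) (nat_lit 0) (XT.nd (nat_lit 56784)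 (nat_lit 0) (nat_lit 4788) xc204 xc205) (XT.nd (nat_lit 56862) (nat_lit 0) (nat_lit 1900) xc206 xc207)))) (XT.nd (nat_lit 295308) (nat_lit 0) (nat_lit 1444) (XT.nd (nat_lit 174330) (nat_lit 0) (nat_lit 988) (XT.nd (nat_lit 113958) (nat_lit 0) (nat_lit 532) (XT.nd (nat_lit 56940) (nat_lit 0) (nat_lit 0) xc208 xc209) (XT.nd (nat_lit 3198) (nat_lit 7600) (nat_lit 0) xc210 xc211)) (XT.nd (nat_lit 60450) (nat_lit 0) (nat_lit 0) (XT.nd (nat_lit 3198) (nat_lit 3344) (nat_lit 0) xc212 xc213) (XT.nd (nat_lit 57330) (nat_lit 0) (nat_lit 7828) xc214 xc215))) (XT.nd (nat_lit 175734) (nat_lit 0) (nat_lit 1140) (XT.nd (nat_lit 60606) (nat_lit 0) (nat_lit 0) (XT.nd (nat_lit 57408) (nat_lit 0) (nat_lit 2812) xc216 xc217) (XT.nd (nat_lit 57486) (nat_lit 0) (nat_lit 532) xc218 xc219)) (XT.nd (nat_lit 60918) (nat_lit 0) (nat_lit 0) (XT.nd (nat_lit 3198) (nat_lit 3496) (nat_lit 0) xc220 xc221) (XT.nd (nat_lit 57798) (nat_lit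 0) (nat_lit 4180) xc222 xc223))))) (XT.nd (nat_lit 770250) (nat_lit 0) (nat_lit 5700) (XT.nd (nat_lit 355290) (nat_lit 0) (nat_lit 2356) (XT.nd (nat_lit 177216) (nat_lit 0) (nat_lit 1140) (XT.nd (nat_lit 115908) (nat_lit 0) (nat_lit 532) (XT.nd (nat_lit 57876) (nat_lit 0) (nat_lit 532) xc224 xc225) (XT.nd (nat_lit 3198) (nat_lit 1824) (nat_lit 0) xc226 xc227)) (XT.nd (nat_lit 116454) (nat_lit 0) (nat_lit 608) (XT.nd (nat_lit 58188) (nat_lit 0) (nat_lit 76) xc228 xc229) (XT.nd (nat_lit 3198) (nat_lit 3268) (nat_lit 0) xc230 xc231))) (XT.nd (nat_lit 179010) (nat_lit 0) (nat_lit 1292) (XT.nd (nat_lit 117078) (nat_lit 0) (nat_lit 1292) (XT.nd (nat_lit 58500) (nat_lit 0) (nat_lit 608) xc232 xc233) (XT.nd (nat_lit 58734) (nat_lit 0) (nat_lit 2812) xc234 xc235)) (XT.nd (nat_lit 117702) (nat_lit 0) (nat_lit 1368) (XT.nd (nat_lit 58812) (nat_lit 0) (nat_lit 684) xc236 xc237) (XT.nd (nat_lit 59046) (nat_lit 0) (nat_lit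 0) xc238 xc239)))) (XT.nd (nat_lit 533754) (nat_lit 0) (nat_lit 4788) (XT.nd (nat_lit 237510) (nat_lit 0) (nat_lit 2356) (XT.nd (nat_lit 118560) (nat_lit 0) (nat_lit 760) (XT.nd (nat_lit 59202) (nat_lit 0) (nat_lit 760) xc240 xc241) (XT.nd (nat_lit 59436) (nat_lit 0) (nat_lit 760) xc242 xc243)) (XT.nd (nat_lit 119418) (nat_lit 0) (nat_lit 760) (XT.nd (nat_lit 59670) (nat_lit 0) (nat_lit 0) xc244 xc245) (XT.nd (nat_lit 59904) (nat_lit 0) (nat_lit 836) xc246 xc247))) (XT.nd (nat_lit 356460) (nat_lit 0) (nat_lit 2812) (XT.nd (nat_lit 120510) (nat_lit 0) (nat_lit 912) (XT.nd (nat_lit 60216) (nat_lit 0) (nat_lit 0) xc248 xc249) (XT.nd (nat_lit 117780) (nat_lit 0) (nat_lit 988) xc250 xc251)) (XT.nd (nat_lit 237744) (nat_lit 152) (nat_lit 0) (XT.nd (nat_lit 60918) (nat_lit 76) (nat_lit 0) xc252 xc253) (XT.nd (nat_lit 119574) (nat_lit 76) (nat_lit 0) xc254 xc255)))))))) XT.nil))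

set_option maxRecDepth 10000000 in
noncomputable def Te : XT := XT.nil

set_option maxRecDepth 10000000 in
noncomputable def Tz : ZL := (ZL.cons (nat_lit 76) (nat_lit 3) (nat_lit 113837968272293282114) (ZL.cons (nat_lit 152) (nat_lit 6) (nat_lit 225563494645438343568) (ZL.cons (nat_lit 532) (nat_lit 6) (nat_lit 181213540575213075340) (ZL.cons (nat_lit 608) (nat_lit 6) (nat_lit 179650227637309879264) (ZL.cons (nat_lit 684) (nat_lit 3) (nat_lit 89808163146359136934) (ZL.cons (nat_lit 836) (nat_lit 6) (nat_lit 178055648440648619266) (ZL.cons (nat_lit 912) (nat_lit 6) (nat_lit 176530894988473888138) (ZL.cons (nat_lit 988) (nat_lit 3) (nat_lit 88248829188064588484) (ZL.cons (nat_lit 1064) (nat_lit 6) (nat_lit 175041467993663815886) (ZL.cons (nat_lit 1140) (nat_lit 6) (nat_lit 174975646467255662390) (ZL.cons (nat_lit 1216) (nat_lit 6) (nat_lit 173489015846612831018) (ZL.cons (nat_lit 1292) (nat_lit 3) (nat_lit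 86728215466274694346) (ZL.cons (nat_lit 1368) (nat_lit 6) (nat_lit 172037183521800430762) (ZL.cons (nat_lit 1444) (nat_lit 6) (nat_lit 171972652613557143018) (ZL.cons (nat_lit 1596) (nat_lit 6) (nat_lit 170523729636428340172) (ZL.cons (nat_lit 1672) (nat_lit 3) (nat_lit 85245891821124247377) (ZL.cons (nat_lit 1748) (nat_lit 6) (nat_lit 169109093796073910036) (ZL.cons (nat_lit 1824) (nat_lit 6) (nat_lit 169045828199756961270) (ZL.cons (nat_lit 1900) (nat_lit 6) (nat_lit 167728190333340772442) (ZL.cons (nat_lit 1976) (nat_lit 6) (nat_lit 167634219244732545880) (ZL.cons (nat_lit 2052) (nat_lit 3) (nat_lit 83801449821297721266) (ZL.cons (nat_lit 2128) (nat_lit 6) (nat_lit 166256403205036023330) (ZL.cons (nat_lit 2204) (nat_lit 6) (nat_lit 166194378110607642186) (ZL.cons (nat_lit 2280) (nat_lit 6) (nat_lit 164911839760651826350) (ZL.cons (nat_lit 2356) (nat_lit 6) (nat_lit 164819711242408466978) (ZL.cons (nat_lit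 2432) (nat_lit 3) (nat_lit 82394502875058594591) (ZL.cons (nat_lit 2584) (nat_lit 6) (nat_lit 163478359952951564286) (ZL.cons (nat_lit 2660) (nat_lit 6) (nat_lit 163417551036845308262) (ZL.cons (nat_lit 2736) (nat_lit 6) (nat_lit 162169798222123421606) (ZL.cons (nat_lit 2812) (nat_lit 6) (nat_lit 162079476145414245748) (ZL.cons (nat_lit 2888) (nat_lit 3) (nat_lit 81024686360799633760) (ZL.cons (nat_lit 3040) (nat_lit 6) (nat_lit 160774256340572460046) (ZL.cons (nat_lit 3116) (nat_lit 6) (nat_lit 160714639756154561984) (ZL.cons (nat_lit 3192) (nat_lit 6) (nat_lit 159501379771416091632) (ZL.cons (nat_lit 3268) (nat_lit 6) (nat_lit 159412828715818860402) (ZL.cons (nat_lit 3344) (nat_lit 3) (nat_lit 79691657777607970284) (ZL.cons (nat_lit 3420) (nat_lit 6) (nat_lit 158260347270663118404) (ZL.cons (nat_lit 3496) (nat_lit 6) (nat_lit 158143429086458697790) (ZL.cons (nat_lit 3572) (nat_lit 6) (nat_lit 158084981454676444788)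 (ZL.cons (nat_lit 3648) (nat_lit 6) (nat_lit 156905943064297854478) (ZL.cons (nat_lit 3724) (nat_lit 6) (nat_lit 156819128303908412092) (ZL.cons (nat_lit 3800) (nat_lit 3) (nat_lit 78395096916364539462) (ZL.cons (nat_lit 3876) (nat_lit 6) (nat_lit 155699885360700188954) (ZL.cons (nat_lit 3952) (nat_lit 6) (nat_lit 155585259689911541294) (ZL.cons (nat_lit 4028) (nat_lit 6) (nat_lit 155527958090125018742) (ZL.cons (nat_lit 4104) (nat_lit 6) (nat_lit 154524783011860368808) (ZL.cons (nat_lit 4180) (nat_lit 6) (nat_lit 154382891742641127738) (ZL.cons (nat_lit 4256) (nat_lit 6) (nat_lit 154297779232455399912) (ZL.cons (nat_lit 4332) (nat_lit 3) (nat_lit 77134706051924105264) (ZL.cons (nat_lit 4408) (nat_lit 6) (nat_lit 153211552945255104596) (ZL.cons (nat_lit 4484) (nat_lit 6) (nat_lit 153099174836638783360) (ZL.cons (nat_lit 4560) (nat_lit 6) (nat_lit 153042996797632388702) (ZL.cons (nat_lit 4636) (nat_lit 6)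 (nat_lit 152070783949205477348) (ZL.cons (nat_lit 4712) (nat_lit 6) (nat_lit 151931674861735633164) (ZL.cons (nat_lit 4788) (nat_lit 6) (nat_lit 151848231224298645096) (ZL.cons (nat_lit 4864) (nat_lit 3) (nat_lit 75910210156949719911) (ZL.cons (nat_lit 4940) (nat_lit 6) (nat_lit 150794821464618536320) (ZL.cons (nat_lit 5016) (nat_lit 6) (nat_lit 150684646848328025304) (ZL.cons (nat_lit 5092) (nat_lit 6) (nat_lit 150629570339498226620) (ZL.cons (nat_lit 5168) (nat_lit 6) (nat_lit 149688168820425878282) (ZL.cons (nat_lit 5244) (nat_lit 6) (nat_lit 149551787362122109472) (ZL.cons (nat_lit 5320) (nat_lit 6) (nat_lit 149469979874438787840) (ZL.cons (nat_lit 5396) (nat_lit 3) (nat_lit 74721357138004097215) (ZL.cons (nat_lit 5472) (nat_lit 6) (nat_lit 148611282947728563890) (ZL.cons (nat_lit 5548) (nat_lit 6) (nat_lit 148449208507058856068) (ZL.cons (nat_lit 5624) (nat_lit 6) (nat_lit 148341194177362276642) (ZL.cons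 (nat_lit 5700) (nat_lit 6) (nat_lit 148287197600078160284) (ZL.cons (nat_lit 5776) (nat_lit 6) (nat_lit 147376477899273534400) (ZL.cons (nat_lit 5852) (nat_lit 6) (nat_lit 147242770587211015962) (ZL.cons (nat_lit 5928) (nat_lit 6) (nat_lit 147162567167913641810) (ZL.cons (nat_lit 6004) (nat_lit 3) (nat_lit 73567918094530059431) (ZL.cons (nat_lit 6080) (nat_lit 6) (nat_lit 146333174860096424738) (ZL.cons (nat_lit 6156) (nat_lit 6) (nat_lit 146174278349635926874) (ZL.cons (nat_lit 6232) (nat_lit 6) (nat_lit 146068381947972613710) (ZL.cons (nat_lit 6308) (nat_lit 6) (nat_lit 146015444127105832968) (ZL.cons (nat_lit 6384) (nat_lit 6) (nat_lit 145135298448073254442) (ZL.cons (nat_lit 6460) (nat_lit 6) (nat_lit 145004212848011961852) (ZL.cons (nat_lit 6536) (nat_lit 6) (nat_lit 144925582044779242098) (ZL.cons (nat_lit 6612) (nat_lit 3) (nat_lit 72449687601382992152) (ZL.cons (nat_lit 6688) (nat_lit 6) (nat_lit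 144125423439424346636) (ZL.cons (nat_lit 6764) (nat_lit 6) (nat_lit 143969642546816015396) (ZL.cons (nat_lit 6840) (nat_lit 6) (nat_lit 143865822545185316216) (ZL.cons (nat_lit 6916) (nat_lit 6) (nat_lit 143813922720806119410) (ZL.cons (nat_lit 6992) (nat_lit 6) (nat_lit 143144257294274047028) (ZL.cons (nat_lit 7068) (nat_lit 6) (nat_lit 142964265330541168088) (ZL.cons (nat_lit 7144) (nat_lit 6) (nat_lit 142835750036363430258) (ZL.cons (nat_lit 7220) (nat_lit 6) (nat_lit 142758661013586254026) (ZL.cons (nat_lit 7296) (nat_lit 3) (nat_lit 71366484015610157507) (ZL.cons (nat_lit 7372) (nat_lit 6) (nat_lit 141987686933612410182) (ZL.cons (nat_lit 7448) (nat_lit 6) (nat_lit 141834960568310124652) (ZL.cons (nat_lit 7524) (nat_lit 6) (nat_lit 141733176252985909770) (ZL.cons (nat_lit 7600) (nat_lit 6) (nat_lit 141682294072221991332) (ZL.cons (nat_lit 7676) (nat_lit 6) (nat_lit 141039524384109377460) (ZL.cons (nat_lit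 7752) (nat_lit 6) (nat_lit 140863061674567339288) (ZL.cons (nat_lit 7828) (nat_lit 6) (nat_lit 140737066288118576706) (ZL.cons (nat_lit 7904) (nat_lit 6) (nat_lit 140661488814807619618) (ZL.cons (nat_lit 7980) (nat_lit 3) (nat_lit 70318149808204820096) (ZL.cons (nat_lit 8056) (nat_lit 6) (nat_lit 140119405853581284420) (ZL.cons (nat_lit 8132) (nat_lit 6) (nat_lit 139919672218313998556) (ZL.cons (nat_lit 8208) (nat_lit 6) (nat_lit 139769940487625483332) (ZL.cons (nat_lit 8284) (nat_lit 6) (nat_lit 139670151943189978544) (ZL.cons (nat_lit 8360) (nat_lit 6) (nat_lit 139620267452244960468) (ZL.cons (nat_lit 8436) (nat_lit 6) (nat_lit 139004422242900591344) (ZL.cons (nat_lit 8512) (nat_lit 6) (nat_lit 138831419586486828428) (ZL.cons (nat_lit 8588) (nat_lit 6) (nat_lit 138707894697811570998) (ZL.cons (nat_lit 8664) (nat_lit 6) (nat_lit 138633799135742005222) (ZL.cons (nat_lit 8740) (nat_lit 3) (nat_lit 69304551921597483286)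 (ZL.cons (nat_lit 8816) (nat_lit 6) (nat_lit 138116952826768132004) (ZL.cons (nat_lit 8892) (nat_lit 6) (nat_lit 137921135537290400764) (ZL.cons (nat_lit 8968) (nat_lit 6) (nat_lit 137774339722889895642) (ZL.cons (nat_lit 9044) (nat_lit 6) (nat_lit 137676507816580577224) (ZL.cons (nat_lit 9120) (nat_lit 6) (nat_lit 137627601452908990874) (ZL.cons (nat_lit 9196) (nat_lit 6) (nat_lit 137256915942694607806) (ZL.cons (nat_lit 9272) (nat_lit 6) (nat_lit 137038731365899260562) (ZL.cons (nat_lit 9348) (nat_lit 6) (nat_lit 136869120918434787116) (ZL.cons (nat_lit 9424) (nat_lit 6) (nat_lit 136748018086400221006) (ZL.cons (nat_lit 9500) (nat_lit 6) (nat_lit 136675375378488882014) (ZL.cons (nat_lit 9576) (nat_lit 3) (nat_lit 68325582153682167157) (ZL.cons (nat_lit 9652) (nat_lit 6) (nat_lit 136183861031461881884) (ZL.cons (nat_lit 9728) (nat_lit 6) (nat_lit 135991883296679792434) (ZL.cons (nat_lit 9804) (nat_lit 6)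 (nat_lit 135847965831581258000) (ZL.cons (nat_lit 9880) (nat_lit 6) (nat_lit 135752052197944671316) (ZL.cons (nat_lit 9956) (nat_lit 6) (nat_lit 135704104782580370974) (ZL.cons (nat_lit 10032) (nat_lit 6) (nat_lit 135356189290709857916) (ZL.cons (nat_lit 10108) (nat_lit 6) (nat_lit 135142282842871282186) (ZL.cons (nat_lit 10184) (nat_lit 6) (nat_lit 134975998090455131748) (ZL.cons (nat_lit 10260) (nat_lit 6) (nat_lit 134857269823754576740) (ZL.cons (nat_lit 10336) (nat_lit 6) (nat_lit 134786051482665028706) (ZL.cons (nat_lit 10412) (nat_lit 3) (nat_lit 67381157569212638032) (ZL.cons (nat_lit 10488) (nat_lit 6) (nat_lit 134555391566489952570) (ZL.cons (nat_lit 10564) (nat_lit 6) (nat_lit 134319986380360704018) (ZL.cons (nat_lit 10640) (nat_lit 6) (nat_lit 134131772914888067300) (ZL.cons (nat_lit 10716) (nat_lit 6) (nat_lit 133990677360869896288) (ZL.cons (nat_lit 10792) (nat_lit 6) (nat_lit 133896644386716379930)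 (ZL.cons (nat_lit 10868) (nat_lit 6) (nat_lit 133849637116751379596) (ZL.cons (nat_lit 10944) (nat_lit 6) (nat_lit 133524671439947073388) (ZL.cons (nat_lit 11020) (nat_lit 6) (nat_lit 133314959236183763848) (ZL.cons (nat_lit 11096) (nat_lit 6) (nat_lit 133151934969109106556) (ZL.cons (nat_lit 11172) (nat_lit 6) (nat_lit 133035534707637974194) (ZL.cons (nat_lit 11248) (nat_lit 6) (nat_lit 132965712804609005536) (ZL.cons (nat_lit 11324) (nat_lit 3) (nat_lit 66471220939441878922) (ZL.cons (nat_lit 11400) (nat_lit 6) (nat_lit 132756026133418463378) (ZL.cons (nat_lit 11476) (nat_lit 6) (nat_lit 132525236735252533426) (ZL.cons (nat_lit 11552) (nat_lit 6) (nat_lit 132340713729887203312) (ZL.cons (nat_lit 11628) (nat_lit 6) (nat_lit 132202384755359584670) (ZL.cons (nat_lit 11704) (nat_lit 6) (nat_lit 132110195565013000008) (ZL.cons (nat_lit 11780) (nat_lit 6) (nat_lit 132064110006223783992) (ZL.cons (nat_lit 11856)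 (nat_lit 6) (nat_lit 132013749031242901990) (ZL.cons (nat_lit 11932) (nat_lit 6) (nat_lit 131762295716995971630) (ZL.cons (nat_lit 12008) (nat_lit 6) (nat_lit 131556695517228021104) (ZL.cons (nat_lit 12084) (nat_lit 6) (nat_lit 131396867804409729640) (ZL.cons (nat_lit 12160) (nat_lit 6) (nat_lit 131282749901006658698) (ZL.cons (nat_lit 12236) (nat_lit 6) (nat_lit 131214297054899826678) (ZL.cons (nat_lit 12312) (nat_lit 3) (nat_lit 65595741210917929177) (ZL.cons (nat_lit 12388) (nat_lit 6) (nat_lit 131025836988857899422) (ZL.cons (nat_lit 12464) (nat_lit 6) (nat_lit 130799572873008948488) (ZL.cons (nat_lit 12540) (nat_lit 6) (nat_lit 130618667965788036612) (ZL.cons (nat_lit 12616) (nat_lit 6) (nat_lit 130483051324094292848) (ZL.cons (nat_lit 12692) (nat_lit 6) (nat_lit 130392669764930974548) (ZL.cons (nat_lit 12768) (nat_lit 6) (nat_lit 130347487844549390220) (ZL.cons (nat_lit 12844) (nat_lit 6) (nat_lit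 130315571743493948924) (ZL.cons (nat_lit 12920) (nat_lit 6) (nat_lit 130069048886389115240) (ZL.cons (nat_lit 12996) (nat_lit 6) (nat_lit 129867480063087202956) (ZL.cons (nat_lit 13072) (nat_lit 6) (nat_lit 129710786226990838780) (ZL.cons (nat_lit 13148) (nat_lit 6) (nat_lit 129598905929536847658) (ZL.cons (nat_lit 13224) (nat_lit 6) (nat_lit 129531795296098777050) (ZL.cons (nat_lit 13300) (nat_lit 3) (nat_lit 64754714004390580523) (ZL.cons (nat_lit 13376) (nat_lit 6) (nat_lit 129631221445513781334) (ZL.cons (nat_lit 13452) (nat_lit 6) (nat_lit 129364837077373768482) (ZL.cons (nat_lit 13528) (nat_lit 6) (nat_lit 129143009512815973448) (ZL.cons (nat_lit 13604) (nat_lit 6) (nat_lit 128965651760638608864) (ZL.cons (nat_lit 13680) (nat_lit 6) (nat_lit 128832694268781997330) (ZL.cons (nat_lit 13756) (nat_lit 6) (nat_lit 128744084897053253900) (ZL.cons (nat_lit 13832) (nat_lit 6) (nat_lit 128699788896679151616)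 (ZL.cons (nat_lit 13984) (nat_lit 6) (nat_lit 128686661284469176710) (ZL.cons (nat_lit 14060) (nat_lit 6) (nat_lit 128444972208876202508) (ZL.cons (nat_lit 14136) (nat_lit 6) (nat_lit 128247355715442955174) (ZL.cons (nat_lit 14212) (nat_lit 6) (nat_lit 128093734307505343232) (ZL.cons (nat_lit 14288) (nat_lit 6) (nat_lit 127984047741373979390) (ZL.cons (nat_lit 14364) (nat_lit 6) (nat_lit 127918253002709204284) (ZL.cons (nat_lit 14440) (nat_lit 3) (nat_lit 63948162144826359002) (ZL.cons (nat_lit 14516) (nat_lit 6) (nat_lit 128034255556384004784) (ZL.cons (nat_lit 14592) (nat_lit 6) (nat_lit 127773094411148698066) (ZL.cons (nat_lit 14668) (nat_lit 6) (nat_lit 127555616406680271564) (ZL.cons (nat_lit 14744) (nat_lit 6) (nat_lit 127381736257486776872) (ZL.cons (nat_lit 14820) (nat_lit 6) (nat_lit 127251385775274412622) (ZL.cons (nat_lit 14896) (nat_lit 6) (nat_lit 127164513842207017104) (ZL.cons (nat_lit 14972)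 (nat_lit 6) (nat_lit 127121086390859858002) (ZL.cons (nat_lit 15048) (nat_lit 6) (nat_lit 127407364047734689896) (ZL.cons (nat_lit 15124) (nat_lit 6) (nat_lit 127127112638144155220) (ZL.cons (nat_lit 15200) (nat_lit 6) (nat_lit 126890162564033396202) (ZL.cons (nat_lit 15276) (nat_lit 6) (nat_lit 126696420903804722342) (ZL.cons (nat_lit 15352) (nat_lit 6) (nat_lit 126545811680336475342) (ZL.cons (nat_lit 15428) (nat_lit 6) (nat_lit 126438275831188079416) (ZL.cons (nat_lit 15504) (nat_lit 6) (nat_lit 126373771185438299902) (ZL.cons (nat_lit 15580) (nat_lit 3) (nat_lit 63176136223573813540) (ZL.cons (nat_lit 15656) (nat_lit 6) (nat_lit 126805740918713918588) (ZL.cons (nat_lit 15732) (nat_lit 6) (nat_lit 126506773563677081992) (ZL.cons (nat_lit 15808) (nat_lit 6) (nat_lit 126250733225211095016) (ZL.cons (nat_lit 15884) (nat_lit 6) (nat_lit 126037519495340088640) (ZL.cons (nat_lit 15960) (nat_lit 6) (nat_lit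 125867048760836662472) (ZL.cons (nat_lit 16036) (nat_lit 6) (nat_lit 125739254170432383796) (ZL.cons (nat_lit 16112) (nat_lit 6) (nat_lit 125654085608601603874) (ZL.cons (nat_lit 16188) (nat_lit 6) (nat_lit 125611509675908310640) (ZL.cons (nat_lit 16264) (nat_lit 6) (nat_lit 125911833917522197178) (ZL.cons (nat_lit 16340) (nat_lit 6) (nat_lit 125637077633609908282) (ZL.cons (nat_lit 16416) (nat_lit 6) (nat_lit 125404773639383673948) (ZL.cons (nat_lit 16492) (nat_lit 6) (nat_lit 125214830835237915264) (ZL.cons (nat_lit 16568) (nat_lit 6) (nat_lit 125067174733798457420) (ZL.cons (nat_lit 16644) (nat_lit 6) (nat_lit 124961747430711794748) (ZL.cons (nat_lit 16720) (nat_lit 6) (nat_lit 124898507581937501106) (ZL.cons (nat_lit 16796) (nat_lit 3) (nat_lit 62438715193767440347) (ZL.cons (nat_lit 16872) (nat_lit 6) (nat_lit 125342060390014341998) (ZL.cons (nat_lit 16948) (nat_lit 6) (nat_lit 125048955139978227690)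 (ZL.cons (nat_lit 17024) (nat_lit 6) (nat_lit 124797935200305691436) (ZL.cons (nat_lit 17100) (nat_lit 6) (nat_lit 124588902131804704794) (ZL.cons (nat_lit 17176) (nat_lit 6) (nat_lit 124421773960722914434) (ZL.cons (nat_lit 17252) (nat_lit 6) (nat_lit 124296485146601072594) (ZL.cons (nat_lit 17328) (nat_lit 6) (nat_lit 124212986556570896202) (ZL.cons (nat_lit 17404) (nat_lit 6) (nat_lit 124171245446087275382) (ZL.cons (nat_lit 17480) (nat_lit 6) (nat_lit 124797229540554493764) (ZL.cons (nat_lit 17556) (nat_lit 6) (nat_lit 124486135108044040818) (ZL.cons (nat_lit 17632) (nat_lit 6) (nat_lit 124216766202247679152) (ZL.cons (nat_lit 17708) (nat_lit 6) (nat_lit 123989017188300390590) (ZL.cons (nat_lit 17784) (nat_lit 6) (nat_lit 123802798752863372272) (ZL.cons (nat_lit 17860) (nat_lit 6) (nat_lit 123658037869099197916) (ZL.cons (nat_lit 17936) (nat_lit 6) (nat_lit 123554677768033842356) (ZL.cons (nat_lit 18012)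 (nat_lit 6) (nat_lit 123492677916294338786) (ZL.cons (nat_lit 18088) (nat_lit 3) (nat_lit 61736007000106669189) (ZL.cons (nat_lit 18164) (nat_lit 6) (nat_lit 124277127709986001556) (ZL.cons (nat_lit 18240) (nat_lit 6) (nat_lit 123948396824069334258) (ZL.cons (nat_lit 18316) (nat_lit 6) (nat_lit 123661038735798633954) (ZL.cons (nat_lit 18392) (nat_lit 6) (nat_lit 123414940755727519980) (ZL.cons (nat_lit 18468) (nat_lit 6) (nat_lit 123210006374844199742) (ZL.cons (nat_lit 18544) (nat_lit 6) (nat_lit 123046155226724797428) (ZL.cons (nat_lit 18620) (nat_lit 6) (nat_lit 122923323056017109352) (ZL.cons (nat_lit 18696) (nat_lit 6) (nat_lit 122841461693242426614) (ZL.cons (nat_lit 18772) (nat_lit 6) (nat_lit 122800539035905543456) (ZL.cons (nat_lit 18848) (nat_lit 6) (nat_lit 123435529410295686558) (ZL.cons (nat_lit 18924) (nat_lit 6) (nat_lit 123130534868618771902) (ZL.cons (nat_lit 19000) (nat_lit 6) (nat_lit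 122866447706073319290) (ZL.cons (nat_lit 19076) (nat_lit 6) (nat_lit 122643164359066173640) (ZL.cons (nat_lit 19152) (nat_lit 6) (nat_lit 122460597265500469406) (ZL.cons (nat_lit 19228) (nat_lit 6) (nat_lit 122318674830437553372) (ZL.cons (nat_lit 19304) (nat_lit 6) (nat_lit 122217341398020538118) (ZL.cons (nat_lit 19380) (nat_lit 6) (nat_lit 122156557229648475792) (ZL.cons (nat_lit 19456) (nat_lit 3) (nat_lit 61068149244196296521) (ZL.cons (nat_lit 19532) (nat_lit 6) (nat_lit 122947331742247108052) (ZL.cons (nat_lit 19608) (nat_lit 6) (nat_lit 122625046559975865600) (ZL.cons (nat_lit 19684) (nat_lit 6) (nat_lit 122343322944024198636) (ZL.cons (nat_lit 19760) (nat_lit 6) (nat_lit 122102050414542714348) (ZL.cons (nat_lit 19836) (nat_lit 6) (nat_lit 121901134354853184702) (ZL.cons (nat_lit 19912) (nat_lit 6) (nat_lit 121740495974343966748) (ZL.cons (nat_lit 19988) (nat_lit 6) (nat_lit 121620072277571723536)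 (ZL.cons (nat_lit 20064) (nat_lit 6) (nat_lit 121539816039557328694) (ZL.cons (nat_lit 20140) (nat_lit 6) (nat_lit 121499695787266266776) (ZL.cons (nat_lit 20216) (nat_lit 6) (nat_lit 122483612369857697334) (ZL.cons (nat_lit 20292) (nat_lit 6) (nat_lit 122144375579160643318) (ZL.cons (nat_lit 20368) (nat_lit 6) (nat_lit 121845361322614648558) (ZL.cons (nat_lit 20444) (nat_lit 6) (nat_lit 121586452339726949918) (ZL.cons (nat_lit 20520) (nat_lit 6) (nat_lit 121367547097563081634) (ZL.cons (nat_lit 20596) (nat_lit 6) (nat_lit 121188559750930038268) (ZL.cons (nat_lit 20672) (nat_lit 6) (nat_lit 121049420108711493136) (ZL.cons (nat_lit 20748) (nat_lit 6) (nat_lit 120950073606341870336) (ZL.cons (nat_lit 20824) (nat_lit 6) (nat_lit 120890481284408475902) (ZL.cons (nat_lit 20900) (nat_lit 3) (nat_lit 60435309886686648367) (ZL.cons (nat_lit 20976) (nat_lit 6) (nat_lit 122044189442393184048) (ZL.cons (nat_lit 21052)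 (nat_lit 6) (nat_lit 121688333427749255950) (ZL.cons (nat_lit 21128) (nat_lit 6) (nat_lit 121372367562777449626) (ZL.cons (nat_lit 21204) (nat_lit 6) (nat_lit 121096167939295423190) (ZL.cons (nat_lit 21280) (nat_lit 6) (nat_lit 120859626243725340554) (ZL.cons (nat_lit 21356) (nat_lit 6) (nat_lit 120662649714617958550) (ZL.cons (nat_lit 21432) (nat_lit 6) (nat_lit 120505161106275588006) (ZL.cons (nat_lit 21508) (nat_lit 6) (nat_lit 120387098658459663286) (ZL.cons (nat_lit 21584) (nat_lit 6) (nat_lit 120308416072171040894) (ZL.cons (nat_lit 21660) (nat_lit 6) (nat_lit 120269082491493529210) (ZL.cons (nat_lit 21736) (nat_lit 6) (nat_lit 121628890637136915446) (ZL.cons (nat_lit 21812) (nat_lit 6) (nat_lit 121256741265682326482) (ZL.cons (nat_lit 21888) (nat_lit 6) (nat_lit 120924156176763646076) (ZL.cons (nat_lit 21964) (nat_lit 6) (nat_lit 120631004944855808076) (ZL.cons (nat_lit 22040) (nat_lit 6) (nat_lit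 120377172608691397644) (ZL.cons (nat_lit 22116) (nat_lit 6) (nat_lit 120162559626177801288) (ZL.cons (nat_lit 22192) (nat_lit 6) (nat_lit 119987081835361092106) (ZL.cons (nat_lit 22268) (nat_lit 6) (nat_lit 119850670421421341974) (ZL.cons (nat_lit 22344) (nat_lit 6) (nat_lit 119753271889686417662) (ZL.cons (nat_lit 22420) (nat_lit 6) (nat_lit 119694848044653678020) (ZL.cons (nat_lit 22496) (nat_lit 3) (nat_lit 59837687987505672752) (ZL.cons (nat_lit 22572) (nat_lit 6) (nat_lit 120849429841131593374) (ZL.cons (nat_lit 22648) (nat_lit 6) (nat_lit 120500551395402252102) (ZL.cons (nat_lit 22724) (nat_lit 6) (nat_lit 120190780939547540020) (ZL.cons (nat_lit 22800) (nat_lit 6) (nat_lit 119919996994957318024) (ZL.cons (nat_lit 22876) (nat_lit 6) (nat_lit 119688093371849393872) (ZL.cons (nat_lit 22952) (nat_lit 6) (nat_lit 119494979127626470338) (ZL.cons (nat_lit 23028) (nat_lit 6) (nat_lit 119340578531212381568)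 (ZL.cons (nat_lit 23104) (nat_lit 6) (nat_lit 119224831033353631844) (ZL.cons (nat_lit 23180) (nat_lit 6) (nat_lit 119147691242874590282) (ZL.cons (nat_lit 23256) (nat_lit 6) (nat_lit 119109128908877029808) (ZL.cons (nat_lit 23332) (nat_lit 6) (nat_lit 120466239424126644572) (ZL.cons (nat_lit 23408) (nat_lit 6) (nat_lit 120101387099171165196) (ZL.cons (nat_lit 23484) (nat_lit 6) (nat_lit 119775323286505792248) (ZL.cons (nat_lit 23560) (nat_lit 6) (nat_lit 119487920117968696170) (ZL.cons (nat_lit 23636) (nat_lit 6) (nat_lit 119239064886434960454) (ZL.cons (nat_lit 23712) (nat_lit 6) (nat_lit 119028660001617709124) (ZL.cons (nat_lit 23788) (nat_lit 6) (nat_lit 118856622951797406002) (ZL.cons (nat_lit 23864) (nat_lit 6) (nat_lit 118722886271464317640) (ZL.cons (nat_lit 23940) (nat_lit 6) (nat_lit 118627397514861450666) (ZL.cons (nat_lit 24016) (nat_lit 6) (nat_lit 118570119235417588272) (ZL.cons (nat_lit 24092)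 (nat_lit 3) (nat_lit 59275514485531180157) (ZL.cons (nat_lit 24168) (nat_lit 6) (nat_lit 120107019743915713430) (ZL.cons (nat_lit 24244) (nat_lit 6) (nat_lit 119726506753052255522) (ZL.cons (nat_lit 24320) (nat_lit 6) (nat_lit 119384469061160744470) (ZL.cons (nat_lit 24396) (nat_lit 6) (nat_lit 119080772535812987526) (ZL.cons (nat_lit 24472) (nat_lit 6) (nat_lit 118815298080332377728) (ZL.cons (nat_lit 24548) (nat_lit 6) (nat_lit 118587941587089314834) (ZL.cons (nat_lit 24624) (nat_lit 6) (nat_lit 118398613896674683916) (ZL.cons (nat_lit 24700) (nat_lit 6) (nat_lit 118247240762935381202) (ZL.cons (nat_lit 24776) (nat_lit 6) (nat_lit 118133762823858175590) (ZL.cons (nat_lit 24852) (nat_lit 6) (nat_lit 118058135578290487784) (ZL.cons (nat_lit 24928) (nat_lit 6) (nat_lit 118020329368488957906) (ZL.cons (nat_lit 25004) (nat_lit 6) (nat_lit 119771629930035972130) (ZL.cons (nat_lit 25080) (nat_lit 6) (nat_lit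 119375763345145084288) (ZL.cons (nat_lit 25156) (nat_lit 6) (nat_lit 119018064987345594704) (ZL.cons (nat_lit 25232) (nat_lit 6) (nat_lit 118698394582771699656) (ZL.cons (nat_lit 25308) (nat_lit 6) (nat_lit 118416626770480428992) (ZL.cons (nat_lit 25384) (nat_lit 6) (nat_lit 118172651053290492016) (ZL.cons (nat_lit 25460) (nat_lit 6) (nat_lit 117966371754450049534) (ZL.cons (nat_lit 25536) (nat_lit 6) (nat_lit 117797707980116419024) (ZL.cons (nat_lit 25612) (nat_lit 6) (nat_lit 117666593587632999060) (ZL.cons (nat_lit 25688) (nat_lit 6) (nat_lit 117572977159590972616) (ZL.cons (nat_lit 25764) (nat_lit 6) (nat_lit 117516821983665617326) (ZL.cons (nat_lit 25840) (nat_lit 3) (nat_lit 58749053019109657703) (ZL.cons (nat_lit 25916) (nat_lit 6) (nat_lit 119459938457070212934) (ZL.cons (nat_lit 25992) (nat_lit 6) (nat_lit 119049019329015178098) (ZL.cons (nat_lit 26068) (nat_lit 6) (nat_lit 118675967377188258580)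 (ZL.cons (nat_lit 26144) (nat_lit 6) (nat_lit 118340636306706385000) (ZL.cons (nat_lit 26220) (nat_lit 6) (nat_lit 118042894615188976232) (ZL.cons (nat_lit 26296) (nat_lit 6) (nat_lit 117782625541188378390) (ZL.cons (nat_lit 26372) (nat_lit 6) (nat_lit 117559727018401061826) (ZL.cons (nat_lit 26448) (nat_lit 6) (nat_lit 117374111635641619752) (ZL.cons (nat_lit 26524) (nat_lit 6) (nat_lit 117225706602563871992) (ZL.cons (nat_lit 26600) (nat_lit 6) (nat_lit 117114453721115631196) (ZL.cons (nat_lit 26676) (nat_lit 6) (nat_lit 117040309362715937268) (ZL.cons (nat_lit 26752) (nat_lit 6) (nat_lit 117003244451145809936) (ZL.cons (nat_lit 26904) (nat_lit 6) (nat_lit 118746146569754250712) (ZL.cons (nat_lit 26980) (nat_lit 6) (nat_lit 118358042074763184200) (ZL.cons (nat_lit 27056) (nat_lit 6) (nat_lit 118007357410253880686) (ZL.cons (nat_lit 27132) (nat_lit 6) (nat_lit 117693955052828493386) (ZL.cons (nat_lit 27208)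 (nat_lit 6) (nat_lit 117417712099601757440) (ZL.cons (nat_lit 27284) (nat_lit 6) (nat_lit 117178520220003780010) (ZL.cons (nat_lit 27360) (nat_lit 6) (nat_lit 116976285613297463854) (ZL.cons (nat_lit 27436) (nat_lit 6) (nat_lit 116810928971793904530) (ZL.cons (nat_lit 27512) (nat_lit 6) (nat_lit 116682385449751335938) (ZL.cons (nat_lit 27588) (nat_lit 6) (nat_lit 116590604637945427658) (ZL.cons (nat_lit 27664) (nat_lit 6) (nat_lit 116535550543900961688) (ZL.cons (nat_lit 27740) (nat_lit 3) (nat_lit 58258600788888568138) (ZL.cons (nat_lit 27816) (nat_lit 6) (nat_lit 116939646840957458466) (ZL.cons (nat_lit 27892) (nat_lit 6) (nat_lit 116962690892929159732) (ZL.cons (nat_lit 27968) (nat_lit 6) (nat_lit 117008788033755688422) (ZL.cons (nat_lit 28044) (nat_lit 6) (nat_lit 117077956340747172590) (ZL.cons (nat_lit 28120) (nat_lit 6) (nat_lit 117170222938729883404) (ZL.cons (nat_lit 28196) (nat_lit 6) (nat_lit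 117285624010683421922) (ZL.cons (nat_lit 28272) (nat_lit 6) (nat_lit 117424204811930122872) (ZL.cons (nat_lit 28348) (nat_lit 6) (nat_lit 117586019687882239860) (ZL.cons (nat_lit 28424) (nat_lit 6) (nat_lit 117771132095353871754) (ZL.cons (nat_lit 28500) (nat_lit 6) (nat_lit 117979614627445987822) (ZL.cons (nat_lit 28576) (nat_lit 6) (nat_lit 118211549042014310464) (ZL.cons (nat_lit 28652) (nat_lit 6) (nat_lit 118467026293731219414) (ZL.cons (nat_lit 28728) (nat_lit 6) (nat_lit 118064164403481185260) (ZL.cons (nat_lit 28804) (nat_lit 6) (nat_lit 117698427195807734752) (ZL.cons (nat_lit 28880) (nat_lit 6) (nat_lit 117369671244354917518) (ZL.cons (nat_lit 28956) (nat_lit 6) (nat_lit 117077767625220203040) (ZL.cons (nat_lit 29032) (nat_lit 6) (nat_lit 116822601866396087506) (ZL.cons (nat_lit 29108) (nat_lit 6) (nat_lit 116604073902879110484) (ZL.cons (nat_lit 29184) (nat_lit 6) (nat_lit 116422098037428677078)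 (ZL.cons (nat_lit 29260) (nat_lit 6) (nat_lit 116276602906960296922) (ZL.cons (nat_lit 29336) (nat_lit 6) (nat_lit 116167531454560060846) (ZL.cons (nat_lit 29412) (nat_lit 6) (nat_lit 116094840907109380524) (ZL.cons (nat_lit 29488) (nat_lit 6) (nat_lit 116058502758511216474) (ZL.cons (nat_lit 29564) (nat_lit 3) (nat_lit 58190360230155948012) (ZL.cons (nat_lit 29640) (nat_lit 6) (nat_lit 116392356565762953098) (ZL.cons (nat_lit 29716) (nat_lit 6) (nat_lit 116427269445294732582) (ZL.cons (nat_lit 29792) (nat_lit 6) (nat_lit 116485472790232541054) (ZL.cons (nat_lit 29868) (nat_lit 6) (nat_lit 116566989425417530600) (ZL.cons (nat_lit 29944) (nat_lit 6) (nat_lit 116671851318157616896) (ZL.cons (nat_lit 30020) (nat_lit 6) (nat_lit 116800099590763678410) (ZL.cons (nat_lit 30096) (nat_lit 6) (nat_lit 116951784536675952814) (ZL.cons (nat_lit 30172) (nat_lit 6) (nat_lit 117126965640186954724) (ZL.cons (nat_lit 30248)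 (nat_lit 6) (nat_lit 117325711599768649240) (ZL.cons (nat_lit 30324) (nat_lit 6) (nat_lit 117548100355013029182) (ZL.cons (nat_lit 30400) (nat_lit 6) (nat_lit 117794219117196660978) (ZL.cons (nat_lit 30476) (nat_lit 6) (nat_lit 117413724514264242828) (ZL.cons (nat_lit 30552) (nat_lit 6) (nat_lit 117069916019647278600) (ZL.cons (nat_lit 30628) (nat_lit 6) (nat_lit 116762658806485134188) (ZL.cons (nat_lit 30704) (nat_lit 6) (nat_lit 116491832381753040122) (ZL.cons (nat_lit 30780) (nat_lit 6) (nat_lit 116257330539009924996) (ZL.cons (nat_lit 30856) (nat_lit 6) (nat_lit 116059061316748830724) (ZL.cons (nat_lit 30932) (nat_lit 6) (nat_lit 115896946962333576486) (ZL.cons (nat_lit 31008) (nat_lit 6) (nat_lit 115770923901507528846) (ZL.cons (nat_lit 31084) (nat_lit 6) (nat_lit 115680942713462520728) (ZL.cons (nat_lit 31160) (nat_lit 6) (nat_lit 115626968111458142326) (ZL.cons (nat_lit 31236) (nat_lit 3) (nat_lit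 57804489464491901844) (ZL.cons (nat_lit 31312) (nat_lit 6) (nat_lit 115855797472435006660) (ZL.cons (nat_lit 31388) (nat_lit 6) (nat_lit 115879302405446141952) (ZL.cons (nat_lit 31464) (nat_lit 6) (nat_lit 115926321489089201218) (ZL.cons (nat_lit 31540) (nat_lit 6) (nat_lit 115996873162220515068) (ZL.cons (nat_lit 31616) (nat_lit 6) (nat_lit 116090985092162880096) (ZL.cons (nat_lit 31692) (nat_lit 6) (nat_lit 116208694185555489388) (ZL.cons (nat_lit 31768) (nat_lit 6) (nat_lit 116350046602827124356) (ZL.cons (nat_lit 31844) (nat_lit 6) (nat_lit 116515097776298283682) (ZL.cons (nat_lit 31920) (nat_lit 6) (nat_lit 116703912431919348214) (ZL.cons (nat_lit 31996) (nat_lit 6) (nat_lit 116916564614653306604) (ZL.cons (nat_lit 32072) (nat_lit 6) (nat_lit 117153137717512995700) (ZL.cons (nat_lit 32148) (nat_lit 6) (nat_lit 116794571827637063830) (ZL.cons (nat_lit 32224) (nat_lit 6) (nat_lit 116472262071310772424)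 (ZL.cons (nat_lit 32300) (nat_lit 6) (nat_lit 116186082052551248424) (ZL.cons (nat_lit 32376) (nat_lit 6) (nat_lit 115935919543900154766) (ZL.cons (nat_lit 32452) (nat_lit 6) (nat_lit 115721676442412922390) (ZL.cons (nat_lit 32528) (nat_lit 6) (nat_lit 115543268731187007286) (ZL.cons (nat_lit 32604) (nat_lit 6) (nat_lit 115400626446414085564) (ZL.cons (nat_lit 32680) (nat_lit 6) (nat_lit 115293693649943265882) (ZL.cons (nat_lit 32756) (nat_lit 6) (nat_lit 115222428407344559684) (ZL.cons (nat_lit 32832) (nat_lit 6) (nat_lit 115186802771464006694) (ZL.cons (nat_lit 32908) (nat_lit 3) (nat_lit 57676401598807301788) (ZL.cons (nat_lit 32984) (nat_lit 6) (nat_lit 115364672025174681794) (ZL.cons (nat_lit 33060) (nat_lit 6) (nat_lit 115400283162297096868) (ZL.cons (nat_lit 33136) (nat_lit 6) (nat_lit 115459650574133661512) (ZL.cons (nat_lit 33212) (nat_lit 6) (nat_lit 115542797542022350844) (ZL.cons (nat_lit 33288)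 (nat_lit 6) (nat_lit 115649756672617238868) (ZL.cons (nat_lit 33364) (nat_lit 6) (nat_lit 115780569910675421614) (ZL.cons (nat_lit 33440) (nat_lit 6) (nat_lit 115935288555505941504) (ZL.cons (nat_lit 33516) (nat_lit 6) (nat_lit 116113973281087163452) (ZL.cons (nat_lit 33592) (nat_lit 6) (nat_lit 116316694159860491858) (ZL.cons (nat_lit 33668) (nat_lit 6) (nat_lit 116543530690209759402) (ZL.cons (nat_lit 33744) (nat_lit 6) (nat_lit 116206463538624500354) (ZL.cons (nat_lit 33820) (nat_lit 6) (nat_lit 115905230976700829360) (ZL.cons (nat_lit 33896) (nat_lit 6) (nat_lit 115639714874022305768) (ZL.cons (nat_lit 33972) (nat_lit 6) (nat_lit 115409811106627094860) (ZL.cons (nat_lit 34048) (nat_lit 6) (nat_lit 115215429516175041652) (ZL.cons (nat_lit 34124) (nat_lit 6) (nat_lit 115056493874591459064) (ZL.cons (nat_lit 34200) (nat_lit 6) (nat_lit 114932941854173765300) (ZL.cons (nat_lit 34276) (nat_lit 6) (nat_lit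 114844725003149247538) (ZL.cons (nat_lit 34352) (nat_lit 6) (nat_lit 114791808726674366752) (ZL.cons (nat_lit 34428) (nat_lit 3) (nat_lit 57387086136634076200) (ZL.cons (nat_lit 34504) (nat_lit 6) (nat_lit 114883176488644951532) (ZL.cons (nat_lit 34580) (nat_lit 6) (nat_lit 114907151520316309532) (ZL.cons (nat_lit 34656) (nat_lit 6) (nat_lit 114955110985632229984) (ZL.cons (nat_lit 34732) (nat_lit 6) (nat_lit 115027073692226170110) (ZL.cons (nat_lit 34808) (nat_lit 6) (nat_lit 115123067860767382438) (ZL.cons (nat_lit 34884) (nat_lit 6) (nat_lit 115243131136027843916) (ZL.cons (nat_lit 34960) (nat_lit 6) (nat_lit 115387310601644911584) (ZL.cons (nat_lit 35036) (nat_lit 6) (nat_lit 115555662798585494096) (ZL.cons (nat_lit 35112) (nat_lit 6) (nat_lit 115748253747318979918) (ZL.cons (nat_lit 35188) (nat_lit 6) (nat_lit 115965158973707617478) (ZL.cons (nat_lit 35264) (nat_lit 6) (nat_lit 115649169016524978842)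 (ZL.cons (nat_lit 35340) (nat_lit 6) (nat_lit 115368600370682308256) (ZL.cons (nat_lit 35416) (nat_lit 6) (nat_lit 115123343009259667414) (ZL.cons (nat_lit 35492) (nat_lit 6) (nat_lit 114913300752899635674) (ZL.cons (nat_lit 35568) (nat_lit 6) (nat_lit 114738391232089914982) (ZL.cons (nat_lit 35644) (nat_lit 6) (nat_lit 114598545854861560352) (ZL.cons (nat_lit 35720) (nat_lit 6) (nat_lit 114493709779890168508) (ZL.cons (nat_lit 35796) (nat_lit 6) (nat_lit 114423841894989476158) (ZL.cons (nat_lit 35872) (nat_lit 6) (nat_lit 114388914800988934010) (ZL.cons (nat_lit 35948) (nat_lit 3) (nat_lit 57217313487038959950) (ZL.cons (nat_lit 36024) (nat_lit 6) (nat_lit 114446733178189199682) (ZL.cons (nat_lit 36100) (nat_lit 6) (nat_lit 114483056538054063060) (ZL.cons (nat_lit 36176) (nat_lit 6) (nat_lit 114543611298127358994) (ZL.cons (nat_lit 36252) (nat_lit 6) (nat_lit 114628421205373822116) (ZL.cons (nat_lit 36328)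 (nat_lit 6) (nat_lit 114737519518580607898) (ZL.cons (nat_lit 36404) (nat_lit 6) (nat_lit 114870949021399954298) (ZL.cons (nat_lit 36480) (nat_lit 6) (nat_lit 115028762039127084588) (ZL.cons (nat_lit 36556) (nat_lit 6) (nat_lit 115211020459219930974) (ZL.cons (nat_lit 36632) (nat_lit 6) (nat_lit 115417795755568725950) (ZL.cons (nat_lit 36708) (nat_lit 6) (nat_lit 115122469714467087722) (ZL.cons (nat_lit 36784) (nat_lit 6) (nat_lit 114862159809880299886) (ZL.cons (nat_lit 36860) (nat_lit 6) (nat_lit 114636763959492838212) (ZL.cons (nat_lit 36936) (nat_lit 6) (nat_lit 114446193772775138988) (ZL.cons (nat_lit 37012) (nat_lit 6) (nat_lit 114290374516320646254) (ZL.cons (nat_lit 37088) (nat_lit 6) (nat_lit 114169245084538593544) (ZL.cons (nat_lit 37164) (nat_lit 6) (nat_lit 114082757975691027112) (ZL.cons (nat_lit 37240) (nat_lit 6) (nat_lit 114030879273264673400) (ZL.cons (nat_lit 37316) (nat_lit 3) (nat_lit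 57006794316335172802) (ZL.cons (nat_lit 37392) (nat_lit 6) (nat_lit 114018847579703168458) (ZL.cons (nat_lit 37468) (nat_lit 6) (nat_lit 114043302112007953618) (ZL.cons (nat_lit 37544) (nat_lit 6) (nat_lit 114092220766630192478) (ZL.cons (nat_lit 37620) (nat_lit 6) (nat_lit 114165622727356011408) (ZL.cons (nat_lit 37696) (nat_lit 6) (nat_lit 114263536779268047984) (ZL.cons (nat_lit 37772) (nat_lit 6) (nat_lit 114386001320033718688) (ZL.cons (nat_lit 37848) (nat_lit 6) (nat_lit 114533064374963127710) (ZL.cons (nat_lit 37924) (nat_lit 6) (nat_lit 114704783615842521874) (ZL.cons (nat_lit 38000) (nat_lit 6) (nat_lit 114901226383550677414) (ZL.cons (nat_lit 38076) (nat_lit 6) (nat_lit 114626159083704921936) (ZL.cons (nat_lit 38152) (nat_lit 6) (nat_lit 114385710690153313268) (ZL.cons (nat_lit 38228) (nat_lit 6) (nat_lit 114179786909408184110) (ZL.cons (nat_lit 38304) (nat_lit 6) (nat_lit 114008306987045712844)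 (ZL.cons (nat_lit 38380) (nat_lit 6) (nat_lit 113871203676037522030) (ZL.cons (nat_lit 38456) (nat_lit 6) (nat_lit 113768423210379294732) (ZL.cons (nat_lit 38532) (nat_lit 6) (nat_lit 113699925284006066938) (ZL.cons (nat_lit 38608) (nat_lit 6) (nat_lit 113665683034985927578) (ZL.cons (nat_lit 38684) (nat_lit 3) (nat_lit 56811663463292149883) (ZL.cons (nat_lit 38760) (nat_lit 6) (nat_lit 113635675254777805144) (ZL.cons (nat_lit 38836) (nat_lit 6) (nat_lit 113672725081839965786) (ZL.cons (nat_lit 38912) (nat_lit 6) (nat_lit 113734490937114727642) (ZL.cons (nat_lit 38988) (nat_lit 6) (nat_lit 113820997042506120026) (ZL.cons (nat_lit 39064) (nat_lit 6) (nat_lit 113932277321977041524) (ZL.cons (nat_lit 39140) (nat_lit 6) (nat_lit 114068375414852774850) (ZL.cons (nat_lit 39216) (nat_lit 6) (nat_lit 114229344692934447746) (ZL.cons (nat_lit 39292) (nat_lit 6) (nat_lit 114415248281429151064) (ZL.cons (nat_lit 39368)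 (nat_lit 6) (nat_lit 114160042492618574754) (ZL.cons (nat_lit 39444) (nat_lit 6) (nat_lit 113939066168709298602) (ZL.cons (nat_lit 39520) (nat_lit 6) (nat_lit 113752232652319397402) (ZL.cons (nat_lit 39596) (nat_lit 6) (nat_lit 113599468675403228056) (ZL.cons (nat_lit 39672) (nat_lit 6) (nat_lit 113480714330518862654) (ZL.cons (nat_lit 39748) (nat_lit 6) (nat_lit 113395923047334973994) (ZL.cons (nat_lit 39824) (nat_lit 6) (nat_lit 113345061574367960552) (ZL.cons (nat_lit 39900) (nat_lit 3) (nat_lit 56664054982971074494) (ZL.cons (nat_lit 39976) (nat_lit 6) (nat_lit 113260016112694115620) (ZL.cons (nat_lit 40052) (nat_lit 6) (nat_lit 113284959735644996480) (ZL.cons (nat_lit 40128) (nat_lit 6) (nat_lit 113334856763359680118) (ZL.cons (nat_lit 40204) (nat_lit 6) (nat_lit 113409726763300015428) (ZL.cons (nat_lit 40280) (nat_lit 6) (nat_lit 113509599096250292734) (ZL.cons (nat_lit 40356) (nat_lit 6) (nat_lit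 113634512927831276854) (ZL.cons (nat_lit 40432) (nat_lit 6) (nat_lit 113784517243859274054) (ZL.cons (nat_lit 40508) (nat_lit 6) (nat_lit 113959670869556256104) (ZL.cons (nat_lit 40584) (nat_lit 6) (nat_lit 113723937150388012310) (ZL.cons (nat_lit 40660) (nat_lit 6) (nat_lit 113522051090833964116) (ZL.cons (nat_lit 40736) (nat_lit 6) (nat_lit 113353933519890364836) (ZL.cons (nat_lit 40812) (nat_lit 6) (nat_lit 113219518509098020902) (ZL.cons (nat_lit 40888) (nat_lit 6) (nat_lit 113118753346687994138) (ZL.cons (nat_lit 40964) (nat_lit 6) (nat_lit 113051598516910319830) (ZL.cons (nat_lit 41040) (nat_lit 6) (nat_lit 113018027684537634184) (ZL.cons (nat_lit 41116) (nat_lit 3) (nat_lit 56458088684223131995) (ZL.cons (nat_lit 41192) (nat_lit 6) (nat_lit 112928772663203639472) (ZL.cons (nat_lit 41268) (nat_lit 6) (nat_lit 112966563486807043328) (ZL.cons (nat_lit 41344) (nat_lit 6) (nat_lit 113029564659187300420)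 (ZL.cons (nat_lit 41420) (nat_lit 6) (nat_lit 113117800886686520652) (ZL.cons (nat_lit 41496) (nat_lit 6) (nat_lit 113231306771746860580) (ZL.cons (nat_lit 41572) (nat_lit 6) (nat_lit 113370126826480108574) (ZL.cons (nat_lit 41648) (nat_lit 6) (nat_lit 113534315490123414928) (ZL.cons (nat_lit 41724) (nat_lit 6) (nat_lit 113317672035310399092) (ZL.cons (nat_lit 41800) (nat_lit 6) (nat_lit 113134501921202652818) (ZL.cons (nat_lit 41876) (nat_lit 6) (nat_lit 112984733316382878950) (ZL.cons (nat_lit 41952) (nat_lit 6) (nat_lit 112868307488064873654) (ZL.cons (nat_lit 42028) (nat_lit 6) (nat_lit 112785178779061061242) (ZL.cons (nat_lit 42104) (nat_lit 6) (nat_lit 112735314589877714730) (ZL.cons (nat_lit 42180) (nat_lit 3) (nat_lit 56359347682965420324) (ZL.cons (nat_lit 42256) (nat_lit 6) (nat_lit 112604024183311015800) (ZL.cons (nat_lit 42332) (nat_lit 6) (nat_lit 112629466678720914278) (ZL.cons (nat_lit 42408)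 (nat_lit 6) (nat_lit 112680361646989891588) (ZL.cons (nat_lit 42484) (nat_lit 6) (nat_lit 112756729046929033602) (ZL.cons (nat_lit 42560) (nat_lit 6) (nat_lit 112858598826538316456) (ZL.cons (nat_lit 42636) (nat_lit 6) (nat_lit 112986010934750920258) (ZL.cons (nat_lit 42712) (nat_lit 6) (nat_lit 113139015337099477406) (ZL.cons (nat_lit 42788) (nat_lit 6) (nat_lit 112941087827732763490) (ZL.cons (nat_lit 42864) (nat_lit 6) (nat_lit 112776266679748842628) (ZL.cons (nat_lit 42940) (nat_lit 6) (nat_lit 112644487257403407398) (ZL.cons (nat_lit 43016) (nat_lit 6) (nat_lit 112545697882491616454) (ZL.cons (nat_lit 43092) (nat_lit 6) (nat_lit 112479859814082131838) (ZL.cons (nat_lit 43168) (nat_lit 6) (nat_lit 112446947233324596890) (ZL.cons (nat_lit 43244) (nat_lit 3) (nat_lit 56155293471811034765) (ZL.cons (nat_lit 43320) (nat_lit 6) (nat_lit 112323434144274592526) (ZL.cons (nat_lit 43396) (nat_lit 6) (nat_lit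 112361980784350064458) (ZL.cons (nat_lit 43472) (nat_lit 6) (nat_lit 112426241980177926690) (ZL.cons (nat_lit 43548) (nat_lit 6) (nat_lit 112516242932227131326) (ZL.cons (nat_lit 43624) (nat_lit 6) (nat_lit 112632018934988678054) (ZL.cons (nat_lit 43700) (nat_lit 6) (nat_lit 112773615390816591010) (ZL.cons (nat_lit 43776) (nat_lit 6) (nat_lit 112594036847573702506) (ZL.cons (nat_lit 43852) (nat_lit 6) (nat_lit 112447204882064120282) (ZL.cons (nat_lit 43928) (nat_lit 6) (nat_lit 112333061913124899404) (ZL.cons (nat_lit 44004) (nat_lit 6) (nat_lit 112251563178807436256) (ZL.cons (nat_lit 44080) (nat_lit 6) (nat_lit 112202676718823763204) (ZL.cons (nat_lit 44156) (nat_lit 3) (nat_lit 56093191681006551169) (ZL.cons (nat_lit 44232) (nat_lit 6) (nat_lit 112048345870709471668) (ZL.cons (nat_lit 44308) (nat_lit 6) (nat_lit 112074297216027568118) (ZL.cons (nat_lit 44384) (nat_lit 6) (nat_lit 112126210083661924972)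 (ZL.cons (nat_lit 44460) (nat_lit 6) (nat_lit 112204104831599849826) (ZL.cons (nat_lit 44536) (nat_lit 6) (nat_lit 112308012006801318336) (ZL.cons (nat_lit 44612) (nat_lit 6) (nat_lit 112437972357178174218) (ZL.cons (nat_lit 44688) (nat_lit 6) (nat_lit 112276382996409624352) (ZL.cons (nat_lit 44764) (nat_lit 6) (nat_lit 112147187484306256480) (ZL.cons (nat_lit 44840) (nat_lit 6) (nat_lit 112050335155961363398) (ZL.cons (nat_lit 44916) (nat_lit 6) (nat_lit 111985788030069711814) (ZL.cons (nat_lit 44992) (nat_lit 6) (nat_lit 111953520794032912844) (ZL.cons (nat_lit 45068) (nat_lit 3) (nat_lit 55902046990135606222) (ZL.cons (nat_lit 45144) (nat_lit 6) (nat_lit 111817198124936785898) (ZL.cons (nat_lit 45220) (nat_lit 6) (nat_lit 111856515697813767270) (ZL.cons (nat_lit 45296) (nat_lit 6) (nat_lit 111922062117558186746) (ZL.cons (nat_lit 45372) (nat_lit 6) (nat_lit 112013863088648375474) (ZL.cons (nat_lit 45448)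 (nat_lit 6) (nat_lit 112131954611465153138) (ZL.cons (nat_lit 45524) (nat_lit 6) (nat_lit 111988001704102817624) (ZL.cons (nat_lit 45600) (nat_lit 6) (nat_lit 111876096832593777548) (ZL.cons (nat_lit 45676) (nat_lit 6) (nat_lit 111796196112674696030) (ZL.cons (nat_lit 45752) (nat_lit 6) (nat_lit 111748268210729918528) (ZL.cons (nat_lit 45828) (nat_lit 3) (nat_lit 55866147165751890212) (ZL.cons (nat_lit 45904) (nat_lit 6) (nat_lit 111590582687904741026) (ZL.cons (nat_lit 45980) (nat_lit 6) (nat_lit 111617053060129199402) (ZL.cons (nat_lit 46056) (nat_lit 6) (nat_lit 111670004185116243396) (ZL.cons (nat_lit 46132) (nat_lit 6) (nat_lit 111749456828012926746) (ZL.cons (nat_lit 46208) (nat_lit 6) (nat_lit 111855442146718424628) (ZL.cons (nat_lit 46284) (nat_lit 6) (nat_lit 111728779879950416910) (ZL.cons (nat_lit 46360) (nat_lit 6) (nat_lit 111633826616867188398) (ZL.cons (nat_lit 46436) (nat_lit 6) (nat_lit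 111570545120894980962) (ZL.cons (nat_lit 46512) (nat_lit 6) (nat_lit 111538910575760864326) (ZL.cons (nat_lit 46588) (nat_lit 3) (nat_lit 55697181018066298702) (ZL.cons (nat_lit 46664) (nat_lit 6) (nat_lit 111407728263691482326) (ZL.cons (nat_lit 46740) (nat_lit 6) (nat_lit 111447832188026003324) (ZL.cons (nat_lit 46816) (nat_lit 6) (nat_lit 111514689536165311192) (ZL.cons (nat_lit 46892) (nat_lit 6) (nat_lit 111608326526677303696) (ZL.cons (nat_lit 46968) (nat_lit 6) (nat_lit 111498615868335107542) (ZL.cons (nat_lit 47044) (nat_lit 6) (nat_lit 111420281829198753112) (ZL.cons (nat_lit 47120) (nat_lit 6) (nat_lit 111373293690037206542) (ZL.cons (nat_lit 47196) (nat_lit 3) (nat_lit 55678816512064614005) (ZL.cons (nat_lit 47272) (nat_lit 6) (nat_lit 111228459220345150268) (ZL.cons (nat_lit 47348) (nat_lit 6) (nat_lit 111255459000014097812) (ZL.cons (nat_lit 47424) (nat_lit 6) (nat_lit 111309469147500882684)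 (ZL.cons (nat_lit 47500) (nat_lit 6) (nat_lit 111390510843255499706) (ZL.cons (nat_lit 47576) (nat_lit 6) (nat_lit 111297419408860177634) (ZL.cons (nat_lit 47652) (nat_lit 6) (nat_lit 111235378726534484070) (ZL.cons (nat_lit 47728) (nat_lit 6) (nat_lit 111204364466599075604) (ZL.cons (nat_lit 47804) (nat_lit 3) (nat_lit 55539587814252288607) (ZL.cons (nat_lit 47880) (nat_lit 6) (nat_lit 111092809180614639836) (ZL.cons (nat_lit 47956) (nat_lit 6) (nat_lit 111133715183435851254) (ZL.cons (nat_lit 48032) (nat_lit 6) (nat_lit 111201909678537945280) (ZL.cons (nat_lit 48108) (nat_lit 6) (nat_lit 111125111600953284074) (ZL.cons (nat_lit 48184) (nat_lit 6) (nat_lit 111079044797853728614) (ZL.cons (nat_lit 48260) (nat_lit 3) (nat_lit 55531845601913149340) (ZL.cons (nat_lit 48336) (nat_lit 6) (nat_lit 110959818945584727648) (ZL.cons (nat_lit 48412) (nat_lit 6) (nat_lit 110987358720847054144) (ZL.cons (nat_lit 48488)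 (nat_lit 6) (nat_lit 111042449071283574716) (ZL.cons (nat_lit 48564) (nat_lit 6) (nat_lit 110981624872925051614) (ZL.cons (nat_lit 48640) (nat_lit 6) (nat_lit 110951218735733474686) (ZL.cons (nat_lit 48716) (nat_lit 3) (nat_lit 55428218070945508093) (ZL.cons (nat_lit 48792) (nat_lit 6) (nat_lit 110870342365043280060) (ZL.cons (nat_lit 48868) (nat_lit 6) (nat_lit 110912066487920915710) (ZL.cons (nat_lit 48944) (nat_lit 6) (nat_lit 110866902955470371140) (ZL.cons (nat_lit 49020) (nat_lit 3) (nat_lit 55425925206153112073) (ZL.cons (nat_lit 49096) (nat_lit 6) (nat_lit 110782620227257547130) (ZL.cons (nat_lit 49172) (nat_lit 6) (nat_lit 110810710798025120158) (ZL.cons (nat_lit 49248) (nat_lit 6) (nat_lit 110780900859602005522) (ZL.cons (nat_lit 49324) (nat_lit 3) (nat_lit 55362078953325754004) (ZL.cons (nat_lit 49400) (nat_lit 6) (nat_lit 110738342254266817162) (ZL.cons (nat_lit 49476) (nat_lit 3) (nat_lit 55361792429503924760)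 (ZL.cons (nat_lit 49552) (nat_lit 6) (nat_lit 110694932476824925034) (ZL.cons (nat_lit 49628) (nat_lit 1) (nat_lit 18446744073709551617) ZL.nil)))))))))))))))))))))))))))))))))))))))))))))))))))))))))))))))))))))))))))))))))))))))))))))))))))))))))))))))))))))))))))))))))))))))))))))))))))))))))))))))))))))))))))))))))))))))))))))))))))))))))))))))))))))))))))))))))))))))))))))))))))))))))))))))))))))))))))))))))))))))))))))))))))))))))))))))))))))))))))))))))))))))))))))))))))))))))))))))))))))))))))))))))))))))))))))))))))))))))))))))))))))))))))))))))))))))))))))))))))))))))))))))))))))))))))))))))))))))))))))))))))))))))))))))))))))))))))))))))))))))))))))))))))))))))))))))))))))))))))))))))))))))))))))))))))))))))))))))))))))))))))))))))))))))))))))))))))))))))))))))))))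

noncomputable def vl : XL := ⟨(nat_lit 0), (nat_lit 76), (nat_lit 157976847), (nat_lit 152), (nat_lit 183705960), (nat_lit 152), (nat_lit 183705960), (nat_lit 1), (nat_lit 4), (nat_lit 2), (nat_lit 5), (nat_lit 2), (nat_lit 4), (nat_lit 0), (nat_lit 0), (nat_lit 0)⟩

noncomputable def cp0 : Nat := (nat_lit 1566180557115702372183139511657199058390481561812668461414759005205047264769693891623012018100372579600948121550806479674379524775966282575401398223994136935844948730470297905740325748317040050668844004823797767209198504378308273455618498995930429184168836621422993906619959635776551216118584740616118190035510477692870959760947685102806209546069399287122885245604364817801574463505320706096625355976565420559448154734276394045558616916748095984670470555835522459622104040765987776600966293380049790712542552634012681671630932067403863819577322192019835773630329570005841423404763327265252015599399751658675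92153294315494381088925839174366042688211317341697398432528153938687007512480539287811599514080646707152470639160482737988178027224244514186973194336794403745963852096786010091388381872583078868156459706482973556068855282779684928185303420473763496282755084133576431520716915681398268449219650472199407783248716759243321586919632402410921084284677858609056360562183066562938831910588815026420964822518404483855383411135325037211464348459792502263189717659043027849388806309451903011502893558642123598818921841076329966464718113529430096065155692530379555723951498859833670356468666868480781866120841273400788760656117309771980130801348806191777917249570192490651298029715814685883647948881678480527857397130307448152603244581691705902960099468081309183163869727520847400289207692442654435120890361050673510571538441079491050797564272178710101979501378177064279863879794070243613027814862888502541001429817486569673865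28848643036767564138410583574396445681699915707526890602302269606536332542882859467365445430469908762725612214258783769247024117890910269872626594266972970255682278556371866189952866417515806558158869576472193478957330174955221208227114002461904972884031254600252523752438595157072650131390610725025670043641867041352855412859748544374672765372030041645970757163148023539963984419131598281055173803038605312586134762522043917310031030350963773518987020709394107370522003815699820340333241001169826779822465584400458239841860266574276382802112240318057646473284064013555516799447032251332502524520109751655267571793988023220540863308672143604340249094249631613212311794950604542678427235327490403251742113126234490012880978744005017255315486430069166620714029218025748529694619773164728598734600982279255711147866049405118485224240771157409188035965581180504819126092988107100842324503657744133272614880073667047992521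24920941466747867671590065929334877727466230543795391695953716118943208293137501582252939092708426362377547416592780733311864984855670444172773564339254958810366146636343894960687579502360562852540237743141891170372419361897219033936926576218366286113850380767858681444053561504291386785966937643717165267529017691291631819834559175333138663107588372077346717735190091238997730377615164356622601357334733621468310865404989268610467201309313683806874506022748487336464713877964876239397428803986449102259620038357547316935451707010631659419802238320672487872446914806634981659924567658570896591493162690707093293047575340857256875193694048592477901895267941534442033352807264864863508008615726616354261619534971555860858550595035250247020604285131139319931480474649484625521777007086579872372892877143964769418146765211880546846530801271438936147246206989833387227050675179073137331608066593676225795771159659254467828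23878788841424260787472381563877512988906926880319135731081836470949110685672988092270866430671784819364393564060067983091490244803577375073227673861376644148683635782819809689429041388161553050056022704468114929709475938353507113650243550257595952240436092616517054546002753077398373970098206393114465855841723941083076157268031973658083004817207398506630200336837272066718902745269115558419101262920672279508884906173827259257654885140878768410946675414368994056967283651558370916145628494001753602392386430223401712154629415245737240929438301766066594466428039596105001326363365288470159492755082383818010669417657544674076699241962613426990731796354304225502476984602668741826759491734819186278557360759134298442727781255887637079343981580766712720657839607685542875703252879495248646202286565318097429582671074373468805053430201966926264765547083305534152085372067239174381094242472176407521793896971888331211373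43698224116422813436231744404338774468520645575529327697561819850213892884809270054769180858842917212746570474038216936275732577500207748396762269563924683105013926973771211890572607471259159403767931807192747941065925917431929335085694098638920728448827254868956078253675222213503526572262544806360106714523324167829279244101379032718729295668772945156378004834352818616116902344376587068786406737839535565717315683489000608721575852961060609625801911046806319191579151684767315550970015014462702882555239393352885036456360096170881710338691267950321828337625367102389018581814241483399587597175753975972676793951997369809669768662603326630245744220707557004176906855499529199361775798621557502373658757127845806521809893581091342847767142861590043844234455054696736567496477285131255669926488235753041289367858998226729893629901254552417419365899554586605602084234012746923113849423869752451394838597080130633685376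09893697276045351476164006193777530132732828488451996935934390720630929488144252419337312537532473152763549696917387892820283400831526328840724939350316538265903077755526023597793276591943717052471373731704411184198164494078601467110682820576415322108065393163350718601390466881094289964042168824627320892699118309703312602757060939927725380523869286980137235075760866008314587360365761612127060166528784956860936104587457595159020462697619225985262697300720061827308551429210457323959736118099181300092317615376862890343580002830748701438376223921754971041461860884301826011986720362656585844562052029522693040931892639689256151487939095932181785289098209504542820706415039156131442802232977541511250323637050719825806116670264588954763012136616737337770253784601634820075627629684637505844180011102918172728197477280441913059674731646989706125564989952111036042083824737045395667975377388389426847307251155048108448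02148963367988258943184698425616280747317553191263685978990910002611338374464591552818059385161939930187678774207600753313755540388931857231326886601814054141763775897622160519614055066361275079263402154753103148133085744242388755749667522973419032363908085847770347492806990653832599615590530461416707111330934986805710204696318918287249832984212840635536619550981964559965095136735790673674676359901372948785733466515533782796647336655662002817215732206464592121474103503441990487697329726294731902825741206415009425599443495755325596449898554317605590376719231284460235004193642623116662701070027145987521227589371234555350200983016880466900101698543285712708425255657615835044903787942669419016256144377478388290768838550465644113220577335700920368957674855120512928233963568820517201827638246321626218495122501243358807227874002779659203156726615316560725258993659580511957591767946723905095325498134572507699810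34946523670612339852171076754011938492060649155653607957378983050089845114296509715064759135762805223606692294483498962556356411874702110478176519995018697449610187251858000243086550562945615126971128500373032063616388924264379846630464577056131206815295851554897253204213822551325549260083419867826730306827332293250784067846408131476000566154836978551110967994868226897513162522500331265342511131857289266199386540112335645506507611635293829040922076340408566793774951368793620821021444759687726389375059934875565771253179649388024564270920274797992918807954264678898803152442463138465769723780258991421510209956807425331270351665502134697714986221367944606946091842277452317113563725492170372433984322872840016144460403466629859112381516671456173942005323596410408952997806813833983937320183708673676160789903782681477961490792643122885696640489205551084412856301498777170803636081818792987775606589433700264602849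06027162924873992292531319491671466559087802129988256353317517409615527515962071400973795249311383541591333512826131767502391047795093444714629731479188576980535386512475101498986253380853284212860053278471427032751803653060349522165988199935766902483397576925421378338215488757515649796606979354694303125240218736269979997828691648604892698357429501612676730575908951079552401645194503291371105452316220351793152205633476127056476295907234352799287841948928906053115398408009248861133371271046866797447017630556232360309369352693145735118394791367514016068967785440970793494846751089937611706141279808635807375366572697339477941961104505142686985655129811339147573245286775723245709665529895491409699453935298764462913181744308550546286750099176992803398218733825044958216156726175706602751169077949210734534669421269799013454587961772342391815109095962047997918438782518538215720114039788171487400640589634773339208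33347298829155822753215326857952236636926578994362478110953029413997556789476623671841612651785044888019556896337225092227067952182599489710467378743984195622883896174186309003735675245022221554006363443125682457895374828562648548828364512276316603526397861969782198182495703766177037256680537120031509117567084066410903026177957171129651085192134020202228374190740140639664182887657577522307704087131665381215220720049048891618303066101981295942977426080138693090154692840050175549362090125995110200877003889574335924411727323881345713687311208704711230265612196811729589006366374950771322134719316577827762227486731708079634859627838099521583805840722395860637646832115205114021891737012697807270631781248710399268087076632014134639528513572125609559495525260141449419695023644097508781043582872241166653275242784870012951335839852167768177763995141432411275299933535352333894441524110532361258769286445429582221953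03216292577345528756169551625151725946678861501913454557242683035062159871843834534785263210508854927691787202723001982510483429136036552037462287218056601268460803470918552447687958441201887349105491432715337930753755633488268678205655622234236941744306657504252097114170740197696083429850015780015433080826107171422826400652107978050349667590318462089118147447518885591510719573866991785867467031689437107686972097303952253746115181690334014232101876076593978899584200958214121650678229968429308242525483773262341543187468870821590211697363897119317829248781311691425354792877107779448167518996048302318484435891136227350231382439263468779251773374884985244779143920247945980900292248458783884917876616459608966461330156425362038232117013561165319042648546314158656929672941873987839074331781323004843648648949067981894604997211278192563607441071545989576928365538471103646301231325484722295284321859899838762078328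04031339699543335875535215695258769865352867418740095869807426121225054515795405175893273142195796681295801934022537942797454359604964304741350240863441139841803790984071824638028393161183674596550515268763559832390683800461608683565740141370823460682495909502502215976153066444907665621393046620986719818868083159852902960646762524620151970821527746845018082248489889872178614503817227590275100477243319960377568660502008004403647389577880649051542874101034687890578655072631746751787110909651726447340076653349288493318969900735507821449111247210422280724777582425958459097403004805848003700761006070614104366251478590159616463016505184425134746345079626380413452483390888248803523478460878501684533457471720569076934370506635632214997852255172293107562098673738606799121035041501442741619656890970307410097168933482173438595147835924007432191397402936731902169001243327692895941669330976085775930836228902267917950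86773446285386166456133789257761576961148759997903484809879619780920971764418756342482378426047093369642191347973487530125970507686482946251192120602298546885627084644200218783874679635095046593828014310171062555825917499615037932509022060514542126288477890034442651797933179353589946141593449911184210807590683541791693942908351202137022802460620874692750119041039051351330829805308909800044350921302898776639747393072355739002861947070424008290093102782960577610786079063863005886374022610836431517220046984279224716562171251201327496074502187396743381093006455592363451361016299467127152167175895358016888313186381033638003827962173603806992132444607910071641415607789827795732862379148393817644140700719583005205238581042993468310596921478935072505866129078188858854569166682942803263387289750255534272566564274766768036077012193492899589686242578794470778045926308574792940566335545581531278478167851363073550567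18548501358144625048413125841399959952888565929114785910681464493308868552329471587968247356259800533508891925320260320974211340414306349899341761625589138069573279577283022295235808707271583774097405435234919807166819351733934916344304964750594631598390673250279952857529885308361843955348654042828421113882002277293010328916057088765784846341565821240136299816369182492473572964184481447993092142028743299405116482811014890069217563218143175031765425647846521674323181231947217679323758355027916492596681232323441316487961959320517486513344314506565589485970516901259918493695892796922362191167040239409049037471753103615001577820694485134368449484671611667136890884811903639259804720341175258895894073874552709952142926151108759453110833871325817131850840068395715410753266826068341007508854237262029740280426391224501498852596338477714596851123383589700400035788490165678139979116241572807847520769043227570742127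14563248551827187889629919384694625549639956513795383869600689570712301810737157294541878792184452491154230603984578066475862740133969847312113868443278661478935927794350924108320058139118892669074449881037536564751354831962997564990899642135431309503884174414983396736430001386421557002710270892422846637641550622244866608916210821198872555385490238796179976628928243251553534519321504805313279184750384923531998538914513446291183428471552959896228109511373988649950110837730198276413869295234714153081737587204026043010686323945713314316950642012816155516571800032271252658811770617405144382508203884852726639150780756356076548768286127238943988724478807768924194106117308783033124765130461718137868737923961567918233745801911616920153086776731058979780330611969465641481876737552018521574497825606521760456707219134747177471724378473079421620256907637316541365710401151739661931927140629900347091473860938481952037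020859227970314672508851245088954872571058692480386580545057042216398210096260715795112916784427959425558943077021949324849565691967196843712824958011963132619283758040830033944975980876142336420165611522151725475822008471130677538631317161211950444737865260431872366644780952417768499917108345219025906818846628892351528313573201192035331262551550136283516458828475312108052798712876822587230172028387046554885528288745739724977232888449585508497121965975117262914697626836465603003474308393684286505475848025667619992887993604547103122781730662637533293507737575643154441619487371187878231015424)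

noncomputable def cp1 : Nat := (nat_lit 15323491886795296449480272428584796857036524743966827555602606113512626463077189839473460189501371972933619396902432199713367664001440598638831656751530419107402076737043501110102565607993820963221336960485339290952359372966987577630469643261897572786176745934585805993854741634987569316830208258063657937353958294151913454973007614139529621637055900966095804326025435816138057434452011551330198532035444771506870223134263044240418929249510665786766626842418696331451742062321836080803940525331272925339416828616404257485865640774161470105555439050878400363706410503236106820771375765773143673333884552808714195993663987031817081835070492057146075727017725777666517973054004167292848366779875906051551935753094041779330684186465276707444893269974430946795160786816739667777643403826559851340607012429868549931819550283059547621296055623933902464422148379240831819004282931218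68627529650871451931772675190916302871218496510740678556174166132027158580417373135959581435994081214391636003989023356379980160643262202196192556698743762748356882481181347464817825327206179235066790734896141103422672866812500098931869813210304930325028722823097456726574776544360114877821097641839366975132175427229769355947419348321646934708736624996251921223211649400950487281915274751744023444470687499997945594747928916712190295374471984504183304997755074182622121246856569120502797422881227114185276406938337475019670299838277135365883541110492464038003215521930274258292569151047664392449465415652201678395399478098780299878541561823884460554742366237623434997619390426327459562910694249039117127435805767351934932062205845923820127609641022981217997084477299182265131099675442517353674160134939941243919611769156118246233852803590789944094173080026291646281403528876594264304915982988450046402828468960542000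59336753198570743945361506185958484543449956107537867460043023887861796747783961031083236726170540281191599832215427992169424241414363326672710450807101750027192198768313280759477989567927383148164658604145805516008532803773333119321875942599868811121343781867399777984938243569435600878514341836348166064623727936049126336869840470776745779398494918224668166387570543330439220764918695220014879360795374224000827449713565188569416197233382600016371899795791337399864605921276895199527145910568144787938825650351716113470454482023106803231492575749336605061667752307517953559209358451237612776295142546554407013949238321412296601383473146989753630392747924419300878906615402499391290266200620637084571692591478927965362964746610366907598513703889189408570384511070745067295560200097234006793729576941478746611465363320946086259670325168804078831095441067244025564094812433648431058595056003503232074537606221595814298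52069564058825216829463141444489558845491075997766301138281006261225737858919269610051346596020882575747809174145304169816548316372069177237256316612082830121772487981292675274029918747569655538265402442646779656587761723510689862251827083383846520032498848295185493087759472986301394725917952730494434555957824632521132111115690594899012866204863230770430295888823464683449864221904567434237907235825893596034004305608794394525826451633328974633640919849339525344175731144251558420564358231841443361513591586522113331520558389813144171311500934847614162651436107864518230187132595089791249860657564293603968805654333630878532338962226647017156012994740348313309139324480433798110618328328234245230906698877532280886518578997101504136870843551199444644306105226625936629453871993810581043952283654131519150417038945350504299106799200481073672575403509629253006418223239997955714464156651389563249499748321684223192278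45541961590788724638680831437957098399833419833106582254497728625093790443674848140106399098042803599826821341849044615019587804502481513214315186792123841918837767793849145731275777331737131550907394876043810713637044775414003721227794770269903561788408037287458909339139497053538976564789328233284847357990960559711850694586667699952215094776965370364293120894667746927908323275548995667246725884350359504902092573811273787846180956635208177416874957563547720102741245801005663671627183205546295213657776848801748365730769481485690830082402038721951677119738562780382673073075592953274717975408347138979650685226670758997226206633727608330524624667452883254774030140498947880064486439971529433269322414943955629091251949661480643474131549244355503944156103020182707097675247704742840426794645210776158813312491427351339818357701762220146044604860060288474011247064059707808379612864356517127038245442895930703429068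33348893121370319785755556858151942156308368929579499557497579105368480219174474494513683546478116080995899421916036681229121180662880834949920393819153676216046573560596093950126524316206614589720763989608285260927574027810158653275131460445980743313122021691264961929000252983098463186400397820541234489734990654249487003402973086235039731353123586635333078809178089863463826764270895389370836957666289620916358203333998567124739347824012930782041336832116918323033826874849151790901566979404401901181216360005069746612902917525379054840535767846073460351933448048330342580944875339357346823130260602959527190944182387834431141518794931381550042578912925639589218966275182302656250608822531813012924195626204060511637911199064160273012601685888540296824093624186217223883664940501298339755911777527027040599923271362318907640424744798234289440851089062370191359616419673927139461245223694385767826159015450236893759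05507219753403364485356754327159112910055534433949871105597402699518833529806786104282219489065126958786587027225575905482822499191220535291154374159611559812610841353355277864699217737385099926674614080430105904825449365953513927271366403578399652016882758965505442239017736098260603691753385958880502012870047446186001339867710155710177626991674218146503877435181999067920429468515042306361281550469532929000237798963107334289236397402631524425722119529419452656051130488583901737419800247242309440861873261842878649297812641983833964556798922592329438850028583361777596768712497337261999269964499961033499010885609401171390944372564123957934647907964053792887231281953149650969538564783248322850213851493595847617516908167101762037341385005106881671397994430722714233952685691733471536889546481940632303816393578725905435125803145688182463350083190946367407555619085490345512676529548815749089600303220174826278715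16083806125480629850274003280579419753847252177668298173779375982442673746152766878248629679763137712538042664792353719229689137778279227054802044214287988489257782301452451637855620211824703562245188316390589241313116039102853821343391534399008146461783334191728200000421454000447971345112226478563635213838131666213849492514440253050047267372656092896809249758561771976949642134323983696091891097081098663738430961165047929996472264118659348140663592865364745118260996795331637708022731518284312032483195711114947177199150143248247388549164364391884956353383225970874985859347077104419516334729030184536032743948130122549203413624097468859303539798744869300516431111331381388487305131820910621176357847879353681980403280245415350215855044577836120702369607387089641003833540960079664122813874340854551685725709910429725882245720797173379878925589727304436098150157564679671417299694087087298591252293430988641068009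10794155514714241751974404908734490697721845797714023187233687724528047816058891249316028043497983343682305689973402803248896105323323186708059838335201650773904212394081054888246114539070557258306329724337529791033868754472256941263037064008336678155202068504702709842637598102177506094029603048045629491515744763352763741331651824620370135008632931193782418444612493783125812870919892295400883920568273679277070391163724490609939991175094380420163426335094020565159630494449627050428336294820956392429030398055160285107081119735465283607747267674442522336488871496402463367112616554511696953923915185182075854501767290610451944355818968421913173375368550838940611069657021909409627549745326747994355018233486918256194345496711494643318343960130094186725791639709006863559530255842959100853775102473385842429834840235132967080409916793555579925486878937154901979644487824716139323834358653122677941727166463442426420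14680120445185306008494142703367190739906098972307203647346906848217828192369536203654606195317732067805685155312605157725565006681952006554876854652828984005959540805863743426286120652416480755874067703284548953250590251021461227195660370270911863809075227457620111775419063972585599893611639071345111430215010821072085948992743637959940885909379505147718188090268760873537956796749217774398836095967913388600003701594672617687634174642441307103937271712916237032372000477905221846374592837367744226676847708713420292295086838146831845852144957390118033893526456627418122828734645924550698821949634119845685414790103989412094250607859419691610260151478897007125341890744804464116812095200957846225482580691839189284897923680286940462423739284492419812381707482230797754245268110671751959949105049822446479641809689504221655621969975861136908918178984166744149280906959141005297437434515587002875588670053099834975945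49999775453323954190481080293894848013237722762927627939833023871978806052957827453190385360217810447392194547746690474538164254570642989684742297680668764876027937598448761615814101861499945640016683844603994552203217038823190744610236307811562697017062344839632043643287533224861883093997036099234436768800767691103689851419273268840632053777584320588391139027615619683171955731363705434592345125562454603167736112480086452961532550200439970906581217091920117384180730642922017686446128442155095482467190091754971169155317536715676034945060700067803399707158140079558441092945076015303715814430514594620570509019961626763032034973828774165531237385105742797954078773625690617577626201615073803724609540056561448329865694297455964538264470785336913477810777767298968562623486838723006605006085538317349296297372537793205272731691063290686304931634263049134805035667412344239830287409264739813486036855138988075736256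97205047791096229370114086283814392449674947520573546603313912549787687273982692893786683318299822572830218472468594834981371803101801072073539488798195606845066266952328200660703348211780140345933002742040097925964746309617445322604079239520359663196515559434666687925779235384171675199540368196362475160068551109060894978409471793879944334496624501207641783927040844539907508868060750460560947880340007895391772863183062239292329682797104351254066687122096009127296401174556065623476731026644655505258753781265156834279424649621870983367866774778094651341011018649340550282565684818756735760818323208805332069819230751833703660657643684934547697196680530808593139994763324370857681712752997007461010990602865599488709217427914506653849127094600585215821845732870773795987655896937012763485364865649227759094705713956985760673301259559154195929166834239412357839314788493373630363162767119228634933563816909602420603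09306677842360975947363122058255698362797730901964426011454144473022035672149839820222136891964772881974857993490439299153913057331007444069277571651642836615041052371550922330050701071084829858618654512319786915879737192103996298455960273139521067508929940832418726443249211246581779369955858604558961660603713397244132777767427903201277441609983136565075808853043468249160130791905315596843970001569208340932103530148705635936488425809240124332722198208493165491445727577299819683369730936950125554907937717962073605552854365695685654028846298718763112886922952203854097577696909965409790372957763872885299856401980033681272063895377961378998382289127133691456946119725034541723819806790462800235125396930928038183589512978624923146730488199788405943447828178565037873934022176591394450446601048401116961263781157414387361430978375786128564328304278145406165027013071448179620891070833636004261372668395955245067905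16906901974594055781843104881149524796577559100791040232869171419267134466280120970399193330597101060943569426178075380530904202133234684394488876629495745324381622420929453146623247805519553862583155651425764138972031143129731052721413350001378722275176436537852513059216933964865029269378815823211872427377393453296614573133659138951066159530680612352562790868213849670035962286089873524159763850758557220387945549201369216711739747149321953911335958960836092043813699868025264314596098653646325469147800578337095974633076116250229530429437911601396185639570458383736195459336430916979818951313970068894918775063768335799572473866270378659146957242674658919676604963548765533810809669774178067073059841252092453085551584534274531211271723120891847712800546367868824146304922248541747992915963849833487099098553469672995994785434466388491885637913217521897017584174972035871114549186720454492904789178529037893877462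26727196897063632526162276487312852802534568870345059823733764515350948773660558489359230907665402430020454131891500376982177118091770801366809444831512493730861000982630865575269122894357286204526239295527256859455074822681323572332171844736932870911434314759659073895438806417470387394580557309586139427765807101967393610958277248142586687431592375843622213247223142402073077706126196013079259927345330674879071108313029453203727686927114367928506028321294580717746506556045519922526969372887528350458401484012007496165232930399025699127612972458642514165578322179141655762114194129745669808064585260673901492799088577666950114492765037767575535306156518639071408048008940443649757517121243700446233015693677381732709961055269723624816144409151470161544198537033536587149019183001023037005819645438924573495652337073572346420846658463914280369277624941733858093393311990189907166685908474824173154039498587736982936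4767369187613408438009038954278707576873751253101866416798454607686770930087861598271165703861031175498017553448075463194076774429201578419884730707075040385939211410156851433816422220763916342818747941700328830455934013571550557485395496180328046761820803582193228443758901140466235104427683332681433135216668617873738885949520925331588870192329018865286698498739995500427108449646328267136880645694115485073917109690803164192794118842911304295163330075372275981189481639281842483001828851317602878615586898073120991570627299670015078024555639961216801148245766294928223112556546514111295836859961093680536756313899353458960125256898367268826245957040288124207181808291615386911032801746790482673202683130877608083668298830394350314476334216438882208004770395360605276283487871859285583496982126993650171736214438110102010556725833737704698068971509619628457603318447371802405499856430830177068605031741723407943295660703787357674622658009023558529478115986248572408332056942464392841381896962747998430607842459945857324367095095491231581248255049633819850722410014200692738106052376564434439738507114404062912949002151846116050902835081443792883585427128444164691607213149971957174816631066094550166255974070996083621761769396201629929193865216)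

noncomputable def rc0 : Nat := (nat_lit 14800205008978595676381798332315946311118604832756480646837840003794732200452527814719812707309401992688455204567462741597645651126998076577988190910961797122764006374210428463299146860809660105661213589201217262980908449471197720759228927901366660174606511232354228397206608008378318278983684569588158402637216424214972459245262910696274990456222375986294877228612550823318345297415805945434665892640387502892014102853126628966335154778789765325894877480054282303312758328395359313355363151805632625200974424812526105097826421077518440034355446240222720578214171056497165823095624687008249404338166170710269992171917622789030206830208166910120944403226705854265823026054902685480028751897794346286674705640221406977570162511983249092757738527542157818575160959800306523119791837781424027927437099625305077911697708498903732288061459151634856323830151198755709790558160608693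48440483295534132372045674904979558762314072842299476018089404809887252805387039410940937676769867553539566942407991153717067603677764215170548572347801540967198889726344683450376738718681025455567524203433608846407722531378637507462099812576659464348879692105967747774188329699869582493072382548166260197307196829229247127917181773363147499365105518180523142931551690961419656286975391150577661028108359477546636106855057871869401050119900381497347044632566713700732705969887496410066908702913542199820291017033344036786383689939868325862829790688675395698396380481584205452064838898056699769536326965003755427143697072582506632040947488177604082376883242143822176995723110448866067272018144930997275658389300926301828554218447522429075613614681581985300706245623406205313494617108335972747105294497664815795530273437191930878381828944245888016479783830417812868311476720697674625159678953831975247991511616746934844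30289780772554250669481816510562767560805942794791486442518480046145077522893513355423396061051876784589562971633097473049111795813155287017894792415626345164873779904124504977323099684579783083575302567098717584323515363397935303040127605693712168494656681021775358790300560383339404669284706332918131865883769049323856962370254192374240573695918359871367719588763824963311738087991546124407634154490128542539803187735077792123853543398928727404851047865832123864950941927488096450768992256852749214925666222022209756835454984311095391554427427913787709449690213522306755252676435420871633161934435044109977827743687994103881903795303992415901801389433081648293652476973803377927172840300151306711860930010262460722546229442863833645602428510184221849630896411146326228014141230368200003874526411328970537851474021807764493792442839897271936777037940449478669128512228886027494101899696032647455965740994793030931397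87318971041065823689868513478664433449441533990309670521264215151213265741403841587488140098594031849161614327465001456494769898389599345384586589496474945751053373628307492643647416019807457410460407859197742927794074229752471918002346255801865943118565710323868568733243486352781524549568691747255401417767844926381819798325455234875338492200854678098509784880301568083080317154555540748819486464998023886589012628073853958773340656071160482648947374806770622405431970128147231378589133962847321929068630048511491545681465564408638650815261994992729146633854627515283389586652993856795414288793705804355635398945267891535408136997872717076259902750644759436877307543782166521607859119406301265469551943999477046280724502529988926374778270975341029129461506825028622636156773445122454800922291586559756140151302298163498077835113553063774651568529858176148325081129781851007388027101939140499889520214816254635107829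54959249378373481750328255195159117408962580087046357773744311024021035392139797694778840809600123220380459823050908305207456621449435303315835270823659542174828034746161916437744120382587624972206511846479424482408989717674336791185458209822256445195447465673891048043780827446800299339844064823762844022221802539783688922617068344309149070037157798846422247273368564499118595309539647720817095163753645406701021097451097616581370299276593056229742838964828996368919718820316536551839897295324179097621149619467399910471837163361114081107475409613434064786623676827551385448941129790202796607670816467175912158905382645680524508155285432307855592826427068621154863334214189775334003798593091336987418338919970478576087078758431563764584945037237505828583906247754959249036033352257188192521967514181719927541650951866882256829625040956467350909151519986211758992749577437347121792061038349924294044049812907005885636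78771172362873556042118701798945314102112529472100659499851863354727560270828148911788873885806240306864643551857290040315444908597945772667699915896415641711406651482595267610011548319852323704316788599207836480707467358060256654453582589002122172960595141925909429744169140050295727004041771633166338796106647302173329573245055910586488890042139767938659057833558055985366413419251599980360371598686957288172287394307662394753662564607704423060023590785448195949089437101148345723863298936147654870416114467201701802217348812936796241575962603694852573503251959216337865205015542168985344859998726970291051418419814336645583478552063965740698988507564729118344767590776428994838664787868551352637162782407654403121373694605675685697805760112799158298860667200183984129237448236282497233476461581297454410974691865778397735255182659450052459892390806611531958900601582689737220681124924875498184497926136019210679317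51344384290802949631947381920056572388063300044866107165809834368471814003367903831819542920122529281468969813851274695501994561624141960184886274175488655718345309985179854338365183334152397977617445184451709573688971777652879675778395597189545073099739828911960256632166944787162228186740781007936594739704399007782287546345327406885996627702687735765749448033646713891273845656578298192686788324500629964268501867512947596792587496099444032910539413933288755618603982035329073877542886920661879688945655506121079382279871199584841014136794323824121740962762504199338044606261226115304816147664436903114578473753348040198566627369783688437425450408962240236663004941889953943003055056692725477461357526956698915117224058430541012897977247383043812204934679274391269033600673946224330897242100037880125542379846918329377944416046691121716034194190931582572160665245394177429750930977973070044502381592380841204439582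52093395582648787395463328925177456126866297236466342278901364889957486418155729324257620219096150875865377921153108445642050172371217130284413125075287059845672304790663697386958321329195951754476955794421774156951824636924376112923216575645490230697149775542706569938266168250123437934441074141619023577985558092856730296968615471433784377579291432337698342825126720170775106447835326351225004483956865558659518907476289701499463135946863758573847080781790068815128235033737820747634486594639347226160125989172860980051964200666586281028510907911809061988116646574158193935559679908882772719865135185448882061955652427739599202159662258981159990125040371762368476216793313782781731516722011579534202129234219994735961846139723104618785741529374556758387003722480821389514591847570956931190222846855199651069118613176339825348624196123092170562969589054778433973247424541751206120095013986863465259625281191585027314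19458059296319960625062712269955302213819497975466340459181180378887707124930495792832835982989701915177345540079321440120195255084661223372295698115538104467985240860789956657763792310176851964316222704735632660496254659018226172196967155336577068368326526516036420225801323360775437803099838671340375996615663595816530906765319409777246473302928338485477999990168170515103575692737512129252731531855575047664472189963918302553686344337098988143533874510697690788877351040841473645756062072006625384722522400928792540224822340308116432276350335311506891754892483098937554140531377318224288251757024680862669572234557632704942885984131878865464998818143236195497780631081035082860677715324362882827032639353289217426384675025450395625469619135604969836233661489874849038002156189070173576149951256660671777435905753246281529092312207789610514609902283337883906033820730217981073311274717740675750650971304539921823299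41662257961938991617118539388081989930340915631739142703202198326456287286602610054698025570924688440422866134869529825469022641290274552304992804842769708656125881599920941778331542651487585787422628198722348783516337479745505591130704634443699300787128445143376449970970006097249939386118478057811434607547351352529830868933917348451051944420061260408399493423573671537962130038933310571268533731584637175160168158265418914981821051641980780984242324484682707529282028181018657721292333998716032749490636023879792164801259520814878734483132293733005390010757856599393066802425586405021545275298482716329427334469286957698233842479164288878294748638896600465208534419135046475919575073690777901555555636513012177068864759117323859070136022663525206402046472492568610922205270732219942137156865343637822649570241578221798989451051420777271296710562627876922803000394963848776334757845008981379955298977805117398636279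54700672455813757603737431691176954119849685987039276534537961126217903864841302355889750525002791828003189863520701188399471621721971360783143985234958083545144668545164195582050585298994192071564563035690255326791952457358572108089291690731250783713812688530744323570769295813619342503202809469597411865340960416046041283131861141514933872132539920379028767451091958556290376041364852311184024644364643764668648667695903448381563124202149277136531289243825505272897742019085698036727109473284331080918721088388737041624633147671815234098879819959820927808021088459970806855985985724743105331946420545310509853734340809984524866850525262963108966151070632671314450092184153451224994746747689105319916849893644538509049004625090890635423596827980689599367142404159551268179182667633402525567748744706645721566089458538247475526342925122653548274552404526659692250764486796458044776688202876139176172253509872536383863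88011751298210365823784554323195236047285782419147174623828732162209371949710099730488861166060540513672237045010132644507913279741318570872430468403046131362471431951313149320311664520211949462779312025073195347980680243353101159107901528077746732630117202739473730336256824031736767655573795178096835120036038896732123329940748038012170650909330893293546232393541253318040978547935776152776253526139508574249755473822963822578691051754780330872120132795898964815426192103276808523399539791993497455556066724002919666254503430937931759399857968468619828259511983892469932073270906873428468040676693120401628353147859197670291817308034546243094878677198079740886202797127654060114161615723646958637408218304124491025199914347790044502772951207194532053802696591074676241887771299620219718034486063931572782601739861322443163328201383277966233949797319875568832294050039325814709884338001290296093833711111053603338866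88895297233999517807171137107911401104295377207273282916362374121773246945142378605941737811345186793554569408082779687755199574344134889471038933447019649888991927091914966794675009947939802163928576457440273152967450947844818990822361680039726935961875667470443801769543058869848117454623582425920317271540696880318952512276471425200308919526564050876652355224205734907194302200792920794772231575500485776477948688443006339713962694297771461349099340056648506716306958276143885435548230634691129045504529613586158764954978104663043491099405643208294292707908474741865805230436728761071113293709041364691357800552504695727599837712541533372681993957600758170465022711218291381433626871968081029589193668775815635548777814889441153301300445264222724960371517273699034177006317486974281233920909323100033507817445938321260186329582818420363656456590354204735553764597334360191331606618219811212118239549620207152228881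97785327685639401309247155245944974503435107876302101071201119477927274089631598578442940679783334010056915152115251068881046472493451042025315953989987147432590513165125035602991257673965676725423961270192017676840133265207253522244834810103873583843049033832485208221039428390117942039065670631865902604007535056220503884067442165670014145799339293728551583918202597127034063510650999701111881539856652372188732696262725823389952503420167696062485868859796929092019561366086133080109970271546849950830777396202729948375984582754728777353110520700463104514416958635897477554791812091586135143266854514141050337175023106882024725695207906105209545082880640881739564938064183429933144061041415976422337899155609680470195395673113312268238653966192054847523314595194861704470254680882922280595145946959015592276430415858309872977864449670495766839276452639520905613980416206730501101474607409541166231042394415914573075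83269499189144195260673880218114714653481448516013940516642168871873516576075964832697257266842425503445519053608077976786998508058013339791008278190664868553068845985000268309113511308805378014655565208408133761376687359141028428978099616303363227348743588848406255240129725242772951397260769814811909993546074818795235102380547444420511078448861057449927534803667390673141977948440294642140853994945041004594712825088820094944311773153386471324392960943849739079164000578723271611066931402863183396790083882466947294115538975982774777777824296911555266980842704048090940821111396176599685017198668787837023717487281288447189466712081414345999373681603285869512207378641659522543441929610545677809950073673127836632248277700875270903511427345481161772067514992806534946971994070221420281732186233320344086131910190171534298963719636051203198581701085243065560637282060006359004099344166812528639509663028800429493231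1867512426779481720001736564503219926073577988446959443455139121067653270634537783223793652677779812739911608282184480550789586791932536456721124558780693225077895584730686016992017354074875261135432440296343660916358708761461689933369170711217360972683310456673939268083949786708563964530901007552194838284996902786152068658730500039203204334136293826969975736459559601488771619613122472771394941628446655971854675761280014854029271571016153619139296414240066655307738988971669946063232604682470648334998684723594294987539859866610729207730528213540625328151586626545572506672457197244348063935372834092653283355661355420028274150018334773644097927564915907013685753270654082741743531624347982914973599596157049504929372068500722351676655222527913565811628935086604282373425109950388973716116249907515376754827283069474300688008185868327263289293561075203604909207300346478780460300123595315898491512686932874586971131028606495715996015370303379894309633197974257018976100450855029558729543195772212998874137229771499855376288601401800206177473727467877112480733845941688619403259316539919776315266678804756093033071950675333109144293399619739117612146620944121295936533891763521462827811625274748023077206184001477904675002904915287798060154880)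

noncomputable def rc1 : Nat := (nat_lit 14899222783660192001610016546568205647474422340696503219884077531026526396426369919286834956725529123469355555176157022916524449027710000397769421688794833236816404502930983588781707857178862121113329020820788434567653552099387931386754892788003804376661284967182858772124727654130098805184953703926979593010105503611224770129438084915687750122980185363807539382127910432977549755315350138156095252345402885812986968968129361239706601613791688806625555804442695753629940115651063324516386362523253853267317564314751587999487880139816847948422533466322294673843609053049586680767255294286208069926253033566170065067424578673585981970846231912580855093191709165904416770559330765528002234880615498798272588112698083839263675252427111836859531583512056898572436104655442095001956348663736054899882739846892849402287309048043243127767146607666929689370019085399856221915129914023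64965032523080558712600576879880515912612880458235486846599204882014872328089047098555228758104093642650159357667963986890653043304066390212936812698489275661324810167871295100379976023096228333284921355840119771862394422186435838417241924569203350199413885074917923951409192210845314025035050637425671706506768531122464618813359419955427543726275533274444264771419411395170594420693132599353286782200778670430302468408147698617903883704909112028569454196230472587368413379101953833651723982613576417328348507058085539158566333076910880193181825558697558672830495146791211499440270011366017659521463946968022641783725676725786394955118507700622930430197947254290310974721934784190664305595710762543212482901997590956135930873790149751766065781531307848072372026751653798407857260789016856705797578117580275468264529467404379702851707698304670320172253048471393214643017989295586112774886713435626217309166023038951631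92111464615189863995576349050134371467756591149177134091273245504297679340616681475741597620820993487605409514029293359181406224641301387526900522260812763934346691841595754882142944025281680635052768628585776465392030292899603176906874830964267230056972114879489434059263376526029361566082033937596071546852574443206348268518309978030924392837575191899194360710734484816049971796112830869537703921314305383736152615670245744317294701959096357116596152796508403967165178116136112369936289111775898689758375953690617288457307589180005254469358522582221276162266635799145760577741692040032684920078103191499431198962582988151874196169895374300565341967779232555170768784220417203964247268427473958627280034071605204475908990075102524930679860694606483664272367541612831716173704033379986116879160484150985667868703072403112767915725112383459402483536360910980756156387292249353436944427703179089867284752047309831223972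58902076956521402093223743282405351897260528724175661925918999362931191590558836943857920165377757542446826149377910234661437702645941058217930119052583809391121605675367114534066976112567328961679904501246287140972879485579791545345959777048702566866321570271530899305377937269913505331132276085860475383813157237564876032647657681390222783529470383926554450209503093282748107092424319327344392341334563637558685096602057545558923122150486421646171127590054111993644631242550887813984957617845403499245104407117782308849796808649202564175157105249681767603390190242134759471174788686561503585242092874446875842719218215879690039042312930756753778378996449130942876234017466108257322144031432214451573967770206613403338207370107586694913868302235479338753024867630632878964331930232007393593870582578536532061018706204691557703402059390823281693974570557086249873671303983244901223066568116047897945513663536645998446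44936164702354722626338566069946717661383583180145097719615445500641594825150994577259421598357520397496450370190970422211591533884777578349938047762495283601118071848679477343037957038322947638147572932548226133221108751809988340430520371436761308411490976453052336030008330784422359774552498117898534409926528714150952525654103329752602743411380661697792975331009375211968978733168831429642524237491331504703159952693487990696852518860560837577321909921754305570983704557532030098622703472897599415588387430419519407881809288012533552868831272008837466744218161726524617233341273388924154911981095381267643267911507280868267454364554446953582706854413382249758932407848016199920673165204234861565165551913536223222643575260034329488175687402368173163267560560348936594249612545576569103083989660048255414352973017070501853773922886360595894769732212944914730917274361121608553495579526744952044562874701230713688387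12222386584742445637869586884725155492065846308846497680912527624808081012151023908902232768279391513081773536847084955293910375715513637200265128870059134556503619369532799498098367312169977334287082033751996760154060875086743831499963196201119718787152768806262961798717177494764759668654898475702574226558439610657928400402365795179257498084959511978938744121498491852103563068855247629595315073167278307656617825368545349114519928702216791849986943961806247682857545165616142486065085361408425258811431150608125652025682947947303837072597582620180312676254357993199959626483699347664486911060476914089024949846792001542419097436675683887691584672565574903473074128479008754613764018064254029528822873857643731258286152546389381469074835639321653881802430776518297426936498802223314701097833573491394891833272110918406073930271020726101998929794709299722505675464367890443203739032905482211483775462676892734837386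45491921776145149947005398031924901231166436302240083708014926695975504024389246761711870200949586704437802282315124199913211328752310709152874088414127826307537372283067985157010903870775403513134289448682304987971812880770513002337154720004806456598288420828107290287368057452420880949220043197571011528247676537485126326301272096710067670438520607677919951442568813047770523929119657288241286219286932788096040212611486160781113490414902451019294281079658681131803394946921972645534857929683407589653017518333299467663019069189963278762096723520878007764018109106027106568946266317621604648385293533588968015286100681926181540139387712537109887014689727190619919763682509015717104234678733250844777857575606287112408801270266066539646567136755887678211383538172080362565883985319270286369441369213006293944714681148664647029383947431991354310973323607844064820478414643035891491298672671894031090628902387329254131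55325292148809327448409100050518111380234763949131389204693192369515824139929512388108303034979206388515539365764703713951280224985768460373322251506574312677096097286617919470331004734339302428110752986527909684855612338643469980401839057633948103927234182341333567471381039899120867502301068538110015508444670715930570666338188305852930675253465754367978006090743864176699863499356345669288659816963510682437185146618871533995181156828043849068036068951149530054423026860783076208811508073427200266437972100041037974158304573822792435715722965234646844739326500947293057337653946957383223708207263311700817213443651665758076050147123264663181515946564717074433234799566940747985229371334238229496037427545396343973044913800311132407342527218037853922852071299671728330605174121884621520675234348043206104339889025759831660560636596661321026630890822887056247667733280118236545574665740219245812213351656140636920189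02012588382167310413221466531873382439078711916721657086264993780966626390509753871535939082993076928993613864931922337850495764605640483360242725976506167185192189877656266689026759789950172869559337991668335907049386632560097455392740930208683971644862583784961368352340143852694643837245526945876446056553464658555193794680465760309680825434939414680462048116645450213788664492063969036052159746414088358534855028403047253089019016608580617788776373630405134702278234523489845375862191138868671190050683675544747972046667376685534077461029305711078697717038337010209114142449533028851646119213531865287060500144846982103975537631127793788270144585094733297795028519632527134390842067128659170240028122687494274383061076368057052690858679280066864548443559993386671431430876666473805638850082174431975235491500649372402032060023670035679277768992649981512945538574267276674826798711089083832836376510107528510139031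55250065190487517975622159853974818996962970882498120280834036851138030567390699320868249871603040537142290596493689519146185505906836860618940382885906717199680083092317973135723566478980307066559399525227494016402847304147676143822521404624746093790038905112569186375677941217471156573375853783800524643204176722510429808846694534746520171572335096675866466894586586507029795541594163164630852943697779380120419167884300216357676155742168353425189363633670163760004245374741110553276721382593660803084223653176814915554868754530810506144836532791061481625678781816746684420766545601387908097805500266365806931154265545587198525383298849644077007591688050105595540477552791087276479275603863893391492374411197264405692900260890191895367905394646740619245538101977888325646872552635648303564472498045251810985459766203510226402421209420543461618871996535911096399783046209966281918646730578681395443516941925252914308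56773559673919678590982660298424149208413280894457776042139708081727396010823814963853442394634192058122209172353806406686568735493167997103133650823907662653606722298032885160324308529738377842778577440315471436571419301052716080614148593627749161305110508217991676294674415184075165777889018725209797885232836298812711044648444905256693434288472997193608771295344404991977974464888439981793268668148603650950329890239471479529497321713927233973160863290582766205047849481001459502689262990246608277268778857311023634910618650486834832576963950360785708288615751753158951636119019109247624739698744778572185334595697455976515032991694349375213042276651813241445303608020472722691140323269792528267806396771019114015891004797987361268809375810263832325359592241588870971234426076801432663247117113508751694356933122633592358480951863714249812108256061947892172802707214232188639950085688880521854181652997425974574617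93034465836021605538675842509033740294154100989082879738700727195077435461087262968363381389455054553818775834027325547788966893968579480529364149897324685808297741938012596096960644947545297867334186290640372539738247750586483433454496521978073768984199496756967251951626709805161281270096324729037511630886738837747469238532919988697142572214892249089795092629240491104830505902765461247898999992659633465693613214408270171548153565457403771128025346845599500461294131534520720514854892007150524476200566812491415064241438407790472075566734010893156299260269023259510136698952162022970534163149043555535459143710030266380439159851599256007842822248816249345999589245215485353543758616749135275410236594888754051851984595455615139130351656331948321020428968460483217354162480972382210164725053175506732890260421634257687829468855959030853789595105766167050583579296387616388471569120113855494539117897479394155345883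46976478570734975599193443114801495190306961431422302879682475416257639238734323108893318964900989045229118474413811498822919242191220457664608256436673386906105185201792465920776996355176354700344762742838521668531941257610848284093956638747102263600986021310932663248464182495143449091421721406305242099121008324692190035302838427524439018926822852720356093730965478965240934330739879415772270097866611839406983679756196721764748676878528443425642597255012564744480760691903624916020416895347899686151851777490862105708873165696082339188790398768062538414749674391622359330874578386843056033041047906418118367935707625293238871815376438874537713012240296680048633750483346850041404912891748230727577019131713551939796106857356068183528910850373514541905287201426745252142351340184863588067684616631278175445315094984626643325108958738881781278265917354890729225527513390699994618011521571807987282286874619582062211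48805032683405156832714069882173708007023561348699453892994513067255324860383704531376567237981228451608855681056195095276803247831476707021326447722956554924802193319172663227029290833490972336697543691075658093622766189564814630064006250343018086674017083797463089368830394965149869108672999272017003530747294131301036071361293597515397907457999403689730634192747539207861198935460411489572826963922162035948695205977993758152441754964537657238227563144548850570492794168939102490665612711487676495852973458109886266861384037902985702133722854951949910244728397672870490198817482144253302823130929829007693965540269862344730317770383904170203184089325157730421191451794829066714347855256390483285128332878914091549916682072935659302676428815478835052461066429367835798696494645493033471549591171348678373177344787032708812952688784320098475980841954082973232363014089719680602365816629681970698351329167028747449175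05286348052267856038553194669570395979551563784016507492929884818364401462934919926147021663667326179327682165324740065955770919978174203622638037907428580409567859845310522969792750078060005907911979456547459432850640033369121031287830860407402993291922494998170085902472773360969371630690793007175171881240084226911400466716761166685787592731958630868500041845369239749713424107210398148419867880302635486303437842515751813557874529276962260846584458634037725335385063292633203147589520769512512844161753131675975396101918414594185973868876974478621474994484267484484997175321444898082741473974462428108563765648260268622564980959670669289861423888343586934331193208550334875011652435351169734991148772642901387286053390738414075001351632399433338981392947125704179822375325843929066033146471843554494894751437293961173455744927727862055574759058497784214824513568749558379152822604729479944248935448645911929022380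3264737296098794668902672273284458020314288089904058760713180499665788041015699619675321048704859497386775323438331369263038402502989645235312445414246600966713923219541737857841051092084499354821294699391548829502380905222665128759678180039284069523528390527789692529533592464098352951762605981132032721224052382106422331109735861564222944121410845525736866069874605773183801238733242355228429898942297419440819657190171760089544255877370220327900783301930988288515379720999045072022483398769287269220190394129089285379438655427783584479023390097171277324113472169835673900407116296366245993274918725308540458417991730391656214170041868219221207677489151745328613942693252065449176077201238785692696553465029565403816087889010743460637636520246470830763253912457527691173640387381970437292498637889845245630514816273019992744230725926959824174187699931496436390831087962094433535345510626993625255070574196813093264111344156383429292018204039734831209276636692158864999595102134665131705121928744766303181748950616283623232467487063803625397631935609466392092486134791370082950258259569022860083573407897837193404252472234564571589137701144688919501584695287078961932460591907860457957726306433239286723826193129319587912957203093557048189648896)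

noncomputable def rc2 : Nat := (nat_lit 14996839318393974462438056453935288731041441144678260396780594254917045977379486817797585573083207861552717919372503693797389209862671482596247981718730878537874135804818164490365629173227090070976228273288228681593465588709894501151155794712121382234198113165348703421721664833174195782281670777309160525086617175699781703755992234631982614717562516909643248359322278927092153362928443774867267389441539371100667278847815244128056282145103243243499385923846782353769654330738770016077269445591696950800195971993344665637137958579068005315691125680131963761524645884063860211967990640067945871919938257690858083076916251965994257763992769061174030195701633465961252125345104920372077286168575348099039816697230826636354760279367118097982352428561122382977902719440613107359490984238596470285095134665955583408592771012714660351895990011034377887843825960123239994715755345453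81433247019874823394925260890544003962816007335781942965865859403246406456529846875185890456187860677181356588727083985950170837193015159893494944500397355732958384394656101725975641971138207109689643121609250486817314341978298580744271950490585744240392597427940462465889216293738542791197970187828514036994673014558237773528100766569597512544269897352684998440487803843225230469737925044613292364106879456950648953309195635892580141403428113671604977407403247469899008184783050957211410803813936560239637577142157341334568374569720639132093119660938275049886813103457061700689640570667683495317810815385471339745579145859875352900451995081247174148886290191359274640558798522606205708117589171764088255471287311309129004515737541486238337987353120195958381633518776092037189709449998587902590546240386777324455438634007806901625456700181177631150758798799123416567004195977837220903662112836836923894233851610635503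34110480980378001047160490217189112288686627909325483439474822399064689090476965259027076114741922984389099635541228930456624959908218535606525851544462683141675394486328761443522190646796718310052833616964817348858458739088875959013403464393870368193978550886445570809342268404349356759354412143262949150732964507970420677765098246218890211959754166336049059373435925334309432310656470612038743032804253054388758914353482140176280515207585195447042282641447299460317775492837735050164500643624808297501633883358904677404796438722576099447657189910431014457105686062695194319318308740975289401449120936912419516282618928740781449924623203556461449133572493009644230895921238791305136396106298574997484270615311699415067973151431162435226389534692608334417468052787590804090650104387267674246090531987477674749854771745331083285276595107847718702050833862874006772805894983248510985826520080636374313695525909733438300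03845306484702537713757101588186073960582067127741378541987234018511515215351703857427167473204027392625364928374623984887179586438496130081595742127144291014070264640444051864289799872262685576935344885932245657461580807358873373052760869813999772778476740933544196352247783417651966493940106636494819525953745506189598585923868797928434328965218015784046129066410666721270316007328677124832883828344563326752497030878767936334363048536186339944026945879756067763330477218478010504736514053844749756872685238878922905783607270313405550956887203604925774379795238644183230885739292056831619470129640717502116826276817698046380380607677313271610873730311854712583418524091059442148234906028377979577427665953180907594639672078248057045146644365445567768564746650570577831671319391895434001942232876839521207519821407136105941990317822932520790524923368601388480720716309406929664410226384620672025183799986056786874445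30594479282458850087187443576592806158557470791624802391646442029125442936628466158412902648336155123856415938200027999603936826118089811908212695590879591334904846851658986562084019073711765805261263675155181448857465305844030191272840235196173957922744503027773260109507162529982521265458827695849879065437478061117161616628329917977862401792706804993978656907053872877957043204713260758377936566074053302975104197306183421841582734730409471115442572650224164971923334652278432486789566165963861266087026613296459233387449068978139568565349156037142984739312252265502711309207032868421385257251047591109652599546405646366849651621381062590917285830059412284605320771887716615964406438383570115868217056394805537449189629752070552255352556457068585051358417258359326192025382179244885635475721683820358702309118246689555824670596460119935023851781892452749305130288179055507570526372897112190453792405551659725276083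64788227101499411081606950229642088249065315631142978121513105929255642860708252827493665422391204292270592279428332399428534768665742804856309775154207437147591682509294210655204960497193982826430249842566293283120018886576577624168745065045980528399619572127872247044126024366577791450377510213624758920685136828915493534913784855770533218130117164325796413104768761034918759959667368179977953926726222139919785164403157725206997998992228197895113639911591703869699193257188176152643931753246066293286357224366146562477221959401277232908113632802647213362240816594260178467540435031480266554756518412268186362173265091526144199038314962250407994755185250058237288699664301884481213401119332822540281028292385263259251244893171552573843920025559882842868991998717941629695729973634445901544144915342070868544079201894940931193594208562062237921881347323174285552694502837601995231954053027011110538286720871961625162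63275356641487989864753563216680733080932756850424405930235836264272899300892975807118903429953143802606528482129473722511616408603423671180611015799710325228280977798422359107433459763444074705848165492759374652818529251815958389029068800999198030133494564177282343389013143480815438762517684771374683955428629299010863725778826023428867177381826994498857234985300171965478347587790632417521465018724288199350604564955031544529352511342396044204376928548064591088154276622394941788842825185948217092082661384379946278755964914424955156963211222482061993739435145938345615416545546923645132399297212202164966230300801611602657571979522462719397549093111480402063179859548497388151560653341074951227010378511540630753013102637085192079679209271918896585300347563099466711946506877790191737503863648302981796190287661662276096769654705096386260654019477359607124353960135904680929125459159601058860191781686448439926953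28226547661889346504274639047448441697453181573150548464795810164283546859330010257924418111422916863962654450827764233692281508745530470598396419924061758101317472448492989525610425361726098329740951412428037385883880344180943168675725336457177811399428900378981454896867310439065194181276192902216327714445230728933593413373333963099478662940069899106292221107351726787572751197686718884700751759878189500574739840261976249088305947355401089836070274975632204409615951492564195023360614581618225718266940992777983394372136723750510283602255612360003762293462746182729232988291020336035189309813380855414635798895106391219206032696679700431189985526447951579236207961307161788342089934569775947195037980898414043264570321393255985443043771467965640766735312221439586865005413162864280487030067409730421820985062261044611721396132446400765942286923542197947139202368489149755235707337285071406887841167114356222553437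70144182050767852364815315121762603385880002425340932434761976894981359921475285430296559252099310207151837772104784695091338894573615235699496600330866485664008549688644414229987608716547455170484082400419462250485557414527101184015497980801003459894667439274827472762520729358215870377846260866580161675015454591587195380192096414992800170889957881977309972976121158384421882589473229560354439639596366952104196909520242177689333348500895910493827962485194991533159092212006016113753166299580208566668166763170417119431796483617414132353166767661264827070659300390346378351810888896205407179744378723113893026441885760355893756684323071903321287422368498029609943754227381202079545400752153345889954433028270560032877778014819250961362492330873777105026743360062918593403920953962773000113933646716652412469479743399939487009243943857848466400832834298483749037619144151105799516039671962845176666661364554489116551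97770958399197280697125597099139031291275985792146318393468595153300253365274306723907467210703477639770929980442969467958550502120357588776890686514049140903031116107870474109403182697076338101645644334694572104040679719093054926728801802430429559393580001921602952554549608543397929484925173806611531161412181397966946678988343967487661703890651402590768387416592255656637462527721879899790233653348414580986106734906144116951829705362435199416384228595158034969972876453207283144465815144440800233519071516829372999372828668888157422105737791983655102917053461912134196631739398743649825715665617274487593450104054487385092955060162009213292406687777376884727910515449633676747671731192439531931040660386959440711628075600927774178753873912665058867802904374108954995320870869523336730101829014719662451359077773205508197185524157087724881344415797286053364850523507030624136615681579719436096940504926940719694940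43952399968539116460404970573710157290364885416332390554386101003520009363978703551504351390135251179258373123615860570896914618274545361802551972677841125461062871019308751382386449496765432969903568537549135831609312594482682499752506050896131010206543153256436440148583178119670919839710427179298033953850459034303016623854453355874300500760250437299822346248982038846240143589876531838335046808943052244710578608714704905691903637607973278492892754119102820949431399942160353622489554894125487712457802779002202465613493747358666002757036156914060411550724843643492852937719647198771103048745449905845798412142469448445491829892276897472240438700452607000055868449803957240947888032803053910105430742855087164308598398750759040021318555117392345716268318147479878631907285307624921126423159898324146883938723490501718582781291532079370305490193467247492004469995690199910064978388670739139110499603661623900845619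19558730705985242914396630256490022993135998340913652491121605459522903915511209566044531054459070183172644672574473731212969390542081835958157805902591082306225813971755519012707363062270783525659909366290288954980578779376485076316800958146334523203452180563512690840990472037348962673807438871601755777204230685600744899949359588737551295106610219805925069206686144981430702780412883406476128039528462448534355286508027511662593475760965716065362211226689312776619093957551992699873961563936863828473574947816540788635708026842868294205236092157712805504518734213015149160145498256528545522506006207160016601886943249158203230416522271841141294384047823675944941032497912834181528859603645023867705607470717494124753455597702786031764321088897548141190285793438939278178562252379904638634594268017549076907646443255650754498531811154145961790788780364672740520641956561912948294472650644617192711059973909818081651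15167706300998255045849823563318883025558681181187765210397005488031756963886953817775498903352077977315101555572727843849695226087766577309178614897991503171755425383278075047327433022056060966200603182874954144091828171809591508691975771128147180963445384599545044932925053435425150047379912725678401635013692311911235029139522312096738163075772968484256861988280077594102016293195937973703880764806566347155724824821705305043055017389422675412534289260004197811088303713277169471659202698705366458834915790338032183881098787407321586738466697765934648964636540506175209036548232491362504676797494899559317171496503780554709133356222672149715177720294132934984294560087222995505959265509145056138589499438834196981195606554075748231943900922802196992716326363724206088431623545634621665356626765978422430213975677097730364044686351066770228383528398157504822367513680800429556465781566107888434600996397006004207001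45394434505697056454393656758182593947733009451544759298112208588372154939542814212425163173091463362398302411062781823608795044013476261761338653325635057606243427103290792080603161159259112570861403078388552694357578550458870858640047295732544690580075690927737488805028440618147382186687416520450200598731221683016647296125732213327056481967378599987882149672834440593978343328742486499203806283150735467151996081485838120483779742722848323855670912860074899460211969131993045678568270683558836403961086303973894570288231550850042424720734439792198732281317113874373433859211969943283738847511383419165947191373129760271228015440018716732764967169713071531013399333755538908743750040665172903764011152267673919312673005030008252415555611044914040225118868753329560578361962736775419955680665402100004161348914634485617383080393731981388817650265894441004410533215792961891833085553340981015125650664358434977985620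86332273177189316560891666488531019272986475295506629187877905519662508457027926981504747181222478276148154346541825348683682899624172912445051114607420383262593551340477844422205783605163386746583995982509026159547940137187934729318977270156116365591886345445486352970560118096131748437023362245501866578479823035622474095176160456961081152338780072340967364595922021908113744451166186074443686180980733667815009749616697687964105403682809178605840815824261455489130982913742150099135670945682196335240270796784322659181050587236908420281325538087647878504894413661825898066587139388706532064901393736210963996536713582065645254923730149217405687202322759318703031904465241261984899064144007860571055517455622891259838076859999872063658187449607476037973067459305293950086759458524136118940820964786460906478317253220735452908079449927958402536490523765975166225051706091362820951575655307883460831532356418582995625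3249002632455880900225242633232091827368379891351138782056327310513455803541196017197631900544298071404597713890893589780493805340493874704330800115017971529333884053021936247994620672129393484358870448781235736761701642318439467494685371405219044743600155644470113709969836544745333437108746426299990381327601305330727031085789325627625326886227183481389502783124534247566024901815779249446471869140672225782355140770951527132727257786786534980126265865579250623116173541291917887091656875229507379601707660042859350688390658128510656155733118735952134068170996968812675592595155732288489753173296113645015865163940479331627073841789305197344505206546194894125189093536811045719106475661058884221544330820473591607942000656330575609474045604051218814996506449875098292350681050209501731696832528380171084331267446961488349222987056065704851638555488554480501361001427654827472075208532064712134952000731556161230448602844709902979928290694962869361849428224472231017037645619698310808264558128900254548145482137675977689264638632103556514886695825544410765216071109969225067421259492188108986298033649643813814235652752503482245879336558853452585435110665280883725725071433095808565685990444748181924744873505486086265236863676800078011609120768)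

noncomputable def rc3 : Nat := (nat_lit 15092504482970041292089172640602450081495429268569837606212817959100435667948407608537023225362036553474857200668209422004712603310721506550513313278985468402971835753588820984049252880622305112185809825893403222163071052636168888459164559982296949291799719968804004411343441412480175001162257252334249117652241630352630732006062804716513754838732162989649714936956185727474617739424619763135500234096420884041576868710403608718168771203397648647988738776519747334027084251409560241011149853128205235164930128549127720039926786170837283733686562958088262570513714874329236181913291997738265790514938224856878870838148161892027264643951553984221847067086777580044620767031636385340650573911373136655767257402020847744927424405250082479957250459281995760694477202740174596924242205556255653837604207427572217291076656665671755413606257015212438350930099904919688091164588315394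41874696170237540941578823206396819212455137057570693895728442785141054553112741124255056902309856809893392552381544935471905372718623611369000588194840255100990099945010359787944648173092337156089438207470583467250590029321271894776300809768151598898562249164095991155875425529991453986722622847745178056080111516036127961821858849407930858137782169010961766273797296601669656704419700514347197614560842013906639983252244022523764079967868664020300673705847890411991595570715342364731672426153915840904769490603936113810989293704111958641366113866751862974714162608758738841761787726323365403713744855995521026447972330405610166240867905861324033962708432563188463179132586023957890635085893816248363921432467589910074567291046565744398065777919782059589496792406709817307885973295391138183337476094023380444218218664873491651234813050645841041769847329839781315807791734073327390747641830881116637559846346908468654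90920567017425277569932182993472631200246266205226010682895085033586881603402454212952784495163038025704963152178048185914469929779340949719793286718507753040314990511751922468628682337536679996122904537202910266152268409646559496048129357538713409867523333536719056851375224756113525112546550951313737537340630491082822164974840262646199394865658602539058997830874358419709195700518849251257395359974359776649896074803119724535937154544097306115168875958403311818651646779140833149567496926573058242935557553267529272814150520707922940033112415801901629771175875576705808590554420582704466892557930286336006695289525162075157553899285152383679617126774213619351616918402063757041821686137377218220245570918720127142083832944035866998105349787969189097100604533242056266208198185760566860895786965575316529123391517292025011626054209158057357330347798255099554686083523383598510331974891563177638500255696474243634168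28502104758047448520864832139452750404703538193225307725229917559237650841086241469976227503449497702597028524151324682502495525962469744403387148781215561452069076581426842733110763386455253944613726171441102812069526444008115888959936036473342889842094739393044938278327668662827114457865549778288561261732888225304032017567818327948442124020044361509029058448117576839308250204559258015077326743712426723007030669351827453140616615306396497325258994149223639825843982693063399793658416951868213502109600716813508410722743490215215115463608643441608555133458754842834252089587227225943780737811511394003935582859162862357061502903392526779616763954842765522151290766397484033885725236838120686258344109521603192410271729362814317646325524471428413437787209246999986078649378423646768791905379636287016697663727404190374346193473209343398813620947720583328064918809580683793037044605071057253040457236815540871954294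74479857777979884810459536527710752982864572465932208561330566834879591250282628396434394354322306353890001734263159520755218595545522976440329681090778783662317186473460955273524349043477944131785327323007188641400346374192204553877700710032082655200459210183837925096361106993867082577247232277140155704222941332360480182445803163730471580587016539802142631391312393618916791221284199843795809908434231798989529042801930075923600098917484293688394136511564667335545351130901664801833886671510614725018288029810539802539871177334553491508413765685535613395786053285166182919341157322243229961075037535557200747680095510526574955021934003697585569399767206777385269134053736266614655063079959989055254573937164971862657775806257493392656799469493333413842830128086610878938812962630222999560811630371139730782039343708386793341167052791626620625208257523402261795160897109328619501086194458120734413311139591743401656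74487447714781079724320203709647351590002361605661710048637355316462655805830347636760707005668602506438345758726926858909721505083321272867966705275056592784255465439527924366007623306601959567174595915221087671138444701497590855038538141666949725298027044465113928369688782978234429103223925926720510616101345855658051704687899203477661084821647864729980650223669816878376380023319275302164456063840720734359939904539200114252852479227933604563882131772981459736675254513977345448507143267986331615280492365403445694448942975881301543216260198159078749355530574538222264007398884070035433379362700886996298151575021317796327017735954802642776434724022700019508076939182784007542465441841955420496824508608487811992434767567147162200910969503572784149307742457593600888700130551444235025588153279016562159091438619088820578062056437377614539743237099931402881691310337187184273174110841468140165221844787942017867027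40981520361682481007945661338986350381869882708442416947414434734585066143161567334258154211658563417729450729376653789143459517151560789081018560151233672724346585699358738514346057937680058428244710972055739677900103550438775774606503221392348895963927249013933347697520834687930333679220028111512351428946452922913792476616528676216288399876686498651808078488263088752403323428441527760567809398171621416276530095919211188947227104273823547193770027056089168905007363016859653377356774467360209259157351818640349491841425739034929214539808754615033692386060223854347658905783100233452191334030702743091112465572771057275356103295663269122150432135916178763258425335013308540241688882394165036048276872309428973408266189820890379235828794774310567239210446028120753836236836691117625694970787517999189022555281304821280938811693389213109736440438255131125434100080376421820959731554736419746649227100995961580233129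30274349747929282912148703585990346522639480850180137520316529157836600779035591255310328077896624046714795370319001931623436618042546859968272169818648902828525921569417443264342583410137269136313923019490375022453906583467636726780629652236500531905967106791942550768859410414795579793245567305882302497067392956249002393363783741314251385169678803213989899928686163385399239174129768268601339897886730971693556753737913436862205283205884756418490049854666510897196849233705954845831130224819742614777643531015219952274505013250621860191784230744260935420952653076138029826207923046379877237673594783055198138715851411763455498969810844473595615726228549200849157629374688327465157191175887733705749943456838158585945208401190049701438856590920382444916142287338850250207401488752256407931598005299056026549493663612158221729300176405741550834592030000843478597036717362137690183903130213740191773809090324920423067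86049613662296239818733428109716975309914825824742693394720293193753421587465126896959745039184587957710077588039780846792153598806455287056132611943166263873767866023438001293877824856605356417423830185059701819340864357893740989697637869379316754481116919576615106001819537263934701926955201529424773619002169548020874371494320684674673105304332209905941179125462390350949574826842085724615248174184788782048891691874923357872421102164237986004589464906805855568386305289203969224475529877345072728531538078121198172254743200147876411948601355176314272882890907820650947668115881115488118195796842557271648966929930640887147492904008346429405479372783611465586022350075306842583518327457825767996612227248667244689228167088132670460032792197066541628084186791339033217779211180717617449368031229687610890600256230553319274597381767407397971357267766478236067701067462565111446601494247761535971430792727968669703397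30557290652763645513573755714808754608306488998012774296698877313551800807970810272851324641566711083971820783576487267820764601899295375222011732135835478446364097176260742956437470139055103681670183761691409610055479345676805114676822858384241863486955674253091537442154522453264040395120414518693342812662362527881383584018994413398390635672424500968609243060110500956808248269370083880119163611232676895076065165602653601619381656658550331690867084364809962481722333068498877774782632751058733618681558533256650252186014492224785263488014746323183005907715532394656421457148440148572286667946445972857855227722457779954098615622615057152197703603255164125414919884494354214709373102061960009594838086831880441743226069763816143461817940286686064747356158075501554613235285806715405429858586325735405625891118605504668502338719920305718762309138196892901154093232778502790173299894724661438782862051807747393231280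37319168306922311793697639907094518543770309064326881987698787108087567661737429405062637054234851118179208240973265960385567764999689042152921943532439612144896983350826029087602012910862536843329283626968401326556574061127805668394748051074912472206617948690607956606000911152962450483708492760378413913586487815507994513598213029367354285540465566194741747538806345492120020067825648808772842248559723548206895490498927448075514911016676437671153899143677074329218085349041948060131972936667683852554868936486663076404254252338400032802440306560699638911998874426816022892165756330231009718348708448696108535633376072029001170400828790750477878689776067399509276670956299349485887889949070998356121688920530897018682624901881233031106832388136677905687420906121793200571649071680174052519095009427529318267955420440978027488649391134549026560336435426883116271295600592528025852925445069166326579701496734171640404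78586726932664732332081081463605282925998996344797835292026514142796077733185370003782419033993706917465076650159024376912627023534712675591629979855501117107038329002576246303347749308683771180107205071172319917654989657963862516162491307740442243833671176300900445839504822602526392843858026972435293398093753967871251979731949119701037811736381542506524287083915775676979241534635436182709199045612202405138015078637373849254386084339533870809676455917694409953843008203046546520052898491655371716570245759392112377458847967173702589962435724966527531580986462444479152190652198229854205637792739021541211292884967340467051959941257400763813318312682240510988601539166420925960895442321190057075767429753544401878057859048433312058932204399262782240324202318893934118676748950561666809399853946845292320577654491869291819647745183495336562576134718522184924871342087326810704972584056897250925386447903227087744749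51658263597146833489609037249618269483007032706451680613281832320062522512576517642803811777871355216682403960202293722863243012943633948600740489650331243558342270211009120607591557612667892777649936133036918226602373159820083600101712620911394498545923898324628906810210396493778574427846999452052464555923644267850308200323071004944733285410948120381750098534409080747101954069541710306111908017822415733163810108930347005894326980910399723183654593443915850634869684483964085114014004369338112090125772782007922675163959240847678882988271887489142572172618166504499433794970351189958555738649183990108468616277768287060891176126328805773080014700892033077026091807339326990175421188004900990343916811971230294235674604662200479552018430639514300073746417098490338125792730940422611733159551124692556919733890079129529494920911222483894264777072499013246879300606515414814465203975664719255471899683038068151079770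78572440211782934548392563195106136398211682898462892562377859081029668076428714570236448346679147002836474040338110870627600861001421277085304103861095226655898174598089994488811155349315888624596710219332954793336239179845289303536760867895677810334772244115315261180086901283111777504597826243559803917025801715633752238284279641090709740767657768087758846547113786985752067795906462826538121778837241908945971798222774386478535470287988135302120547217322183593788718993613676845492469414934822607844381755814882754312446885494227722884044196886691409992603684175046950106585452181055514217973519332932124111854610815733811976644893495569525463157919854563972780382892524540759509830121478072978155816412088971172603715922652132570991977715467973207924181493640685848831599410613683007852693559155737683842814975441828467886720754914622695872075348534074396629676460817684432027605299325656320196508674644657070991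26227820690548791997134246320551727986995954608133210003326654134737716903280488031007383591520328754364691222059095218581221071136350160671335421608324009264031264576405185042536833984815351553626829055206896304097015633065221969546576294134807899393718266475101717906681920865001029339884191196026218920861449167394733411124747151386957406644505229352324168140149951095677344050365516255288083564598991748946179903990692221127924534276495176398271804709489352929753816525319771274879176237708345965259320730549486761651776613780761622192480243370406345354483268720816848711540121125164848435912036693148979845641695296188200116506952155812857735789212247857892506922537567408079016396171550218645367592241344803371687810093273844843760069943416102870274845340721689719330643583214184324932529998071529755428184470102335862626454412426966015682217333732764864028632626400857992915437324570856699016484412236585483348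7348834948015064334515162016315268162984994569579670536352402270003341464927829002796173067512534146587198015937886146799562664191809980076649584009515528585038441908244969371967410979015804410854288653308518757692104238224470385382311756388576911510824635154517824454317521369177413036152964133881201365980438810517000640609074574116843250482634126453330638714216215498481077014281774370110771599772277133461141808273369063873906570535464342506166940070679454006190004628634302245221789459175279155024253070821195957685143034351070817419254548340482565778823314628754069108602374074668451075564340122441529343499887497098662374991081835761801199972559010632989052799715006251039033423782259103499764696828786260373615395312001459869093662245314081484422885199292392824057501385909695169769012348698824136997638239138658178221606645574457248375890626257689339059916021893379137801070610897933088830882723131787188778866441576052318118417325163337805129301601317104856493221956670481968067342314017749100835629143644609768413734614432226732142283484151897872427129220997205332897681617977764188545068280555648879284292899534400393685875602196478323848392179290693739245227726168442343623596440068944975442785945978204275322955606682833913259229184)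

noncomputable def rc4 : Nat := (nat_lit 15186302959395982594962648028938977956253754800234944702741408091396100403995045596460903598272241686898702712350269983254199749253245323653252093526554938972125209159215729251055544778847007395019599571903116175200516669758375392199663986120794204231317020895398382727970183756018073372278511855521125969119130019617074327990833243473844202328651930835672707902589768256364933450069213878189134685456149945257535664271887302979491188621405584077598218742714225230394251501497020179103146406069360955617078739308297508176862305912954361173829434524999303386811802401675380207977725969241846272818862892127681691767986115733215138254273702890837004029615690463591457164755023711914404138893527734599754253938669004273686332284332282979772509575694924121369232780745144057873549946752343073219656451701013902709040824249223396851510642874134835827516681005228626826887743463402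66632932003720465818943326152762896168760554609731100995080799600222421166070077619684497543973758763614484522508369141139661746302423714162448752658754243970880740848184967829475146409222683236138564255907182389179342293417718716045715949628019468321855754608292755269325292995055105830193323880435818065485419914386908817387179163739652590058028889972773966095897172447751921008718072768805108635740405189538863319265431748161725342078001393559027623064527992816373356174181167842400588640061086495085747995450091650508094032124118602625823666306588579245152431728043728154802924165639111623951467721985382582998805184934346128146163475369768613351709666258198762711671143440055698673987125681480948597165392950572713205973864311477718824533340466556097146410663360098379539617916695925623748862301126552908337033921558891662243838564639414198127558769167047762800827869965090129970738607136240447768866527101342164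94700158552387293853344777138851868183838586961293044265750614408154471630831327675658284429054812041868775545098171982657672189370804735792260520345057175844765667624093335629109011303690069272186392856616373541898966790772633953054139689085766027391456654511049621128529623974777184473574177054194150095824518665910074310936801300754233438962586053645992398092575600436974849362116878461562534069793681020506197461065854475416746082026121436931365992039108019588204673798126778910948113434084591750505223401864981219599454536198588622075923556630015384730396672081602482568953028338875226966950788368725950739905278896074578684898109139163818740269710967853038296132231676804847225014014446590726712386245762465335110788205343586270382610126692674099992626394697552250943593890668332023355690589633523398673329071715916722356684758907990018002209165664367698921628065717495140778521655472874094261978219274781888281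82697205955216351810306063548483838787414064528854642574675906905724789476636812592567432975007602620750478239440233950576649038474143934784674018376140649290242518304597354084318882128935101508060786664060845031568837374582903694016306771623154745007312836997091968884600293245548201880427659467105513833245671683448213356137728247568115049802490668814932279590915398629034765800405080335785438355467032035992974612850690432825137915180264630722931726297100350085531951625942284856363604408700718227479701211048174121670337344058769233157038046033639370386784819689669944448362647426100967166324152424429970283826542344400576092355712191974495247097705595052009813175976742633463590784031192761802096945407065663392129367752586693514505372638305509860972058175564922439558865687046474842520599469256435037152113953526979311892117883357020877264606259537805634260244306906028137296357398016556705566526690881868790505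44861171618087859495074844353278825699931686684132974861261391770251419423697430305835858060214505144757587222750940395469433879072174852361943023322529210831232376739242279860498208510198532285822941287190608090626880923323259528544426438954338738037436537944253871880795841816687564410351451981169827355116486432405825931101335094249031590964361022732618441975031296429507110488984455001478823935295889344206135539050339801330278701841225908989741142230741979345610063149583284189368825397363911643756188404169699279789972322692581159434256949709425925461173912150087245642723041787820003779130593942244152344306631650447924153289890522299415177606158583871224581943039734523593949229685382724758936951644095415175736673100465017891327735245681436964425318686502836298314068285959560938572607769809515922018334279029056807058619073104762388392602119994635681319194291173989774481571896247165660789252388851573108032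14883163168056269329478364923077192176878241284492285738259758406242693015425841034699316778725872757066345510491705591121989795031200936609298133949265628043646271068508582034195575305952883142399643655014309389194566664619058498338878275019154915052751093218035915728540657145209214179511781619438491858633754651789216284087253552567999518810830535845107789103596493365183943238226040152981362945102545837185608628423574583078518499125044724044871172414019615725597666301522863985069546932616218724375715224437338972920007407078366799891089881240499393040497706266604925968266152813336406371516468875172642614356823007340354220378126436605308166665539676903627010930835591183979128615072551906822830660729699020694264200686589033764844480741245047175699129739231876474294361235829450689983687136196623244780831769484471106463508929732264825095675112951607881106626288888750251980680343100713712618937574407397059235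09606792462699178822381085098680211998728349335152400004709550186232989144842033153012203707515909423108115483378734292034116910444389757193909109094788905278086757960552652611397268707074867138054205966667952937056204525336912844161241062154022143133974419765912065968305039299895995945521377365516319595992537276549332337941141039214638172362714035461674694686628308721470267113685431577170432883535920555509098721613785920625328988794009197863099132258565597403303307010612105632095536733385184796076035812607127895600347644218090614458655186044802378724573511056998277825053034299861604081038516893014863938482864640564145160339670631201383091179502462107280143527714774196915547039517265430702023763505562592582363042209637122567636551114253873390725433574803296856494105073225334633689836527703350478912777178886723757349817173196372946717193177517813777509844565210974146943399330694186399926672010618144645870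68112302345236157638771927740858064407184267048568355463096971720764800032956144624857534633839757922616905245906352332113008141255618218672036286954590041762163009691131253038162833070804184334816846001743887221528149803626960117484889716785861463334786446007921317792104917241160138435658916419934547522714783074378894565713220546373924367350029518800431666928365517133154472298481374213759549182033658259439634272878954676916377547907163954470219111188860921478471816466552478561991772220522095463348542580845926370757119357933221344345536604197114274503186411712692525837453573381442822265689584946773172515745580192173715858005929910435094583388103880886823168790211099278794902932487861245471581657470877540424590892006566670499560547636556197489711196265529373509569332731929729199809782866739875532389841806624907894798158801710175122153177138364696109024524714720642472801574428142182845657178502482203890204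35023641002623058212588167110114454704872566820732920224766797807105185366590154103016554824569447879894694136678571123858333721204735356122939512668981830689565292836622758769122239674205057280877504380501125978974697979672348522053660517556820039216914407957508194302777962823210641286303185420308756406503805803202042684532293873171524282859564890057345256156058429882260200368410893084382447816709088238911771773936167301086490447525439020778002795917695370108711574336369365347523092459381810750365915206761247149273268245478446573348180866751082482733827804100634060793975557185587524730433378595835771971475051110134745045922693504397271419163779185121045548035907198103013843451266252302322428452159920858364752594449406912218835855410056718628936453045311775565237112969590986299386110400537544833030037148811614116353034346165835078732385667959137816970663822223410158418657526254171761285558225234120965740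54883763889422891710237977466399488331607469704621491506234226280368341864675810946022183241166980577406446628984489410438754137162430918594628559972713661771866002352080507167345485994381174068139335713558856516845527113636916582514896175641988067282907794520555471474828547411047099299527145315670388364345813875787982653127136345251371004712291971702895777080813385182638852860285499813355898772369861498442507202683349471618225859762005842359004881949974544434737283673551512662928715143637582279521800674856043993362880984229857564478953503094002921240734360331927619638135567654633186488377137543497567142864805853379125452240434097463952161562946710359021148378786970251290065106726491022841804085293139818247989279709440891862642349430208586335022277363906991194723960516490072117677490560221674628335907738912877082476485412258825459148956046882490486624109295820479766042340831515309488203063062326001677941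27178099364238830814275154930008787655854443905363138048677369814331579824825528145656616690042462785703489408755497891602603600347066018879599598897976427223245517889768742478356254414774679207327611092775146542391948706983107402907120219977255021992094365423590657728692711593983066787416308950976284565330361597153764292947151813152147374037192771615096830082471848606334014505274691645459065432091926972283207228542484350628602987017847340398475918370573115096911289240517440084104526296548272990178836605372448442550852349811028242933972233252312638699224572826180581342985381222250710019796956276895095946904652676123227280112923064607274329825337232712304175137955778658480118789128314976399685968256716551587474594640400101272372817885780446568401273876647843058662592992060306755795330752247586480253278310647981362790115402627404311038031647929834358286844736266622132505524550749618324451805118979549869191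84261626588871705144105344659756521067351048767154738027482895790294111259150429925523536792665216403949431154826315661090641600140486244292818110244535611325952547398648396996878104379685645333262849004298391309867558437700332982985681350460076857209617126497731287079817893915229632562290780853460899798747466714591548844598628170224317306261939223398400391117855520094538753241265149144419465020446377748803997592890408291207281681998380655229828089317958952292320573800349620736838593445201077874305327090389326830180332702701547459211908059558068045297884600041344604715264889043763778201854206227280275956646867462482945949946761619133206051770114080127101349631688493864464994872049399038300788436956178095716747048212484459092755673468652351554470160837966380442535332965331590751290547893246148480741251502287858904268603304446613475930211448544723584438040781216732485345129707266730556638290697036179927408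97453084560667856203772089506635895791447578027297155370244367727447145128240998680898620593464989308137269911034631553791199080927527314657560420851781747511433306023807225931491800105513674138456750141759707074459741509846814681937403262925256244256021669731704580320983273569167635190458283220934905646024993012322451224103858827010455701628405486134262076661545346468359731532823265747222804948083831592380651147676835272232374983939520805360699971832773408986205325611817184292477747499532295673859853326739262832933526891791335673345331562678608442674635427687272329408296211747432710567588653920488780677992655310185537236301470651618040723773822286674305973323710440357810002690738044263995129223790262332276942845045901233892676450796237572702750651487476897996072721983380446134095117857094777814278056353561409447989599045898939523933620422956416686385928144536545558043382691205688458273882655339502708883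39777007146850241788878661745485404285986984483170264369838708974785466681661330405785220710724800241242028922864771276825538146640523584362007484860399495598761519550036818130725515747945225657911157613638653398101204367008954149720047734401189446527438099569367109094471415814054548821005949034877510640450592416851568515844947930666540269494130134869114017463139302992678654277178129789729225653955622228342477022971551506030134231606805887879683743830954623391323528081012332513492693539202545400946290856746300974736551422034959598548207256319613669500939460366313217779390675101571188694421653299925184340192824628741668108907040337054778019347108395124380527077174542040395336532187927648962648933921018765803060908661889535689123071240128592887887577461824470089458054653105994056360908079170008909022828120490522210030419825086335703461404871077386756212513064330157042811756500512991491881494035188756160678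85025384548987767824306374646120476259712418290783899211835753641611710556950565550384987314778169515108984070129088163313636187074361468159986511727939435920177966862215104649629136727495954047724705273799234295850753550927463259471482387392654343299901562073493327781488805870230586690518906301331386253460238641747701712701088877996439244834688048844444872221213894894171451939747227552224937384574005068088672771722470861296311171730165232044505608978636657613864045789821919372271776190511030694053496192310139551644673498802315830973137976269351220329563927893503706115119819103020365566401740086370383321880460584205179660131248217090109194980256202893451069803064053521499387451478633561828932108430126361482433998114845836514003293683779314677729469501860232199597742702554470940268408461484166335854647604229997650011976197051674258663703826782626838598349744056433044193941814343622708489230472877114617974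0056248876690341000180430826413668077061296549043306769984001397234176165080420916728976156527580943318787975333147779161637367846656908893137693675086255276611531386186443180516081068998589145067022811752056279760645050179641453306746941786145641885907782210274711945610121526385012144598289314229654199170182438935937704238554965638603618947659266822800777092125825820226070083757942356247466545271836524377258034552215253644291529602188319106666105662080986091639385634861724353501940545668315885667963993259731366632733303826166369232550019351872049325776452225092356748719153436397250171885314128515073810856275361986637789023377222532617352680518116748864659478630956121221432058913657121522282381726971706200759245588446388606796035043723719782330800424182123456271322276298191509097008418160900180744549630993005962129504022685835399272187981292635533370301595499025797172965083154037992306233706418647375354315227730371854228136440492299087147540109605597847686761698466722283126573833638461213951727381644478569405574384262075562675579032719869262754057131970827887790004282673269820512412333020107802211954113558202016254369868350283106080287673076205976409655820061271299065829561307347161681894332564266970447949226393086411770167296)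

noncomputable def rc5 : Nat := (nat_lit 15278231662603870954952410181558875678318613062159087545065644645943474611811118422913857896554981689415986555763274955593632326746253687049426063501891816907321038754577931291385966083137061176296383226074516799794869320195122831491456374507595426753132886702079193660133857567351504287779667911297209268940937996229392470353150766350479260588239830551858018961055469116625830455300402724922974909759841904123656926878095458679425432150789693584266412552713471431553457444202433992747020400346127154235535828458326244093618069872996811885855868938432151446417657918888756889920989128105690489399433163488132712480822994225949075958780181633462990177371009493762548426044445972038311138793162310818873657585214259381658476472931168180380134182119745926346158067574938349827665076165311732994097492978493802433488635452041536444005137310654205578351561534366438459229309151810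94292993833609123710995621062603753209547409426291981453568030863544687480803797146288525223085097594105522188589663515052589175622029805024801917627850630763078639763170898816958015680653935126396599294675704409473024393086320179212545707744140563625417715038157296642300472838996973432260043837148900249274592971960253108501883974245280995854596893959774431645661636512831841435377996191502532946972822072969657673710789703354034733754583536071958031024131198765230420422122784348323617372960730605878574102165556074490161381077412949928926253033899680440193537759298474158205319405997635964948547486725066962326481319880816234714955327564648160300027772746919550362605027135004434938935401682795641024570872247954228131511381315424061446217463887192840061635619534547888820660927434409485773219239361064360749870364178469882976340862419603415309910915643013995764195580490504448785500821715976189085074845495326135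05952730088356611020638488913412154248114999610112087474559237470835577709419801563251291519893739554485938154933422519787342830627033774910187435355888879676744431594940257047881464718626049204967462395883925777310297029822071872337034222321684076718619314484651930418846752571693276967087483003808489587369829742588229545326357266774909467573310083671582357970236497975489968825549646010435935778575731758109502815477511251777401945954361036666936959823036531163968533094330889330831879826865313253379620562170222660571384274736488377535008575733698415352363192922262864752442553129675452324116282905768141770024634840191180641540893532995972678299282530904812785966208116940801738358574991837658892289996949276905489330220061156008343827730519557572204278455282514807595123115933696709226005925438866220725421297344086307467037967005650156352404249227453807679251343983665304495568457490205195309254119938440230226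00371146918411301832062152769602492652923108964782943183276615263328429074311858248543443686928019783407303077006891611520719104735328451685644015417440677392687871084275928686699945529458711379603096900906877908934132793521167673633631288000977308654129422369666032911403533330386284199927279044888124691599993287266172640717564891616203015471264818401081752842837961338939102676327915171021363494362374511379985426106005220132633800665237680842994554139537925503511045695371038396336658261276481957912490460611414705914447058637662971839413858123582862173252741757092021718930528129616506987923940719618937692274340330797308059488529808261543956821239180441008001726661513469692757172748575435226786934683299680022766893835577926841833297188663897666804230001915229610949603830399739815096552838125790323536526327499846272205653342852954026721732520734793471155882398281819634649630741075396490243732024504927459859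63052030518311213210821858877117251542544205587433875102585459809880509807988705184380596928751127974354843583744187344609337572593796472107654144289754837312163156458209630764600242079338257825890341401262912161087621466200760200529702983793043462457289386566777594407234073670018398373844990589562259229630479961302216905629448559839593168036331357067884375556209926397258090618056347511920239936220187756098615816821897146130400553397929171885168801323384818595015778081367413577198891320551738290939380265273173579102287607267356623722054479426046994685956166321200412249121779872600927448099579316144399008353756540011909482273043494796768186690926105259841685374406657011668928348026190786561457693112976860626287911767605035736545505330733826526173031211870257466203282241591875080211953453670728635840109091952042379914985261009752240044038860452415300330331770875000121797864640909887130835846944151227860685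40353052539859859425174240358353918678541919166261898990440280636357257903937181300803095368539853403899063944086912914755385874208425484405461798276818225616690942248790708863297820178347664362793816037912617675609570157263214732655148792747264095624887085577494614818252994732027384111591509023813352187712353742738941019676458737682600276483163638701794841749425237097360685629087734340260782165511670333636416319769570953540145123063018920337709751083300514856178058079718081059040093767539038130321274693433999320045575766898124784355514305259351534752643498807570664633670294201841587850585476025179318355367536702344463321777367663711320210412349024156198873585026058623638822227371067035015681114811807523606061177406756018462830047300226745930440031524415383389226443249551561562746238437293621245150927925984645110009014572795524269300427031603297704246423811683199639699532569371753250213805671277552305978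97281245004807005721328137216996879440858139098852361022881767407770794140621691916470091246595406987445169463014274444395826870375149836123576587556505301322514247690221966266316614841371288527326965462734330750515174882882867831170281126945797977890330241548018876576666554932634892113481102987887599835013923929596695529076309063170408077563080621115916528002071703978992696510515192531213532187588241348500149277149899715119132719503932519794719542853822203503033139228567870188479595810681552819457588238525506116650037661744117630486829534880708342276456138202255968575771591382972845632804943684384060175889091329241623280979856444661011324177277285154537087857594927794472579954774211345087116538413437900285599404367690991439834377992463558366630371165242691167966855738841076616201185995481490010297602566465100045108068770754410739109251544168116755341819642669679388815529902719500450757010261708964710065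07588490619275497065682785025717274786405878750593313523442510930682664880014698121735870892324907804584087074345465056587533522158421979217040878839632045251405669548221286374664066334840827462595966938757481169519228902356095956523186964708469536996126612452580302370824831064749288463856396748365176543599035345418426387061652775503979681866289301439850406850048266922530000941228903018341641975240372255665680743356570104068787223451894763946686147923035822504508887300926101985998361352288270425675582767361369878233484194299127018829477782452800760782810278441946112262741334484308297824041376512063993885254636348512535498117930048031474127396737378392071035792928441487327816833237951167969631790343962213412691091202646833531752311992354729573237510252055712004267365001885782991862272094482571825811271975375499404226795433712547258460929829571025303539173459451851057897372945737336086501907397824679364431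71714504435818409096531552894239381454089189643372683897376503913845891965511579375753413136789123626563818308961869759684486941065293058122932469112232774876700887015436257646409491534415668875775344420556641338097421940145989971271487882450367985771915230291433130051754149383306284400466049611505178901248250534189458936509407373108335333245625630075709803800069973827336143039740432779010566829136979213409785130409424804792124464204384124254625886884703665630569225249905765762725941868708331507759248230229183675064793781775248277396732097024648195988395769971482668046694169227853748194948917804378530186574442275269403868181903901194167953629630123940239026765320240461279003433589805213251194554122226887498747429911002915891763028783809034800785923005985172394176209289997542334914847343387997967768315110781605716679766999553837632230323407417807876949483926247155423713426263027151559199672799853213770379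38738007839519885195011586182044857998566854196241250477717109490441433599971001535309777504391059590748117365519492014458911705067817886937439546599249702771441557026191785267764279923008208018138772879474209430594499033629605000980044428585205082757488013356897212648283441344754050115480879966217040705647469431197072206192670504820755405761056093312230284422676449192133319996858039912828418809699270422540611800194785428731849900858478641637920788476333092855546345777993856980264422369654184046306295195123668523290594817980784739174735896472095662758441994229872174459733410454742415490667379696569193138884022988508563608825005436810044638714563898519087044402312150275482851195702937334558319417356602040514434859595650899115414571711863747109320731941840442324382025761256863660372304418779654553716080607941511581363614867777938653500204354530872056316918994550347484599306814252653288268561184689460581492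51915964278097872821566275068562853885471476889280137520389100420391279579026428056043959694676625087637442368318554984972076534355901993836155030811222020481358471252948628628733194920540542214022099947676152324885702103036575263544104693224043425127252881057433855933476590382443825166088416132332772467142736465097250980247183365332297520626228299400529170184722858975593031595772076406756121567588410923492634593321902396470251449733738641205428482826118304967448242652400670803155587036152263822391495830161398182741802080120627948754175272671909702929768977863076453831759450326686714479900217061602216882136949217371120067736432666211706589259445218279941824581317708286087110614003433182552194313922975954248747731452519689624764592400158736757011792757176448065515857412828796268350452916025563180512236717901282451423646209024749673399645247757213048149391076537960199172936270004424603339633581082519169976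28447876849052584020142151057354613461862218082258680003547252576488845746064033564854035410650883652535862444659007586814178785361481769442749749557405680381085283924959687187299454041958133670415489547741146919686382373536892877178685943655563655715665053401595731211820670441437807286884113193185677054561572286402009452831214548638307557935640779809228891825762212985543572432433756826927203498926782304144530984037663678999368792246040272786838364377886956897883783571536784672212139971702641604720830820045446253394967058986038614954223601493490696125276251370135474612048621225538001087705138579551891584544816306941828495635556244203584127001061671579729485087643630263617920637239944130897129372924776182868979145842377639528613122211856663053984324133455890280247741189417577393523563221432453286284026613601467424475968706883288603524028823771114392155776076575758451978983467362052124980386811096357585824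83160346828339404784690727856427894620814062166729859638439961023325046569925330859485358557829320588711610715614133989461935632127984864344417449279397750971554859997557855812672507492029873600857607060986813984878725941016503358573586351992976015485294587120664076989686422711475178485237535003928871627495222549932457727067015843836365902750699959265817178406985881271042698777160843586031563038559026241388262416322986218076559935181380956273709431524448447781859743408366045325027737767830069439275772023124088488230238743231839001769773227669186933459612272530539334284036781494196892249301204101945059565922737380782052125046308620425423209739608051844218975355578476964630049378164390933218405348194845528718572550401914752819120206188158352473113194274334030300928214765464497181281148406589058950505168743153095175307353747983546995658606681776691373352414461820989984817514589288512290483572137148461889450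21100140171449000282689824412933010486327970342634441726656725359822450235516012734996146202235938840406312209845094353940947618735695295083745829504094513218781345629171930693701913147864899880425569201555176802057627144557577215291500029103051093239499971814498356692219216424542422978825396035501522536003775145670363135373526027308889842494498515745426328246130919980911568962193864720330806030940241840469225668629924009159961998767124042396408773862063357689283124657804669672035816702726055192550668128883286641821098423909815967440440046717922697566440045069002630624439819695860736836833645624194700552527400081648848881076277615759278263267191476978171988488336031758560008897891020089942634174990702397694995840541826848789437987642920782014568287847816189370342233665667731946565756332488641646329605038221232784990034033276099572848928274082868272260799222480943653696787659902129678774102852319328210590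56416787586743034660069888782531775861791881899566334809827881881160784171502702642740788468845673285519497551157187237037007524378736653140918520241989192455789876654809958867243885884247578579949767866713327295681419343292628075883564883139095254784157526055090821046007619492934751346459913554293446739535857899945253419242362537156494715672024673374751182076540392467806410018701738815979290328002054658444537234474599495753684758614729189060732689913962579667927060907648289794862741325025758456714827132347024242519266484540306852950210371136004421466417809499645161176394390668819883169284710199919263789014020375500948194680714274455057514769387055631085367066624862159409689179120586434026866352834337143532360434015317971050078877882812057234594442974803249001736826731532807515568898952097840083011329033938639142451238939934465923498888906866137382030674760971092738245076459088747693205783744172442286646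4578748954254424007675354934504116373746539377781622690329470993796434454515129703470873906090284555696905238213549609492569436094313818968401687490062451031320338183655609059821475905047855121819029723597540630172545523311891328774460500394985065576696303997289074259279571682759367675463264512949379661222464690011311454652825192914172516171730421015392078945057894529894210558754560248660163147928145557517530107391907504211138942221740809302034015563435616868027522952334965108880969846302748251803176367732874136113002632614259597676613152570717847628080385861679009758472014100805819456547497192788803708070730616074848794152203881218569026374683618067003075256485058905182348024014413261303637340923750300127476828705239513858638272083979563077337411363191942529506342653947964145307059594743713828860865512582647252740156416344826566045685049412454440644848149770281052683181315659050502867771116956816019635354260801621501212732486206626189786999431006809391091146123271497262361876389334137745437780213673861078607428506408978482836459049493831803904167427154268502351627802563811251517095094318123963627261324203248857215763074083954328869329629317326325868389110307685615572258955281179125816350634980889522920640298470112305495408640)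

noncomputable def rc6 : Nat := (nat_lit 15323491886795296449480272428584796857036524743966827555602606113512626463077189839473460189501371972933619396902432199713367664001440598638831656751530419107402076737043501110102565607993820963221336960485339290952359372966987577630469643261897572786176745934585805993854741634987569316830208258063657937353958294151913454973007614139529621637055900966095804326025435816138057434452011551330198532035444771506870223134263044240418929249510665786766626842418696331451742062321836080803940525331272925339416828616404257485865640774161470105555439050878400363706410503236106820771375765773143673333884552808714195993663987031817081835070492057146075727017725777666517973054004167292848366779875906051551935753094041779330684186465276707444893269974430946795160786816739667777643403826559851340607012429868549931819550283059547621296055623933902464422148379240831819004282931218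68627529650871451931772675190916302871218496510740678556174166132027158580417373135959581435994081214391636003989023356379980160643262202196192556698743762748356882481181347464817825327206179235066790734896141103422672866812500098931869813210304930325028722823097456726574776544360114877821097641839366975132175427229769355947419348321646934708736624996251921223211649400950487281915274751744023444470687499997945594747928916712190295374471984504183304997755074182622121246856569120502797422881227114185276406938337475019670299838277135365883541110492464038003215521930274258292569151047664392449465415652201678395399478098780299878541561823884460554742366237623434997619390426327459562910694249039117127435805767351934932062205845923820127609641022981217997084477299182265131099675442517353674160134939941243919611769156118246233852803590789944094173080026291646281403528876594264304915982988450046402828468960542000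59336753198570743945361506185958484543449956107537867460043023887861796747783961031083236726170540281191599832215427992169424241414363326672710450807101750027192198768313280759477989567927383148164658604145805516008532803773333119321875942599868811121343781867399777984938243569435600878514341836348166064623727936049126336869840470776745779398494918224668166387570543330439220764918695220014879360795374224000827449713565188569416197233382600016371899795791337399864605921276895199527145910568144787938825650351716113470454482023106803231492575749336605061667752307517953559209358451237612776295142546554407013949238321412296601383473146989753630392747924419300878906615402499391290266200620637084571692591478927965362964746610366907598513703889189408570384511070745067295560200097234006793729576941478746611465363320946086259670325168804078831095441067244025564094812433648431058595056003503232074537606221595814298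52069564058825216829463141444489558845491075997766301138281006261225737858919269610051346596020882575747809174145304169816548316372069177237256316612082830121772487981292675274029918747569655538265402442646779656587761723510689862251827083383846520032498848295185493087759472986301394725917952730494434555957824632521132111115690594899012866204863230770430295888823464683449864221904567434237907235825893596034004305608794394525826451633328974633640919849339525344175731144251558420564358231841443361513591586522113331520558389813144171311500934847614162651436107864518230187132595089791249860657564293603968805654333630878532338962226647017156012994740348313309139324480433798110618328328234245230906698877532280886518578997101504136870843551199444644306105226625936629453871993810581043952283654131519150417038945350504299106799200481073672575403509629253006418223239997955714464156651389563249499748321684223192278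45541961590788724638680831437957098399833419833106582254497728625093790443674848140106399098042803599826821341849044615019587804502481513214315186792123841918837767793849145731275777331737131550907394876043810713637044775414003721227794770269903561788408037287458909339139497053538976564789328233284847357990960559711850694586667699952215094776965370364293120894667746927908323275548995667246725884350359504902092573811273787846180956635208177416874957563547720102741245801005663671627183205546295213657776848801748365730769481485690830082402038721951677119738562780382673073075592953274717975408347138979650685226670758997226206633727608330524624667452883254774030140498947880064486439971529433269322414943955629091251949661480643474131549244355503944156103020182707097675247704742840426794645210776158813312491427351339818357701762220146044604860060288474011247064059707808379612864356517127038245442895930703429068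33348893121370319785755556858151942156308368929579499557497579105368480219174474494513683546478116080995899421916036681229121180662880834949920393819153676216046573560596093950126524316206614589720763989608285260927574027810158653275131460445980743313122021691264961929000252983098463186400397820541234489734990654249487003402973086235039731353123586635333078809178089863463826764270895389370836957666289620916358203333998567124739347824012930782041336832116918323033826874849151790901566979404401901181216360005069746612902917525379054840535767846073460351933448048330342580944875339357346823130260602959527190944182387834431141518794931381550042578912925639589218966275182302656250608822531813012924195626204060511637911199064160273012601685888540296824093624186217223883664940501298339755911777527027040599923271362318907640424744798234289440851089062370191359616419673927139461245223694385767826159015450236893759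05507219753403364485356754327159112910055534433949871105597402699518833529806786104282219489065126958786587027225575905482822499191220535291154374159611559812610841353355277864699217737385099926674614080430105904825449365953513927271366403578399652016882758965505442239017736098260603691753385958880502012870047446186001339867710155710177626991674218146503877435181999067920429468515042306361281550469532929000237798963107334289236397402631524425722119529419452656051130488583901737419800247242309440861873261842878649297812641983833964556798922592329438850028583361777596768712497337261999269964499961033499010885609401171390944372564123957934647907964053792887231281953149650969538564783248322850213851493595847617516908167101762037341385005106881671397994430722714233952685691733471536889546481940632303816393578725905435125803145688182463350083190946367407555619085490345512676529548815749089600303220174826278715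16083806125480629850274003280579419753847252177668298173779375982442673746152766878248629679763137712538042664792353719229689137778279227054802044214287988489257782301452451637855620211824703562245188316390589241313116039102853821343391534399008146461783334191728200000421454000447971345112226478563635213838131666213849492514440253050047267372656092896809249758561771976949642134323983696091891097081098663738430961165047929996472264118659348140663592865364745118260996795331637708022731518284312032483195711114947177199150143248247388549164364391884956353383225970874985859347077104419516334729030184536032743948130122549203413624097468859303539798744869300516431111331381388487305131820910621176357847879353681980403280245415350215855044577836120702369607387089641003833540960079664122813874340854551685725709910429725882245720797173379878925589727304436098150157564679671417299694087087298591252293430988641068009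10794155514714241751974404908734490697721845797714023187233687724528047816058891249316028043497983343682305689973402803248896105323323186708059838335201650773904212394081054888246114539070557258306329724337529791033868754472256941263037064008336678155202068504702709842637598102177506094029603048045629491515744763352763741331651824620370135008632931193782418444612493783125812870919892295400883920568273679277070391163724490609939991175094380420163426335094020565159630494449627050428336294820956392429030398055160285107081119735465283607747267674442522336488871496402463367112616554511696953923915185182075854501767290610451944355818968421913173375368550838940611069657021909409627549745326747994355018233486918256194345496711494643318343960130094186725791639709006863559530255842959100853775102473385842429834840235132967080409916793555579925486878937154901979644487824716139323834358653122677941727166463442426420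14680120445185306008494142703367190739906098972307203647346906848217828192369536203654606195317732067805685155312605157725565006681952006554876854652828984005959540805863743426286120652416480755874067703284548953250590251021461227195660370270911863809075227457620111775419063972585599893611639071345111430215010821072085948992743637959940885909379505147718188090268760873537956796749217774398836095967913388600003701594672617687634174642441307103937271712916237032372000477905221846374592837367744226676847708713420292295086838146831845852144957390118033893526456627418122828734645924550698821949634119845685414790103989412094250607859419691610260151478897007125341890744804464116812095200957846225482580691839189284897923680286940462423739284492419812381707482230797754245268110671751959949105049822446479641809689504221655621969975861136908918178984166744149280906959141005297437434515587002875588670053099834975945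49999775453323954190481080293894848013237722762927627939833023871978806052957827453190385360217810447392194547746690474538164254570642989684742297680668764876027937598448761615814101861499945640016683844603994552203217038823190744610236307811562697017062344839632043643287533224861883093997036099234436768800767691103689851419273268840632053777584320588391139027615619683171955731363705434592345125562454603167736112480086452961532550200439970906581217091920117384180730642922017686446128442155095482467190091754971169155317536715676034945060700067803399707158140079558441092945076015303715814430514594620570509019961626763032034973828774165531237385105742797954078773625690617577626201615073803724609540056561448329865694297455964538264470785336913477810777767298968562623486838723006605006085538317349296297372537793205272731691063290686304931634263049134805035667412344239830287409264739813486036855138988075736256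97205047791096229370114086283814392449674947520573546603313912549787687273982692893786683318299822572830218472468594834981371803101801072073539488798195606845066266952328200660703348211780140345933002742040097925964746309617445322604079239520359663196515559434666687925779235384171675199540368196362475160068551109060894978409471793879944334496624501207641783927040844539907508868060750460560947880340007895391772863183062239292329682797104351254066687122096009127296401174556065623476731026644655505258753781265156834279424649621870983367866774778094651341011018649340550282565684818756735760818323208805332069819230751833703660657643684934547697196680530808593139994763324370857681712752997007461010990602865599488709217427914506653849127094600585215821845732870773795987655896937012763485364865649227759094705713956985760673301259559154195929166834239412357839314788493373630363162767119228634933563816909602420603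09306677842360975947363122058255698362797730901964426011454144473022035672149839820222136891964772881974857993490439299153913057331007444069277571651642836615041052371550922330050701071084829858618654512319786915879737192103996298455960273139521067508929940832418726443249211246581779369955858604558961660603713397244132777767427903201277441609983136565075808853043468249160130791905315596843970001569208340932103530148705635936488425809240124332722198208493165491445727577299819683369730936950125554907937717962073605552854365695685654028846298718763112886922952203854097577696909965409790372957763872885299856401980033681272063895377961378998382289127133691456946119725034541723819806790462800235125396930928038183589512978624923146730488199788405943447828178565037873934022176591394450446601048401116961263781157414387361430978375786128564328304278145406165027013071448179620891070833636004261372668395955245067905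16906901974594055781843104881149524796577559100791040232869171419267134466280120970399193330597101060943569426178075380530904202133234684394488876629495745324381622420929453146623247805519553862583155651425764138972031143129731052721413350001378722275176436537852513059216933964865029269378815823211872427377393453296614573133659138951066159530680612352562790868213849670035962286089873524159763850758557220387945549201369216711739747149321953911335958960836092043813699868025264314596098653646325469147800578337095974633076116250229530429437911601396185639570458383736195459336430916979818951313970068894918775063768335799572473866270378659146957242674658919676604963548765533810809669774178067073059841252092453085551584534274531211271723120891847712800546367868824146304922248541747992915963849833487099098553469672995994785434466388491885637913217521897017584174972035871114549186720454492904789178529037893877462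26727196897063632526162276487312852802534568870345059823733764515350948773660558489359230907665402430020454131891500376982177118091770801366809444831512493730861000982630865575269122894357286204526239295527256859455074822681323572332171844736932870911434314759659073895438806417470387394580557309586139427765807101967393610958277248142586687431592375843622213247223142402073077706126196013079259927345330674879071108313029453203727686927114367928506028321294580717746506556045519922526969372887528350458401484012007496165232930399025699127612972458642514165578322179141655762114194129745669808064585260673901492799088577666950114492765037767575535306156518639071408048008940443649757517121243700446233015693677381732709961055269723624816144409151470161544198537033536587149019183001023037005819645438924573495652337073572346420846658463914280369277624941733858093393311990189907166685908474824173154039498587736982936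4767369187613408438009038954278707576873751253101866416798454607686770930087861598271165703861031175498017553448075463194076774429201578419884730707075040385939211410156851433816422220763916342818747941700328830455934013571550557485395496180328046761820803582193228443758901140466235104427683332681433135216668617873738885949520925331588870192329018865286698498739995500427108449646328267136880645694115485073917109690803164192794118842911304295163330075372275981189481639281842483001828851317602878615586898073120991570627299670015078024555639961216801148245766294928223112556546514111295836859961093680536756313899353458960125256898367268826245957040288124207181808291615386911032801746790482673202683130877608083668298830394350314476334216438882208004770395360605276283487871859285583496982126993650171736214438110102010556725833737704698068971509619628457603318447371802405499856430830177068605031741723407943295660703787357674622658009023558529478115986248572408332056942464392841381896962747998430607842459945857324367095095491231581248255049633819850722410014200692738106052376564434439738507114404062912949002151846116050902835081443792883585427128444164691607213149971957174816631066094550166255974070996083621761769396201629929193865216)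

end Vale.Agent.Lib.P154.PChain.BK.S8
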